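import Vale.Agent.Lib.P154.PChain.BN.R7_0

set_option linter.all false

namespace Vale.Agent.Lib.P154.PChain.BN.S8

open Vale.Agent.Lib.P154.Chain

noncomputable def pc0 : PT := (PT.nd (nat_lit 6369246) (PT.nd (nat_lit 6072768) (PT.nd (nat_lit 5894850) (PT.nd (nat_lit 5776134) (PT.nd (nat_lit 5183022) (PT.nd (nat_lit 5182944) PT.nil (PT.lf (nat_lit 76) (nat_lit 6) (nat_lit 1) (nat_lit 3) (nat_lit 241) (nat_lit 87) (nat_lit 242))) (PT.nd (nat_lit 59280) (PT.lf (nat_lit 76) (nat_lit 6) (nat_lit 1) (nat_lit 1) (nat_lit 242) (nat_lit 87) (nat_lit 241)) (PT.lf (nat_lit 152) (nat_lit 3) (nat_lit 2) (nat_lit 1) (nat_lit 241) (nat_lit 88) (nat_lit 241)))) (PT.nd (nat_lit 59358) (PT.nd (nat_lit 78) (PT.lf (nat_lit 228) (nat_lit 6) (nat_lit 3) (nat_lit 3) (nat_lit 236) (nat_lit 97) (nat_lit 237)) (PT.lf (nat_lit 228) (nat_lit 6) (nat_lit 3) (nat_lit 1) (nat_lit 237) (nat_lit 97) (nat_lit 236))) (PT.nd (nat_lit 59280) (PT.lf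 (nat_lit 380) (nat_lit 3) (nat_lit 5) (nat_lit 1) (nat_lit 236) (nat_lit 98) (nat_lit 236)) (PT.lf (nat_lit 456) (nat_lit 6) (nat_lit 6) (nat_lit 3) (nat_lit 235) (nat_lit 99) (nat_lit 236))))) (PT.nd (nat_lit 59358) (PT.nd (nat_lit 59202) (PT.lf (nat_lit 456) (nat_lit 6) (nat_lit 6) (nat_lit 1) (nat_lit 236) (nat_lit 99) (nat_lit 235)) (PT.nd (nat_lit 78) (PT.lf (nat_lit 532) (nat_lit 6) (nat_lit 7) (nat_lit 3) (nat_lit 234) (nat_lit 100) (nat_lit 236)) (PT.lf (nat_lit 608) (nat_lit 3) (nat_lit 8) (nat_lit 1) (nat_lit 235) (nat_lit 100) (nat_lit 235)))) (PT.nd (nat_lit 59280) (PT.nd (nat_lit 59202) (PT.lf (nat_lit 532) (nat_lit 6) (nat_lit 7) (nat_lit 1) (nat_lit 236) (nat_lit 100) (nat_lit 234)) (PT.lf (nat_lit 684) (nat_lit 6) (nat_lit 9) (nat_lit 3) (nat_lit 234) (nat_lit 101) (nat_lit 235))) (PT.nd (nat_lit 59202) (PT.lf (nat_lit 684) (nat_lit 6) (nat_lit 9) (nat_lit 1) (nat_lit 235) (nat_lit 101) (nat_lit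 234)) (PT.lf (nat_lit 760) (nat_lit 6) (nat_lit 10) (nat_lit 3) (nat_lit 233) (nat_lit 102) (nat_lit 235)))))) (PT.nd (nat_lit 177840) (PT.nd (nat_lit 59358) (PT.nd (nat_lit 78) (PT.lf (nat_lit 836) (nat_lit 3) (nat_lit 11) (nat_lit 1) (nat_lit 234) (nat_lit 102) (nat_lit 234)) (PT.nd (nat_lit 59202) (PT.lf (nat_lit 760) (nat_lit 6) (nat_lit 10) (nat_lit 1) (nat_lit 235) (nat_lit 102) (nat_lit 233)) (PT.lf (nat_lit 988) (nat_lit 6) (nat_lit 13) (nat_lit 3) (nat_lit 233) (nat_lit 103) (nat_lit 234)))) (PT.nd (nat_lit 59280) (PT.nd (nat_lit 59202) (PT.lf (nat_lit 988) (nat_lit 6) (nat_lit 13) (nat_lit 1) (nat_lit 234) (nat_lit 103) (nat_lit 233)) (PT.lf (nat_lit 1064) (nat_lit 6) (nat_lit 14) (nat_lit 3) (nat_lit 232) (nat_lit 104) (nat_lit 234))) (PT.nd (nat_lit 78) (PT.lf (nat_lit 1140) (nat_lit 3) (nat_lit 15) (nat_lit 1) (nat_lit 233) (nat_lit 104) (nat_lit 233)) (PT.lf (nat_lit 1064) (nat_lit 6) (nat_lit 14)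 (nat_lit 1) (nat_lit 234) (nat_lit 104) (nat_lit 232))))) (PT.nd (nat_lit 234) (PT.nd (nat_lit 78) (PT.lf (nat_lit 1216) (nat_lit 6) (nat_lit 16) (nat_lit 3) (nat_lit 231) (nat_lit 105) (nat_lit 234)) (PT.nd (nat_lit 78) (PT.lf (nat_lit 1292) (nat_lit 6) (nat_lit 17) (nat_lit 3) (nat_lit 232) (nat_lit 105) (nat_lit 233)) (PT.lf (nat_lit 1292) (nat_lit 6) (nat_lit 17) (nat_lit 1) (nat_lit 233) (nat_lit 105) (nat_lit 232)))) (PT.nd (nat_lit 59202) (PT.nd (nat_lit 59124) (PT.lf (nat_lit 1216) (nat_lit 6) (nat_lit 16) (nat_lit 1) (nat_lit 234) (nat_lit 105) (nat_lit 231)) (PT.lf (nat_lit 1368) (nat_lit 6) (nat_lit 18) (nat_lit 3) (nat_lit 231) (nat_lit 106) (nat_lit 233))) (PT.nd (nat_lit 78) (PT.lf (nat_lit 1444) (nat_lit 3) (nat_lit 19) (nat_lit 1) (nat_lit 232) (nat_lit 106) (nat_lit 232)) (PT.lf (nat_lit 1368) (nat_lit 6) (nat_lit 18) (nat_lit 1) (nat_lit 233) (nat_lit 106) (nat_lit 231))))))) (PT.nd (nat_lit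 237276) (PT.nd (nat_lit 118638) (PT.nd (nat_lit 234) (PT.nd (nat_lit 78) (PT.lf (nat_lit 1520) (nat_lit 6) (nat_lit 20) (nat_lit 3) (nat_lit 230) (nat_lit 107) (nat_lit 233)) (PT.nd (nat_lit 78) (PT.lf (nat_lit 1596) (nat_lit 6) (nat_lit 21) (nat_lit 3) (nat_lit 231) (nat_lit 107) (nat_lit 232)) (PT.lf (nat_lit 1596) (nat_lit 6) (nat_lit 21) (nat_lit 1) (nat_lit 232) (nat_lit 107) (nat_lit 231)))) (PT.nd (nat_lit 59202) (PT.nd (nat_lit 59124) (PT.lf (nat_lit 1520) (nat_lit 6) (nat_lit 20) (nat_lit 1) (nat_lit 233) (nat_lit 107) (nat_lit 230)) (PT.lf (nat_lit 1672) (nat_lit 6) (nat_lit 22) (nat_lit 3) (nat_lit 230) (nat_lit 108) (nat_lit 232))) (PT.nd (nat_lit 78) (PT.lf (nat_lit 1748) (nat_lit 3) (nat_lit 23) (nat_lit 1) (nat_lit 231) (nat_lit 108) (nat_lit 231)) (PT.lf (nat_lit 1672) (nat_lit 6) (nat_lit 22) (nat_lit 1) (nat_lit 232) (nat_lit 108) (nat_lit 230))))) (PT.nd (nat_lit 234) (PT.nd (nat_lit 78) (PT.lf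 (nat_lit 1824) (nat_lit 6) (nat_lit 24) (nat_lit 3) (nat_lit 229) (nat_lit 109) (nat_lit 232)) (PT.nd (nat_lit 78) (PT.lf (nat_lit 1900) (nat_lit 6) (nat_lit 25) (nat_lit 3) (nat_lit 230) (nat_lit 109) (nat_lit 231)) (PT.lf (nat_lit 1900) (nat_lit 6) (nat_lit 25) (nat_lit 1) (nat_lit 231) (nat_lit 109) (nat_lit 230)))) (PT.nd (nat_lit 59202) (PT.nd (nat_lit 59124) (PT.lf (nat_lit 1824) (nat_lit 6) (nat_lit 24) (nat_lit 1) (nat_lit 232) (nat_lit 109) (nat_lit 229)) (PT.lf (nat_lit 1976) (nat_lit 6) (nat_lit 26) (nat_lit 3) (nat_lit 229) (nat_lit 110) (nat_lit 231))) (PT.nd (nat_lit 78) (PT.lf (nat_lit 2052) (nat_lit 3) (nat_lit 27) (nat_lit 1) (nat_lit 230) (nat_lit 110) (nat_lit 230)) (PT.lf (nat_lit 1976) (nat_lit 6) (nat_lit 26) (nat_lit 1) (nat_lit 231) (nat_lit 110) (nat_lit 229)))))) (PT.nd (nat_lit 59514) (PT.nd (nat_lit 234) (PT.nd (nat_lit 78) (PT.lf (nat_lit 2128) (nat_lit 6) (nat_lit 28) (nat_lit 3)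 (nat_lit 228) (nat_lit 111) (nat_lit 231)) (PT.nd (nat_lit 78) (PT.lf (nat_lit 2204) (nat_lit 6) (nat_lit 29) (nat_lit 3) (nat_lit 229) (nat_lit 111) (nat_lit 230)) (PT.lf (nat_lit 2204) (nat_lit 6) (nat_lit 29) (nat_lit 1) (nat_lit 230) (nat_lit 111) (nat_lit 229)))) (PT.nd (nat_lit 59124) (PT.nd (nat_lit 59046) (PT.lf (nat_lit 2128) (nat_lit 6) (nat_lit 28) (nat_lit 1) (nat_lit 231) (nat_lit 111) (nat_lit 228)) (PT.lf (nat_lit 2280) (nat_lit 6) (nat_lit 30) (nat_lit 3) (nat_lit 227) (nat_lit 112) (nat_lit 231))) (PT.nd (nat_lit 78) (PT.lf (nat_lit 2356) (nat_lit 6) (nat_lit 31) (nat_lit 3) (nat_lit 228) (nat_lit 112) (nat_lit 230)) (PT.lf (nat_lit 2432) (nat_lit 3) (nat_lit 32) (nat_lit 1) (nat_lit 229) (nat_lit 112) (nat_lit 229))))) (PT.nd (nat_lit 59202) (PT.nd (nat_lit 78) (PT.lf (nat_lit 2356) (nat_lit 6) (nat_lit 31) (nat_lit 1) (nat_lit 230) (nat_lit 112) (nat_lit 228)) (PT.nd (nat_lit 59046) (PT.lf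 (nat_lit 2280) (nat_lit 6) (nat_lit 30) (nat_lit 1) (nat_lit 231) (nat_lit 112) (nat_lit 227)) (PT.lf (nat_lit 2508) (nat_lit 6) (nat_lit 33) (nat_lit 3) (nat_lit 227) (nat_lit 113) (nat_lit 230)))) (PT.nd (nat_lit 156) (PT.nd (nat_lit 78) (PT.lf (nat_lit 2584) (nat_lit 6) (nat_lit 34) (nat_lit 3) (nat_lit 228) (nat_lit 113) (nat_lit 229)) (PT.lf (nat_lit 2584) (nat_lit 6) (nat_lit 34) (nat_lit 1) (nat_lit 229) (nat_lit 113) (nat_lit 228))) (PT.nd (nat_lit 59046) (PT.lf (nat_lit 2508) (nat_lit 6) (nat_lit 33) (nat_lit 1) (nat_lit 230) (nat_lit 113) (nat_lit 227)) (PT.lf (nat_lit 2660) (nat_lit 6) (nat_lit 35) (nat_lit 3) (nat_lit 226) (nat_lit 114) (nat_lit 230))))))))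
noncomputable def pc1 : PT := (PT.nd (nat_lit 355836) (PT.nd (nat_lit 177996) (PT.nd (nat_lit 59514) (PT.nd (nat_lit 234) (PT.nd (nat_lit 78) (PT.lf (nat_lit 2736) (nat_lit 6) (nat_lit 36) (nat_lit 3) (nat_lit 227) (nat_lit 114) (nat_lit 229)) (PT.nd (nat_lit 78) (PT.lf (nat_lit 2812) (nat_lit 3) (nat_lit 37) (nat_lit 1) (nat_lit 228) (nat_lit 114) (nat_lit 228)) (PT.lf (nat_lit 2736) (nat_lit 6) (nat_lit 36) (nat_lit 1) (nat_lit 229) (nat_lit 114) (nat_lit 227)))) (PT.nd (nat_lit 59124) (PT.nd (nat_lit 59046) (PT.lf (nat_lit 2660) (nat_lit 6) (nat_lit 35) (nat_lit 1) (nat_lit 230) (nat_lit 114) (nat_lit 226)) (PT.lf (nat_lit 2888) (nat_lit 6) (nat_lit 38) (nat_lit 3) (nat_lit 226) (nat_lit 115) (nat_lit 229))) (PT.nd (nat_lit 78) (PT.lf (nat_lit 2964) (nat_lit 6) (nat_lit 39) (nat_lit 3) (nat_lit 227) (nat_lit 115) (nat_lit 228)) (PT.lf (nat_lit 2964) (nat_lit 6) (nat_lit 39) (nat_lit 1) (nat_lit 228) (nat_lit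 115) (nat_lit 227))))) (PT.nd (nat_lit 59202) (PT.nd (nat_lit 59046) (PT.lf (nat_lit 2888) (nat_lit 6) (nat_lit 38) (nat_lit 1) (nat_lit 229) (nat_lit 115) (nat_lit 226)) (PT.nd (nat_lit 78) (PT.lf (nat_lit 3040) (nat_lit 6) (nat_lit 40) (nat_lit 3) (nat_lit 225) (nat_lit 116) (nat_lit 229)) (PT.lf (nat_lit 3116) (nat_lit 6) (nat_lit 41) (nat_lit 3) (nat_lit 226) (nat_lit 116) (nat_lit 228)))) (PT.nd (nat_lit 156) (PT.nd (nat_lit 78) (PT.lf (nat_lit 3192) (nat_lit 3) (nat_lit 42) (nat_lit 1) (nat_lit 227) (nat_lit 116) (nat_lit 227)) (PT.lf (nat_lit 3116) (nat_lit 6) (nat_lit 41) (nat_lit 1) (nat_lit 228) (nat_lit 116) (nat_lit 226))) (PT.nd (nat_lit 59046) (PT.lf (nat_lit 3040) (nat_lit 6) (nat_lit 40) (nat_lit 1) (nat_lit 229) (nat_lit 116) (nat_lit 225)) (PT.lf (nat_lit 3344) (nat_lit 6) (nat_lit 44) (nat_lit 3) (nat_lit 225) (nat_lit 117) (nat_lit 228)))))) (PT.nd (nat_lit 59514) (PT.nd (nat_lit 59202) (PT.nd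 (nat_lit 78) (PT.lf (nat_lit 3420) (nat_lit 6) (nat_lit 45) (nat_lit 3) (nat_lit 226) (nat_lit 117) (nat_lit 227)) (PT.nd (nat_lit 78) (PT.lf (nat_lit 3420) (nat_lit 6) (nat_lit 45) (nat_lit 1) (nat_lit 227) (nat_lit 117) (nat_lit 226)) (PT.lf (nat_lit 3344) (nat_lit 6) (nat_lit 44) (nat_lit 1) (nat_lit 228) (nat_lit 117) (nat_lit 225)))) (PT.nd (nat_lit 156) (PT.nd (nat_lit 78) (PT.lf (nat_lit 3496) (nat_lit 6) (nat_lit 46) (nat_lit 3) (nat_lit 224) (nat_lit 118) (nat_lit 228)) (PT.lf (nat_lit 3572) (nat_lit 6) (nat_lit 47) (nat_lit 3) (nat_lit 225) (nat_lit 118) (nat_lit 227))) (PT.nd (nat_lit 78) (PT.lf (nat_lit 3648) (nat_lit 3) (nat_lit 48) (nat_lit 1) (nat_lit 226) (nat_lit 118) (nat_lit 226)) (PT.lf (nat_lit 3572) (nat_lit 6) (nat_lit 47) (nat_lit 1) (nat_lit 227) (nat_lit 118) (nat_lit 225))))) (PT.nd (nat_lit 59124) (PT.nd (nat_lit 58968) (PT.lf (nat_lit 3496) (nat_lit 6) (nat_lit 46) (nat_lit 1) (nat_lit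 228) (nat_lit 118) (nat_lit 224)) (PT.nd (nat_lit 78) (PT.lf (nat_lit 3724) (nat_lit 6) (nat_lit 49) (nat_lit 3) (nat_lit 223) (nat_lit 119) (nat_lit 228)) (PT.lf (nat_lit 3800) (nat_lit 6) (nat_lit 50) (nat_lit 3) (nat_lit 224) (nat_lit 119) (nat_lit 227)))) (PT.nd (nat_lit 156) (PT.nd (nat_lit 78) (PT.lf (nat_lit 3876) (nat_lit 6) (nat_lit 51) (nat_lit 3) (nat_lit 225) (nat_lit 119) (nat_lit 226)) (PT.lf (nat_lit 3876) (nat_lit 6) (nat_lit 51) (nat_lit 1) (nat_lit 226) (nat_lit 119) (nat_lit 225))) (PT.nd (nat_lit 78) (PT.lf (nat_lit 3800) (nat_lit 6) (nat_lit 50) (nat_lit 1) (nat_lit 227) (nat_lit 119) (nat_lit 224)) (PT.lf (nat_lit 3724) (nat_lit 6) (nat_lit 49) (nat_lit 1) (nat_lit 228) (nat_lit 119) (nat_lit 223))))))) (PT.nd (nat_lit 118872) (PT.nd (nat_lit 59436) (PT.nd (nat_lit 234) (PT.nd (nat_lit 78) (PT.lf (nat_lit 3952) (nat_lit 6) (nat_lit 52) (nat_lit 3) (nat_lit 223) (nat_lit 120) (nat_lit 227))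 (PT.nd (nat_lit 78) (PT.lf (nat_lit 4028) (nat_lit 6) (nat_lit 53) (nat_lit 3) (nat_lit 224) (nat_lit 120) (nat_lit 226)) (PT.lf (nat_lit 4104) (nat_lit 3) (nat_lit 54) (nat_lit 1) (nat_lit 225) (nat_lit 120) (nat_lit 225)))) (PT.nd (nat_lit 59046) (PT.nd (nat_lit 78) (PT.lf (nat_lit 4028) (nat_lit 6) (nat_lit 53) (nat_lit 1) (nat_lit 226) (nat_lit 120) (nat_lit 224)) (PT.lf (nat_lit 3952) (nat_lit 6) (nat_lit 52) (nat_lit 1) (nat_lit 227) (nat_lit 120) (nat_lit 223))) (PT.nd (nat_lit 78) (PT.lf (nat_lit 4180) (nat_lit 6) (nat_lit 55) (nat_lit 3) (nat_lit 222) (nat_lit 121) (nat_lit 227)) (PT.lf (nat_lit 4256) (nat_lit 6) (nat_lit 56) (nat_lit 3) (nat_lit 223) (nat_lit 121) (nat_lit 226))))) (PT.nd (nat_lit 234) (PT.nd (nat_lit 78) (PT.lf (nat_lit 4332) (nat_lit 6) (nat_lit 57) (nat_lit 3) (nat_lit 224) (nat_lit 121) (nat_lit 225)) (PT.nd (nat_lit 78) (PT.lf (nat_lit 4332) (nat_lit 6) (nat_lit 57) (nat_lit 1)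 (nat_lit 225) (nat_lit 121) (nat_lit 224)) (PT.lf (nat_lit 4256) (nat_lit 6) (nat_lit 56) (nat_lit 1) (nat_lit 226) (nat_lit 121) (nat_lit 223)))) (PT.nd (nat_lit 59046) (PT.nd (nat_lit 58968) (PT.lf (nat_lit 4180) (nat_lit 6) (nat_lit 55) (nat_lit 1) (nat_lit 227) (nat_lit 121) (nat_lit 222)) (PT.lf (nat_lit 4484) (nat_lit 6) (nat_lit 59) (nat_lit 3) (nat_lit 222) (nat_lit 122) (nat_lit 226))) (PT.nd (nat_lit 78) (PT.lf (nat_lit 4560) (nat_lit 6) (nat_lit 60) (nat_lit 3) (nat_lit 223) (nat_lit 122) (nat_lit 225)) (PT.lf (nat_lit 4636) (nat_lit 3) (nat_lit 61) (nat_lit 1) (nat_lit 224) (nat_lit 122) (nat_lit 224)))))) (PT.nd (nat_lit 59436) (PT.nd (nat_lit 59124) (PT.nd (nat_lit 78) (PT.lf (nat_lit 4560) (nat_lit 6) (nat_lit 60) (nat_lit 1) (nat_lit 225) (nat_lit 122) (nat_lit 223)) (PT.nd (nat_lit 58968) (PT.lf (nat_lit 4484) (nat_lit 6) (nat_lit 59) (nat_lit 1) (nat_lit 226) (nat_lit 122) (nat_lit 222)) (PT.lf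 (nat_lit 4712) (nat_lit 6) (nat_lit 62) (nat_lit 3) (nat_lit 221) (nat_lit 123) (nat_lit 226)))) (PT.nd (nat_lit 156) (PT.nd (nat_lit 78) (PT.lf (nat_lit 4788) (nat_lit 6) (nat_lit 63) (nat_lit 3) (nat_lit 222) (nat_lit 123) (nat_lit 225)) (PT.lf (nat_lit 4864) (nat_lit 6) (nat_lit 64) (nat_lit 3) (nat_lit 223) (nat_lit 123) (nat_lit 224))) (PT.nd (nat_lit 78) (PT.lf (nat_lit 4864) (nat_lit 6) (nat_lit 64) (nat_lit 1) (nat_lit 224) (nat_lit 123) (nat_lit 223)) (PT.lf (nat_lit 4788) (nat_lit 6) (nat_lit 63) (nat_lit 1) (nat_lit 225) (nat_lit 123) (nat_lit 222))))) (PT.nd (nat_lit 59124) (PT.nd (nat_lit 58968) (PT.nd (nat_lit 58890) (PT.lf (nat_lit 4712) (nat_lit 6) (nat_lit 62) (nat_lit 1) (nat_lit 226) (nat_lit 123) (nat_lit 221)) (PT.lf (nat_lit 4940) (nat_lit 6) (nat_lit 65) (nat_lit 3) (nat_lit 220) (nat_lit 124) (nat_lit 226))) (PT.nd (nat_lit 78) (PT.lf (nat_lit 5016) (nat_lit 6) (nat_lit 66) (nat_lit 3)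 (nat_lit 221) (nat_lit 124) (nat_lit 225)) (PT.lf (nat_lit 5092) (nat_lit 6) (nat_lit 67) (nat_lit 3) (nat_lit 222) (nat_lit 124) (nat_lit 224)))) (PT.nd (nat_lit 156) (PT.nd (nat_lit 78) (PT.lf (nat_lit 5168) (nat_lit 3) (nat_lit 68) (nat_lit 1) (nat_lit 223) (nat_lit 124) (nat_lit 223)) (PT.lf (nat_lit 5092) (nat_lit 6) (nat_lit 67) (nat_lit 1) (nat_lit 224) (nat_lit 124) (nat_lit 222))) (PT.nd (nat_lit 78) (PT.lf (nat_lit 5016) (nat_lit 6) (nat_lit 66) (nat_lit 1) (nat_lit 225) (nat_lit 124) (nat_lit 221)) (PT.lf (nat_lit 4940) (nat_lit 6) (nat_lit 65) (nat_lit 1) (nat_lit 226) (nat_lit 124) (nat_lit 220))))))))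
noncomputable def pc2 : PT := (PT.nd (nat_lit 237354) (PT.nd (nat_lit 118716) (PT.nd (nat_lit 59358) (PT.nd (nat_lit 234) (PT.nd (nat_lit 78) (PT.lf (nat_lit 5244) (nat_lit 6) (nat_lit 69) (nat_lit 3) (nat_lit 220) (nat_lit 125) (nat_lit 225)) (PT.nd (nat_lit 78) (PT.lf (nat_lit 5320) (nat_lit 6) (nat_lit 70) (nat_lit 3) (nat_lit 221) (nat_lit 125) (nat_lit 224)) (PT.lf (nat_lit 5396) (nat_lit 6) (nat_lit 71) (nat_lit 3) (nat_lit 222) (nat_lit 125) (nat_lit 223)))) (PT.nd (nat_lit 156) (PT.nd (nat_lit 78) (PT.lf (nat_lit 5396) (nat_lit 6) (nat_lit 71) (nat_lit 1) (nat_lit 223) (nat_lit 125) (nat_lit 222)) (PT.lf (nat_lit 5320) (nat_lit 6) (nat_lit 70) (nat_lit 1) (nat_lit 224) (nat_lit 125) (nat_lit 221))) (PT.nd (nat_lit 58890) (PT.lf (nat_lit 5244) (nat_lit 6) (nat_lit 69) (nat_lit 1) (nat_lit 225) (nat_lit 125) (nat_lit 220)) (PT.lf (nat_lit 5472) (nat_lit 6) (nat_lit 72) (nat_lit 3) (nat_lit 219) (nat_lit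 126) (nat_lit 225))))) (PT.nd (nat_lit 234) (PT.nd (nat_lit 78) (PT.lf (nat_lit 5548) (nat_lit 6) (nat_lit 73) (nat_lit 3) (nat_lit 220) (nat_lit 126) (nat_lit 224)) (PT.nd (nat_lit 78) (PT.lf (nat_lit 5624) (nat_lit 6) (nat_lit 74) (nat_lit 3) (nat_lit 221) (nat_lit 126) (nat_lit 223)) (PT.lf (nat_lit 5700) (nat_lit 3) (nat_lit 75) (nat_lit 1) (nat_lit 222) (nat_lit 126) (nat_lit 222)))) (PT.nd (nat_lit 156) (PT.nd (nat_lit 78) (PT.lf (nat_lit 5624) (nat_lit 6) (nat_lit 74) (nat_lit 1) (nat_lit 223) (nat_lit 126) (nat_lit 221)) (PT.lf (nat_lit 5548) (nat_lit 6) (nat_lit 73) (nat_lit 1) (nat_lit 224) (nat_lit 126) (nat_lit 220))) (PT.nd (nat_lit 58890) (PT.lf (nat_lit 5472) (nat_lit 6) (nat_lit 72) (nat_lit 1) (nat_lit 225) (nat_lit 126) (nat_lit 219)) (PT.lf (nat_lit 5852) (nat_lit 6) (nat_lit 77) (nat_lit 3) (nat_lit 219) (nat_lit 127) (nat_lit 224)))))) (PT.nd (nat_lit 59358) (PT.nd (nat_lit 234) (PT.nd (nat_lit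 78) (PT.lf (nat_lit 5928) (nat_lit 6) (nat_lit 78) (nat_lit 3) (nat_lit 220) (nat_lit 127) (nat_lit 223)) (PT.nd (nat_lit 78) (PT.lf (nat_lit 6004) (nat_lit 6) (nat_lit 79) (nat_lit 3) (nat_lit 221) (nat_lit 127) (nat_lit 222)) (PT.lf (nat_lit 6004) (nat_lit 6) (nat_lit 79) (nat_lit 1) (nat_lit 222) (nat_lit 127) (nat_lit 221)))) (PT.nd (nat_lit 58968) (PT.nd (nat_lit 78) (PT.lf (nat_lit 5928) (nat_lit 6) (nat_lit 78) (nat_lit 1) (nat_lit 223) (nat_lit 127) (nat_lit 220)) (PT.lf (nat_lit 5852) (nat_lit 6) (nat_lit 77) (nat_lit 1) (nat_lit 224) (nat_lit 127) (nat_lit 219))) (PT.nd (nat_lit 78) (PT.lf (nat_lit 6080) (nat_lit 6) (nat_lit 80) (nat_lit 3) (nat_lit 218) (nat_lit 128) (nat_lit 224)) (PT.lf (nat_lit 6156) (nat_lit 6) (nat_lit 81) (nat_lit 3) (nat_lit 219) (nat_lit 128) (nat_lit 223))))) (PT.nd (nat_lit 234) (PT.nd (nat_lit 78) (PT.lf (nat_lit 6232) (nat_lit 6) (nat_lit 82) (nat_lit 3) (nat_lit 220) (nat_lit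 128) (nat_lit 222)) (PT.nd (nat_lit 78) (PT.lf (nat_lit 6308) (nat_lit 3) (nat_lit 83) (nat_lit 1) (nat_lit 221) (nat_lit 128) (nat_lit 221)) (PT.lf (nat_lit 6232) (nat_lit 6) (nat_lit 82) (nat_lit 1) (nat_lit 222) (nat_lit 128) (nat_lit 220)))) (PT.nd (nat_lit 58890) (PT.nd (nat_lit 78) (PT.lf (nat_lit 6156) (nat_lit 6) (nat_lit 81) (nat_lit 1) (nat_lit 223) (nat_lit 128) (nat_lit 219)) (PT.lf (nat_lit 6080) (nat_lit 6) (nat_lit 80) (nat_lit 1) (nat_lit 224) (nat_lit 128) (nat_lit 218))) (PT.nd (nat_lit 78) (PT.lf (nat_lit 6384) (nat_lit 6) (nat_lit 84) (nat_lit 3) (nat_lit 217) (nat_lit 129) (nat_lit 224)) (PT.lf (nat_lit 6460) (nat_lit 6) (nat_lit 85) (nat_lit 3) (nat_lit 218) (nat_lit 129) (nat_lit 223))))))) (PT.nd (nat_lit 118560) (PT.nd (nat_lit 59280) (PT.nd (nat_lit 234) (PT.nd (nat_lit 78) (PT.lf (nat_lit 6536) (nat_lit 6) (nat_lit 86) (nat_lit 3) (nat_lit 219) (nat_lit 129) (nat_lit 222)) (PT.nd (nat_lit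 78) (PT.lf (nat_lit 6612) (nat_lit 6) (nat_lit 87) (nat_lit 3) (nat_lit 220) (nat_lit 129) (nat_lit 221)) (PT.lf (nat_lit 6612) (nat_lit 6) (nat_lit 87) (nat_lit 1) (nat_lit 221) (nat_lit 129) (nat_lit 220)))) (PT.nd (nat_lit 156) (PT.nd (nat_lit 78) (PT.lf (nat_lit 6536) (nat_lit 6) (nat_lit 86) (nat_lit 1) (nat_lit 222) (nat_lit 129) (nat_lit 219)) (PT.lf (nat_lit 6460) (nat_lit 6) (nat_lit 85) (nat_lit 1) (nat_lit 223) (nat_lit 129) (nat_lit 218))) (PT.nd (nat_lit 58812) (PT.lf (nat_lit 6384) (nat_lit 6) (nat_lit 84) (nat_lit 1) (nat_lit 224) (nat_lit 129) (nat_lit 217)) (PT.lf (nat_lit 6688) (nat_lit 6) (nat_lit 88) (nat_lit 3) (nat_lit 217) (nat_lit 130) (nat_lit 223))))) (PT.nd (nat_lit 234) (PT.nd (nat_lit 78) (PT.lf (nat_lit 6764) (nat_lit 6) (nat_lit 89) (nat_lit 3) (nat_lit 218) (nat_lit 130) (nat_lit 222)) (PT.nd (nat_lit 78) (PT.lf (nat_lit 6840) (nat_lit 6) (nat_lit 90) (nat_lit 3) (nat_lit 219)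 (nat_lit 130) (nat_lit 221)) (PT.lf (nat_lit 6916) (nat_lit 3) (nat_lit 91) (nat_lit 1) (nat_lit 220) (nat_lit 130) (nat_lit 220)))) (PT.nd (nat_lit 156) (PT.nd (nat_lit 78) (PT.lf (nat_lit 6840) (nat_lit 6) (nat_lit 90) (nat_lit 1) (nat_lit 221) (nat_lit 130) (nat_lit 219)) (PT.lf (nat_lit 6764) (nat_lit 6) (nat_lit 89) (nat_lit 1) (nat_lit 222) (nat_lit 130) (nat_lit 218))) (PT.nd (nat_lit 58812) (PT.lf (nat_lit 6688) (nat_lit 6) (nat_lit 88) (nat_lit 1) (nat_lit 223) (nat_lit 130) (nat_lit 217)) (PT.lf (nat_lit 6992) (nat_lit 6) (nat_lit 92) (nat_lit 3) (nat_lit 216) (nat_lit 131) (nat_lit 223)))))) (PT.nd (nat_lit 59202) (PT.nd (nat_lit 234) (PT.nd (nat_lit 78) (PT.lf (nat_lit 7068) (nat_lit 6) (nat_lit 93) (nat_lit 3) (nat_lit 217) (nat_lit 131) (nat_lit 222)) (PT.nd (nat_lit 78) (PT.lf (nat_lit 7144) (nat_lit 6) (nat_lit 94) (nat_lit 3) (nat_lit 218) (nat_lit 131) (nat_lit 221)) (PT.lf (nat_lit 7220) (nat_lit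 6) (nat_lit 95) (nat_lit 3) (nat_lit 219) (nat_lit 131) (nat_lit 220)))) (PT.nd (nat_lit 156) (PT.nd (nat_lit 78) (PT.lf (nat_lit 7220) (nat_lit 6) (nat_lit 95) (nat_lit 1) (nat_lit 220) (nat_lit 131) (nat_lit 219)) (PT.lf (nat_lit 7144) (nat_lit 6) (nat_lit 94) (nat_lit 1) (nat_lit 221) (nat_lit 131) (nat_lit 218))) (PT.nd (nat_lit 78) (PT.lf (nat_lit 7068) (nat_lit 6) (nat_lit 93) (nat_lit 1) (nat_lit 222) (nat_lit 131) (nat_lit 217)) (PT.lf (nat_lit 6992) (nat_lit 6) (nat_lit 92) (nat_lit 1) (nat_lit 223) (nat_lit 131) (nat_lit 216))))) (PT.nd (nat_lit 312) (PT.nd (nat_lit 156) (PT.nd (nat_lit 78) (PT.lf (nat_lit 7296) (nat_lit 6) (nat_lit 96) (nat_lit 3) (nat_lit 215) (nat_lit 132) (nat_lit 223)) (PT.lf (nat_lit 7372) (nat_lit 6) (nat_lit 97) (nat_lit 3) (nat_lit 216) (nat_lit 132) (nat_lit 222))) (PT.nd (nat_lit 78) (PT.lf (nat_lit 7448) (nat_lit 6) (nat_lit 98) (nat_lit 3) (nat_lit 217) (nat_lit 132) (nat_lit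 221)) (PT.lf (nat_lit 7524) (nat_lit 6) (nat_lit 99) (nat_lit 3) (nat_lit 218) (nat_lit 132) (nat_lit 220)))) (PT.nd (nat_lit 156) (PT.nd (nat_lit 78) (PT.lf (nat_lit 7600) (nat_lit 3) (nat_lit 100) (nat_lit 1) (nat_lit 219) (nat_lit 132) (nat_lit 219)) (PT.lf (nat_lit 7524) (nat_lit 6) (nat_lit 99) (nat_lit 1) (nat_lit 220) (nat_lit 132) (nat_lit 218))) (PT.nd (nat_lit 78) (PT.lf (nat_lit 7448) (nat_lit 6) (nat_lit 98) (nat_lit 1) (nat_lit 221) (nat_lit 132) (nat_lit 217)) (PT.lf (nat_lit 7372) (nat_lit 6) (nat_lit 97) (nat_lit 1) (nat_lit 222) (nat_lit 132) (nat_lit 216))))))))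
noncomputable def pc3 : PT := (PT.nd (nat_lit 236652) (PT.nd (nat_lit 118404) (PT.nd (nat_lit 59202) (PT.nd (nat_lit 58890) (PT.nd (nat_lit 58734) (PT.lf (nat_lit 7296) (nat_lit 6) (nat_lit 96) (nat_lit 1) (nat_lit 223) (nat_lit 132) (nat_lit 215)) (PT.nd (nat_lit 78) (PT.lf (nat_lit 7676) (nat_lit 6) (nat_lit 101) (nat_lit 3) (nat_lit 215) (nat_lit 133) (nat_lit 222)) (PT.lf (nat_lit 7752) (nat_lit 6) (nat_lit 102) (nat_lit 3) (nat_lit 216) (nat_lit 133) (nat_lit 221)))) (PT.nd (nat_lit 156) (PT.nd (nat_lit 78) (PT.lf (nat_lit 7828) (nat_lit 6) (nat_lit 103) (nat_lit 3) (nat_lit 217) (nat_lit 133) (nat_lit 220)) (PT.lf (nat_lit 7904) (nat_lit 6) (nat_lit 104) (nat_lit 3) (nat_lit 218) (nat_lit 133) (nat_lit 219))) (PT.nd (nat_lit 78) (PT.lf (nat_lit 7904) (nat_lit 6) (nat_lit 104) (nat_lit 1) (nat_lit 219) (nat_lit 133) (nat_lit 218)) (PT.lf (nat_lit 7828) (nat_lit 6) (nat_lit 103) (nat_lit 1) (nat_lit 220)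 (nat_lit 133) (nat_lit 217))))) (PT.nd (nat_lit 58890) (PT.nd (nat_lit 78) (PT.lf (nat_lit 7752) (nat_lit 6) (nat_lit 102) (nat_lit 1) (nat_lit 221) (nat_lit 133) (nat_lit 216)) (PT.nd (nat_lit 58734) (PT.lf (nat_lit 7676) (nat_lit 6) (nat_lit 101) (nat_lit 1) (nat_lit 222) (nat_lit 133) (nat_lit 215)) (PT.lf (nat_lit 7980) (nat_lit 6) (nat_lit 105) (nat_lit 3) (nat_lit 214) (nat_lit 134) (nat_lit 222)))) (PT.nd (nat_lit 156) (PT.nd (nat_lit 78) (PT.lf (nat_lit 8056) (nat_lit 6) (nat_lit 106) (nat_lit 3) (nat_lit 215) (nat_lit 134) (nat_lit 221)) (PT.lf (nat_lit 8132) (nat_lit 6) (nat_lit 107) (nat_lit 3) (nat_lit 216) (nat_lit 134) (nat_lit 220))) (PT.nd (nat_lit 78) (PT.lf (nat_lit 8208) (nat_lit 6) (nat_lit 108) (nat_lit 3) (nat_lit 217) (nat_lit 134) (nat_lit 219)) (PT.lf (nat_lit 8284) (nat_lit 3) (nat_lit 109) (nat_lit 1) (nat_lit 218) (nat_lit 134) (nat_lit 218)))))) (PT.nd (nat_lit 59124) (PT.nd (nat_lit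 234) (PT.nd (nat_lit 78) (PT.lf (nat_lit 8208) (nat_lit 6) (nat_lit 108) (nat_lit 1) (nat_lit 219) (nat_lit 134) (nat_lit 217)) (PT.nd (nat_lit 78) (PT.lf (nat_lit 8132) (nat_lit 6) (nat_lit 107) (nat_lit 1) (nat_lit 220) (nat_lit 134) (nat_lit 216)) (PT.lf (nat_lit 8056) (nat_lit 6) (nat_lit 106) (nat_lit 1) (nat_lit 221) (nat_lit 134) (nat_lit 215)))) (PT.nd (nat_lit 58734) (PT.nd (nat_lit 58656) (PT.lf (nat_lit 7980) (nat_lit 6) (nat_lit 105) (nat_lit 1) (nat_lit 222) (nat_lit 134) (nat_lit 214)) (PT.lf (nat_lit 8360) (nat_lit 6) (nat_lit 110) (nat_lit 3) (nat_lit 213) (nat_lit 135) (nat_lit 222))) (PT.nd (nat_lit 78) (PT.lf (nat_lit 8436) (nat_lit 6) (nat_lit 111) (nat_lit 3) (nat_lit 214) (nat_lit 135) (nat_lit 221)) (PT.lf (nat_lit 8512) (nat_lit 6) (nat_lit 112) (nat_lit 3) (nat_lit 215) (nat_lit 135) (nat_lit 220))))) (PT.nd (nat_lit 234) (PT.nd (nat_lit 78) (PT.lf (nat_lit 8588) (nat_lit 6) (nat_lit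 113) (nat_lit 3) (nat_lit 216) (nat_lit 135) (nat_lit 219)) (PT.nd (nat_lit 78) (PT.lf (nat_lit 8664) (nat_lit 6) (nat_lit 114) (nat_lit 3) (nat_lit 217) (nat_lit 135) (nat_lit 218)) (PT.lf (nat_lit 8664) (nat_lit 6) (nat_lit 114) (nat_lit 1) (nat_lit 218) (nat_lit 135) (nat_lit 217)))) (PT.nd (nat_lit 156) (PT.nd (nat_lit 78) (PT.lf (nat_lit 8588) (nat_lit 6) (nat_lit 113) (nat_lit 1) (nat_lit 219) (nat_lit 135) (nat_lit 216)) (PT.lf (nat_lit 8512) (nat_lit 6) (nat_lit 112) (nat_lit 1) (nat_lit 220) (nat_lit 135) (nat_lit 215))) (PT.nd (nat_lit 78) (PT.lf (nat_lit 8436) (nat_lit 6) (nat_lit 111) (nat_lit 1) (nat_lit 221) (nat_lit 135) (nat_lit 214)) (PT.lf (nat_lit 8360) (nat_lit 6) (nat_lit 110) (nat_lit 1) (nat_lit 222) (nat_lit 135) (nat_lit 213))))))) (PT.nd (nat_lit 59670) (PT.nd (nat_lit 546) (PT.nd (nat_lit 234) (PT.nd (nat_lit 78) (PT.lf (nat_lit 8740) (nat_lit 6) (nat_lit 115) (nat_lit 3) (nat_lit 213)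 (nat_lit 136) (nat_lit 221)) (PT.nd (nat_lit 78) (PT.lf (nat_lit 8816) (nat_lit 6) (nat_lit 116) (nat_lit 3) (nat_lit 214) (nat_lit 136) (nat_lit 220)) (PT.lf (nat_lit 8892) (nat_lit 6) (nat_lit 117) (nat_lit 3) (nat_lit 215) (nat_lit 136) (nat_lit 219)))) (PT.nd (nat_lit 156) (PT.nd (nat_lit 78) (PT.lf (nat_lit 8968) (nat_lit 6) (nat_lit 118) (nat_lit 3) (nat_lit 216) (nat_lit 136) (nat_lit 218)) (PT.lf (nat_lit 9044) (nat_lit 3) (nat_lit 119) (nat_lit 1) (nat_lit 217) (nat_lit 136) (nat_lit 217))) (PT.nd (nat_lit 78) (PT.lf (nat_lit 8968) (nat_lit 6) (nat_lit 118) (nat_lit 1) (nat_lit 218) (nat_lit 136) (nat_lit 216)) (PT.lf (nat_lit 8892) (nat_lit 6) (nat_lit 117) (nat_lit 1) (nat_lit 219) (nat_lit 136) (nat_lit 215))))) (PT.nd (nat_lit 58812) (PT.nd (nat_lit 78) (PT.lf (nat_lit 8816) (nat_lit 6) (nat_lit 116) (nat_lit 1) (nat_lit 220) (nat_lit 136) (nat_lit 214)) (PT.nd (nat_lit 58656) (PT.lf (nat_lit 8740)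 (nat_lit 6) (nat_lit 115) (nat_lit 1) (nat_lit 221) (nat_lit 136) (nat_lit 213)) (PT.lf (nat_lit 9120) (nat_lit 6) (nat_lit 120) (nat_lit 3) (nat_lit 212) (nat_lit 137) (nat_lit 221)))) (PT.nd (nat_lit 156) (PT.nd (nat_lit 78) (PT.lf (nat_lit 9196) (nat_lit 6) (nat_lit 121) (nat_lit 3) (nat_lit 213) (nat_lit 137) (nat_lit 220)) (PT.lf (nat_lit 9272) (nat_lit 6) (nat_lit 122) (nat_lit 3) (nat_lit 214) (nat_lit 137) (nat_lit 219))) (PT.nd (nat_lit 78) (PT.lf (nat_lit 9348) (nat_lit 6) (nat_lit 123) (nat_lit 3) (nat_lit 215) (nat_lit 137) (nat_lit 218)) (PT.lf (nat_lit 9424) (nat_lit 6) (nat_lit 124) (nat_lit 3) (nat_lit 216) (nat_lit 137) (nat_lit 217)))))) (PT.nd (nat_lit 59124) (PT.nd (nat_lit 234) (PT.nd (nat_lit 78) (PT.lf (nat_lit 9424) (nat_lit 6) (nat_lit 124) (nat_lit 1) (nat_lit 217) (nat_lit 137) (nat_lit 216)) (PT.nd (nat_lit 78) (PT.lf (nat_lit 9348) (nat_lit 6) (nat_lit 123) (nat_lit 1) (nat_lit 218)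 (nat_lit 137) (nat_lit 215)) (PT.lf (nat_lit 9272) (nat_lit 6) (nat_lit 122) (nat_lit 1) (nat_lit 219) (nat_lit 137) (nat_lit 214)))) (PT.nd (nat_lit 58734) (PT.nd (nat_lit 78) (PT.lf (nat_lit 9196) (nat_lit 6) (nat_lit 121) (nat_lit 1) (nat_lit 220) (nat_lit 137) (nat_lit 213)) (PT.lf (nat_lit 9120) (nat_lit 6) (nat_lit 120) (nat_lit 1) (nat_lit 221) (nat_lit 137) (nat_lit 212))) (PT.nd (nat_lit 78) (PT.lf (nat_lit 9500) (nat_lit 6) (nat_lit 125) (nat_lit 3) (nat_lit 212) (nat_lit 138) (nat_lit 220)) (PT.lf (nat_lit 9576) (nat_lit 6) (nat_lit 126) (nat_lit 3) (nat_lit 213) (nat_lit 138) (nat_lit 219))))) (PT.nd (nat_lit 312) (PT.nd (nat_lit 156) (PT.nd (nat_lit 78) (PT.lf (nat_lit 9652) (nat_lit 6) (nat_lit 127) (nat_lit 3) (nat_lit 214) (nat_lit 138) (nat_lit 218)) (PT.lf (nat_lit 9728) (nat_lit 6) (nat_lit 128) (nat_lit 3) (nat_lit 215) (nat_lit 138) (nat_lit 217))) (PT.nd (nat_lit 78) (PT.lf (nat_lit 9804)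 (nat_lit 3) (nat_lit 129) (nat_lit 1) (nat_lit 216) (nat_lit 138) (nat_lit 216)) (PT.lf (nat_lit 9728) (nat_lit 6) (nat_lit 128) (nat_lit 1) (nat_lit 217) (nat_lit 138) (nat_lit 215)))) (PT.nd (nat_lit 156) (PT.nd (nat_lit 78) (PT.lf (nat_lit 9652) (nat_lit 6) (nat_lit 127) (nat_lit 1) (nat_lit 218) (nat_lit 138) (nat_lit 214)) (PT.lf (nat_lit 9576) (nat_lit 6) (nat_lit 126) (nat_lit 1) (nat_lit 219) (nat_lit 138) (nat_lit 213))) (PT.nd (nat_lit 58656) (PT.lf (nat_lit 9500) (nat_lit 6) (nat_lit 125) (nat_lit 1) (nat_lit 220) (nat_lit 138) (nat_lit 212)) (PT.lf (nat_lit 9880) (nat_lit 6) (nat_lit 130) (nat_lit 3) (nat_lit 211) (nat_lit 139) (nat_lit 220))))))))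
noncomputable def pc4 : PT := (PT.nd (nat_lit 119184) (PT.nd (nat_lit 59592) (PT.nd (nat_lit 546) (PT.nd (nat_lit 234) (PT.nd (nat_lit 78) (PT.lf (nat_lit 9956) (nat_lit 6) (nat_lit 131) (nat_lit 3) (nat_lit 212) (nat_lit 139) (nat_lit 219)) (PT.nd (nat_lit 78) (PT.lf (nat_lit 10032) (nat_lit 6) (nat_lit 132) (nat_lit 3) (nat_lit 213) (nat_lit 139) (nat_lit 218)) (PT.lf (nat_lit 10108) (nat_lit 6) (nat_lit 133) (nat_lit 3) (nat_lit 214) (nat_lit 139) (nat_lit 217)))) (PT.nd (nat_lit 156) (PT.nd (nat_lit 78) (PT.lf (nat_lit 10184) (nat_lit 6) (nat_lit 134) (nat_lit 3) (nat_lit 215) (nat_lit 139) (nat_lit 216)) (PT.lf (nat_lit 10184) (nat_lit 6) (nat_lit 134) (nat_lit 1) (nat_lit 216) (nat_lit 139) (nat_lit 215))) (PT.nd (nat_lit 78) (PT.lf (nat_lit 10108) (nat_lit 6) (nat_lit 133) (nat_lit 1) (nat_lit 217) (nat_lit 139) (nat_lit 214)) (PT.lf (nat_lit 10032) (nat_lit 6) (nat_lit 132) (nat_lit 1) (nat_lit 218) (nat_lit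 139) (nat_lit 213))))) (PT.nd (nat_lit 58734) (PT.nd (nat_lit 78) (PT.lf (nat_lit 9956) (nat_lit 6) (nat_lit 131) (nat_lit 1) (nat_lit 219) (nat_lit 139) (nat_lit 212)) (PT.nd (nat_lit 58578) (PT.lf (nat_lit 9880) (nat_lit 6) (nat_lit 130) (nat_lit 1) (nat_lit 220) (nat_lit 139) (nat_lit 211)) (PT.lf (nat_lit 10260) (nat_lit 6) (nat_lit 135) (nat_lit 3) (nat_lit 210) (nat_lit 140) (nat_lit 220)))) (PT.nd (nat_lit 156) (PT.nd (nat_lit 78) (PT.lf (nat_lit 10336) (nat_lit 6) (nat_lit 136) (nat_lit 3) (nat_lit 211) (nat_lit 140) (nat_lit 219)) (PT.lf (nat_lit 10412) (nat_lit 6) (nat_lit 137) (nat_lit 3) (nat_lit 212) (nat_lit 140) (nat_lit 218))) (PT.nd (nat_lit 78) (PT.lf (nat_lit 10488) (nat_lit 6) (nat_lit 138) (nat_lit 3) (nat_lit 213) (nat_lit 140) (nat_lit 217)) (PT.lf (nat_lit 10564) (nat_lit 6) (nat_lit 139) (nat_lit 3) (nat_lit 214) (nat_lit 140) (nat_lit 216)))))) (PT.nd (nat_lit 59046) (PT.nd (nat_lit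 234) (PT.nd (nat_lit 78) (PT.lf (nat_lit 10640) (nat_lit 3) (nat_lit 140) (nat_lit 1) (nat_lit 215) (nat_lit 140) (nat_lit 215)) (PT.nd (nat_lit 78) (PT.lf (nat_lit 10564) (nat_lit 6) (nat_lit 139) (nat_lit 1) (nat_lit 216) (nat_lit 140) (nat_lit 214)) (PT.lf (nat_lit 10488) (nat_lit 6) (nat_lit 138) (nat_lit 1) (nat_lit 217) (nat_lit 140) (nat_lit 213)))) (PT.nd (nat_lit 156) (PT.nd (nat_lit 78) (PT.lf (nat_lit 10412) (nat_lit 6) (nat_lit 137) (nat_lit 1) (nat_lit 218) (nat_lit 140) (nat_lit 212)) (PT.lf (nat_lit 10336) (nat_lit 6) (nat_lit 136) (nat_lit 1) (nat_lit 219) (nat_lit 140) (nat_lit 211))) (PT.nd (nat_lit 58578) (PT.lf (nat_lit 10260) (nat_lit 6) (nat_lit 135) (nat_lit 1) (nat_lit 220) (nat_lit 140) (nat_lit 210)) (PT.lf (nat_lit 10792) (nat_lit 6) (nat_lit 142) (nat_lit 3) (nat_lit 210) (nat_lit 141) (nat_lit 219))))) (PT.nd (nat_lit 234) (PT.nd (nat_lit 78) (PT.lf (nat_lit 10868) (nat_lit 6) (nat_lit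 143) (nat_lit 3) (nat_lit 211) (nat_lit 141) (nat_lit 218)) (PT.nd (nat_lit 78) (PT.lf (nat_lit 10944) (nat_lit 6) (nat_lit 144) (nat_lit 3) (nat_lit 212) (nat_lit 141) (nat_lit 217)) (PT.lf (nat_lit 11020) (nat_lit 6) (nat_lit 145) (nat_lit 3) (nat_lit 213) (nat_lit 141) (nat_lit 216)))) (PT.nd (nat_lit 156) (PT.nd (nat_lit 78) (PT.lf (nat_lit 11096) (nat_lit 6) (nat_lit 146) (nat_lit 3) (nat_lit 214) (nat_lit 141) (nat_lit 215)) (PT.lf (nat_lit 11096) (nat_lit 6) (nat_lit 146) (nat_lit 1) (nat_lit 215) (nat_lit 141) (nat_lit 214))) (PT.nd (nat_lit 78) (PT.lf (nat_lit 11020) (nat_lit 6) (nat_lit 145) (nat_lit 1) (nat_lit 216) (nat_lit 141) (nat_lit 213)) (PT.lf (nat_lit 10944) (nat_lit 6) (nat_lit 144) (nat_lit 1) (nat_lit 217) (nat_lit 141) (nat_lit 212))))))) (PT.nd (nat_lit 118014) (PT.nd (nat_lit 59046) (PT.nd (nat_lit 58734) (PT.nd (nat_lit 78) (PT.lf (nat_lit 10868) (nat_lit 6) (nat_lit 143) (nat_lit 1)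 (nat_lit 218) (nat_lit 141) (nat_lit 211)) (PT.nd (nat_lit 58578) (PT.lf (nat_lit 10792) (nat_lit 6) (nat_lit 142) (nat_lit 1) (nat_lit 219) (nat_lit 141) (nat_lit 210)) (PT.lf (nat_lit 11172) (nat_lit 6) (nat_lit 147) (nat_lit 3) (nat_lit 209) (nat_lit 142) (nat_lit 219)))) (PT.nd (nat_lit 156) (PT.nd (nat_lit 78) (PT.lf (nat_lit 11248) (nat_lit 6) (nat_lit 148) (nat_lit 3) (nat_lit 210) (nat_lit 142) (nat_lit 218)) (PT.lf (nat_lit 11324) (nat_lit 6) (nat_lit 149) (nat_lit 3) (nat_lit 211) (nat_lit 142) (nat_lit 217))) (PT.nd (nat_lit 78) (PT.lf (nat_lit 11400) (nat_lit 6) (nat_lit 150) (nat_lit 3) (nat_lit 212) (nat_lit 142) (nat_lit 216)) (PT.lf (nat_lit 11476) (nat_lit 6) (nat_lit 151) (nat_lit 3) (nat_lit 213) (nat_lit 142) (nat_lit 215))))) (PT.nd (nat_lit 234) (PT.nd (nat_lit 78) (PT.lf (nat_lit 11552) (nat_lit 3) (nat_lit 152) (nat_lit 1) (nat_lit 214) (nat_lit 142) (nat_lit 214)) (PT.nd (nat_lit 78)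 (PT.lf (nat_lit 11476) (nat_lit 6) (nat_lit 151) (nat_lit 1) (nat_lit 215) (nat_lit 142) (nat_lit 213)) (PT.lf (nat_lit 11400) (nat_lit 6) (nat_lit 150) (nat_lit 1) (nat_lit 216) (nat_lit 142) (nat_lit 212)))) (PT.nd (nat_lit 156) (PT.nd (nat_lit 78) (PT.lf (nat_lit 11324) (nat_lit 6) (nat_lit 149) (nat_lit 1) (nat_lit 217) (nat_lit 142) (nat_lit 211)) (PT.lf (nat_lit 11248) (nat_lit 6) (nat_lit 148) (nat_lit 1) (nat_lit 218) (nat_lit 142) (nat_lit 210))) (PT.nd (nat_lit 58500) (PT.lf (nat_lit 11172) (nat_lit 6) (nat_lit 147) (nat_lit 1) (nat_lit 219) (nat_lit 142) (nat_lit 209)) (PT.lf (nat_lit 11628) (nat_lit 6) (nat_lit 153) (nat_lit 3) (nat_lit 208) (nat_lit 143) (nat_lit 219)))))) (PT.nd (nat_lit 546) (PT.nd (nat_lit 234) (PT.nd (nat_lit 78) (PT.lf (nat_lit 11704) (nat_lit 6) (nat_lit 154) (nat_lit 3) (nat_lit 209) (nat_lit 143) (nat_lit 218)) (PT.nd (nat_lit 78) (PT.lf (nat_lit 11780) (nat_lit 6) (nat_lit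 155) (nat_lit 3) (nat_lit 210) (nat_lit 143) (nat_lit 217)) (PT.lf (nat_lit 11856) (nat_lit 6) (nat_lit 156) (nat_lit 3) (nat_lit 211) (nat_lit 143) (nat_lit 216)))) (PT.nd (nat_lit 156) (PT.nd (nat_lit 78) (PT.lf (nat_lit 11932) (nat_lit 6) (nat_lit 157) (nat_lit 3) (nat_lit 212) (nat_lit 143) (nat_lit 215)) (PT.lf (nat_lit 12008) (nat_lit 6) (nat_lit 158) (nat_lit 3) (nat_lit 213) (nat_lit 143) (nat_lit 214))) (PT.nd (nat_lit 78) (PT.lf (nat_lit 12008) (nat_lit 6) (nat_lit 158) (nat_lit 1) (nat_lit 214) (nat_lit 143) (nat_lit 213)) (PT.lf (nat_lit 11932) (nat_lit 6) (nat_lit 157) (nat_lit 1) (nat_lit 215) (nat_lit 143) (nat_lit 212))))) (PT.nd (nat_lit 234) (PT.nd (nat_lit 78) (PT.lf (nat_lit 11856) (nat_lit 6) (nat_lit 156) (nat_lit 1) (nat_lit 216) (nat_lit 143) (nat_lit 211)) (PT.nd (nat_lit 78) (PT.lf (nat_lit 11780) (nat_lit 6) (nat_lit 155) (nat_lit 1) (nat_lit 217) (nat_lit 143) (nat_lit 210)) (PT.lf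 (nat_lit 11704) (nat_lit 6) (nat_lit 154) (nat_lit 1) (nat_lit 218) (nat_lit 143) (nat_lit 209)))) (PT.nd (nat_lit 58578) (PT.nd (nat_lit 58500) (PT.lf (nat_lit 11628) (nat_lit 6) (nat_lit 153) (nat_lit 1) (nat_lit 219) (nat_lit 143) (nat_lit 208)) (PT.lf (nat_lit 12160) (nat_lit 6) (nat_lit 160) (nat_lit 3) (nat_lit 208) (nat_lit 144) (nat_lit 218))) (PT.nd (nat_lit 78) (PT.lf (nat_lit 12236) (nat_lit 6) (nat_lit 161) (nat_lit 3) (nat_lit 209) (nat_lit 144) (nat_lit 217)) (PT.lf (nat_lit 12312) (nat_lit 6) (nat_lit 162) (nat_lit 3) (nat_lit 210) (nat_lit 144) (nat_lit 216))))))))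
noncomputable def pc5 : PT := (PT.nd (nat_lit 118950) (PT.nd (nat_lit 59514) (PT.nd (nat_lit 546) (PT.nd (nat_lit 234) (PT.nd (nat_lit 78) (PT.lf (nat_lit 12388) (nat_lit 6) (nat_lit 163) (nat_lit 3) (nat_lit 211) (nat_lit 144) (nat_lit 215)) (PT.nd (nat_lit 78) (PT.lf (nat_lit 12464) (nat_lit 6) (nat_lit 164) (nat_lit 3) (nat_lit 212) (nat_lit 144) (nat_lit 214)) (PT.lf (nat_lit 12540) (nat_lit 3) (nat_lit 165) (nat_lit 1) (nat_lit 213) (nat_lit 144) (nat_lit 213)))) (PT.nd (nat_lit 156) (PT.nd (nat_lit 78) (PT.lf (nat_lit 12464) (nat_lit 6) (nat_lit 164) (nat_lit 1) (nat_lit 214) (nat_lit 144) (nat_lit 212)) (PT.lf (nat_lit 12388) (nat_lit 6) (nat_lit 163) (nat_lit 1) (nat_lit 215) (nat_lit 144) (nat_lit 211))) (PT.nd (nat_lit 78) (PT.lf (nat_lit 12312) (nat_lit 6) (nat_lit 162) (nat_lit 1) (nat_lit 216) (nat_lit 144) (nat_lit 210)) (PT.lf (nat_lit 12236) (nat_lit 6) (nat_lit 161) (nat_lit 1) (nat_lit 217)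 (nat_lit 144) (nat_lit 209))))) (PT.nd (nat_lit 58656) (PT.nd (nat_lit 58500) (PT.lf (nat_lit 12160) (nat_lit 6) (nat_lit 160) (nat_lit 1) (nat_lit 218) (nat_lit 144) (nat_lit 208)) (PT.nd (nat_lit 78) (PT.lf (nat_lit 12616) (nat_lit 6) (nat_lit 166) (nat_lit 3) (nat_lit 207) (nat_lit 145) (nat_lit 218)) (PT.lf (nat_lit 12692) (nat_lit 6) (nat_lit 167) (nat_lit 3) (nat_lit 208) (nat_lit 145) (nat_lit 217)))) (PT.nd (nat_lit 156) (PT.nd (nat_lit 78) (PT.lf (nat_lit 12768) (nat_lit 6) (nat_lit 168) (nat_lit 3) (nat_lit 209) (nat_lit 145) (nat_lit 216)) (PT.lf (nat_lit 12844) (nat_lit 6) (nat_lit 169) (nat_lit 3) (nat_lit 210) (nat_lit 145) (nat_lit 215))) (PT.nd (nat_lit 78) (PT.lf (nat_lit 12920) (nat_lit 6) (nat_lit 170) (nat_lit 3) (nat_lit 211) (nat_lit 145) (nat_lit 214)) (PT.lf (nat_lit 12996) (nat_lit 6) (nat_lit 171) (nat_lit 3) (nat_lit 212) (nat_lit 145) (nat_lit 213)))))) (PT.nd (nat_lit 58890) (PT.nd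 (nat_lit 234) (PT.nd (nat_lit 78) (PT.lf (nat_lit 12996) (nat_lit 6) (nat_lit 171) (nat_lit 1) (nat_lit 213) (nat_lit 145) (nat_lit 212)) (PT.nd (nat_lit 78) (PT.lf (nat_lit 12920) (nat_lit 6) (nat_lit 170) (nat_lit 1) (nat_lit 214) (nat_lit 145) (nat_lit 211)) (PT.lf (nat_lit 12844) (nat_lit 6) (nat_lit 169) (nat_lit 1) (nat_lit 215) (nat_lit 145) (nat_lit 210)))) (PT.nd (nat_lit 156) (PT.nd (nat_lit 78) (PT.lf (nat_lit 12768) (nat_lit 6) (nat_lit 168) (nat_lit 1) (nat_lit 216) (nat_lit 145) (nat_lit 209)) (PT.lf (nat_lit 12692) (nat_lit 6) (nat_lit 167) (nat_lit 1) (nat_lit 217) (nat_lit 145) (nat_lit 208))) (PT.nd (nat_lit 58422) (PT.lf (nat_lit 12616) (nat_lit 6) (nat_lit 166) (nat_lit 1) (nat_lit 218) (nat_lit 145) (nat_lit 207)) (PT.lf (nat_lit 13072) (nat_lit 6) (nat_lit 172) (nat_lit 3) (nat_lit 206) (nat_lit 146) (nat_lit 218))))) (PT.nd (nat_lit 234) (PT.nd (nat_lit 78) (PT.lf (nat_lit 13148) (nat_lit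 6) (nat_lit 173) (nat_lit 3) (nat_lit 207) (nat_lit 146) (nat_lit 217)) (PT.nd (nat_lit 78) (PT.lf (nat_lit 13224) (nat_lit 6) (nat_lit 174) (nat_lit 3) (nat_lit 208) (nat_lit 146) (nat_lit 216)) (PT.lf (nat_lit 13300) (nat_lit 6) (nat_lit 175) (nat_lit 3) (nat_lit 209) (nat_lit 146) (nat_lit 215)))) (PT.nd (nat_lit 156) (PT.nd (nat_lit 78) (PT.lf (nat_lit 13376) (nat_lit 6) (nat_lit 176) (nat_lit 3) (nat_lit 210) (nat_lit 146) (nat_lit 214)) (PT.lf (nat_lit 13452) (nat_lit 6) (nat_lit 177) (nat_lit 3) (nat_lit 211) (nat_lit 146) (nat_lit 213))) (PT.nd (nat_lit 78) (PT.lf (nat_lit 13528) (nat_lit 3) (nat_lit 178) (nat_lit 1) (nat_lit 212) (nat_lit 146) (nat_lit 212)) (PT.lf (nat_lit 13452) (nat_lit 6) (nat_lit 177) (nat_lit 1) (nat_lit 213) (nat_lit 146) (nat_lit 211))))))) (PT.nd (nat_lit 59358) (PT.nd (nat_lit 58812) (PT.nd (nat_lit 234) (PT.nd (nat_lit 78) (PT.lf (nat_lit 13376) (nat_lit 6) (nat_lit 176) (nat_lit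 1) (nat_lit 214) (nat_lit 146) (nat_lit 210)) (PT.nd (nat_lit 78) (PT.lf (nat_lit 13300) (nat_lit 6) (nat_lit 175) (nat_lit 1) (nat_lit 215) (nat_lit 146) (nat_lit 209)) (PT.lf (nat_lit 13224) (nat_lit 6) (nat_lit 174) (nat_lit 1) (nat_lit 216) (nat_lit 146) (nat_lit 208)))) (PT.nd (nat_lit 58422) (PT.nd (nat_lit 78) (PT.lf (nat_lit 13148) (nat_lit 6) (nat_lit 173) (nat_lit 1) (nat_lit 217) (nat_lit 146) (nat_lit 207)) (PT.lf (nat_lit 13072) (nat_lit 6) (nat_lit 172) (nat_lit 1) (nat_lit 218) (nat_lit 146) (nat_lit 206))) (PT.nd (nat_lit 78) (PT.lf (nat_lit 13604) (nat_lit 6) (nat_lit 179) (nat_lit 3) (nat_lit 205) (nat_lit 147) (nat_lit 218)) (PT.lf (nat_lit 13680) (nat_lit 6) (nat_lit 180) (nat_lit 3) (nat_lit 206) (nat_lit 147) (nat_lit 217))))) (PT.nd (nat_lit 234) (PT.nd (nat_lit 78) (PT.lf (nat_lit 13756) (nat_lit 6) (nat_lit 181) (nat_lit 3) (nat_lit 207) (nat_lit 147) (nat_lit 216)) (PT.nd (nat_lit 78)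 (PT.lf (nat_lit 13832) (nat_lit 6) (nat_lit 182) (nat_lit 3) (nat_lit 208) (nat_lit 147) (nat_lit 215)) (PT.lf (nat_lit 13908) (nat_lit 6) (nat_lit 183) (nat_lit 3) (nat_lit 209) (nat_lit 147) (nat_lit 214)))) (PT.nd (nat_lit 156) (PT.nd (nat_lit 78) (PT.lf (nat_lit 13984) (nat_lit 6) (nat_lit 184) (nat_lit 3) (nat_lit 210) (nat_lit 147) (nat_lit 213)) (PT.lf (nat_lit 14060) (nat_lit 6) (nat_lit 185) (nat_lit 3) (nat_lit 211) (nat_lit 147) (nat_lit 212))) (PT.nd (nat_lit 78) (PT.lf (nat_lit 14060) (nat_lit 6) (nat_lit 185) (nat_lit 1) (nat_lit 212) (nat_lit 147) (nat_lit 211)) (PT.lf (nat_lit 13984) (nat_lit 6) (nat_lit 184) (nat_lit 1) (nat_lit 213) (nat_lit 147) (nat_lit 210)))))) (PT.nd (nat_lit 58812) (PT.nd (nat_lit 234) (PT.nd (nat_lit 78) (PT.lf (nat_lit 13908) (nat_lit 6) (nat_lit 183) (nat_lit 1) (nat_lit 214) (nat_lit 147) (nat_lit 209)) (PT.nd (nat_lit 78) (PT.lf (nat_lit 13832) (nat_lit 6) (nat_lit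 182) (nat_lit 1) (nat_lit 215) (nat_lit 147) (nat_lit 208)) (PT.lf (nat_lit 13756) (nat_lit 6) (nat_lit 181) (nat_lit 1) (nat_lit 216) (nat_lit 147) (nat_lit 207)))) (PT.nd (nat_lit 58422) (PT.nd (nat_lit 78) (PT.lf (nat_lit 13680) (nat_lit 6) (nat_lit 180) (nat_lit 1) (nat_lit 217) (nat_lit 147) (nat_lit 206)) (PT.lf (nat_lit 13604) (nat_lit 6) (nat_lit 179) (nat_lit 1) (nat_lit 218) (nat_lit 147) (nat_lit 205))) (PT.nd (nat_lit 78) (PT.lf (nat_lit 14136) (nat_lit 6) (nat_lit 186) (nat_lit 3) (nat_lit 205) (nat_lit 148) (nat_lit 217)) (PT.lf (nat_lit 14212) (nat_lit 6) (nat_lit 187) (nat_lit 3) (nat_lit 206) (nat_lit 148) (nat_lit 216))))) (PT.nd (nat_lit 312) (PT.nd (nat_lit 156) (PT.nd (nat_lit 78) (PT.lf (nat_lit 14288) (nat_lit 6) (nat_lit 188) (nat_lit 3) (nat_lit 207) (nat_lit 148) (nat_lit 215)) (PT.lf (nat_lit 14364) (nat_lit 6) (nat_lit 189) (nat_lit 3) (nat_lit 208) (nat_lit 148) (nat_lit 214))) (PT.nd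 (nat_lit 78) (PT.lf (nat_lit 14440) (nat_lit 6) (nat_lit 190) (nat_lit 3) (nat_lit 209) (nat_lit 148) (nat_lit 213)) (PT.lf (nat_lit 14516) (nat_lit 6) (nat_lit 191) (nat_lit 3) (nat_lit 210) (nat_lit 148) (nat_lit 212)))) (PT.nd (nat_lit 156) (PT.nd (nat_lit 78) (PT.lf (nat_lit 14592) (nat_lit 3) (nat_lit 192) (nat_lit 1) (nat_lit 211) (nat_lit 148) (nat_lit 211)) (PT.lf (nat_lit 14516) (nat_lit 6) (nat_lit 191) (nat_lit 1) (nat_lit 212) (nat_lit 148) (nat_lit 210))) (PT.nd (nat_lit 78) (PT.lf (nat_lit 14440) (nat_lit 6) (nat_lit 190) (nat_lit 1) (nat_lit 213) (nat_lit 148) (nat_lit 209)) (PT.lf (nat_lit 14364) (nat_lit 6) (nat_lit 189) (nat_lit 1) (nat_lit 214) (nat_lit 148) (nat_lit 208))))))))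
noncomputable def pc6 : PT := (PT.nd (nat_lit 118638) (PT.nd (nat_lit 59358) (PT.nd (nat_lit 58812) (PT.nd (nat_lit 58500) (PT.nd (nat_lit 78) (PT.lf (nat_lit 14288) (nat_lit 6) (nat_lit 188) (nat_lit 1) (nat_lit 215) (nat_lit 148) (nat_lit 207)) (PT.nd (nat_lit 78) (PT.lf (nat_lit 14212) (nat_lit 6) (nat_lit 187) (nat_lit 1) (nat_lit 216) (nat_lit 148) (nat_lit 206)) (PT.lf (nat_lit 14136) (nat_lit 6) (nat_lit 186) (nat_lit 1) (nat_lit 217) (nat_lit 148) (nat_lit 205)))) (PT.nd (nat_lit 156) (PT.nd (nat_lit 78) (PT.lf (nat_lit 14668) (nat_lit 6) (nat_lit 193) (nat_lit 3) (nat_lit 204) (nat_lit 149) (nat_lit 217)) (PT.lf (nat_lit 14744) (nat_lit 6) (nat_lit 194) (nat_lit 3) (nat_lit 205) (nat_lit 149) (nat_lit 216))) (PT.nd (nat_lit 78) (PT.lf (nat_lit 14820) (nat_lit 6) (nat_lit 195) (nat_lit 3) (nat_lit 206) (nat_lit 149) (nat_lit 215)) (PT.lf (nat_lit 14896) (nat_lit 6) (nat_lit 196) (nat_lit 3) (nat_lit 207)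 (nat_lit 149) (nat_lit 214))))) (PT.nd (nat_lit 234) (PT.nd (nat_lit 78) (PT.lf (nat_lit 14972) (nat_lit 6) (nat_lit 197) (nat_lit 3) (nat_lit 208) (nat_lit 149) (nat_lit 213)) (PT.nd (nat_lit 78) (PT.lf (nat_lit 15048) (nat_lit 6) (nat_lit 198) (nat_lit 3) (nat_lit 209) (nat_lit 149) (nat_lit 212)) (PT.lf (nat_lit 15124) (nat_lit 6) (nat_lit 199) (nat_lit 3) (nat_lit 210) (nat_lit 149) (nat_lit 211)))) (PT.nd (nat_lit 156) (PT.nd (nat_lit 78) (PT.lf (nat_lit 15124) (nat_lit 6) (nat_lit 199) (nat_lit 1) (nat_lit 211) (nat_lit 149) (nat_lit 210)) (PT.lf (nat_lit 15048) (nat_lit 6) (nat_lit 198) (nat_lit 1) (nat_lit 212) (nat_lit 149) (nat_lit 209))) (PT.nd (nat_lit 78) (PT.lf (nat_lit 14972) (nat_lit 6) (nat_lit 197) (nat_lit 1) (nat_lit 213) (nat_lit 149) (nat_lit 208)) (PT.lf (nat_lit 14896) (nat_lit 6) (nat_lit 196) (nat_lit 1) (nat_lit 214) (nat_lit 149) (nat_lit 207)))))) (PT.nd (nat_lit 58734) (PT.nd (nat_lit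 58422) (PT.nd (nat_lit 78) (PT.lf (nat_lit 14820) (nat_lit 6) (nat_lit 195) (nat_lit 1) (nat_lit 215) (nat_lit 149) (nat_lit 206)) (PT.nd (nat_lit 78) (PT.lf (nat_lit 14744) (nat_lit 6) (nat_lit 194) (nat_lit 1) (nat_lit 216) (nat_lit 149) (nat_lit 205)) (PT.lf (nat_lit 14668) (nat_lit 6) (nat_lit 193) (nat_lit 1) (nat_lit 217) (nat_lit 149) (nat_lit 204)))) (PT.nd (nat_lit 156) (PT.nd (nat_lit 78) (PT.lf (nat_lit 15200) (nat_lit 6) (nat_lit 200) (nat_lit 3) (nat_lit 203) (nat_lit 150) (nat_lit 217)) (PT.lf (nat_lit 15276) (nat_lit 6) (nat_lit 201) (nat_lit 3) (nat_lit 204) (nat_lit 150) (nat_lit 216))) (PT.nd (nat_lit 78) (PT.lf (nat_lit 15352) (nat_lit 6) (nat_lit 202) (nat_lit 3) (nat_lit 205) (nat_lit 150) (nat_lit 215)) (PT.lf (nat_lit 15428) (nat_lit 6) (nat_lit 203) (nat_lit 3) (nat_lit 206) (nat_lit 150) (nat_lit 214))))) (PT.nd (nat_lit 234) (PT.nd (nat_lit 78) (PT.lf (nat_lit 15504) (nat_lit 6) (nat_lit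 204) (nat_lit 3) (nat_lit 207) (nat_lit 150) (nat_lit 213)) (PT.nd (nat_lit 78) (PT.lf (nat_lit 15580) (nat_lit 6) (nat_lit 205) (nat_lit 3) (nat_lit 208) (nat_lit 150) (nat_lit 212)) (PT.lf (nat_lit 15656) (nat_lit 6) (nat_lit 206) (nat_lit 3) (nat_lit 209) (nat_lit 150) (nat_lit 211)))) (PT.nd (nat_lit 156) (PT.nd (nat_lit 78) (PT.lf (nat_lit 15732) (nat_lit 3) (nat_lit 207) (nat_lit 1) (nat_lit 210) (nat_lit 150) (nat_lit 210)) (PT.lf (nat_lit 15656) (nat_lit 6) (nat_lit 206) (nat_lit 1) (nat_lit 211) (nat_lit 150) (nat_lit 209))) (PT.nd (nat_lit 78) (PT.lf (nat_lit 15580) (nat_lit 6) (nat_lit 205) (nat_lit 1) (nat_lit 212) (nat_lit 150) (nat_lit 208)) (PT.lf (nat_lit 15504) (nat_lit 6) (nat_lit 204) (nat_lit 1) (nat_lit 213) (nat_lit 150) (nat_lit 207))))))) (PT.nd (nat_lit 59280) (PT.nd (nat_lit 58734) (PT.nd (nat_lit 234) (PT.nd (nat_lit 78) (PT.lf (nat_lit 15428) (nat_lit 6) (nat_lit 203) (nat_lit 1) (nat_lit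 214) (nat_lit 150) (nat_lit 206)) (PT.nd (nat_lit 78) (PT.lf (nat_lit 15352) (nat_lit 6) (nat_lit 202) (nat_lit 1) (nat_lit 215) (nat_lit 150) (nat_lit 205)) (PT.lf (nat_lit 15276) (nat_lit 6) (nat_lit 201) (nat_lit 1) (nat_lit 216) (nat_lit 150) (nat_lit 204)))) (PT.nd (nat_lit 58344) (PT.nd (nat_lit 58266) (PT.lf (nat_lit 15200) (nat_lit 6) (nat_lit 200) (nat_lit 1) (nat_lit 217) (nat_lit 150) (nat_lit 203)) (PT.lf (nat_lit 15808) (nat_lit 6) (nat_lit 208) (nat_lit 3) (nat_lit 203) (nat_lit 151) (nat_lit 216))) (PT.nd (nat_lit 78) (PT.lf (nat_lit 15884) (nat_lit 6) (nat_lit 209) (nat_lit 3) (nat_lit 204) (nat_lit 151) (nat_lit 215)) (PT.lf (nat_lit 15960) (nat_lit 6) (nat_lit 210) (nat_lit 3) (nat_lit 205) (nat_lit 151) (nat_lit 214))))) (PT.nd (nat_lit 234) (PT.nd (nat_lit 78) (PT.lf (nat_lit 16036) (nat_lit 6) (nat_lit 211) (nat_lit 3) (nat_lit 206) (nat_lit 151) (nat_lit 213)) (PT.nd (nat_lit 78) (PT.lf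 (nat_lit 16112) (nat_lit 6) (nat_lit 212) (nat_lit 3) (nat_lit 207) (nat_lit 151) (nat_lit 212)) (PT.lf (nat_lit 16188) (nat_lit 6) (nat_lit 213) (nat_lit 3) (nat_lit 208) (nat_lit 151) (nat_lit 211)))) (PT.nd (nat_lit 156) (PT.nd (nat_lit 78) (PT.lf (nat_lit 16264) (nat_lit 6) (nat_lit 214) (nat_lit 3) (nat_lit 209) (nat_lit 151) (nat_lit 210)) (PT.lf (nat_lit 16264) (nat_lit 6) (nat_lit 214) (nat_lit 1) (nat_lit 210) (nat_lit 151) (nat_lit 209))) (PT.nd (nat_lit 78) (PT.lf (nat_lit 16188) (nat_lit 6) (nat_lit 213) (nat_lit 1) (nat_lit 211) (nat_lit 151) (nat_lit 208)) (PT.lf (nat_lit 16112) (nat_lit 6) (nat_lit 212) (nat_lit 1) (nat_lit 212) (nat_lit 151) (nat_lit 207)))))) (PT.nd (nat_lit 58734) (PT.nd (nat_lit 234) (PT.nd (nat_lit 78) (PT.lf (nat_lit 16036) (nat_lit 6) (nat_lit 211) (nat_lit 1) (nat_lit 213) (nat_lit 151) (nat_lit 206)) (PT.nd (nat_lit 78) (PT.lf (nat_lit 15960) (nat_lit 6) (nat_lit 210)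 (nat_lit 1) (nat_lit 214) (nat_lit 151) (nat_lit 205)) (PT.lf (nat_lit 15884) (nat_lit 6) (nat_lit 209) (nat_lit 1) (nat_lit 215) (nat_lit 151) (nat_lit 204)))) (PT.nd (nat_lit 58344) (PT.nd (nat_lit 58266) (PT.lf (nat_lit 15808) (nat_lit 6) (nat_lit 208) (nat_lit 1) (nat_lit 216) (nat_lit 151) (nat_lit 203)) (PT.lf (nat_lit 16340) (nat_lit 6) (nat_lit 215) (nat_lit 3) (nat_lit 202) (nat_lit 152) (nat_lit 216))) (PT.nd (nat_lit 78) (PT.lf (nat_lit 16416) (nat_lit 6) (nat_lit 216) (nat_lit 3) (nat_lit 203) (nat_lit 152) (nat_lit 215)) (PT.lf (nat_lit 16492) (nat_lit 6) (nat_lit 217) (nat_lit 3) (nat_lit 204) (nat_lit 152) (nat_lit 214))))) (PT.nd (nat_lit 312) (PT.nd (nat_lit 156) (PT.nd (nat_lit 78) (PT.lf (nat_lit 16568) (nat_lit 6) (nat_lit 218) (nat_lit 3) (nat_lit 205) (nat_lit 152) (nat_lit 213)) (PT.lf (nat_lit 16644) (nat_lit 6) (nat_lit 219) (nat_lit 3) (nat_lit 206) (nat_lit 152) (nat_lit 212))) (PT.nd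 (nat_lit 78) (PT.lf (nat_lit 16720) (nat_lit 6) (nat_lit 220) (nat_lit 3) (nat_lit 207) (nat_lit 152) (nat_lit 211)) (PT.lf (nat_lit 16796) (nat_lit 6) (nat_lit 221) (nat_lit 3) (nat_lit 208) (nat_lit 152) (nat_lit 210)))) (PT.nd (nat_lit 156) (PT.nd (nat_lit 78) (PT.lf (nat_lit 16872) (nat_lit 3) (nat_lit 222) (nat_lit 1) (nat_lit 209) (nat_lit 152) (nat_lit 209)) (PT.lf (nat_lit 16796) (nat_lit 6) (nat_lit 221) (nat_lit 1) (nat_lit 210) (nat_lit 152) (nat_lit 208))) (PT.nd (nat_lit 78) (PT.lf (nat_lit 16720) (nat_lit 6) (nat_lit 220) (nat_lit 1) (nat_lit 211) (nat_lit 152) (nat_lit 207)) (PT.lf (nat_lit 16644) (nat_lit 6) (nat_lit 219) (nat_lit 1) (nat_lit 212) (nat_lit 152) (nat_lit 206))))))))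
noncomputable def pc7 : PT := (PT.nd (nat_lit 118326) (PT.nd (nat_lit 59202) (PT.nd (nat_lit 58656) (PT.nd (nat_lit 234) (PT.nd (nat_lit 78) (PT.lf (nat_lit 16568) (nat_lit 6) (nat_lit 218) (nat_lit 1) (nat_lit 213) (nat_lit 152) (nat_lit 205)) (PT.nd (nat_lit 78) (PT.lf (nat_lit 16492) (nat_lit 6) (nat_lit 217) (nat_lit 1) (nat_lit 214) (nat_lit 152) (nat_lit 204)) (PT.lf (nat_lit 16416) (nat_lit 6) (nat_lit 216) (nat_lit 1) (nat_lit 215) (nat_lit 152) (nat_lit 203)))) (PT.nd (nat_lit 58266) (PT.nd (nat_lit 58188) (PT.lf (nat_lit 16340) (nat_lit 6) (nat_lit 215) (nat_lit 1) (nat_lit 216) (nat_lit 152) (nat_lit 202)) (PT.lf (nat_lit 16948) (nat_lit 6) (nat_lit 223) (nat_lit 3) (nat_lit 201) (nat_lit 153) (nat_lit 216))) (PT.nd (nat_lit 78) (PT.lf (nat_lit 17024) (nat_lit 6) (nat_lit 224) (nat_lit 3) (nat_lit 202) (nat_lit 153) (nat_lit 215)) (PT.lf (nat_lit 17100) (nat_lit 6) (nat_lit 225) (nat_lit 3) (nat_lit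 203) (nat_lit 153) (nat_lit 214))))) (PT.nd (nat_lit 234) (PT.nd (nat_lit 78) (PT.lf (nat_lit 17176) (nat_lit 6) (nat_lit 226) (nat_lit 3) (nat_lit 204) (nat_lit 153) (nat_lit 213)) (PT.nd (nat_lit 78) (PT.lf (nat_lit 17252) (nat_lit 6) (nat_lit 227) (nat_lit 3) (nat_lit 205) (nat_lit 153) (nat_lit 212)) (PT.lf (nat_lit 17328) (nat_lit 6) (nat_lit 228) (nat_lit 3) (nat_lit 206) (nat_lit 153) (nat_lit 211)))) (PT.nd (nat_lit 156) (PT.nd (nat_lit 78) (PT.lf (nat_lit 17404) (nat_lit 6) (nat_lit 229) (nat_lit 3) (nat_lit 207) (nat_lit 153) (nat_lit 210)) (PT.lf (nat_lit 17480) (nat_lit 6) (nat_lit 230) (nat_lit 3) (nat_lit 208) (nat_lit 153) (nat_lit 209))) (PT.nd (nat_lit 78) (PT.lf (nat_lit 17480) (nat_lit 6) (nat_lit 230) (nat_lit 1) (nat_lit 209) (nat_lit 153) (nat_lit 208)) (PT.lf (nat_lit 17404) (nat_lit 6) (nat_lit 229) (nat_lit 1) (nat_lit 210) (nat_lit 153) (nat_lit 207)))))) (PT.nd (nat_lit 58578) (PT.nd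 (nat_lit 234) (PT.nd (nat_lit 78) (PT.lf (nat_lit 17328) (nat_lit 6) (nat_lit 228) (nat_lit 1) (nat_lit 211) (nat_lit 153) (nat_lit 206)) (PT.nd (nat_lit 78) (PT.lf (nat_lit 17252) (nat_lit 6) (nat_lit 227) (nat_lit 1) (nat_lit 212) (nat_lit 153) (nat_lit 205)) (PT.lf (nat_lit 17176) (nat_lit 6) (nat_lit 226) (nat_lit 1) (nat_lit 213) (nat_lit 153) (nat_lit 204)))) (PT.nd (nat_lit 156) (PT.nd (nat_lit 78) (PT.lf (nat_lit 17100) (nat_lit 6) (nat_lit 225) (nat_lit 1) (nat_lit 214) (nat_lit 153) (nat_lit 203)) (PT.lf (nat_lit 17024) (nat_lit 6) (nat_lit 224) (nat_lit 1) (nat_lit 215) (nat_lit 153) (nat_lit 202))) (PT.nd (nat_lit 58110) (PT.lf (nat_lit 16948) (nat_lit 6) (nat_lit 223) (nat_lit 1) (nat_lit 216) (nat_lit 153) (nat_lit 201)) (PT.lf (nat_lit 17556) (nat_lit 6) (nat_lit 231) (nat_lit 3) (nat_lit 200) (nat_lit 154) (nat_lit 216))))) (PT.nd (nat_lit 234) (PT.nd (nat_lit 78) (PT.lf (nat_lit 17632) (nat_lit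 6) (nat_lit 232) (nat_lit 3) (nat_lit 201) (nat_lit 154) (nat_lit 215)) (PT.nd (nat_lit 78) (PT.lf (nat_lit 17708) (nat_lit 6) (nat_lit 233) (nat_lit 3) (nat_lit 202) (nat_lit 154) (nat_lit 214)) (PT.lf (nat_lit 17784) (nat_lit 6) (nat_lit 234) (nat_lit 3) (nat_lit 203) (nat_lit 154) (nat_lit 213)))) (PT.nd (nat_lit 156) (PT.nd (nat_lit 78) (PT.lf (nat_lit 17860) (nat_lit 6) (nat_lit 235) (nat_lit 3) (nat_lit 204) (nat_lit 154) (nat_lit 212)) (PT.lf (nat_lit 17936) (nat_lit 6) (nat_lit 236) (nat_lit 3) (nat_lit 205) (nat_lit 154) (nat_lit 211))) (PT.nd (nat_lit 78) (PT.lf (nat_lit 18012) (nat_lit 6) (nat_lit 237) (nat_lit 3) (nat_lit 206) (nat_lit 154) (nat_lit 210)) (PT.lf (nat_lit 18088) (nat_lit 6) (nat_lit 238) (nat_lit 3) (nat_lit 207) (nat_lit 154) (nat_lit 209))))))) (PT.nd (nat_lit 59124) (PT.nd (nat_lit 546) (PT.nd (nat_lit 234) (PT.nd (nat_lit 78) (PT.lf (nat_lit 18164) (nat_lit 3) (nat_lit 239) (nat_lit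 1) (nat_lit 208) (nat_lit 154) (nat_lit 208)) (PT.nd (nat_lit 78) (PT.lf (nat_lit 18088) (nat_lit 6) (nat_lit 238) (nat_lit 1) (nat_lit 209) (nat_lit 154) (nat_lit 207)) (PT.lf (nat_lit 18012) (nat_lit 6) (nat_lit 237) (nat_lit 1) (nat_lit 210) (nat_lit 154) (nat_lit 206)))) (PT.nd (nat_lit 156) (PT.nd (nat_lit 78) (PT.lf (nat_lit 17936) (nat_lit 6) (nat_lit 236) (nat_lit 1) (nat_lit 211) (nat_lit 154) (nat_lit 205)) (PT.lf (nat_lit 17860) (nat_lit 6) (nat_lit 235) (nat_lit 1) (nat_lit 212) (nat_lit 154) (nat_lit 204))) (PT.nd (nat_lit 78) (PT.lf (nat_lit 17784) (nat_lit 6) (nat_lit 234) (nat_lit 1) (nat_lit 213) (nat_lit 154) (nat_lit 203)) (PT.lf (nat_lit 17708) (nat_lit 6) (nat_lit 233) (nat_lit 1) (nat_lit 214) (nat_lit 154) (nat_lit 202))))) (PT.nd (nat_lit 58266) (PT.nd (nat_lit 78) (PT.lf (nat_lit 17632) (nat_lit 6) (nat_lit 232) (nat_lit 1) (nat_lit 215) (nat_lit 154) (nat_lit 201)) (PT.nd (nat_lit 58110)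 (PT.lf (nat_lit 17556) (nat_lit 6) (nat_lit 231) (nat_lit 1) (nat_lit 216) (nat_lit 154) (nat_lit 200)) (PT.lf (nat_lit 18240) (nat_lit 6) (nat_lit 240) (nat_lit 3) (nat_lit 200) (nat_lit 155) (nat_lit 215)))) (PT.nd (nat_lit 156) (PT.nd (nat_lit 78) (PT.lf (nat_lit 18316) (nat_lit 6) (nat_lit 241) (nat_lit 3) (nat_lit 201) (nat_lit 155) (nat_lit 214)) (PT.lf (nat_lit 18392) (nat_lit 6) (nat_lit 242) (nat_lit 3) (nat_lit 202) (nat_lit 155) (nat_lit 213))) (PT.nd (nat_lit 78) (PT.lf (nat_lit 18468) (nat_lit 6) (nat_lit 243) (nat_lit 3) (nat_lit 203) (nat_lit 155) (nat_lit 212)) (PT.lf (nat_lit 18544) (nat_lit 6) (nat_lit 244) (nat_lit 3) (nat_lit 204) (nat_lit 155) (nat_lit 211)))))) (PT.nd (nat_lit 546) (PT.nd (nat_lit 234) (PT.nd (nat_lit 78) (PT.lf (nat_lit 18620) (nat_lit 6) (nat_lit 245) (nat_lit 3) (nat_lit 205) (nat_lit 155) (nat_lit 210)) (PT.nd (nat_lit 78) (PT.lf (nat_lit 18696) (nat_lit 6) (nat_lit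 246) (nat_lit 3) (nat_lit 206) (nat_lit 155) (nat_lit 209)) (PT.lf (nat_lit 18772) (nat_lit 6) (nat_lit 247) (nat_lit 3) (nat_lit 207) (nat_lit 155) (nat_lit 208)))) (PT.nd (nat_lit 156) (PT.nd (nat_lit 78) (PT.lf (nat_lit 18772) (nat_lit 6) (nat_lit 247) (nat_lit 1) (nat_lit 208) (nat_lit 155) (nat_lit 207)) (PT.lf (nat_lit 18696) (nat_lit 6) (nat_lit 246) (nat_lit 1) (nat_lit 209) (nat_lit 155) (nat_lit 206))) (PT.nd (nat_lit 78) (PT.lf (nat_lit 18620) (nat_lit 6) (nat_lit 245) (nat_lit 1) (nat_lit 210) (nat_lit 155) (nat_lit 205)) (PT.lf (nat_lit 18544) (nat_lit 6) (nat_lit 244) (nat_lit 1) (nat_lit 211) (nat_lit 155) (nat_lit 204))))) (PT.nd (nat_lit 58344) (PT.nd (nat_lit 156) (PT.nd (nat_lit 78) (PT.lf (nat_lit 18468) (nat_lit 6) (nat_lit 243) (nat_lit 1) (nat_lit 212) (nat_lit 155) (nat_lit 203)) (PT.lf (nat_lit 18392) (nat_lit 6) (nat_lit 242) (nat_lit 1) (nat_lit 213) (nat_lit 155) (nat_lit 202))) (PT.nd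 (nat_lit 78) (PT.lf (nat_lit 18316) (nat_lit 6) (nat_lit 241) (nat_lit 1) (nat_lit 214) (nat_lit 155) (nat_lit 201)) (PT.lf (nat_lit 18240) (nat_lit 6) (nat_lit 240) (nat_lit 1) (nat_lit 215) (nat_lit 155) (nat_lit 200)))) (PT.nd (nat_lit 156) (PT.nd (nat_lit 78) (PT.lf (nat_lit 18848) (nat_lit 6) (nat_lit 248) (nat_lit 3) (nat_lit 199) (nat_lit 156) (nat_lit 215)) (PT.lf (nat_lit 18924) (nat_lit 6) (nat_lit 249) (nat_lit 3) (nat_lit 200) (nat_lit 156) (nat_lit 214))) (PT.nd (nat_lit 78) (PT.lf (nat_lit 19000) (nat_lit 6) (nat_lit 250) (nat_lit 3) (nat_lit 201) (nat_lit 156) (nat_lit 213)) (PT.lf (nat_lit 19076) (nat_lit 6) (nat_lit 251) (nat_lit 3) (nat_lit 202) (nat_lit 156) (nat_lit 212))))))))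
noncomputable def pc8 : PT := (PT.nd (nat_lit 60138) (PT.nd (nat_lit 59046) (PT.nd (nat_lit 546) (PT.nd (nat_lit 234) (PT.nd (nat_lit 78) (PT.lf (nat_lit 19152) (nat_lit 6) (nat_lit 252) (nat_lit 3) (nat_lit 203) (nat_lit 156) (nat_lit 211)) (PT.nd (nat_lit 78) (PT.lf (nat_lit 19228) (nat_lit 6) (nat_lit 253) (nat_lit 3) (nat_lit 204) (nat_lit 156) (nat_lit 210)) (PT.lf (nat_lit 19304) (nat_lit 6) (nat_lit 254) (nat_lit 3) (nat_lit 205) (nat_lit 156) (nat_lit 209)))) (PT.nd (nat_lit 156) (PT.nd (nat_lit 78) (PT.lf (nat_lit 19380) (nat_lit 6) (nat_lit 255) (nat_lit 3) (nat_lit 206) (nat_lit 156) (nat_lit 208)) (PT.lf (nat_lit 19456) (nat_lit 3) (nat_lit 256) (nat_lit 1) (nat_lit 207) (nat_lit 156) (nat_lit 207))) (PT.nd (nat_lit 78) (PT.lf (nat_lit 19380) (nat_lit 6) (nat_lit 255) (nat_lit 1) (nat_lit 208) (nat_lit 156) (nat_lit 206)) (PT.lf (nat_lit 19304) (nat_lit 6) (nat_lit 254) (nat_lit 1) (nat_lit 209) (nat_lit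 156) (nat_lit 205))))) (PT.nd (nat_lit 234) (PT.nd (nat_lit 78) (PT.lf (nat_lit 19228) (nat_lit 6) (nat_lit 253) (nat_lit 1) (nat_lit 210) (nat_lit 156) (nat_lit 204)) (PT.nd (nat_lit 78) (PT.lf (nat_lit 19152) (nat_lit 6) (nat_lit 252) (nat_lit 1) (nat_lit 211) (nat_lit 156) (nat_lit 203)) (PT.lf (nat_lit 19076) (nat_lit 6) (nat_lit 251) (nat_lit 1) (nat_lit 212) (nat_lit 156) (nat_lit 202)))) (PT.nd (nat_lit 156) (PT.nd (nat_lit 78) (PT.lf (nat_lit 19000) (nat_lit 6) (nat_lit 250) (nat_lit 1) (nat_lit 213) (nat_lit 156) (nat_lit 201)) (PT.lf (nat_lit 18924) (nat_lit 6) (nat_lit 249) (nat_lit 1) (nat_lit 214) (nat_lit 156) (nat_lit 200))) (PT.nd (nat_lit 58032) (PT.lf (nat_lit 18848) (nat_lit 6) (nat_lit 248) (nat_lit 1) (nat_lit 215) (nat_lit 156) (nat_lit 199)) (PT.lf (nat_lit 19532) (nat_lit 6) (nat_lit 257) (nat_lit 3) (nat_lit 198) (nat_lit 157) (nat_lit 215)))))) (PT.nd (nat_lit 546) (PT.nd (nat_lit 234)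 (PT.nd (nat_lit 78) (PT.lf (nat_lit 19608) (nat_lit 6) (nat_lit 258) (nat_lit 3) (nat_lit 199) (nat_lit 157) (nat_lit 214)) (PT.nd (nat_lit 78) (PT.lf (nat_lit 19684) (nat_lit 6) (nat_lit 259) (nat_lit 3) (nat_lit 200) (nat_lit 157) (nat_lit 213)) (PT.lf (nat_lit 19760) (nat_lit 6) (nat_lit 260) (nat_lit 3) (nat_lit 201) (nat_lit 157) (nat_lit 212)))) (PT.nd (nat_lit 156) (PT.nd (nat_lit 78) (PT.lf (nat_lit 19836) (nat_lit 6) (nat_lit 261) (nat_lit 3) (nat_lit 202) (nat_lit 157) (nat_lit 211)) (PT.lf (nat_lit 19912) (nat_lit 6) (nat_lit 262) (nat_lit 3) (nat_lit 203) (nat_lit 157) (nat_lit 210))) (PT.nd (nat_lit 78) (PT.lf (nat_lit 19988) (nat_lit 6) (nat_lit 263) (nat_lit 3) (nat_lit 204) (nat_lit 157) (nat_lit 209)) (PT.lf (nat_lit 20064) (nat_lit 6) (nat_lit 264) (nat_lit 3) (nat_lit 205) (nat_lit 157) (nat_lit 208))))) (PT.nd (nat_lit 234) (PT.nd (nat_lit 78) (PT.lf (nat_lit 20140) (nat_lit 6) (nat_lit 265)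 (nat_lit 3) (nat_lit 206) (nat_lit 157) (nat_lit 207)) (PT.nd (nat_lit 78) (PT.lf (nat_lit 20140) (nat_lit 6) (nat_lit 265) (nat_lit 1) (nat_lit 207) (nat_lit 157) (nat_lit 206)) (PT.lf (nat_lit 20064) (nat_lit 6) (nat_lit 264) (nat_lit 1) (nat_lit 208) (nat_lit 157) (nat_lit 205)))) (PT.nd (nat_lit 156) (PT.nd (nat_lit 78) (PT.lf (nat_lit 19988) (nat_lit 6) (nat_lit 263) (nat_lit 1) (nat_lit 209) (nat_lit 157) (nat_lit 204)) (PT.lf (nat_lit 19912) (nat_lit 6) (nat_lit 262) (nat_lit 1) (nat_lit 210) (nat_lit 157) (nat_lit 203))) (PT.nd (nat_lit 78) (PT.lf (nat_lit 19836) (nat_lit 6) (nat_lit 261) (nat_lit 1) (nat_lit 211) (nat_lit 157) (nat_lit 202)) (PT.lf (nat_lit 19760) (nat_lit 6) (nat_lit 260) (nat_lit 1) (nat_lit 212) (nat_lit 157) (nat_lit 201))))))) (PT.nd (nat_lit 58968) (PT.nd (nat_lit 58422) (PT.nd (nat_lit 58110) (PT.nd (nat_lit 78) (PT.lf (nat_lit 19684) (nat_lit 6) (nat_lit 259) (nat_lit 1) (nat_lit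 213) (nat_lit 157) (nat_lit 200)) (PT.nd (nat_lit 78) (PT.lf (nat_lit 19608) (nat_lit 6) (nat_lit 258) (nat_lit 1) (nat_lit 214) (nat_lit 157) (nat_lit 199)) (PT.lf (nat_lit 19532) (nat_lit 6) (nat_lit 257) (nat_lit 1) (nat_lit 215) (nat_lit 157) (nat_lit 198)))) (PT.nd (nat_lit 156) (PT.nd (nat_lit 78) (PT.lf (nat_lit 20216) (nat_lit 6) (nat_lit 266) (nat_lit 3) (nat_lit 197) (nat_lit 158) (nat_lit 215)) (PT.lf (nat_lit 20292) (nat_lit 6) (nat_lit 267) (nat_lit 3) (nat_lit 198) (nat_lit 158) (nat_lit 214))) (PT.nd (nat_lit 78) (PT.lf (nat_lit 20368) (nat_lit 6) (nat_lit 268) (nat_lit 3) (nat_lit 199) (nat_lit 158) (nat_lit 213)) (PT.lf (nat_lit 20444) (nat_lit 6) (nat_lit 269) (nat_lit 3) (nat_lit 200) (nat_lit 158) (nat_lit 212))))) (PT.nd (nat_lit 234) (PT.nd (nat_lit 78) (PT.lf (nat_lit 20520) (nat_lit 6) (nat_lit 270) (nat_lit 3) (nat_lit 201) (nat_lit 158) (nat_lit 211)) (PT.nd (nat_lit 78) (PT.lf (nat_lit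 20596) (nat_lit 6) (nat_lit 271) (nat_lit 3) (nat_lit 202) (nat_lit 158) (nat_lit 210)) (PT.lf (nat_lit 20672) (nat_lit 6) (nat_lit 272) (nat_lit 3) (nat_lit 203) (nat_lit 158) (nat_lit 209)))) (PT.nd (nat_lit 156) (PT.nd (nat_lit 78) (PT.lf (nat_lit 20748) (nat_lit 6) (nat_lit 273) (nat_lit 3) (nat_lit 204) (nat_lit 158) (nat_lit 208)) (PT.lf (nat_lit 20824) (nat_lit 6) (nat_lit 274) (nat_lit 3) (nat_lit 205) (nat_lit 158) (nat_lit 207))) (PT.nd (nat_lit 78) (PT.lf (nat_lit 20900) (nat_lit 3) (nat_lit 275) (nat_lit 1) (nat_lit 206) (nat_lit 158) (nat_lit 206)) (PT.lf (nat_lit 20824) (nat_lit 6) (nat_lit 274) (nat_lit 1) (nat_lit 207) (nat_lit 158) (nat_lit 205)))))) (PT.nd (nat_lit 546) (PT.nd (nat_lit 234) (PT.nd (nat_lit 78) (PT.lf (nat_lit 20748) (nat_lit 6) (nat_lit 273) (nat_lit 1) (nat_lit 208) (nat_lit 158) (nat_lit 204)) (PT.nd (nat_lit 78) (PT.lf (nat_lit 20672) (nat_lit 6) (nat_lit 272) (nat_lit 1)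 (nat_lit 209) (nat_lit 158) (nat_lit 203)) (PT.lf (nat_lit 20596) (nat_lit 6) (nat_lit 271) (nat_lit 1) (nat_lit 210) (nat_lit 158) (nat_lit 202)))) (PT.nd (nat_lit 156) (PT.nd (nat_lit 78) (PT.lf (nat_lit 20520) (nat_lit 6) (nat_lit 270) (nat_lit 1) (nat_lit 211) (nat_lit 158) (nat_lit 201)) (PT.lf (nat_lit 20444) (nat_lit 6) (nat_lit 269) (nat_lit 1) (nat_lit 212) (nat_lit 158) (nat_lit 200))) (PT.nd (nat_lit 78) (PT.lf (nat_lit 20368) (nat_lit 6) (nat_lit 268) (nat_lit 1) (nat_lit 213) (nat_lit 158) (nat_lit 199)) (PT.lf (nat_lit 20292) (nat_lit 6) (nat_lit 267) (nat_lit 1) (nat_lit 214) (nat_lit 158) (nat_lit 198))))) (PT.nd (nat_lit 58110) (PT.nd (nat_lit 57954) (PT.lf (nat_lit 20216) (nat_lit 6) (nat_lit 266) (nat_lit 1) (nat_lit 215) (nat_lit 158) (nat_lit 197)) (PT.nd (nat_lit 78) (PT.lf (nat_lit 21052) (nat_lit 6) (nat_lit 277) (nat_lit 3) (nat_lit 197) (nat_lit 159) (nat_lit 214)) (PT.lf (nat_lit 21128)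 (nat_lit 6) (nat_lit 278) (nat_lit 3) (nat_lit 198) (nat_lit 159) (nat_lit 213)))) (PT.nd (nat_lit 156) (PT.nd (nat_lit 78) (PT.lf (nat_lit 21204) (nat_lit 6) (nat_lit 279) (nat_lit 3) (nat_lit 199) (nat_lit 159) (nat_lit 212)) (PT.lf (nat_lit 21280) (nat_lit 6) (nat_lit 280) (nat_lit 3) (nat_lit 200) (nat_lit 159) (nat_lit 211))) (PT.nd (nat_lit 78) (PT.lf (nat_lit 21356) (nat_lit 6) (nat_lit 281) (nat_lit 3) (nat_lit 201) (nat_lit 159) (nat_lit 210)) (PT.lf (nat_lit 21432) (nat_lit 6) (nat_lit 282) (nat_lit 3) (nat_lit 202) (nat_lit 159) (nat_lit 209))))))))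
noncomputable def pc9 : PT := (PT.nd (nat_lit 60060) (PT.nd (nat_lit 58968) (PT.nd (nat_lit 546) (PT.nd (nat_lit 234) (PT.nd (nat_lit 78) (PT.lf (nat_lit 21508) (nat_lit 6) (nat_lit 283) (nat_lit 3) (nat_lit 203) (nat_lit 159) (nat_lit 208)) (PT.nd (nat_lit 78) (PT.lf (nat_lit 21584) (nat_lit 6) (nat_lit 284) (nat_lit 3) (nat_lit 204) (nat_lit 159) (nat_lit 207)) (PT.lf (nat_lit 21660) (nat_lit 6) (nat_lit 285) (nat_lit 3) (nat_lit 205) (nat_lit 159) (nat_lit 206)))) (PT.nd (nat_lit 156) (PT.nd (nat_lit 78) (PT.lf (nat_lit 21660) (nat_lit 6) (nat_lit 285) (nat_lit 1) (nat_lit 206) (nat_lit 159) (nat_lit 205)) (PT.lf (nat_lit 21584) (nat_lit 6) (nat_lit 284) (nat_lit 1) (nat_lit 207) (nat_lit 159) (nat_lit 204))) (PT.nd (nat_lit 78) (PT.lf (nat_lit 21508) (nat_lit 6) (nat_lit 283) (nat_lit 1) (nat_lit 208) (nat_lit 159) (nat_lit 203)) (PT.lf (nat_lit 21432) (nat_lit 6) (nat_lit 282) (nat_lit 1) (nat_lit 209) (nat_lit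 159) (nat_lit 202))))) (PT.nd (nat_lit 234) (PT.nd (nat_lit 78) (PT.lf (nat_lit 21356) (nat_lit 6) (nat_lit 281) (nat_lit 1) (nat_lit 210) (nat_lit 159) (nat_lit 201)) (PT.nd (nat_lit 78) (PT.lf (nat_lit 21280) (nat_lit 6) (nat_lit 280) (nat_lit 1) (nat_lit 211) (nat_lit 159) (nat_lit 200)) (PT.lf (nat_lit 21204) (nat_lit 6) (nat_lit 279) (nat_lit 1) (nat_lit 212) (nat_lit 159) (nat_lit 199)))) (PT.nd (nat_lit 58032) (PT.nd (nat_lit 78) (PT.lf (nat_lit 21128) (nat_lit 6) (nat_lit 278) (nat_lit 1) (nat_lit 213) (nat_lit 159) (nat_lit 198)) (PT.lf (nat_lit 21052) (nat_lit 6) (nat_lit 277) (nat_lit 1) (nat_lit 214) (nat_lit 159) (nat_lit 197))) (PT.nd (nat_lit 78) (PT.lf (nat_lit 21736) (nat_lit 6) (nat_lit 286) (nat_lit 3) (nat_lit 196) (nat_lit 160) (nat_lit 214)) (PT.lf (nat_lit 21812) (nat_lit 6) (nat_lit 287) (nat_lit 3) (nat_lit 197) (nat_lit 160) (nat_lit 213)))))) (PT.nd (nat_lit 546) (PT.nd (nat_lit 234)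 (PT.nd (nat_lit 78) (PT.lf (nat_lit 21888) (nat_lit 6) (nat_lit 288) (nat_lit 3) (nat_lit 198) (nat_lit 160) (nat_lit 212)) (PT.nd (nat_lit 78) (PT.lf (nat_lit 21964) (nat_lit 6) (nat_lit 289) (nat_lit 3) (nat_lit 199) (nat_lit 160) (nat_lit 211)) (PT.lf (nat_lit 22040) (nat_lit 6) (nat_lit 290) (nat_lit 3) (nat_lit 200) (nat_lit 160) (nat_lit 210)))) (PT.nd (nat_lit 156) (PT.nd (nat_lit 78) (PT.lf (nat_lit 22116) (nat_lit 6) (nat_lit 291) (nat_lit 3) (nat_lit 201) (nat_lit 160) (nat_lit 209)) (PT.lf (nat_lit 22192) (nat_lit 6) (nat_lit 292) (nat_lit 3) (nat_lit 202) (nat_lit 160) (nat_lit 208))) (PT.nd (nat_lit 78) (PT.lf (nat_lit 22268) (nat_lit 6) (nat_lit 293) (nat_lit 3) (nat_lit 203) (nat_lit 160) (nat_lit 207)) (PT.lf (nat_lit 22344) (nat_lit 6) (nat_lit 294) (nat_lit 3) (nat_lit 204) (nat_lit 160) (nat_lit 206))))) (PT.nd (nat_lit 234) (PT.nd (nat_lit 78) (PT.lf (nat_lit 22420) (nat_lit 3) (nat_lit 295)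 (nat_lit 1) (nat_lit 205) (nat_lit 160) (nat_lit 205)) (PT.nd (nat_lit 78) (PT.lf (nat_lit 22344) (nat_lit 6) (nat_lit 294) (nat_lit 1) (nat_lit 206) (nat_lit 160) (nat_lit 204)) (PT.lf (nat_lit 22268) (nat_lit 6) (nat_lit 293) (nat_lit 1) (nat_lit 207) (nat_lit 160) (nat_lit 203)))) (PT.nd (nat_lit 156) (PT.nd (nat_lit 78) (PT.lf (nat_lit 22192) (nat_lit 6) (nat_lit 292) (nat_lit 1) (nat_lit 208) (nat_lit 160) (nat_lit 202)) (PT.lf (nat_lit 22116) (nat_lit 6) (nat_lit 291) (nat_lit 1) (nat_lit 209) (nat_lit 160) (nat_lit 201))) (PT.nd (nat_lit 78) (PT.lf (nat_lit 22040) (nat_lit 6) (nat_lit 290) (nat_lit 1) (nat_lit 210) (nat_lit 160) (nat_lit 200)) (PT.lf (nat_lit 21964) (nat_lit 6) (nat_lit 289) (nat_lit 1) (nat_lit 211) (nat_lit 160) (nat_lit 199))))))) (PT.nd (nat_lit 58890) (PT.nd (nat_lit 58344) (PT.nd (nat_lit 58032) (PT.nd (nat_lit 78) (PT.lf (nat_lit 21888) (nat_lit 6) (nat_lit 288) (nat_lit 1) (nat_lit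 212) (nat_lit 160) (nat_lit 198)) (PT.nd (nat_lit 78) (PT.lf (nat_lit 21812) (nat_lit 6) (nat_lit 287) (nat_lit 1) (nat_lit 213) (nat_lit 160) (nat_lit 197)) (PT.lf (nat_lit 21736) (nat_lit 6) (nat_lit 286) (nat_lit 1) (nat_lit 214) (nat_lit 160) (nat_lit 196)))) (PT.nd (nat_lit 156) (PT.nd (nat_lit 78) (PT.lf (nat_lit 22496) (nat_lit 6) (nat_lit 296) (nat_lit 3) (nat_lit 195) (nat_lit 161) (nat_lit 214)) (PT.lf (nat_lit 22572) (nat_lit 6) (nat_lit 297) (nat_lit 3) (nat_lit 196) (nat_lit 161) (nat_lit 213))) (PT.nd (nat_lit 78) (PT.lf (nat_lit 22648) (nat_lit 6) (nat_lit 298) (nat_lit 3) (nat_lit 197) (nat_lit 161) (nat_lit 212)) (PT.lf (nat_lit 22724) (nat_lit 6) (nat_lit 299) (nat_lit 3) (nat_lit 198) (nat_lit 161) (nat_lit 211))))) (PT.nd (nat_lit 234) (PT.nd (nat_lit 78) (PT.lf (nat_lit 22800) (nat_lit 6) (nat_lit 300) (nat_lit 3) (nat_lit 199) (nat_lit 161) (nat_lit 210)) (PT.nd (nat_lit 78) (PT.lf (nat_lit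 22876) (nat_lit 6) (nat_lit 301) (nat_lit 3) (nat_lit 200) (nat_lit 161) (nat_lit 209)) (PT.lf (nat_lit 22952) (nat_lit 6) (nat_lit 302) (nat_lit 3) (nat_lit 201) (nat_lit 161) (nat_lit 208)))) (PT.nd (nat_lit 156) (PT.nd (nat_lit 78) (PT.lf (nat_lit 23028) (nat_lit 6) (nat_lit 303) (nat_lit 3) (nat_lit 202) (nat_lit 161) (nat_lit 207)) (PT.lf (nat_lit 23104) (nat_lit 6) (nat_lit 304) (nat_lit 3) (nat_lit 203) (nat_lit 161) (nat_lit 206))) (PT.nd (nat_lit 78) (PT.lf (nat_lit 23180) (nat_lit 6) (nat_lit 305) (nat_lit 3) (nat_lit 204) (nat_lit 161) (nat_lit 205)) (PT.lf (nat_lit 23180) (nat_lit 6) (nat_lit 305) (nat_lit 1) (nat_lit 205) (nat_lit 161) (nat_lit 204)))))) (PT.nd (nat_lit 546) (PT.nd (nat_lit 234) (PT.nd (nat_lit 78) (PT.lf (nat_lit 23104) (nat_lit 6) (nat_lit 304) (nat_lit 1) (nat_lit 206) (nat_lit 161) (nat_lit 203)) (PT.nd (nat_lit 78) (PT.lf (nat_lit 23028) (nat_lit 6) (nat_lit 303) (nat_lit 1)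 (nat_lit 207) (nat_lit 161) (nat_lit 202)) (PT.lf (nat_lit 22952) (nat_lit 6) (nat_lit 302) (nat_lit 1) (nat_lit 208) (nat_lit 161) (nat_lit 201)))) (PT.nd (nat_lit 156) (PT.nd (nat_lit 78) (PT.lf (nat_lit 22876) (nat_lit 6) (nat_lit 301) (nat_lit 1) (nat_lit 209) (nat_lit 161) (nat_lit 200)) (PT.lf (nat_lit 22800) (nat_lit 6) (nat_lit 300) (nat_lit 1) (nat_lit 210) (nat_lit 161) (nat_lit 199))) (PT.nd (nat_lit 78) (PT.lf (nat_lit 22724) (nat_lit 6) (nat_lit 299) (nat_lit 1) (nat_lit 211) (nat_lit 161) (nat_lit 198)) (PT.lf (nat_lit 22648) (nat_lit 6) (nat_lit 298) (nat_lit 1) (nat_lit 212) (nat_lit 161) (nat_lit 197))))) (PT.nd (nat_lit 58032) (PT.nd (nat_lit 57876) (PT.nd (nat_lit 78) (PT.lf (nat_lit 22572) (nat_lit 6) (nat_lit 297) (nat_lit 1) (nat_lit 213) (nat_lit 161) (nat_lit 196)) (PT.lf (nat_lit 22496) (nat_lit 6) (nat_lit 296) (nat_lit 1) (nat_lit 214) (nat_lit 161) (nat_lit 195))) (PT.nd (nat_lit 78)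 (PT.lf (nat_lit 23256) (nat_lit 6) (nat_lit 306) (nat_lit 3) (nat_lit 194) (nat_lit 162) (nat_lit 214)) (PT.lf (nat_lit 23332) (nat_lit 6) (nat_lit 307) (nat_lit 3) (nat_lit 195) (nat_lit 162) (nat_lit 213)))) (PT.nd (nat_lit 156) (PT.nd (nat_lit 78) (PT.lf (nat_lit 23408) (nat_lit 6) (nat_lit 308) (nat_lit 3) (nat_lit 196) (nat_lit 162) (nat_lit 212)) (PT.lf (nat_lit 23484) (nat_lit 6) (nat_lit 309) (nat_lit 3) (nat_lit 197) (nat_lit 162) (nat_lit 211))) (PT.nd (nat_lit 78) (PT.lf (nat_lit 23560) (nat_lit 6) (nat_lit 310) (nat_lit 3) (nat_lit 198) (nat_lit 162) (nat_lit 210)) (PT.lf (nat_lit 23636) (nat_lit 6) (nat_lit 311) (nat_lit 3) (nat_lit 199) (nat_lit 162) (nat_lit 209))))))))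
noncomputable def pc10 : PT := (PT.nd (nat_lit 59826) (PT.nd (nat_lit 1092) (PT.nd (nat_lit 546) (PT.nd (nat_lit 234) (PT.nd (nat_lit 78) (PT.lf (nat_lit 23712) (nat_lit 6) (nat_lit 312) (nat_lit 3) (nat_lit 200) (nat_lit 162) (nat_lit 208)) (PT.nd (nat_lit 78) (PT.lf (nat_lit 23788) (nat_lit 6) (nat_lit 313) (nat_lit 3) (nat_lit 201) (nat_lit 162) (nat_lit 207)) (PT.lf (nat_lit 23864) (nat_lit 6) (nat_lit 314) (nat_lit 3) (nat_lit 202) (nat_lit 162) (nat_lit 206)))) (PT.nd (nat_lit 156) (PT.nd (nat_lit 78) (PT.lf (nat_lit 23940) (nat_lit 6) (nat_lit 315) (nat_lit 3) (nat_lit 203) (nat_lit 162) (nat_lit 205)) (PT.lf (nat_lit 24016) (nat_lit 3) (nat_lit 316) (nat_lit 1) (nat_lit 204) (nat_lit 162) (nat_lit 204))) (PT.nd (nat_lit 78) (PT.lf (nat_lit 23940) (nat_lit 6) (nat_lit 315) (nat_lit 1) (nat_lit 205) (nat_lit 162) (nat_lit 203)) (PT.lf (nat_lit 23864) (nat_lit 6) (nat_lit 314) (nat_lit 1) (nat_lit 206) (nat_lit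 162) (nat_lit 202))))) (PT.nd (nat_lit 234) (PT.nd (nat_lit 78) (PT.lf (nat_lit 23788) (nat_lit 6) (nat_lit 313) (nat_lit 1) (nat_lit 207) (nat_lit 162) (nat_lit 201)) (PT.nd (nat_lit 78) (PT.lf (nat_lit 23712) (nat_lit 6) (nat_lit 312) (nat_lit 1) (nat_lit 208) (nat_lit 162) (nat_lit 200)) (PT.lf (nat_lit 23636) (nat_lit 6) (nat_lit 311) (nat_lit 1) (nat_lit 209) (nat_lit 162) (nat_lit 199)))) (PT.nd (nat_lit 156) (PT.nd (nat_lit 78) (PT.lf (nat_lit 23560) (nat_lit 6) (nat_lit 310) (nat_lit 1) (nat_lit 210) (nat_lit 162) (nat_lit 198)) (PT.lf (nat_lit 23484) (nat_lit 6) (nat_lit 309) (nat_lit 1) (nat_lit 211) (nat_lit 162) (nat_lit 197))) (PT.nd (nat_lit 78) (PT.lf (nat_lit 23408) (nat_lit 6) (nat_lit 308) (nat_lit 1) (nat_lit 212) (nat_lit 162) (nat_lit 196)) (PT.lf (nat_lit 23332) (nat_lit 6) (nat_lit 307) (nat_lit 1) (nat_lit 213) (nat_lit 162) (nat_lit 195)))))) (PT.nd (nat_lit 58188) (PT.nd (nat_lit 57876)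 (PT.nd (nat_lit 57720) (PT.lf (nat_lit 23256) (nat_lit 6) (nat_lit 306) (nat_lit 1) (nat_lit 214) (nat_lit 162) (nat_lit 194)) (PT.nd (nat_lit 78) (PT.lf (nat_lit 24092) (nat_lit 6) (nat_lit 317) (nat_lit 3) (nat_lit 193) (nat_lit 163) (nat_lit 214)) (PT.lf (nat_lit 24168) (nat_lit 6) (nat_lit 318) (nat_lit 3) (nat_lit 194) (nat_lit 163) (nat_lit 213)))) (PT.nd (nat_lit 156) (PT.nd (nat_lit 78) (PT.lf (nat_lit 24244) (nat_lit 6) (nat_lit 319) (nat_lit 3) (nat_lit 195) (nat_lit 163) (nat_lit 212)) (PT.lf (nat_lit 24320) (nat_lit 6) (nat_lit 320) (nat_lit 3) (nat_lit 196) (nat_lit 163) (nat_lit 211))) (PT.nd (nat_lit 78) (PT.lf (nat_lit 24396) (nat_lit 6) (nat_lit 321) (nat_lit 3) (nat_lit 197) (nat_lit 163) (nat_lit 210)) (PT.lf (nat_lit 24472) (nat_lit 6) (nat_lit 322) (nat_lit 3) (nat_lit 198) (nat_lit 163) (nat_lit 209))))) (PT.nd (nat_lit 234) (PT.nd (nat_lit 78) (PT.lf (nat_lit 24548) (nat_lit 6) (nat_lit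 323) (nat_lit 3) (nat_lit 199) (nat_lit 163) (nat_lit 208)) (PT.nd (nat_lit 78) (PT.lf (nat_lit 24624) (nat_lit 6) (nat_lit 324) (nat_lit 3) (nat_lit 200) (nat_lit 163) (nat_lit 207)) (PT.lf (nat_lit 24700) (nat_lit 6) (nat_lit 325) (nat_lit 3) (nat_lit 201) (nat_lit 163) (nat_lit 206)))) (PT.nd (nat_lit 156) (PT.nd (nat_lit 78) (PT.lf (nat_lit 24776) (nat_lit 6) (nat_lit 326) (nat_lit 3) (nat_lit 202) (nat_lit 163) (nat_lit 205)) (PT.lf (nat_lit 24852) (nat_lit 6) (nat_lit 327) (nat_lit 3) (nat_lit 203) (nat_lit 163) (nat_lit 204))) (PT.nd (nat_lit 78) (PT.lf (nat_lit 24852) (nat_lit 6) (nat_lit 327) (nat_lit 1) (nat_lit 204) (nat_lit 163) (nat_lit 203)) (PT.lf (nat_lit 24776) (nat_lit 6) (nat_lit 326) (nat_lit 1) (nat_lit 205) (nat_lit 163) (nat_lit 202))))))) (PT.nd (nat_lit 58656) (PT.nd (nat_lit 546) (PT.nd (nat_lit 234) (PT.nd (nat_lit 78) (PT.lf (nat_lit 24700) (nat_lit 6) (nat_lit 325) (nat_lit 1) (nat_lit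 206) (nat_lit 163) (nat_lit 201)) (PT.nd (nat_lit 78) (PT.lf (nat_lit 24624) (nat_lit 6) (nat_lit 324) (nat_lit 1) (nat_lit 207) (nat_lit 163) (nat_lit 200)) (PT.lf (nat_lit 24548) (nat_lit 6) (nat_lit 323) (nat_lit 1) (nat_lit 208) (nat_lit 163) (nat_lit 199)))) (PT.nd (nat_lit 156) (PT.nd (nat_lit 78) (PT.lf (nat_lit 24472) (nat_lit 6) (nat_lit 322) (nat_lit 1) (nat_lit 209) (nat_lit 163) (nat_lit 198)) (PT.lf (nat_lit 24396) (nat_lit 6) (nat_lit 321) (nat_lit 1) (nat_lit 210) (nat_lit 163) (nat_lit 197))) (PT.nd (nat_lit 78) (PT.lf (nat_lit 24320) (nat_lit 6) (nat_lit 320) (nat_lit 1) (nat_lit 211) (nat_lit 163) (nat_lit 196)) (PT.lf (nat_lit 24244) (nat_lit 6) (nat_lit 319) (nat_lit 1) (nat_lit 212) (nat_lit 163) (nat_lit 195))))) (PT.nd (nat_lit 57798) (PT.nd (nat_lit 78) (PT.lf (nat_lit 24168) (nat_lit 6) (nat_lit 318) (nat_lit 1) (nat_lit 213) (nat_lit 163) (nat_lit 194)) (PT.nd (nat_lit 57642) (PT.lf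 (nat_lit 24092) (nat_lit 6) (nat_lit 317) (nat_lit 1) (nat_lit 214) (nat_lit 163) (nat_lit 193)) (PT.lf (nat_lit 24928) (nat_lit 6) (nat_lit 328) (nat_lit 3) (nat_lit 192) (nat_lit 164) (nat_lit 214)))) (PT.nd (nat_lit 156) (PT.nd (nat_lit 78) (PT.lf (nat_lit 25004) (nat_lit 6) (nat_lit 329) (nat_lit 3) (nat_lit 193) (nat_lit 164) (nat_lit 213)) (PT.lf (nat_lit 25080) (nat_lit 6) (nat_lit 330) (nat_lit 3) (nat_lit 194) (nat_lit 164) (nat_lit 212))) (PT.nd (nat_lit 78) (PT.lf (nat_lit 25156) (nat_lit 6) (nat_lit 331) (nat_lit 3) (nat_lit 195) (nat_lit 164) (nat_lit 211)) (PT.lf (nat_lit 25232) (nat_lit 6) (nat_lit 332) (nat_lit 3) (nat_lit 196) (nat_lit 164) (nat_lit 210)))))) (PT.nd (nat_lit 546) (PT.nd (nat_lit 234) (PT.nd (nat_lit 78) (PT.lf (nat_lit 25308) (nat_lit 6) (nat_lit 333) (nat_lit 3) (nat_lit 197) (nat_lit 164) (nat_lit 209)) (PT.nd (nat_lit 78) (PT.lf (nat_lit 25384) (nat_lit 6) (nat_lit 334) (nat_lit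 3) (nat_lit 198) (nat_lit 164) (nat_lit 208)) (PT.lf (nat_lit 25460) (nat_lit 6) (nat_lit 335) (nat_lit 3) (nat_lit 199) (nat_lit 164) (nat_lit 207)))) (PT.nd (nat_lit 156) (PT.nd (nat_lit 78) (PT.lf (nat_lit 25536) (nat_lit 6) (nat_lit 336) (nat_lit 3) (nat_lit 200) (nat_lit 164) (nat_lit 206)) (PT.lf (nat_lit 25612) (nat_lit 6) (nat_lit 337) (nat_lit 3) (nat_lit 201) (nat_lit 164) (nat_lit 205))) (PT.nd (nat_lit 78) (PT.lf (nat_lit 25688) (nat_lit 6) (nat_lit 338) (nat_lit 3) (nat_lit 202) (nat_lit 164) (nat_lit 204)) (PT.lf (nat_lit 25764) (nat_lit 3) (nat_lit 339) (nat_lit 1) (nat_lit 203) (nat_lit 164) (nat_lit 203))))) (PT.nd (nat_lit 312) (PT.nd (nat_lit 156) (PT.nd (nat_lit 78) (PT.lf (nat_lit 25688) (nat_lit 6) (nat_lit 338) (nat_lit 1) (nat_lit 204) (nat_lit 164) (nat_lit 202)) (PT.lf (nat_lit 25612) (nat_lit 6) (nat_lit 337) (nat_lit 1) (nat_lit 205) (nat_lit 164) (nat_lit 201))) (PT.nd (nat_lit 78)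 (PT.lf (nat_lit 25536) (nat_lit 6) (nat_lit 336) (nat_lit 1) (nat_lit 206) (nat_lit 164) (nat_lit 200)) (PT.lf (nat_lit 25460) (nat_lit 6) (nat_lit 335) (nat_lit 1) (nat_lit 207) (nat_lit 164) (nat_lit 199)))) (PT.nd (nat_lit 156) (PT.nd (nat_lit 78) (PT.lf (nat_lit 25384) (nat_lit 6) (nat_lit 334) (nat_lit 1) (nat_lit 208) (nat_lit 164) (nat_lit 198)) (PT.lf (nat_lit 25308) (nat_lit 6) (nat_lit 333) (nat_lit 1) (nat_lit 209) (nat_lit 164) (nat_lit 197))) (PT.nd (nat_lit 78) (PT.lf (nat_lit 25232) (nat_lit 6) (nat_lit 332) (nat_lit 1) (nat_lit 210) (nat_lit 164) (nat_lit 196)) (PT.lf (nat_lit 25156) (nat_lit 6) (nat_lit 331) (nat_lit 1) (nat_lit 211) (nat_lit 164) (nat_lit 195))))))))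
noncomputable def pc11 : PT := (PT.nd (nat_lit 117312) (PT.nd (nat_lit 58656) (PT.nd (nat_lit 58110) (PT.nd (nat_lit 57798) (PT.nd (nat_lit 78) (PT.lf (nat_lit 25080) (nat_lit 6) (nat_lit 330) (nat_lit 1) (nat_lit 212) (nat_lit 164) (nat_lit 194)) (PT.nd (nat_lit 78) (PT.lf (nat_lit 25004) (nat_lit 6) (nat_lit 329) (nat_lit 1) (nat_lit 213) (nat_lit 164) (nat_lit 193)) (PT.lf (nat_lit 24928) (nat_lit 6) (nat_lit 328) (nat_lit 1) (nat_lit 214) (nat_lit 164) (nat_lit 192)))) (PT.nd (nat_lit 156) (PT.nd (nat_lit 78) (PT.lf (nat_lit 25840) (nat_lit 6) (nat_lit 340) (nat_lit 3) (nat_lit 192) (nat_lit 165) (nat_lit 213)) (PT.lf (nat_lit 25916) (nat_lit 6) (nat_lit 341) (nat_lit 3) (nat_lit 193) (nat_lit 165) (nat_lit 212))) (PT.nd (nat_lit 78) (PT.lf (nat_lit 25992) (nat_lit 6) (nat_lit 342) (nat_lit 3) (nat_lit 194) (nat_lit 165) (nat_lit 211)) (PT.lf (nat_lit 26068) (nat_lit 6) (nat_lit 343) (nat_lit 3) (nat_lit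 195) (nat_lit 165) (nat_lit 210))))) (PT.nd (nat_lit 234) (PT.nd (nat_lit 78) (PT.lf (nat_lit 26144) (nat_lit 6) (nat_lit 344) (nat_lit 3) (nat_lit 196) (nat_lit 165) (nat_lit 209)) (PT.nd (nat_lit 78) (PT.lf (nat_lit 26220) (nat_lit 6) (nat_lit 345) (nat_lit 3) (nat_lit 197) (nat_lit 165) (nat_lit 208)) (PT.lf (nat_lit 26296) (nat_lit 6) (nat_lit 346) (nat_lit 3) (nat_lit 198) (nat_lit 165) (nat_lit 207)))) (PT.nd (nat_lit 156) (PT.nd (nat_lit 78) (PT.lf (nat_lit 26372) (nat_lit 6) (nat_lit 347) (nat_lit 3) (nat_lit 199) (nat_lit 165) (nat_lit 206)) (PT.lf (nat_lit 26448) (nat_lit 6) (nat_lit 348) (nat_lit 3) (nat_lit 200) (nat_lit 165) (nat_lit 205))) (PT.nd (nat_lit 78) (PT.lf (nat_lit 26524) (nat_lit 6) (nat_lit 349) (nat_lit 3) (nat_lit 201) (nat_lit 165) (nat_lit 204)) (PT.lf (nat_lit 26600) (nat_lit 6) (nat_lit 350) (nat_lit 3) (nat_lit 202) (nat_lit 165) (nat_lit 203)))))) (PT.nd (nat_lit 546) (PT.nd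 (nat_lit 234) (PT.nd (nat_lit 78) (PT.lf (nat_lit 26600) (nat_lit 6) (nat_lit 350) (nat_lit 1) (nat_lit 203) (nat_lit 165) (nat_lit 202)) (PT.nd (nat_lit 78) (PT.lf (nat_lit 26524) (nat_lit 6) (nat_lit 349) (nat_lit 1) (nat_lit 204) (nat_lit 165) (nat_lit 201)) (PT.lf (nat_lit 26448) (nat_lit 6) (nat_lit 348) (nat_lit 1) (nat_lit 205) (nat_lit 165) (nat_lit 200)))) (PT.nd (nat_lit 156) (PT.nd (nat_lit 78) (PT.lf (nat_lit 26372) (nat_lit 6) (nat_lit 347) (nat_lit 1) (nat_lit 206) (nat_lit 165) (nat_lit 199)) (PT.lf (nat_lit 26296) (nat_lit 6) (nat_lit 346) (nat_lit 1) (nat_lit 207) (nat_lit 165) (nat_lit 198))) (PT.nd (nat_lit 78) (PT.lf (nat_lit 26220) (nat_lit 6) (nat_lit 345) (nat_lit 1) (nat_lit 208) (nat_lit 165) (nat_lit 197)) (PT.lf (nat_lit 26144) (nat_lit 6) (nat_lit 344) (nat_lit 1) (nat_lit 209) (nat_lit 165) (nat_lit 196))))) (PT.nd (nat_lit 234) (PT.nd (nat_lit 78) (PT.lf (nat_lit 26068) (nat_lit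 6) (nat_lit 343) (nat_lit 1) (nat_lit 210) (nat_lit 165) (nat_lit 195)) (PT.nd (nat_lit 78) (PT.lf (nat_lit 25992) (nat_lit 6) (nat_lit 342) (nat_lit 1) (nat_lit 211) (nat_lit 165) (nat_lit 194)) (PT.lf (nat_lit 25916) (nat_lit 6) (nat_lit 341) (nat_lit 1) (nat_lit 212) (nat_lit 165) (nat_lit 193)))) (PT.nd (nat_lit 57720) (PT.nd (nat_lit 57642) (PT.lf (nat_lit 25840) (nat_lit 6) (nat_lit 340) (nat_lit 1) (nat_lit 213) (nat_lit 165) (nat_lit 192)) (PT.lf (nat_lit 26676) (nat_lit 6) (nat_lit 351) (nat_lit 3) (nat_lit 191) (nat_lit 166) (nat_lit 213))) (PT.nd (nat_lit 78) (PT.lf (nat_lit 26752) (nat_lit 6) (nat_lit 352) (nat_lit 3) (nat_lit 192) (nat_lit 166) (nat_lit 212)) (PT.lf (nat_lit 26828) (nat_lit 6) (nat_lit 353) (nat_lit 3) (nat_lit 193) (nat_lit 166) (nat_lit 211))))))) (PT.nd (nat_lit 1092) (PT.nd (nat_lit 546) (PT.nd (nat_lit 234) (PT.nd (nat_lit 78) (PT.lf (nat_lit 26904) (nat_lit 6) (nat_lit 354)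 (nat_lit 3) (nat_lit 194) (nat_lit 166) (nat_lit 210)) (PT.nd (nat_lit 78) (PT.lf (nat_lit 26980) (nat_lit 6) (nat_lit 355) (nat_lit 3) (nat_lit 195) (nat_lit 166) (nat_lit 209)) (PT.lf (nat_lit 27056) (nat_lit 6) (nat_lit 356) (nat_lit 3) (nat_lit 196) (nat_lit 166) (nat_lit 208)))) (PT.nd (nat_lit 156) (PT.nd (nat_lit 78) (PT.lf (nat_lit 27132) (nat_lit 6) (nat_lit 357) (nat_lit 3) (nat_lit 197) (nat_lit 166) (nat_lit 207)) (PT.lf (nat_lit 27208) (nat_lit 6) (nat_lit 358) (nat_lit 3) (nat_lit 198) (nat_lit 166) (nat_lit 206))) (PT.nd (nat_lit 78) (PT.lf (nat_lit 27284) (nat_lit 6) (nat_lit 359) (nat_lit 3) (nat_lit 199) (nat_lit 166) (nat_lit 205)) (PT.lf (nat_lit 27360) (nat_lit 6) (nat_lit 360) (nat_lit 3) (nat_lit 200) (nat_lit 166) (nat_lit 204))))) (PT.nd (nat_lit 234) (PT.nd (nat_lit 78) (PT.lf (nat_lit 27436) (nat_lit 6) (nat_lit 361) (nat_lit 3) (nat_lit 201) (nat_lit 166) (nat_lit 203)) (PT.nd (nat_lit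 78) (PT.lf (nat_lit 27512) (nat_lit 3) (nat_lit 362) (nat_lit 1) (nat_lit 202) (nat_lit 166) (nat_lit 202)) (PT.lf (nat_lit 27436) (nat_lit 6) (nat_lit 361) (nat_lit 1) (nat_lit 203) (nat_lit 166) (nat_lit 201)))) (PT.nd (nat_lit 156) (PT.nd (nat_lit 78) (PT.lf (nat_lit 27360) (nat_lit 6) (nat_lit 360) (nat_lit 1) (nat_lit 204) (nat_lit 166) (nat_lit 200)) (PT.lf (nat_lit 27284) (nat_lit 6) (nat_lit 359) (nat_lit 1) (nat_lit 205) (nat_lit 166) (nat_lit 199))) (PT.nd (nat_lit 78) (PT.lf (nat_lit 27208) (nat_lit 6) (nat_lit 358) (nat_lit 1) (nat_lit 206) (nat_lit 166) (nat_lit 198)) (PT.lf (nat_lit 27132) (nat_lit 6) (nat_lit 357) (nat_lit 1) (nat_lit 207) (nat_lit 166) (nat_lit 197)))))) (PT.nd (nat_lit 58032) (PT.nd (nat_lit 234) (PT.nd (nat_lit 78) (PT.lf (nat_lit 27056) (nat_lit 6) (nat_lit 356) (nat_lit 1) (nat_lit 208) (nat_lit 166) (nat_lit 196)) (PT.nd (nat_lit 78) (PT.lf (nat_lit 26980) (nat_lit 6) (nat_lit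 355) (nat_lit 1) (nat_lit 209) (nat_lit 166) (nat_lit 195)) (PT.lf (nat_lit 26904) (nat_lit 6) (nat_lit 354) (nat_lit 1) (nat_lit 210) (nat_lit 166) (nat_lit 194)))) (PT.nd (nat_lit 156) (PT.nd (nat_lit 78) (PT.lf (nat_lit 26828) (nat_lit 6) (nat_lit 353) (nat_lit 1) (nat_lit 211) (nat_lit 166) (nat_lit 193)) (PT.lf (nat_lit 26752) (nat_lit 6) (nat_lit 352) (nat_lit 1) (nat_lit 212) (nat_lit 166) (nat_lit 192))) (PT.nd (nat_lit 57564) (PT.lf (nat_lit 26676) (nat_lit 6) (nat_lit 351) (nat_lit 1) (nat_lit 213) (nat_lit 166) (nat_lit 191)) (PT.lf (nat_lit 27968) (nat_lit 6) (nat_lit 368) (nat_lit 3) (nat_lit 190) (nat_lit 167) (nat_lit 213))))) (PT.nd (nat_lit 312) (PT.nd (nat_lit 156) (PT.nd (nat_lit 78) (PT.lf (nat_lit 28044) (nat_lit 6) (nat_lit 369) (nat_lit 3) (nat_lit 191) (nat_lit 167) (nat_lit 212)) (PT.lf (nat_lit 28120) (nat_lit 6) (nat_lit 370) (nat_lit 3) (nat_lit 192) (nat_lit 167) (nat_lit 211))) (PT.nd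 (nat_lit 78) (PT.lf (nat_lit 28196) (nat_lit 6) (nat_lit 371) (nat_lit 3) (nat_lit 193) (nat_lit 167) (nat_lit 210)) (PT.lf (nat_lit 28272) (nat_lit 6) (nat_lit 372) (nat_lit 3) (nat_lit 194) (nat_lit 167) (nat_lit 209)))) (PT.nd (nat_lit 156) (PT.nd (nat_lit 78) (PT.lf (nat_lit 28348) (nat_lit 6) (nat_lit 373) (nat_lit 3) (nat_lit 195) (nat_lit 167) (nat_lit 208)) (PT.lf (nat_lit 28424) (nat_lit 6) (nat_lit 374) (nat_lit 3) (nat_lit 196) (nat_lit 167) (nat_lit 207))) (PT.nd (nat_lit 78) (PT.lf (nat_lit 28500) (nat_lit 6) (nat_lit 375) (nat_lit 3) (nat_lit 197) (nat_lit 167) (nat_lit 206)) (PT.lf (nat_lit 28576) (nat_lit 6) (nat_lit 376) (nat_lit 3) (nat_lit 198) (nat_lit 167) (nat_lit 205))))))))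
noncomputable def pc12 : PT := (PT.nd (nat_lit 59592) (PT.nd (nat_lit 1092) (PT.nd (nat_lit 546) (PT.nd (nat_lit 234) (PT.nd (nat_lit 78) (PT.lf (nat_lit 28652) (nat_lit 6) (nat_lit 377) (nat_lit 3) (nat_lit 199) (nat_lit 167) (nat_lit 204)) (PT.nd (nat_lit 78) (PT.lf (nat_lit 28728) (nat_lit 6) (nat_lit 378) (nat_lit 3) (nat_lit 200) (nat_lit 167) (nat_lit 203)) (PT.lf (nat_lit 28804) (nat_lit 6) (nat_lit 379) (nat_lit 3) (nat_lit 201) (nat_lit 167) (nat_lit 202)))) (PT.nd (nat_lit 156) (PT.nd (nat_lit 78) (PT.lf (nat_lit 28804) (nat_lit 6) (nat_lit 379) (nat_lit 1) (nat_lit 202) (nat_lit 167) (nat_lit 201)) (PT.lf (nat_lit 28728) (nat_lit 6) (nat_lit 378) (nat_lit 1) (nat_lit 203) (nat_lit 167) (nat_lit 200))) (PT.nd (nat_lit 78) (PT.lf (nat_lit 28652) (nat_lit 6) (nat_lit 377) (nat_lit 1) (nat_lit 204) (nat_lit 167) (nat_lit 199)) (PT.lf (nat_lit 28576) (nat_lit 6) (nat_lit 376) (nat_lit 1) (nat_lit 205) (nat_lit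 167) (nat_lit 198))))) (PT.nd (nat_lit 234) (PT.nd (nat_lit 78) (PT.lf (nat_lit 28500) (nat_lit 6) (nat_lit 375) (nat_lit 1) (nat_lit 206) (nat_lit 167) (nat_lit 197)) (PT.nd (nat_lit 78) (PT.lf (nat_lit 28424) (nat_lit 6) (nat_lit 374) (nat_lit 1) (nat_lit 207) (nat_lit 167) (nat_lit 196)) (PT.lf (nat_lit 28348) (nat_lit 6) (nat_lit 373) (nat_lit 1) (nat_lit 208) (nat_lit 167) (nat_lit 195)))) (PT.nd (nat_lit 156) (PT.nd (nat_lit 78) (PT.lf (nat_lit 28272) (nat_lit 6) (nat_lit 372) (nat_lit 1) (nat_lit 209) (nat_lit 167) (nat_lit 194)) (PT.lf (nat_lit 28196) (nat_lit 6) (nat_lit 371) (nat_lit 1) (nat_lit 210) (nat_lit 167) (nat_lit 193))) (PT.nd (nat_lit 78) (PT.lf (nat_lit 28120) (nat_lit 6) (nat_lit 370) (nat_lit 1) (nat_lit 211) (nat_lit 167) (nat_lit 192)) (PT.lf (nat_lit 28044) (nat_lit 6) (nat_lit 369) (nat_lit 1) (nat_lit 212) (nat_lit 167) (nat_lit 191)))))) (PT.nd (nat_lit 57954) (PT.nd (nat_lit 57642)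 (PT.nd (nat_lit 57486) (PT.lf (nat_lit 27968) (nat_lit 6) (nat_lit 368) (nat_lit 1) (nat_lit 213) (nat_lit 167) (nat_lit 190)) (PT.nd (nat_lit 78) (PT.lf (nat_lit 27892) (nat_lit 6) (nat_lit 367) (nat_lit 3) (nat_lit 189) (nat_lit 168) (nat_lit 213)) (PT.lf (nat_lit 29716) (nat_lit 6) (nat_lit 391) (nat_lit 3) (nat_lit 190) (nat_lit 168) (nat_lit 212)))) (PT.nd (nat_lit 156) (PT.nd (nat_lit 78) (PT.lf (nat_lit 29792) (nat_lit 6) (nat_lit 392) (nat_lit 3) (nat_lit 191) (nat_lit 168) (nat_lit 211)) (PT.lf (nat_lit 29868) (nat_lit 6) (nat_lit 393) (nat_lit 3) (nat_lit 192) (nat_lit 168) (nat_lit 210))) (PT.nd (nat_lit 78) (PT.lf (nat_lit 29944) (nat_lit 6) (nat_lit 394) (nat_lit 3) (nat_lit 193) (nat_lit 168) (nat_lit 209)) (PT.lf (nat_lit 30020) (nat_lit 6) (nat_lit 395) (nat_lit 3) (nat_lit 194) (nat_lit 168) (nat_lit 208))))) (PT.nd (nat_lit 234) (PT.nd (nat_lit 78) (PT.lf (nat_lit 30096) (nat_lit 6) (nat_lit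 396) (nat_lit 3) (nat_lit 195) (nat_lit 168) (nat_lit 207)) (PT.nd (nat_lit 78) (PT.lf (nat_lit 30172) (nat_lit 6) (nat_lit 397) (nat_lit 3) (nat_lit 196) (nat_lit 168) (nat_lit 206)) (PT.lf (nat_lit 30248) (nat_lit 6) (nat_lit 398) (nat_lit 3) (nat_lit 197) (nat_lit 168) (nat_lit 205)))) (PT.nd (nat_lit 156) (PT.nd (nat_lit 78) (PT.lf (nat_lit 30324) (nat_lit 6) (nat_lit 399) (nat_lit 3) (nat_lit 198) (nat_lit 168) (nat_lit 204)) (PT.lf (nat_lit 30400) (nat_lit 6) (nat_lit 400) (nat_lit 3) (nat_lit 199) (nat_lit 168) (nat_lit 203))) (PT.nd (nat_lit 78) (PT.lf (nat_lit 30476) (nat_lit 6) (nat_lit 401) (nat_lit 3) (nat_lit 200) (nat_lit 168) (nat_lit 202)) (PT.lf (nat_lit 30552) (nat_lit 3) (nat_lit 402) (nat_lit 1) (nat_lit 201) (nat_lit 168) (nat_lit 201))))))) (PT.nd (nat_lit 58422) (PT.nd (nat_lit 546) (PT.nd (nat_lit 234) (PT.nd (nat_lit 78) (PT.lf (nat_lit 30476) (nat_lit 6) (nat_lit 401) (nat_lit 1) (nat_lit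 202) (nat_lit 168) (nat_lit 200)) (PT.nd (nat_lit 78) (PT.lf (nat_lit 30400) (nat_lit 6) (nat_lit 400) (nat_lit 1) (nat_lit 203) (nat_lit 168) (nat_lit 199)) (PT.lf (nat_lit 30324) (nat_lit 6) (nat_lit 399) (nat_lit 1) (nat_lit 204) (nat_lit 168) (nat_lit 198)))) (PT.nd (nat_lit 156) (PT.nd (nat_lit 78) (PT.lf (nat_lit 30248) (nat_lit 6) (nat_lit 398) (nat_lit 1) (nat_lit 205) (nat_lit 168) (nat_lit 197)) (PT.lf (nat_lit 30172) (nat_lit 6) (nat_lit 397) (nat_lit 1) (nat_lit 206) (nat_lit 168) (nat_lit 196))) (PT.nd (nat_lit 78) (PT.lf (nat_lit 30096) (nat_lit 6) (nat_lit 396) (nat_lit 1) (nat_lit 207) (nat_lit 168) (nat_lit 195)) (PT.lf (nat_lit 30020) (nat_lit 6) (nat_lit 395) (nat_lit 1) (nat_lit 208) (nat_lit 168) (nat_lit 194))))) (PT.nd (nat_lit 234) (PT.nd (nat_lit 78) (PT.lf (nat_lit 29944) (nat_lit 6) (nat_lit 394) (nat_lit 1) (nat_lit 209) (nat_lit 168) (nat_lit 193)) (PT.nd (nat_lit 78) (PT.lf (nat_lit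 29868) (nat_lit 6) (nat_lit 393) (nat_lit 1) (nat_lit 210) (nat_lit 168) (nat_lit 192)) (PT.lf (nat_lit 29792) (nat_lit 6) (nat_lit 392) (nat_lit 1) (nat_lit 211) (nat_lit 168) (nat_lit 191)))) (PT.nd (nat_lit 57486) (PT.nd (nat_lit 78) (PT.lf (nat_lit 29716) (nat_lit 6) (nat_lit 391) (nat_lit 1) (nat_lit 212) (nat_lit 168) (nat_lit 190)) (PT.lf (nat_lit 27892) (nat_lit 6) (nat_lit 367) (nat_lit 1) (nat_lit 213) (nat_lit 168) (nat_lit 189))) (PT.nd (nat_lit 78) (PT.lf (nat_lit 27816) (nat_lit 6) (nat_lit 366) (nat_lit 3) (nat_lit 188) (nat_lit 169) (nat_lit 213)) (PT.lf (nat_lit 29640) (nat_lit 6) (nat_lit 390) (nat_lit 3) (nat_lit 189) (nat_lit 169) (nat_lit 212)))))) (PT.nd (nat_lit 546) (PT.nd (nat_lit 234) (PT.nd (nat_lit 78) (PT.lf (nat_lit 31388) (nat_lit 6) (nat_lit 413) (nat_lit 3) (nat_lit 190) (nat_lit 169) (nat_lit 211)) (PT.nd (nat_lit 78) (PT.lf (nat_lit 31464) (nat_lit 6) (nat_lit 414) (nat_lit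 3) (nat_lit 191) (nat_lit 169) (nat_lit 210)) (PT.lf (nat_lit 31540) (nat_lit 6) (nat_lit 415) (nat_lit 3) (nat_lit 192) (nat_lit 169) (nat_lit 209)))) (PT.nd (nat_lit 156) (PT.nd (nat_lit 78) (PT.lf (nat_lit 31616) (nat_lit 6) (nat_lit 416) (nat_lit 3) (nat_lit 193) (nat_lit 169) (nat_lit 208)) (PT.lf (nat_lit 31692) (nat_lit 6) (nat_lit 417) (nat_lit 3) (nat_lit 194) (nat_lit 169) (nat_lit 207))) (PT.nd (nat_lit 78) (PT.lf (nat_lit 31768) (nat_lit 6) (nat_lit 418) (nat_lit 3) (nat_lit 195) (nat_lit 169) (nat_lit 206)) (PT.lf (nat_lit 31844) (nat_lit 6) (nat_lit 419) (nat_lit 3) (nat_lit 196) (nat_lit 169) (nat_lit 205))))) (PT.nd (nat_lit 312) (PT.nd (nat_lit 156) (PT.nd (nat_lit 78) (PT.lf (nat_lit 31920) (nat_lit 6) (nat_lit 420) (nat_lit 3) (nat_lit 197) (nat_lit 169) (nat_lit 204)) (PT.lf (nat_lit 31996) (nat_lit 6) (nat_lit 421) (nat_lit 3) (nat_lit 198) (nat_lit 169) (nat_lit 203))) (PT.nd (nat_lit 78)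 (PT.lf (nat_lit 32072) (nat_lit 6) (nat_lit 422) (nat_lit 3) (nat_lit 199) (nat_lit 169) (nat_lit 202)) (PT.lf (nat_lit 32148) (nat_lit 6) (nat_lit 423) (nat_lit 3) (nat_lit 200) (nat_lit 169) (nat_lit 201)))) (PT.nd (nat_lit 156) (PT.nd (nat_lit 78) (PT.lf (nat_lit 32148) (nat_lit 6) (nat_lit 423) (nat_lit 1) (nat_lit 201) (nat_lit 169) (nat_lit 200)) (PT.lf (nat_lit 32072) (nat_lit 6) (nat_lit 422) (nat_lit 1) (nat_lit 202) (nat_lit 169) (nat_lit 199))) (PT.nd (nat_lit 78) (PT.lf (nat_lit 31996) (nat_lit 6) (nat_lit 421) (nat_lit 1) (nat_lit 203) (nat_lit 169) (nat_lit 198)) (PT.lf (nat_lit 31920) (nat_lit 6) (nat_lit 420) (nat_lit 1) (nat_lit 204) (nat_lit 169) (nat_lit 197))))))))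
noncomputable def pc13 : PT := (PT.nd (nat_lit 59436) (PT.nd (nat_lit 58344) (PT.nd (nat_lit 546) (PT.nd (nat_lit 234) (PT.nd (nat_lit 78) (PT.lf (nat_lit 31844) (nat_lit 6) (nat_lit 419) (nat_lit 1) (nat_lit 205) (nat_lit 169) (nat_lit 196)) (PT.nd (nat_lit 78) (PT.lf (nat_lit 31768) (nat_lit 6) (nat_lit 418) (nat_lit 1) (nat_lit 206) (nat_lit 169) (nat_lit 195)) (PT.lf (nat_lit 31692) (nat_lit 6) (nat_lit 417) (nat_lit 1) (nat_lit 207) (nat_lit 169) (nat_lit 194)))) (PT.nd (nat_lit 156) (PT.nd (nat_lit 78) (PT.lf (nat_lit 31616) (nat_lit 6) (nat_lit 416) (nat_lit 1) (nat_lit 208) (nat_lit 169) (nat_lit 193)) (PT.lf (nat_lit 31540) (nat_lit 6) (nat_lit 415) (nat_lit 1) (nat_lit 209) (nat_lit 169) (nat_lit 192))) (PT.nd (nat_lit 78) (PT.lf (nat_lit 31464) (nat_lit 6) (nat_lit 414) (nat_lit 1) (nat_lit 210) (nat_lit 169) (nat_lit 191)) (PT.lf (nat_lit 31388) (nat_lit 6) (nat_lit 413) (nat_lit 1) (nat_lit 211)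 (nat_lit 169) (nat_lit 190))))) (PT.nd (nat_lit 57486) (PT.nd (nat_lit 78) (PT.lf (nat_lit 29640) (nat_lit 6) (nat_lit 390) (nat_lit 1) (nat_lit 212) (nat_lit 169) (nat_lit 189)) (PT.nd (nat_lit 57330) (PT.lf (nat_lit 27816) (nat_lit 6) (nat_lit 366) (nat_lit 1) (nat_lit 213) (nat_lit 169) (nat_lit 188)) (PT.lf (nat_lit 27740) (nat_lit 6) (nat_lit 365) (nat_lit 3) (nat_lit 187) (nat_lit 170) (nat_lit 213)))) (PT.nd (nat_lit 156) (PT.nd (nat_lit 78) (PT.lf (nat_lit 29564) (nat_lit 6) (nat_lit 389) (nat_lit 3) (nat_lit 188) (nat_lit 170) (nat_lit 212)) (PT.lf (nat_lit 31312) (nat_lit 6) (nat_lit 412) (nat_lit 3) (nat_lit 189) (nat_lit 170) (nat_lit 211))) (PT.nd (nat_lit 78) (PT.lf (nat_lit 32984) (nat_lit 6) (nat_lit 434) (nat_lit 3) (nat_lit 190) (nat_lit 170) (nat_lit 210)) (PT.lf (nat_lit 33060) (nat_lit 6) (nat_lit 435) (nat_lit 3) (nat_lit 191) (nat_lit 170) (nat_lit 209)))))) (PT.nd (nat_lit 546) (PT.nd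 (nat_lit 234) (PT.nd (nat_lit 78) (PT.lf (nat_lit 33136) (nat_lit 6) (nat_lit 436) (nat_lit 3) (nat_lit 192) (nat_lit 170) (nat_lit 208)) (PT.nd (nat_lit 78) (PT.lf (nat_lit 33212) (nat_lit 6) (nat_lit 437) (nat_lit 3) (nat_lit 193) (nat_lit 170) (nat_lit 207)) (PT.lf (nat_lit 33288) (nat_lit 6) (nat_lit 438) (nat_lit 3) (nat_lit 194) (nat_lit 170) (nat_lit 206)))) (PT.nd (nat_lit 156) (PT.nd (nat_lit 78) (PT.lf (nat_lit 33364) (nat_lit 6) (nat_lit 439) (nat_lit 3) (nat_lit 195) (nat_lit 170) (nat_lit 205)) (PT.lf (nat_lit 33440) (nat_lit 6) (nat_lit 440) (nat_lit 3) (nat_lit 196) (nat_lit 170) (nat_lit 204))) (PT.nd (nat_lit 78) (PT.lf (nat_lit 33516) (nat_lit 6) (nat_lit 441) (nat_lit 3) (nat_lit 197) (nat_lit 170) (nat_lit 203)) (PT.lf (nat_lit 33592) (nat_lit 6) (nat_lit 442) (nat_lit 3) (nat_lit 198) (nat_lit 170) (nat_lit 202))))) (PT.nd (nat_lit 234) (PT.nd (nat_lit 78) (PT.lf (nat_lit 33668) (nat_lit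 6) (nat_lit 443) (nat_lit 3) (nat_lit 199) (nat_lit 170) (nat_lit 201)) (PT.nd (nat_lit 78) (PT.lf (nat_lit 33744) (nat_lit 3) (nat_lit 444) (nat_lit 1) (nat_lit 200) (nat_lit 170) (nat_lit 200)) (PT.lf (nat_lit 33668) (nat_lit 6) (nat_lit 443) (nat_lit 1) (nat_lit 201) (nat_lit 170) (nat_lit 199)))) (PT.nd (nat_lit 156) (PT.nd (nat_lit 78) (PT.lf (nat_lit 33592) (nat_lit 6) (nat_lit 442) (nat_lit 1) (nat_lit 202) (nat_lit 170) (nat_lit 198)) (PT.lf (nat_lit 33516) (nat_lit 6) (nat_lit 441) (nat_lit 1) (nat_lit 203) (nat_lit 170) (nat_lit 197))) (PT.nd (nat_lit 78) (PT.lf (nat_lit 33440) (nat_lit 6) (nat_lit 440) (nat_lit 1) (nat_lit 204) (nat_lit 170) (nat_lit 196)) (PT.lf (nat_lit 33364) (nat_lit 6) (nat_lit 439) (nat_lit 1) (nat_lit 205) (nat_lit 170) (nat_lit 195))))))) (PT.nd (nat_lit 58266) (PT.nd (nat_lit 546) (PT.nd (nat_lit 234) (PT.nd (nat_lit 78) (PT.lf (nat_lit 33288) (nat_lit 6) (nat_lit 438) (nat_lit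 1) (nat_lit 206) (nat_lit 170) (nat_lit 194)) (PT.nd (nat_lit 78) (PT.lf (nat_lit 33212) (nat_lit 6) (nat_lit 437) (nat_lit 1) (nat_lit 207) (nat_lit 170) (nat_lit 193)) (PT.lf (nat_lit 33136) (nat_lit 6) (nat_lit 436) (nat_lit 1) (nat_lit 208) (nat_lit 170) (nat_lit 192)))) (PT.nd (nat_lit 156) (PT.nd (nat_lit 78) (PT.lf (nat_lit 33060) (nat_lit 6) (nat_lit 435) (nat_lit 1) (nat_lit 209) (nat_lit 170) (nat_lit 191)) (PT.lf (nat_lit 32984) (nat_lit 6) (nat_lit 434) (nat_lit 1) (nat_lit 210) (nat_lit 170) (nat_lit 190))) (PT.nd (nat_lit 78) (PT.lf (nat_lit 31312) (nat_lit 6) (nat_lit 412) (nat_lit 1) (nat_lit 211) (nat_lit 170) (nat_lit 189)) (PT.lf (nat_lit 29564) (nat_lit 6) (nat_lit 389) (nat_lit 1) (nat_lit 212) (nat_lit 170) (nat_lit 188))))) (PT.nd (nat_lit 57408) (PT.nd (nat_lit 57252) (PT.lf (nat_lit 27740) (nat_lit 6) (nat_lit 365) (nat_lit 1) (nat_lit 213) (nat_lit 170) (nat_lit 187)) (PT.nd (nat_lit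 78) (PT.lf (nat_lit 27664) (nat_lit 6) (nat_lit 364) (nat_lit 3) (nat_lit 186) (nat_lit 171) (nat_lit 213)) (PT.lf (nat_lit 29488) (nat_lit 6) (nat_lit 388) (nat_lit 3) (nat_lit 187) (nat_lit 171) (nat_lit 212)))) (PT.nd (nat_lit 156) (PT.nd (nat_lit 78) (PT.lf (nat_lit 31236) (nat_lit 6) (nat_lit 411) (nat_lit 3) (nat_lit 188) (nat_lit 171) (nat_lit 211)) (PT.lf (nat_lit 32908) (nat_lit 6) (nat_lit 433) (nat_lit 3) (nat_lit 189) (nat_lit 171) (nat_lit 210))) (PT.nd (nat_lit 78) (PT.lf (nat_lit 34504) (nat_lit 6) (nat_lit 454) (nat_lit 3) (nat_lit 190) (nat_lit 171) (nat_lit 209)) (PT.lf (nat_lit 34580) (nat_lit 6) (nat_lit 455) (nat_lit 3) (nat_lit 191) (nat_lit 171) (nat_lit 208)))))) (PT.nd (nat_lit 546) (PT.nd (nat_lit 234) (PT.nd (nat_lit 78) (PT.lf (nat_lit 34656) (nat_lit 6) (nat_lit 456) (nat_lit 3) (nat_lit 192) (nat_lit 171) (nat_lit 207)) (PT.nd (nat_lit 78) (PT.lf (nat_lit 34732) (nat_lit 6) (nat_lit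 457) (nat_lit 3) (nat_lit 193) (nat_lit 171) (nat_lit 206)) (PT.lf (nat_lit 34808) (nat_lit 6) (nat_lit 458) (nat_lit 3) (nat_lit 194) (nat_lit 171) (nat_lit 205)))) (PT.nd (nat_lit 156) (PT.nd (nat_lit 78) (PT.lf (nat_lit 34884) (nat_lit 6) (nat_lit 459) (nat_lit 3) (nat_lit 195) (nat_lit 171) (nat_lit 204)) (PT.lf (nat_lit 34960) (nat_lit 6) (nat_lit 460) (nat_lit 3) (nat_lit 196) (nat_lit 171) (nat_lit 203))) (PT.nd (nat_lit 78) (PT.lf (nat_lit 35036) (nat_lit 6) (nat_lit 461) (nat_lit 3) (nat_lit 197) (nat_lit 171) (nat_lit 202)) (PT.lf (nat_lit 35112) (nat_lit 6) (nat_lit 462) (nat_lit 3) (nat_lit 198) (nat_lit 171) (nat_lit 201))))) (PT.nd (nat_lit 312) (PT.nd (nat_lit 156) (PT.nd (nat_lit 78) (PT.lf (nat_lit 35188) (nat_lit 6) (nat_lit 463) (nat_lit 3) (nat_lit 199) (nat_lit 171) (nat_lit 200)) (PT.lf (nat_lit 35188) (nat_lit 6) (nat_lit 463) (nat_lit 1) (nat_lit 200) (nat_lit 171) (nat_lit 199))) (PT.nd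 (nat_lit 78) (PT.lf (nat_lit 35112) (nat_lit 6) (nat_lit 462) (nat_lit 1) (nat_lit 201) (nat_lit 171) (nat_lit 198)) (PT.lf (nat_lit 35036) (nat_lit 6) (nat_lit 461) (nat_lit 1) (nat_lit 202) (nat_lit 171) (nat_lit 197)))) (PT.nd (nat_lit 156) (PT.nd (nat_lit 78) (PT.lf (nat_lit 34960) (nat_lit 6) (nat_lit 460) (nat_lit 1) (nat_lit 203) (nat_lit 171) (nat_lit 196)) (PT.lf (nat_lit 34884) (nat_lit 6) (nat_lit 459) (nat_lit 1) (nat_lit 204) (nat_lit 171) (nat_lit 195))) (PT.nd (nat_lit 78) (PT.lf (nat_lit 34808) (nat_lit 6) (nat_lit 458) (nat_lit 1) (nat_lit 205) (nat_lit 171) (nat_lit 194)) (PT.lf (nat_lit 34732) (nat_lit 6) (nat_lit 457) (nat_lit 1) (nat_lit 206) (nat_lit 171) (nat_lit 193))))))))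
noncomputable def pc14 : PT := (PT.nd (nat_lit 59280) (PT.nd (nat_lit 58188) (PT.nd (nat_lit 57642) (PT.nd (nat_lit 234) (PT.nd (nat_lit 78) (PT.lf (nat_lit 34656) (nat_lit 6) (nat_lit 456) (nat_lit 1) (nat_lit 207) (nat_lit 171) (nat_lit 192)) (PT.nd (nat_lit 78) (PT.lf (nat_lit 34580) (nat_lit 6) (nat_lit 455) (nat_lit 1) (nat_lit 208) (nat_lit 171) (nat_lit 191)) (PT.lf (nat_lit 34504) (nat_lit 6) (nat_lit 454) (nat_lit 1) (nat_lit 209) (nat_lit 171) (nat_lit 190)))) (PT.nd (nat_lit 156) (PT.nd (nat_lit 78) (PT.lf (nat_lit 32908) (nat_lit 6) (nat_lit 433) (nat_lit 1) (nat_lit 210) (nat_lit 171) (nat_lit 189)) (PT.lf (nat_lit 31236) (nat_lit 6) (nat_lit 411) (nat_lit 1) (nat_lit 211) (nat_lit 171) (nat_lit 188))) (PT.nd (nat_lit 78) (PT.lf (nat_lit 29488) (nat_lit 6) (nat_lit 388) (nat_lit 1) (nat_lit 212) (nat_lit 171) (nat_lit 187)) (PT.lf (nat_lit 27664) (nat_lit 6) (nat_lit 364) (nat_lit 1) (nat_lit 213)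 (nat_lit 171) (nat_lit 186))))) (PT.nd (nat_lit 234) (PT.nd (nat_lit 78) (PT.lf (nat_lit 27588) (nat_lit 6) (nat_lit 363) (nat_lit 3) (nat_lit 185) (nat_lit 172) (nat_lit 213)) (PT.nd (nat_lit 78) (PT.lf (nat_lit 29412) (nat_lit 6) (nat_lit 387) (nat_lit 3) (nat_lit 186) (nat_lit 172) (nat_lit 212)) (PT.lf (nat_lit 31160) (nat_lit 6) (nat_lit 410) (nat_lit 3) (nat_lit 187) (nat_lit 172) (nat_lit 211)))) (PT.nd (nat_lit 156) (PT.nd (nat_lit 78) (PT.lf (nat_lit 32832) (nat_lit 6) (nat_lit 432) (nat_lit 3) (nat_lit 188) (nat_lit 172) (nat_lit 210)) (PT.lf (nat_lit 34428) (nat_lit 6) (nat_lit 453) (nat_lit 3) (nat_lit 189) (nat_lit 172) (nat_lit 209))) (PT.nd (nat_lit 78) (PT.lf (nat_lit 35948) (nat_lit 6) (nat_lit 473) (nat_lit 3) (nat_lit 190) (nat_lit 172) (nat_lit 208)) (PT.lf (nat_lit 36024) (nat_lit 6) (nat_lit 474) (nat_lit 3) (nat_lit 191) (nat_lit 172) (nat_lit 207)))))) (PT.nd (nat_lit 546) (PT.nd (nat_lit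 234) (PT.nd (nat_lit 78) (PT.lf (nat_lit 36100) (nat_lit 6) (nat_lit 475) (nat_lit 3) (nat_lit 192) (nat_lit 172) (nat_lit 206)) (PT.nd (nat_lit 78) (PT.lf (nat_lit 36176) (nat_lit 6) (nat_lit 476) (nat_lit 3) (nat_lit 193) (nat_lit 172) (nat_lit 205)) (PT.lf (nat_lit 36252) (nat_lit 6) (nat_lit 477) (nat_lit 3) (nat_lit 194) (nat_lit 172) (nat_lit 204)))) (PT.nd (nat_lit 156) (PT.nd (nat_lit 78) (PT.lf (nat_lit 36328) (nat_lit 6) (nat_lit 478) (nat_lit 3) (nat_lit 195) (nat_lit 172) (nat_lit 203)) (PT.lf (nat_lit 36404) (nat_lit 6) (nat_lit 479) (nat_lit 3) (nat_lit 196) (nat_lit 172) (nat_lit 202))) (PT.nd (nat_lit 78) (PT.lf (nat_lit 36480) (nat_lit 6) (nat_lit 480) (nat_lit 3) (nat_lit 197) (nat_lit 172) (nat_lit 201)) (PT.lf (nat_lit 36556) (nat_lit 6) (nat_lit 481) (nat_lit 3) (nat_lit 198) (nat_lit 172) (nat_lit 200))))) (PT.nd (nat_lit 234) (PT.nd (nat_lit 78) (PT.lf (nat_lit 36632) (nat_lit 3) (nat_lit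 482) (nat_lit 1) (nat_lit 199) (nat_lit 172) (nat_lit 199)) (PT.nd (nat_lit 78) (PT.lf (nat_lit 36556) (nat_lit 6) (nat_lit 481) (nat_lit 1) (nat_lit 200) (nat_lit 172) (nat_lit 198)) (PT.lf (nat_lit 36480) (nat_lit 6) (nat_lit 480) (nat_lit 1) (nat_lit 201) (nat_lit 172) (nat_lit 197)))) (PT.nd (nat_lit 156) (PT.nd (nat_lit 78) (PT.lf (nat_lit 36404) (nat_lit 6) (nat_lit 479) (nat_lit 1) (nat_lit 202) (nat_lit 172) (nat_lit 196)) (PT.lf (nat_lit 36328) (nat_lit 6) (nat_lit 478) (nat_lit 1) (nat_lit 203) (nat_lit 172) (nat_lit 195))) (PT.nd (nat_lit 78) (PT.lf (nat_lit 36252) (nat_lit 6) (nat_lit 477) (nat_lit 1) (nat_lit 204) (nat_lit 172) (nat_lit 194)) (PT.lf (nat_lit 36176) (nat_lit 6) (nat_lit 476) (nat_lit 1) (nat_lit 205) (nat_lit 172) (nat_lit 193))))))) (PT.nd (nat_lit 58188) (PT.nd (nat_lit 546) (PT.nd (nat_lit 234) (PT.nd (nat_lit 78) (PT.lf (nat_lit 36100) (nat_lit 6) (nat_lit 475) (nat_lit 1) (nat_lit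 206) (nat_lit 172) (nat_lit 192)) (PT.nd (nat_lit 78) (PT.lf (nat_lit 36024) (nat_lit 6) (nat_lit 474) (nat_lit 1) (nat_lit 207) (nat_lit 172) (nat_lit 191)) (PT.lf (nat_lit 35948) (nat_lit 6) (nat_lit 473) (nat_lit 1) (nat_lit 208) (nat_lit 172) (nat_lit 190)))) (PT.nd (nat_lit 156) (PT.nd (nat_lit 78) (PT.lf (nat_lit 34428) (nat_lit 6) (nat_lit 453) (nat_lit 1) (nat_lit 209) (nat_lit 172) (nat_lit 189)) (PT.lf (nat_lit 32832) (nat_lit 6) (nat_lit 432) (nat_lit 1) (nat_lit 210) (nat_lit 172) (nat_lit 188))) (PT.nd (nat_lit 78) (PT.lf (nat_lit 31160) (nat_lit 6) (nat_lit 410) (nat_lit 1) (nat_lit 211) (nat_lit 172) (nat_lit 187)) (PT.lf (nat_lit 29412) (nat_lit 6) (nat_lit 387) (nat_lit 1) (nat_lit 212) (nat_lit 172) (nat_lit 186))))) (PT.nd (nat_lit 57330) (PT.nd (nat_lit 57174) (PT.lf (nat_lit 27588) (nat_lit 6) (nat_lit 363) (nat_lit 1) (nat_lit 213) (nat_lit 172) (nat_lit 185)) (PT.nd (nat_lit 78) (PT.lf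 (nat_lit 29336) (nat_lit 6) (nat_lit 386) (nat_lit 3) (nat_lit 185) (nat_lit 173) (nat_lit 212)) (PT.lf (nat_lit 31084) (nat_lit 6) (nat_lit 409) (nat_lit 3) (nat_lit 186) (nat_lit 173) (nat_lit 211)))) (PT.nd (nat_lit 156) (PT.nd (nat_lit 78) (PT.lf (nat_lit 32756) (nat_lit 6) (nat_lit 431) (nat_lit 3) (nat_lit 187) (nat_lit 173) (nat_lit 210)) (PT.lf (nat_lit 34352) (nat_lit 6) (nat_lit 452) (nat_lit 3) (nat_lit 188) (nat_lit 173) (nat_lit 209))) (PT.nd (nat_lit 78) (PT.lf (nat_lit 35872) (nat_lit 6) (nat_lit 472) (nat_lit 3) (nat_lit 189) (nat_lit 173) (nat_lit 208)) (PT.lf (nat_lit 37316) (nat_lit 6) (nat_lit 491) (nat_lit 3) (nat_lit 190) (nat_lit 173) (nat_lit 207)))))) (PT.nd (nat_lit 546) (PT.nd (nat_lit 234) (PT.nd (nat_lit 78) (PT.lf (nat_lit 37392) (nat_lit 6) (nat_lit 492) (nat_lit 3) (nat_lit 191) (nat_lit 173) (nat_lit 206)) (PT.nd (nat_lit 78) (PT.lf (nat_lit 37468) (nat_lit 6) (nat_lit 493) (nat_lit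 3) (nat_lit 192) (nat_lit 173) (nat_lit 205)) (PT.lf (nat_lit 37544) (nat_lit 6) (nat_lit 494) (nat_lit 3) (nat_lit 193) (nat_lit 173) (nat_lit 204)))) (PT.nd (nat_lit 156) (PT.nd (nat_lit 78) (PT.lf (nat_lit 37620) (nat_lit 6) (nat_lit 495) (nat_lit 3) (nat_lit 194) (nat_lit 173) (nat_lit 203)) (PT.lf (nat_lit 37696) (nat_lit 6) (nat_lit 496) (nat_lit 3) (nat_lit 195) (nat_lit 173) (nat_lit 202))) (PT.nd (nat_lit 78) (PT.lf (nat_lit 37772) (nat_lit 6) (nat_lit 497) (nat_lit 3) (nat_lit 196) (nat_lit 173) (nat_lit 201)) (PT.lf (nat_lit 37848) (nat_lit 6) (nat_lit 498) (nat_lit 3) (nat_lit 197) (nat_lit 173) (nat_lit 200))))) (PT.nd (nat_lit 312) (PT.nd (nat_lit 156) (PT.nd (nat_lit 78) (PT.lf (nat_lit 37924) (nat_lit 6) (nat_lit 499) (nat_lit 3) (nat_lit 198) (nat_lit 173) (nat_lit 199)) (PT.lf (nat_lit 37924) (nat_lit 6) (nat_lit 499) (nat_lit 1) (nat_lit 199) (nat_lit 173) (nat_lit 198))) (PT.nd (nat_lit 78)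 (PT.lf (nat_lit 37848) (nat_lit 6) (nat_lit 498) (nat_lit 1) (nat_lit 200) (nat_lit 173) (nat_lit 197)) (PT.lf (nat_lit 37772) (nat_lit 6) (nat_lit 497) (nat_lit 1) (nat_lit 201) (nat_lit 173) (nat_lit 196)))) (PT.nd (nat_lit 156) (PT.nd (nat_lit 78) (PT.lf (nat_lit 37696) (nat_lit 6) (nat_lit 496) (nat_lit 1) (nat_lit 202) (nat_lit 173) (nat_lit 195)) (PT.lf (nat_lit 37620) (nat_lit 6) (nat_lit 495) (nat_lit 1) (nat_lit 203) (nat_lit 173) (nat_lit 194))) (PT.nd (nat_lit 78) (PT.lf (nat_lit 37544) (nat_lit 6) (nat_lit 494) (nat_lit 1) (nat_lit 204) (nat_lit 173) (nat_lit 193)) (PT.lf (nat_lit 37468) (nat_lit 6) (nat_lit 493) (nat_lit 1) (nat_lit 205) (nat_lit 173) (nat_lit 192))))))))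
noncomputable def pc15 : PT := (PT.nd (nat_lit 59280) (PT.nd (nat_lit 58188) (PT.nd (nat_lit 57642) (PT.nd (nat_lit 234) (PT.nd (nat_lit 78) (PT.lf (nat_lit 37392) (nat_lit 6) (nat_lit 492) (nat_lit 1) (nat_lit 206) (nat_lit 173) (nat_lit 191)) (PT.nd (nat_lit 78) (PT.lf (nat_lit 37316) (nat_lit 6) (nat_lit 491) (nat_lit 1) (nat_lit 207) (nat_lit 173) (nat_lit 190)) (PT.lf (nat_lit 35872) (nat_lit 6) (nat_lit 472) (nat_lit 1) (nat_lit 208) (nat_lit 173) (nat_lit 189)))) (PT.nd (nat_lit 156) (PT.nd (nat_lit 78) (PT.lf (nat_lit 34352) (nat_lit 6) (nat_lit 452) (nat_lit 1) (nat_lit 209) (nat_lit 173) (nat_lit 188)) (PT.lf (nat_lit 32756) (nat_lit 6) (nat_lit 431) (nat_lit 1) (nat_lit 210) (nat_lit 173) (nat_lit 187))) (PT.nd (nat_lit 78) (PT.lf (nat_lit 31084) (nat_lit 6) (nat_lit 409) (nat_lit 1) (nat_lit 211) (nat_lit 173) (nat_lit 186)) (PT.lf (nat_lit 29336) (nat_lit 6) (nat_lit 386) (nat_lit 1) (nat_lit 212)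 (nat_lit 173) (nat_lit 185))))) (PT.nd (nat_lit 234) (PT.nd (nat_lit 78) (PT.lf (nat_lit 29260) (nat_lit 6) (nat_lit 385) (nat_lit 3) (nat_lit 184) (nat_lit 174) (nat_lit 212)) (PT.nd (nat_lit 78) (PT.lf (nat_lit 31008) (nat_lit 6) (nat_lit 408) (nat_lit 3) (nat_lit 185) (nat_lit 174) (nat_lit 211)) (PT.lf (nat_lit 32680) (nat_lit 6) (nat_lit 430) (nat_lit 3) (nat_lit 186) (nat_lit 174) (nat_lit 210)))) (PT.nd (nat_lit 156) (PT.nd (nat_lit 78) (PT.lf (nat_lit 34276) (nat_lit 6) (nat_lit 451) (nat_lit 3) (nat_lit 187) (nat_lit 174) (nat_lit 209)) (PT.lf (nat_lit 35796) (nat_lit 6) (nat_lit 471) (nat_lit 3) (nat_lit 188) (nat_lit 174) (nat_lit 208))) (PT.nd (nat_lit 78) (PT.lf (nat_lit 37240) (nat_lit 6) (nat_lit 490) (nat_lit 3) (nat_lit 189) (nat_lit 174) (nat_lit 207)) (PT.lf (nat_lit 38608) (nat_lit 6) (nat_lit 508) (nat_lit 3) (nat_lit 190) (nat_lit 174) (nat_lit 206)))))) (PT.nd (nat_lit 546) (PT.nd (nat_lit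 234) (PT.nd (nat_lit 78) (PT.lf (nat_lit 38684) (nat_lit 6) (nat_lit 509) (nat_lit 3) (nat_lit 191) (nat_lit 174) (nat_lit 205)) (PT.nd (nat_lit 78) (PT.lf (nat_lit 38760) (nat_lit 6) (nat_lit 510) (nat_lit 3) (nat_lit 192) (nat_lit 174) (nat_lit 204)) (PT.lf (nat_lit 38836) (nat_lit 6) (nat_lit 511) (nat_lit 3) (nat_lit 193) (nat_lit 174) (nat_lit 203)))) (PT.nd (nat_lit 156) (PT.nd (nat_lit 78) (PT.lf (nat_lit 38912) (nat_lit 6) (nat_lit 512) (nat_lit 3) (nat_lit 194) (nat_lit 174) (nat_lit 202)) (PT.lf (nat_lit 38988) (nat_lit 6) (nat_lit 513) (nat_lit 3) (nat_lit 195) (nat_lit 174) (nat_lit 201))) (PT.nd (nat_lit 78) (PT.lf (nat_lit 39064) (nat_lit 6) (nat_lit 514) (nat_lit 3) (nat_lit 196) (nat_lit 174) (nat_lit 200)) (PT.lf (nat_lit 39140) (nat_lit 6) (nat_lit 515) (nat_lit 3) (nat_lit 197) (nat_lit 174) (nat_lit 199))))) (PT.nd (nat_lit 234) (PT.nd (nat_lit 78) (PT.lf (nat_lit 39216) (nat_lit 3) (nat_lit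 516) (nat_lit 1) (nat_lit 198) (nat_lit 174) (nat_lit 198)) (PT.nd (nat_lit 78) (PT.lf (nat_lit 39140) (nat_lit 6) (nat_lit 515) (nat_lit 1) (nat_lit 199) (nat_lit 174) (nat_lit 197)) (PT.lf (nat_lit 39064) (nat_lit 6) (nat_lit 514) (nat_lit 1) (nat_lit 200) (nat_lit 174) (nat_lit 196)))) (PT.nd (nat_lit 156) (PT.nd (nat_lit 78) (PT.lf (nat_lit 38988) (nat_lit 6) (nat_lit 513) (nat_lit 1) (nat_lit 201) (nat_lit 174) (nat_lit 195)) (PT.lf (nat_lit 38912) (nat_lit 6) (nat_lit 512) (nat_lit 1) (nat_lit 202) (nat_lit 174) (nat_lit 194))) (PT.nd (nat_lit 78) (PT.lf (nat_lit 38836) (nat_lit 6) (nat_lit 511) (nat_lit 1) (nat_lit 203) (nat_lit 174) (nat_lit 193)) (PT.lf (nat_lit 38760) (nat_lit 6) (nat_lit 510) (nat_lit 1) (nat_lit 204) (nat_lit 174) (nat_lit 192))))))) (PT.nd (nat_lit 58110) (PT.nd (nat_lit 546) (PT.nd (nat_lit 234) (PT.nd (nat_lit 78) (PT.lf (nat_lit 38684) (nat_lit 6) (nat_lit 509) (nat_lit 1) (nat_lit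 205) (nat_lit 174) (nat_lit 191)) (PT.nd (nat_lit 78) (PT.lf (nat_lit 38608) (nat_lit 6) (nat_lit 508) (nat_lit 1) (nat_lit 206) (nat_lit 174) (nat_lit 190)) (PT.lf (nat_lit 37240) (nat_lit 6) (nat_lit 490) (nat_lit 1) (nat_lit 207) (nat_lit 174) (nat_lit 189)))) (PT.nd (nat_lit 156) (PT.nd (nat_lit 78) (PT.lf (nat_lit 35796) (nat_lit 6) (nat_lit 471) (nat_lit 1) (nat_lit 208) (nat_lit 174) (nat_lit 188)) (PT.lf (nat_lit 34276) (nat_lit 6) (nat_lit 451) (nat_lit 1) (nat_lit 209) (nat_lit 174) (nat_lit 187))) (PT.nd (nat_lit 78) (PT.lf (nat_lit 32680) (nat_lit 6) (nat_lit 430) (nat_lit 1) (nat_lit 210) (nat_lit 174) (nat_lit 186)) (PT.lf (nat_lit 31008) (nat_lit 6) (nat_lit 408) (nat_lit 1) (nat_lit 211) (nat_lit 174) (nat_lit 185))))) (PT.nd (nat_lit 57252) (PT.nd (nat_lit 57096) (PT.lf (nat_lit 29260) (nat_lit 6) (nat_lit 385) (nat_lit 1) (nat_lit 212) (nat_lit 174) (nat_lit 184)) (PT.nd (nat_lit 78) (PT.lf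 (nat_lit 29184) (nat_lit 6) (nat_lit 384) (nat_lit 3) (nat_lit 183) (nat_lit 175) (nat_lit 212)) (PT.lf (nat_lit 30932) (nat_lit 6) (nat_lit 407) (nat_lit 3) (nat_lit 184) (nat_lit 175) (nat_lit 211)))) (PT.nd (nat_lit 156) (PT.nd (nat_lit 78) (PT.lf (nat_lit 32604) (nat_lit 6) (nat_lit 429) (nat_lit 3) (nat_lit 185) (nat_lit 175) (nat_lit 210)) (PT.lf (nat_lit 34200) (nat_lit 6) (nat_lit 450) (nat_lit 3) (nat_lit 186) (nat_lit 175) (nat_lit 209))) (PT.nd (nat_lit 78) (PT.lf (nat_lit 35720) (nat_lit 6) (nat_lit 470) (nat_lit 3) (nat_lit 187) (nat_lit 175) (nat_lit 208)) (PT.lf (nat_lit 37164) (nat_lit 6) (nat_lit 489) (nat_lit 3) (nat_lit 188) (nat_lit 175) (nat_lit 207)))))) (PT.nd (nat_lit 546) (PT.nd (nat_lit 234) (PT.nd (nat_lit 78) (PT.lf (nat_lit 38532) (nat_lit 6) (nat_lit 507) (nat_lit 3) (nat_lit 189) (nat_lit 175) (nat_lit 206)) (PT.nd (nat_lit 78) (PT.lf (nat_lit 39824) (nat_lit 6) (nat_lit 524) (nat_lit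 3) (nat_lit 190) (nat_lit 175) (nat_lit 205)) (PT.lf (nat_lit 39900) (nat_lit 6) (nat_lit 525) (nat_lit 3) (nat_lit 191) (nat_lit 175) (nat_lit 204)))) (PT.nd (nat_lit 156) (PT.nd (nat_lit 78) (PT.lf (nat_lit 39976) (nat_lit 6) (nat_lit 526) (nat_lit 3) (nat_lit 192) (nat_lit 175) (nat_lit 203)) (PT.lf (nat_lit 40052) (nat_lit 6) (nat_lit 527) (nat_lit 3) (nat_lit 193) (nat_lit 175) (nat_lit 202))) (PT.nd (nat_lit 78) (PT.lf (nat_lit 40128) (nat_lit 6) (nat_lit 528) (nat_lit 3) (nat_lit 194) (nat_lit 175) (nat_lit 201)) (PT.lf (nat_lit 40204) (nat_lit 6) (nat_lit 529) (nat_lit 3) (nat_lit 195) (nat_lit 175) (nat_lit 200))))) (PT.nd (nat_lit 312) (PT.nd (nat_lit 156) (PT.nd (nat_lit 78) (PT.lf (nat_lit 40280) (nat_lit 6) (nat_lit 530) (nat_lit 3) (nat_lit 196) (nat_lit 175) (nat_lit 199)) (PT.lf (nat_lit 40356) (nat_lit 6) (nat_lit 531) (nat_lit 3) (nat_lit 197) (nat_lit 175) (nat_lit 198))) (PT.nd (nat_lit 78)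 (PT.lf (nat_lit 40356) (nat_lit 6) (nat_lit 531) (nat_lit 1) (nat_lit 198) (nat_lit 175) (nat_lit 197)) (PT.lf (nat_lit 40280) (nat_lit 6) (nat_lit 530) (nat_lit 1) (nat_lit 199) (nat_lit 175) (nat_lit 196)))) (PT.nd (nat_lit 156) (PT.nd (nat_lit 78) (PT.lf (nat_lit 40204) (nat_lit 6) (nat_lit 529) (nat_lit 1) (nat_lit 200) (nat_lit 175) (nat_lit 195)) (PT.lf (nat_lit 40128) (nat_lit 6) (nat_lit 528) (nat_lit 1) (nat_lit 201) (nat_lit 175) (nat_lit 194))) (PT.nd (nat_lit 78) (PT.lf (nat_lit 40052) (nat_lit 6) (nat_lit 527) (nat_lit 1) (nat_lit 202) (nat_lit 175) (nat_lit 193)) (PT.lf (nat_lit 39976) (nat_lit 6) (nat_lit 526) (nat_lit 1) (nat_lit 203) (nat_lit 175) (nat_lit 192))))))))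
noncomputable def pc16 : PT := (PT.nd (nat_lit 59124) (PT.nd (nat_lit 58032) (PT.nd (nat_lit 546) (PT.nd (nat_lit 234) (PT.nd (nat_lit 78) (PT.lf (nat_lit 39900) (nat_lit 6) (nat_lit 525) (nat_lit 1) (nat_lit 204) (nat_lit 175) (nat_lit 191)) (PT.nd (nat_lit 78) (PT.lf (nat_lit 39824) (nat_lit 6) (nat_lit 524) (nat_lit 1) (nat_lit 205) (nat_lit 175) (nat_lit 190)) (PT.lf (nat_lit 38532) (nat_lit 6) (nat_lit 507) (nat_lit 1) (nat_lit 206) (nat_lit 175) (nat_lit 189)))) (PT.nd (nat_lit 156) (PT.nd (nat_lit 78) (PT.lf (nat_lit 37164) (nat_lit 6) (nat_lit 489) (nat_lit 1) (nat_lit 207) (nat_lit 175) (nat_lit 188)) (PT.lf (nat_lit 35720) (nat_lit 6) (nat_lit 470) (nat_lit 1) (nat_lit 208) (nat_lit 175) (nat_lit 187))) (PT.nd (nat_lit 78) (PT.lf (nat_lit 34200) (nat_lit 6) (nat_lit 450) (nat_lit 1) (nat_lit 209) (nat_lit 175) (nat_lit 186)) (PT.lf (nat_lit 32604) (nat_lit 6) (nat_lit 429) (nat_lit 1) (nat_lit 210)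 (nat_lit 175) (nat_lit 185))))) (PT.nd (nat_lit 57174) (PT.nd (nat_lit 78) (PT.lf (nat_lit 30932) (nat_lit 6) (nat_lit 407) (nat_lit 1) (nat_lit 211) (nat_lit 175) (nat_lit 184)) (PT.nd (nat_lit 57018) (PT.lf (nat_lit 29184) (nat_lit 6) (nat_lit 384) (nat_lit 1) (nat_lit 212) (nat_lit 175) (nat_lit 183)) (PT.lf (nat_lit 29108) (nat_lit 6) (nat_lit 383) (nat_lit 3) (nat_lit 182) (nat_lit 176) (nat_lit 212)))) (PT.nd (nat_lit 156) (PT.nd (nat_lit 78) (PT.lf (nat_lit 30856) (nat_lit 6) (nat_lit 406) (nat_lit 3) (nat_lit 183) (nat_lit 176) (nat_lit 211)) (PT.lf (nat_lit 32528) (nat_lit 6) (nat_lit 428) (nat_lit 3) (nat_lit 184) (nat_lit 176) (nat_lit 210))) (PT.nd (nat_lit 78) (PT.lf (nat_lit 34124) (nat_lit 6) (nat_lit 449) (nat_lit 3) (nat_lit 185) (nat_lit 176) (nat_lit 209)) (PT.lf (nat_lit 35644) (nat_lit 6) (nat_lit 469) (nat_lit 3) (nat_lit 186) (nat_lit 176) (nat_lit 208)))))) (PT.nd (nat_lit 546) (PT.nd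 (nat_lit 234) (PT.nd (nat_lit 78) (PT.lf (nat_lit 37088) (nat_lit 6) (nat_lit 488) (nat_lit 3) (nat_lit 187) (nat_lit 176) (nat_lit 207)) (PT.nd (nat_lit 78) (PT.lf (nat_lit 38456) (nat_lit 6) (nat_lit 506) (nat_lit 3) (nat_lit 188) (nat_lit 176) (nat_lit 206)) (PT.lf (nat_lit 39748) (nat_lit 6) (nat_lit 523) (nat_lit 3) (nat_lit 189) (nat_lit 176) (nat_lit 205)))) (PT.nd (nat_lit 156) (PT.nd (nat_lit 78) (PT.lf (nat_lit 40964) (nat_lit 6) (nat_lit 539) (nat_lit 3) (nat_lit 190) (nat_lit 176) (nat_lit 204)) (PT.lf (nat_lit 41040) (nat_lit 6) (nat_lit 540) (nat_lit 3) (nat_lit 191) (nat_lit 176) (nat_lit 203))) (PT.nd (nat_lit 78) (PT.lf (nat_lit 41116) (nat_lit 6) (nat_lit 541) (nat_lit 3) (nat_lit 192) (nat_lit 176) (nat_lit 202)) (PT.lf (nat_lit 41192) (nat_lit 6) (nat_lit 542) (nat_lit 3) (nat_lit 193) (nat_lit 176) (nat_lit 201))))) (PT.nd (nat_lit 234) (PT.nd (nat_lit 78) (PT.lf (nat_lit 41268) (nat_lit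 6) (nat_lit 543) (nat_lit 3) (nat_lit 194) (nat_lit 176) (nat_lit 200)) (PT.nd (nat_lit 78) (PT.lf (nat_lit 41344) (nat_lit 6) (nat_lit 544) (nat_lit 3) (nat_lit 195) (nat_lit 176) (nat_lit 199)) (PT.lf (nat_lit 41420) (nat_lit 6) (nat_lit 545) (nat_lit 3) (nat_lit 196) (nat_lit 176) (nat_lit 198)))) (PT.nd (nat_lit 156) (PT.nd (nat_lit 78) (PT.lf (nat_lit 41496) (nat_lit 3) (nat_lit 546) (nat_lit 1) (nat_lit 197) (nat_lit 176) (nat_lit 197)) (PT.lf (nat_lit 41420) (nat_lit 6) (nat_lit 545) (nat_lit 1) (nat_lit 198) (nat_lit 176) (nat_lit 196))) (PT.nd (nat_lit 78) (PT.lf (nat_lit 41344) (nat_lit 6) (nat_lit 544) (nat_lit 1) (nat_lit 199) (nat_lit 176) (nat_lit 195)) (PT.lf (nat_lit 41268) (nat_lit 6) (nat_lit 543) (nat_lit 1) (nat_lit 200) (nat_lit 176) (nat_lit 194))))))) (PT.nd (nat_lit 57954) (PT.nd (nat_lit 546) (PT.nd (nat_lit 234) (PT.nd (nat_lit 78) (PT.lf (nat_lit 41192) (nat_lit 6) (nat_lit 542) (nat_lit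 1) (nat_lit 201) (nat_lit 176) (nat_lit 193)) (PT.nd (nat_lit 78) (PT.lf (nat_lit 41116) (nat_lit 6) (nat_lit 541) (nat_lit 1) (nat_lit 202) (nat_lit 176) (nat_lit 192)) (PT.lf (nat_lit 41040) (nat_lit 6) (nat_lit 540) (nat_lit 1) (nat_lit 203) (nat_lit 176) (nat_lit 191)))) (PT.nd (nat_lit 156) (PT.nd (nat_lit 78) (PT.lf (nat_lit 40964) (nat_lit 6) (nat_lit 539) (nat_lit 1) (nat_lit 204) (nat_lit 176) (nat_lit 190)) (PT.lf (nat_lit 39748) (nat_lit 6) (nat_lit 523) (nat_lit 1) (nat_lit 205) (nat_lit 176) (nat_lit 189))) (PT.nd (nat_lit 78) (PT.lf (nat_lit 38456) (nat_lit 6) (nat_lit 506) (nat_lit 1) (nat_lit 206) (nat_lit 176) (nat_lit 188)) (PT.lf (nat_lit 37088) (nat_lit 6) (nat_lit 488) (nat_lit 1) (nat_lit 207) (nat_lit 176) (nat_lit 187))))) (PT.nd (nat_lit 234) (PT.nd (nat_lit 78) (PT.lf (nat_lit 35644) (nat_lit 6) (nat_lit 469) (nat_lit 1) (nat_lit 208) (nat_lit 176) (nat_lit 186)) (PT.nd (nat_lit 78)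 (PT.lf (nat_lit 34124) (nat_lit 6) (nat_lit 449) (nat_lit 1) (nat_lit 209) (nat_lit 176) (nat_lit 185)) (PT.lf (nat_lit 32528) (nat_lit 6) (nat_lit 428) (nat_lit 1) (nat_lit 210) (nat_lit 176) (nat_lit 184)))) (PT.nd (nat_lit 57018) (PT.nd (nat_lit 78) (PT.lf (nat_lit 30856) (nat_lit 6) (nat_lit 406) (nat_lit 1) (nat_lit 211) (nat_lit 176) (nat_lit 183)) (PT.lf (nat_lit 29108) (nat_lit 6) (nat_lit 383) (nat_lit 1) (nat_lit 212) (nat_lit 176) (nat_lit 182))) (PT.nd (nat_lit 78) (PT.lf (nat_lit 29032) (nat_lit 6) (nat_lit 382) (nat_lit 3) (nat_lit 181) (nat_lit 177) (nat_lit 212)) (PT.lf (nat_lit 30780) (nat_lit 6) (nat_lit 405) (nat_lit 3) (nat_lit 182) (nat_lit 177) (nat_lit 211)))))) (PT.nd (nat_lit 546) (PT.nd (nat_lit 234) (PT.nd (nat_lit 78) (PT.lf (nat_lit 32452) (nat_lit 6) (nat_lit 427) (nat_lit 3) (nat_lit 183) (nat_lit 177) (nat_lit 210)) (PT.nd (nat_lit 78) (PT.lf (nat_lit 34048) (nat_lit 6) (nat_lit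 448) (nat_lit 3) (nat_lit 184) (nat_lit 177) (nat_lit 209)) (PT.lf (nat_lit 35568) (nat_lit 6) (nat_lit 468) (nat_lit 3) (nat_lit 185) (nat_lit 177) (nat_lit 208)))) (PT.nd (nat_lit 156) (PT.nd (nat_lit 78) (PT.lf (nat_lit 37012) (nat_lit 6) (nat_lit 487) (nat_lit 3) (nat_lit 186) (nat_lit 177) (nat_lit 207)) (PT.lf (nat_lit 38380) (nat_lit 6) (nat_lit 505) (nat_lit 3) (nat_lit 187) (nat_lit 177) (nat_lit 206))) (PT.nd (nat_lit 78) (PT.lf (nat_lit 39672) (nat_lit 6) (nat_lit 522) (nat_lit 3) (nat_lit 188) (nat_lit 177) (nat_lit 205)) (PT.lf (nat_lit 40888) (nat_lit 6) (nat_lit 538) (nat_lit 3) (nat_lit 189) (nat_lit 177) (nat_lit 204))))) (PT.nd (nat_lit 234) (PT.nd (nat_lit 78) (PT.lf (nat_lit 42028) (nat_lit 6) (nat_lit 553) (nat_lit 3) (nat_lit 190) (nat_lit 177) (nat_lit 203)) (PT.nd (nat_lit 78) (PT.lf (nat_lit 42104) (nat_lit 6) (nat_lit 554) (nat_lit 3) (nat_lit 191) (nat_lit 177) (nat_lit 202)) (PT.lf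 (nat_lit 42180) (nat_lit 6) (nat_lit 555) (nat_lit 3) (nat_lit 192) (nat_lit 177) (nat_lit 201)))) (PT.nd (nat_lit 156) (PT.nd (nat_lit 78) (PT.lf (nat_lit 42256) (nat_lit 6) (nat_lit 556) (nat_lit 3) (nat_lit 193) (nat_lit 177) (nat_lit 200)) (PT.lf (nat_lit 42332) (nat_lit 6) (nat_lit 557) (nat_lit 3) (nat_lit 194) (nat_lit 177) (nat_lit 199))) (PT.nd (nat_lit 78) (PT.lf (nat_lit 42408) (nat_lit 6) (nat_lit 558) (nat_lit 3) (nat_lit 195) (nat_lit 177) (nat_lit 198)) (PT.lf (nat_lit 42484) (nat_lit 6) (nat_lit 559) (nat_lit 3) (nat_lit 196) (nat_lit 177) (nat_lit 197))))))))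
noncomputable def pc17 : PT := (PT.nd (nat_lit 58968) (PT.nd (nat_lit 1092) (PT.nd (nat_lit 546) (PT.nd (nat_lit 234) (PT.nd (nat_lit 78) (PT.lf (nat_lit 42484) (nat_lit 6) (nat_lit 559) (nat_lit 1) (nat_lit 197) (nat_lit 177) (nat_lit 196)) (PT.nd (nat_lit 78) (PT.lf (nat_lit 42408) (nat_lit 6) (nat_lit 558) (nat_lit 1) (nat_lit 198) (nat_lit 177) (nat_lit 195)) (PT.lf (nat_lit 42332) (nat_lit 6) (nat_lit 557) (nat_lit 1) (nat_lit 199) (nat_lit 177) (nat_lit 194)))) (PT.nd (nat_lit 156) (PT.nd (nat_lit 78) (PT.lf (nat_lit 42256) (nat_lit 6) (nat_lit 556) (nat_lit 1) (nat_lit 200) (nat_lit 177) (nat_lit 193)) (PT.lf (nat_lit 42180) (nat_lit 6) (nat_lit 555) (nat_lit 1) (nat_lit 201) (nat_lit 177) (nat_lit 192))) (PT.nd (nat_lit 78) (PT.lf (nat_lit 42104) (nat_lit 6) (nat_lit 554) (nat_lit 1) (nat_lit 202) (nat_lit 177) (nat_lit 191)) (PT.lf (nat_lit 42028) (nat_lit 6) (nat_lit 553) (nat_lit 1) (nat_lit 203) (nat_lit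 177) (nat_lit 190))))) (PT.nd (nat_lit 234) (PT.nd (nat_lit 78) (PT.lf (nat_lit 40888) (nat_lit 6) (nat_lit 538) (nat_lit 1) (nat_lit 204) (nat_lit 177) (nat_lit 189)) (PT.nd (nat_lit 78) (PT.lf (nat_lit 39672) (nat_lit 6) (nat_lit 522) (nat_lit 1) (nat_lit 205) (nat_lit 177) (nat_lit 188)) (PT.lf (nat_lit 38380) (nat_lit 6) (nat_lit 505) (nat_lit 1) (nat_lit 206) (nat_lit 177) (nat_lit 187)))) (PT.nd (nat_lit 156) (PT.nd (nat_lit 78) (PT.lf (nat_lit 37012) (nat_lit 6) (nat_lit 487) (nat_lit 1) (nat_lit 207) (nat_lit 177) (nat_lit 186)) (PT.lf (nat_lit 35568) (nat_lit 6) (nat_lit 468) (nat_lit 1) (nat_lit 208) (nat_lit 177) (nat_lit 185))) (PT.nd (nat_lit 78) (PT.lf (nat_lit 34048) (nat_lit 6) (nat_lit 448) (nat_lit 1) (nat_lit 209) (nat_lit 177) (nat_lit 184)) (PT.lf (nat_lit 32452) (nat_lit 6) (nat_lit 427) (nat_lit 1) (nat_lit 210) (nat_lit 177) (nat_lit 183)))))) (PT.nd (nat_lit 57330) (PT.nd (nat_lit 57018)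 (PT.nd (nat_lit 78) (PT.lf (nat_lit 30780) (nat_lit 6) (nat_lit 405) (nat_lit 1) (nat_lit 211) (nat_lit 177) (nat_lit 182)) (PT.nd (nat_lit 56862) (PT.lf (nat_lit 29032) (nat_lit 6) (nat_lit 382) (nat_lit 1) (nat_lit 212) (nat_lit 177) (nat_lit 181)) (PT.lf (nat_lit 28956) (nat_lit 6) (nat_lit 381) (nat_lit 3) (nat_lit 180) (nat_lit 178) (nat_lit 212)))) (PT.nd (nat_lit 156) (PT.nd (nat_lit 78) (PT.lf (nat_lit 30704) (nat_lit 6) (nat_lit 404) (nat_lit 3) (nat_lit 181) (nat_lit 178) (nat_lit 211)) (PT.lf (nat_lit 32376) (nat_lit 6) (nat_lit 426) (nat_lit 3) (nat_lit 182) (nat_lit 178) (nat_lit 210))) (PT.nd (nat_lit 78) (PT.lf (nat_lit 33972) (nat_lit 6) (nat_lit 447) (nat_lit 3) (nat_lit 183) (nat_lit 178) (nat_lit 209)) (PT.lf (nat_lit 35492) (nat_lit 6) (nat_lit 467) (nat_lit 3) (nat_lit 184) (nat_lit 178) (nat_lit 208))))) (PT.nd (nat_lit 234) (PT.nd (nat_lit 78) (PT.lf (nat_lit 36936) (nat_lit 6) (nat_lit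 486) (nat_lit 3) (nat_lit 185) (nat_lit 178) (nat_lit 207)) (PT.nd (nat_lit 78) (PT.lf (nat_lit 38304) (nat_lit 6) (nat_lit 504) (nat_lit 3) (nat_lit 186) (nat_lit 178) (nat_lit 206)) (PT.lf (nat_lit 39596) (nat_lit 6) (nat_lit 521) (nat_lit 3) (nat_lit 187) (nat_lit 178) (nat_lit 205)))) (PT.nd (nat_lit 156) (PT.nd (nat_lit 78) (PT.lf (nat_lit 40812) (nat_lit 6) (nat_lit 537) (nat_lit 3) (nat_lit 188) (nat_lit 178) (nat_lit 204)) (PT.lf (nat_lit 41952) (nat_lit 6) (nat_lit 552) (nat_lit 3) (nat_lit 189) (nat_lit 178) (nat_lit 203))) (PT.nd (nat_lit 78) (PT.lf (nat_lit 43016) (nat_lit 6) (nat_lit 566) (nat_lit 3) (nat_lit 190) (nat_lit 178) (nat_lit 202)) (PT.lf (nat_lit 43092) (nat_lit 6) (nat_lit 567) (nat_lit 3) (nat_lit 191) (nat_lit 178) (nat_lit 201))))))) (PT.nd (nat_lit 1092) (PT.nd (nat_lit 546) (PT.nd (nat_lit 234) (PT.nd (nat_lit 78) (PT.lf (nat_lit 43168) (nat_lit 6) (nat_lit 568) (nat_lit 3) (nat_lit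 192) (nat_lit 178) (nat_lit 200)) (PT.nd (nat_lit 78) (PT.lf (nat_lit 43244) (nat_lit 6) (nat_lit 569) (nat_lit 3) (nat_lit 193) (nat_lit 178) (nat_lit 199)) (PT.lf (nat_lit 43320) (nat_lit 6) (nat_lit 570) (nat_lit 3) (nat_lit 194) (nat_lit 178) (nat_lit 198)))) (PT.nd (nat_lit 156) (PT.nd (nat_lit 78) (PT.lf (nat_lit 43396) (nat_lit 6) (nat_lit 571) (nat_lit 3) (nat_lit 195) (nat_lit 178) (nat_lit 197)) (PT.lf (nat_lit 43472) (nat_lit 3) (nat_lit 572) (nat_lit 1) (nat_lit 196) (nat_lit 178) (nat_lit 196))) (PT.nd (nat_lit 78) (PT.lf (nat_lit 43396) (nat_lit 6) (nat_lit 571) (nat_lit 1) (nat_lit 197) (nat_lit 178) (nat_lit 195)) (PT.lf (nat_lit 43320) (nat_lit 6) (nat_lit 570) (nat_lit 1) (nat_lit 198) (nat_lit 178) (nat_lit 194))))) (PT.nd (nat_lit 234) (PT.nd (nat_lit 78) (PT.lf (nat_lit 43244) (nat_lit 6) (nat_lit 569) (nat_lit 1) (nat_lit 199) (nat_lit 178) (nat_lit 193)) (PT.nd (nat_lit 78) (PT.lf (nat_lit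 43168) (nat_lit 6) (nat_lit 568) (nat_lit 1) (nat_lit 200) (nat_lit 178) (nat_lit 192)) (PT.lf (nat_lit 43092) (nat_lit 6) (nat_lit 567) (nat_lit 1) (nat_lit 201) (nat_lit 178) (nat_lit 191)))) (PT.nd (nat_lit 156) (PT.nd (nat_lit 78) (PT.lf (nat_lit 43016) (nat_lit 6) (nat_lit 566) (nat_lit 1) (nat_lit 202) (nat_lit 178) (nat_lit 190)) (PT.lf (nat_lit 41952) (nat_lit 6) (nat_lit 552) (nat_lit 1) (nat_lit 203) (nat_lit 178) (nat_lit 189))) (PT.nd (nat_lit 78) (PT.lf (nat_lit 40812) (nat_lit 6) (nat_lit 537) (nat_lit 1) (nat_lit 204) (nat_lit 178) (nat_lit 188)) (PT.lf (nat_lit 39596) (nat_lit 6) (nat_lit 521) (nat_lit 1) (nat_lit 205) (nat_lit 178) (nat_lit 187)))))) (PT.nd (nat_lit 57252) (PT.nd (nat_lit 234) (PT.nd (nat_lit 78) (PT.lf (nat_lit 38304) (nat_lit 6) (nat_lit 504) (nat_lit 1) (nat_lit 206) (nat_lit 178) (nat_lit 186)) (PT.nd (nat_lit 78) (PT.lf (nat_lit 36936) (nat_lit 6) (nat_lit 486) (nat_lit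 1) (nat_lit 207) (nat_lit 178) (nat_lit 185)) (PT.lf (nat_lit 35492) (nat_lit 6) (nat_lit 467) (nat_lit 1) (nat_lit 208) (nat_lit 178) (nat_lit 184)))) (PT.nd (nat_lit 156) (PT.nd (nat_lit 78) (PT.lf (nat_lit 33972) (nat_lit 6) (nat_lit 447) (nat_lit 1) (nat_lit 209) (nat_lit 178) (nat_lit 183)) (PT.lf (nat_lit 32376) (nat_lit 6) (nat_lit 426) (nat_lit 1) (nat_lit 210) (nat_lit 178) (nat_lit 182))) (PT.nd (nat_lit 78) (PT.lf (nat_lit 30704) (nat_lit 6) (nat_lit 404) (nat_lit 1) (nat_lit 211) (nat_lit 178) (nat_lit 181)) (PT.lf (nat_lit 28956) (nat_lit 6) (nat_lit 381) (nat_lit 1) (nat_lit 212) (nat_lit 178) (nat_lit 180))))) (PT.nd (nat_lit 312) (PT.nd (nat_lit 156) (PT.nd (nat_lit 78) (PT.lf (nat_lit 28880) (nat_lit 3) (nat_lit 380) (nat_lit 3) (nat_lit 179) (nat_lit 179) (nat_lit 212)) (PT.lf (nat_lit 30628) (nat_lit 6) (nat_lit 403) (nat_lit 3) (nat_lit 180) (nat_lit 179) (nat_lit 211))) (PT.nd (nat_lit 78)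 (PT.lf (nat_lit 32300) (nat_lit 6) (nat_lit 425) (nat_lit 3) (nat_lit 181) (nat_lit 179) (nat_lit 210)) (PT.lf (nat_lit 33896) (nat_lit 6) (nat_lit 446) (nat_lit 3) (nat_lit 182) (nat_lit 179) (nat_lit 209)))) (PT.nd (nat_lit 156) (PT.nd (nat_lit 78) (PT.lf (nat_lit 35416) (nat_lit 6) (nat_lit 466) (nat_lit 3) (nat_lit 183) (nat_lit 179) (nat_lit 208)) (PT.lf (nat_lit 36860) (nat_lit 6) (nat_lit 485) (nat_lit 3) (nat_lit 184) (nat_lit 179) (nat_lit 207))) (PT.nd (nat_lit 78) (PT.lf (nat_lit 38228) (nat_lit 6) (nat_lit 503) (nat_lit 3) (nat_lit 185) (nat_lit 179) (nat_lit 206)) (PT.lf (nat_lit 39520) (nat_lit 6) (nat_lit 520) (nat_lit 3) (nat_lit 186) (nat_lit 179) (nat_lit 205))))))))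
noncomputable def pc18 : PT := (PT.nd (nat_lit 58812) (PT.nd (nat_lit 1092) (PT.nd (nat_lit 546) (PT.nd (nat_lit 234) (PT.nd (nat_lit 78) (PT.lf (nat_lit 40736) (nat_lit 6) (nat_lit 536) (nat_lit 3) (nat_lit 187) (nat_lit 179) (nat_lit 204)) (PT.nd (nat_lit 78) (PT.lf (nat_lit 41876) (nat_lit 6) (nat_lit 551) (nat_lit 3) (nat_lit 188) (nat_lit 179) (nat_lit 203)) (PT.lf (nat_lit 42940) (nat_lit 6) (nat_lit 565) (nat_lit 3) (nat_lit 189) (nat_lit 179) (nat_lit 202)))) (PT.nd (nat_lit 156) (PT.nd (nat_lit 78) (PT.lf (nat_lit 43928) (nat_lit 6) (nat_lit 578) (nat_lit 3) (nat_lit 190) (nat_lit 179) (nat_lit 201)) (PT.lf (nat_lit 44004) (nat_lit 6) (nat_lit 579) (nat_lit 3) (nat_lit 191) (nat_lit 179) (nat_lit 200))) (PT.nd (nat_lit 78) (PT.lf (nat_lit 44080) (nat_lit 6) (nat_lit 580) (nat_lit 3) (nat_lit 192) (nat_lit 179) (nat_lit 199)) (PT.lf (nat_lit 44156) (nat_lit 6) (nat_lit 581) (nat_lit 3) (nat_lit 193) (nat_lit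 179) (nat_lit 198))))) (PT.nd (nat_lit 234) (PT.nd (nat_lit 78) (PT.lf (nat_lit 44232) (nat_lit 6) (nat_lit 582) (nat_lit 3) (nat_lit 194) (nat_lit 179) (nat_lit 197)) (PT.nd (nat_lit 78) (PT.lf (nat_lit 44308) (nat_lit 6) (nat_lit 583) (nat_lit 3) (nat_lit 195) (nat_lit 179) (nat_lit 196)) (PT.lf (nat_lit 44308) (nat_lit 6) (nat_lit 583) (nat_lit 1) (nat_lit 196) (nat_lit 179) (nat_lit 195)))) (PT.nd (nat_lit 156) (PT.nd (nat_lit 78) (PT.lf (nat_lit 44232) (nat_lit 6) (nat_lit 582) (nat_lit 1) (nat_lit 197) (nat_lit 179) (nat_lit 194)) (PT.lf (nat_lit 44156) (nat_lit 6) (nat_lit 581) (nat_lit 1) (nat_lit 198) (nat_lit 179) (nat_lit 193))) (PT.nd (nat_lit 78) (PT.lf (nat_lit 44080) (nat_lit 6) (nat_lit 580) (nat_lit 1) (nat_lit 199) (nat_lit 179) (nat_lit 192)) (PT.lf (nat_lit 44004) (nat_lit 6) (nat_lit 579) (nat_lit 1) (nat_lit 200) (nat_lit 179) (nat_lit 191)))))) (PT.nd (nat_lit 546) (PT.nd (nat_lit 234)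 (PT.nd (nat_lit 78) (PT.lf (nat_lit 43928) (nat_lit 6) (nat_lit 578) (nat_lit 1) (nat_lit 201) (nat_lit 179) (nat_lit 190)) (PT.nd (nat_lit 78) (PT.lf (nat_lit 42940) (nat_lit 6) (nat_lit 565) (nat_lit 1) (nat_lit 202) (nat_lit 179) (nat_lit 189)) (PT.lf (nat_lit 41876) (nat_lit 6) (nat_lit 551) (nat_lit 1) (nat_lit 203) (nat_lit 179) (nat_lit 188)))) (PT.nd (nat_lit 156) (PT.nd (nat_lit 78) (PT.lf (nat_lit 40736) (nat_lit 6) (nat_lit 536) (nat_lit 1) (nat_lit 204) (nat_lit 179) (nat_lit 187)) (PT.lf (nat_lit 39520) (nat_lit 6) (nat_lit 520) (nat_lit 1) (nat_lit 205) (nat_lit 179) (nat_lit 186))) (PT.nd (nat_lit 78) (PT.lf (nat_lit 38228) (nat_lit 6) (nat_lit 503) (nat_lit 1) (nat_lit 206) (nat_lit 179) (nat_lit 185)) (PT.lf (nat_lit 36860) (nat_lit 6) (nat_lit 485) (nat_lit 1) (nat_lit 207) (nat_lit 179) (nat_lit 184))))) (PT.nd (nat_lit 234) (PT.nd (nat_lit 78) (PT.lf (nat_lit 35416) (nat_lit 6) (nat_lit 466)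 (nat_lit 1) (nat_lit 208) (nat_lit 179) (nat_lit 183)) (PT.nd (nat_lit 78) (PT.lf (nat_lit 33896) (nat_lit 6) (nat_lit 446) (nat_lit 1) (nat_lit 209) (nat_lit 179) (nat_lit 182)) (PT.lf (nat_lit 32300) (nat_lit 6) (nat_lit 425) (nat_lit 1) (nat_lit 210) (nat_lit 179) (nat_lit 181)))) (PT.nd (nat_lit 56784) (PT.nd (nat_lit 78) (PT.lf (nat_lit 30628) (nat_lit 6) (nat_lit 403) (nat_lit 1) (nat_lit 211) (nat_lit 179) (nat_lit 180)) (PT.lf (nat_lit 28880) (nat_lit 3) (nat_lit 380) (nat_lit 0) (nat_lit 212) (nat_lit 179) (nat_lit 179))) (PT.nd (nat_lit 78) (PT.lf (nat_lit 28956) (nat_lit 6) (nat_lit 381) (nat_lit 5) (nat_lit 178) (nat_lit 180) (nat_lit 212)) (PT.lf (nat_lit 30628) (nat_lit 6) (nat_lit 403) (nat_lit 5) (nat_lit 179) (nat_lit 180) (nat_lit 211))))))) (PT.nd (nat_lit 1092) (PT.nd (nat_lit 546) (PT.nd (nat_lit 234) (PT.nd (nat_lit 78) (PT.lf (nat_lit 32224) (nat_lit 3) (nat_lit 424) (nat_lit 3) (nat_lit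 180) (nat_lit 180) (nat_lit 210)) (PT.nd (nat_lit 78) (PT.lf (nat_lit 33820) (nat_lit 6) (nat_lit 445) (nat_lit 3) (nat_lit 181) (nat_lit 180) (nat_lit 209)) (PT.lf (nat_lit 35340) (nat_lit 6) (nat_lit 465) (nat_lit 3) (nat_lit 182) (nat_lit 180) (nat_lit 208)))) (PT.nd (nat_lit 156) (PT.nd (nat_lit 78) (PT.lf (nat_lit 36784) (nat_lit 6) (nat_lit 484) (nat_lit 3) (nat_lit 183) (nat_lit 180) (nat_lit 207)) (PT.lf (nat_lit 38152) (nat_lit 6) (nat_lit 502) (nat_lit 3) (nat_lit 184) (nat_lit 180) (nat_lit 206))) (PT.nd (nat_lit 78) (PT.lf (nat_lit 39444) (nat_lit 6) (nat_lit 519) (nat_lit 3) (nat_lit 185) (nat_lit 180) (nat_lit 205)) (PT.lf (nat_lit 40660) (nat_lit 6) (nat_lit 535) (nat_lit 3) (nat_lit 186) (nat_lit 180) (nat_lit 204))))) (PT.nd (nat_lit 234) (PT.nd (nat_lit 78) (PT.lf (nat_lit 41800) (nat_lit 6) (nat_lit 550) (nat_lit 3) (nat_lit 187) (nat_lit 180) (nat_lit 203)) (PT.nd (nat_lit 78) (PT.lf (nat_lit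 42864) (nat_lit 6) (nat_lit 564) (nat_lit 3) (nat_lit 188) (nat_lit 180) (nat_lit 202)) (PT.lf (nat_lit 43852) (nat_lit 6) (nat_lit 577) (nat_lit 3) (nat_lit 189) (nat_lit 180) (nat_lit 201)))) (PT.nd (nat_lit 156) (PT.nd (nat_lit 78) (PT.lf (nat_lit 44764) (nat_lit 6) (nat_lit 589) (nat_lit 3) (nat_lit 190) (nat_lit 180) (nat_lit 200)) (PT.lf (nat_lit 44840) (nat_lit 6) (nat_lit 590) (nat_lit 3) (nat_lit 191) (nat_lit 180) (nat_lit 199))) (PT.nd (nat_lit 78) (PT.lf (nat_lit 44916) (nat_lit 6) (nat_lit 591) (nat_lit 3) (nat_lit 192) (nat_lit 180) (nat_lit 198)) (PT.lf (nat_lit 44992) (nat_lit 6) (nat_lit 592) (nat_lit 3) (nat_lit 193) (nat_lit 180) (nat_lit 197)))))) (PT.nd (nat_lit 546) (PT.nd (nat_lit 234) (PT.nd (nat_lit 78) (PT.lf (nat_lit 45068) (nat_lit 6) (nat_lit 593) (nat_lit 3) (nat_lit 194) (nat_lit 180) (nat_lit 196)) (PT.nd (nat_lit 78) (PT.lf (nat_lit 45144) (nat_lit 3) (nat_lit 594) (nat_lit 1)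 (nat_lit 195) (nat_lit 180) (nat_lit 195)) (PT.lf (nat_lit 45068) (nat_lit 6) (nat_lit 593) (nat_lit 1) (nat_lit 196) (nat_lit 180) (nat_lit 194)))) (PT.nd (nat_lit 156) (PT.nd (nat_lit 78) (PT.lf (nat_lit 44992) (nat_lit 6) (nat_lit 592) (nat_lit 1) (nat_lit 197) (nat_lit 180) (nat_lit 193)) (PT.lf (nat_lit 44916) (nat_lit 6) (nat_lit 591) (nat_lit 1) (nat_lit 198) (nat_lit 180) (nat_lit 192))) (PT.nd (nat_lit 78) (PT.lf (nat_lit 44840) (nat_lit 6) (nat_lit 590) (nat_lit 1) (nat_lit 199) (nat_lit 180) (nat_lit 191)) (PT.lf (nat_lit 44764) (nat_lit 6) (nat_lit 589) (nat_lit 1) (nat_lit 200) (nat_lit 180) (nat_lit 190))))) (PT.nd (nat_lit 312) (PT.nd (nat_lit 156) (PT.nd (nat_lit 78) (PT.lf (nat_lit 43852) (nat_lit 6) (nat_lit 577) (nat_lit 1) (nat_lit 201) (nat_lit 180) (nat_lit 189)) (PT.lf (nat_lit 42864) (nat_lit 6) (nat_lit 564) (nat_lit 1) (nat_lit 202) (nat_lit 180) (nat_lit 188))) (PT.nd (nat_lit 78) (PT.lf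 (nat_lit 41800) (nat_lit 6) (nat_lit 550) (nat_lit 1) (nat_lit 203) (nat_lit 180) (nat_lit 187)) (PT.lf (nat_lit 40660) (nat_lit 6) (nat_lit 535) (nat_lit 1) (nat_lit 204) (nat_lit 180) (nat_lit 186)))) (PT.nd (nat_lit 156) (PT.nd (nat_lit 78) (PT.lf (nat_lit 39444) (nat_lit 6) (nat_lit 519) (nat_lit 1) (nat_lit 205) (nat_lit 180) (nat_lit 185)) (PT.lf (nat_lit 38152) (nat_lit 6) (nat_lit 502) (nat_lit 1) (nat_lit 206) (nat_lit 180) (nat_lit 184))) (PT.nd (nat_lit 78) (PT.lf (nat_lit 36784) (nat_lit 6) (nat_lit 484) (nat_lit 1) (nat_lit 207) (nat_lit 180) (nat_lit 183)) (PT.lf (nat_lit 35340) (nat_lit 6) (nat_lit 465) (nat_lit 1) (nat_lit 208) (nat_lit 180) (nat_lit 182))))))))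
noncomputable def pc19 : PT := (PT.nd (nat_lit 58734) (PT.nd (nat_lit 57642) (PT.nd (nat_lit 57096) (PT.nd (nat_lit 234) (PT.nd (nat_lit 78) (PT.lf (nat_lit 33820) (nat_lit 6) (nat_lit 445) (nat_lit 1) (nat_lit 209) (nat_lit 180) (nat_lit 181)) (PT.nd (nat_lit 78) (PT.lf (nat_lit 32224) (nat_lit 3) (nat_lit 424) (nat_lit 0) (nat_lit 210) (nat_lit 180) (nat_lit 180)) (PT.lf (nat_lit 30628) (nat_lit 6) (nat_lit 403) (nat_lit 0) (nat_lit 211) (nat_lit 180) (nat_lit 179)))) (PT.nd (nat_lit 56706) (PT.nd (nat_lit 56628) (PT.lf (nat_lit 28956) (nat_lit 6) (nat_lit 381) (nat_lit 0) (nat_lit 212) (nat_lit 180) (nat_lit 178)) (PT.lf (nat_lit 29032) (nat_lit 6) (nat_lit 382) (nat_lit 5) (nat_lit 177) (nat_lit 181) (nat_lit 212))) (PT.nd (nat_lit 78) (PT.lf (nat_lit 30704) (nat_lit 6) (nat_lit 404) (nat_lit 5) (nat_lit 178) (nat_lit 181) (nat_lit 211)) (PT.lf (nat_lit 32300) (nat_lit 6) (nat_lit 425) (nat_lit 5) (nat_lit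 179) (nat_lit 181) (nat_lit 210))))) (PT.nd (nat_lit 234) (PT.nd (nat_lit 78) (PT.lf (nat_lit 33820) (nat_lit 6) (nat_lit 445) (nat_lit 5) (nat_lit 180) (nat_lit 181) (nat_lit 209)) (PT.nd (nat_lit 78) (PT.lf (nat_lit 35264) (nat_lit 3) (nat_lit 464) (nat_lit 3) (nat_lit 181) (nat_lit 181) (nat_lit 208)) (PT.lf (nat_lit 36708) (nat_lit 6) (nat_lit 483) (nat_lit 3) (nat_lit 182) (nat_lit 181) (nat_lit 207)))) (PT.nd (nat_lit 156) (PT.nd (nat_lit 78) (PT.lf (nat_lit 38076) (nat_lit 6) (nat_lit 501) (nat_lit 3) (nat_lit 183) (nat_lit 181) (nat_lit 206)) (PT.lf (nat_lit 39368) (nat_lit 6) (nat_lit 518) (nat_lit 3) (nat_lit 184) (nat_lit 181) (nat_lit 205))) (PT.nd (nat_lit 78) (PT.lf (nat_lit 40584) (nat_lit 6) (nat_lit 534) (nat_lit 3) (nat_lit 185) (nat_lit 181) (nat_lit 204)) (PT.lf (nat_lit 41724) (nat_lit 6) (nat_lit 549) (nat_lit 3) (nat_lit 186) (nat_lit 181) (nat_lit 203)))))) (PT.nd (nat_lit 546) (PT.nd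 (nat_lit 234) (PT.nd (nat_lit 78) (PT.lf (nat_lit 42788) (nat_lit 6) (nat_lit 563) (nat_lit 3) (nat_lit 187) (nat_lit 181) (nat_lit 202)) (PT.nd (nat_lit 78) (PT.lf (nat_lit 43776) (nat_lit 6) (nat_lit 576) (nat_lit 3) (nat_lit 188) (nat_lit 181) (nat_lit 201)) (PT.lf (nat_lit 44688) (nat_lit 6) (nat_lit 588) (nat_lit 3) (nat_lit 189) (nat_lit 181) (nat_lit 200)))) (PT.nd (nat_lit 156) (PT.nd (nat_lit 78) (PT.lf (nat_lit 45524) (nat_lit 6) (nat_lit 599) (nat_lit 3) (nat_lit 190) (nat_lit 181) (nat_lit 199)) (PT.lf (nat_lit 45600) (nat_lit 6) (nat_lit 600) (nat_lit 3) (nat_lit 191) (nat_lit 181) (nat_lit 198))) (PT.nd (nat_lit 78) (PT.lf (nat_lit 45676) (nat_lit 6) (nat_lit 601) (nat_lit 3) (nat_lit 192) (nat_lit 181) (nat_lit 197)) (PT.lf (nat_lit 45752) (nat_lit 6) (nat_lit 602) (nat_lit 3) (nat_lit 193) (nat_lit 181) (nat_lit 196))))) (PT.nd (nat_lit 234) (PT.nd (nat_lit 78) (PT.lf (nat_lit 45828) (nat_lit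 6) (nat_lit 603) (nat_lit 3) (nat_lit 194) (nat_lit 181) (nat_lit 195)) (PT.nd (nat_lit 78) (PT.lf (nat_lit 45828) (nat_lit 6) (nat_lit 603) (nat_lit 1) (nat_lit 195) (nat_lit 181) (nat_lit 194)) (PT.lf (nat_lit 45752) (nat_lit 6) (nat_lit 602) (nat_lit 1) (nat_lit 196) (nat_lit 181) (nat_lit 193)))) (PT.nd (nat_lit 156) (PT.nd (nat_lit 78) (PT.lf (nat_lit 45676) (nat_lit 6) (nat_lit 601) (nat_lit 1) (nat_lit 197) (nat_lit 181) (nat_lit 192)) (PT.lf (nat_lit 45600) (nat_lit 6) (nat_lit 600) (nat_lit 1) (nat_lit 198) (nat_lit 181) (nat_lit 191))) (PT.nd (nat_lit 78) (PT.lf (nat_lit 45524) (nat_lit 6) (nat_lit 599) (nat_lit 1) (nat_lit 199) (nat_lit 181) (nat_lit 190)) (PT.lf (nat_lit 44688) (nat_lit 6) (nat_lit 588) (nat_lit 1) (nat_lit 200) (nat_lit 181) (nat_lit 189))))))) (PT.nd (nat_lit 57564) (PT.nd (nat_lit 546) (PT.nd (nat_lit 234) (PT.nd (nat_lit 78) (PT.lf (nat_lit 43776) (nat_lit 6) (nat_lit 576) (nat_lit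 1) (nat_lit 201) (nat_lit 181) (nat_lit 188)) (PT.nd (nat_lit 78) (PT.lf (nat_lit 42788) (nat_lit 6) (nat_lit 563) (nat_lit 1) (nat_lit 202) (nat_lit 181) (nat_lit 187)) (PT.lf (nat_lit 41724) (nat_lit 6) (nat_lit 549) (nat_lit 1) (nat_lit 203) (nat_lit 181) (nat_lit 186)))) (PT.nd (nat_lit 156) (PT.nd (nat_lit 78) (PT.lf (nat_lit 40584) (nat_lit 6) (nat_lit 534) (nat_lit 1) (nat_lit 204) (nat_lit 181) (nat_lit 185)) (PT.lf (nat_lit 39368) (nat_lit 6) (nat_lit 518) (nat_lit 1) (nat_lit 205) (nat_lit 181) (nat_lit 184))) (PT.nd (nat_lit 78) (PT.lf (nat_lit 38076) (nat_lit 6) (nat_lit 501) (nat_lit 1) (nat_lit 206) (nat_lit 181) (nat_lit 183)) (PT.lf (nat_lit 36708) (nat_lit 6) (nat_lit 483) (nat_lit 1) (nat_lit 207) (nat_lit 181) (nat_lit 182))))) (PT.nd (nat_lit 234) (PT.nd (nat_lit 78) (PT.lf (nat_lit 35264) (nat_lit 3) (nat_lit 464) (nat_lit 0) (nat_lit 208) (nat_lit 181) (nat_lit 181)) (PT.nd (nat_lit 78)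 (PT.lf (nat_lit 33820) (nat_lit 6) (nat_lit 445) (nat_lit 0) (nat_lit 209) (nat_lit 181) (nat_lit 180)) (PT.lf (nat_lit 32300) (nat_lit 6) (nat_lit 425) (nat_lit 0) (nat_lit 210) (nat_lit 181) (nat_lit 179)))) (PT.nd (nat_lit 56628) (PT.nd (nat_lit 78) (PT.lf (nat_lit 30704) (nat_lit 6) (nat_lit 404) (nat_lit 0) (nat_lit 211) (nat_lit 181) (nat_lit 178)) (PT.lf (nat_lit 29032) (nat_lit 6) (nat_lit 382) (nat_lit 0) (nat_lit 212) (nat_lit 181) (nat_lit 177))) (PT.nd (nat_lit 78) (PT.lf (nat_lit 29108) (nat_lit 6) (nat_lit 383) (nat_lit 5) (nat_lit 176) (nat_lit 182) (nat_lit 212)) (PT.lf (nat_lit 30780) (nat_lit 6) (nat_lit 405) (nat_lit 5) (nat_lit 177) (nat_lit 182) (nat_lit 211)))))) (PT.nd (nat_lit 546) (PT.nd (nat_lit 234) (PT.nd (nat_lit 78) (PT.lf (nat_lit 32376) (nat_lit 6) (nat_lit 426) (nat_lit 5) (nat_lit 178) (nat_lit 182) (nat_lit 210)) (PT.nd (nat_lit 78) (PT.lf (nat_lit 33896) (nat_lit 6) (nat_lit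 446) (nat_lit 5) (nat_lit 179) (nat_lit 182) (nat_lit 209)) (PT.lf (nat_lit 35340) (nat_lit 6) (nat_lit 465) (nat_lit 5) (nat_lit 180) (nat_lit 182) (nat_lit 208)))) (PT.nd (nat_lit 156) (PT.nd (nat_lit 78) (PT.lf (nat_lit 36708) (nat_lit 6) (nat_lit 483) (nat_lit 5) (nat_lit 181) (nat_lit 182) (nat_lit 207)) (PT.lf (nat_lit 38000) (nat_lit 3) (nat_lit 500) (nat_lit 3) (nat_lit 182) (nat_lit 182) (nat_lit 206))) (PT.nd (nat_lit 78) (PT.lf (nat_lit 39292) (nat_lit 6) (nat_lit 517) (nat_lit 3) (nat_lit 183) (nat_lit 182) (nat_lit 205)) (PT.lf (nat_lit 40508) (nat_lit 6) (nat_lit 533) (nat_lit 3) (nat_lit 184) (nat_lit 182) (nat_lit 204))))) (PT.nd (nat_lit 312) (PT.nd (nat_lit 156) (PT.nd (nat_lit 78) (PT.lf (nat_lit 41648) (nat_lit 6) (nat_lit 548) (nat_lit 3) (nat_lit 185) (nat_lit 182) (nat_lit 203)) (PT.lf (nat_lit 42712) (nat_lit 6) (nat_lit 562) (nat_lit 3) (nat_lit 186) (nat_lit 182) (nat_lit 202))) (PT.nd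 (nat_lit 78) (PT.lf (nat_lit 43700) (nat_lit 6) (nat_lit 575) (nat_lit 3) (nat_lit 187) (nat_lit 182) (nat_lit 201)) (PT.lf (nat_lit 44612) (nat_lit 6) (nat_lit 587) (nat_lit 3) (nat_lit 188) (nat_lit 182) (nat_lit 200)))) (PT.nd (nat_lit 156) (PT.nd (nat_lit 78) (PT.lf (nat_lit 45448) (nat_lit 6) (nat_lit 598) (nat_lit 3) (nat_lit 189) (nat_lit 182) (nat_lit 199)) (PT.lf (nat_lit 46208) (nat_lit 6) (nat_lit 608) (nat_lit 3) (nat_lit 190) (nat_lit 182) (nat_lit 198))) (PT.nd (nat_lit 78) (PT.lf (nat_lit 46284) (nat_lit 6) (nat_lit 609) (nat_lit 3) (nat_lit 191) (nat_lit 182) (nat_lit 197)) (PT.lf (nat_lit 46360) (nat_lit 6) (nat_lit 610) (nat_lit 3) (nat_lit 192) (nat_lit 182) (nat_lit 196))))))))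
noncomputable def pc20 : PT := (PT.nd (nat_lit 58578) (PT.nd (nat_lit 1092) (PT.nd (nat_lit 546) (PT.nd (nat_lit 234) (PT.nd (nat_lit 78) (PT.lf (nat_lit 46436) (nat_lit 6) (nat_lit 611) (nat_lit 3) (nat_lit 193) (nat_lit 182) (nat_lit 195)) (PT.nd (nat_lit 78) (PT.lf (nat_lit 46512) (nat_lit 3) (nat_lit 612) (nat_lit 1) (nat_lit 194) (nat_lit 182) (nat_lit 194)) (PT.lf (nat_lit 46436) (nat_lit 6) (nat_lit 611) (nat_lit 1) (nat_lit 195) (nat_lit 182) (nat_lit 193)))) (PT.nd (nat_lit 156) (PT.nd (nat_lit 78) (PT.lf (nat_lit 46360) (nat_lit 6) (nat_lit 610) (nat_lit 1) (nat_lit 196) (nat_lit 182) (nat_lit 192)) (PT.lf (nat_lit 46284) (nat_lit 6) (nat_lit 609) (nat_lit 1) (nat_lit 197) (nat_lit 182) (nat_lit 191))) (PT.nd (nat_lit 78) (PT.lf (nat_lit 46208) (nat_lit 6) (nat_lit 608) (nat_lit 1) (nat_lit 198) (nat_lit 182) (nat_lit 190)) (PT.lf (nat_lit 45448) (nat_lit 6) (nat_lit 598) (nat_lit 1) (nat_lit 199) (nat_lit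 182) (nat_lit 189))))) (PT.nd (nat_lit 234) (PT.nd (nat_lit 78) (PT.lf (nat_lit 44612) (nat_lit 6) (nat_lit 587) (nat_lit 1) (nat_lit 200) (nat_lit 182) (nat_lit 188)) (PT.nd (nat_lit 78) (PT.lf (nat_lit 43700) (nat_lit 6) (nat_lit 575) (nat_lit 1) (nat_lit 201) (nat_lit 182) (nat_lit 187)) (PT.lf (nat_lit 42712) (nat_lit 6) (nat_lit 562) (nat_lit 1) (nat_lit 202) (nat_lit 182) (nat_lit 186)))) (PT.nd (nat_lit 156) (PT.nd (nat_lit 78) (PT.lf (nat_lit 41648) (nat_lit 6) (nat_lit 548) (nat_lit 1) (nat_lit 203) (nat_lit 182) (nat_lit 185)) (PT.lf (nat_lit 40508) (nat_lit 6) (nat_lit 533) (nat_lit 1) (nat_lit 204) (nat_lit 182) (nat_lit 184))) (PT.nd (nat_lit 78) (PT.lf (nat_lit 39292) (nat_lit 6) (nat_lit 517) (nat_lit 1) (nat_lit 205) (nat_lit 182) (nat_lit 183)) (PT.lf (nat_lit 38000) (nat_lit 3) (nat_lit 500) (nat_lit 0) (nat_lit 206) (nat_lit 182) (nat_lit 182)))))) (PT.nd (nat_lit 56940) (PT.nd (nat_lit 234)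 (PT.nd (nat_lit 78) (PT.lf (nat_lit 36708) (nat_lit 6) (nat_lit 483) (nat_lit 0) (nat_lit 207) (nat_lit 182) (nat_lit 181)) (PT.nd (nat_lit 78) (PT.lf (nat_lit 35340) (nat_lit 6) (nat_lit 465) (nat_lit 0) (nat_lit 208) (nat_lit 182) (nat_lit 180)) (PT.lf (nat_lit 33896) (nat_lit 6) (nat_lit 446) (nat_lit 0) (nat_lit 209) (nat_lit 182) (nat_lit 179)))) (PT.nd (nat_lit 156) (PT.nd (nat_lit 78) (PT.lf (nat_lit 32376) (nat_lit 6) (nat_lit 426) (nat_lit 0) (nat_lit 210) (nat_lit 182) (nat_lit 178)) (PT.lf (nat_lit 30780) (nat_lit 6) (nat_lit 405) (nat_lit 0) (nat_lit 211) (nat_lit 182) (nat_lit 177))) (PT.nd (nat_lit 56472) (PT.lf (nat_lit 29108) (nat_lit 6) (nat_lit 383) (nat_lit 0) (nat_lit 212) (nat_lit 182) (nat_lit 176)) (PT.lf (nat_lit 29184) (nat_lit 6) (nat_lit 384) (nat_lit 5) (nat_lit 175) (nat_lit 183) (nat_lit 212))))) (PT.nd (nat_lit 234) (PT.nd (nat_lit 78) (PT.lf (nat_lit 30856) (nat_lit 6) (nat_lit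 406) (nat_lit 5) (nat_lit 176) (nat_lit 183) (nat_lit 211)) (PT.nd (nat_lit 78) (PT.lf (nat_lit 32452) (nat_lit 6) (nat_lit 427) (nat_lit 5) (nat_lit 177) (nat_lit 183) (nat_lit 210)) (PT.lf (nat_lit 33972) (nat_lit 6) (nat_lit 447) (nat_lit 5) (nat_lit 178) (nat_lit 183) (nat_lit 209)))) (PT.nd (nat_lit 156) (PT.nd (nat_lit 78) (PT.lf (nat_lit 35416) (nat_lit 6) (nat_lit 466) (nat_lit 5) (nat_lit 179) (nat_lit 183) (nat_lit 208)) (PT.lf (nat_lit 36784) (nat_lit 6) (nat_lit 484) (nat_lit 5) (nat_lit 180) (nat_lit 183) (nat_lit 207))) (PT.nd (nat_lit 78) (PT.lf (nat_lit 38076) (nat_lit 6) (nat_lit 501) (nat_lit 5) (nat_lit 181) (nat_lit 183) (nat_lit 206)) (PT.lf (nat_lit 39292) (nat_lit 6) (nat_lit 517) (nat_lit 5) (nat_lit 182) (nat_lit 183) (nat_lit 205))))))) (PT.nd (nat_lit 1092) (PT.nd (nat_lit 546) (PT.nd (nat_lit 234) (PT.nd (nat_lit 78) (PT.lf (nat_lit 40432) (nat_lit 3) (nat_lit 532) (nat_lit 3) (nat_lit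 183) (nat_lit 183) (nat_lit 204)) (PT.nd (nat_lit 78) (PT.lf (nat_lit 41572) (nat_lit 6) (nat_lit 547) (nat_lit 3) (nat_lit 184) (nat_lit 183) (nat_lit 203)) (PT.lf (nat_lit 42636) (nat_lit 6) (nat_lit 561) (nat_lit 3) (nat_lit 185) (nat_lit 183) (nat_lit 202)))) (PT.nd (nat_lit 156) (PT.nd (nat_lit 78) (PT.lf (nat_lit 43624) (nat_lit 6) (nat_lit 574) (nat_lit 3) (nat_lit 186) (nat_lit 183) (nat_lit 201)) (PT.lf (nat_lit 44536) (nat_lit 6) (nat_lit 586) (nat_lit 3) (nat_lit 187) (nat_lit 183) (nat_lit 200))) (PT.nd (nat_lit 78) (PT.lf (nat_lit 45372) (nat_lit 6) (nat_lit 597) (nat_lit 3) (nat_lit 188) (nat_lit 183) (nat_lit 199)) (PT.lf (nat_lit 46132) (nat_lit 6) (nat_lit 607) (nat_lit 3) (nat_lit 189) (nat_lit 183) (nat_lit 198))))) (PT.nd (nat_lit 234) (PT.nd (nat_lit 78) (PT.lf (nat_lit 46816) (nat_lit 6) (nat_lit 616) (nat_lit 3) (nat_lit 190) (nat_lit 183) (nat_lit 197)) (PT.nd (nat_lit 78) (PT.lf (nat_lit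 46892) (nat_lit 6) (nat_lit 617) (nat_lit 3) (nat_lit 191) (nat_lit 183) (nat_lit 196)) (PT.lf (nat_lit 46968) (nat_lit 6) (nat_lit 618) (nat_lit 3) (nat_lit 192) (nat_lit 183) (nat_lit 195)))) (PT.nd (nat_lit 156) (PT.nd (nat_lit 78) (PT.lf (nat_lit 47044) (nat_lit 6) (nat_lit 619) (nat_lit 3) (nat_lit 193) (nat_lit 183) (nat_lit 194)) (PT.lf (nat_lit 47044) (nat_lit 6) (nat_lit 619) (nat_lit 1) (nat_lit 194) (nat_lit 183) (nat_lit 193))) (PT.nd (nat_lit 78) (PT.lf (nat_lit 46968) (nat_lit 6) (nat_lit 618) (nat_lit 1) (nat_lit 195) (nat_lit 183) (nat_lit 192)) (PT.lf (nat_lit 46892) (nat_lit 6) (nat_lit 617) (nat_lit 1) (nat_lit 196) (nat_lit 183) (nat_lit 191)))))) (PT.nd (nat_lit 546) (PT.nd (nat_lit 234) (PT.nd (nat_lit 78) (PT.lf (nat_lit 46816) (nat_lit 6) (nat_lit 616) (nat_lit 1) (nat_lit 197) (nat_lit 183) (nat_lit 190)) (PT.nd (nat_lit 78) (PT.lf (nat_lit 46132) (nat_lit 6) (nat_lit 607) (nat_lit 1)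 (nat_lit 198) (nat_lit 183) (nat_lit 189)) (PT.lf (nat_lit 45372) (nat_lit 6) (nat_lit 597) (nat_lit 1) (nat_lit 199) (nat_lit 183) (nat_lit 188)))) (PT.nd (nat_lit 156) (PT.nd (nat_lit 78) (PT.lf (nat_lit 44536) (nat_lit 6) (nat_lit 586) (nat_lit 1) (nat_lit 200) (nat_lit 183) (nat_lit 187)) (PT.lf (nat_lit 43624) (nat_lit 6) (nat_lit 574) (nat_lit 1) (nat_lit 201) (nat_lit 183) (nat_lit 186))) (PT.nd (nat_lit 78) (PT.lf (nat_lit 42636) (nat_lit 6) (nat_lit 561) (nat_lit 1) (nat_lit 202) (nat_lit 183) (nat_lit 185)) (PT.lf (nat_lit 41572) (nat_lit 6) (nat_lit 547) (nat_lit 1) (nat_lit 203) (nat_lit 183) (nat_lit 184))))) (PT.nd (nat_lit 234) (PT.nd (nat_lit 78) (PT.lf (nat_lit 40432) (nat_lit 3) (nat_lit 532) (nat_lit 0) (nat_lit 204) (nat_lit 183) (nat_lit 183)) (PT.nd (nat_lit 78) (PT.lf (nat_lit 39292) (nat_lit 6) (nat_lit 517) (nat_lit 0) (nat_lit 205) (nat_lit 183) (nat_lit 182)) (PT.lf (nat_lit 38076)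 (nat_lit 6) (nat_lit 501) (nat_lit 0) (nat_lit 206) (nat_lit 183) (nat_lit 181)))) (PT.nd (nat_lit 156) (PT.nd (nat_lit 78) (PT.lf (nat_lit 36784) (nat_lit 6) (nat_lit 484) (nat_lit 0) (nat_lit 207) (nat_lit 183) (nat_lit 180)) (PT.lf (nat_lit 35416) (nat_lit 6) (nat_lit 466) (nat_lit 0) (nat_lit 208) (nat_lit 183) (nat_lit 179))) (PT.nd (nat_lit 78) (PT.lf (nat_lit 33972) (nat_lit 6) (nat_lit 447) (nat_lit 0) (nat_lit 209) (nat_lit 183) (nat_lit 178)) (PT.lf (nat_lit 32452) (nat_lit 6) (nat_lit 427) (nat_lit 0) (nat_lit 210) (nat_lit 183) (nat_lit 177))))))))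
noncomputable def pc21 : PT := (PT.nd (nat_lit 58500) (PT.nd (nat_lit 57408) (PT.nd (nat_lit 56862) (PT.nd (nat_lit 56550) (PT.nd (nat_lit 78) (PT.lf (nat_lit 30856) (nat_lit 6) (nat_lit 406) (nat_lit 0) (nat_lit 211) (nat_lit 183) (nat_lit 176)) (PT.nd (nat_lit 56394) (PT.lf (nat_lit 29184) (nat_lit 6) (nat_lit 384) (nat_lit 0) (nat_lit 212) (nat_lit 183) (nat_lit 175)) (PT.lf (nat_lit 29260) (nat_lit 6) (nat_lit 385) (nat_lit 5) (nat_lit 174) (nat_lit 184) (nat_lit 212)))) (PT.nd (nat_lit 156) (PT.nd (nat_lit 78) (PT.lf (nat_lit 30932) (nat_lit 6) (nat_lit 407) (nat_lit 5) (nat_lit 175) (nat_lit 184) (nat_lit 211)) (PT.lf (nat_lit 32528) (nat_lit 6) (nat_lit 428) (nat_lit 5) (nat_lit 176) (nat_lit 184) (nat_lit 210))) (PT.nd (nat_lit 78) (PT.lf (nat_lit 34048) (nat_lit 6) (nat_lit 448) (nat_lit 5) (nat_lit 177) (nat_lit 184) (nat_lit 209)) (PT.lf (nat_lit 35492) (nat_lit 6) (nat_lit 467) (nat_lit 5) (nat_lit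 178) (nat_lit 184) (nat_lit 208))))) (PT.nd (nat_lit 234) (PT.nd (nat_lit 78) (PT.lf (nat_lit 36860) (nat_lit 6) (nat_lit 485) (nat_lit 5) (nat_lit 179) (nat_lit 184) (nat_lit 207)) (PT.nd (nat_lit 78) (PT.lf (nat_lit 38152) (nat_lit 6) (nat_lit 502) (nat_lit 5) (nat_lit 180) (nat_lit 184) (nat_lit 206)) (PT.lf (nat_lit 39368) (nat_lit 6) (nat_lit 518) (nat_lit 5) (nat_lit 181) (nat_lit 184) (nat_lit 205)))) (PT.nd (nat_lit 156) (PT.nd (nat_lit 78) (PT.lf (nat_lit 40508) (nat_lit 6) (nat_lit 533) (nat_lit 5) (nat_lit 182) (nat_lit 184) (nat_lit 204)) (PT.lf (nat_lit 41572) (nat_lit 6) (nat_lit 547) (nat_lit 5) (nat_lit 183) (nat_lit 184) (nat_lit 203))) (PT.nd (nat_lit 78) (PT.lf (nat_lit 42560) (nat_lit 3) (nat_lit 560) (nat_lit 3) (nat_lit 184) (nat_lit 184) (nat_lit 202)) (PT.lf (nat_lit 43548) (nat_lit 6) (nat_lit 573) (nat_lit 3) (nat_lit 185) (nat_lit 184) (nat_lit 201)))))) (PT.nd (nat_lit 546) (PT.nd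 (nat_lit 234) (PT.nd (nat_lit 78) (PT.lf (nat_lit 44460) (nat_lit 6) (nat_lit 585) (nat_lit 3) (nat_lit 186) (nat_lit 184) (nat_lit 200)) (PT.nd (nat_lit 78) (PT.lf (nat_lit 45296) (nat_lit 6) (nat_lit 596) (nat_lit 3) (nat_lit 187) (nat_lit 184) (nat_lit 199)) (PT.lf (nat_lit 46056) (nat_lit 6) (nat_lit 606) (nat_lit 3) (nat_lit 188) (nat_lit 184) (nat_lit 198)))) (PT.nd (nat_lit 156) (PT.nd (nat_lit 78) (PT.lf (nat_lit 46740) (nat_lit 6) (nat_lit 615) (nat_lit 3) (nat_lit 189) (nat_lit 184) (nat_lit 197)) (PT.lf (nat_lit 47348) (nat_lit 6) (nat_lit 623) (nat_lit 3) (nat_lit 190) (nat_lit 184) (nat_lit 196))) (PT.nd (nat_lit 78) (PT.lf (nat_lit 47424) (nat_lit 6) (nat_lit 624) (nat_lit 3) (nat_lit 191) (nat_lit 184) (nat_lit 195)) (PT.lf (nat_lit 47500) (nat_lit 6) (nat_lit 625) (nat_lit 3) (nat_lit 192) (nat_lit 184) (nat_lit 194))))) (PT.nd (nat_lit 234) (PT.nd (nat_lit 78) (PT.lf (nat_lit 47576) (nat_lit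 3) (nat_lit 626) (nat_lit 1) (nat_lit 193) (nat_lit 184) (nat_lit 193)) (PT.nd (nat_lit 78) (PT.lf (nat_lit 47500) (nat_lit 6) (nat_lit 625) (nat_lit 1) (nat_lit 194) (nat_lit 184) (nat_lit 192)) (PT.lf (nat_lit 47424) (nat_lit 6) (nat_lit 624) (nat_lit 1) (nat_lit 195) (nat_lit 184) (nat_lit 191)))) (PT.nd (nat_lit 156) (PT.nd (nat_lit 78) (PT.lf (nat_lit 47348) (nat_lit 6) (nat_lit 623) (nat_lit 1) (nat_lit 196) (nat_lit 184) (nat_lit 190)) (PT.lf (nat_lit 46740) (nat_lit 6) (nat_lit 615) (nat_lit 1) (nat_lit 197) (nat_lit 184) (nat_lit 189))) (PT.nd (nat_lit 78) (PT.lf (nat_lit 46056) (nat_lit 6) (nat_lit 606) (nat_lit 1) (nat_lit 198) (nat_lit 184) (nat_lit 188)) (PT.lf (nat_lit 45296) (nat_lit 6) (nat_lit 596) (nat_lit 1) (nat_lit 199) (nat_lit 184) (nat_lit 187))))))) (PT.nd (nat_lit 57252) (PT.nd (nat_lit 546) (PT.nd (nat_lit 234) (PT.nd (nat_lit 78) (PT.lf (nat_lit 44460) (nat_lit 6) (nat_lit 585) (nat_lit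 1) (nat_lit 200) (nat_lit 184) (nat_lit 186)) (PT.nd (nat_lit 78) (PT.lf (nat_lit 43548) (nat_lit 6) (nat_lit 573) (nat_lit 1) (nat_lit 201) (nat_lit 184) (nat_lit 185)) (PT.lf (nat_lit 42560) (nat_lit 3) (nat_lit 560) (nat_lit 0) (nat_lit 202) (nat_lit 184) (nat_lit 184)))) (PT.nd (nat_lit 156) (PT.nd (nat_lit 78) (PT.lf (nat_lit 41572) (nat_lit 6) (nat_lit 547) (nat_lit 0) (nat_lit 203) (nat_lit 184) (nat_lit 183)) (PT.lf (nat_lit 40508) (nat_lit 6) (nat_lit 533) (nat_lit 0) (nat_lit 204) (nat_lit 184) (nat_lit 182))) (PT.nd (nat_lit 78) (PT.lf (nat_lit 39368) (nat_lit 6) (nat_lit 518) (nat_lit 0) (nat_lit 205) (nat_lit 184) (nat_lit 181)) (PT.lf (nat_lit 38152) (nat_lit 6) (nat_lit 502) (nat_lit 0) (nat_lit 206) (nat_lit 184) (nat_lit 180))))) (PT.nd (nat_lit 234) (PT.nd (nat_lit 78) (PT.lf (nat_lit 36860) (nat_lit 6) (nat_lit 485) (nat_lit 0) (nat_lit 207) (nat_lit 184) (nat_lit 179)) (PT.nd (nat_lit 78)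 (PT.lf (nat_lit 35492) (nat_lit 6) (nat_lit 467) (nat_lit 0) (nat_lit 208) (nat_lit 184) (nat_lit 178)) (PT.lf (nat_lit 34048) (nat_lit 6) (nat_lit 448) (nat_lit 0) (nat_lit 209) (nat_lit 184) (nat_lit 177)))) (PT.nd (nat_lit 156) (PT.nd (nat_lit 78) (PT.lf (nat_lit 32528) (nat_lit 6) (nat_lit 428) (nat_lit 0) (nat_lit 210) (nat_lit 184) (nat_lit 176)) (PT.lf (nat_lit 30932) (nat_lit 6) (nat_lit 407) (nat_lit 0) (nat_lit 211) (nat_lit 184) (nat_lit 175))) (PT.nd (nat_lit 56238) (PT.lf (nat_lit 29260) (nat_lit 6) (nat_lit 385) (nat_lit 0) (nat_lit 212) (nat_lit 184) (nat_lit 174)) (PT.lf (nat_lit 27588) (nat_lit 6) (nat_lit 363) (nat_lit 5) (nat_lit 172) (nat_lit 185) (nat_lit 213)))))) (PT.nd (nat_lit 546) (PT.nd (nat_lit 234) (PT.nd (nat_lit 78) (PT.lf (nat_lit 29336) (nat_lit 6) (nat_lit 386) (nat_lit 5) (nat_lit 173) (nat_lit 185) (nat_lit 212)) (PT.nd (nat_lit 78) (PT.lf (nat_lit 31008) (nat_lit 6) (nat_lit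 408) (nat_lit 5) (nat_lit 174) (nat_lit 185) (nat_lit 211)) (PT.lf (nat_lit 32604) (nat_lit 6) (nat_lit 429) (nat_lit 5) (nat_lit 175) (nat_lit 185) (nat_lit 210)))) (PT.nd (nat_lit 156) (PT.nd (nat_lit 78) (PT.lf (nat_lit 34124) (nat_lit 6) (nat_lit 449) (nat_lit 5) (nat_lit 176) (nat_lit 185) (nat_lit 209)) (PT.lf (nat_lit 35568) (nat_lit 6) (nat_lit 468) (nat_lit 5) (nat_lit 177) (nat_lit 185) (nat_lit 208))) (PT.nd (nat_lit 78) (PT.lf (nat_lit 36936) (nat_lit 6) (nat_lit 486) (nat_lit 5) (nat_lit 178) (nat_lit 185) (nat_lit 207)) (PT.lf (nat_lit 38228) (nat_lit 6) (nat_lit 503) (nat_lit 5) (nat_lit 179) (nat_lit 185) (nat_lit 206))))) (PT.nd (nat_lit 312) (PT.nd (nat_lit 156) (PT.nd (nat_lit 78) (PT.lf (nat_lit 39444) (nat_lit 6) (nat_lit 519) (nat_lit 5) (nat_lit 180) (nat_lit 185) (nat_lit 205)) (PT.lf (nat_lit 40584) (nat_lit 6) (nat_lit 534) (nat_lit 5) (nat_lit 181) (nat_lit 185) (nat_lit 204))) (PT.nd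 (nat_lit 78) (PT.lf (nat_lit 41648) (nat_lit 6) (nat_lit 548) (nat_lit 5) (nat_lit 182) (nat_lit 185) (nat_lit 203)) (PT.lf (nat_lit 42636) (nat_lit 6) (nat_lit 561) (nat_lit 5) (nat_lit 183) (nat_lit 185) (nat_lit 202)))) (PT.nd (nat_lit 156) (PT.nd (nat_lit 78) (PT.lf (nat_lit 43548) (nat_lit 6) (nat_lit 573) (nat_lit 5) (nat_lit 184) (nat_lit 185) (nat_lit 201)) (PT.lf (nat_lit 44384) (nat_lit 3) (nat_lit 584) (nat_lit 3) (nat_lit 185) (nat_lit 185) (nat_lit 200))) (PT.nd (nat_lit 78) (PT.lf (nat_lit 45220) (nat_lit 6) (nat_lit 595) (nat_lit 3) (nat_lit 186) (nat_lit 185) (nat_lit 199)) (PT.lf (nat_lit 45980) (nat_lit 6) (nat_lit 605) (nat_lit 3) (nat_lit 187) (nat_lit 185) (nat_lit 198))))))))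
noncomputable def pc22 : PT := (PT.nd (nat_lit 58188) (PT.nd (nat_lit 1092) (PT.nd (nat_lit 546) (PT.nd (nat_lit 234) (PT.nd (nat_lit 78) (PT.lf (nat_lit 46664) (nat_lit 6) (nat_lit 614) (nat_lit 3) (nat_lit 188) (nat_lit 185) (nat_lit 197)) (PT.nd (nat_lit 78) (PT.lf (nat_lit 47272) (nat_lit 6) (nat_lit 622) (nat_lit 3) (nat_lit 189) (nat_lit 185) (nat_lit 196)) (PT.lf (nat_lit 47804) (nat_lit 6) (nat_lit 629) (nat_lit 3) (nat_lit 190) (nat_lit 185) (nat_lit 195)))) (PT.nd (nat_lit 156) (PT.nd (nat_lit 78) (PT.lf (nat_lit 47880) (nat_lit 6) (nat_lit 630) (nat_lit 3) (nat_lit 191) (nat_lit 185) (nat_lit 194)) (PT.lf (nat_lit 47956) (nat_lit 6) (nat_lit 631) (nat_lit 3) (nat_lit 192) (nat_lit 185) (nat_lit 193))) (PT.nd (nat_lit 78) (PT.lf (nat_lit 47956) (nat_lit 6) (nat_lit 631) (nat_lit 1) (nat_lit 193) (nat_lit 185) (nat_lit 192)) (PT.lf (nat_lit 47880) (nat_lit 6) (nat_lit 630) (nat_lit 1) (nat_lit 194) (nat_lit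 185) (nat_lit 191))))) (PT.nd (nat_lit 234) (PT.nd (nat_lit 78) (PT.lf (nat_lit 47804) (nat_lit 6) (nat_lit 629) (nat_lit 1) (nat_lit 195) (nat_lit 185) (nat_lit 190)) (PT.nd (nat_lit 78) (PT.lf (nat_lit 47272) (nat_lit 6) (nat_lit 622) (nat_lit 1) (nat_lit 196) (nat_lit 185) (nat_lit 189)) (PT.lf (nat_lit 46664) (nat_lit 6) (nat_lit 614) (nat_lit 1) (nat_lit 197) (nat_lit 185) (nat_lit 188)))) (PT.nd (nat_lit 156) (PT.nd (nat_lit 78) (PT.lf (nat_lit 45980) (nat_lit 6) (nat_lit 605) (nat_lit 1) (nat_lit 198) (nat_lit 185) (nat_lit 187)) (PT.lf (nat_lit 45220) (nat_lit 6) (nat_lit 595) (nat_lit 1) (nat_lit 199) (nat_lit 185) (nat_lit 186))) (PT.nd (nat_lit 78) (PT.lf (nat_lit 44384) (nat_lit 3) (nat_lit 584) (nat_lit 0) (nat_lit 200) (nat_lit 185) (nat_lit 185)) (PT.lf (nat_lit 43548) (nat_lit 6) (nat_lit 573) (nat_lit 0) (nat_lit 201) (nat_lit 185) (nat_lit 184)))))) (PT.nd (nat_lit 546) (PT.nd (nat_lit 234)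 (PT.nd (nat_lit 78) (PT.lf (nat_lit 42636) (nat_lit 6) (nat_lit 561) (nat_lit 0) (nat_lit 202) (nat_lit 185) (nat_lit 183)) (PT.nd (nat_lit 78) (PT.lf (nat_lit 41648) (nat_lit 6) (nat_lit 548) (nat_lit 0) (nat_lit 203) (nat_lit 185) (nat_lit 182)) (PT.lf (nat_lit 40584) (nat_lit 6) (nat_lit 534) (nat_lit 0) (nat_lit 204) (nat_lit 185) (nat_lit 181)))) (PT.nd (nat_lit 156) (PT.nd (nat_lit 78) (PT.lf (nat_lit 39444) (nat_lit 6) (nat_lit 519) (nat_lit 0) (nat_lit 205) (nat_lit 185) (nat_lit 180)) (PT.lf (nat_lit 38228) (nat_lit 6) (nat_lit 503) (nat_lit 0) (nat_lit 206) (nat_lit 185) (nat_lit 179))) (PT.nd (nat_lit 78) (PT.lf (nat_lit 36936) (nat_lit 6) (nat_lit 486) (nat_lit 0) (nat_lit 207) (nat_lit 185) (nat_lit 178)) (PT.lf (nat_lit 35568) (nat_lit 6) (nat_lit 468) (nat_lit 0) (nat_lit 208) (nat_lit 185) (nat_lit 177))))) (PT.nd (nat_lit 234) (PT.nd (nat_lit 78) (PT.lf (nat_lit 34124) (nat_lit 6) (nat_lit 449)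 (nat_lit 0) (nat_lit 209) (nat_lit 185) (nat_lit 176)) (PT.nd (nat_lit 78) (PT.lf (nat_lit 32604) (nat_lit 6) (nat_lit 429) (nat_lit 0) (nat_lit 210) (nat_lit 185) (nat_lit 175)) (PT.lf (nat_lit 31008) (nat_lit 6) (nat_lit 408) (nat_lit 0) (nat_lit 211) (nat_lit 185) (nat_lit 174)))) (PT.nd (nat_lit 56160) (PT.nd (nat_lit 78) (PT.lf (nat_lit 29336) (nat_lit 6) (nat_lit 386) (nat_lit 0) (nat_lit 212) (nat_lit 185) (nat_lit 173)) (PT.lf (nat_lit 27588) (nat_lit 6) (nat_lit 363) (nat_lit 0) (nat_lit 213) (nat_lit 185) (nat_lit 172))) (PT.nd (nat_lit 78) (PT.lf (nat_lit 27664) (nat_lit 6) (nat_lit 364) (nat_lit 5) (nat_lit 171) (nat_lit 186) (nat_lit 213)) (PT.lf (nat_lit 29412) (nat_lit 6) (nat_lit 387) (nat_lit 5) (nat_lit 172) (nat_lit 186) (nat_lit 212))))))) (PT.nd (nat_lit 1092) (PT.nd (nat_lit 546) (PT.nd (nat_lit 234) (PT.nd (nat_lit 78) (PT.lf (nat_lit 31084) (nat_lit 6) (nat_lit 409) (nat_lit 5) (nat_lit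 173) (nat_lit 186) (nat_lit 211)) (PT.nd (nat_lit 78) (PT.lf (nat_lit 32680) (nat_lit 6) (nat_lit 430) (nat_lit 5) (nat_lit 174) (nat_lit 186) (nat_lit 210)) (PT.lf (nat_lit 34200) (nat_lit 6) (nat_lit 450) (nat_lit 5) (nat_lit 175) (nat_lit 186) (nat_lit 209)))) (PT.nd (nat_lit 156) (PT.nd (nat_lit 78) (PT.lf (nat_lit 35644) (nat_lit 6) (nat_lit 469) (nat_lit 5) (nat_lit 176) (nat_lit 186) (nat_lit 208)) (PT.lf (nat_lit 37012) (nat_lit 6) (nat_lit 487) (nat_lit 5) (nat_lit 177) (nat_lit 186) (nat_lit 207))) (PT.nd (nat_lit 78) (PT.lf (nat_lit 38304) (nat_lit 6) (nat_lit 504) (nat_lit 5) (nat_lit 178) (nat_lit 186) (nat_lit 206)) (PT.lf (nat_lit 39520) (nat_lit 6) (nat_lit 520) (nat_lit 5) (nat_lit 179) (nat_lit 186) (nat_lit 205))))) (PT.nd (nat_lit 234) (PT.nd (nat_lit 78) (PT.lf (nat_lit 40660) (nat_lit 6) (nat_lit 535) (nat_lit 5) (nat_lit 180) (nat_lit 186) (nat_lit 204)) (PT.nd (nat_lit 78) (PT.lf (nat_lit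 41724) (nat_lit 6) (nat_lit 549) (nat_lit 5) (nat_lit 181) (nat_lit 186) (nat_lit 203)) (PT.lf (nat_lit 42712) (nat_lit 6) (nat_lit 562) (nat_lit 5) (nat_lit 182) (nat_lit 186) (nat_lit 202)))) (PT.nd (nat_lit 156) (PT.nd (nat_lit 78) (PT.lf (nat_lit 43624) (nat_lit 6) (nat_lit 574) (nat_lit 5) (nat_lit 183) (nat_lit 186) (nat_lit 201)) (PT.lf (nat_lit 44460) (nat_lit 6) (nat_lit 585) (nat_lit 5) (nat_lit 184) (nat_lit 186) (nat_lit 200))) (PT.nd (nat_lit 78) (PT.lf (nat_lit 45220) (nat_lit 6) (nat_lit 595) (nat_lit 5) (nat_lit 185) (nat_lit 186) (nat_lit 199)) (PT.lf (nat_lit 45904) (nat_lit 3) (nat_lit 604) (nat_lit 3) (nat_lit 186) (nat_lit 186) (nat_lit 198)))))) (PT.nd (nat_lit 546) (PT.nd (nat_lit 234) (PT.nd (nat_lit 78) (PT.lf (nat_lit 46588) (nat_lit 6) (nat_lit 613) (nat_lit 3) (nat_lit 187) (nat_lit 186) (nat_lit 197)) (PT.nd (nat_lit 78) (PT.lf (nat_lit 47196) (nat_lit 6) (nat_lit 621) (nat_lit 3)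 (nat_lit 188) (nat_lit 186) (nat_lit 196)) (PT.lf (nat_lit 47728) (nat_lit 6) (nat_lit 628) (nat_lit 3) (nat_lit 189) (nat_lit 186) (nat_lit 195)))) (PT.nd (nat_lit 156) (PT.nd (nat_lit 78) (PT.lf (nat_lit 48184) (nat_lit 6) (nat_lit 634) (nat_lit 3) (nat_lit 190) (nat_lit 186) (nat_lit 194)) (PT.lf (nat_lit 48260) (nat_lit 6) (nat_lit 635) (nat_lit 3) (nat_lit 191) (nat_lit 186) (nat_lit 193))) (PT.nd (nat_lit 78) (PT.lf (nat_lit 48336) (nat_lit 3) (nat_lit 636) (nat_lit 1) (nat_lit 192) (nat_lit 186) (nat_lit 192)) (PT.lf (nat_lit 48260) (nat_lit 6) (nat_lit 635) (nat_lit 1) (nat_lit 193) (nat_lit 186) (nat_lit 191))))) (PT.nd (nat_lit 312) (PT.nd (nat_lit 156) (PT.nd (nat_lit 78) (PT.lf (nat_lit 48184) (nat_lit 6) (nat_lit 634) (nat_lit 1) (nat_lit 194) (nat_lit 186) (nat_lit 190)) (PT.lf (nat_lit 47728) (nat_lit 6) (nat_lit 628) (nat_lit 1) (nat_lit 195) (nat_lit 186) (nat_lit 189))) (PT.nd (nat_lit 78) (PT.lf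 (nat_lit 47196) (nat_lit 6) (nat_lit 621) (nat_lit 1) (nat_lit 196) (nat_lit 186) (nat_lit 188)) (PT.lf (nat_lit 46588) (nat_lit 6) (nat_lit 613) (nat_lit 1) (nat_lit 197) (nat_lit 186) (nat_lit 187)))) (PT.nd (nat_lit 156) (PT.nd (nat_lit 78) (PT.lf (nat_lit 45904) (nat_lit 3) (nat_lit 604) (nat_lit 0) (nat_lit 198) (nat_lit 186) (nat_lit 186)) (PT.lf (nat_lit 45220) (nat_lit 6) (nat_lit 595) (nat_lit 0) (nat_lit 199) (nat_lit 186) (nat_lit 185))) (PT.nd (nat_lit 78) (PT.lf (nat_lit 44460) (nat_lit 6) (nat_lit 585) (nat_lit 0) (nat_lit 200) (nat_lit 186) (nat_lit 184)) (PT.lf (nat_lit 43624) (nat_lit 6) (nat_lit 574) (nat_lit 0) (nat_lit 201) (nat_lit 186) (nat_lit 183))))))))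
noncomputable def pc23 : PT := (PT.nd (nat_lit 58110) (PT.nd (nat_lit 57018) (PT.nd (nat_lit 546) (PT.nd (nat_lit 234) (PT.nd (nat_lit 78) (PT.lf (nat_lit 42712) (nat_lit 6) (nat_lit 562) (nat_lit 0) (nat_lit 202) (nat_lit 186) (nat_lit 182)) (PT.nd (nat_lit 78) (PT.lf (nat_lit 41724) (nat_lit 6) (nat_lit 549) (nat_lit 0) (nat_lit 203) (nat_lit 186) (nat_lit 181)) (PT.lf (nat_lit 40660) (nat_lit 6) (nat_lit 535) (nat_lit 0) (nat_lit 204) (nat_lit 186) (nat_lit 180)))) (PT.nd (nat_lit 156) (PT.nd (nat_lit 78) (PT.lf (nat_lit 39520) (nat_lit 6) (nat_lit 520) (nat_lit 0) (nat_lit 205) (nat_lit 186) (nat_lit 179)) (PT.lf (nat_lit 38304) (nat_lit 6) (nat_lit 504) (nat_lit 0) (nat_lit 206) (nat_lit 186) (nat_lit 178))) (PT.nd (nat_lit 78) (PT.lf (nat_lit 37012) (nat_lit 6) (nat_lit 487) (nat_lit 0) (nat_lit 207) (nat_lit 186) (nat_lit 177)) (PT.lf (nat_lit 35644) (nat_lit 6) (nat_lit 469) (nat_lit 0) (nat_lit 208)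 (nat_lit 186) (nat_lit 176))))) (PT.nd (nat_lit 234) (PT.nd (nat_lit 78) (PT.lf (nat_lit 34200) (nat_lit 6) (nat_lit 450) (nat_lit 0) (nat_lit 209) (nat_lit 186) (nat_lit 175)) (PT.nd (nat_lit 78) (PT.lf (nat_lit 32680) (nat_lit 6) (nat_lit 430) (nat_lit 0) (nat_lit 210) (nat_lit 186) (nat_lit 174)) (PT.lf (nat_lit 31084) (nat_lit 6) (nat_lit 409) (nat_lit 0) (nat_lit 211) (nat_lit 186) (nat_lit 173)))) (PT.nd (nat_lit 56082) (PT.nd (nat_lit 78) (PT.lf (nat_lit 29412) (nat_lit 6) (nat_lit 387) (nat_lit 0) (nat_lit 212) (nat_lit 186) (nat_lit 172)) (PT.lf (nat_lit 27664) (nat_lit 6) (nat_lit 364) (nat_lit 0) (nat_lit 213) (nat_lit 186) (nat_lit 171))) (PT.nd (nat_lit 78) (PT.lf (nat_lit 27740) (nat_lit 6) (nat_lit 365) (nat_lit 5) (nat_lit 170) (nat_lit 187) (nat_lit 213)) (PT.lf (nat_lit 29488) (nat_lit 6) (nat_lit 388) (nat_lit 5) (nat_lit 171) (nat_lit 187) (nat_lit 212)))))) (PT.nd (nat_lit 546) (PT.nd (nat_lit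 234) (PT.nd (nat_lit 78) (PT.lf (nat_lit 31160) (nat_lit 6) (nat_lit 410) (nat_lit 5) (nat_lit 172) (nat_lit 187) (nat_lit 211)) (PT.nd (nat_lit 78) (PT.lf (nat_lit 32756) (nat_lit 6) (nat_lit 431) (nat_lit 5) (nat_lit 173) (nat_lit 187) (nat_lit 210)) (PT.lf (nat_lit 34276) (nat_lit 6) (nat_lit 451) (nat_lit 5) (nat_lit 174) (nat_lit 187) (nat_lit 209)))) (PT.nd (nat_lit 156) (PT.nd (nat_lit 78) (PT.lf (nat_lit 35720) (nat_lit 6) (nat_lit 470) (nat_lit 5) (nat_lit 175) (nat_lit 187) (nat_lit 208)) (PT.lf (nat_lit 37088) (nat_lit 6) (nat_lit 488) (nat_lit 5) (nat_lit 176) (nat_lit 187) (nat_lit 207))) (PT.nd (nat_lit 78) (PT.lf (nat_lit 38380) (nat_lit 6) (nat_lit 505) (nat_lit 5) (nat_lit 177) (nat_lit 187) (nat_lit 206)) (PT.lf (nat_lit 39596) (nat_lit 6) (nat_lit 521) (nat_lit 5) (nat_lit 178) (nat_lit 187) (nat_lit 205))))) (PT.nd (nat_lit 234) (PT.nd (nat_lit 78) (PT.lf (nat_lit 40736) (nat_lit 6) (nat_lit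 536) (nat_lit 5) (nat_lit 179) (nat_lit 187) (nat_lit 204)) (PT.nd (nat_lit 78) (PT.lf (nat_lit 41800) (nat_lit 6) (nat_lit 550) (nat_lit 5) (nat_lit 180) (nat_lit 187) (nat_lit 203)) (PT.lf (nat_lit 42788) (nat_lit 6) (nat_lit 563) (nat_lit 5) (nat_lit 181) (nat_lit 187) (nat_lit 202)))) (PT.nd (nat_lit 156) (PT.nd (nat_lit 78) (PT.lf (nat_lit 43700) (nat_lit 6) (nat_lit 575) (nat_lit 5) (nat_lit 182) (nat_lit 187) (nat_lit 201)) (PT.lf (nat_lit 44536) (nat_lit 6) (nat_lit 586) (nat_lit 5) (nat_lit 183) (nat_lit 187) (nat_lit 200))) (PT.nd (nat_lit 78) (PT.lf (nat_lit 45296) (nat_lit 6) (nat_lit 596) (nat_lit 5) (nat_lit 184) (nat_lit 187) (nat_lit 199)) (PT.lf (nat_lit 45980) (nat_lit 6) (nat_lit 605) (nat_lit 5) (nat_lit 185) (nat_lit 187) (nat_lit 198))))))) (PT.nd (nat_lit 1092) (PT.nd (nat_lit 546) (PT.nd (nat_lit 234) (PT.nd (nat_lit 78) (PT.lf (nat_lit 46588) (nat_lit 6) (nat_lit 613) (nat_lit 5) (nat_lit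 186) (nat_lit 187) (nat_lit 197)) (PT.nd (nat_lit 78) (PT.lf (nat_lit 47120) (nat_lit 3) (nat_lit 620) (nat_lit 3) (nat_lit 187) (nat_lit 187) (nat_lit 196)) (PT.lf (nat_lit 47652) (nat_lit 6) (nat_lit 627) (nat_lit 3) (nat_lit 188) (nat_lit 187) (nat_lit 195)))) (PT.nd (nat_lit 156) (PT.nd (nat_lit 78) (PT.lf (nat_lit 48108) (nat_lit 6) (nat_lit 633) (nat_lit 3) (nat_lit 189) (nat_lit 187) (nat_lit 194)) (PT.lf (nat_lit 48488) (nat_lit 6) (nat_lit 638) (nat_lit 3) (nat_lit 190) (nat_lit 187) (nat_lit 193))) (PT.nd (nat_lit 78) (PT.lf (nat_lit 48564) (nat_lit 6) (nat_lit 639) (nat_lit 3) (nat_lit 191) (nat_lit 187) (nat_lit 192)) (PT.lf (nat_lit 48564) (nat_lit 6) (nat_lit 639) (nat_lit 1) (nat_lit 192) (nat_lit 187) (nat_lit 191))))) (PT.nd (nat_lit 234) (PT.nd (nat_lit 78) (PT.lf (nat_lit 48488) (nat_lit 6) (nat_lit 638) (nat_lit 1) (nat_lit 193) (nat_lit 187) (nat_lit 190)) (PT.nd (nat_lit 78) (PT.lf (nat_lit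 48108) (nat_lit 6) (nat_lit 633) (nat_lit 1) (nat_lit 194) (nat_lit 187) (nat_lit 189)) (PT.lf (nat_lit 47652) (nat_lit 6) (nat_lit 627) (nat_lit 1) (nat_lit 195) (nat_lit 187) (nat_lit 188)))) (PT.nd (nat_lit 156) (PT.nd (nat_lit 78) (PT.lf (nat_lit 47120) (nat_lit 3) (nat_lit 620) (nat_lit 0) (nat_lit 196) (nat_lit 187) (nat_lit 187)) (PT.lf (nat_lit 46588) (nat_lit 6) (nat_lit 613) (nat_lit 0) (nat_lit 197) (nat_lit 187) (nat_lit 186))) (PT.nd (nat_lit 78) (PT.lf (nat_lit 45980) (nat_lit 6) (nat_lit 605) (nat_lit 0) (nat_lit 198) (nat_lit 187) (nat_lit 185)) (PT.lf (nat_lit 45296) (nat_lit 6) (nat_lit 596) (nat_lit 0) (nat_lit 199) (nat_lit 187) (nat_lit 184)))))) (PT.nd (nat_lit 546) (PT.nd (nat_lit 234) (PT.nd (nat_lit 78) (PT.lf (nat_lit 44536) (nat_lit 6) (nat_lit 586) (nat_lit 0) (nat_lit 200) (nat_lit 187) (nat_lit 183)) (PT.nd (nat_lit 78) (PT.lf (nat_lit 43700) (nat_lit 6) (nat_lit 575) (nat_lit 0)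 (nat_lit 201) (nat_lit 187) (nat_lit 182)) (PT.lf (nat_lit 42788) (nat_lit 6) (nat_lit 563) (nat_lit 0) (nat_lit 202) (nat_lit 187) (nat_lit 181)))) (PT.nd (nat_lit 156) (PT.nd (nat_lit 78) (PT.lf (nat_lit 41800) (nat_lit 6) (nat_lit 550) (nat_lit 0) (nat_lit 203) (nat_lit 187) (nat_lit 180)) (PT.lf (nat_lit 40736) (nat_lit 6) (nat_lit 536) (nat_lit 0) (nat_lit 204) (nat_lit 187) (nat_lit 179))) (PT.nd (nat_lit 78) (PT.lf (nat_lit 39596) (nat_lit 6) (nat_lit 521) (nat_lit 0) (nat_lit 205) (nat_lit 187) (nat_lit 178)) (PT.lf (nat_lit 38380) (nat_lit 6) (nat_lit 505) (nat_lit 0) (nat_lit 206) (nat_lit 187) (nat_lit 177))))) (PT.nd (nat_lit 312) (PT.nd (nat_lit 156) (PT.nd (nat_lit 78) (PT.lf (nat_lit 37088) (nat_lit 6) (nat_lit 488) (nat_lit 0) (nat_lit 207) (nat_lit 187) (nat_lit 176)) (PT.lf (nat_lit 35720) (nat_lit 6) (nat_lit 470) (nat_lit 0) (nat_lit 208) (nat_lit 187) (nat_lit 175))) (PT.nd (nat_lit 78) (PT.lf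 (nat_lit 34276) (nat_lit 6) (nat_lit 451) (nat_lit 0) (nat_lit 209) (nat_lit 187) (nat_lit 174)) (PT.lf (nat_lit 32756) (nat_lit 6) (nat_lit 431) (nat_lit 0) (nat_lit 210) (nat_lit 187) (nat_lit 173)))) (PT.nd (nat_lit 156) (PT.nd (nat_lit 78) (PT.lf (nat_lit 31160) (nat_lit 6) (nat_lit 410) (nat_lit 0) (nat_lit 211) (nat_lit 187) (nat_lit 172)) (PT.lf (nat_lit 29488) (nat_lit 6) (nat_lit 388) (nat_lit 0) (nat_lit 212) (nat_lit 187) (nat_lit 171))) (PT.nd (nat_lit 55926) (PT.lf (nat_lit 27740) (nat_lit 6) (nat_lit 365) (nat_lit 0) (nat_lit 213) (nat_lit 187) (nat_lit 170)) (PT.lf (nat_lit 27816) (nat_lit 6) (nat_lit 366) (nat_lit 5) (nat_lit 169) (nat_lit 188) (nat_lit 213))))))))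
noncomputable def pc24 : PT := (PT.nd (nat_lit 2184) (PT.nd (nat_lit 1092) (PT.nd (nat_lit 546) (PT.nd (nat_lit 234) (PT.nd (nat_lit 78) (PT.lf (nat_lit 29564) (nat_lit 6) (nat_lit 389) (nat_lit 5) (nat_lit 170) (nat_lit 188) (nat_lit 212)) (PT.nd (nat_lit 78) (PT.lf (nat_lit 31236) (nat_lit 6) (nat_lit 411) (nat_lit 5) (nat_lit 171) (nat_lit 188) (nat_lit 211)) (PT.lf (nat_lit 32832) (nat_lit 6) (nat_lit 432) (nat_lit 5) (nat_lit 172) (nat_lit 188) (nat_lit 210)))) (PT.nd (nat_lit 156) (PT.nd (nat_lit 78) (PT.lf (nat_lit 34352) (nat_lit 6) (nat_lit 452) (nat_lit 5) (nat_lit 173) (nat_lit 188) (nat_lit 209)) (PT.lf (nat_lit 35796) (nat_lit 6) (nat_lit 471) (nat_lit 5) (nat_lit 174) (nat_lit 188) (nat_lit 208))) (PT.nd (nat_lit 78) (PT.lf (nat_lit 37164) (nat_lit 6) (nat_lit 489) (nat_lit 5) (nat_lit 175) (nat_lit 188) (nat_lit 207)) (PT.lf (nat_lit 38456) (nat_lit 6) (nat_lit 506) (nat_lit 5) (nat_lit 176) (nat_lit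 188) (nat_lit 206))))) (PT.nd (nat_lit 234) (PT.nd (nat_lit 78) (PT.lf (nat_lit 39672) (nat_lit 6) (nat_lit 522) (nat_lit 5) (nat_lit 177) (nat_lit 188) (nat_lit 205)) (PT.nd (nat_lit 78) (PT.lf (nat_lit 40812) (nat_lit 6) (nat_lit 537) (nat_lit 5) (nat_lit 178) (nat_lit 188) (nat_lit 204)) (PT.lf (nat_lit 41876) (nat_lit 6) (nat_lit 551) (nat_lit 5) (nat_lit 179) (nat_lit 188) (nat_lit 203)))) (PT.nd (nat_lit 156) (PT.nd (nat_lit 78) (PT.lf (nat_lit 42864) (nat_lit 6) (nat_lit 564) (nat_lit 5) (nat_lit 180) (nat_lit 188) (nat_lit 202)) (PT.lf (nat_lit 43776) (nat_lit 6) (nat_lit 576) (nat_lit 5) (nat_lit 181) (nat_lit 188) (nat_lit 201))) (PT.nd (nat_lit 78) (PT.lf (nat_lit 44612) (nat_lit 6) (nat_lit 587) (nat_lit 5) (nat_lit 182) (nat_lit 188) (nat_lit 200)) (PT.lf (nat_lit 45372) (nat_lit 6) (nat_lit 597) (nat_lit 5) (nat_lit 183) (nat_lit 188) (nat_lit 199)))))) (PT.nd (nat_lit 546) (PT.nd (nat_lit 234)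 (PT.nd (nat_lit 78) (PT.lf (nat_lit 46056) (nat_lit 6) (nat_lit 606) (nat_lit 5) (nat_lit 184) (nat_lit 188) (nat_lit 198)) (PT.nd (nat_lit 78) (PT.lf (nat_lit 46664) (nat_lit 6) (nat_lit 614) (nat_lit 5) (nat_lit 185) (nat_lit 188) (nat_lit 197)) (PT.lf (nat_lit 47196) (nat_lit 6) (nat_lit 621) (nat_lit 5) (nat_lit 186) (nat_lit 188) (nat_lit 196)))) (PT.nd (nat_lit 156) (PT.nd (nat_lit 78) (PT.lf (nat_lit 47652) (nat_lit 6) (nat_lit 627) (nat_lit 5) (nat_lit 187) (nat_lit 188) (nat_lit 195)) (PT.lf (nat_lit 48032) (nat_lit 3) (nat_lit 632) (nat_lit 3) (nat_lit 188) (nat_lit 188) (nat_lit 194))) (PT.nd (nat_lit 78) (PT.lf (nat_lit 48412) (nat_lit 6) (nat_lit 637) (nat_lit 3) (nat_lit 189) (nat_lit 188) (nat_lit 193)) (PT.lf (nat_lit 48716) (nat_lit 6) (nat_lit 641) (nat_lit 3) (nat_lit 190) (nat_lit 188) (nat_lit 192))))) (PT.nd (nat_lit 234) (PT.nd (nat_lit 78) (PT.lf (nat_lit 48792) (nat_lit 3) (nat_lit 642)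 (nat_lit 1) (nat_lit 191) (nat_lit 188) (nat_lit 191)) (PT.nd (nat_lit 78) (PT.lf (nat_lit 48716) (nat_lit 6) (nat_lit 641) (nat_lit 1) (nat_lit 192) (nat_lit 188) (nat_lit 190)) (PT.lf (nat_lit 48412) (nat_lit 6) (nat_lit 637) (nat_lit 1) (nat_lit 193) (nat_lit 188) (nat_lit 189)))) (PT.nd (nat_lit 156) (PT.nd (nat_lit 78) (PT.lf (nat_lit 48032) (nat_lit 3) (nat_lit 632) (nat_lit 0) (nat_lit 194) (nat_lit 188) (nat_lit 188)) (PT.lf (nat_lit 47652) (nat_lit 6) (nat_lit 627) (nat_lit 0) (nat_lit 195) (nat_lit 188) (nat_lit 187))) (PT.nd (nat_lit 78) (PT.lf (nat_lit 47196) (nat_lit 6) (nat_lit 621) (nat_lit 0) (nat_lit 196) (nat_lit 188) (nat_lit 186)) (PT.lf (nat_lit 46664) (nat_lit 6) (nat_lit 614) (nat_lit 0) (nat_lit 197) (nat_lit 188) (nat_lit 185))))))) (PT.nd (nat_lit 1092) (PT.nd (nat_lit 546) (PT.nd (nat_lit 234) (PT.nd (nat_lit 78) (PT.lf (nat_lit 46056) (nat_lit 6) (nat_lit 606) (nat_lit 0) (nat_lit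 198) (nat_lit 188) (nat_lit 184)) (PT.nd (nat_lit 78) (PT.lf (nat_lit 45372) (nat_lit 6) (nat_lit 597) (nat_lit 0) (nat_lit 199) (nat_lit 188) (nat_lit 183)) (PT.lf (nat_lit 44612) (nat_lit 6) (nat_lit 587) (nat_lit 0) (nat_lit 200) (nat_lit 188) (nat_lit 182)))) (PT.nd (nat_lit 156) (PT.nd (nat_lit 78) (PT.lf (nat_lit 43776) (nat_lit 6) (nat_lit 576) (nat_lit 0) (nat_lit 201) (nat_lit 188) (nat_lit 181)) (PT.lf (nat_lit 42864) (nat_lit 6) (nat_lit 564) (nat_lit 0) (nat_lit 202) (nat_lit 188) (nat_lit 180))) (PT.nd (nat_lit 78) (PT.lf (nat_lit 41876) (nat_lit 6) (nat_lit 551) (nat_lit 0) (nat_lit 203) (nat_lit 188) (nat_lit 179)) (PT.lf (nat_lit 40812) (nat_lit 6) (nat_lit 537) (nat_lit 0) (nat_lit 204) (nat_lit 188) (nat_lit 178))))) (PT.nd (nat_lit 234) (PT.nd (nat_lit 78) (PT.lf (nat_lit 39672) (nat_lit 6) (nat_lit 522) (nat_lit 0) (nat_lit 205) (nat_lit 188) (nat_lit 177)) (PT.nd (nat_lit 78) (PT.lf (nat_lit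 38456) (nat_lit 6) (nat_lit 506) (nat_lit 0) (nat_lit 206) (nat_lit 188) (nat_lit 176)) (PT.lf (nat_lit 37164) (nat_lit 6) (nat_lit 489) (nat_lit 0) (nat_lit 207) (nat_lit 188) (nat_lit 175)))) (PT.nd (nat_lit 156) (PT.nd (nat_lit 78) (PT.lf (nat_lit 35796) (nat_lit 6) (nat_lit 471) (nat_lit 0) (nat_lit 208) (nat_lit 188) (nat_lit 174)) (PT.lf (nat_lit 34352) (nat_lit 6) (nat_lit 452) (nat_lit 0) (nat_lit 209) (nat_lit 188) (nat_lit 173))) (PT.nd (nat_lit 78) (PT.lf (nat_lit 32832) (nat_lit 6) (nat_lit 432) (nat_lit 0) (nat_lit 210) (nat_lit 188) (nat_lit 172)) (PT.lf (nat_lit 31236) (nat_lit 6) (nat_lit 411) (nat_lit 0) (nat_lit 211) (nat_lit 188) (nat_lit 171)))))) (PT.nd (nat_lit 56316) (PT.nd (nat_lit 56004) (PT.nd (nat_lit 78) (PT.lf (nat_lit 29564) (nat_lit 6) (nat_lit 389) (nat_lit 0) (nat_lit 212) (nat_lit 188) (nat_lit 170)) (PT.nd (nat_lit 55848) (PT.lf (nat_lit 27816) (nat_lit 6) (nat_lit 366) (nat_lit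 0) (nat_lit 213) (nat_lit 188) (nat_lit 169)) (PT.lf (nat_lit 27892) (nat_lit 6) (nat_lit 367) (nat_lit 5) (nat_lit 168) (nat_lit 189) (nat_lit 213)))) (PT.nd (nat_lit 156) (PT.nd (nat_lit 78) (PT.lf (nat_lit 29640) (nat_lit 6) (nat_lit 390) (nat_lit 5) (nat_lit 169) (nat_lit 189) (nat_lit 212)) (PT.lf (nat_lit 31312) (nat_lit 6) (nat_lit 412) (nat_lit 5) (nat_lit 170) (nat_lit 189) (nat_lit 211))) (PT.nd (nat_lit 78) (PT.lf (nat_lit 32908) (nat_lit 6) (nat_lit 433) (nat_lit 5) (nat_lit 171) (nat_lit 189) (nat_lit 210)) (PT.lf (nat_lit 34428) (nat_lit 6) (nat_lit 453) (nat_lit 5) (nat_lit 172) (nat_lit 189) (nat_lit 209))))) (PT.nd (nat_lit 234) (PT.nd (nat_lit 78) (PT.lf (nat_lit 35872) (nat_lit 6) (nat_lit 472) (nat_lit 5) (nat_lit 173) (nat_lit 189) (nat_lit 208)) (PT.nd (nat_lit 78) (PT.lf (nat_lit 37240) (nat_lit 6) (nat_lit 490) (nat_lit 5) (nat_lit 174) (nat_lit 189) (nat_lit 207)) (PT.lf (nat_lit 38532)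 (nat_lit 6) (nat_lit 507) (nat_lit 5) (nat_lit 175) (nat_lit 189) (nat_lit 206)))) (PT.nd (nat_lit 156) (PT.nd (nat_lit 78) (PT.lf (nat_lit 39748) (nat_lit 6) (nat_lit 523) (nat_lit 5) (nat_lit 176) (nat_lit 189) (nat_lit 205)) (PT.lf (nat_lit 40888) (nat_lit 6) (nat_lit 538) (nat_lit 5) (nat_lit 177) (nat_lit 189) (nat_lit 204))) (PT.nd (nat_lit 78) (PT.lf (nat_lit 41952) (nat_lit 6) (nat_lit 552) (nat_lit 5) (nat_lit 178) (nat_lit 189) (nat_lit 203)) (PT.lf (nat_lit 42940) (nat_lit 6) (nat_lit 565) (nat_lit 5) (nat_lit 179) (nat_lit 189) (nat_lit 202))))))))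
noncomputable def pc25 : PT := (PT.nd (nat_lit 2184) (PT.nd (nat_lit 1092) (PT.nd (nat_lit 546) (PT.nd (nat_lit 234) (PT.nd (nat_lit 78) (PT.lf (nat_lit 43852) (nat_lit 6) (nat_lit 577) (nat_lit 5) (nat_lit 180) (nat_lit 189) (nat_lit 201)) (PT.nd (nat_lit 78) (PT.lf (nat_lit 44688) (nat_lit 6) (nat_lit 588) (nat_lit 5) (nat_lit 181) (nat_lit 189) (nat_lit 200)) (PT.lf (nat_lit 45448) (nat_lit 6) (nat_lit 598) (nat_lit 5) (nat_lit 182) (nat_lit 189) (nat_lit 199)))) (PT.nd (nat_lit 156) (PT.nd (nat_lit 78) (PT.lf (nat_lit 46132) (nat_lit 6) (nat_lit 607) (nat_lit 5) (nat_lit 183) (nat_lit 189) (nat_lit 198)) (PT.lf (nat_lit 46740) (nat_lit 6) (nat_lit 615) (nat_lit 5) (nat_lit 184) (nat_lit 189) (nat_lit 197))) (PT.nd (nat_lit 78) (PT.lf (nat_lit 47272) (nat_lit 6) (nat_lit 622) (nat_lit 5) (nat_lit 185) (nat_lit 189) (nat_lit 196)) (PT.lf (nat_lit 47728) (nat_lit 6) (nat_lit 628) (nat_lit 5) (nat_lit 186) (nat_lit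 189) (nat_lit 195))))) (PT.nd (nat_lit 234) (PT.nd (nat_lit 78) (PT.lf (nat_lit 48108) (nat_lit 6) (nat_lit 633) (nat_lit 5) (nat_lit 187) (nat_lit 189) (nat_lit 194)) (PT.nd (nat_lit 78) (PT.lf (nat_lit 48412) (nat_lit 6) (nat_lit 637) (nat_lit 5) (nat_lit 188) (nat_lit 189) (nat_lit 193)) (PT.lf (nat_lit 48640) (nat_lit 3) (nat_lit 640) (nat_lit 3) (nat_lit 189) (nat_lit 189) (nat_lit 192)))) (PT.nd (nat_lit 156) (PT.nd (nat_lit 78) (PT.lf (nat_lit 48868) (nat_lit 6) (nat_lit 643) (nat_lit 3) (nat_lit 190) (nat_lit 189) (nat_lit 191)) (PT.lf (nat_lit 48868) (nat_lit 6) (nat_lit 643) (nat_lit 1) (nat_lit 191) (nat_lit 189) (nat_lit 190))) (PT.nd (nat_lit 78) (PT.lf (nat_lit 48640) (nat_lit 3) (nat_lit 640) (nat_lit 0) (nat_lit 192) (nat_lit 189) (nat_lit 189)) (PT.lf (nat_lit 48412) (nat_lit 6) (nat_lit 637) (nat_lit 0) (nat_lit 193) (nat_lit 189) (nat_lit 188)))))) (PT.nd (nat_lit 546) (PT.nd (nat_lit 234)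 (PT.nd (nat_lit 78) (PT.lf (nat_lit 48108) (nat_lit 6) (nat_lit 633) (nat_lit 0) (nat_lit 194) (nat_lit 189) (nat_lit 187)) (PT.nd (nat_lit 78) (PT.lf (nat_lit 47728) (nat_lit 6) (nat_lit 628) (nat_lit 0) (nat_lit 195) (nat_lit 189) (nat_lit 186)) (PT.lf (nat_lit 47272) (nat_lit 6) (nat_lit 622) (nat_lit 0) (nat_lit 196) (nat_lit 189) (nat_lit 185)))) (PT.nd (nat_lit 156) (PT.nd (nat_lit 78) (PT.lf (nat_lit 46740) (nat_lit 6) (nat_lit 615) (nat_lit 0) (nat_lit 197) (nat_lit 189) (nat_lit 184)) (PT.lf (nat_lit 46132) (nat_lit 6) (nat_lit 607) (nat_lit 0) (nat_lit 198) (nat_lit 189) (nat_lit 183))) (PT.nd (nat_lit 78) (PT.lf (nat_lit 45448) (nat_lit 6) (nat_lit 598) (nat_lit 0) (nat_lit 199) (nat_lit 189) (nat_lit 182)) (PT.lf (nat_lit 44688) (nat_lit 6) (nat_lit 588) (nat_lit 0) (nat_lit 200) (nat_lit 189) (nat_lit 181))))) (PT.nd (nat_lit 234) (PT.nd (nat_lit 78) (PT.lf (nat_lit 43852) (nat_lit 6) (nat_lit 577)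 (nat_lit 0) (nat_lit 201) (nat_lit 189) (nat_lit 180)) (PT.nd (nat_lit 78) (PT.lf (nat_lit 42940) (nat_lit 6) (nat_lit 565) (nat_lit 0) (nat_lit 202) (nat_lit 189) (nat_lit 179)) (PT.lf (nat_lit 41952) (nat_lit 6) (nat_lit 552) (nat_lit 0) (nat_lit 203) (nat_lit 189) (nat_lit 178)))) (PT.nd (nat_lit 156) (PT.nd (nat_lit 78) (PT.lf (nat_lit 40888) (nat_lit 6) (nat_lit 538) (nat_lit 0) (nat_lit 204) (nat_lit 189) (nat_lit 177)) (PT.lf (nat_lit 39748) (nat_lit 6) (nat_lit 523) (nat_lit 0) (nat_lit 205) (nat_lit 189) (nat_lit 176))) (PT.nd (nat_lit 78) (PT.lf (nat_lit 38532) (nat_lit 6) (nat_lit 507) (nat_lit 0) (nat_lit 206) (nat_lit 189) (nat_lit 175)) (PT.lf (nat_lit 37240) (nat_lit 6) (nat_lit 490) (nat_lit 0) (nat_lit 207) (nat_lit 189) (nat_lit 174))))))) (PT.nd (nat_lit 56784) (PT.nd (nat_lit 56238) (PT.nd (nat_lit 234) (PT.nd (nat_lit 78) (PT.lf (nat_lit 35872) (nat_lit 6) (nat_lit 472) (nat_lit 0) (nat_lit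 208) (nat_lit 189) (nat_lit 173)) (PT.nd (nat_lit 78) (PT.lf (nat_lit 34428) (nat_lit 6) (nat_lit 453) (nat_lit 0) (nat_lit 209) (nat_lit 189) (nat_lit 172)) (PT.lf (nat_lit 32908) (nat_lit 6) (nat_lit 433) (nat_lit 0) (nat_lit 210) (nat_lit 189) (nat_lit 171)))) (PT.nd (nat_lit 156) (PT.nd (nat_lit 78) (PT.lf (nat_lit 31312) (nat_lit 6) (nat_lit 412) (nat_lit 0) (nat_lit 211) (nat_lit 189) (nat_lit 170)) (PT.lf (nat_lit 29640) (nat_lit 6) (nat_lit 390) (nat_lit 0) (nat_lit 212) (nat_lit 189) (nat_lit 169))) (PT.nd (nat_lit 55770) (PT.lf (nat_lit 27892) (nat_lit 6) (nat_lit 367) (nat_lit 0) (nat_lit 213) (nat_lit 189) (nat_lit 168)) (PT.lf (nat_lit 27968) (nat_lit 6) (nat_lit 368) (nat_lit 5) (nat_lit 167) (nat_lit 190) (nat_lit 213))))) (PT.nd (nat_lit 234) (PT.nd (nat_lit 78) (PT.lf (nat_lit 29716) (nat_lit 6) (nat_lit 391) (nat_lit 5) (nat_lit 168) (nat_lit 190) (nat_lit 212)) (PT.nd (nat_lit 78) (PT.lf (nat_lit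 31388) (nat_lit 6) (nat_lit 413) (nat_lit 5) (nat_lit 169) (nat_lit 190) (nat_lit 211)) (PT.lf (nat_lit 32984) (nat_lit 6) (nat_lit 434) (nat_lit 5) (nat_lit 170) (nat_lit 190) (nat_lit 210)))) (PT.nd (nat_lit 156) (PT.nd (nat_lit 78) (PT.lf (nat_lit 34504) (nat_lit 6) (nat_lit 454) (nat_lit 5) (nat_lit 171) (nat_lit 190) (nat_lit 209)) (PT.lf (nat_lit 35948) (nat_lit 6) (nat_lit 473) (nat_lit 5) (nat_lit 172) (nat_lit 190) (nat_lit 208))) (PT.nd (nat_lit 78) (PT.lf (nat_lit 37316) (nat_lit 6) (nat_lit 491) (nat_lit 5) (nat_lit 173) (nat_lit 190) (nat_lit 207)) (PT.lf (nat_lit 38608) (nat_lit 6) (nat_lit 508) (nat_lit 5) (nat_lit 174) (nat_lit 190) (nat_lit 206)))))) (PT.nd (nat_lit 546) (PT.nd (nat_lit 234) (PT.nd (nat_lit 78) (PT.lf (nat_lit 39824) (nat_lit 6) (nat_lit 524) (nat_lit 5) (nat_lit 175) (nat_lit 190) (nat_lit 205)) (PT.nd (nat_lit 78) (PT.lf (nat_lit 40964) (nat_lit 6) (nat_lit 539) (nat_lit 5)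 (nat_lit 176) (nat_lit 190) (nat_lit 204)) (PT.lf (nat_lit 42028) (nat_lit 6) (nat_lit 553) (nat_lit 5) (nat_lit 177) (nat_lit 190) (nat_lit 203)))) (PT.nd (nat_lit 156) (PT.nd (nat_lit 78) (PT.lf (nat_lit 43016) (nat_lit 6) (nat_lit 566) (nat_lit 5) (nat_lit 178) (nat_lit 190) (nat_lit 202)) (PT.lf (nat_lit 43928) (nat_lit 6) (nat_lit 578) (nat_lit 5) (nat_lit 179) (nat_lit 190) (nat_lit 201))) (PT.nd (nat_lit 78) (PT.lf (nat_lit 44764) (nat_lit 6) (nat_lit 589) (nat_lit 5) (nat_lit 180) (nat_lit 190) (nat_lit 200)) (PT.lf (nat_lit 45524) (nat_lit 6) (nat_lit 599) (nat_lit 5) (nat_lit 181) (nat_lit 190) (nat_lit 199))))) (PT.nd (nat_lit 312) (PT.nd (nat_lit 156) (PT.nd (nat_lit 78) (PT.lf (nat_lit 46208) (nat_lit 6) (nat_lit 608) (nat_lit 5) (nat_lit 182) (nat_lit 190) (nat_lit 198)) (PT.lf (nat_lit 46816) (nat_lit 6) (nat_lit 616) (nat_lit 5) (nat_lit 183) (nat_lit 190) (nat_lit 197))) (PT.nd (nat_lit 78) (PT.lf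 (nat_lit 47348) (nat_lit 6) (nat_lit 623) (nat_lit 5) (nat_lit 184) (nat_lit 190) (nat_lit 196)) (PT.lf (nat_lit 47804) (nat_lit 6) (nat_lit 629) (nat_lit 5) (nat_lit 185) (nat_lit 190) (nat_lit 195)))) (PT.nd (nat_lit 156) (PT.nd (nat_lit 78) (PT.lf (nat_lit 48184) (nat_lit 6) (nat_lit 634) (nat_lit 5) (nat_lit 186) (nat_lit 190) (nat_lit 194)) (PT.lf (nat_lit 48488) (nat_lit 6) (nat_lit 638) (nat_lit 5) (nat_lit 187) (nat_lit 190) (nat_lit 193))) (PT.nd (nat_lit 78) (PT.lf (nat_lit 48716) (nat_lit 6) (nat_lit 641) (nat_lit 5) (nat_lit 188) (nat_lit 190) (nat_lit 192)) (PT.lf (nat_lit 48868) (nat_lit 6) (nat_lit 643) (nat_lit 5) (nat_lit 189) (nat_lit 190) (nat_lit 191))))))))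
noncomputable def pc26 : PT := (PT.nd (nat_lit 57798) (PT.nd (nat_lit 1092) (PT.nd (nat_lit 546) (PT.nd (nat_lit 234) (PT.nd (nat_lit 78) (PT.lf (nat_lit 48944) (nat_lit 1) (nat_lit 644) (nat_lit 0) (nat_lit 190) (nat_lit 190) (nat_lit 190)) (PT.nd (nat_lit 78) (PT.lf (nat_lit 48868) (nat_lit 6) (nat_lit 643) (nat_lit 0) (nat_lit 191) (nat_lit 190) (nat_lit 189)) (PT.lf (nat_lit 48716) (nat_lit 6) (nat_lit 641) (nat_lit 0) (nat_lit 192) (nat_lit 190) (nat_lit 188)))) (PT.nd (nat_lit 156) (PT.nd (nat_lit 78) (PT.lf (nat_lit 48488) (nat_lit 6) (nat_lit 638) (nat_lit 0) (nat_lit 193) (nat_lit 190) (nat_lit 187)) (PT.lf (nat_lit 48184) (nat_lit 6) (nat_lit 634) (nat_lit 0) (nat_lit 194) (nat_lit 190) (nat_lit 186))) (PT.nd (nat_lit 78) (PT.lf (nat_lit 47804) (nat_lit 6) (nat_lit 629) (nat_lit 0) (nat_lit 195) (nat_lit 190) (nat_lit 185)) (PT.lf (nat_lit 47348) (nat_lit 6) (nat_lit 623) (nat_lit 0) (nat_lit 196) (nat_lit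 190) (nat_lit 184))))) (PT.nd (nat_lit 234) (PT.nd (nat_lit 78) (PT.lf (nat_lit 46816) (nat_lit 6) (nat_lit 616) (nat_lit 0) (nat_lit 197) (nat_lit 190) (nat_lit 183)) (PT.nd (nat_lit 78) (PT.lf (nat_lit 46208) (nat_lit 6) (nat_lit 608) (nat_lit 0) (nat_lit 198) (nat_lit 190) (nat_lit 182)) (PT.lf (nat_lit 45524) (nat_lit 6) (nat_lit 599) (nat_lit 0) (nat_lit 199) (nat_lit 190) (nat_lit 181)))) (PT.nd (nat_lit 156) (PT.nd (nat_lit 78) (PT.lf (nat_lit 44764) (nat_lit 6) (nat_lit 589) (nat_lit 0) (nat_lit 200) (nat_lit 190) (nat_lit 180)) (PT.lf (nat_lit 43928) (nat_lit 6) (nat_lit 578) (nat_lit 0) (nat_lit 201) (nat_lit 190) (nat_lit 179))) (PT.nd (nat_lit 78) (PT.lf (nat_lit 43016) (nat_lit 6) (nat_lit 566) (nat_lit 0) (nat_lit 202) (nat_lit 190) (nat_lit 178)) (PT.lf (nat_lit 42028) (nat_lit 6) (nat_lit 553) (nat_lit 0) (nat_lit 203) (nat_lit 190) (nat_lit 177)))))) (PT.nd (nat_lit 546) (PT.nd (nat_lit 234)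 (PT.nd (nat_lit 78) (PT.lf (nat_lit 40964) (nat_lit 6) (nat_lit 539) (nat_lit 0) (nat_lit 204) (nat_lit 190) (nat_lit 176)) (PT.nd (nat_lit 78) (PT.lf (nat_lit 39824) (nat_lit 6) (nat_lit 524) (nat_lit 0) (nat_lit 205) (nat_lit 190) (nat_lit 175)) (PT.lf (nat_lit 38608) (nat_lit 6) (nat_lit 508) (nat_lit 0) (nat_lit 206) (nat_lit 190) (nat_lit 174)))) (PT.nd (nat_lit 156) (PT.nd (nat_lit 78) (PT.lf (nat_lit 37316) (nat_lit 6) (nat_lit 491) (nat_lit 0) (nat_lit 207) (nat_lit 190) (nat_lit 173)) (PT.lf (nat_lit 35948) (nat_lit 6) (nat_lit 473) (nat_lit 0) (nat_lit 208) (nat_lit 190) (nat_lit 172))) (PT.nd (nat_lit 78) (PT.lf (nat_lit 34504) (nat_lit 6) (nat_lit 454) (nat_lit 0) (nat_lit 209) (nat_lit 190) (nat_lit 171)) (PT.lf (nat_lit 32984) (nat_lit 6) (nat_lit 434) (nat_lit 0) (nat_lit 210) (nat_lit 190) (nat_lit 170))))) (PT.nd (nat_lit 55848) (PT.nd (nat_lit 78) (PT.lf (nat_lit 31388) (nat_lit 6) (nat_lit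 413) (nat_lit 0) (nat_lit 211) (nat_lit 190) (nat_lit 169)) (PT.nd (nat_lit 78) (PT.lf (nat_lit 29716) (nat_lit 6) (nat_lit 391) (nat_lit 0) (nat_lit 212) (nat_lit 190) (nat_lit 168)) (PT.lf (nat_lit 27968) (nat_lit 6) (nat_lit 368) (nat_lit 0) (nat_lit 213) (nat_lit 190) (nat_lit 167)))) (PT.nd (nat_lit 156) (PT.nd (nat_lit 78) (PT.lf (nat_lit 26676) (nat_lit 6) (nat_lit 351) (nat_lit 5) (nat_lit 166) (nat_lit 191) (nat_lit 213)) (PT.lf (nat_lit 28044) (nat_lit 6) (nat_lit 369) (nat_lit 5) (nat_lit 167) (nat_lit 191) (nat_lit 212))) (PT.nd (nat_lit 78) (PT.lf (nat_lit 29792) (nat_lit 6) (nat_lit 392) (nat_lit 5) (nat_lit 168) (nat_lit 191) (nat_lit 211)) (PT.lf (nat_lit 31464) (nat_lit 6) (nat_lit 414) (nat_lit 5) (nat_lit 169) (nat_lit 191) (nat_lit 210))))))) (PT.nd (nat_lit 1092) (PT.nd (nat_lit 546) (PT.nd (nat_lit 234) (PT.nd (nat_lit 78) (PT.lf (nat_lit 33060) (nat_lit 6) (nat_lit 435) (nat_lit 5) (nat_lit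 170) (nat_lit 191) (nat_lit 209)) (PT.nd (nat_lit 78) (PT.lf (nat_lit 34580) (nat_lit 6) (nat_lit 455) (nat_lit 5) (nat_lit 171) (nat_lit 191) (nat_lit 208)) (PT.lf (nat_lit 36024) (nat_lit 6) (nat_lit 474) (nat_lit 5) (nat_lit 172) (nat_lit 191) (nat_lit 207)))) (PT.nd (nat_lit 156) (PT.nd (nat_lit 78) (PT.lf (nat_lit 37392) (nat_lit 6) (nat_lit 492) (nat_lit 5) (nat_lit 173) (nat_lit 191) (nat_lit 206)) (PT.lf (nat_lit 38684) (nat_lit 6) (nat_lit 509) (nat_lit 5) (nat_lit 174) (nat_lit 191) (nat_lit 205))) (PT.nd (nat_lit 78) (PT.lf (nat_lit 39900) (nat_lit 6) (nat_lit 525) (nat_lit 5) (nat_lit 175) (nat_lit 191) (nat_lit 204)) (PT.lf (nat_lit 41040) (nat_lit 6) (nat_lit 540) (nat_lit 5) (nat_lit 176) (nat_lit 191) (nat_lit 203))))) (PT.nd (nat_lit 234) (PT.nd (nat_lit 78) (PT.lf (nat_lit 42104) (nat_lit 6) (nat_lit 554) (nat_lit 5) (nat_lit 177) (nat_lit 191) (nat_lit 202)) (PT.nd (nat_lit 78) (PT.lf (nat_lit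 43092) (nat_lit 6) (nat_lit 567) (nat_lit 5) (nat_lit 178) (nat_lit 191) (nat_lit 201)) (PT.lf (nat_lit 44004) (nat_lit 6) (nat_lit 579) (nat_lit 5) (nat_lit 179) (nat_lit 191) (nat_lit 200)))) (PT.nd (nat_lit 156) (PT.nd (nat_lit 78) (PT.lf (nat_lit 44840) (nat_lit 6) (nat_lit 590) (nat_lit 5) (nat_lit 180) (nat_lit 191) (nat_lit 199)) (PT.lf (nat_lit 45600) (nat_lit 6) (nat_lit 600) (nat_lit 5) (nat_lit 181) (nat_lit 191) (nat_lit 198))) (PT.nd (nat_lit 78) (PT.lf (nat_lit 46284) (nat_lit 6) (nat_lit 609) (nat_lit 5) (nat_lit 182) (nat_lit 191) (nat_lit 197)) (PT.lf (nat_lit 46892) (nat_lit 6) (nat_lit 617) (nat_lit 5) (nat_lit 183) (nat_lit 191) (nat_lit 196)))))) (PT.nd (nat_lit 546) (PT.nd (nat_lit 234) (PT.nd (nat_lit 78) (PT.lf (nat_lit 47424) (nat_lit 6) (nat_lit 624) (nat_lit 5) (nat_lit 184) (nat_lit 191) (nat_lit 195)) (PT.nd (nat_lit 78) (PT.lf (nat_lit 47880) (nat_lit 6) (nat_lit 630) (nat_lit 5)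 (nat_lit 185) (nat_lit 191) (nat_lit 194)) (PT.lf (nat_lit 48260) (nat_lit 6) (nat_lit 635) (nat_lit 5) (nat_lit 186) (nat_lit 191) (nat_lit 193)))) (PT.nd (nat_lit 156) (PT.nd (nat_lit 78) (PT.lf (nat_lit 48564) (nat_lit 6) (nat_lit 639) (nat_lit 5) (nat_lit 187) (nat_lit 191) (nat_lit 192)) (PT.lf (nat_lit 48792) (nat_lit 3) (nat_lit 642) (nat_lit 4) (nat_lit 188) (nat_lit 191) (nat_lit 191))) (PT.nd (nat_lit 78) (PT.lf (nat_lit 48868) (nat_lit 6) (nat_lit 643) (nat_lit 4) (nat_lit 189) (nat_lit 191) (nat_lit 190)) (PT.lf (nat_lit 48868) (nat_lit 6) (nat_lit 643) (nat_lit 2) (nat_lit 190) (nat_lit 191) (nat_lit 189))))) (PT.nd (nat_lit 312) (PT.nd (nat_lit 156) (PT.nd (nat_lit 78) (PT.lf (nat_lit 48792) (nat_lit 3) (nat_lit 642) (nat_lit 0) (nat_lit 191) (nat_lit 191) (nat_lit 188)) (PT.lf (nat_lit 48564) (nat_lit 6) (nat_lit 639) (nat_lit 0) (nat_lit 192) (nat_lit 191) (nat_lit 187))) (PT.nd (nat_lit 78) (PT.lf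 (nat_lit 48260) (nat_lit 6) (nat_lit 635) (nat_lit 0) (nat_lit 193) (nat_lit 191) (nat_lit 186)) (PT.lf (nat_lit 47880) (nat_lit 6) (nat_lit 630) (nat_lit 0) (nat_lit 194) (nat_lit 191) (nat_lit 185)))) (PT.nd (nat_lit 156) (PT.nd (nat_lit 78) (PT.lf (nat_lit 47424) (nat_lit 6) (nat_lit 624) (nat_lit 0) (nat_lit 195) (nat_lit 191) (nat_lit 184)) (PT.lf (nat_lit 46892) (nat_lit 6) (nat_lit 617) (nat_lit 0) (nat_lit 196) (nat_lit 191) (nat_lit 183))) (PT.nd (nat_lit 78) (PT.lf (nat_lit 46284) (nat_lit 6) (nat_lit 609) (nat_lit 0) (nat_lit 197) (nat_lit 191) (nat_lit 182)) (PT.lf (nat_lit 45600) (nat_lit 6) (nat_lit 600) (nat_lit 0) (nat_lit 198) (nat_lit 191) (nat_lit 181))))))))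
noncomputable def pc27 : PT := (PT.nd (nat_lit 57642) (PT.nd (nat_lit 1092) (PT.nd (nat_lit 546) (PT.nd (nat_lit 234) (PT.nd (nat_lit 78) (PT.lf (nat_lit 44840) (nat_lit 6) (nat_lit 590) (nat_lit 0) (nat_lit 199) (nat_lit 191) (nat_lit 180)) (PT.nd (nat_lit 78) (PT.lf (nat_lit 44004) (nat_lit 6) (nat_lit 579) (nat_lit 0) (nat_lit 200) (nat_lit 191) (nat_lit 179)) (PT.lf (nat_lit 43092) (nat_lit 6) (nat_lit 567) (nat_lit 0) (nat_lit 201) (nat_lit 191) (nat_lit 178)))) (PT.nd (nat_lit 156) (PT.nd (nat_lit 78) (PT.lf (nat_lit 42104) (nat_lit 6) (nat_lit 554) (nat_lit 0) (nat_lit 202) (nat_lit 191) (nat_lit 177)) (PT.lf (nat_lit 41040) (nat_lit 6) (nat_lit 540) (nat_lit 0) (nat_lit 203) (nat_lit 191) (nat_lit 176))) (PT.nd (nat_lit 78) (PT.lf (nat_lit 39900) (nat_lit 6) (nat_lit 525) (nat_lit 0) (nat_lit 204) (nat_lit 191) (nat_lit 175)) (PT.lf (nat_lit 38684) (nat_lit 6) (nat_lit 509) (nat_lit 0) (nat_lit 205) (nat_lit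 191) (nat_lit 174))))) (PT.nd (nat_lit 234) (PT.nd (nat_lit 78) (PT.lf (nat_lit 37392) (nat_lit 6) (nat_lit 492) (nat_lit 0) (nat_lit 206) (nat_lit 191) (nat_lit 173)) (PT.nd (nat_lit 78) (PT.lf (nat_lit 36024) (nat_lit 6) (nat_lit 474) (nat_lit 0) (nat_lit 207) (nat_lit 191) (nat_lit 172)) (PT.lf (nat_lit 34580) (nat_lit 6) (nat_lit 455) (nat_lit 0) (nat_lit 208) (nat_lit 191) (nat_lit 171)))) (PT.nd (nat_lit 156) (PT.nd (nat_lit 78) (PT.lf (nat_lit 33060) (nat_lit 6) (nat_lit 435) (nat_lit 0) (nat_lit 209) (nat_lit 191) (nat_lit 170)) (PT.lf (nat_lit 31464) (nat_lit 6) (nat_lit 414) (nat_lit 0) (nat_lit 210) (nat_lit 191) (nat_lit 169))) (PT.nd (nat_lit 78) (PT.lf (nat_lit 29792) (nat_lit 6) (nat_lit 392) (nat_lit 0) (nat_lit 211) (nat_lit 191) (nat_lit 168)) (PT.lf (nat_lit 28044) (nat_lit 6) (nat_lit 369) (nat_lit 0) (nat_lit 212) (nat_lit 191) (nat_lit 167)))))) (PT.nd (nat_lit 56004) (PT.nd (nat_lit 55692)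 (PT.nd (nat_lit 55536) (PT.lf (nat_lit 26676) (nat_lit 6) (nat_lit 351) (nat_lit 0) (nat_lit 213) (nat_lit 191) (nat_lit 166)) (PT.nd (nat_lit 78) (PT.lf (nat_lit 24928) (nat_lit 6) (nat_lit 328) (nat_lit 5) (nat_lit 164) (nat_lit 192) (nat_lit 214)) (PT.lf (nat_lit 25840) (nat_lit 6) (nat_lit 340) (nat_lit 5) (nat_lit 165) (nat_lit 192) (nat_lit 213)))) (PT.nd (nat_lit 156) (PT.nd (nat_lit 78) (PT.lf (nat_lit 26752) (nat_lit 6) (nat_lit 352) (nat_lit 5) (nat_lit 166) (nat_lit 192) (nat_lit 212)) (PT.lf (nat_lit 28120) (nat_lit 6) (nat_lit 370) (nat_lit 5) (nat_lit 167) (nat_lit 192) (nat_lit 211))) (PT.nd (nat_lit 78) (PT.lf (nat_lit 29868) (nat_lit 6) (nat_lit 393) (nat_lit 5) (nat_lit 168) (nat_lit 192) (nat_lit 210)) (PT.lf (nat_lit 31540) (nat_lit 6) (nat_lit 415) (nat_lit 5) (nat_lit 169) (nat_lit 192) (nat_lit 209))))) (PT.nd (nat_lit 234) (PT.nd (nat_lit 78) (PT.lf (nat_lit 33136) (nat_lit 6) (nat_lit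 436) (nat_lit 5) (nat_lit 170) (nat_lit 192) (nat_lit 208)) (PT.nd (nat_lit 78) (PT.lf (nat_lit 34656) (nat_lit 6) (nat_lit 456) (nat_lit 5) (nat_lit 171) (nat_lit 192) (nat_lit 207)) (PT.lf (nat_lit 36100) (nat_lit 6) (nat_lit 475) (nat_lit 5) (nat_lit 172) (nat_lit 192) (nat_lit 206)))) (PT.nd (nat_lit 156) (PT.nd (nat_lit 78) (PT.lf (nat_lit 37468) (nat_lit 6) (nat_lit 493) (nat_lit 5) (nat_lit 173) (nat_lit 192) (nat_lit 205)) (PT.lf (nat_lit 38760) (nat_lit 6) (nat_lit 510) (nat_lit 5) (nat_lit 174) (nat_lit 192) (nat_lit 204))) (PT.nd (nat_lit 78) (PT.lf (nat_lit 39976) (nat_lit 6) (nat_lit 526) (nat_lit 5) (nat_lit 175) (nat_lit 192) (nat_lit 203)) (PT.lf (nat_lit 41116) (nat_lit 6) (nat_lit 541) (nat_lit 5) (nat_lit 176) (nat_lit 192) (nat_lit 202))))))) (PT.nd (nat_lit 1092) (PT.nd (nat_lit 546) (PT.nd (nat_lit 234) (PT.nd (nat_lit 78) (PT.lf (nat_lit 42180) (nat_lit 6) (nat_lit 555) (nat_lit 5) (nat_lit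 177) (nat_lit 192) (nat_lit 201)) (PT.nd (nat_lit 78) (PT.lf (nat_lit 43168) (nat_lit 6) (nat_lit 568) (nat_lit 5) (nat_lit 178) (nat_lit 192) (nat_lit 200)) (PT.lf (nat_lit 44080) (nat_lit 6) (nat_lit 580) (nat_lit 5) (nat_lit 179) (nat_lit 192) (nat_lit 199)))) (PT.nd (nat_lit 156) (PT.nd (nat_lit 78) (PT.lf (nat_lit 44916) (nat_lit 6) (nat_lit 591) (nat_lit 5) (nat_lit 180) (nat_lit 192) (nat_lit 198)) (PT.lf (nat_lit 45676) (nat_lit 6) (nat_lit 601) (nat_lit 5) (nat_lit 181) (nat_lit 192) (nat_lit 197))) (PT.nd (nat_lit 78) (PT.lf (nat_lit 46360) (nat_lit 6) (nat_lit 610) (nat_lit 5) (nat_lit 182) (nat_lit 192) (nat_lit 196)) (PT.lf (nat_lit 46968) (nat_lit 6) (nat_lit 618) (nat_lit 5) (nat_lit 183) (nat_lit 192) (nat_lit 195))))) (PT.nd (nat_lit 234) (PT.nd (nat_lit 78) (PT.lf (nat_lit 47500) (nat_lit 6) (nat_lit 625) (nat_lit 5) (nat_lit 184) (nat_lit 192) (nat_lit 194)) (PT.nd (nat_lit 78) (PT.lf (nat_lit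 47956) (nat_lit 6) (nat_lit 631) (nat_lit 5) (nat_lit 185) (nat_lit 192) (nat_lit 193)) (PT.lf (nat_lit 48336) (nat_lit 3) (nat_lit 636) (nat_lit 4) (nat_lit 186) (nat_lit 192) (nat_lit 192)))) (PT.nd (nat_lit 156) (PT.nd (nat_lit 78) (PT.lf (nat_lit 48564) (nat_lit 6) (nat_lit 639) (nat_lit 4) (nat_lit 187) (nat_lit 192) (nat_lit 191)) (PT.lf (nat_lit 48716) (nat_lit 6) (nat_lit 641) (nat_lit 4) (nat_lit 188) (nat_lit 192) (nat_lit 190))) (PT.nd (nat_lit 78) (PT.lf (nat_lit 48640) (nat_lit 3) (nat_lit 640) (nat_lit 2) (nat_lit 189) (nat_lit 192) (nat_lit 189)) (PT.lf (nat_lit 48716) (nat_lit 6) (nat_lit 641) (nat_lit 2) (nat_lit 190) (nat_lit 192) (nat_lit 188)))))) (PT.nd (nat_lit 546) (PT.nd (nat_lit 234) (PT.nd (nat_lit 78) (PT.lf (nat_lit 48564) (nat_lit 6) (nat_lit 639) (nat_lit 2) (nat_lit 191) (nat_lit 192) (nat_lit 187)) (PT.nd (nat_lit 78) (PT.lf (nat_lit 48336) (nat_lit 3) (nat_lit 636) (nat_lit 0)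 (nat_lit 192) (nat_lit 192) (nat_lit 186)) (PT.lf (nat_lit 47956) (nat_lit 6) (nat_lit 631) (nat_lit 0) (nat_lit 193) (nat_lit 192) (nat_lit 185)))) (PT.nd (nat_lit 156) (PT.nd (nat_lit 78) (PT.lf (nat_lit 47500) (nat_lit 6) (nat_lit 625) (nat_lit 0) (nat_lit 194) (nat_lit 192) (nat_lit 184)) (PT.lf (nat_lit 46968) (nat_lit 6) (nat_lit 618) (nat_lit 0) (nat_lit 195) (nat_lit 192) (nat_lit 183))) (PT.nd (nat_lit 78) (PT.lf (nat_lit 46360) (nat_lit 6) (nat_lit 610) (nat_lit 0) (nat_lit 196) (nat_lit 192) (nat_lit 182)) (PT.lf (nat_lit 45676) (nat_lit 6) (nat_lit 601) (nat_lit 0) (nat_lit 197) (nat_lit 192) (nat_lit 181))))) (PT.nd (nat_lit 312) (PT.nd (nat_lit 156) (PT.nd (nat_lit 78) (PT.lf (nat_lit 44916) (nat_lit 6) (nat_lit 591) (nat_lit 0) (nat_lit 198) (nat_lit 192) (nat_lit 180)) (PT.lf (nat_lit 44080) (nat_lit 6) (nat_lit 580) (nat_lit 0) (nat_lit 199) (nat_lit 192) (nat_lit 179))) (PT.nd (nat_lit 78) (PT.lf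 (nat_lit 43168) (nat_lit 6) (nat_lit 568) (nat_lit 0) (nat_lit 200) (nat_lit 192) (nat_lit 178)) (PT.lf (nat_lit 42180) (nat_lit 6) (nat_lit 555) (nat_lit 0) (nat_lit 201) (nat_lit 192) (nat_lit 177)))) (PT.nd (nat_lit 156) (PT.nd (nat_lit 78) (PT.lf (nat_lit 41116) (nat_lit 6) (nat_lit 541) (nat_lit 0) (nat_lit 202) (nat_lit 192) (nat_lit 176)) (PT.lf (nat_lit 39976) (nat_lit 6) (nat_lit 526) (nat_lit 0) (nat_lit 203) (nat_lit 192) (nat_lit 175))) (PT.nd (nat_lit 78) (PT.lf (nat_lit 38760) (nat_lit 6) (nat_lit 510) (nat_lit 0) (nat_lit 204) (nat_lit 192) (nat_lit 174)) (PT.lf (nat_lit 37468) (nat_lit 6) (nat_lit 493) (nat_lit 0) (nat_lit 205) (nat_lit 192) (nat_lit 173))))))))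
noncomputable def pc28 : PT := (PT.nd (nat_lit 57486) (PT.nd (nat_lit 56394) (PT.nd (nat_lit 546) (PT.nd (nat_lit 234) (PT.nd (nat_lit 78) (PT.lf (nat_lit 36100) (nat_lit 6) (nat_lit 475) (nat_lit 0) (nat_lit 206) (nat_lit 192) (nat_lit 172)) (PT.nd (nat_lit 78) (PT.lf (nat_lit 34656) (nat_lit 6) (nat_lit 456) (nat_lit 0) (nat_lit 207) (nat_lit 192) (nat_lit 171)) (PT.lf (nat_lit 33136) (nat_lit 6) (nat_lit 436) (nat_lit 0) (nat_lit 208) (nat_lit 192) (nat_lit 170)))) (PT.nd (nat_lit 156) (PT.nd (nat_lit 78) (PT.lf (nat_lit 31540) (nat_lit 6) (nat_lit 415) (nat_lit 0) (nat_lit 209) (nat_lit 192) (nat_lit 169)) (PT.lf (nat_lit 29868) (nat_lit 6) (nat_lit 393) (nat_lit 0) (nat_lit 210) (nat_lit 192) (nat_lit 168))) (PT.nd (nat_lit 78) (PT.lf (nat_lit 28120) (nat_lit 6) (nat_lit 370) (nat_lit 0) (nat_lit 211) (nat_lit 192) (nat_lit 167)) (PT.lf (nat_lit 26752) (nat_lit 6) (nat_lit 352) (nat_lit 0) (nat_lit 212)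 (nat_lit 192) (nat_lit 166))))) (PT.nd (nat_lit 55536) (PT.nd (nat_lit 78) (PT.lf (nat_lit 25840) (nat_lit 6) (nat_lit 340) (nat_lit 0) (nat_lit 213) (nat_lit 192) (nat_lit 165)) (PT.nd (nat_lit 55380) (PT.lf (nat_lit 24928) (nat_lit 6) (nat_lit 328) (nat_lit 0) (nat_lit 214) (nat_lit 192) (nat_lit 164)) (PT.lf (nat_lit 24092) (nat_lit 6) (nat_lit 317) (nat_lit 5) (nat_lit 163) (nat_lit 193) (nat_lit 214)))) (PT.nd (nat_lit 156) (PT.nd (nat_lit 78) (PT.lf (nat_lit 25004) (nat_lit 6) (nat_lit 329) (nat_lit 5) (nat_lit 164) (nat_lit 193) (nat_lit 213)) (PT.lf (nat_lit 25916) (nat_lit 6) (nat_lit 341) (nat_lit 5) (nat_lit 165) (nat_lit 193) (nat_lit 212))) (PT.nd (nat_lit 78) (PT.lf (nat_lit 26828) (nat_lit 6) (nat_lit 353) (nat_lit 5) (nat_lit 166) (nat_lit 193) (nat_lit 211)) (PT.lf (nat_lit 28196) (nat_lit 6) (nat_lit 371) (nat_lit 5) (nat_lit 167) (nat_lit 193) (nat_lit 210)))))) (PT.nd (nat_lit 546) (PT.nd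 (nat_lit 234) (PT.nd (nat_lit 78) (PT.lf (nat_lit 29944) (nat_lit 6) (nat_lit 394) (nat_lit 5) (nat_lit 168) (nat_lit 193) (nat_lit 209)) (PT.nd (nat_lit 78) (PT.lf (nat_lit 31616) (nat_lit 6) (nat_lit 416) (nat_lit 5) (nat_lit 169) (nat_lit 193) (nat_lit 208)) (PT.lf (nat_lit 33212) (nat_lit 6) (nat_lit 437) (nat_lit 5) (nat_lit 170) (nat_lit 193) (nat_lit 207)))) (PT.nd (nat_lit 156) (PT.nd (nat_lit 78) (PT.lf (nat_lit 34732) (nat_lit 6) (nat_lit 457) (nat_lit 5) (nat_lit 171) (nat_lit 193) (nat_lit 206)) (PT.lf (nat_lit 36176) (nat_lit 6) (nat_lit 476) (nat_lit 5) (nat_lit 172) (nat_lit 193) (nat_lit 205))) (PT.nd (nat_lit 78) (PT.lf (nat_lit 37544) (nat_lit 6) (nat_lit 494) (nat_lit 5) (nat_lit 173) (nat_lit 193) (nat_lit 204)) (PT.lf (nat_lit 38836) (nat_lit 6) (nat_lit 511) (nat_lit 5) (nat_lit 174) (nat_lit 193) (nat_lit 203))))) (PT.nd (nat_lit 234) (PT.nd (nat_lit 78) (PT.lf (nat_lit 40052) (nat_lit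 6) (nat_lit 527) (nat_lit 5) (nat_lit 175) (nat_lit 193) (nat_lit 202)) (PT.nd (nat_lit 78) (PT.lf (nat_lit 41192) (nat_lit 6) (nat_lit 542) (nat_lit 5) (nat_lit 176) (nat_lit 193) (nat_lit 201)) (PT.lf (nat_lit 42256) (nat_lit 6) (nat_lit 556) (nat_lit 5) (nat_lit 177) (nat_lit 193) (nat_lit 200)))) (PT.nd (nat_lit 156) (PT.nd (nat_lit 78) (PT.lf (nat_lit 43244) (nat_lit 6) (nat_lit 569) (nat_lit 5) (nat_lit 178) (nat_lit 193) (nat_lit 199)) (PT.lf (nat_lit 44156) (nat_lit 6) (nat_lit 581) (nat_lit 5) (nat_lit 179) (nat_lit 193) (nat_lit 198))) (PT.nd (nat_lit 78) (PT.lf (nat_lit 44992) (nat_lit 6) (nat_lit 592) (nat_lit 5) (nat_lit 180) (nat_lit 193) (nat_lit 197)) (PT.lf (nat_lit 45752) (nat_lit 6) (nat_lit 602) (nat_lit 5) (nat_lit 181) (nat_lit 193) (nat_lit 196))))))) (PT.nd (nat_lit 1092) (PT.nd (nat_lit 546) (PT.nd (nat_lit 234) (PT.nd (nat_lit 78) (PT.lf (nat_lit 46436) (nat_lit 6) (nat_lit 611) (nat_lit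 5) (nat_lit 182) (nat_lit 193) (nat_lit 195)) (PT.nd (nat_lit 78) (PT.lf (nat_lit 47044) (nat_lit 6) (nat_lit 619) (nat_lit 5) (nat_lit 183) (nat_lit 193) (nat_lit 194)) (PT.lf (nat_lit 47576) (nat_lit 3) (nat_lit 626) (nat_lit 4) (nat_lit 184) (nat_lit 193) (nat_lit 193)))) (PT.nd (nat_lit 156) (PT.nd (nat_lit 78) (PT.lf (nat_lit 47956) (nat_lit 6) (nat_lit 631) (nat_lit 4) (nat_lit 185) (nat_lit 193) (nat_lit 192)) (PT.lf (nat_lit 48260) (nat_lit 6) (nat_lit 635) (nat_lit 4) (nat_lit 186) (nat_lit 193) (nat_lit 191))) (PT.nd (nat_lit 78) (PT.lf (nat_lit 48488) (nat_lit 6) (nat_lit 638) (nat_lit 4) (nat_lit 187) (nat_lit 193) (nat_lit 190)) (PT.lf (nat_lit 48412) (nat_lit 6) (nat_lit 637) (nat_lit 4) (nat_lit 188) (nat_lit 193) (nat_lit 189))))) (PT.nd (nat_lit 234) (PT.nd (nat_lit 78) (PT.lf (nat_lit 48412) (nat_lit 6) (nat_lit 637) (nat_lit 2) (nat_lit 189) (nat_lit 193) (nat_lit 188)) (PT.nd (nat_lit 78)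 (PT.lf (nat_lit 48488) (nat_lit 6) (nat_lit 638) (nat_lit 2) (nat_lit 190) (nat_lit 193) (nat_lit 187)) (PT.lf (nat_lit 48260) (nat_lit 6) (nat_lit 635) (nat_lit 2) (nat_lit 191) (nat_lit 193) (nat_lit 186)))) (PT.nd (nat_lit 156) (PT.nd (nat_lit 78) (PT.lf (nat_lit 47956) (nat_lit 6) (nat_lit 631) (nat_lit 2) (nat_lit 192) (nat_lit 193) (nat_lit 185)) (PT.lf (nat_lit 47576) (nat_lit 3) (nat_lit 626) (nat_lit 0) (nat_lit 193) (nat_lit 193) (nat_lit 184))) (PT.nd (nat_lit 78) (PT.lf (nat_lit 47044) (nat_lit 6) (nat_lit 619) (nat_lit 0) (nat_lit 194) (nat_lit 193) (nat_lit 183)) (PT.lf (nat_lit 46436) (nat_lit 6) (nat_lit 611) (nat_lit 0) (nat_lit 195) (nat_lit 193) (nat_lit 182)))))) (PT.nd (nat_lit 546) (PT.nd (nat_lit 234) (PT.nd (nat_lit 78) (PT.lf (nat_lit 45752) (nat_lit 6) (nat_lit 602) (nat_lit 0) (nat_lit 196) (nat_lit 193) (nat_lit 181)) (PT.nd (nat_lit 78) (PT.lf (nat_lit 44992) (nat_lit 6) (nat_lit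 592) (nat_lit 0) (nat_lit 197) (nat_lit 193) (nat_lit 180)) (PT.lf (nat_lit 44156) (nat_lit 6) (nat_lit 581) (nat_lit 0) (nat_lit 198) (nat_lit 193) (nat_lit 179)))) (PT.nd (nat_lit 156) (PT.nd (nat_lit 78) (PT.lf (nat_lit 43244) (nat_lit 6) (nat_lit 569) (nat_lit 0) (nat_lit 199) (nat_lit 193) (nat_lit 178)) (PT.lf (nat_lit 42256) (nat_lit 6) (nat_lit 556) (nat_lit 0) (nat_lit 200) (nat_lit 193) (nat_lit 177))) (PT.nd (nat_lit 78) (PT.lf (nat_lit 41192) (nat_lit 6) (nat_lit 542) (nat_lit 0) (nat_lit 201) (nat_lit 193) (nat_lit 176)) (PT.lf (nat_lit 40052) (nat_lit 6) (nat_lit 527) (nat_lit 0) (nat_lit 202) (nat_lit 193) (nat_lit 175))))) (PT.nd (nat_lit 312) (PT.nd (nat_lit 156) (PT.nd (nat_lit 78) (PT.lf (nat_lit 38836) (nat_lit 6) (nat_lit 511) (nat_lit 0) (nat_lit 203) (nat_lit 193) (nat_lit 174)) (PT.lf (nat_lit 37544) (nat_lit 6) (nat_lit 494) (nat_lit 0) (nat_lit 204) (nat_lit 193) (nat_lit 173))) (PT.nd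 (nat_lit 78) (PT.lf (nat_lit 36176) (nat_lit 6) (nat_lit 476) (nat_lit 0) (nat_lit 205) (nat_lit 193) (nat_lit 172)) (PT.lf (nat_lit 34732) (nat_lit 6) (nat_lit 457) (nat_lit 0) (nat_lit 206) (nat_lit 193) (nat_lit 171)))) (PT.nd (nat_lit 156) (PT.nd (nat_lit 78) (PT.lf (nat_lit 33212) (nat_lit 6) (nat_lit 437) (nat_lit 0) (nat_lit 207) (nat_lit 193) (nat_lit 170)) (PT.lf (nat_lit 31616) (nat_lit 6) (nat_lit 416) (nat_lit 0) (nat_lit 208) (nat_lit 193) (nat_lit 169))) (PT.nd (nat_lit 78) (PT.lf (nat_lit 29944) (nat_lit 6) (nat_lit 394) (nat_lit 0) (nat_lit 209) (nat_lit 193) (nat_lit 168)) (PT.lf (nat_lit 28196) (nat_lit 6) (nat_lit 371) (nat_lit 0) (nat_lit 210) (nat_lit 193) (nat_lit 167))))))))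
noncomputable def pc29 : PT := (PT.nd (nat_lit 57408) (PT.nd (nat_lit 56316) (PT.nd (nat_lit 55770) (PT.nd (nat_lit 234) (PT.nd (nat_lit 78) (PT.lf (nat_lit 26828) (nat_lit 6) (nat_lit 353) (nat_lit 0) (nat_lit 211) (nat_lit 193) (nat_lit 166)) (PT.nd (nat_lit 78) (PT.lf (nat_lit 25916) (nat_lit 6) (nat_lit 341) (nat_lit 0) (nat_lit 212) (nat_lit 193) (nat_lit 165)) (PT.lf (nat_lit 25004) (nat_lit 6) (nat_lit 329) (nat_lit 0) (nat_lit 213) (nat_lit 193) (nat_lit 164)))) (PT.nd (nat_lit 55380) (PT.nd (nat_lit 55302) (PT.lf (nat_lit 24092) (nat_lit 6) (nat_lit 317) (nat_lit 0) (nat_lit 214) (nat_lit 193) (nat_lit 163)) (PT.lf (nat_lit 23256) (nat_lit 6) (nat_lit 306) (nat_lit 5) (nat_lit 162) (nat_lit 194) (nat_lit 214))) (PT.nd (nat_lit 78) (PT.lf (nat_lit 24168) (nat_lit 6) (nat_lit 318) (nat_lit 5) (nat_lit 163) (nat_lit 194) (nat_lit 213)) (PT.lf (nat_lit 25080) (nat_lit 6) (nat_lit 330) (nat_lit 5) (nat_lit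 164) (nat_lit 194) (nat_lit 212))))) (PT.nd (nat_lit 234) (PT.nd (nat_lit 78) (PT.lf (nat_lit 25992) (nat_lit 6) (nat_lit 342) (nat_lit 5) (nat_lit 165) (nat_lit 194) (nat_lit 211)) (PT.nd (nat_lit 78) (PT.lf (nat_lit 26904) (nat_lit 6) (nat_lit 354) (nat_lit 5) (nat_lit 166) (nat_lit 194) (nat_lit 210)) (PT.lf (nat_lit 28272) (nat_lit 6) (nat_lit 372) (nat_lit 5) (nat_lit 167) (nat_lit 194) (nat_lit 209)))) (PT.nd (nat_lit 156) (PT.nd (nat_lit 78) (PT.lf (nat_lit 30020) (nat_lit 6) (nat_lit 395) (nat_lit 5) (nat_lit 168) (nat_lit 194) (nat_lit 208)) (PT.lf (nat_lit 31692) (nat_lit 6) (nat_lit 417) (nat_lit 5) (nat_lit 169) (nat_lit 194) (nat_lit 207))) (PT.nd (nat_lit 78) (PT.lf (nat_lit 33288) (nat_lit 6) (nat_lit 438) (nat_lit 5) (nat_lit 170) (nat_lit 194) (nat_lit 206)) (PT.lf (nat_lit 34808) (nat_lit 6) (nat_lit 458) (nat_lit 5) (nat_lit 171) (nat_lit 194) (nat_lit 205)))))) (PT.nd (nat_lit 546) (PT.nd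 (nat_lit 234) (PT.nd (nat_lit 78) (PT.lf (nat_lit 36252) (nat_lit 6) (nat_lit 477) (nat_lit 5) (nat_lit 172) (nat_lit 194) (nat_lit 204)) (PT.nd (nat_lit 78) (PT.lf (nat_lit 37620) (nat_lit 6) (nat_lit 495) (nat_lit 5) (nat_lit 173) (nat_lit 194) (nat_lit 203)) (PT.lf (nat_lit 38912) (nat_lit 6) (nat_lit 512) (nat_lit 5) (nat_lit 174) (nat_lit 194) (nat_lit 202)))) (PT.nd (nat_lit 156) (PT.nd (nat_lit 78) (PT.lf (nat_lit 40128) (nat_lit 6) (nat_lit 528) (nat_lit 5) (nat_lit 175) (nat_lit 194) (nat_lit 201)) (PT.lf (nat_lit 41268) (nat_lit 6) (nat_lit 543) (nat_lit 5) (nat_lit 176) (nat_lit 194) (nat_lit 200))) (PT.nd (nat_lit 78) (PT.lf (nat_lit 42332) (nat_lit 6) (nat_lit 557) (nat_lit 5) (nat_lit 177) (nat_lit 194) (nat_lit 199)) (PT.lf (nat_lit 43320) (nat_lit 6) (nat_lit 570) (nat_lit 5) (nat_lit 178) (nat_lit 194) (nat_lit 198))))) (PT.nd (nat_lit 234) (PT.nd (nat_lit 78) (PT.lf (nat_lit 44232) (nat_lit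 6) (nat_lit 582) (nat_lit 5) (nat_lit 179) (nat_lit 194) (nat_lit 197)) (PT.nd (nat_lit 78) (PT.lf (nat_lit 45068) (nat_lit 6) (nat_lit 593) (nat_lit 5) (nat_lit 180) (nat_lit 194) (nat_lit 196)) (PT.lf (nat_lit 45828) (nat_lit 6) (nat_lit 603) (nat_lit 5) (nat_lit 181) (nat_lit 194) (nat_lit 195)))) (PT.nd (nat_lit 156) (PT.nd (nat_lit 78) (PT.lf (nat_lit 46512) (nat_lit 3) (nat_lit 612) (nat_lit 4) (nat_lit 182) (nat_lit 194) (nat_lit 194)) (PT.lf (nat_lit 47044) (nat_lit 6) (nat_lit 619) (nat_lit 4) (nat_lit 183) (nat_lit 194) (nat_lit 193))) (PT.nd (nat_lit 78) (PT.lf (nat_lit 47500) (nat_lit 6) (nat_lit 625) (nat_lit 4) (nat_lit 184) (nat_lit 194) (nat_lit 192)) (PT.lf (nat_lit 47880) (nat_lit 6) (nat_lit 630) (nat_lit 4) (nat_lit 185) (nat_lit 194) (nat_lit 191))))))) (PT.nd (nat_lit 1092) (PT.nd (nat_lit 546) (PT.nd (nat_lit 234) (PT.nd (nat_lit 78) (PT.lf (nat_lit 48184) (nat_lit 6) (nat_lit 634) (nat_lit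 4) (nat_lit 186) (nat_lit 194) (nat_lit 190)) (PT.nd (nat_lit 78) (PT.lf (nat_lit 48108) (nat_lit 6) (nat_lit 633) (nat_lit 4) (nat_lit 187) (nat_lit 194) (nat_lit 189)) (PT.lf (nat_lit 48032) (nat_lit 3) (nat_lit 632) (nat_lit 2) (nat_lit 188) (nat_lit 194) (nat_lit 188)))) (PT.nd (nat_lit 156) (PT.nd (nat_lit 78) (PT.lf (nat_lit 48108) (nat_lit 6) (nat_lit 633) (nat_lit 2) (nat_lit 189) (nat_lit 194) (nat_lit 187)) (PT.lf (nat_lit 48184) (nat_lit 6) (nat_lit 634) (nat_lit 2) (nat_lit 190) (nat_lit 194) (nat_lit 186))) (PT.nd (nat_lit 78) (PT.lf (nat_lit 47880) (nat_lit 6) (nat_lit 630) (nat_lit 2) (nat_lit 191) (nat_lit 194) (nat_lit 185)) (PT.lf (nat_lit 47500) (nat_lit 6) (nat_lit 625) (nat_lit 2) (nat_lit 192) (nat_lit 194) (nat_lit 184))))) (PT.nd (nat_lit 234) (PT.nd (nat_lit 78) (PT.lf (nat_lit 47044) (nat_lit 6) (nat_lit 619) (nat_lit 2) (nat_lit 193) (nat_lit 194) (nat_lit 183)) (PT.nd (nat_lit 78)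 (PT.lf (nat_lit 46512) (nat_lit 3) (nat_lit 612) (nat_lit 0) (nat_lit 194) (nat_lit 194) (nat_lit 182)) (PT.lf (nat_lit 45828) (nat_lit 6) (nat_lit 603) (nat_lit 0) (nat_lit 195) (nat_lit 194) (nat_lit 181)))) (PT.nd (nat_lit 156) (PT.nd (nat_lit 78) (PT.lf (nat_lit 45068) (nat_lit 6) (nat_lit 593) (nat_lit 0) (nat_lit 196) (nat_lit 194) (nat_lit 180)) (PT.lf (nat_lit 44232) (nat_lit 6) (nat_lit 582) (nat_lit 0) (nat_lit 197) (nat_lit 194) (nat_lit 179))) (PT.nd (nat_lit 78) (PT.lf (nat_lit 43320) (nat_lit 6) (nat_lit 570) (nat_lit 0) (nat_lit 198) (nat_lit 194) (nat_lit 178)) (PT.lf (nat_lit 42332) (nat_lit 6) (nat_lit 557) (nat_lit 0) (nat_lit 199) (nat_lit 194) (nat_lit 177)))))) (PT.nd (nat_lit 546) (PT.nd (nat_lit 234) (PT.nd (nat_lit 78) (PT.lf (nat_lit 41268) (nat_lit 6) (nat_lit 543) (nat_lit 0) (nat_lit 200) (nat_lit 194) (nat_lit 176)) (PT.nd (nat_lit 78) (PT.lf (nat_lit 40128) (nat_lit 6) (nat_lit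 528) (nat_lit 0) (nat_lit 201) (nat_lit 194) (nat_lit 175)) (PT.lf (nat_lit 38912) (nat_lit 6) (nat_lit 512) (nat_lit 0) (nat_lit 202) (nat_lit 194) (nat_lit 174)))) (PT.nd (nat_lit 156) (PT.nd (nat_lit 78) (PT.lf (nat_lit 37620) (nat_lit 6) (nat_lit 495) (nat_lit 0) (nat_lit 203) (nat_lit 194) (nat_lit 173)) (PT.lf (nat_lit 36252) (nat_lit 6) (nat_lit 477) (nat_lit 0) (nat_lit 204) (nat_lit 194) (nat_lit 172))) (PT.nd (nat_lit 78) (PT.lf (nat_lit 34808) (nat_lit 6) (nat_lit 458) (nat_lit 0) (nat_lit 205) (nat_lit 194) (nat_lit 171)) (PT.lf (nat_lit 33288) (nat_lit 6) (nat_lit 438) (nat_lit 0) (nat_lit 206) (nat_lit 194) (nat_lit 170))))) (PT.nd (nat_lit 312) (PT.nd (nat_lit 156) (PT.nd (nat_lit 78) (PT.lf (nat_lit 31692) (nat_lit 6) (nat_lit 417) (nat_lit 0) (nat_lit 207) (nat_lit 194) (nat_lit 169)) (PT.lf (nat_lit 30020) (nat_lit 6) (nat_lit 395) (nat_lit 0) (nat_lit 208) (nat_lit 194) (nat_lit 168))) (PT.nd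 (nat_lit 78) (PT.lf (nat_lit 28272) (nat_lit 6) (nat_lit 372) (nat_lit 0) (nat_lit 209) (nat_lit 194) (nat_lit 167)) (PT.lf (nat_lit 26904) (nat_lit 6) (nat_lit 354) (nat_lit 0) (nat_lit 210) (nat_lit 194) (nat_lit 166)))) (PT.nd (nat_lit 156) (PT.nd (nat_lit 78) (PT.lf (nat_lit 25992) (nat_lit 6) (nat_lit 342) (nat_lit 0) (nat_lit 211) (nat_lit 194) (nat_lit 165)) (PT.lf (nat_lit 25080) (nat_lit 6) (nat_lit 330) (nat_lit 0) (nat_lit 212) (nat_lit 194) (nat_lit 164))) (PT.nd (nat_lit 78) (PT.lf (nat_lit 24168) (nat_lit 6) (nat_lit 318) (nat_lit 0) (nat_lit 213) (nat_lit 194) (nat_lit 163)) (PT.lf (nat_lit 23256) (nat_lit 6) (nat_lit 306) (nat_lit 0) (nat_lit 214) (nat_lit 194) (nat_lit 162))))))))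
noncomputable def pc30 : PT := (PT.nd (nat_lit 2184) (PT.nd (nat_lit 1092) (PT.nd (nat_lit 546) (PT.nd (nat_lit 234) (PT.nd (nat_lit 78) (PT.lf (nat_lit 22496) (nat_lit 6) (nat_lit 296) (nat_lit 5) (nat_lit 161) (nat_lit 195) (nat_lit 214)) (PT.nd (nat_lit 78) (PT.lf (nat_lit 23332) (nat_lit 6) (nat_lit 307) (nat_lit 5) (nat_lit 162) (nat_lit 195) (nat_lit 213)) (PT.lf (nat_lit 24244) (nat_lit 6) (nat_lit 319) (nat_lit 5) (nat_lit 163) (nat_lit 195) (nat_lit 212)))) (PT.nd (nat_lit 156) (PT.nd (nat_lit 78) (PT.lf (nat_lit 25156) (nat_lit 6) (nat_lit 331) (nat_lit 5) (nat_lit 164) (nat_lit 195) (nat_lit 211)) (PT.lf (nat_lit 26068) (nat_lit 6) (nat_lit 343) (nat_lit 5) (nat_lit 165) (nat_lit 195) (nat_lit 210))) (PT.nd (nat_lit 78) (PT.lf (nat_lit 26980) (nat_lit 6) (nat_lit 355) (nat_lit 5) (nat_lit 166) (nat_lit 195) (nat_lit 209)) (PT.lf (nat_lit 28348) (nat_lit 6) (nat_lit 373) (nat_lit 5) (nat_lit 167) (nat_lit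 195) (nat_lit 208))))) (PT.nd (nat_lit 234) (PT.nd (nat_lit 78) (PT.lf (nat_lit 30096) (nat_lit 6) (nat_lit 396) (nat_lit 5) (nat_lit 168) (nat_lit 195) (nat_lit 207)) (PT.nd (nat_lit 78) (PT.lf (nat_lit 31768) (nat_lit 6) (nat_lit 418) (nat_lit 5) (nat_lit 169) (nat_lit 195) (nat_lit 206)) (PT.lf (nat_lit 33364) (nat_lit 6) (nat_lit 439) (nat_lit 5) (nat_lit 170) (nat_lit 195) (nat_lit 205)))) (PT.nd (nat_lit 156) (PT.nd (nat_lit 78) (PT.lf (nat_lit 34884) (nat_lit 6) (nat_lit 459) (nat_lit 5) (nat_lit 171) (nat_lit 195) (nat_lit 204)) (PT.lf (nat_lit 36328) (nat_lit 6) (nat_lit 478) (nat_lit 5) (nat_lit 172) (nat_lit 195) (nat_lit 203))) (PT.nd (nat_lit 78) (PT.lf (nat_lit 37696) (nat_lit 6) (nat_lit 496) (nat_lit 5) (nat_lit 173) (nat_lit 195) (nat_lit 202)) (PT.lf (nat_lit 38988) (nat_lit 6) (nat_lit 513) (nat_lit 5) (nat_lit 174) (nat_lit 195) (nat_lit 201)))))) (PT.nd (nat_lit 546) (PT.nd (nat_lit 234)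 (PT.nd (nat_lit 78) (PT.lf (nat_lit 40204) (nat_lit 6) (nat_lit 529) (nat_lit 5) (nat_lit 175) (nat_lit 195) (nat_lit 200)) (PT.nd (nat_lit 78) (PT.lf (nat_lit 41344) (nat_lit 6) (nat_lit 544) (nat_lit 5) (nat_lit 176) (nat_lit 195) (nat_lit 199)) (PT.lf (nat_lit 42408) (nat_lit 6) (nat_lit 558) (nat_lit 5) (nat_lit 177) (nat_lit 195) (nat_lit 198)))) (PT.nd (nat_lit 156) (PT.nd (nat_lit 78) (PT.lf (nat_lit 43396) (nat_lit 6) (nat_lit 571) (nat_lit 5) (nat_lit 178) (nat_lit 195) (nat_lit 197)) (PT.lf (nat_lit 44308) (nat_lit 6) (nat_lit 583) (nat_lit 5) (nat_lit 179) (nat_lit 195) (nat_lit 196))) (PT.nd (nat_lit 78) (PT.lf (nat_lit 45144) (nat_lit 3) (nat_lit 594) (nat_lit 4) (nat_lit 180) (nat_lit 195) (nat_lit 195)) (PT.lf (nat_lit 45828) (nat_lit 6) (nat_lit 603) (nat_lit 4) (nat_lit 181) (nat_lit 195) (nat_lit 194))))) (PT.nd (nat_lit 234) (PT.nd (nat_lit 78) (PT.lf (nat_lit 46436) (nat_lit 6) (nat_lit 611)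 (nat_lit 4) (nat_lit 182) (nat_lit 195) (nat_lit 193)) (PT.nd (nat_lit 78) (PT.lf (nat_lit 46968) (nat_lit 6) (nat_lit 618) (nat_lit 4) (nat_lit 183) (nat_lit 195) (nat_lit 192)) (PT.lf (nat_lit 47424) (nat_lit 6) (nat_lit 624) (nat_lit 4) (nat_lit 184) (nat_lit 195) (nat_lit 191)))) (PT.nd (nat_lit 156) (PT.nd (nat_lit 78) (PT.lf (nat_lit 47804) (nat_lit 6) (nat_lit 629) (nat_lit 4) (nat_lit 185) (nat_lit 195) (nat_lit 190)) (PT.lf (nat_lit 47728) (nat_lit 6) (nat_lit 628) (nat_lit 4) (nat_lit 186) (nat_lit 195) (nat_lit 189))) (PT.nd (nat_lit 78) (PT.lf (nat_lit 47652) (nat_lit 6) (nat_lit 627) (nat_lit 4) (nat_lit 187) (nat_lit 195) (nat_lit 188)) (PT.lf (nat_lit 47652) (nat_lit 6) (nat_lit 627) (nat_lit 2) (nat_lit 188) (nat_lit 195) (nat_lit 187))))))) (PT.nd (nat_lit 1092) (PT.nd (nat_lit 546) (PT.nd (nat_lit 234) (PT.nd (nat_lit 78) (PT.lf (nat_lit 47728) (nat_lit 6) (nat_lit 628) (nat_lit 2) (nat_lit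 189) (nat_lit 195) (nat_lit 186)) (PT.nd (nat_lit 78) (PT.lf (nat_lit 47804) (nat_lit 6) (nat_lit 629) (nat_lit 2) (nat_lit 190) (nat_lit 195) (nat_lit 185)) (PT.lf (nat_lit 47424) (nat_lit 6) (nat_lit 624) (nat_lit 2) (nat_lit 191) (nat_lit 195) (nat_lit 184)))) (PT.nd (nat_lit 156) (PT.nd (nat_lit 78) (PT.lf (nat_lit 46968) (nat_lit 6) (nat_lit 618) (nat_lit 2) (nat_lit 192) (nat_lit 195) (nat_lit 183)) (PT.lf (nat_lit 46436) (nat_lit 6) (nat_lit 611) (nat_lit 2) (nat_lit 193) (nat_lit 195) (nat_lit 182))) (PT.nd (nat_lit 78) (PT.lf (nat_lit 45828) (nat_lit 6) (nat_lit 603) (nat_lit 2) (nat_lit 194) (nat_lit 195) (nat_lit 181)) (PT.lf (nat_lit 45144) (nat_lit 3) (nat_lit 594) (nat_lit 0) (nat_lit 195) (nat_lit 195) (nat_lit 180))))) (PT.nd (nat_lit 234) (PT.nd (nat_lit 78) (PT.lf (nat_lit 44308) (nat_lit 6) (nat_lit 583) (nat_lit 0) (nat_lit 196) (nat_lit 195) (nat_lit 179)) (PT.nd (nat_lit 78) (PT.lf (nat_lit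 43396) (nat_lit 6) (nat_lit 571) (nat_lit 0) (nat_lit 197) (nat_lit 195) (nat_lit 178)) (PT.lf (nat_lit 42408) (nat_lit 6) (nat_lit 558) (nat_lit 0) (nat_lit 198) (nat_lit 195) (nat_lit 177)))) (PT.nd (nat_lit 156) (PT.nd (nat_lit 78) (PT.lf (nat_lit 41344) (nat_lit 6) (nat_lit 544) (nat_lit 0) (nat_lit 199) (nat_lit 195) (nat_lit 176)) (PT.lf (nat_lit 40204) (nat_lit 6) (nat_lit 529) (nat_lit 0) (nat_lit 200) (nat_lit 195) (nat_lit 175))) (PT.nd (nat_lit 78) (PT.lf (nat_lit 38988) (nat_lit 6) (nat_lit 513) (nat_lit 0) (nat_lit 201) (nat_lit 195) (nat_lit 174)) (PT.lf (nat_lit 37696) (nat_lit 6) (nat_lit 496) (nat_lit 0) (nat_lit 202) (nat_lit 195) (nat_lit 173)))))) (PT.nd (nat_lit 546) (PT.nd (nat_lit 234) (PT.nd (nat_lit 78) (PT.lf (nat_lit 36328) (nat_lit 6) (nat_lit 478) (nat_lit 0) (nat_lit 203) (nat_lit 195) (nat_lit 172)) (PT.nd (nat_lit 78) (PT.lf (nat_lit 34884) (nat_lit 6) (nat_lit 459) (nat_lit 0)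 (nat_lit 204) (nat_lit 195) (nat_lit 171)) (PT.lf (nat_lit 33364) (nat_lit 6) (nat_lit 439) (nat_lit 0) (nat_lit 205) (nat_lit 195) (nat_lit 170)))) (PT.nd (nat_lit 156) (PT.nd (nat_lit 78) (PT.lf (nat_lit 31768) (nat_lit 6) (nat_lit 418) (nat_lit 0) (nat_lit 206) (nat_lit 195) (nat_lit 169)) (PT.lf (nat_lit 30096) (nat_lit 6) (nat_lit 396) (nat_lit 0) (nat_lit 207) (nat_lit 195) (nat_lit 168))) (PT.nd (nat_lit 78) (PT.lf (nat_lit 28348) (nat_lit 6) (nat_lit 373) (nat_lit 0) (nat_lit 208) (nat_lit 195) (nat_lit 167)) (PT.lf (nat_lit 26980) (nat_lit 6) (nat_lit 355) (nat_lit 0) (nat_lit 209) (nat_lit 195) (nat_lit 166))))) (PT.nd (nat_lit 312) (PT.nd (nat_lit 156) (PT.nd (nat_lit 78) (PT.lf (nat_lit 26068) (nat_lit 6) (nat_lit 343) (nat_lit 0) (nat_lit 210) (nat_lit 195) (nat_lit 165)) (PT.lf (nat_lit 25156) (nat_lit 6) (nat_lit 331) (nat_lit 0) (nat_lit 211) (nat_lit 195) (nat_lit 164))) (PT.nd (nat_lit 78) (PT.lf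 (nat_lit 24244) (nat_lit 6) (nat_lit 319) (nat_lit 0) (nat_lit 212) (nat_lit 195) (nat_lit 163)) (PT.lf (nat_lit 23332) (nat_lit 6) (nat_lit 307) (nat_lit 0) (nat_lit 213) (nat_lit 195) (nat_lit 162)))) (PT.nd (nat_lit 55224) (PT.nd (nat_lit 55146) (PT.lf (nat_lit 22496) (nat_lit 6) (nat_lit 296) (nat_lit 0) (nat_lit 214) (nat_lit 195) (nat_lit 161)) (PT.lf (nat_lit 21736) (nat_lit 6) (nat_lit 286) (nat_lit 5) (nat_lit 160) (nat_lit 196) (nat_lit 214))) (PT.nd (nat_lit 78) (PT.lf (nat_lit 22572) (nat_lit 6) (nat_lit 297) (nat_lit 5) (nat_lit 161) (nat_lit 196) (nat_lit 213)) (PT.lf (nat_lit 23408) (nat_lit 6) (nat_lit 308) (nat_lit 5) (nat_lit 162) (nat_lit 196) (nat_lit 212))))))))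
noncomputable def pc31 : PT := (PT.nd (nat_lit 2184) (PT.nd (nat_lit 1092) (PT.nd (nat_lit 546) (PT.nd (nat_lit 234) (PT.nd (nat_lit 78) (PT.lf (nat_lit 24320) (nat_lit 6) (nat_lit 320) (nat_lit 5) (nat_lit 163) (nat_lit 196) (nat_lit 211)) (PT.nd (nat_lit 78) (PT.lf (nat_lit 25232) (nat_lit 6) (nat_lit 332) (nat_lit 5) (nat_lit 164) (nat_lit 196) (nat_lit 210)) (PT.lf (nat_lit 26144) (nat_lit 6) (nat_lit 344) (nat_lit 5) (nat_lit 165) (nat_lit 196) (nat_lit 209)))) (PT.nd (nat_lit 156) (PT.nd (nat_lit 78) (PT.lf (nat_lit 27056) (nat_lit 6) (nat_lit 356) (nat_lit 5) (nat_lit 166) (nat_lit 196) (nat_lit 208)) (PT.lf (nat_lit 28424) (nat_lit 6) (nat_lit 374) (nat_lit 5) (nat_lit 167) (nat_lit 196) (nat_lit 207))) (PT.nd (nat_lit 78) (PT.lf (nat_lit 30172) (nat_lit 6) (nat_lit 397) (nat_lit 5) (nat_lit 168) (nat_lit 196) (nat_lit 206)) (PT.lf (nat_lit 31844) (nat_lit 6) (nat_lit 419) (nat_lit 5) (nat_lit 169) (nat_lit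 196) (nat_lit 205))))) (PT.nd (nat_lit 234) (PT.nd (nat_lit 78) (PT.lf (nat_lit 33440) (nat_lit 6) (nat_lit 440) (nat_lit 5) (nat_lit 170) (nat_lit 196) (nat_lit 204)) (PT.nd (nat_lit 78) (PT.lf (nat_lit 34960) (nat_lit 6) (nat_lit 460) (nat_lit 5) (nat_lit 171) (nat_lit 196) (nat_lit 203)) (PT.lf (nat_lit 36404) (nat_lit 6) (nat_lit 479) (nat_lit 5) (nat_lit 172) (nat_lit 196) (nat_lit 202)))) (PT.nd (nat_lit 156) (PT.nd (nat_lit 78) (PT.lf (nat_lit 37772) (nat_lit 6) (nat_lit 497) (nat_lit 5) (nat_lit 173) (nat_lit 196) (nat_lit 201)) (PT.lf (nat_lit 39064) (nat_lit 6) (nat_lit 514) (nat_lit 5) (nat_lit 174) (nat_lit 196) (nat_lit 200))) (PT.nd (nat_lit 78) (PT.lf (nat_lit 40280) (nat_lit 6) (nat_lit 530) (nat_lit 5) (nat_lit 175) (nat_lit 196) (nat_lit 199)) (PT.lf (nat_lit 41420) (nat_lit 6) (nat_lit 545) (nat_lit 5) (nat_lit 176) (nat_lit 196) (nat_lit 198)))))) (PT.nd (nat_lit 546) (PT.nd (nat_lit 234)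 (PT.nd (nat_lit 78) (PT.lf (nat_lit 42484) (nat_lit 6) (nat_lit 559) (nat_lit 5) (nat_lit 177) (nat_lit 196) (nat_lit 197)) (PT.nd (nat_lit 78) (PT.lf (nat_lit 43472) (nat_lit 3) (nat_lit 572) (nat_lit 4) (nat_lit 178) (nat_lit 196) (nat_lit 196)) (PT.lf (nat_lit 44308) (nat_lit 6) (nat_lit 583) (nat_lit 4) (nat_lit 179) (nat_lit 196) (nat_lit 195)))) (PT.nd (nat_lit 156) (PT.nd (nat_lit 78) (PT.lf (nat_lit 45068) (nat_lit 6) (nat_lit 593) (nat_lit 4) (nat_lit 180) (nat_lit 196) (nat_lit 194)) (PT.lf (nat_lit 45752) (nat_lit 6) (nat_lit 602) (nat_lit 4) (nat_lit 181) (nat_lit 196) (nat_lit 193))) (PT.nd (nat_lit 78) (PT.lf (nat_lit 46360) (nat_lit 6) (nat_lit 610) (nat_lit 4) (nat_lit 182) (nat_lit 196) (nat_lit 192)) (PT.lf (nat_lit 46892) (nat_lit 6) (nat_lit 617) (nat_lit 4) (nat_lit 183) (nat_lit 196) (nat_lit 191))))) (PT.nd (nat_lit 234) (PT.nd (nat_lit 78) (PT.lf (nat_lit 47348) (nat_lit 6) (nat_lit 623)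 (nat_lit 4) (nat_lit 184) (nat_lit 196) (nat_lit 190)) (PT.nd (nat_lit 78) (PT.lf (nat_lit 47272) (nat_lit 6) (nat_lit 622) (nat_lit 4) (nat_lit 185) (nat_lit 196) (nat_lit 189)) (PT.lf (nat_lit 47196) (nat_lit 6) (nat_lit 621) (nat_lit 4) (nat_lit 186) (nat_lit 196) (nat_lit 188)))) (PT.nd (nat_lit 156) (PT.nd (nat_lit 78) (PT.lf (nat_lit 47120) (nat_lit 3) (nat_lit 620) (nat_lit 2) (nat_lit 187) (nat_lit 196) (nat_lit 187)) (PT.lf (nat_lit 47196) (nat_lit 6) (nat_lit 621) (nat_lit 2) (nat_lit 188) (nat_lit 196) (nat_lit 186))) (PT.nd (nat_lit 78) (PT.lf (nat_lit 47272) (nat_lit 6) (nat_lit 622) (nat_lit 2) (nat_lit 189) (nat_lit 196) (nat_lit 185)) (PT.lf (nat_lit 47348) (nat_lit 6) (nat_lit 623) (nat_lit 2) (nat_lit 190) (nat_lit 196) (nat_lit 184))))))) (PT.nd (nat_lit 1092) (PT.nd (nat_lit 546) (PT.nd (nat_lit 234) (PT.nd (nat_lit 78) (PT.lf (nat_lit 46892) (nat_lit 6) (nat_lit 617) (nat_lit 2) (nat_lit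 191) (nat_lit 196) (nat_lit 183)) (PT.nd (nat_lit 78) (PT.lf (nat_lit 46360) (nat_lit 6) (nat_lit 610) (nat_lit 2) (nat_lit 192) (nat_lit 196) (nat_lit 182)) (PT.lf (nat_lit 45752) (nat_lit 6) (nat_lit 602) (nat_lit 2) (nat_lit 193) (nat_lit 196) (nat_lit 181)))) (PT.nd (nat_lit 156) (PT.nd (nat_lit 78) (PT.lf (nat_lit 45068) (nat_lit 6) (nat_lit 593) (nat_lit 2) (nat_lit 194) (nat_lit 196) (nat_lit 180)) (PT.lf (nat_lit 44308) (nat_lit 6) (nat_lit 583) (nat_lit 2) (nat_lit 195) (nat_lit 196) (nat_lit 179))) (PT.nd (nat_lit 78) (PT.lf (nat_lit 43472) (nat_lit 3) (nat_lit 572) (nat_lit 0) (nat_lit 196) (nat_lit 196) (nat_lit 178)) (PT.lf (nat_lit 42484) (nat_lit 6) (nat_lit 559) (nat_lit 0) (nat_lit 197) (nat_lit 196) (nat_lit 177))))) (PT.nd (nat_lit 234) (PT.nd (nat_lit 78) (PT.lf (nat_lit 41420) (nat_lit 6) (nat_lit 545) (nat_lit 0) (nat_lit 198) (nat_lit 196) (nat_lit 176)) (PT.nd (nat_lit 78) (PT.lf (nat_lit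 40280) (nat_lit 6) (nat_lit 530) (nat_lit 0) (nat_lit 199) (nat_lit 196) (nat_lit 175)) (PT.lf (nat_lit 39064) (nat_lit 6) (nat_lit 514) (nat_lit 0) (nat_lit 200) (nat_lit 196) (nat_lit 174)))) (PT.nd (nat_lit 156) (PT.nd (nat_lit 78) (PT.lf (nat_lit 37772) (nat_lit 6) (nat_lit 497) (nat_lit 0) (nat_lit 201) (nat_lit 196) (nat_lit 173)) (PT.lf (nat_lit 36404) (nat_lit 6) (nat_lit 479) (nat_lit 0) (nat_lit 202) (nat_lit 196) (nat_lit 172))) (PT.nd (nat_lit 78) (PT.lf (nat_lit 34960) (nat_lit 6) (nat_lit 460) (nat_lit 0) (nat_lit 203) (nat_lit 196) (nat_lit 171)) (PT.lf (nat_lit 33440) (nat_lit 6) (nat_lit 440) (nat_lit 0) (nat_lit 204) (nat_lit 196) (nat_lit 170)))))) (PT.nd (nat_lit 546) (PT.nd (nat_lit 234) (PT.nd (nat_lit 78) (PT.lf (nat_lit 31844) (nat_lit 6) (nat_lit 419) (nat_lit 0) (nat_lit 205) (nat_lit 196) (nat_lit 169)) (PT.nd (nat_lit 78) (PT.lf (nat_lit 30172) (nat_lit 6) (nat_lit 397) (nat_lit 0)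 (nat_lit 206) (nat_lit 196) (nat_lit 168)) (PT.lf (nat_lit 28424) (nat_lit 6) (nat_lit 374) (nat_lit 0) (nat_lit 207) (nat_lit 196) (nat_lit 167)))) (PT.nd (nat_lit 156) (PT.nd (nat_lit 78) (PT.lf (nat_lit 27056) (nat_lit 6) (nat_lit 356) (nat_lit 0) (nat_lit 208) (nat_lit 196) (nat_lit 166)) (PT.lf (nat_lit 26144) (nat_lit 6) (nat_lit 344) (nat_lit 0) (nat_lit 209) (nat_lit 196) (nat_lit 165))) (PT.nd (nat_lit 78) (PT.lf (nat_lit 25232) (nat_lit 6) (nat_lit 332) (nat_lit 0) (nat_lit 210) (nat_lit 196) (nat_lit 164)) (PT.lf (nat_lit 24320) (nat_lit 6) (nat_lit 320) (nat_lit 0) (nat_lit 211) (nat_lit 196) (nat_lit 163))))) (PT.nd (nat_lit 55224) (PT.nd (nat_lit 156) (PT.nd (nat_lit 78) (PT.lf (nat_lit 23408) (nat_lit 6) (nat_lit 308) (nat_lit 0) (nat_lit 212) (nat_lit 196) (nat_lit 162)) (PT.lf (nat_lit 22572) (nat_lit 6) (nat_lit 297) (nat_lit 0) (nat_lit 213) (nat_lit 196) (nat_lit 161))) (PT.nd (nat_lit 54990)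 (PT.lf (nat_lit 21736) (nat_lit 6) (nat_lit 286) (nat_lit 0) (nat_lit 214) (nat_lit 196) (nat_lit 160)) (PT.lf (nat_lit 20216) (nat_lit 6) (nat_lit 266) (nat_lit 5) (nat_lit 158) (nat_lit 197) (nat_lit 215)))) (PT.nd (nat_lit 156) (PT.nd (nat_lit 78) (PT.lf (nat_lit 21052) (nat_lit 6) (nat_lit 277) (nat_lit 5) (nat_lit 159) (nat_lit 197) (nat_lit 214)) (PT.lf (nat_lit 21812) (nat_lit 6) (nat_lit 287) (nat_lit 5) (nat_lit 160) (nat_lit 197) (nat_lit 213))) (PT.nd (nat_lit 78) (PT.lf (nat_lit 22648) (nat_lit 6) (nat_lit 298) (nat_lit 5) (nat_lit 161) (nat_lit 197) (nat_lit 212)) (PT.lf (nat_lit 23484) (nat_lit 6) (nat_lit 309) (nat_lit 5) (nat_lit 162) (nat_lit 197) (nat_lit 211))))))))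
noncomputable def pc32 : PT := (PT.nd (nat_lit 2184) (PT.nd (nat_lit 1092) (PT.nd (nat_lit 546) (PT.nd (nat_lit 234) (PT.nd (nat_lit 78) (PT.lf (nat_lit 24396) (nat_lit 6) (nat_lit 321) (nat_lit 5) (nat_lit 163) (nat_lit 197) (nat_lit 210)) (PT.nd (nat_lit 78) (PT.lf (nat_lit 25308) (nat_lit 6) (nat_lit 333) (nat_lit 5) (nat_lit 164) (nat_lit 197) (nat_lit 209)) (PT.lf (nat_lit 26220) (nat_lit 6) (nat_lit 345) (nat_lit 5) (nat_lit 165) (nat_lit 197) (nat_lit 208)))) (PT.nd (nat_lit 156) (PT.nd (nat_lit 78) (PT.lf (nat_lit 27132) (nat_lit 6) (nat_lit 357) (nat_lit 5) (nat_lit 166) (nat_lit 197) (nat_lit 207)) (PT.lf (nat_lit 28500) (nat_lit 6) (nat_lit 375) (nat_lit 5) (nat_lit 167) (nat_lit 197) (nat_lit 206))) (PT.nd (nat_lit 78) (PT.lf (nat_lit 30248) (nat_lit 6) (nat_lit 398) (nat_lit 5) (nat_lit 168) (nat_lit 197) (nat_lit 205)) (PT.lf (nat_lit 31920) (nat_lit 6) (nat_lit 420) (nat_lit 5) (nat_lit 169) (nat_lit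 197) (nat_lit 204))))) (PT.nd (nat_lit 234) (PT.nd (nat_lit 78) (PT.lf (nat_lit 33516) (nat_lit 6) (nat_lit 441) (nat_lit 5) (nat_lit 170) (nat_lit 197) (nat_lit 203)) (PT.nd (nat_lit 78) (PT.lf (nat_lit 35036) (nat_lit 6) (nat_lit 461) (nat_lit 5) (nat_lit 171) (nat_lit 197) (nat_lit 202)) (PT.lf (nat_lit 36480) (nat_lit 6) (nat_lit 480) (nat_lit 5) (nat_lit 172) (nat_lit 197) (nat_lit 201)))) (PT.nd (nat_lit 156) (PT.nd (nat_lit 78) (PT.lf (nat_lit 37848) (nat_lit 6) (nat_lit 498) (nat_lit 5) (nat_lit 173) (nat_lit 197) (nat_lit 200)) (PT.lf (nat_lit 39140) (nat_lit 6) (nat_lit 515) (nat_lit 5) (nat_lit 174) (nat_lit 197) (nat_lit 199))) (PT.nd (nat_lit 78) (PT.lf (nat_lit 40356) (nat_lit 6) (nat_lit 531) (nat_lit 5) (nat_lit 175) (nat_lit 197) (nat_lit 198)) (PT.lf (nat_lit 41496) (nat_lit 3) (nat_lit 546) (nat_lit 4) (nat_lit 176) (nat_lit 197) (nat_lit 197)))))) (PT.nd (nat_lit 546) (PT.nd (nat_lit 234)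 (PT.nd (nat_lit 78) (PT.lf (nat_lit 42484) (nat_lit 6) (nat_lit 559) (nat_lit 4) (nat_lit 177) (nat_lit 197) (nat_lit 196)) (PT.nd (nat_lit 78) (PT.lf (nat_lit 43396) (nat_lit 6) (nat_lit 571) (nat_lit 4) (nat_lit 178) (nat_lit 197) (nat_lit 195)) (PT.lf (nat_lit 44232) (nat_lit 6) (nat_lit 582) (nat_lit 4) (nat_lit 179) (nat_lit 197) (nat_lit 194)))) (PT.nd (nat_lit 156) (PT.nd (nat_lit 78) (PT.lf (nat_lit 44992) (nat_lit 6) (nat_lit 592) (nat_lit 4) (nat_lit 180) (nat_lit 197) (nat_lit 193)) (PT.lf (nat_lit 45676) (nat_lit 6) (nat_lit 601) (nat_lit 4) (nat_lit 181) (nat_lit 197) (nat_lit 192))) (PT.nd (nat_lit 78) (PT.lf (nat_lit 46284) (nat_lit 6) (nat_lit 609) (nat_lit 4) (nat_lit 182) (nat_lit 197) (nat_lit 191)) (PT.lf (nat_lit 46816) (nat_lit 6) (nat_lit 616) (nat_lit 4) (nat_lit 183) (nat_lit 197) (nat_lit 190))))) (PT.nd (nat_lit 234) (PT.nd (nat_lit 78) (PT.lf (nat_lit 46740) (nat_lit 6) (nat_lit 615)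 (nat_lit 4) (nat_lit 184) (nat_lit 197) (nat_lit 189)) (PT.nd (nat_lit 78) (PT.lf (nat_lit 46664) (nat_lit 6) (nat_lit 614) (nat_lit 4) (nat_lit 185) (nat_lit 197) (nat_lit 188)) (PT.lf (nat_lit 46588) (nat_lit 6) (nat_lit 613) (nat_lit 4) (nat_lit 186) (nat_lit 197) (nat_lit 187)))) (PT.nd (nat_lit 156) (PT.nd (nat_lit 78) (PT.lf (nat_lit 46588) (nat_lit 6) (nat_lit 613) (nat_lit 2) (nat_lit 187) (nat_lit 197) (nat_lit 186)) (PT.lf (nat_lit 46664) (nat_lit 6) (nat_lit 614) (nat_lit 2) (nat_lit 188) (nat_lit 197) (nat_lit 185))) (PT.nd (nat_lit 78) (PT.lf (nat_lit 46740) (nat_lit 6) (nat_lit 615) (nat_lit 2) (nat_lit 189) (nat_lit 197) (nat_lit 184)) (PT.lf (nat_lit 46816) (nat_lit 6) (nat_lit 616) (nat_lit 2) (nat_lit 190) (nat_lit 197) (nat_lit 183))))))) (PT.nd (nat_lit 1092) (PT.nd (nat_lit 546) (PT.nd (nat_lit 234) (PT.nd (nat_lit 78) (PT.lf (nat_lit 46284) (nat_lit 6) (nat_lit 609) (nat_lit 2) (nat_lit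 191) (nat_lit 197) (nat_lit 182)) (PT.nd (nat_lit 78) (PT.lf (nat_lit 45676) (nat_lit 6) (nat_lit 601) (nat_lit 2) (nat_lit 192) (nat_lit 197) (nat_lit 181)) (PT.lf (nat_lit 44992) (nat_lit 6) (nat_lit 592) (nat_lit 2) (nat_lit 193) (nat_lit 197) (nat_lit 180)))) (PT.nd (nat_lit 156) (PT.nd (nat_lit 78) (PT.lf (nat_lit 44232) (nat_lit 6) (nat_lit 582) (nat_lit 2) (nat_lit 194) (nat_lit 197) (nat_lit 179)) (PT.lf (nat_lit 43396) (nat_lit 6) (nat_lit 571) (nat_lit 2) (nat_lit 195) (nat_lit 197) (nat_lit 178))) (PT.nd (nat_lit 78) (PT.lf (nat_lit 42484) (nat_lit 6) (nat_lit 559) (nat_lit 2) (nat_lit 196) (nat_lit 197) (nat_lit 177)) (PT.lf (nat_lit 41496) (nat_lit 3) (nat_lit 546) (nat_lit 0) (nat_lit 197) (nat_lit 197) (nat_lit 176))))) (PT.nd (nat_lit 234) (PT.nd (nat_lit 78) (PT.lf (nat_lit 40356) (nat_lit 6) (nat_lit 531) (nat_lit 0) (nat_lit 198) (nat_lit 197) (nat_lit 175)) (PT.nd (nat_lit 78) (PT.lf (nat_lit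 39140) (nat_lit 6) (nat_lit 515) (nat_lit 0) (nat_lit 199) (nat_lit 197) (nat_lit 174)) (PT.lf (nat_lit 37848) (nat_lit 6) (nat_lit 498) (nat_lit 0) (nat_lit 200) (nat_lit 197) (nat_lit 173)))) (PT.nd (nat_lit 156) (PT.nd (nat_lit 78) (PT.lf (nat_lit 36480) (nat_lit 6) (nat_lit 480) (nat_lit 0) (nat_lit 201) (nat_lit 197) (nat_lit 172)) (PT.lf (nat_lit 35036) (nat_lit 6) (nat_lit 461) (nat_lit 0) (nat_lit 202) (nat_lit 197) (nat_lit 171))) (PT.nd (nat_lit 78) (PT.lf (nat_lit 33516) (nat_lit 6) (nat_lit 441) (nat_lit 0) (nat_lit 203) (nat_lit 197) (nat_lit 170)) (PT.lf (nat_lit 31920) (nat_lit 6) (nat_lit 420) (nat_lit 0) (nat_lit 204) (nat_lit 197) (nat_lit 169)))))) (PT.nd (nat_lit 546) (PT.nd (nat_lit 234) (PT.nd (nat_lit 78) (PT.lf (nat_lit 30248) (nat_lit 6) (nat_lit 398) (nat_lit 0) (nat_lit 205) (nat_lit 197) (nat_lit 168)) (PT.nd (nat_lit 78) (PT.lf (nat_lit 28500) (nat_lit 6) (nat_lit 375) (nat_lit 0)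 (nat_lit 206) (nat_lit 197) (nat_lit 167)) (PT.lf (nat_lit 27132) (nat_lit 6) (nat_lit 357) (nat_lit 0) (nat_lit 207) (nat_lit 197) (nat_lit 166)))) (PT.nd (nat_lit 156) (PT.nd (nat_lit 78) (PT.lf (nat_lit 26220) (nat_lit 6) (nat_lit 345) (nat_lit 0) (nat_lit 208) (nat_lit 197) (nat_lit 165)) (PT.lf (nat_lit 25308) (nat_lit 6) (nat_lit 333) (nat_lit 0) (nat_lit 209) (nat_lit 197) (nat_lit 164))) (PT.nd (nat_lit 78) (PT.lf (nat_lit 24396) (nat_lit 6) (nat_lit 321) (nat_lit 0) (nat_lit 210) (nat_lit 197) (nat_lit 163)) (PT.lf (nat_lit 23484) (nat_lit 6) (nat_lit 309) (nat_lit 0) (nat_lit 211) (nat_lit 197) (nat_lit 162))))) (PT.nd (nat_lit 234) (PT.nd (nat_lit 78) (PT.lf (nat_lit 22648) (nat_lit 6) (nat_lit 298) (nat_lit 0) (nat_lit 212) (nat_lit 197) (nat_lit 161)) (PT.nd (nat_lit 78) (PT.lf (nat_lit 21812) (nat_lit 6) (nat_lit 287) (nat_lit 0) (nat_lit 213) (nat_lit 197) (nat_lit 160)) (PT.lf (nat_lit 21052)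 (nat_lit 6) (nat_lit 277) (nat_lit 0) (nat_lit 214) (nat_lit 197) (nat_lit 159)))) (PT.nd (nat_lit 54912) (PT.nd (nat_lit 54834) (PT.lf (nat_lit 20216) (nat_lit 6) (nat_lit 266) (nat_lit 0) (nat_lit 215) (nat_lit 197) (nat_lit 158)) (PT.lf (nat_lit 19532) (nat_lit 6) (nat_lit 257) (nat_lit 5) (nat_lit 157) (nat_lit 198) (nat_lit 215))) (PT.nd (nat_lit 78) (PT.lf (nat_lit 20292) (nat_lit 6) (nat_lit 267) (nat_lit 5) (nat_lit 158) (nat_lit 198) (nat_lit 214)) (PT.lf (nat_lit 21128) (nat_lit 6) (nat_lit 278) (nat_lit 5) (nat_lit 159) (nat_lit 198) (nat_lit 213))))))))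
noncomputable def pc33 : PT := (PT.nd (nat_lit 2184) (PT.nd (nat_lit 1092) (PT.nd (nat_lit 546) (PT.nd (nat_lit 234) (PT.nd (nat_lit 78) (PT.lf (nat_lit 21888) (nat_lit 6) (nat_lit 288) (nat_lit 5) (nat_lit 160) (nat_lit 198) (nat_lit 212)) (PT.nd (nat_lit 78) (PT.lf (nat_lit 22724) (nat_lit 6) (nat_lit 299) (nat_lit 5) (nat_lit 161) (nat_lit 198) (nat_lit 211)) (PT.lf (nat_lit 23560) (nat_lit 6) (nat_lit 310) (nat_lit 5) (nat_lit 162) (nat_lit 198) (nat_lit 210)))) (PT.nd (nat_lit 156) (PT.nd (nat_lit 78) (PT.lf (nat_lit 24472) (nat_lit 6) (nat_lit 322) (nat_lit 5) (nat_lit 163) (nat_lit 198) (nat_lit 209)) (PT.lf (nat_lit 25384) (nat_lit 6) (nat_lit 334) (nat_lit 5) (nat_lit 164) (nat_lit 198) (nat_lit 208))) (PT.nd (nat_lit 78) (PT.lf (nat_lit 26296) (nat_lit 6) (nat_lit 346) (nat_lit 5) (nat_lit 165) (nat_lit 198) (nat_lit 207)) (PT.lf (nat_lit 27208) (nat_lit 6) (nat_lit 358) (nat_lit 5) (nat_lit 166) (nat_lit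 198) (nat_lit 206))))) (PT.nd (nat_lit 234) (PT.nd (nat_lit 78) (PT.lf (nat_lit 28576) (nat_lit 6) (nat_lit 376) (nat_lit 5) (nat_lit 167) (nat_lit 198) (nat_lit 205)) (PT.nd (nat_lit 78) (PT.lf (nat_lit 30324) (nat_lit 6) (nat_lit 399) (nat_lit 5) (nat_lit 168) (nat_lit 198) (nat_lit 204)) (PT.lf (nat_lit 31996) (nat_lit 6) (nat_lit 421) (nat_lit 5) (nat_lit 169) (nat_lit 198) (nat_lit 203)))) (PT.nd (nat_lit 156) (PT.nd (nat_lit 78) (PT.lf (nat_lit 33592) (nat_lit 6) (nat_lit 442) (nat_lit 5) (nat_lit 170) (nat_lit 198) (nat_lit 202)) (PT.lf (nat_lit 35112) (nat_lit 6) (nat_lit 462) (nat_lit 5) (nat_lit 171) (nat_lit 198) (nat_lit 201))) (PT.nd (nat_lit 78) (PT.lf (nat_lit 36556) (nat_lit 6) (nat_lit 481) (nat_lit 5) (nat_lit 172) (nat_lit 198) (nat_lit 200)) (PT.lf (nat_lit 37924) (nat_lit 6) (nat_lit 499) (nat_lit 5) (nat_lit 173) (nat_lit 198) (nat_lit 199)))))) (PT.nd (nat_lit 546) (PT.nd (nat_lit 234)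 (PT.nd (nat_lit 78) (PT.lf (nat_lit 39216) (nat_lit 3) (nat_lit 516) (nat_lit 4) (nat_lit 174) (nat_lit 198) (nat_lit 198)) (PT.nd (nat_lit 78) (PT.lf (nat_lit 40356) (nat_lit 6) (nat_lit 531) (nat_lit 4) (nat_lit 175) (nat_lit 198) (nat_lit 197)) (PT.lf (nat_lit 41420) (nat_lit 6) (nat_lit 545) (nat_lit 4) (nat_lit 176) (nat_lit 198) (nat_lit 196)))) (PT.nd (nat_lit 156) (PT.nd (nat_lit 78) (PT.lf (nat_lit 42408) (nat_lit 6) (nat_lit 558) (nat_lit 4) (nat_lit 177) (nat_lit 198) (nat_lit 195)) (PT.lf (nat_lit 43320) (nat_lit 6) (nat_lit 570) (nat_lit 4) (nat_lit 178) (nat_lit 198) (nat_lit 194))) (PT.nd (nat_lit 78) (PT.lf (nat_lit 44156) (nat_lit 6) (nat_lit 581) (nat_lit 4) (nat_lit 179) (nat_lit 198) (nat_lit 193)) (PT.lf (nat_lit 44916) (nat_lit 6) (nat_lit 591) (nat_lit 4) (nat_lit 180) (nat_lit 198) (nat_lit 192))))) (PT.nd (nat_lit 234) (PT.nd (nat_lit 78) (PT.lf (nat_lit 45600) (nat_lit 6) (nat_lit 600)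 (nat_lit 4) (nat_lit 181) (nat_lit 198) (nat_lit 191)) (PT.nd (nat_lit 78) (PT.lf (nat_lit 46208) (nat_lit 6) (nat_lit 608) (nat_lit 4) (nat_lit 182) (nat_lit 198) (nat_lit 190)) (PT.lf (nat_lit 46132) (nat_lit 6) (nat_lit 607) (nat_lit 4) (nat_lit 183) (nat_lit 198) (nat_lit 189)))) (PT.nd (nat_lit 156) (PT.nd (nat_lit 78) (PT.lf (nat_lit 46056) (nat_lit 6) (nat_lit 606) (nat_lit 4) (nat_lit 184) (nat_lit 198) (nat_lit 188)) (PT.lf (nat_lit 45980) (nat_lit 6) (nat_lit 605) (nat_lit 4) (nat_lit 185) (nat_lit 198) (nat_lit 187))) (PT.nd (nat_lit 78) (PT.lf (nat_lit 45904) (nat_lit 3) (nat_lit 604) (nat_lit 2) (nat_lit 186) (nat_lit 198) (nat_lit 186)) (PT.lf (nat_lit 45980) (nat_lit 6) (nat_lit 605) (nat_lit 2) (nat_lit 187) (nat_lit 198) (nat_lit 185))))))) (PT.nd (nat_lit 1092) (PT.nd (nat_lit 546) (PT.nd (nat_lit 234) (PT.nd (nat_lit 78) (PT.lf (nat_lit 46056) (nat_lit 6) (nat_lit 606) (nat_lit 2) (nat_lit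 188) (nat_lit 198) (nat_lit 184)) (PT.nd (nat_lit 78) (PT.lf (nat_lit 46132) (nat_lit 6) (nat_lit 607) (nat_lit 2) (nat_lit 189) (nat_lit 198) (nat_lit 183)) (PT.lf (nat_lit 46208) (nat_lit 6) (nat_lit 608) (nat_lit 2) (nat_lit 190) (nat_lit 198) (nat_lit 182)))) (PT.nd (nat_lit 156) (PT.nd (nat_lit 78) (PT.lf (nat_lit 45600) (nat_lit 6) (nat_lit 600) (nat_lit 2) (nat_lit 191) (nat_lit 198) (nat_lit 181)) (PT.lf (nat_lit 44916) (nat_lit 6) (nat_lit 591) (nat_lit 2) (nat_lit 192) (nat_lit 198) (nat_lit 180))) (PT.nd (nat_lit 78) (PT.lf (nat_lit 44156) (nat_lit 6) (nat_lit 581) (nat_lit 2) (nat_lit 193) (nat_lit 198) (nat_lit 179)) (PT.lf (nat_lit 43320) (nat_lit 6) (nat_lit 570) (nat_lit 2) (nat_lit 194) (nat_lit 198) (nat_lit 178))))) (PT.nd (nat_lit 234) (PT.nd (nat_lit 78) (PT.lf (nat_lit 42408) (nat_lit 6) (nat_lit 558) (nat_lit 2) (nat_lit 195) (nat_lit 198) (nat_lit 177)) (PT.nd (nat_lit 78) (PT.lf (nat_lit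 41420) (nat_lit 6) (nat_lit 545) (nat_lit 2) (nat_lit 196) (nat_lit 198) (nat_lit 176)) (PT.lf (nat_lit 40356) (nat_lit 6) (nat_lit 531) (nat_lit 2) (nat_lit 197) (nat_lit 198) (nat_lit 175)))) (PT.nd (nat_lit 156) (PT.nd (nat_lit 78) (PT.lf (nat_lit 39216) (nat_lit 3) (nat_lit 516) (nat_lit 0) (nat_lit 198) (nat_lit 198) (nat_lit 174)) (PT.lf (nat_lit 37924) (nat_lit 6) (nat_lit 499) (nat_lit 0) (nat_lit 199) (nat_lit 198) (nat_lit 173))) (PT.nd (nat_lit 78) (PT.lf (nat_lit 36556) (nat_lit 6) (nat_lit 481) (nat_lit 0) (nat_lit 200) (nat_lit 198) (nat_lit 172)) (PT.lf (nat_lit 35112) (nat_lit 6) (nat_lit 462) (nat_lit 0) (nat_lit 201) (nat_lit 198) (nat_lit 171)))))) (PT.nd (nat_lit 546) (PT.nd (nat_lit 234) (PT.nd (nat_lit 78) (PT.lf (nat_lit 33592) (nat_lit 6) (nat_lit 442) (nat_lit 0) (nat_lit 202) (nat_lit 198) (nat_lit 170)) (PT.nd (nat_lit 78) (PT.lf (nat_lit 31996) (nat_lit 6) (nat_lit 421) (nat_lit 0)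 (nat_lit 203) (nat_lit 198) (nat_lit 169)) (PT.lf (nat_lit 30324) (nat_lit 6) (nat_lit 399) (nat_lit 0) (nat_lit 204) (nat_lit 198) (nat_lit 168)))) (PT.nd (nat_lit 156) (PT.nd (nat_lit 78) (PT.lf (nat_lit 28576) (nat_lit 6) (nat_lit 376) (nat_lit 0) (nat_lit 205) (nat_lit 198) (nat_lit 167)) (PT.lf (nat_lit 27208) (nat_lit 6) (nat_lit 358) (nat_lit 0) (nat_lit 206) (nat_lit 198) (nat_lit 166))) (PT.nd (nat_lit 78) (PT.lf (nat_lit 26296) (nat_lit 6) (nat_lit 346) (nat_lit 0) (nat_lit 207) (nat_lit 198) (nat_lit 165)) (PT.lf (nat_lit 25384) (nat_lit 6) (nat_lit 334) (nat_lit 0) (nat_lit 208) (nat_lit 198) (nat_lit 164))))) (PT.nd (nat_lit 312) (PT.nd (nat_lit 156) (PT.nd (nat_lit 78) (PT.lf (nat_lit 24472) (nat_lit 6) (nat_lit 322) (nat_lit 0) (nat_lit 209) (nat_lit 198) (nat_lit 163)) (PT.lf (nat_lit 23560) (nat_lit 6) (nat_lit 310) (nat_lit 0) (nat_lit 210) (nat_lit 198) (nat_lit 162))) (PT.nd (nat_lit 78) (PT.lf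 (nat_lit 22724) (nat_lit 6) (nat_lit 299) (nat_lit 0) (nat_lit 211) (nat_lit 198) (nat_lit 161)) (PT.lf (nat_lit 21888) (nat_lit 6) (nat_lit 288) (nat_lit 0) (nat_lit 212) (nat_lit 198) (nat_lit 160)))) (PT.nd (nat_lit 156) (PT.nd (nat_lit 78) (PT.lf (nat_lit 21128) (nat_lit 6) (nat_lit 278) (nat_lit 0) (nat_lit 213) (nat_lit 198) (nat_lit 159)) (PT.lf (nat_lit 20292) (nat_lit 6) (nat_lit 267) (nat_lit 0) (nat_lit 214) (nat_lit 198) (nat_lit 158))) (PT.nd (nat_lit 54756) (PT.lf (nat_lit 19532) (nat_lit 6) (nat_lit 257) (nat_lit 0) (nat_lit 215) (nat_lit 198) (nat_lit 157)) (PT.lf (nat_lit 18848) (nat_lit 6) (nat_lit 248) (nat_lit 5) (nat_lit 156) (nat_lit 199) (nat_lit 215))))))))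
noncomputable def pc34 : PT := (PT.nd (nat_lit 2184) (PT.nd (nat_lit 1092) (PT.nd (nat_lit 546) (PT.nd (nat_lit 234) (PT.nd (nat_lit 78) (PT.lf (nat_lit 19608) (nat_lit 6) (nat_lit 258) (nat_lit 5) (nat_lit 157) (nat_lit 199) (nat_lit 214)) (PT.nd (nat_lit 78) (PT.lf (nat_lit 20368) (nat_lit 6) (nat_lit 268) (nat_lit 5) (nat_lit 158) (nat_lit 199) (nat_lit 213)) (PT.lf (nat_lit 21204) (nat_lit 6) (nat_lit 279) (nat_lit 5) (nat_lit 159) (nat_lit 199) (nat_lit 212)))) (PT.nd (nat_lit 156) (PT.nd (nat_lit 78) (PT.lf (nat_lit 21964) (nat_lit 6) (nat_lit 289) (nat_lit 5) (nat_lit 160) (nat_lit 199) (nat_lit 211)) (PT.lf (nat_lit 22800) (nat_lit 6) (nat_lit 300) (nat_lit 5) (nat_lit 161) (nat_lit 199) (nat_lit 210))) (PT.nd (nat_lit 78) (PT.lf (nat_lit 23636) (nat_lit 6) (nat_lit 311) (nat_lit 5) (nat_lit 162) (nat_lit 199) (nat_lit 209)) (PT.lf (nat_lit 24548) (nat_lit 6) (nat_lit 323) (nat_lit 5) (nat_lit 163) (nat_lit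 199) (nat_lit 208))))) (PT.nd (nat_lit 234) (PT.nd (nat_lit 78) (PT.lf (nat_lit 25460) (nat_lit 6) (nat_lit 335) (nat_lit 5) (nat_lit 164) (nat_lit 199) (nat_lit 207)) (PT.nd (nat_lit 78) (PT.lf (nat_lit 26372) (nat_lit 6) (nat_lit 347) (nat_lit 5) (nat_lit 165) (nat_lit 199) (nat_lit 206)) (PT.lf (nat_lit 27284) (nat_lit 6) (nat_lit 359) (nat_lit 5) (nat_lit 166) (nat_lit 199) (nat_lit 205)))) (PT.nd (nat_lit 156) (PT.nd (nat_lit 78) (PT.lf (nat_lit 28652) (nat_lit 6) (nat_lit 377) (nat_lit 5) (nat_lit 167) (nat_lit 199) (nat_lit 204)) (PT.lf (nat_lit 30400) (nat_lit 6) (nat_lit 400) (nat_lit 5) (nat_lit 168) (nat_lit 199) (nat_lit 203))) (PT.nd (nat_lit 78) (PT.lf (nat_lit 32072) (nat_lit 6) (nat_lit 422) (nat_lit 5) (nat_lit 169) (nat_lit 199) (nat_lit 202)) (PT.lf (nat_lit 33668) (nat_lit 6) (nat_lit 443) (nat_lit 5) (nat_lit 170) (nat_lit 199) (nat_lit 201)))))) (PT.nd (nat_lit 546) (PT.nd (nat_lit 234)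 (PT.nd (nat_lit 78) (PT.lf (nat_lit 35188) (nat_lit 6) (nat_lit 463) (nat_lit 5) (nat_lit 171) (nat_lit 199) (nat_lit 200)) (PT.nd (nat_lit 78) (PT.lf (nat_lit 36632) (nat_lit 3) (nat_lit 482) (nat_lit 4) (nat_lit 172) (nat_lit 199) (nat_lit 199)) (PT.lf (nat_lit 37924) (nat_lit 6) (nat_lit 499) (nat_lit 4) (nat_lit 173) (nat_lit 199) (nat_lit 198)))) (PT.nd (nat_lit 156) (PT.nd (nat_lit 78) (PT.lf (nat_lit 39140) (nat_lit 6) (nat_lit 515) (nat_lit 4) (nat_lit 174) (nat_lit 199) (nat_lit 197)) (PT.lf (nat_lit 40280) (nat_lit 6) (nat_lit 530) (nat_lit 4) (nat_lit 175) (nat_lit 199) (nat_lit 196))) (PT.nd (nat_lit 78) (PT.lf (nat_lit 41344) (nat_lit 6) (nat_lit 544) (nat_lit 4) (nat_lit 176) (nat_lit 199) (nat_lit 195)) (PT.lf (nat_lit 42332) (nat_lit 6) (nat_lit 557) (nat_lit 4) (nat_lit 177) (nat_lit 199) (nat_lit 194))))) (PT.nd (nat_lit 234) (PT.nd (nat_lit 78) (PT.lf (nat_lit 43244) (nat_lit 6) (nat_lit 569)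 (nat_lit 4) (nat_lit 178) (nat_lit 199) (nat_lit 193)) (PT.nd (nat_lit 78) (PT.lf (nat_lit 44080) (nat_lit 6) (nat_lit 580) (nat_lit 4) (nat_lit 179) (nat_lit 199) (nat_lit 192)) (PT.lf (nat_lit 44840) (nat_lit 6) (nat_lit 590) (nat_lit 4) (nat_lit 180) (nat_lit 199) (nat_lit 191)))) (PT.nd (nat_lit 156) (PT.nd (nat_lit 78) (PT.lf (nat_lit 45524) (nat_lit 6) (nat_lit 599) (nat_lit 4) (nat_lit 181) (nat_lit 199) (nat_lit 190)) (PT.lf (nat_lit 45448) (nat_lit 6) (nat_lit 598) (nat_lit 4) (nat_lit 182) (nat_lit 199) (nat_lit 189))) (PT.nd (nat_lit 78) (PT.lf (nat_lit 45372) (nat_lit 6) (nat_lit 597) (nat_lit 4) (nat_lit 183) (nat_lit 199) (nat_lit 188)) (PT.lf (nat_lit 45296) (nat_lit 6) (nat_lit 596) (nat_lit 4) (nat_lit 184) (nat_lit 199) (nat_lit 187))))))) (PT.nd (nat_lit 1092) (PT.nd (nat_lit 546) (PT.nd (nat_lit 234) (PT.nd (nat_lit 78) (PT.lf (nat_lit 45220) (nat_lit 6) (nat_lit 595) (nat_lit 4) (nat_lit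 185) (nat_lit 199) (nat_lit 186)) (PT.nd (nat_lit 78) (PT.lf (nat_lit 45220) (nat_lit 6) (nat_lit 595) (nat_lit 2) (nat_lit 186) (nat_lit 199) (nat_lit 185)) (PT.lf (nat_lit 45296) (nat_lit 6) (nat_lit 596) (nat_lit 2) (nat_lit 187) (nat_lit 199) (nat_lit 184)))) (PT.nd (nat_lit 156) (PT.nd (nat_lit 78) (PT.lf (nat_lit 45372) (nat_lit 6) (nat_lit 597) (nat_lit 2) (nat_lit 188) (nat_lit 199) (nat_lit 183)) (PT.lf (nat_lit 45448) (nat_lit 6) (nat_lit 598) (nat_lit 2) (nat_lit 189) (nat_lit 199) (nat_lit 182))) (PT.nd (nat_lit 78) (PT.lf (nat_lit 45524) (nat_lit 6) (nat_lit 599) (nat_lit 2) (nat_lit 190) (nat_lit 199) (nat_lit 181)) (PT.lf (nat_lit 44840) (nat_lit 6) (nat_lit 590) (nat_lit 2) (nat_lit 191) (nat_lit 199) (nat_lit 180))))) (PT.nd (nat_lit 234) (PT.nd (nat_lit 78) (PT.lf (nat_lit 44080) (nat_lit 6) (nat_lit 580) (nat_lit 2) (nat_lit 192) (nat_lit 199) (nat_lit 179)) (PT.nd (nat_lit 78) (PT.lf (nat_lit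 43244) (nat_lit 6) (nat_lit 569) (nat_lit 2) (nat_lit 193) (nat_lit 199) (nat_lit 178)) (PT.lf (nat_lit 42332) (nat_lit 6) (nat_lit 557) (nat_lit 2) (nat_lit 194) (nat_lit 199) (nat_lit 177)))) (PT.nd (nat_lit 156) (PT.nd (nat_lit 78) (PT.lf (nat_lit 41344) (nat_lit 6) (nat_lit 544) (nat_lit 2) (nat_lit 195) (nat_lit 199) (nat_lit 176)) (PT.lf (nat_lit 40280) (nat_lit 6) (nat_lit 530) (nat_lit 2) (nat_lit 196) (nat_lit 199) (nat_lit 175))) (PT.nd (nat_lit 78) (PT.lf (nat_lit 39140) (nat_lit 6) (nat_lit 515) (nat_lit 2) (nat_lit 197) (nat_lit 199) (nat_lit 174)) (PT.lf (nat_lit 37924) (nat_lit 6) (nat_lit 499) (nat_lit 2) (nat_lit 198) (nat_lit 199) (nat_lit 173)))))) (PT.nd (nat_lit 546) (PT.nd (nat_lit 234) (PT.nd (nat_lit 78) (PT.lf (nat_lit 36632) (nat_lit 3) (nat_lit 482) (nat_lit 0) (nat_lit 199) (nat_lit 199) (nat_lit 172)) (PT.nd (nat_lit 78) (PT.lf (nat_lit 35188) (nat_lit 6) (nat_lit 463) (nat_lit 0)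 (nat_lit 200) (nat_lit 199) (nat_lit 171)) (PT.lf (nat_lit 33668) (nat_lit 6) (nat_lit 443) (nat_lit 0) (nat_lit 201) (nat_lit 199) (nat_lit 170)))) (PT.nd (nat_lit 156) (PT.nd (nat_lit 78) (PT.lf (nat_lit 32072) (nat_lit 6) (nat_lit 422) (nat_lit 0) (nat_lit 202) (nat_lit 199) (nat_lit 169)) (PT.lf (nat_lit 30400) (nat_lit 6) (nat_lit 400) (nat_lit 0) (nat_lit 203) (nat_lit 199) (nat_lit 168))) (PT.nd (nat_lit 78) (PT.lf (nat_lit 28652) (nat_lit 6) (nat_lit 377) (nat_lit 0) (nat_lit 204) (nat_lit 199) (nat_lit 167)) (PT.lf (nat_lit 27284) (nat_lit 6) (nat_lit 359) (nat_lit 0) (nat_lit 205) (nat_lit 199) (nat_lit 166))))) (PT.nd (nat_lit 312) (PT.nd (nat_lit 156) (PT.nd (nat_lit 78) (PT.lf (nat_lit 26372) (nat_lit 6) (nat_lit 347) (nat_lit 0) (nat_lit 206) (nat_lit 199) (nat_lit 165)) (PT.lf (nat_lit 25460) (nat_lit 6) (nat_lit 335) (nat_lit 0) (nat_lit 207) (nat_lit 199) (nat_lit 164))) (PT.nd (nat_lit 78) (PT.lf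 (nat_lit 24548) (nat_lit 6) (nat_lit 323) (nat_lit 0) (nat_lit 208) (nat_lit 199) (nat_lit 163)) (PT.lf (nat_lit 23636) (nat_lit 6) (nat_lit 311) (nat_lit 0) (nat_lit 209) (nat_lit 199) (nat_lit 162)))) (PT.nd (nat_lit 156) (PT.nd (nat_lit 78) (PT.lf (nat_lit 22800) (nat_lit 6) (nat_lit 300) (nat_lit 0) (nat_lit 210) (nat_lit 199) (nat_lit 161)) (PT.lf (nat_lit 21964) (nat_lit 6) (nat_lit 289) (nat_lit 0) (nat_lit 211) (nat_lit 199) (nat_lit 160))) (PT.nd (nat_lit 78) (PT.lf (nat_lit 21204) (nat_lit 6) (nat_lit 279) (nat_lit 0) (nat_lit 212) (nat_lit 199) (nat_lit 159)) (PT.lf (nat_lit 20368) (nat_lit 6) (nat_lit 268) (nat_lit 0) (nat_lit 213) (nat_lit 199) (nat_lit 158))))))))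
noncomputable def pc35 : PT := (PT.nd (nat_lit 56706) (PT.nd (nat_lit 55614) (PT.nd (nat_lit 55068) (PT.nd (nat_lit 54756) (PT.nd (nat_lit 78) (PT.lf (nat_lit 19608) (nat_lit 6) (nat_lit 258) (nat_lit 0) (nat_lit 214) (nat_lit 199) (nat_lit 157)) (PT.nd (nat_lit 54600) (PT.lf (nat_lit 18848) (nat_lit 6) (nat_lit 248) (nat_lit 0) (nat_lit 215) (nat_lit 199) (nat_lit 156)) (PT.lf (nat_lit 17556) (nat_lit 6) (nat_lit 231) (nat_lit 5) (nat_lit 154) (nat_lit 200) (nat_lit 216)))) (PT.nd (nat_lit 156) (PT.nd (nat_lit 78) (PT.lf (nat_lit 18240) (nat_lit 6) (nat_lit 240) (nat_lit 5) (nat_lit 155) (nat_lit 200) (nat_lit 215)) (PT.lf (nat_lit 18924) (nat_lit 6) (nat_lit 249) (nat_lit 5) (nat_lit 156) (nat_lit 200) (nat_lit 214))) (PT.nd (nat_lit 78) (PT.lf (nat_lit 19684) (nat_lit 6) (nat_lit 259) (nat_lit 5) (nat_lit 157) (nat_lit 200) (nat_lit 213)) (PT.lf (nat_lit 20444) (nat_lit 6) (nat_lit 269) (nat_lit 5) (nat_lit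 158) (nat_lit 200) (nat_lit 212))))) (PT.nd (nat_lit 234) (PT.nd (nat_lit 78) (PT.lf (nat_lit 21280) (nat_lit 6) (nat_lit 280) (nat_lit 5) (nat_lit 159) (nat_lit 200) (nat_lit 211)) (PT.nd (nat_lit 78) (PT.lf (nat_lit 22040) (nat_lit 6) (nat_lit 290) (nat_lit 5) (nat_lit 160) (nat_lit 200) (nat_lit 210)) (PT.lf (nat_lit 22876) (nat_lit 6) (nat_lit 301) (nat_lit 5) (nat_lit 161) (nat_lit 200) (nat_lit 209)))) (PT.nd (nat_lit 156) (PT.nd (nat_lit 78) (PT.lf (nat_lit 23712) (nat_lit 6) (nat_lit 312) (nat_lit 5) (nat_lit 162) (nat_lit 200) (nat_lit 208)) (PT.lf (nat_lit 24624) (nat_lit 6) (nat_lit 324) (nat_lit 5) (nat_lit 163) (nat_lit 200) (nat_lit 207))) (PT.nd (nat_lit 78) (PT.lf (nat_lit 25536) (nat_lit 6) (nat_lit 336) (nat_lit 5) (nat_lit 164) (nat_lit 200) (nat_lit 206)) (PT.lf (nat_lit 26448) (nat_lit 6) (nat_lit 348) (nat_lit 5) (nat_lit 165) (nat_lit 200) (nat_lit 205)))))) (PT.nd (nat_lit 546) (PT.nd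 (nat_lit 234) (PT.nd (nat_lit 78) (PT.lf (nat_lit 27360) (nat_lit 6) (nat_lit 360) (nat_lit 5) (nat_lit 166) (nat_lit 200) (nat_lit 204)) (PT.nd (nat_lit 78) (PT.lf (nat_lit 28728) (nat_lit 6) (nat_lit 378) (nat_lit 5) (nat_lit 167) (nat_lit 200) (nat_lit 203)) (PT.lf (nat_lit 30476) (nat_lit 6) (nat_lit 401) (nat_lit 5) (nat_lit 168) (nat_lit 200) (nat_lit 202)))) (PT.nd (nat_lit 156) (PT.nd (nat_lit 78) (PT.lf (nat_lit 32148) (nat_lit 6) (nat_lit 423) (nat_lit 5) (nat_lit 169) (nat_lit 200) (nat_lit 201)) (PT.lf (nat_lit 33744) (nat_lit 3) (nat_lit 444) (nat_lit 4) (nat_lit 170) (nat_lit 200) (nat_lit 200))) (PT.nd (nat_lit 78) (PT.lf (nat_lit 35188) (nat_lit 6) (nat_lit 463) (nat_lit 4) (nat_lit 171) (nat_lit 200) (nat_lit 199)) (PT.lf (nat_lit 36556) (nat_lit 6) (nat_lit 481) (nat_lit 4) (nat_lit 172) (nat_lit 200) (nat_lit 198))))) (PT.nd (nat_lit 234) (PT.nd (nat_lit 78) (PT.lf (nat_lit 37848) (nat_lit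 6) (nat_lit 498) (nat_lit 4) (nat_lit 173) (nat_lit 200) (nat_lit 197)) (PT.nd (nat_lit 78) (PT.lf (nat_lit 39064) (nat_lit 6) (nat_lit 514) (nat_lit 4) (nat_lit 174) (nat_lit 200) (nat_lit 196)) (PT.lf (nat_lit 40204) (nat_lit 6) (nat_lit 529) (nat_lit 4) (nat_lit 175) (nat_lit 200) (nat_lit 195)))) (PT.nd (nat_lit 156) (PT.nd (nat_lit 78) (PT.lf (nat_lit 41268) (nat_lit 6) (nat_lit 543) (nat_lit 4) (nat_lit 176) (nat_lit 200) (nat_lit 194)) (PT.lf (nat_lit 42256) (nat_lit 6) (nat_lit 556) (nat_lit 4) (nat_lit 177) (nat_lit 200) (nat_lit 193))) (PT.nd (nat_lit 78) (PT.lf (nat_lit 43168) (nat_lit 6) (nat_lit 568) (nat_lit 4) (nat_lit 178) (nat_lit 200) (nat_lit 192)) (PT.lf (nat_lit 44004) (nat_lit 6) (nat_lit 579) (nat_lit 4) (nat_lit 179) (nat_lit 200) (nat_lit 191))))))) (PT.nd (nat_lit 1092) (PT.nd (nat_lit 546) (PT.nd (nat_lit 234) (PT.nd (nat_lit 78) (PT.lf (nat_lit 44764) (nat_lit 6) (nat_lit 589) (nat_lit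 4) (nat_lit 180) (nat_lit 200) (nat_lit 190)) (PT.nd (nat_lit 78) (PT.lf (nat_lit 44688) (nat_lit 6) (nat_lit 588) (nat_lit 4) (nat_lit 181) (nat_lit 200) (nat_lit 189)) (PT.lf (nat_lit 44612) (nat_lit 6) (nat_lit 587) (nat_lit 4) (nat_lit 182) (nat_lit 200) (nat_lit 188)))) (PT.nd (nat_lit 156) (PT.nd (nat_lit 78) (PT.lf (nat_lit 44536) (nat_lit 6) (nat_lit 586) (nat_lit 4) (nat_lit 183) (nat_lit 200) (nat_lit 187)) (PT.lf (nat_lit 44460) (nat_lit 6) (nat_lit 585) (nat_lit 4) (nat_lit 184) (nat_lit 200) (nat_lit 186))) (PT.nd (nat_lit 78) (PT.lf (nat_lit 44384) (nat_lit 3) (nat_lit 584) (nat_lit 2) (nat_lit 185) (nat_lit 200) (nat_lit 185)) (PT.lf (nat_lit 44460) (nat_lit 6) (nat_lit 585) (nat_lit 2) (nat_lit 186) (nat_lit 200) (nat_lit 184))))) (PT.nd (nat_lit 234) (PT.nd (nat_lit 78) (PT.lf (nat_lit 44536) (nat_lit 6) (nat_lit 586) (nat_lit 2) (nat_lit 187) (nat_lit 200) (nat_lit 183)) (PT.nd (nat_lit 78)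 (PT.lf (nat_lit 44612) (nat_lit 6) (nat_lit 587) (nat_lit 2) (nat_lit 188) (nat_lit 200) (nat_lit 182)) (PT.lf (nat_lit 44688) (nat_lit 6) (nat_lit 588) (nat_lit 2) (nat_lit 189) (nat_lit 200) (nat_lit 181)))) (PT.nd (nat_lit 156) (PT.nd (nat_lit 78) (PT.lf (nat_lit 44764) (nat_lit 6) (nat_lit 589) (nat_lit 2) (nat_lit 190) (nat_lit 200) (nat_lit 180)) (PT.lf (nat_lit 44004) (nat_lit 6) (nat_lit 579) (nat_lit 2) (nat_lit 191) (nat_lit 200) (nat_lit 179))) (PT.nd (nat_lit 78) (PT.lf (nat_lit 43168) (nat_lit 6) (nat_lit 568) (nat_lit 2) (nat_lit 192) (nat_lit 200) (nat_lit 178)) (PT.lf (nat_lit 42256) (nat_lit 6) (nat_lit 556) (nat_lit 2) (nat_lit 193) (nat_lit 200) (nat_lit 177)))))) (PT.nd (nat_lit 546) (PT.nd (nat_lit 234) (PT.nd (nat_lit 78) (PT.lf (nat_lit 41268) (nat_lit 6) (nat_lit 543) (nat_lit 2) (nat_lit 194) (nat_lit 200) (nat_lit 176)) (PT.nd (nat_lit 78) (PT.lf (nat_lit 40204) (nat_lit 6) (nat_lit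 529) (nat_lit 2) (nat_lit 195) (nat_lit 200) (nat_lit 175)) (PT.lf (nat_lit 39064) (nat_lit 6) (nat_lit 514) (nat_lit 2) (nat_lit 196) (nat_lit 200) (nat_lit 174)))) (PT.nd (nat_lit 156) (PT.nd (nat_lit 78) (PT.lf (nat_lit 37848) (nat_lit 6) (nat_lit 498) (nat_lit 2) (nat_lit 197) (nat_lit 200) (nat_lit 173)) (PT.lf (nat_lit 36556) (nat_lit 6) (nat_lit 481) (nat_lit 2) (nat_lit 198) (nat_lit 200) (nat_lit 172))) (PT.nd (nat_lit 78) (PT.lf (nat_lit 35188) (nat_lit 6) (nat_lit 463) (nat_lit 2) (nat_lit 199) (nat_lit 200) (nat_lit 171)) (PT.lf (nat_lit 33744) (nat_lit 3) (nat_lit 444) (nat_lit 0) (nat_lit 200) (nat_lit 200) (nat_lit 170))))) (PT.nd (nat_lit 312) (PT.nd (nat_lit 156) (PT.nd (nat_lit 78) (PT.lf (nat_lit 32148) (nat_lit 6) (nat_lit 423) (nat_lit 0) (nat_lit 201) (nat_lit 200) (nat_lit 169)) (PT.lf (nat_lit 30476) (nat_lit 6) (nat_lit 401) (nat_lit 0) (nat_lit 202) (nat_lit 200) (nat_lit 168))) (PT.nd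 (nat_lit 78) (PT.lf (nat_lit 28728) (nat_lit 6) (nat_lit 378) (nat_lit 0) (nat_lit 203) (nat_lit 200) (nat_lit 167)) (PT.lf (nat_lit 27360) (nat_lit 6) (nat_lit 360) (nat_lit 0) (nat_lit 204) (nat_lit 200) (nat_lit 166)))) (PT.nd (nat_lit 156) (PT.nd (nat_lit 78) (PT.lf (nat_lit 26448) (nat_lit 6) (nat_lit 348) (nat_lit 0) (nat_lit 205) (nat_lit 200) (nat_lit 165)) (PT.lf (nat_lit 25536) (nat_lit 6) (nat_lit 336) (nat_lit 0) (nat_lit 206) (nat_lit 200) (nat_lit 164))) (PT.nd (nat_lit 78) (PT.lf (nat_lit 24624) (nat_lit 6) (nat_lit 324) (nat_lit 0) (nat_lit 207) (nat_lit 200) (nat_lit 163)) (PT.lf (nat_lit 23712) (nat_lit 6) (nat_lit 312) (nat_lit 0) (nat_lit 208) (nat_lit 200) (nat_lit 162))))))))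
noncomputable def pc36 : PT := (PT.nd (nat_lit 56550) (PT.nd (nat_lit 55458) (PT.nd (nat_lit 546) (PT.nd (nat_lit 234) (PT.nd (nat_lit 78) (PT.lf (nat_lit 22876) (nat_lit 6) (nat_lit 301) (nat_lit 0) (nat_lit 209) (nat_lit 200) (nat_lit 161)) (PT.nd (nat_lit 78) (PT.lf (nat_lit 22040) (nat_lit 6) (nat_lit 290) (nat_lit 0) (nat_lit 210) (nat_lit 200) (nat_lit 160)) (PT.lf (nat_lit 21280) (nat_lit 6) (nat_lit 280) (nat_lit 0) (nat_lit 211) (nat_lit 200) (nat_lit 159)))) (PT.nd (nat_lit 156) (PT.nd (nat_lit 78) (PT.lf (nat_lit 20444) (nat_lit 6) (nat_lit 269) (nat_lit 0) (nat_lit 212) (nat_lit 200) (nat_lit 158)) (PT.lf (nat_lit 19684) (nat_lit 6) (nat_lit 259) (nat_lit 0) (nat_lit 213) (nat_lit 200) (nat_lit 157))) (PT.nd (nat_lit 78) (PT.lf (nat_lit 18924) (nat_lit 6) (nat_lit 249) (nat_lit 0) (nat_lit 214) (nat_lit 200) (nat_lit 156)) (PT.lf (nat_lit 18240) (nat_lit 6) (nat_lit 240) (nat_lit 0) (nat_lit 215)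 (nat_lit 200) (nat_lit 155))))) (PT.nd (nat_lit 54600) (PT.nd (nat_lit 54444) (PT.lf (nat_lit 17556) (nat_lit 6) (nat_lit 231) (nat_lit 0) (nat_lit 216) (nat_lit 200) (nat_lit 154)) (PT.nd (nat_lit 78) (PT.lf (nat_lit 16948) (nat_lit 6) (nat_lit 223) (nat_lit 5) (nat_lit 153) (nat_lit 201) (nat_lit 216)) (PT.lf (nat_lit 17632) (nat_lit 6) (nat_lit 232) (nat_lit 5) (nat_lit 154) (nat_lit 201) (nat_lit 215)))) (PT.nd (nat_lit 156) (PT.nd (nat_lit 78) (PT.lf (nat_lit 18316) (nat_lit 6) (nat_lit 241) (nat_lit 5) (nat_lit 155) (nat_lit 201) (nat_lit 214)) (PT.lf (nat_lit 19000) (nat_lit 6) (nat_lit 250) (nat_lit 5) (nat_lit 156) (nat_lit 201) (nat_lit 213))) (PT.nd (nat_lit 78) (PT.lf (nat_lit 19760) (nat_lit 6) (nat_lit 260) (nat_lit 5) (nat_lit 157) (nat_lit 201) (nat_lit 212)) (PT.lf (nat_lit 20520) (nat_lit 6) (nat_lit 270) (nat_lit 5) (nat_lit 158) (nat_lit 201) (nat_lit 211)))))) (PT.nd (nat_lit 546) (PT.nd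 (nat_lit 234) (PT.nd (nat_lit 78) (PT.lf (nat_lit 21356) (nat_lit 6) (nat_lit 281) (nat_lit 5) (nat_lit 159) (nat_lit 201) (nat_lit 210)) (PT.nd (nat_lit 78) (PT.lf (nat_lit 22116) (nat_lit 6) (nat_lit 291) (nat_lit 5) (nat_lit 160) (nat_lit 201) (nat_lit 209)) (PT.lf (nat_lit 22952) (nat_lit 6) (nat_lit 302) (nat_lit 5) (nat_lit 161) (nat_lit 201) (nat_lit 208)))) (PT.nd (nat_lit 156) (PT.nd (nat_lit 78) (PT.lf (nat_lit 23788) (nat_lit 6) (nat_lit 313) (nat_lit 5) (nat_lit 162) (nat_lit 201) (nat_lit 207)) (PT.lf (nat_lit 24700) (nat_lit 6) (nat_lit 325) (nat_lit 5) (nat_lit 163) (nat_lit 201) (nat_lit 206))) (PT.nd (nat_lit 78) (PT.lf (nat_lit 25612) (nat_lit 6) (nat_lit 337) (nat_lit 5) (nat_lit 164) (nat_lit 201) (nat_lit 205)) (PT.lf (nat_lit 26524) (nat_lit 6) (nat_lit 349) (nat_lit 5) (nat_lit 165) (nat_lit 201) (nat_lit 204))))) (PT.nd (nat_lit 234) (PT.nd (nat_lit 78) (PT.lf (nat_lit 27436) (nat_lit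 6) (nat_lit 361) (nat_lit 5) (nat_lit 166) (nat_lit 201) (nat_lit 203)) (PT.nd (nat_lit 78) (PT.lf (nat_lit 28804) (nat_lit 6) (nat_lit 379) (nat_lit 5) (nat_lit 167) (nat_lit 201) (nat_lit 202)) (PT.lf (nat_lit 30552) (nat_lit 3) (nat_lit 402) (nat_lit 4) (nat_lit 168) (nat_lit 201) (nat_lit 201)))) (PT.nd (nat_lit 156) (PT.nd (nat_lit 78) (PT.lf (nat_lit 32148) (nat_lit 6) (nat_lit 423) (nat_lit 4) (nat_lit 169) (nat_lit 201) (nat_lit 200)) (PT.lf (nat_lit 33668) (nat_lit 6) (nat_lit 443) (nat_lit 4) (nat_lit 170) (nat_lit 201) (nat_lit 199))) (PT.nd (nat_lit 78) (PT.lf (nat_lit 35112) (nat_lit 6) (nat_lit 462) (nat_lit 4) (nat_lit 171) (nat_lit 201) (nat_lit 198)) (PT.lf (nat_lit 36480) (nat_lit 6) (nat_lit 480) (nat_lit 4) (nat_lit 172) (nat_lit 201) (nat_lit 197))))))) (PT.nd (nat_lit 1092) (PT.nd (nat_lit 546) (PT.nd (nat_lit 234) (PT.nd (nat_lit 78) (PT.lf (nat_lit 37772) (nat_lit 6) (nat_lit 497) (nat_lit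 4) (nat_lit 173) (nat_lit 201) (nat_lit 196)) (PT.nd (nat_lit 78) (PT.lf (nat_lit 38988) (nat_lit 6) (nat_lit 513) (nat_lit 4) (nat_lit 174) (nat_lit 201) (nat_lit 195)) (PT.lf (nat_lit 40128) (nat_lit 6) (nat_lit 528) (nat_lit 4) (nat_lit 175) (nat_lit 201) (nat_lit 194)))) (PT.nd (nat_lit 156) (PT.nd (nat_lit 78) (PT.lf (nat_lit 41192) (nat_lit 6) (nat_lit 542) (nat_lit 4) (nat_lit 176) (nat_lit 201) (nat_lit 193)) (PT.lf (nat_lit 42180) (nat_lit 6) (nat_lit 555) (nat_lit 4) (nat_lit 177) (nat_lit 201) (nat_lit 192))) (PT.nd (nat_lit 78) (PT.lf (nat_lit 43092) (nat_lit 6) (nat_lit 567) (nat_lit 4) (nat_lit 178) (nat_lit 201) (nat_lit 191)) (PT.lf (nat_lit 43928) (nat_lit 6) (nat_lit 578) (nat_lit 4) (nat_lit 179) (nat_lit 201) (nat_lit 190))))) (PT.nd (nat_lit 234) (PT.nd (nat_lit 78) (PT.lf (nat_lit 43852) (nat_lit 6) (nat_lit 577) (nat_lit 4) (nat_lit 180) (nat_lit 201) (nat_lit 189)) (PT.nd (nat_lit 78)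 (PT.lf (nat_lit 43776) (nat_lit 6) (nat_lit 576) (nat_lit 4) (nat_lit 181) (nat_lit 201) (nat_lit 188)) (PT.lf (nat_lit 43700) (nat_lit 6) (nat_lit 575) (nat_lit 4) (nat_lit 182) (nat_lit 201) (nat_lit 187)))) (PT.nd (nat_lit 156) (PT.nd (nat_lit 78) (PT.lf (nat_lit 43624) (nat_lit 6) (nat_lit 574) (nat_lit 4) (nat_lit 183) (nat_lit 201) (nat_lit 186)) (PT.lf (nat_lit 43548) (nat_lit 6) (nat_lit 573) (nat_lit 4) (nat_lit 184) (nat_lit 201) (nat_lit 185))) (PT.nd (nat_lit 78) (PT.lf (nat_lit 43548) (nat_lit 6) (nat_lit 573) (nat_lit 2) (nat_lit 185) (nat_lit 201) (nat_lit 184)) (PT.lf (nat_lit 43624) (nat_lit 6) (nat_lit 574) (nat_lit 2) (nat_lit 186) (nat_lit 201) (nat_lit 183)))))) (PT.nd (nat_lit 546) (PT.nd (nat_lit 234) (PT.nd (nat_lit 78) (PT.lf (nat_lit 43700) (nat_lit 6) (nat_lit 575) (nat_lit 2) (nat_lit 187) (nat_lit 201) (nat_lit 182)) (PT.nd (nat_lit 78) (PT.lf (nat_lit 43776) (nat_lit 6) (nat_lit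 576) (nat_lit 2) (nat_lit 188) (nat_lit 201) (nat_lit 181)) (PT.lf (nat_lit 43852) (nat_lit 6) (nat_lit 577) (nat_lit 2) (nat_lit 189) (nat_lit 201) (nat_lit 180)))) (PT.nd (nat_lit 156) (PT.nd (nat_lit 78) (PT.lf (nat_lit 43928) (nat_lit 6) (nat_lit 578) (nat_lit 2) (nat_lit 190) (nat_lit 201) (nat_lit 179)) (PT.lf (nat_lit 43092) (nat_lit 6) (nat_lit 567) (nat_lit 2) (nat_lit 191) (nat_lit 201) (nat_lit 178))) (PT.nd (nat_lit 78) (PT.lf (nat_lit 42180) (nat_lit 6) (nat_lit 555) (nat_lit 2) (nat_lit 192) (nat_lit 201) (nat_lit 177)) (PT.lf (nat_lit 41192) (nat_lit 6) (nat_lit 542) (nat_lit 2) (nat_lit 193) (nat_lit 201) (nat_lit 176))))) (PT.nd (nat_lit 234) (PT.nd (nat_lit 78) (PT.lf (nat_lit 40128) (nat_lit 6) (nat_lit 528) (nat_lit 2) (nat_lit 194) (nat_lit 201) (nat_lit 175)) (PT.nd (nat_lit 78) (PT.lf (nat_lit 38988) (nat_lit 6) (nat_lit 513) (nat_lit 2) (nat_lit 195) (nat_lit 201) (nat_lit 174)) (PT.lf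 (nat_lit 37772) (nat_lit 6) (nat_lit 497) (nat_lit 2) (nat_lit 196) (nat_lit 201) (nat_lit 173)))) (PT.nd (nat_lit 156) (PT.nd (nat_lit 78) (PT.lf (nat_lit 36480) (nat_lit 6) (nat_lit 480) (nat_lit 2) (nat_lit 197) (nat_lit 201) (nat_lit 172)) (PT.lf (nat_lit 35112) (nat_lit 6) (nat_lit 462) (nat_lit 2) (nat_lit 198) (nat_lit 201) (nat_lit 171))) (PT.nd (nat_lit 78) (PT.lf (nat_lit 33668) (nat_lit 6) (nat_lit 443) (nat_lit 2) (nat_lit 199) (nat_lit 201) (nat_lit 170)) (PT.lf (nat_lit 32148) (nat_lit 6) (nat_lit 423) (nat_lit 2) (nat_lit 200) (nat_lit 201) (nat_lit 169))))))))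
noncomputable def pc37 : PT := (PT.nd (nat_lit 56472) (PT.nd (nat_lit 1092) (PT.nd (nat_lit 546) (PT.nd (nat_lit 234) (PT.nd (nat_lit 78) (PT.lf (nat_lit 30552) (nat_lit 3) (nat_lit 402) (nat_lit 0) (nat_lit 201) (nat_lit 201) (nat_lit 168)) (PT.nd (nat_lit 78) (PT.lf (nat_lit 28804) (nat_lit 6) (nat_lit 379) (nat_lit 0) (nat_lit 202) (nat_lit 201) (nat_lit 167)) (PT.lf (nat_lit 27436) (nat_lit 6) (nat_lit 361) (nat_lit 0) (nat_lit 203) (nat_lit 201) (nat_lit 166)))) (PT.nd (nat_lit 156) (PT.nd (nat_lit 78) (PT.lf (nat_lit 26524) (nat_lit 6) (nat_lit 349) (nat_lit 0) (nat_lit 204) (nat_lit 201) (nat_lit 165)) (PT.lf (nat_lit 25612) (nat_lit 6) (nat_lit 337) (nat_lit 0) (nat_lit 205) (nat_lit 201) (nat_lit 164))) (PT.nd (nat_lit 78) (PT.lf (nat_lit 24700) (nat_lit 6) (nat_lit 325) (nat_lit 0) (nat_lit 206) (nat_lit 201) (nat_lit 163)) (PT.lf (nat_lit 23788) (nat_lit 6) (nat_lit 313) (nat_lit 0) (nat_lit 207) (nat_lit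 201) (nat_lit 162))))) (PT.nd (nat_lit 234) (PT.nd (nat_lit 78) (PT.lf (nat_lit 22952) (nat_lit 6) (nat_lit 302) (nat_lit 0) (nat_lit 208) (nat_lit 201) (nat_lit 161)) (PT.nd (nat_lit 78) (PT.lf (nat_lit 22116) (nat_lit 6) (nat_lit 291) (nat_lit 0) (nat_lit 209) (nat_lit 201) (nat_lit 160)) (PT.lf (nat_lit 21356) (nat_lit 6) (nat_lit 281) (nat_lit 0) (nat_lit 210) (nat_lit 201) (nat_lit 159)))) (PT.nd (nat_lit 156) (PT.nd (nat_lit 78) (PT.lf (nat_lit 20520) (nat_lit 6) (nat_lit 270) (nat_lit 0) (nat_lit 211) (nat_lit 201) (nat_lit 158)) (PT.lf (nat_lit 19760) (nat_lit 6) (nat_lit 260) (nat_lit 0) (nat_lit 212) (nat_lit 201) (nat_lit 157))) (PT.nd (nat_lit 78) (PT.lf (nat_lit 19000) (nat_lit 6) (nat_lit 250) (nat_lit 0) (nat_lit 213) (nat_lit 201) (nat_lit 156)) (PT.lf (nat_lit 18316) (nat_lit 6) (nat_lit 241) (nat_lit 0) (nat_lit 214) (nat_lit 201) (nat_lit 155)))))) (PT.nd (nat_lit 54834) (PT.nd (nat_lit 54522)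 (PT.nd (nat_lit 78) (PT.lf (nat_lit 17632) (nat_lit 6) (nat_lit 232) (nat_lit 0) (nat_lit 215) (nat_lit 201) (nat_lit 154)) (PT.nd (nat_lit 54366) (PT.lf (nat_lit 16948) (nat_lit 6) (nat_lit 223) (nat_lit 0) (nat_lit 216) (nat_lit 201) (nat_lit 153)) (PT.lf (nat_lit 16340) (nat_lit 6) (nat_lit 215) (nat_lit 5) (nat_lit 152) (nat_lit 202) (nat_lit 216)))) (PT.nd (nat_lit 156) (PT.nd (nat_lit 78) (PT.lf (nat_lit 17024) (nat_lit 6) (nat_lit 224) (nat_lit 5) (nat_lit 153) (nat_lit 202) (nat_lit 215)) (PT.lf (nat_lit 17708) (nat_lit 6) (nat_lit 233) (nat_lit 5) (nat_lit 154) (nat_lit 202) (nat_lit 214))) (PT.nd (nat_lit 78) (PT.lf (nat_lit 18392) (nat_lit 6) (nat_lit 242) (nat_lit 5) (nat_lit 155) (nat_lit 202) (nat_lit 213)) (PT.lf (nat_lit 19076) (nat_lit 6) (nat_lit 251) (nat_lit 5) (nat_lit 156) (nat_lit 202) (nat_lit 212))))) (PT.nd (nat_lit 234) (PT.nd (nat_lit 78) (PT.lf (nat_lit 19836) (nat_lit 6) (nat_lit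 261) (nat_lit 5) (nat_lit 157) (nat_lit 202) (nat_lit 211)) (PT.nd (nat_lit 78) (PT.lf (nat_lit 20596) (nat_lit 6) (nat_lit 271) (nat_lit 5) (nat_lit 158) (nat_lit 202) (nat_lit 210)) (PT.lf (nat_lit 21432) (nat_lit 6) (nat_lit 282) (nat_lit 5) (nat_lit 159) (nat_lit 202) (nat_lit 209)))) (PT.nd (nat_lit 156) (PT.nd (nat_lit 78) (PT.lf (nat_lit 22192) (nat_lit 6) (nat_lit 292) (nat_lit 5) (nat_lit 160) (nat_lit 202) (nat_lit 208)) (PT.lf (nat_lit 23028) (nat_lit 6) (nat_lit 303) (nat_lit 5) (nat_lit 161) (nat_lit 202) (nat_lit 207))) (PT.nd (nat_lit 78) (PT.lf (nat_lit 23864) (nat_lit 6) (nat_lit 314) (nat_lit 5) (nat_lit 162) (nat_lit 202) (nat_lit 206)) (PT.lf (nat_lit 24776) (nat_lit 6) (nat_lit 326) (nat_lit 5) (nat_lit 163) (nat_lit 202) (nat_lit 205))))))) (PT.nd (nat_lit 1092) (PT.nd (nat_lit 546) (PT.nd (nat_lit 234) (PT.nd (nat_lit 78) (PT.lf (nat_lit 25688) (nat_lit 6) (nat_lit 338) (nat_lit 5) (nat_lit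 164) (nat_lit 202) (nat_lit 204)) (PT.nd (nat_lit 78) (PT.lf (nat_lit 26600) (nat_lit 6) (nat_lit 350) (nat_lit 5) (nat_lit 165) (nat_lit 202) (nat_lit 203)) (PT.lf (nat_lit 27512) (nat_lit 3) (nat_lit 362) (nat_lit 4) (nat_lit 166) (nat_lit 202) (nat_lit 202)))) (PT.nd (nat_lit 156) (PT.nd (nat_lit 78) (PT.lf (nat_lit 28804) (nat_lit 6) (nat_lit 379) (nat_lit 4) (nat_lit 167) (nat_lit 202) (nat_lit 201)) (PT.lf (nat_lit 30476) (nat_lit 6) (nat_lit 401) (nat_lit 4) (nat_lit 168) (nat_lit 202) (nat_lit 200))) (PT.nd (nat_lit 78) (PT.lf (nat_lit 32072) (nat_lit 6) (nat_lit 422) (nat_lit 4) (nat_lit 169) (nat_lit 202) (nat_lit 199)) (PT.lf (nat_lit 33592) (nat_lit 6) (nat_lit 442) (nat_lit 4) (nat_lit 170) (nat_lit 202) (nat_lit 198))))) (PT.nd (nat_lit 234) (PT.nd (nat_lit 78) (PT.lf (nat_lit 35036) (nat_lit 6) (nat_lit 461) (nat_lit 4) (nat_lit 171) (nat_lit 202) (nat_lit 197)) (PT.nd (nat_lit 78) (PT.lf (nat_lit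 36404) (nat_lit 6) (nat_lit 479) (nat_lit 4) (nat_lit 172) (nat_lit 202) (nat_lit 196)) (PT.lf (nat_lit 37696) (nat_lit 6) (nat_lit 496) (nat_lit 4) (nat_lit 173) (nat_lit 202) (nat_lit 195)))) (PT.nd (nat_lit 156) (PT.nd (nat_lit 78) (PT.lf (nat_lit 38912) (nat_lit 6) (nat_lit 512) (nat_lit 4) (nat_lit 174) (nat_lit 202) (nat_lit 194)) (PT.lf (nat_lit 40052) (nat_lit 6) (nat_lit 527) (nat_lit 4) (nat_lit 175) (nat_lit 202) (nat_lit 193))) (PT.nd (nat_lit 78) (PT.lf (nat_lit 41116) (nat_lit 6) (nat_lit 541) (nat_lit 4) (nat_lit 176) (nat_lit 202) (nat_lit 192)) (PT.lf (nat_lit 42104) (nat_lit 6) (nat_lit 554) (nat_lit 4) (nat_lit 177) (nat_lit 202) (nat_lit 191)))))) (PT.nd (nat_lit 546) (PT.nd (nat_lit 234) (PT.nd (nat_lit 78) (PT.lf (nat_lit 43016) (nat_lit 6) (nat_lit 566) (nat_lit 4) (nat_lit 178) (nat_lit 202) (nat_lit 190)) (PT.nd (nat_lit 78) (PT.lf (nat_lit 42940) (nat_lit 6) (nat_lit 565) (nat_lit 4)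 (nat_lit 179) (nat_lit 202) (nat_lit 189)) (PT.lf (nat_lit 42864) (nat_lit 6) (nat_lit 564) (nat_lit 4) (nat_lit 180) (nat_lit 202) (nat_lit 188)))) (PT.nd (nat_lit 156) (PT.nd (nat_lit 78) (PT.lf (nat_lit 42788) (nat_lit 6) (nat_lit 563) (nat_lit 4) (nat_lit 181) (nat_lit 202) (nat_lit 187)) (PT.lf (nat_lit 42712) (nat_lit 6) (nat_lit 562) (nat_lit 4) (nat_lit 182) (nat_lit 202) (nat_lit 186))) (PT.nd (nat_lit 78) (PT.lf (nat_lit 42636) (nat_lit 6) (nat_lit 561) (nat_lit 4) (nat_lit 183) (nat_lit 202) (nat_lit 185)) (PT.lf (nat_lit 42560) (nat_lit 3) (nat_lit 560) (nat_lit 2) (nat_lit 184) (nat_lit 202) (nat_lit 184))))) (PT.nd (nat_lit 312) (PT.nd (nat_lit 156) (PT.nd (nat_lit 78) (PT.lf (nat_lit 42636) (nat_lit 6) (nat_lit 561) (nat_lit 2) (nat_lit 185) (nat_lit 202) (nat_lit 183)) (PT.lf (nat_lit 42712) (nat_lit 6) (nat_lit 562) (nat_lit 2) (nat_lit 186) (nat_lit 202) (nat_lit 182))) (PT.nd (nat_lit 78) (PT.lf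 (nat_lit 42788) (nat_lit 6) (nat_lit 563) (nat_lit 2) (nat_lit 187) (nat_lit 202) (nat_lit 181)) (PT.lf (nat_lit 42864) (nat_lit 6) (nat_lit 564) (nat_lit 2) (nat_lit 188) (nat_lit 202) (nat_lit 180)))) (PT.nd (nat_lit 156) (PT.nd (nat_lit 78) (PT.lf (nat_lit 42940) (nat_lit 6) (nat_lit 565) (nat_lit 2) (nat_lit 189) (nat_lit 202) (nat_lit 179)) (PT.lf (nat_lit 43016) (nat_lit 6) (nat_lit 566) (nat_lit 2) (nat_lit 190) (nat_lit 202) (nat_lit 178))) (PT.nd (nat_lit 78) (PT.lf (nat_lit 42104) (nat_lit 6) (nat_lit 554) (nat_lit 2) (nat_lit 191) (nat_lit 202) (nat_lit 177)) (PT.lf (nat_lit 41116) (nat_lit 6) (nat_lit 541) (nat_lit 2) (nat_lit 192) (nat_lit 202) (nat_lit 176))))))))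
noncomputable def pc38 : PT := (PT.nd (nat_lit 56316) (PT.nd (nat_lit 1092) (PT.nd (nat_lit 546) (PT.nd (nat_lit 234) (PT.nd (nat_lit 78) (PT.lf (nat_lit 40052) (nat_lit 6) (nat_lit 527) (nat_lit 2) (nat_lit 193) (nat_lit 202) (nat_lit 175)) (PT.nd (nat_lit 78) (PT.lf (nat_lit 38912) (nat_lit 6) (nat_lit 512) (nat_lit 2) (nat_lit 194) (nat_lit 202) (nat_lit 174)) (PT.lf (nat_lit 37696) (nat_lit 6) (nat_lit 496) (nat_lit 2) (nat_lit 195) (nat_lit 202) (nat_lit 173)))) (PT.nd (nat_lit 156) (PT.nd (nat_lit 78) (PT.lf (nat_lit 36404) (nat_lit 6) (nat_lit 479) (nat_lit 2) (nat_lit 196) (nat_lit 202) (nat_lit 172)) (PT.lf (nat_lit 35036) (nat_lit 6) (nat_lit 461) (nat_lit 2) (nat_lit 197) (nat_lit 202) (nat_lit 171))) (PT.nd (nat_lit 78) (PT.lf (nat_lit 33592) (nat_lit 6) (nat_lit 442) (nat_lit 2) (nat_lit 198) (nat_lit 202) (nat_lit 170)) (PT.lf (nat_lit 32072) (nat_lit 6) (nat_lit 422) (nat_lit 2) (nat_lit 199) (nat_lit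 202) (nat_lit 169))))) (PT.nd (nat_lit 234) (PT.nd (nat_lit 78) (PT.lf (nat_lit 30476) (nat_lit 6) (nat_lit 401) (nat_lit 2) (nat_lit 200) (nat_lit 202) (nat_lit 168)) (PT.nd (nat_lit 78) (PT.lf (nat_lit 28804) (nat_lit 6) (nat_lit 379) (nat_lit 2) (nat_lit 201) (nat_lit 202) (nat_lit 167)) (PT.lf (nat_lit 27512) (nat_lit 3) (nat_lit 362) (nat_lit 0) (nat_lit 202) (nat_lit 202) (nat_lit 166)))) (PT.nd (nat_lit 156) (PT.nd (nat_lit 78) (PT.lf (nat_lit 26600) (nat_lit 6) (nat_lit 350) (nat_lit 0) (nat_lit 203) (nat_lit 202) (nat_lit 165)) (PT.lf (nat_lit 25688) (nat_lit 6) (nat_lit 338) (nat_lit 0) (nat_lit 204) (nat_lit 202) (nat_lit 164))) (PT.nd (nat_lit 78) (PT.lf (nat_lit 24776) (nat_lit 6) (nat_lit 326) (nat_lit 0) (nat_lit 205) (nat_lit 202) (nat_lit 163)) (PT.lf (nat_lit 23864) (nat_lit 6) (nat_lit 314) (nat_lit 0) (nat_lit 206) (nat_lit 202) (nat_lit 162)))))) (PT.nd (nat_lit 546) (PT.nd (nat_lit 234)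 (PT.nd (nat_lit 78) (PT.lf (nat_lit 23028) (nat_lit 6) (nat_lit 303) (nat_lit 0) (nat_lit 207) (nat_lit 202) (nat_lit 161)) (PT.nd (nat_lit 78) (PT.lf (nat_lit 22192) (nat_lit 6) (nat_lit 292) (nat_lit 0) (nat_lit 208) (nat_lit 202) (nat_lit 160)) (PT.lf (nat_lit 21432) (nat_lit 6) (nat_lit 282) (nat_lit 0) (nat_lit 209) (nat_lit 202) (nat_lit 159)))) (PT.nd (nat_lit 156) (PT.nd (nat_lit 78) (PT.lf (nat_lit 20596) (nat_lit 6) (nat_lit 271) (nat_lit 0) (nat_lit 210) (nat_lit 202) (nat_lit 158)) (PT.lf (nat_lit 19836) (nat_lit 6) (nat_lit 261) (nat_lit 0) (nat_lit 211) (nat_lit 202) (nat_lit 157))) (PT.nd (nat_lit 78) (PT.lf (nat_lit 19076) (nat_lit 6) (nat_lit 251) (nat_lit 0) (nat_lit 212) (nat_lit 202) (nat_lit 156)) (PT.lf (nat_lit 18392) (nat_lit 6) (nat_lit 242) (nat_lit 0) (nat_lit 213) (nat_lit 202) (nat_lit 155))))) (PT.nd (nat_lit 54366) (PT.nd (nat_lit 78) (PT.lf (nat_lit 17708) (nat_lit 6) (nat_lit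 233) (nat_lit 0) (nat_lit 214) (nat_lit 202) (nat_lit 154)) (PT.nd (nat_lit 78) (PT.lf (nat_lit 17024) (nat_lit 6) (nat_lit 224) (nat_lit 0) (nat_lit 215) (nat_lit 202) (nat_lit 153)) (PT.lf (nat_lit 16340) (nat_lit 6) (nat_lit 215) (nat_lit 0) (nat_lit 216) (nat_lit 202) (nat_lit 152)))) (PT.nd (nat_lit 156) (PT.nd (nat_lit 78) (PT.lf (nat_lit 15200) (nat_lit 6) (nat_lit 200) (nat_lit 5) (nat_lit 150) (nat_lit 203) (nat_lit 217)) (PT.lf (nat_lit 15808) (nat_lit 6) (nat_lit 208) (nat_lit 5) (nat_lit 151) (nat_lit 203) (nat_lit 216))) (PT.nd (nat_lit 78) (PT.lf (nat_lit 16416) (nat_lit 6) (nat_lit 216) (nat_lit 5) (nat_lit 152) (nat_lit 203) (nat_lit 215)) (PT.lf (nat_lit 17100) (nat_lit 6) (nat_lit 225) (nat_lit 5) (nat_lit 153) (nat_lit 203) (nat_lit 214))))))) (PT.nd (nat_lit 1092) (PT.nd (nat_lit 546) (PT.nd (nat_lit 234) (PT.nd (nat_lit 78) (PT.lf (nat_lit 17784) (nat_lit 6) (nat_lit 234) (nat_lit 5) (nat_lit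 154) (nat_lit 203) (nat_lit 213)) (PT.nd (nat_lit 78) (PT.lf (nat_lit 18468) (nat_lit 6) (nat_lit 243) (nat_lit 5) (nat_lit 155) (nat_lit 203) (nat_lit 212)) (PT.lf (nat_lit 19152) (nat_lit 6) (nat_lit 252) (nat_lit 5) (nat_lit 156) (nat_lit 203) (nat_lit 211)))) (PT.nd (nat_lit 156) (PT.nd (nat_lit 78) (PT.lf (nat_lit 19912) (nat_lit 6) (nat_lit 262) (nat_lit 5) (nat_lit 157) (nat_lit 203) (nat_lit 210)) (PT.lf (nat_lit 20672) (nat_lit 6) (nat_lit 272) (nat_lit 5) (nat_lit 158) (nat_lit 203) (nat_lit 209))) (PT.nd (nat_lit 78) (PT.lf (nat_lit 21508) (nat_lit 6) (nat_lit 283) (nat_lit 5) (nat_lit 159) (nat_lit 203) (nat_lit 208)) (PT.lf (nat_lit 22268) (nat_lit 6) (nat_lit 293) (nat_lit 5) (nat_lit 160) (nat_lit 203) (nat_lit 207))))) (PT.nd (nat_lit 234) (PT.nd (nat_lit 78) (PT.lf (nat_lit 23104) (nat_lit 6) (nat_lit 304) (nat_lit 5) (nat_lit 161) (nat_lit 203) (nat_lit 206)) (PT.nd (nat_lit 78) (PT.lf (nat_lit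 23940) (nat_lit 6) (nat_lit 315) (nat_lit 5) (nat_lit 162) (nat_lit 203) (nat_lit 205)) (PT.lf (nat_lit 24852) (nat_lit 6) (nat_lit 327) (nat_lit 5) (nat_lit 163) (nat_lit 203) (nat_lit 204)))) (PT.nd (nat_lit 156) (PT.nd (nat_lit 78) (PT.lf (nat_lit 25764) (nat_lit 3) (nat_lit 339) (nat_lit 4) (nat_lit 164) (nat_lit 203) (nat_lit 203)) (PT.lf (nat_lit 26600) (nat_lit 6) (nat_lit 350) (nat_lit 4) (nat_lit 165) (nat_lit 203) (nat_lit 202))) (PT.nd (nat_lit 78) (PT.lf (nat_lit 27436) (nat_lit 6) (nat_lit 361) (nat_lit 4) (nat_lit 166) (nat_lit 203) (nat_lit 201)) (PT.lf (nat_lit 28728) (nat_lit 6) (nat_lit 378) (nat_lit 4) (nat_lit 167) (nat_lit 203) (nat_lit 200)))))) (PT.nd (nat_lit 546) (PT.nd (nat_lit 234) (PT.nd (nat_lit 78) (PT.lf (nat_lit 30400) (nat_lit 6) (nat_lit 400) (nat_lit 4) (nat_lit 168) (nat_lit 203) (nat_lit 199)) (PT.nd (nat_lit 78) (PT.lf (nat_lit 31996) (nat_lit 6) (nat_lit 421) (nat_lit 4)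 (nat_lit 169) (nat_lit 203) (nat_lit 198)) (PT.lf (nat_lit 33516) (nat_lit 6) (nat_lit 441) (nat_lit 4) (nat_lit 170) (nat_lit 203) (nat_lit 197)))) (PT.nd (nat_lit 156) (PT.nd (nat_lit 78) (PT.lf (nat_lit 34960) (nat_lit 6) (nat_lit 460) (nat_lit 4) (nat_lit 171) (nat_lit 203) (nat_lit 196)) (PT.lf (nat_lit 36328) (nat_lit 6) (nat_lit 478) (nat_lit 4) (nat_lit 172) (nat_lit 203) (nat_lit 195))) (PT.nd (nat_lit 78) (PT.lf (nat_lit 37620) (nat_lit 6) (nat_lit 495) (nat_lit 4) (nat_lit 173) (nat_lit 203) (nat_lit 194)) (PT.lf (nat_lit 38836) (nat_lit 6) (nat_lit 511) (nat_lit 4) (nat_lit 174) (nat_lit 203) (nat_lit 193))))) (PT.nd (nat_lit 312) (PT.nd (nat_lit 156) (PT.nd (nat_lit 78) (PT.lf (nat_lit 39976) (nat_lit 6) (nat_lit 526) (nat_lit 4) (nat_lit 175) (nat_lit 203) (nat_lit 192)) (PT.lf (nat_lit 41040) (nat_lit 6) (nat_lit 540) (nat_lit 4) (nat_lit 176) (nat_lit 203) (nat_lit 191))) (PT.nd (nat_lit 78) (PT.lf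 (nat_lit 42028) (nat_lit 6) (nat_lit 553) (nat_lit 4) (nat_lit 177) (nat_lit 203) (nat_lit 190)) (PT.lf (nat_lit 41952) (nat_lit 6) (nat_lit 552) (nat_lit 4) (nat_lit 178) (nat_lit 203) (nat_lit 189)))) (PT.nd (nat_lit 156) (PT.nd (nat_lit 78) (PT.lf (nat_lit 41876) (nat_lit 6) (nat_lit 551) (nat_lit 4) (nat_lit 179) (nat_lit 203) (nat_lit 188)) (PT.lf (nat_lit 41800) (nat_lit 6) (nat_lit 550) (nat_lit 4) (nat_lit 180) (nat_lit 203) (nat_lit 187))) (PT.nd (nat_lit 78) (PT.lf (nat_lit 41724) (nat_lit 6) (nat_lit 549) (nat_lit 4) (nat_lit 181) (nat_lit 203) (nat_lit 186)) (PT.lf (nat_lit 41648) (nat_lit 6) (nat_lit 548) (nat_lit 4) (nat_lit 182) (nat_lit 203) (nat_lit 185))))))))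
noncomputable def pc39 : PT := (PT.nd (nat_lit 2184) (PT.nd (nat_lit 1092) (PT.nd (nat_lit 546) (PT.nd (nat_lit 234) (PT.nd (nat_lit 78) (PT.lf (nat_lit 41572) (nat_lit 6) (nat_lit 547) (nat_lit 4) (nat_lit 183) (nat_lit 203) (nat_lit 184)) (PT.nd (nat_lit 78) (PT.lf (nat_lit 41572) (nat_lit 6) (nat_lit 547) (nat_lit 2) (nat_lit 184) (nat_lit 203) (nat_lit 183)) (PT.lf (nat_lit 41648) (nat_lit 6) (nat_lit 548) (nat_lit 2) (nat_lit 185) (nat_lit 203) (nat_lit 182)))) (PT.nd (nat_lit 156) (PT.nd (nat_lit 78) (PT.lf (nat_lit 41724) (nat_lit 6) (nat_lit 549) (nat_lit 2) (nat_lit 186) (nat_lit 203) (nat_lit 181)) (PT.lf (nat_lit 41800) (nat_lit 6) (nat_lit 550) (nat_lit 2) (nat_lit 187) (nat_lit 203) (nat_lit 180))) (PT.nd (nat_lit 78) (PT.lf (nat_lit 41876) (nat_lit 6) (nat_lit 551) (nat_lit 2) (nat_lit 188) (nat_lit 203) (nat_lit 179)) (PT.lf (nat_lit 41952) (nat_lit 6) (nat_lit 552) (nat_lit 2) (nat_lit 189) (nat_lit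 203) (nat_lit 178))))) (PT.nd (nat_lit 234) (PT.nd (nat_lit 78) (PT.lf (nat_lit 42028) (nat_lit 6) (nat_lit 553) (nat_lit 2) (nat_lit 190) (nat_lit 203) (nat_lit 177)) (PT.nd (nat_lit 78) (PT.lf (nat_lit 41040) (nat_lit 6) (nat_lit 540) (nat_lit 2) (nat_lit 191) (nat_lit 203) (nat_lit 176)) (PT.lf (nat_lit 39976) (nat_lit 6) (nat_lit 526) (nat_lit 2) (nat_lit 192) (nat_lit 203) (nat_lit 175)))) (PT.nd (nat_lit 156) (PT.nd (nat_lit 78) (PT.lf (nat_lit 38836) (nat_lit 6) (nat_lit 511) (nat_lit 2) (nat_lit 193) (nat_lit 203) (nat_lit 174)) (PT.lf (nat_lit 37620) (nat_lit 6) (nat_lit 495) (nat_lit 2) (nat_lit 194) (nat_lit 203) (nat_lit 173))) (PT.nd (nat_lit 78) (PT.lf (nat_lit 36328) (nat_lit 6) (nat_lit 478) (nat_lit 2) (nat_lit 195) (nat_lit 203) (nat_lit 172)) (PT.lf (nat_lit 34960) (nat_lit 6) (nat_lit 460) (nat_lit 2) (nat_lit 196) (nat_lit 203) (nat_lit 171)))))) (PT.nd (nat_lit 546) (PT.nd (nat_lit 234)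 (PT.nd (nat_lit 78) (PT.lf (nat_lit 33516) (nat_lit 6) (nat_lit 441) (nat_lit 2) (nat_lit 197) (nat_lit 203) (nat_lit 170)) (PT.nd (nat_lit 78) (PT.lf (nat_lit 31996) (nat_lit 6) (nat_lit 421) (nat_lit 2) (nat_lit 198) (nat_lit 203) (nat_lit 169)) (PT.lf (nat_lit 30400) (nat_lit 6) (nat_lit 400) (nat_lit 2) (nat_lit 199) (nat_lit 203) (nat_lit 168)))) (PT.nd (nat_lit 156) (PT.nd (nat_lit 78) (PT.lf (nat_lit 28728) (nat_lit 6) (nat_lit 378) (nat_lit 2) (nat_lit 200) (nat_lit 203) (nat_lit 167)) (PT.lf (nat_lit 27436) (nat_lit 6) (nat_lit 361) (nat_lit 2) (nat_lit 201) (nat_lit 203) (nat_lit 166))) (PT.nd (nat_lit 78) (PT.lf (nat_lit 26600) (nat_lit 6) (nat_lit 350) (nat_lit 2) (nat_lit 202) (nat_lit 203) (nat_lit 165)) (PT.lf (nat_lit 25764) (nat_lit 3) (nat_lit 339) (nat_lit 0) (nat_lit 203) (nat_lit 203) (nat_lit 164))))) (PT.nd (nat_lit 234) (PT.nd (nat_lit 78) (PT.lf (nat_lit 24852) (nat_lit 6) (nat_lit 327)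 (nat_lit 0) (nat_lit 204) (nat_lit 203) (nat_lit 163)) (PT.nd (nat_lit 78) (PT.lf (nat_lit 23940) (nat_lit 6) (nat_lit 315) (nat_lit 0) (nat_lit 205) (nat_lit 203) (nat_lit 162)) (PT.lf (nat_lit 23104) (nat_lit 6) (nat_lit 304) (nat_lit 0) (nat_lit 206) (nat_lit 203) (nat_lit 161)))) (PT.nd (nat_lit 156) (PT.nd (nat_lit 78) (PT.lf (nat_lit 22268) (nat_lit 6) (nat_lit 293) (nat_lit 0) (nat_lit 207) (nat_lit 203) (nat_lit 160)) (PT.lf (nat_lit 21508) (nat_lit 6) (nat_lit 283) (nat_lit 0) (nat_lit 208) (nat_lit 203) (nat_lit 159))) (PT.nd (nat_lit 78) (PT.lf (nat_lit 20672) (nat_lit 6) (nat_lit 272) (nat_lit 0) (nat_lit 209) (nat_lit 203) (nat_lit 158)) (PT.lf (nat_lit 19912) (nat_lit 6) (nat_lit 262) (nat_lit 0) (nat_lit 210) (nat_lit 203) (nat_lit 157))))))) (PT.nd (nat_lit 55068) (PT.nd (nat_lit 54522) (PT.nd (nat_lit 234) (PT.nd (nat_lit 78) (PT.lf (nat_lit 19152) (nat_lit 6) (nat_lit 252) (nat_lit 0) (nat_lit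 211) (nat_lit 203) (nat_lit 156)) (PT.nd (nat_lit 78) (PT.lf (nat_lit 18468) (nat_lit 6) (nat_lit 243) (nat_lit 0) (nat_lit 212) (nat_lit 203) (nat_lit 155)) (PT.lf (nat_lit 17784) (nat_lit 6) (nat_lit 234) (nat_lit 0) (nat_lit 213) (nat_lit 203) (nat_lit 154)))) (PT.nd (nat_lit 156) (PT.nd (nat_lit 78) (PT.lf (nat_lit 17100) (nat_lit 6) (nat_lit 225) (nat_lit 0) (nat_lit 214) (nat_lit 203) (nat_lit 153)) (PT.lf (nat_lit 16416) (nat_lit 6) (nat_lit 216) (nat_lit 0) (nat_lit 215) (nat_lit 203) (nat_lit 152))) (PT.nd (nat_lit 78) (PT.lf (nat_lit 15808) (nat_lit 6) (nat_lit 208) (nat_lit 0) (nat_lit 216) (nat_lit 203) (nat_lit 151)) (PT.lf (nat_lit 15200) (nat_lit 6) (nat_lit 200) (nat_lit 0) (nat_lit 217) (nat_lit 203) (nat_lit 150))))) (PT.nd (nat_lit 234) (PT.nd (nat_lit 78) (PT.lf (nat_lit 14668) (nat_lit 6) (nat_lit 193) (nat_lit 5) (nat_lit 149) (nat_lit 204) (nat_lit 217)) (PT.nd (nat_lit 78) (PT.lf (nat_lit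 15276) (nat_lit 6) (nat_lit 201) (nat_lit 5) (nat_lit 150) (nat_lit 204) (nat_lit 216)) (PT.lf (nat_lit 15884) (nat_lit 6) (nat_lit 209) (nat_lit 5) (nat_lit 151) (nat_lit 204) (nat_lit 215)))) (PT.nd (nat_lit 156) (PT.nd (nat_lit 78) (PT.lf (nat_lit 16492) (nat_lit 6) (nat_lit 217) (nat_lit 5) (nat_lit 152) (nat_lit 204) (nat_lit 214)) (PT.lf (nat_lit 17176) (nat_lit 6) (nat_lit 226) (nat_lit 5) (nat_lit 153) (nat_lit 204) (nat_lit 213))) (PT.nd (nat_lit 78) (PT.lf (nat_lit 17860) (nat_lit 6) (nat_lit 235) (nat_lit 5) (nat_lit 154) (nat_lit 204) (nat_lit 212)) (PT.lf (nat_lit 18544) (nat_lit 6) (nat_lit 244) (nat_lit 5) (nat_lit 155) (nat_lit 204) (nat_lit 211)))))) (PT.nd (nat_lit 546) (PT.nd (nat_lit 234) (PT.nd (nat_lit 78) (PT.lf (nat_lit 19228) (nat_lit 6) (nat_lit 253) (nat_lit 5) (nat_lit 156) (nat_lit 204) (nat_lit 210)) (PT.nd (nat_lit 78) (PT.lf (nat_lit 19988) (nat_lit 6) (nat_lit 263) (nat_lit 5)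 (nat_lit 157) (nat_lit 204) (nat_lit 209)) (PT.lf (nat_lit 20748) (nat_lit 6) (nat_lit 273) (nat_lit 5) (nat_lit 158) (nat_lit 204) (nat_lit 208)))) (PT.nd (nat_lit 156) (PT.nd (nat_lit 78) (PT.lf (nat_lit 21584) (nat_lit 6) (nat_lit 284) (nat_lit 5) (nat_lit 159) (nat_lit 204) (nat_lit 207)) (PT.lf (nat_lit 22344) (nat_lit 6) (nat_lit 294) (nat_lit 5) (nat_lit 160) (nat_lit 204) (nat_lit 206))) (PT.nd (nat_lit 78) (PT.lf (nat_lit 23180) (nat_lit 6) (nat_lit 305) (nat_lit 5) (nat_lit 161) (nat_lit 204) (nat_lit 205)) (PT.lf (nat_lit 24016) (nat_lit 3) (nat_lit 316) (nat_lit 4) (nat_lit 162) (nat_lit 204) (nat_lit 204))))) (PT.nd (nat_lit 312) (PT.nd (nat_lit 156) (PT.nd (nat_lit 78) (PT.lf (nat_lit 24852) (nat_lit 6) (nat_lit 327) (nat_lit 4) (nat_lit 163) (nat_lit 204) (nat_lit 203)) (PT.lf (nat_lit 25688) (nat_lit 6) (nat_lit 338) (nat_lit 4) (nat_lit 164) (nat_lit 204) (nat_lit 202))) (PT.nd (nat_lit 78) (PT.lf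 (nat_lit 26524) (nat_lit 6) (nat_lit 349) (nat_lit 4) (nat_lit 165) (nat_lit 204) (nat_lit 201)) (PT.lf (nat_lit 27360) (nat_lit 6) (nat_lit 360) (nat_lit 4) (nat_lit 166) (nat_lit 204) (nat_lit 200)))) (PT.nd (nat_lit 156) (PT.nd (nat_lit 78) (PT.lf (nat_lit 28652) (nat_lit 6) (nat_lit 377) (nat_lit 4) (nat_lit 167) (nat_lit 204) (nat_lit 199)) (PT.lf (nat_lit 30324) (nat_lit 6) (nat_lit 399) (nat_lit 4) (nat_lit 168) (nat_lit 204) (nat_lit 198))) (PT.nd (nat_lit 78) (PT.lf (nat_lit 31920) (nat_lit 6) (nat_lit 420) (nat_lit 4) (nat_lit 169) (nat_lit 204) (nat_lit 197)) (PT.lf (nat_lit 33440) (nat_lit 6) (nat_lit 440) (nat_lit 4) (nat_lit 170) (nat_lit 204) (nat_lit 196))))))))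
noncomputable def pc40 : PT := (PT.nd (nat_lit 2184) (PT.nd (nat_lit 1092) (PT.nd (nat_lit 546) (PT.nd (nat_lit 234) (PT.nd (nat_lit 78) (PT.lf (nat_lit 34884) (nat_lit 6) (nat_lit 459) (nat_lit 4) (nat_lit 171) (nat_lit 204) (nat_lit 195)) (PT.nd (nat_lit 78) (PT.lf (nat_lit 36252) (nat_lit 6) (nat_lit 477) (nat_lit 4) (nat_lit 172) (nat_lit 204) (nat_lit 194)) (PT.lf (nat_lit 37544) (nat_lit 6) (nat_lit 494) (nat_lit 4) (nat_lit 173) (nat_lit 204) (nat_lit 193)))) (PT.nd (nat_lit 156) (PT.nd (nat_lit 78) (PT.lf (nat_lit 38760) (nat_lit 6) (nat_lit 510) (nat_lit 4) (nat_lit 174) (nat_lit 204) (nat_lit 192)) (PT.lf (nat_lit 39900) (nat_lit 6) (nat_lit 525) (nat_lit 4) (nat_lit 175) (nat_lit 204) (nat_lit 191))) (PT.nd (nat_lit 78) (PT.lf (nat_lit 40964) (nat_lit 6) (nat_lit 539) (nat_lit 4) (nat_lit 176) (nat_lit 204) (nat_lit 190)) (PT.lf (nat_lit 40888) (nat_lit 6) (nat_lit 538) (nat_lit 4) (nat_lit 177) (nat_lit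 204) (nat_lit 189))))) (PT.nd (nat_lit 234) (PT.nd (nat_lit 78) (PT.lf (nat_lit 40812) (nat_lit 6) (nat_lit 537) (nat_lit 4) (nat_lit 178) (nat_lit 204) (nat_lit 188)) (PT.nd (nat_lit 78) (PT.lf (nat_lit 40736) (nat_lit 6) (nat_lit 536) (nat_lit 4) (nat_lit 179) (nat_lit 204) (nat_lit 187)) (PT.lf (nat_lit 40660) (nat_lit 6) (nat_lit 535) (nat_lit 4) (nat_lit 180) (nat_lit 204) (nat_lit 186)))) (PT.nd (nat_lit 156) (PT.nd (nat_lit 78) (PT.lf (nat_lit 40584) (nat_lit 6) (nat_lit 534) (nat_lit 4) (nat_lit 181) (nat_lit 204) (nat_lit 185)) (PT.lf (nat_lit 40508) (nat_lit 6) (nat_lit 533) (nat_lit 4) (nat_lit 182) (nat_lit 204) (nat_lit 184))) (PT.nd (nat_lit 78) (PT.lf (nat_lit 40432) (nat_lit 3) (nat_lit 532) (nat_lit 2) (nat_lit 183) (nat_lit 204) (nat_lit 183)) (PT.lf (nat_lit 40508) (nat_lit 6) (nat_lit 533) (nat_lit 2) (nat_lit 184) (nat_lit 204) (nat_lit 182)))))) (PT.nd (nat_lit 546) (PT.nd (nat_lit 234)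 (PT.nd (nat_lit 78) (PT.lf (nat_lit 40584) (nat_lit 6) (nat_lit 534) (nat_lit 2) (nat_lit 185) (nat_lit 204) (nat_lit 181)) (PT.nd (nat_lit 78) (PT.lf (nat_lit 40660) (nat_lit 6) (nat_lit 535) (nat_lit 2) (nat_lit 186) (nat_lit 204) (nat_lit 180)) (PT.lf (nat_lit 40736) (nat_lit 6) (nat_lit 536) (nat_lit 2) (nat_lit 187) (nat_lit 204) (nat_lit 179)))) (PT.nd (nat_lit 156) (PT.nd (nat_lit 78) (PT.lf (nat_lit 40812) (nat_lit 6) (nat_lit 537) (nat_lit 2) (nat_lit 188) (nat_lit 204) (nat_lit 178)) (PT.lf (nat_lit 40888) (nat_lit 6) (nat_lit 538) (nat_lit 2) (nat_lit 189) (nat_lit 204) (nat_lit 177))) (PT.nd (nat_lit 78) (PT.lf (nat_lit 40964) (nat_lit 6) (nat_lit 539) (nat_lit 2) (nat_lit 190) (nat_lit 204) (nat_lit 176)) (PT.lf (nat_lit 39900) (nat_lit 6) (nat_lit 525) (nat_lit 2) (nat_lit 191) (nat_lit 204) (nat_lit 175))))) (PT.nd (nat_lit 234) (PT.nd (nat_lit 78) (PT.lf (nat_lit 38760) (nat_lit 6) (nat_lit 510)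 (nat_lit 2) (nat_lit 192) (nat_lit 204) (nat_lit 174)) (PT.nd (nat_lit 78) (PT.lf (nat_lit 37544) (nat_lit 6) (nat_lit 494) (nat_lit 2) (nat_lit 193) (nat_lit 204) (nat_lit 173)) (PT.lf (nat_lit 36252) (nat_lit 6) (nat_lit 477) (nat_lit 2) (nat_lit 194) (nat_lit 204) (nat_lit 172)))) (PT.nd (nat_lit 156) (PT.nd (nat_lit 78) (PT.lf (nat_lit 34884) (nat_lit 6) (nat_lit 459) (nat_lit 2) (nat_lit 195) (nat_lit 204) (nat_lit 171)) (PT.lf (nat_lit 33440) (nat_lit 6) (nat_lit 440) (nat_lit 2) (nat_lit 196) (nat_lit 204) (nat_lit 170))) (PT.nd (nat_lit 78) (PT.lf (nat_lit 31920) (nat_lit 6) (nat_lit 420) (nat_lit 2) (nat_lit 197) (nat_lit 204) (nat_lit 169)) (PT.lf (nat_lit 30324) (nat_lit 6) (nat_lit 399) (nat_lit 2) (nat_lit 198) (nat_lit 204) (nat_lit 168))))))) (PT.nd (nat_lit 1092) (PT.nd (nat_lit 546) (PT.nd (nat_lit 234) (PT.nd (nat_lit 78) (PT.lf (nat_lit 28652) (nat_lit 6) (nat_lit 377) (nat_lit 2) (nat_lit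 199) (nat_lit 204) (nat_lit 167)) (PT.nd (nat_lit 78) (PT.lf (nat_lit 27360) (nat_lit 6) (nat_lit 360) (nat_lit 2) (nat_lit 200) (nat_lit 204) (nat_lit 166)) (PT.lf (nat_lit 26524) (nat_lit 6) (nat_lit 349) (nat_lit 2) (nat_lit 201) (nat_lit 204) (nat_lit 165)))) (PT.nd (nat_lit 156) (PT.nd (nat_lit 78) (PT.lf (nat_lit 25688) (nat_lit 6) (nat_lit 338) (nat_lit 2) (nat_lit 202) (nat_lit 204) (nat_lit 164)) (PT.lf (nat_lit 24852) (nat_lit 6) (nat_lit 327) (nat_lit 2) (nat_lit 203) (nat_lit 204) (nat_lit 163))) (PT.nd (nat_lit 78) (PT.lf (nat_lit 24016) (nat_lit 3) (nat_lit 316) (nat_lit 0) (nat_lit 204) (nat_lit 204) (nat_lit 162)) (PT.lf (nat_lit 23180) (nat_lit 6) (nat_lit 305) (nat_lit 0) (nat_lit 205) (nat_lit 204) (nat_lit 161))))) (PT.nd (nat_lit 234) (PT.nd (nat_lit 78) (PT.lf (nat_lit 22344) (nat_lit 6) (nat_lit 294) (nat_lit 0) (nat_lit 206) (nat_lit 204) (nat_lit 160)) (PT.nd (nat_lit 78) (PT.lf (nat_lit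 21584) (nat_lit 6) (nat_lit 284) (nat_lit 0) (nat_lit 207) (nat_lit 204) (nat_lit 159)) (PT.lf (nat_lit 20748) (nat_lit 6) (nat_lit 273) (nat_lit 0) (nat_lit 208) (nat_lit 204) (nat_lit 158)))) (PT.nd (nat_lit 156) (PT.nd (nat_lit 78) (PT.lf (nat_lit 19988) (nat_lit 6) (nat_lit 263) (nat_lit 0) (nat_lit 209) (nat_lit 204) (nat_lit 157)) (PT.lf (nat_lit 19228) (nat_lit 6) (nat_lit 253) (nat_lit 0) (nat_lit 210) (nat_lit 204) (nat_lit 156))) (PT.nd (nat_lit 78) (PT.lf (nat_lit 18544) (nat_lit 6) (nat_lit 244) (nat_lit 0) (nat_lit 211) (nat_lit 204) (nat_lit 155)) (PT.lf (nat_lit 17860) (nat_lit 6) (nat_lit 235) (nat_lit 0) (nat_lit 212) (nat_lit 204) (nat_lit 154)))))) (PT.nd (nat_lit 54366) (PT.nd (nat_lit 234) (PT.nd (nat_lit 78) (PT.lf (nat_lit 17176) (nat_lit 6) (nat_lit 226) (nat_lit 0) (nat_lit 213) (nat_lit 204) (nat_lit 153)) (PT.nd (nat_lit 78) (PT.lf (nat_lit 16492) (nat_lit 6) (nat_lit 217) (nat_lit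 0) (nat_lit 214) (nat_lit 204) (nat_lit 152)) (PT.lf (nat_lit 15884) (nat_lit 6) (nat_lit 209) (nat_lit 0) (nat_lit 215) (nat_lit 204) (nat_lit 151)))) (PT.nd (nat_lit 53976) (PT.nd (nat_lit 78) (PT.lf (nat_lit 15276) (nat_lit 6) (nat_lit 201) (nat_lit 0) (nat_lit 216) (nat_lit 204) (nat_lit 150)) (PT.lf (nat_lit 14668) (nat_lit 6) (nat_lit 193) (nat_lit 0) (nat_lit 217) (nat_lit 204) (nat_lit 149))) (PT.nd (nat_lit 78) (PT.lf (nat_lit 13604) (nat_lit 6) (nat_lit 179) (nat_lit 5) (nat_lit 147) (nat_lit 205) (nat_lit 218)) (PT.lf (nat_lit 14136) (nat_lit 6) (nat_lit 186) (nat_lit 5) (nat_lit 148) (nat_lit 205) (nat_lit 217))))) (PT.nd (nat_lit 234) (PT.nd (nat_lit 78) (PT.lf (nat_lit 14744) (nat_lit 6) (nat_lit 194) (nat_lit 5) (nat_lit 149) (nat_lit 205) (nat_lit 216)) (PT.nd (nat_lit 78) (PT.lf (nat_lit 15352) (nat_lit 6) (nat_lit 202) (nat_lit 5) (nat_lit 150) (nat_lit 205) (nat_lit 215)) (PT.lf (nat_lit 15960)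 (nat_lit 6) (nat_lit 210) (nat_lit 5) (nat_lit 151) (nat_lit 205) (nat_lit 214)))) (PT.nd (nat_lit 156) (PT.nd (nat_lit 78) (PT.lf (nat_lit 16568) (nat_lit 6) (nat_lit 218) (nat_lit 5) (nat_lit 152) (nat_lit 205) (nat_lit 213)) (PT.lf (nat_lit 17252) (nat_lit 6) (nat_lit 227) (nat_lit 5) (nat_lit 153) (nat_lit 205) (nat_lit 212))) (PT.nd (nat_lit 78) (PT.lf (nat_lit 17936) (nat_lit 6) (nat_lit 236) (nat_lit 5) (nat_lit 154) (nat_lit 205) (nat_lit 211)) (PT.lf (nat_lit 18620) (nat_lit 6) (nat_lit 245) (nat_lit 5) (nat_lit 155) (nat_lit 205) (nat_lit 210))))))))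
noncomputable def pc41 : PT := (PT.nd (nat_lit 2184) (PT.nd (nat_lit 1092) (PT.nd (nat_lit 546) (PT.nd (nat_lit 234) (PT.nd (nat_lit 78) (PT.lf (nat_lit 19304) (nat_lit 6) (nat_lit 254) (nat_lit 5) (nat_lit 156) (nat_lit 205) (nat_lit 209)) (PT.nd (nat_lit 78) (PT.lf (nat_lit 20064) (nat_lit 6) (nat_lit 264) (nat_lit 5) (nat_lit 157) (nat_lit 205) (nat_lit 208)) (PT.lf (nat_lit 20824) (nat_lit 6) (nat_lit 274) (nat_lit 5) (nat_lit 158) (nat_lit 205) (nat_lit 207)))) (PT.nd (nat_lit 156) (PT.nd (nat_lit 78) (PT.lf (nat_lit 21660) (nat_lit 6) (nat_lit 285) (nat_lit 5) (nat_lit 159) (nat_lit 205) (nat_lit 206)) (PT.lf (nat_lit 22420) (nat_lit 3) (nat_lit 295) (nat_lit 4) (nat_lit 160) (nat_lit 205) (nat_lit 205))) (PT.nd (nat_lit 78) (PT.lf (nat_lit 23180) (nat_lit 6) (nat_lit 305) (nat_lit 4) (nat_lit 161) (nat_lit 205) (nat_lit 204)) (PT.lf (nat_lit 23940) (nat_lit 6) (nat_lit 315) (nat_lit 4) (nat_lit 162) (nat_lit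 205) (nat_lit 203))))) (PT.nd (nat_lit 234) (PT.nd (nat_lit 78) (PT.lf (nat_lit 24776) (nat_lit 6) (nat_lit 326) (nat_lit 4) (nat_lit 163) (nat_lit 205) (nat_lit 202)) (PT.nd (nat_lit 78) (PT.lf (nat_lit 25612) (nat_lit 6) (nat_lit 337) (nat_lit 4) (nat_lit 164) (nat_lit 205) (nat_lit 201)) (PT.lf (nat_lit 26448) (nat_lit 6) (nat_lit 348) (nat_lit 4) (nat_lit 165) (nat_lit 205) (nat_lit 200)))) (PT.nd (nat_lit 156) (PT.nd (nat_lit 78) (PT.lf (nat_lit 27284) (nat_lit 6) (nat_lit 359) (nat_lit 4) (nat_lit 166) (nat_lit 205) (nat_lit 199)) (PT.lf (nat_lit 28576) (nat_lit 6) (nat_lit 376) (nat_lit 4) (nat_lit 167) (nat_lit 205) (nat_lit 198))) (PT.nd (nat_lit 78) (PT.lf (nat_lit 30248) (nat_lit 6) (nat_lit 398) (nat_lit 4) (nat_lit 168) (nat_lit 205) (nat_lit 197)) (PT.lf (nat_lit 31844) (nat_lit 6) (nat_lit 419) (nat_lit 4) (nat_lit 169) (nat_lit 205) (nat_lit 196)))))) (PT.nd (nat_lit 546) (PT.nd (nat_lit 234)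 (PT.nd (nat_lit 78) (PT.lf (nat_lit 33364) (nat_lit 6) (nat_lit 439) (nat_lit 4) (nat_lit 170) (nat_lit 205) (nat_lit 195)) (PT.nd (nat_lit 78) (PT.lf (nat_lit 34808) (nat_lit 6) (nat_lit 458) (nat_lit 4) (nat_lit 171) (nat_lit 205) (nat_lit 194)) (PT.lf (nat_lit 36176) (nat_lit 6) (nat_lit 476) (nat_lit 4) (nat_lit 172) (nat_lit 205) (nat_lit 193)))) (PT.nd (nat_lit 156) (PT.nd (nat_lit 78) (PT.lf (nat_lit 37468) (nat_lit 6) (nat_lit 493) (nat_lit 4) (nat_lit 173) (nat_lit 205) (nat_lit 192)) (PT.lf (nat_lit 38684) (nat_lit 6) (nat_lit 509) (nat_lit 4) (nat_lit 174) (nat_lit 205) (nat_lit 191))) (PT.nd (nat_lit 78) (PT.lf (nat_lit 39824) (nat_lit 6) (nat_lit 524) (nat_lit 4) (nat_lit 175) (nat_lit 205) (nat_lit 190)) (PT.lf (nat_lit 39748) (nat_lit 6) (nat_lit 523) (nat_lit 4) (nat_lit 176) (nat_lit 205) (nat_lit 189))))) (PT.nd (nat_lit 234) (PT.nd (nat_lit 78) (PT.lf (nat_lit 39672) (nat_lit 6) (nat_lit 522)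 (nat_lit 4) (nat_lit 177) (nat_lit 205) (nat_lit 188)) (PT.nd (nat_lit 78) (PT.lf (nat_lit 39596) (nat_lit 6) (nat_lit 521) (nat_lit 4) (nat_lit 178) (nat_lit 205) (nat_lit 187)) (PT.lf (nat_lit 39520) (nat_lit 6) (nat_lit 520) (nat_lit 4) (nat_lit 179) (nat_lit 205) (nat_lit 186)))) (PT.nd (nat_lit 156) (PT.nd (nat_lit 78) (PT.lf (nat_lit 39444) (nat_lit 6) (nat_lit 519) (nat_lit 4) (nat_lit 180) (nat_lit 205) (nat_lit 185)) (PT.lf (nat_lit 39368) (nat_lit 6) (nat_lit 518) (nat_lit 4) (nat_lit 181) (nat_lit 205) (nat_lit 184))) (PT.nd (nat_lit 78) (PT.lf (nat_lit 39292) (nat_lit 6) (nat_lit 517) (nat_lit 4) (nat_lit 182) (nat_lit 205) (nat_lit 183)) (PT.lf (nat_lit 39292) (nat_lit 6) (nat_lit 517) (nat_lit 2) (nat_lit 183) (nat_lit 205) (nat_lit 182))))))) (PT.nd (nat_lit 1092) (PT.nd (nat_lit 546) (PT.nd (nat_lit 234) (PT.nd (nat_lit 78) (PT.lf (nat_lit 39368) (nat_lit 6) (nat_lit 518) (nat_lit 2) (nat_lit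 184) (nat_lit 205) (nat_lit 181)) (PT.nd (nat_lit 78) (PT.lf (nat_lit 39444) (nat_lit 6) (nat_lit 519) (nat_lit 2) (nat_lit 185) (nat_lit 205) (nat_lit 180)) (PT.lf (nat_lit 39520) (nat_lit 6) (nat_lit 520) (nat_lit 2) (nat_lit 186) (nat_lit 205) (nat_lit 179)))) (PT.nd (nat_lit 156) (PT.nd (nat_lit 78) (PT.lf (nat_lit 39596) (nat_lit 6) (nat_lit 521) (nat_lit 2) (nat_lit 187) (nat_lit 205) (nat_lit 178)) (PT.lf (nat_lit 39672) (nat_lit 6) (nat_lit 522) (nat_lit 2) (nat_lit 188) (nat_lit 205) (nat_lit 177))) (PT.nd (nat_lit 78) (PT.lf (nat_lit 39748) (nat_lit 6) (nat_lit 523) (nat_lit 2) (nat_lit 189) (nat_lit 205) (nat_lit 176)) (PT.lf (nat_lit 39824) (nat_lit 6) (nat_lit 524) (nat_lit 2) (nat_lit 190) (nat_lit 205) (nat_lit 175))))) (PT.nd (nat_lit 234) (PT.nd (nat_lit 78) (PT.lf (nat_lit 38684) (nat_lit 6) (nat_lit 509) (nat_lit 2) (nat_lit 191) (nat_lit 205) (nat_lit 174)) (PT.nd (nat_lit 78) (PT.lf (nat_lit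 37468) (nat_lit 6) (nat_lit 493) (nat_lit 2) (nat_lit 192) (nat_lit 205) (nat_lit 173)) (PT.lf (nat_lit 36176) (nat_lit 6) (nat_lit 476) (nat_lit 2) (nat_lit 193) (nat_lit 205) (nat_lit 172)))) (PT.nd (nat_lit 156) (PT.nd (nat_lit 78) (PT.lf (nat_lit 34808) (nat_lit 6) (nat_lit 458) (nat_lit 2) (nat_lit 194) (nat_lit 205) (nat_lit 171)) (PT.lf (nat_lit 33364) (nat_lit 6) (nat_lit 439) (nat_lit 2) (nat_lit 195) (nat_lit 205) (nat_lit 170))) (PT.nd (nat_lit 78) (PT.lf (nat_lit 31844) (nat_lit 6) (nat_lit 419) (nat_lit 2) (nat_lit 196) (nat_lit 205) (nat_lit 169)) (PT.lf (nat_lit 30248) (nat_lit 6) (nat_lit 398) (nat_lit 2) (nat_lit 197) (nat_lit 205) (nat_lit 168)))))) (PT.nd (nat_lit 546) (PT.nd (nat_lit 234) (PT.nd (nat_lit 78) (PT.lf (nat_lit 28576) (nat_lit 6) (nat_lit 376) (nat_lit 2) (nat_lit 198) (nat_lit 205) (nat_lit 167)) (PT.nd (nat_lit 78) (PT.lf (nat_lit 27284) (nat_lit 6) (nat_lit 359) (nat_lit 2)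 (nat_lit 199) (nat_lit 205) (nat_lit 166)) (PT.lf (nat_lit 26448) (nat_lit 6) (nat_lit 348) (nat_lit 2) (nat_lit 200) (nat_lit 205) (nat_lit 165)))) (PT.nd (nat_lit 156) (PT.nd (nat_lit 78) (PT.lf (nat_lit 25612) (nat_lit 6) (nat_lit 337) (nat_lit 2) (nat_lit 201) (nat_lit 205) (nat_lit 164)) (PT.lf (nat_lit 24776) (nat_lit 6) (nat_lit 326) (nat_lit 2) (nat_lit 202) (nat_lit 205) (nat_lit 163))) (PT.nd (nat_lit 78) (PT.lf (nat_lit 23940) (nat_lit 6) (nat_lit 315) (nat_lit 2) (nat_lit 203) (nat_lit 205) (nat_lit 162)) (PT.lf (nat_lit 23180) (nat_lit 6) (nat_lit 305) (nat_lit 2) (nat_lit 204) (nat_lit 205) (nat_lit 161))))) (PT.nd (nat_lit 312) (PT.nd (nat_lit 156) (PT.nd (nat_lit 78) (PT.lf (nat_lit 22420) (nat_lit 3) (nat_lit 295) (nat_lit 0) (nat_lit 205) (nat_lit 205) (nat_lit 160)) (PT.lf (nat_lit 21660) (nat_lit 6) (nat_lit 285) (nat_lit 0) (nat_lit 206) (nat_lit 205) (nat_lit 159))) (PT.nd (nat_lit 78) (PT.lf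 (nat_lit 20824) (nat_lit 6) (nat_lit 274) (nat_lit 0) (nat_lit 207) (nat_lit 205) (nat_lit 158)) (PT.lf (nat_lit 20064) (nat_lit 6) (nat_lit 264) (nat_lit 0) (nat_lit 208) (nat_lit 205) (nat_lit 157)))) (PT.nd (nat_lit 156) (PT.nd (nat_lit 78) (PT.lf (nat_lit 19304) (nat_lit 6) (nat_lit 254) (nat_lit 0) (nat_lit 209) (nat_lit 205) (nat_lit 156)) (PT.lf (nat_lit 18620) (nat_lit 6) (nat_lit 245) (nat_lit 0) (nat_lit 210) (nat_lit 205) (nat_lit 155))) (PT.nd (nat_lit 78) (PT.lf (nat_lit 17936) (nat_lit 6) (nat_lit 236) (nat_lit 0) (nat_lit 211) (nat_lit 205) (nat_lit 154)) (PT.lf (nat_lit 17252) (nat_lit 6) (nat_lit 227) (nat_lit 0) (nat_lit 212) (nat_lit 205) (nat_lit 153))))))))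
noncomputable def pc42 : PT := (PT.nd (nat_lit 55848) (PT.nd (nat_lit 54756) (PT.nd (nat_lit 54210) (PT.nd (nat_lit 234) (PT.nd (nat_lit 78) (PT.lf (nat_lit 16568) (nat_lit 6) (nat_lit 218) (nat_lit 0) (nat_lit 213) (nat_lit 205) (nat_lit 152)) (PT.nd (nat_lit 78) (PT.lf (nat_lit 15960) (nat_lit 6) (nat_lit 210) (nat_lit 0) (nat_lit 214) (nat_lit 205) (nat_lit 151)) (PT.lf (nat_lit 15352) (nat_lit 6) (nat_lit 202) (nat_lit 0) (nat_lit 215) (nat_lit 205) (nat_lit 150)))) (PT.nd (nat_lit 156) (PT.nd (nat_lit 78) (PT.lf (nat_lit 14744) (nat_lit 6) (nat_lit 194) (nat_lit 0) (nat_lit 216) (nat_lit 205) (nat_lit 149)) (PT.lf (nat_lit 14136) (nat_lit 6) (nat_lit 186) (nat_lit 0) (nat_lit 217) (nat_lit 205) (nat_lit 148))) (PT.nd (nat_lit 53742) (PT.lf (nat_lit 13604) (nat_lit 6) (nat_lit 179) (nat_lit 0) (nat_lit 218) (nat_lit 205) (nat_lit 147)) (PT.lf (nat_lit 13072) (nat_lit 6) (nat_lit 172) (nat_lit 5) (nat_lit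 146) (nat_lit 206) (nat_lit 218))))) (PT.nd (nat_lit 234) (PT.nd (nat_lit 78) (PT.lf (nat_lit 13680) (nat_lit 6) (nat_lit 180) (nat_lit 5) (nat_lit 147) (nat_lit 206) (nat_lit 217)) (PT.nd (nat_lit 78) (PT.lf (nat_lit 14212) (nat_lit 6) (nat_lit 187) (nat_lit 5) (nat_lit 148) (nat_lit 206) (nat_lit 216)) (PT.lf (nat_lit 14820) (nat_lit 6) (nat_lit 195) (nat_lit 5) (nat_lit 149) (nat_lit 206) (nat_lit 215)))) (PT.nd (nat_lit 156) (PT.nd (nat_lit 78) (PT.lf (nat_lit 15428) (nat_lit 6) (nat_lit 203) (nat_lit 5) (nat_lit 150) (nat_lit 206) (nat_lit 214)) (PT.lf (nat_lit 16036) (nat_lit 6) (nat_lit 211) (nat_lit 5) (nat_lit 151) (nat_lit 206) (nat_lit 213))) (PT.nd (nat_lit 78) (PT.lf (nat_lit 16644) (nat_lit 6) (nat_lit 219) (nat_lit 5) (nat_lit 152) (nat_lit 206) (nat_lit 212)) (PT.lf (nat_lit 17328) (nat_lit 6) (nat_lit 228) (nat_lit 5) (nat_lit 153) (nat_lit 206) (nat_lit 211)))))) (PT.nd (nat_lit 546) (PT.nd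 (nat_lit 234) (PT.nd (nat_lit 78) (PT.lf (nat_lit 18012) (nat_lit 6) (nat_lit 237) (nat_lit 5) (nat_lit 154) (nat_lit 206) (nat_lit 210)) (PT.nd (nat_lit 78) (PT.lf (nat_lit 18696) (nat_lit 6) (nat_lit 246) (nat_lit 5) (nat_lit 155) (nat_lit 206) (nat_lit 209)) (PT.lf (nat_lit 19380) (nat_lit 6) (nat_lit 255) (nat_lit 5) (nat_lit 156) (nat_lit 206) (nat_lit 208)))) (PT.nd (nat_lit 156) (PT.nd (nat_lit 78) (PT.lf (nat_lit 20140) (nat_lit 6) (nat_lit 265) (nat_lit 5) (nat_lit 157) (nat_lit 206) (nat_lit 207)) (PT.lf (nat_lit 20900) (nat_lit 3) (nat_lit 275) (nat_lit 4) (nat_lit 158) (nat_lit 206) (nat_lit 206))) (PT.nd (nat_lit 78) (PT.lf (nat_lit 21660) (nat_lit 6) (nat_lit 285) (nat_lit 4) (nat_lit 159) (nat_lit 206) (nat_lit 205)) (PT.lf (nat_lit 22344) (nat_lit 6) (nat_lit 294) (nat_lit 4) (nat_lit 160) (nat_lit 206) (nat_lit 204))))) (PT.nd (nat_lit 234) (PT.nd (nat_lit 78) (PT.lf (nat_lit 23104) (nat_lit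 6) (nat_lit 304) (nat_lit 4) (nat_lit 161) (nat_lit 206) (nat_lit 203)) (PT.nd (nat_lit 78) (PT.lf (nat_lit 23864) (nat_lit 6) (nat_lit 314) (nat_lit 4) (nat_lit 162) (nat_lit 206) (nat_lit 202)) (PT.lf (nat_lit 24700) (nat_lit 6) (nat_lit 325) (nat_lit 4) (nat_lit 163) (nat_lit 206) (nat_lit 201)))) (PT.nd (nat_lit 156) (PT.nd (nat_lit 78) (PT.lf (nat_lit 25536) (nat_lit 6) (nat_lit 336) (nat_lit 4) (nat_lit 164) (nat_lit 206) (nat_lit 200)) (PT.lf (nat_lit 26372) (nat_lit 6) (nat_lit 347) (nat_lit 4) (nat_lit 165) (nat_lit 206) (nat_lit 199))) (PT.nd (nat_lit 78) (PT.lf (nat_lit 27208) (nat_lit 6) (nat_lit 358) (nat_lit 4) (nat_lit 166) (nat_lit 206) (nat_lit 198)) (PT.lf (nat_lit 28500) (nat_lit 6) (nat_lit 375) (nat_lit 4) (nat_lit 167) (nat_lit 206) (nat_lit 197))))))) (PT.nd (nat_lit 1092) (PT.nd (nat_lit 546) (PT.nd (nat_lit 234) (PT.nd (nat_lit 78) (PT.lf (nat_lit 30172) (nat_lit 6) (nat_lit 397) (nat_lit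 4) (nat_lit 168) (nat_lit 206) (nat_lit 196)) (PT.nd (nat_lit 78) (PT.lf (nat_lit 31768) (nat_lit 6) (nat_lit 418) (nat_lit 4) (nat_lit 169) (nat_lit 206) (nat_lit 195)) (PT.lf (nat_lit 33288) (nat_lit 6) (nat_lit 438) (nat_lit 4) (nat_lit 170) (nat_lit 206) (nat_lit 194)))) (PT.nd (nat_lit 156) (PT.nd (nat_lit 78) (PT.lf (nat_lit 34732) (nat_lit 6) (nat_lit 457) (nat_lit 4) (nat_lit 171) (nat_lit 206) (nat_lit 193)) (PT.lf (nat_lit 36100) (nat_lit 6) (nat_lit 475) (nat_lit 4) (nat_lit 172) (nat_lit 206) (nat_lit 192))) (PT.nd (nat_lit 78) (PT.lf (nat_lit 37392) (nat_lit 6) (nat_lit 492) (nat_lit 4) (nat_lit 173) (nat_lit 206) (nat_lit 191)) (PT.lf (nat_lit 38608) (nat_lit 6) (nat_lit 508) (nat_lit 4) (nat_lit 174) (nat_lit 206) (nat_lit 190))))) (PT.nd (nat_lit 234) (PT.nd (nat_lit 78) (PT.lf (nat_lit 38532) (nat_lit 6) (nat_lit 507) (nat_lit 4) (nat_lit 175) (nat_lit 206) (nat_lit 189)) (PT.nd (nat_lit 78)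 (PT.lf (nat_lit 38456) (nat_lit 6) (nat_lit 506) (nat_lit 4) (nat_lit 176) (nat_lit 206) (nat_lit 188)) (PT.lf (nat_lit 38380) (nat_lit 6) (nat_lit 505) (nat_lit 4) (nat_lit 177) (nat_lit 206) (nat_lit 187)))) (PT.nd (nat_lit 156) (PT.nd (nat_lit 78) (PT.lf (nat_lit 38304) (nat_lit 6) (nat_lit 504) (nat_lit 4) (nat_lit 178) (nat_lit 206) (nat_lit 186)) (PT.lf (nat_lit 38228) (nat_lit 6) (nat_lit 503) (nat_lit 4) (nat_lit 179) (nat_lit 206) (nat_lit 185))) (PT.nd (nat_lit 78) (PT.lf (nat_lit 38152) (nat_lit 6) (nat_lit 502) (nat_lit 4) (nat_lit 180) (nat_lit 206) (nat_lit 184)) (PT.lf (nat_lit 38076) (nat_lit 6) (nat_lit 501) (nat_lit 4) (nat_lit 181) (nat_lit 206) (nat_lit 183)))))) (PT.nd (nat_lit 546) (PT.nd (nat_lit 234) (PT.nd (nat_lit 78) (PT.lf (nat_lit 38000) (nat_lit 3) (nat_lit 500) (nat_lit 2) (nat_lit 182) (nat_lit 206) (nat_lit 182)) (PT.nd (nat_lit 78) (PT.lf (nat_lit 38076) (nat_lit 6) (nat_lit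 501) (nat_lit 2) (nat_lit 183) (nat_lit 206) (nat_lit 181)) (PT.lf (nat_lit 38152) (nat_lit 6) (nat_lit 502) (nat_lit 2) (nat_lit 184) (nat_lit 206) (nat_lit 180)))) (PT.nd (nat_lit 156) (PT.nd (nat_lit 78) (PT.lf (nat_lit 38228) (nat_lit 6) (nat_lit 503) (nat_lit 2) (nat_lit 185) (nat_lit 206) (nat_lit 179)) (PT.lf (nat_lit 38304) (nat_lit 6) (nat_lit 504) (nat_lit 2) (nat_lit 186) (nat_lit 206) (nat_lit 178))) (PT.nd (nat_lit 78) (PT.lf (nat_lit 38380) (nat_lit 6) (nat_lit 505) (nat_lit 2) (nat_lit 187) (nat_lit 206) (nat_lit 177)) (PT.lf (nat_lit 38456) (nat_lit 6) (nat_lit 506) (nat_lit 2) (nat_lit 188) (nat_lit 206) (nat_lit 176))))) (PT.nd (nat_lit 312) (PT.nd (nat_lit 156) (PT.nd (nat_lit 78) (PT.lf (nat_lit 38532) (nat_lit 6) (nat_lit 507) (nat_lit 2) (nat_lit 189) (nat_lit 206) (nat_lit 175)) (PT.lf (nat_lit 38608) (nat_lit 6) (nat_lit 508) (nat_lit 2) (nat_lit 190) (nat_lit 206) (nat_lit 174))) (PT.nd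 (nat_lit 78) (PT.lf (nat_lit 37392) (nat_lit 6) (nat_lit 492) (nat_lit 2) (nat_lit 191) (nat_lit 206) (nat_lit 173)) (PT.lf (nat_lit 36100) (nat_lit 6) (nat_lit 475) (nat_lit 2) (nat_lit 192) (nat_lit 206) (nat_lit 172)))) (PT.nd (nat_lit 156) (PT.nd (nat_lit 78) (PT.lf (nat_lit 34732) (nat_lit 6) (nat_lit 457) (nat_lit 2) (nat_lit 193) (nat_lit 206) (nat_lit 171)) (PT.lf (nat_lit 33288) (nat_lit 6) (nat_lit 438) (nat_lit 2) (nat_lit 194) (nat_lit 206) (nat_lit 170))) (PT.nd (nat_lit 78) (PT.lf (nat_lit 31768) (nat_lit 6) (nat_lit 418) (nat_lit 2) (nat_lit 195) (nat_lit 206) (nat_lit 169)) (PT.lf (nat_lit 30172) (nat_lit 6) (nat_lit 397) (nat_lit 2) (nat_lit 196) (nat_lit 206) (nat_lit 168))))))))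
noncomputable def pc43 : PT := (PT.nd (nat_lit 55770) (PT.nd (nat_lit 1092) (PT.nd (nat_lit 546) (PT.nd (nat_lit 234) (PT.nd (nat_lit 78) (PT.lf (nat_lit 28500) (nat_lit 6) (nat_lit 375) (nat_lit 2) (nat_lit 197) (nat_lit 206) (nat_lit 167)) (PT.nd (nat_lit 78) (PT.lf (nat_lit 27208) (nat_lit 6) (nat_lit 358) (nat_lit 2) (nat_lit 198) (nat_lit 206) (nat_lit 166)) (PT.lf (nat_lit 26372) (nat_lit 6) (nat_lit 347) (nat_lit 2) (nat_lit 199) (nat_lit 206) (nat_lit 165)))) (PT.nd (nat_lit 156) (PT.nd (nat_lit 78) (PT.lf (nat_lit 25536) (nat_lit 6) (nat_lit 336) (nat_lit 2) (nat_lit 200) (nat_lit 206) (nat_lit 164)) (PT.lf (nat_lit 24700) (nat_lit 6) (nat_lit 325) (nat_lit 2) (nat_lit 201) (nat_lit 206) (nat_lit 163))) (PT.nd (nat_lit 78) (PT.lf (nat_lit 23864) (nat_lit 6) (nat_lit 314) (nat_lit 2) (nat_lit 202) (nat_lit 206) (nat_lit 162)) (PT.lf (nat_lit 23104) (nat_lit 6) (nat_lit 304) (nat_lit 2) (nat_lit 203) (nat_lit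 206) (nat_lit 161))))) (PT.nd (nat_lit 234) (PT.nd (nat_lit 78) (PT.lf (nat_lit 22344) (nat_lit 6) (nat_lit 294) (nat_lit 2) (nat_lit 204) (nat_lit 206) (nat_lit 160)) (PT.nd (nat_lit 78) (PT.lf (nat_lit 21660) (nat_lit 6) (nat_lit 285) (nat_lit 2) (nat_lit 205) (nat_lit 206) (nat_lit 159)) (PT.lf (nat_lit 20900) (nat_lit 3) (nat_lit 275) (nat_lit 0) (nat_lit 206) (nat_lit 206) (nat_lit 158)))) (PT.nd (nat_lit 156) (PT.nd (nat_lit 78) (PT.lf (nat_lit 20140) (nat_lit 6) (nat_lit 265) (nat_lit 0) (nat_lit 207) (nat_lit 206) (nat_lit 157)) (PT.lf (nat_lit 19380) (nat_lit 6) (nat_lit 255) (nat_lit 0) (nat_lit 208) (nat_lit 206) (nat_lit 156))) (PT.nd (nat_lit 78) (PT.lf (nat_lit 18696) (nat_lit 6) (nat_lit 246) (nat_lit 0) (nat_lit 209) (nat_lit 206) (nat_lit 155)) (PT.lf (nat_lit 18012) (nat_lit 6) (nat_lit 237) (nat_lit 0) (nat_lit 210) (nat_lit 206) (nat_lit 154)))))) (PT.nd (nat_lit 546) (PT.nd (nat_lit 234)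 (PT.nd (nat_lit 78) (PT.lf (nat_lit 17328) (nat_lit 6) (nat_lit 228) (nat_lit 0) (nat_lit 211) (nat_lit 206) (nat_lit 153)) (PT.nd (nat_lit 78) (PT.lf (nat_lit 16644) (nat_lit 6) (nat_lit 219) (nat_lit 0) (nat_lit 212) (nat_lit 206) (nat_lit 152)) (PT.lf (nat_lit 16036) (nat_lit 6) (nat_lit 211) (nat_lit 0) (nat_lit 213) (nat_lit 206) (nat_lit 151)))) (PT.nd (nat_lit 156) (PT.nd (nat_lit 78) (PT.lf (nat_lit 15428) (nat_lit 6) (nat_lit 203) (nat_lit 0) (nat_lit 214) (nat_lit 206) (nat_lit 150)) (PT.lf (nat_lit 14820) (nat_lit 6) (nat_lit 195) (nat_lit 0) (nat_lit 215) (nat_lit 206) (nat_lit 149))) (PT.nd (nat_lit 78) (PT.lf (nat_lit 14212) (nat_lit 6) (nat_lit 187) (nat_lit 0) (nat_lit 216) (nat_lit 206) (nat_lit 148)) (PT.lf (nat_lit 13680) (nat_lit 6) (nat_lit 180) (nat_lit 0) (nat_lit 217) (nat_lit 206) (nat_lit 147))))) (PT.nd (nat_lit 53820) (PT.nd (nat_lit 53664) (PT.lf (nat_lit 13072) (nat_lit 6) (nat_lit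 172) (nat_lit 0) (nat_lit 218) (nat_lit 206) (nat_lit 146)) (PT.nd (nat_lit 78) (PT.lf (nat_lit 12616) (nat_lit 6) (nat_lit 166) (nat_lit 5) (nat_lit 145) (nat_lit 207) (nat_lit 218)) (PT.lf (nat_lit 13148) (nat_lit 6) (nat_lit 173) (nat_lit 5) (nat_lit 146) (nat_lit 207) (nat_lit 217)))) (PT.nd (nat_lit 156) (PT.nd (nat_lit 78) (PT.lf (nat_lit 13756) (nat_lit 6) (nat_lit 181) (nat_lit 5) (nat_lit 147) (nat_lit 207) (nat_lit 216)) (PT.lf (nat_lit 14288) (nat_lit 6) (nat_lit 188) (nat_lit 5) (nat_lit 148) (nat_lit 207) (nat_lit 215))) (PT.nd (nat_lit 78) (PT.lf (nat_lit 14896) (nat_lit 6) (nat_lit 196) (nat_lit 5) (nat_lit 149) (nat_lit 207) (nat_lit 214)) (PT.lf (nat_lit 15504) (nat_lit 6) (nat_lit 204) (nat_lit 5) (nat_lit 150) (nat_lit 207) (nat_lit 213))))))) (PT.nd (nat_lit 1092) (PT.nd (nat_lit 546) (PT.nd (nat_lit 234) (PT.nd (nat_lit 78) (PT.lf (nat_lit 16112) (nat_lit 6) (nat_lit 212) (nat_lit 5) (nat_lit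 151) (nat_lit 207) (nat_lit 212)) (PT.nd (nat_lit 78) (PT.lf (nat_lit 16720) (nat_lit 6) (nat_lit 220) (nat_lit 5) (nat_lit 152) (nat_lit 207) (nat_lit 211)) (PT.lf (nat_lit 17404) (nat_lit 6) (nat_lit 229) (nat_lit 5) (nat_lit 153) (nat_lit 207) (nat_lit 210)))) (PT.nd (nat_lit 156) (PT.nd (nat_lit 78) (PT.lf (nat_lit 18088) (nat_lit 6) (nat_lit 238) (nat_lit 5) (nat_lit 154) (nat_lit 207) (nat_lit 209)) (PT.lf (nat_lit 18772) (nat_lit 6) (nat_lit 247) (nat_lit 5) (nat_lit 155) (nat_lit 207) (nat_lit 208))) (PT.nd (nat_lit 78) (PT.lf (nat_lit 19456) (nat_lit 3) (nat_lit 256) (nat_lit 4) (nat_lit 156) (nat_lit 207) (nat_lit 207)) (PT.lf (nat_lit 20140) (nat_lit 6) (nat_lit 265) (nat_lit 4) (nat_lit 157) (nat_lit 207) (nat_lit 206))))) (PT.nd (nat_lit 234) (PT.nd (nat_lit 78) (PT.lf (nat_lit 20824) (nat_lit 6) (nat_lit 274) (nat_lit 4) (nat_lit 158) (nat_lit 207) (nat_lit 205)) (PT.nd (nat_lit 78) (PT.lf (nat_lit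 21584) (nat_lit 6) (nat_lit 284) (nat_lit 4) (nat_lit 159) (nat_lit 207) (nat_lit 204)) (PT.lf (nat_lit 22268) (nat_lit 6) (nat_lit 293) (nat_lit 4) (nat_lit 160) (nat_lit 207) (nat_lit 203)))) (PT.nd (nat_lit 156) (PT.nd (nat_lit 78) (PT.lf (nat_lit 23028) (nat_lit 6) (nat_lit 303) (nat_lit 4) (nat_lit 161) (nat_lit 207) (nat_lit 202)) (PT.lf (nat_lit 23788) (nat_lit 6) (nat_lit 313) (nat_lit 4) (nat_lit 162) (nat_lit 207) (nat_lit 201))) (PT.nd (nat_lit 78) (PT.lf (nat_lit 24624) (nat_lit 6) (nat_lit 324) (nat_lit 4) (nat_lit 163) (nat_lit 207) (nat_lit 200)) (PT.lf (nat_lit 25460) (nat_lit 6) (nat_lit 335) (nat_lit 4) (nat_lit 164) (nat_lit 207) (nat_lit 199)))))) (PT.nd (nat_lit 546) (PT.nd (nat_lit 234) (PT.nd (nat_lit 78) (PT.lf (nat_lit 26296) (nat_lit 6) (nat_lit 346) (nat_lit 4) (nat_lit 165) (nat_lit 207) (nat_lit 198)) (PT.nd (nat_lit 78) (PT.lf (nat_lit 27132) (nat_lit 6) (nat_lit 357) (nat_lit 4)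 (nat_lit 166) (nat_lit 207) (nat_lit 197)) (PT.lf (nat_lit 28424) (nat_lit 6) (nat_lit 374) (nat_lit 4) (nat_lit 167) (nat_lit 207) (nat_lit 196)))) (PT.nd (nat_lit 156) (PT.nd (nat_lit 78) (PT.lf (nat_lit 30096) (nat_lit 6) (nat_lit 396) (nat_lit 4) (nat_lit 168) (nat_lit 207) (nat_lit 195)) (PT.lf (nat_lit 31692) (nat_lit 6) (nat_lit 417) (nat_lit 4) (nat_lit 169) (nat_lit 207) (nat_lit 194))) (PT.nd (nat_lit 78) (PT.lf (nat_lit 33212) (nat_lit 6) (nat_lit 437) (nat_lit 4) (nat_lit 170) (nat_lit 207) (nat_lit 193)) (PT.lf (nat_lit 34656) (nat_lit 6) (nat_lit 456) (nat_lit 4) (nat_lit 171) (nat_lit 207) (nat_lit 192))))) (PT.nd (nat_lit 312) (PT.nd (nat_lit 156) (PT.nd (nat_lit 78) (PT.lf (nat_lit 36024) (nat_lit 6) (nat_lit 474) (nat_lit 4) (nat_lit 172) (nat_lit 207) (nat_lit 191)) (PT.lf (nat_lit 37316) (nat_lit 6) (nat_lit 491) (nat_lit 4) (nat_lit 173) (nat_lit 207) (nat_lit 190))) (PT.nd (nat_lit 78) (PT.lf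 (nat_lit 37240) (nat_lit 6) (nat_lit 490) (nat_lit 4) (nat_lit 174) (nat_lit 207) (nat_lit 189)) (PT.lf (nat_lit 37164) (nat_lit 6) (nat_lit 489) (nat_lit 4) (nat_lit 175) (nat_lit 207) (nat_lit 188)))) (PT.nd (nat_lit 156) (PT.nd (nat_lit 78) (PT.lf (nat_lit 37088) (nat_lit 6) (nat_lit 488) (nat_lit 4) (nat_lit 176) (nat_lit 207) (nat_lit 187)) (PT.lf (nat_lit 37012) (nat_lit 6) (nat_lit 487) (nat_lit 4) (nat_lit 177) (nat_lit 207) (nat_lit 186))) (PT.nd (nat_lit 78) (PT.lf (nat_lit 36936) (nat_lit 6) (nat_lit 486) (nat_lit 4) (nat_lit 178) (nat_lit 207) (nat_lit 185)) (PT.lf (nat_lit 36860) (nat_lit 6) (nat_lit 485) (nat_lit 4) (nat_lit 179) (nat_lit 207) (nat_lit 184))))))))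
noncomputable def pc44 : PT := (PT.nd (nat_lit 2184) (PT.nd (nat_lit 1092) (PT.nd (nat_lit 546) (PT.nd (nat_lit 234) (PT.nd (nat_lit 78) (PT.lf (nat_lit 36784) (nat_lit 6) (nat_lit 484) (nat_lit 4) (nat_lit 180) (nat_lit 207) (nat_lit 183)) (PT.nd (nat_lit 78) (PT.lf (nat_lit 36708) (nat_lit 6) (nat_lit 483) (nat_lit 4) (nat_lit 181) (nat_lit 207) (nat_lit 182)) (PT.lf (nat_lit 36708) (nat_lit 6) (nat_lit 483) (nat_lit 2) (nat_lit 182) (nat_lit 207) (nat_lit 181)))) (PT.nd (nat_lit 156) (PT.nd (nat_lit 78) (PT.lf (nat_lit 36784) (nat_lit 6) (nat_lit 484) (nat_lit 2) (nat_lit 183) (nat_lit 207) (nat_lit 180)) (PT.lf (nat_lit 36860) (nat_lit 6) (nat_lit 485) (nat_lit 2) (nat_lit 184) (nat_lit 207) (nat_lit 179))) (PT.nd (nat_lit 78) (PT.lf (nat_lit 36936) (nat_lit 6) (nat_lit 486) (nat_lit 2) (nat_lit 185) (nat_lit 207) (nat_lit 178)) (PT.lf (nat_lit 37012) (nat_lit 6) (nat_lit 487) (nat_lit 2) (nat_lit 186) (nat_lit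 207) (nat_lit 177))))) (PT.nd (nat_lit 234) (PT.nd (nat_lit 78) (PT.lf (nat_lit 37088) (nat_lit 6) (nat_lit 488) (nat_lit 2) (nat_lit 187) (nat_lit 207) (nat_lit 176)) (PT.nd (nat_lit 78) (PT.lf (nat_lit 37164) (nat_lit 6) (nat_lit 489) (nat_lit 2) (nat_lit 188) (nat_lit 207) (nat_lit 175)) (PT.lf (nat_lit 37240) (nat_lit 6) (nat_lit 490) (nat_lit 2) (nat_lit 189) (nat_lit 207) (nat_lit 174)))) (PT.nd (nat_lit 156) (PT.nd (nat_lit 78) (PT.lf (nat_lit 37316) (nat_lit 6) (nat_lit 491) (nat_lit 2) (nat_lit 190) (nat_lit 207) (nat_lit 173)) (PT.lf (nat_lit 36024) (nat_lit 6) (nat_lit 474) (nat_lit 2) (nat_lit 191) (nat_lit 207) (nat_lit 172))) (PT.nd (nat_lit 78) (PT.lf (nat_lit 34656) (nat_lit 6) (nat_lit 456) (nat_lit 2) (nat_lit 192) (nat_lit 207) (nat_lit 171)) (PT.lf (nat_lit 33212) (nat_lit 6) (nat_lit 437) (nat_lit 2) (nat_lit 193) (nat_lit 207) (nat_lit 170)))))) (PT.nd (nat_lit 546) (PT.nd (nat_lit 234)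 (PT.nd (nat_lit 78) (PT.lf (nat_lit 31692) (nat_lit 6) (nat_lit 417) (nat_lit 2) (nat_lit 194) (nat_lit 207) (nat_lit 169)) (PT.nd (nat_lit 78) (PT.lf (nat_lit 30096) (nat_lit 6) (nat_lit 396) (nat_lit 2) (nat_lit 195) (nat_lit 207) (nat_lit 168)) (PT.lf (nat_lit 28424) (nat_lit 6) (nat_lit 374) (nat_lit 2) (nat_lit 196) (nat_lit 207) (nat_lit 167)))) (PT.nd (nat_lit 156) (PT.nd (nat_lit 78) (PT.lf (nat_lit 27132) (nat_lit 6) (nat_lit 357) (nat_lit 2) (nat_lit 197) (nat_lit 207) (nat_lit 166)) (PT.lf (nat_lit 26296) (nat_lit 6) (nat_lit 346) (nat_lit 2) (nat_lit 198) (nat_lit 207) (nat_lit 165))) (PT.nd (nat_lit 78) (PT.lf (nat_lit 25460) (nat_lit 6) (nat_lit 335) (nat_lit 2) (nat_lit 199) (nat_lit 207) (nat_lit 164)) (PT.lf (nat_lit 24624) (nat_lit 6) (nat_lit 324) (nat_lit 2) (nat_lit 200) (nat_lit 207) (nat_lit 163))))) (PT.nd (nat_lit 234) (PT.nd (nat_lit 78) (PT.lf (nat_lit 23788) (nat_lit 6) (nat_lit 313)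 (nat_lit 2) (nat_lit 201) (nat_lit 207) (nat_lit 162)) (PT.nd (nat_lit 78) (PT.lf (nat_lit 23028) (nat_lit 6) (nat_lit 303) (nat_lit 2) (nat_lit 202) (nat_lit 207) (nat_lit 161)) (PT.lf (nat_lit 22268) (nat_lit 6) (nat_lit 293) (nat_lit 2) (nat_lit 203) (nat_lit 207) (nat_lit 160)))) (PT.nd (nat_lit 156) (PT.nd (nat_lit 78) (PT.lf (nat_lit 21584) (nat_lit 6) (nat_lit 284) (nat_lit 2) (nat_lit 204) (nat_lit 207) (nat_lit 159)) (PT.lf (nat_lit 20824) (nat_lit 6) (nat_lit 274) (nat_lit 2) (nat_lit 205) (nat_lit 207) (nat_lit 158))) (PT.nd (nat_lit 78) (PT.lf (nat_lit 20140) (nat_lit 6) (nat_lit 265) (nat_lit 2) (nat_lit 206) (nat_lit 207) (nat_lit 157)) (PT.lf (nat_lit 19456) (nat_lit 3) (nat_lit 256) (nat_lit 0) (nat_lit 207) (nat_lit 207) (nat_lit 156))))))) (PT.nd (nat_lit 54522) (PT.nd (nat_lit 546) (PT.nd (nat_lit 234) (PT.nd (nat_lit 78) (PT.lf (nat_lit 18772) (nat_lit 6) (nat_lit 247) (nat_lit 0) (nat_lit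 208) (nat_lit 207) (nat_lit 155)) (PT.nd (nat_lit 78) (PT.lf (nat_lit 18088) (nat_lit 6) (nat_lit 238) (nat_lit 0) (nat_lit 209) (nat_lit 207) (nat_lit 154)) (PT.lf (nat_lit 17404) (nat_lit 6) (nat_lit 229) (nat_lit 0) (nat_lit 210) (nat_lit 207) (nat_lit 153)))) (PT.nd (nat_lit 156) (PT.nd (nat_lit 78) (PT.lf (nat_lit 16720) (nat_lit 6) (nat_lit 220) (nat_lit 0) (nat_lit 211) (nat_lit 207) (nat_lit 152)) (PT.lf (nat_lit 16112) (nat_lit 6) (nat_lit 212) (nat_lit 0) (nat_lit 212) (nat_lit 207) (nat_lit 151))) (PT.nd (nat_lit 78) (PT.lf (nat_lit 15504) (nat_lit 6) (nat_lit 204) (nat_lit 0) (nat_lit 213) (nat_lit 207) (nat_lit 150)) (PT.lf (nat_lit 14896) (nat_lit 6) (nat_lit 196) (nat_lit 0) (nat_lit 214) (nat_lit 207) (nat_lit 149))))) (PT.nd (nat_lit 234) (PT.nd (nat_lit 78) (PT.lf (nat_lit 14288) (nat_lit 6) (nat_lit 188) (nat_lit 0) (nat_lit 215) (nat_lit 207) (nat_lit 148)) (PT.nd (nat_lit 78) (PT.lf (nat_lit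 13756) (nat_lit 6) (nat_lit 181) (nat_lit 0) (nat_lit 216) (nat_lit 207) (nat_lit 147)) (PT.lf (nat_lit 13148) (nat_lit 6) (nat_lit 173) (nat_lit 0) (nat_lit 217) (nat_lit 207) (nat_lit 146)))) (PT.nd (nat_lit 53586) (PT.nd (nat_lit 53508) (PT.lf (nat_lit 12616) (nat_lit 6) (nat_lit 166) (nat_lit 0) (nat_lit 218) (nat_lit 207) (nat_lit 145)) (PT.lf (nat_lit 11628) (nat_lit 6) (nat_lit 153) (nat_lit 5) (nat_lit 143) (nat_lit 208) (nat_lit 219))) (PT.nd (nat_lit 78) (PT.lf (nat_lit 12160) (nat_lit 6) (nat_lit 160) (nat_lit 5) (nat_lit 144) (nat_lit 208) (nat_lit 218)) (PT.lf (nat_lit 12692) (nat_lit 6) (nat_lit 167) (nat_lit 5) (nat_lit 145) (nat_lit 208) (nat_lit 217)))))) (PT.nd (nat_lit 546) (PT.nd (nat_lit 234) (PT.nd (nat_lit 78) (PT.lf (nat_lit 13224) (nat_lit 6) (nat_lit 174) (nat_lit 5) (nat_lit 146) (nat_lit 208) (nat_lit 216)) (PT.nd (nat_lit 78) (PT.lf (nat_lit 13832) (nat_lit 6) (nat_lit 182) (nat_lit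 5) (nat_lit 147) (nat_lit 208) (nat_lit 215)) (PT.lf (nat_lit 14364) (nat_lit 6) (nat_lit 189) (nat_lit 5) (nat_lit 148) (nat_lit 208) (nat_lit 214)))) (PT.nd (nat_lit 156) (PT.nd (nat_lit 78) (PT.lf (nat_lit 14972) (nat_lit 6) (nat_lit 197) (nat_lit 5) (nat_lit 149) (nat_lit 208) (nat_lit 213)) (PT.lf (nat_lit 15580) (nat_lit 6) (nat_lit 205) (nat_lit 5) (nat_lit 150) (nat_lit 208) (nat_lit 212))) (PT.nd (nat_lit 78) (PT.lf (nat_lit 16188) (nat_lit 6) (nat_lit 213) (nat_lit 5) (nat_lit 151) (nat_lit 208) (nat_lit 211)) (PT.lf (nat_lit 16796) (nat_lit 6) (nat_lit 221) (nat_lit 5) (nat_lit 152) (nat_lit 208) (nat_lit 210))))) (PT.nd (nat_lit 312) (PT.nd (nat_lit 156) (PT.nd (nat_lit 78) (PT.lf (nat_lit 17480) (nat_lit 6) (nat_lit 230) (nat_lit 5) (nat_lit 153) (nat_lit 208) (nat_lit 209)) (PT.lf (nat_lit 18164) (nat_lit 3) (nat_lit 239) (nat_lit 4) (nat_lit 154) (nat_lit 208) (nat_lit 208))) (PT.nd (nat_lit 78)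 (PT.lf (nat_lit 18772) (nat_lit 6) (nat_lit 247) (nat_lit 4) (nat_lit 155) (nat_lit 208) (nat_lit 207)) (PT.lf (nat_lit 19380) (nat_lit 6) (nat_lit 255) (nat_lit 4) (nat_lit 156) (nat_lit 208) (nat_lit 206)))) (PT.nd (nat_lit 156) (PT.nd (nat_lit 78) (PT.lf (nat_lit 20064) (nat_lit 6) (nat_lit 264) (nat_lit 4) (nat_lit 157) (nat_lit 208) (nat_lit 205)) (PT.lf (nat_lit 20748) (nat_lit 6) (nat_lit 273) (nat_lit 4) (nat_lit 158) (nat_lit 208) (nat_lit 204))) (PT.nd (nat_lit 78) (PT.lf (nat_lit 21508) (nat_lit 6) (nat_lit 283) (nat_lit 4) (nat_lit 159) (nat_lit 208) (nat_lit 203)) (PT.lf (nat_lit 22192) (nat_lit 6) (nat_lit 292) (nat_lit 4) (nat_lit 160) (nat_lit 208) (nat_lit 202))))))))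
noncomputable def pc45 : PT := (PT.nd (nat_lit 2184) (PT.nd (nat_lit 1092) (PT.nd (nat_lit 546) (PT.nd (nat_lit 234) (PT.nd (nat_lit 78) (PT.lf (nat_lit 22952) (nat_lit 6) (nat_lit 302) (nat_lit 4) (nat_lit 161) (nat_lit 208) (nat_lit 201)) (PT.nd (nat_lit 78) (PT.lf (nat_lit 23712) (nat_lit 6) (nat_lit 312) (nat_lit 4) (nat_lit 162) (nat_lit 208) (nat_lit 200)) (PT.lf (nat_lit 24548) (nat_lit 6) (nat_lit 323) (nat_lit 4) (nat_lit 163) (nat_lit 208) (nat_lit 199)))) (PT.nd (nat_lit 156) (PT.nd (nat_lit 78) (PT.lf (nat_lit 25384) (nat_lit 6) (nat_lit 334) (nat_lit 4) (nat_lit 164) (nat_lit 208) (nat_lit 198)) (PT.lf (nat_lit 26220) (nat_lit 6) (nat_lit 345) (nat_lit 4) (nat_lit 165) (nat_lit 208) (nat_lit 197))) (PT.nd (nat_lit 78) (PT.lf (nat_lit 27056) (nat_lit 6) (nat_lit 356) (nat_lit 4) (nat_lit 166) (nat_lit 208) (nat_lit 196)) (PT.lf (nat_lit 28348) (nat_lit 6) (nat_lit 373) (nat_lit 4) (nat_lit 167) (nat_lit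 208) (nat_lit 195))))) (PT.nd (nat_lit 234) (PT.nd (nat_lit 78) (PT.lf (nat_lit 30020) (nat_lit 6) (nat_lit 395) (nat_lit 4) (nat_lit 168) (nat_lit 208) (nat_lit 194)) (PT.nd (nat_lit 78) (PT.lf (nat_lit 31616) (nat_lit 6) (nat_lit 416) (nat_lit 4) (nat_lit 169) (nat_lit 208) (nat_lit 193)) (PT.lf (nat_lit 33136) (nat_lit 6) (nat_lit 436) (nat_lit 4) (nat_lit 170) (nat_lit 208) (nat_lit 192)))) (PT.nd (nat_lit 156) (PT.nd (nat_lit 78) (PT.lf (nat_lit 34580) (nat_lit 6) (nat_lit 455) (nat_lit 4) (nat_lit 171) (nat_lit 208) (nat_lit 191)) (PT.lf (nat_lit 35948) (nat_lit 6) (nat_lit 473) (nat_lit 4) (nat_lit 172) (nat_lit 208) (nat_lit 190))) (PT.nd (nat_lit 78) (PT.lf (nat_lit 35872) (nat_lit 6) (nat_lit 472) (nat_lit 4) (nat_lit 173) (nat_lit 208) (nat_lit 189)) (PT.lf (nat_lit 35796) (nat_lit 6) (nat_lit 471) (nat_lit 4) (nat_lit 174) (nat_lit 208) (nat_lit 188)))))) (PT.nd (nat_lit 546) (PT.nd (nat_lit 234)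 (PT.nd (nat_lit 78) (PT.lf (nat_lit 35720) (nat_lit 6) (nat_lit 470) (nat_lit 4) (nat_lit 175) (nat_lit 208) (nat_lit 187)) (PT.nd (nat_lit 78) (PT.lf (nat_lit 35644) (nat_lit 6) (nat_lit 469) (nat_lit 4) (nat_lit 176) (nat_lit 208) (nat_lit 186)) (PT.lf (nat_lit 35568) (nat_lit 6) (nat_lit 468) (nat_lit 4) (nat_lit 177) (nat_lit 208) (nat_lit 185)))) (PT.nd (nat_lit 156) (PT.nd (nat_lit 78) (PT.lf (nat_lit 35492) (nat_lit 6) (nat_lit 467) (nat_lit 4) (nat_lit 178) (nat_lit 208) (nat_lit 184)) (PT.lf (nat_lit 35416) (nat_lit 6) (nat_lit 466) (nat_lit 4) (nat_lit 179) (nat_lit 208) (nat_lit 183))) (PT.nd (nat_lit 78) (PT.lf (nat_lit 35340) (nat_lit 6) (nat_lit 465) (nat_lit 4) (nat_lit 180) (nat_lit 208) (nat_lit 182)) (PT.lf (nat_lit 35264) (nat_lit 3) (nat_lit 464) (nat_lit 2) (nat_lit 181) (nat_lit 208) (nat_lit 181))))) (PT.nd (nat_lit 234) (PT.nd (nat_lit 78) (PT.lf (nat_lit 35340) (nat_lit 6) (nat_lit 465)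 (nat_lit 2) (nat_lit 182) (nat_lit 208) (nat_lit 180)) (PT.nd (nat_lit 78) (PT.lf (nat_lit 35416) (nat_lit 6) (nat_lit 466) (nat_lit 2) (nat_lit 183) (nat_lit 208) (nat_lit 179)) (PT.lf (nat_lit 35492) (nat_lit 6) (nat_lit 467) (nat_lit 2) (nat_lit 184) (nat_lit 208) (nat_lit 178)))) (PT.nd (nat_lit 156) (PT.nd (nat_lit 78) (PT.lf (nat_lit 35568) (nat_lit 6) (nat_lit 468) (nat_lit 2) (nat_lit 185) (nat_lit 208) (nat_lit 177)) (PT.lf (nat_lit 35644) (nat_lit 6) (nat_lit 469) (nat_lit 2) (nat_lit 186) (nat_lit 208) (nat_lit 176))) (PT.nd (nat_lit 78) (PT.lf (nat_lit 35720) (nat_lit 6) (nat_lit 470) (nat_lit 2) (nat_lit 187) (nat_lit 208) (nat_lit 175)) (PT.lf (nat_lit 35796) (nat_lit 6) (nat_lit 471) (nat_lit 2) (nat_lit 188) (nat_lit 208) (nat_lit 174))))))) (PT.nd (nat_lit 1092) (PT.nd (nat_lit 546) (PT.nd (nat_lit 234) (PT.nd (nat_lit 78) (PT.lf (nat_lit 35872) (nat_lit 6) (nat_lit 472) (nat_lit 2) (nat_lit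 189) (nat_lit 208) (nat_lit 173)) (PT.nd (nat_lit 78) (PT.lf (nat_lit 35948) (nat_lit 6) (nat_lit 473) (nat_lit 2) (nat_lit 190) (nat_lit 208) (nat_lit 172)) (PT.lf (nat_lit 34580) (nat_lit 6) (nat_lit 455) (nat_lit 2) (nat_lit 191) (nat_lit 208) (nat_lit 171)))) (PT.nd (nat_lit 156) (PT.nd (nat_lit 78) (PT.lf (nat_lit 33136) (nat_lit 6) (nat_lit 436) (nat_lit 2) (nat_lit 192) (nat_lit 208) (nat_lit 170)) (PT.lf (nat_lit 31616) (nat_lit 6) (nat_lit 416) (nat_lit 2) (nat_lit 193) (nat_lit 208) (nat_lit 169))) (PT.nd (nat_lit 78) (PT.lf (nat_lit 30020) (nat_lit 6) (nat_lit 395) (nat_lit 2) (nat_lit 194) (nat_lit 208) (nat_lit 168)) (PT.lf (nat_lit 28348) (nat_lit 6) (nat_lit 373) (nat_lit 2) (nat_lit 195) (nat_lit 208) (nat_lit 167))))) (PT.nd (nat_lit 234) (PT.nd (nat_lit 78) (PT.lf (nat_lit 27056) (nat_lit 6) (nat_lit 356) (nat_lit 2) (nat_lit 196) (nat_lit 208) (nat_lit 166)) (PT.nd (nat_lit 78) (PT.lf (nat_lit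 26220) (nat_lit 6) (nat_lit 345) (nat_lit 2) (nat_lit 197) (nat_lit 208) (nat_lit 165)) (PT.lf (nat_lit 25384) (nat_lit 6) (nat_lit 334) (nat_lit 2) (nat_lit 198) (nat_lit 208) (nat_lit 164)))) (PT.nd (nat_lit 156) (PT.nd (nat_lit 78) (PT.lf (nat_lit 24548) (nat_lit 6) (nat_lit 323) (nat_lit 2) (nat_lit 199) (nat_lit 208) (nat_lit 163)) (PT.lf (nat_lit 23712) (nat_lit 6) (nat_lit 312) (nat_lit 2) (nat_lit 200) (nat_lit 208) (nat_lit 162))) (PT.nd (nat_lit 78) (PT.lf (nat_lit 22952) (nat_lit 6) (nat_lit 302) (nat_lit 2) (nat_lit 201) (nat_lit 208) (nat_lit 161)) (PT.lf (nat_lit 22192) (nat_lit 6) (nat_lit 292) (nat_lit 2) (nat_lit 202) (nat_lit 208) (nat_lit 160)))))) (PT.nd (nat_lit 546) (PT.nd (nat_lit 234) (PT.nd (nat_lit 78) (PT.lf (nat_lit 21508) (nat_lit 6) (nat_lit 283) (nat_lit 2) (nat_lit 203) (nat_lit 208) (nat_lit 159)) (PT.nd (nat_lit 78) (PT.lf (nat_lit 20748) (nat_lit 6) (nat_lit 273) (nat_lit 2)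 (nat_lit 204) (nat_lit 208) (nat_lit 158)) (PT.lf (nat_lit 20064) (nat_lit 6) (nat_lit 264) (nat_lit 2) (nat_lit 205) (nat_lit 208) (nat_lit 157)))) (PT.nd (nat_lit 156) (PT.nd (nat_lit 78) (PT.lf (nat_lit 19380) (nat_lit 6) (nat_lit 255) (nat_lit 2) (nat_lit 206) (nat_lit 208) (nat_lit 156)) (PT.lf (nat_lit 18772) (nat_lit 6) (nat_lit 247) (nat_lit 2) (nat_lit 207) (nat_lit 208) (nat_lit 155))) (PT.nd (nat_lit 78) (PT.lf (nat_lit 18164) (nat_lit 3) (nat_lit 239) (nat_lit 0) (nat_lit 208) (nat_lit 208) (nat_lit 154)) (PT.lf (nat_lit 17480) (nat_lit 6) (nat_lit 230) (nat_lit 0) (nat_lit 209) (nat_lit 208) (nat_lit 153))))) (PT.nd (nat_lit 312) (PT.nd (nat_lit 156) (PT.nd (nat_lit 78) (PT.lf (nat_lit 16796) (nat_lit 6) (nat_lit 221) (nat_lit 0) (nat_lit 210) (nat_lit 208) (nat_lit 152)) (PT.lf (nat_lit 16188) (nat_lit 6) (nat_lit 213) (nat_lit 0) (nat_lit 211) (nat_lit 208) (nat_lit 151))) (PT.nd (nat_lit 78) (PT.lf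 (nat_lit 15580) (nat_lit 6) (nat_lit 205) (nat_lit 0) (nat_lit 212) (nat_lit 208) (nat_lit 150)) (PT.lf (nat_lit 14972) (nat_lit 6) (nat_lit 197) (nat_lit 0) (nat_lit 213) (nat_lit 208) (nat_lit 149)))) (PT.nd (nat_lit 156) (PT.nd (nat_lit 78) (PT.lf (nat_lit 14364) (nat_lit 6) (nat_lit 189) (nat_lit 0) (nat_lit 214) (nat_lit 208) (nat_lit 148)) (PT.lf (nat_lit 13832) (nat_lit 6) (nat_lit 182) (nat_lit 0) (nat_lit 215) (nat_lit 208) (nat_lit 147))) (PT.nd (nat_lit 78) (PT.lf (nat_lit 13224) (nat_lit 6) (nat_lit 174) (nat_lit 0) (nat_lit 216) (nat_lit 208) (nat_lit 146)) (PT.lf (nat_lit 12692) (nat_lit 6) (nat_lit 167) (nat_lit 0) (nat_lit 217) (nat_lit 208) (nat_lit 145))))))))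
noncomputable def pc46 : PT := (PT.nd (nat_lit 55458) (PT.nd (nat_lit 54366) (PT.nd (nat_lit 53820) (PT.nd (nat_lit 53508) (PT.nd (nat_lit 78) (PT.lf (nat_lit 12160) (nat_lit 6) (nat_lit 160) (nat_lit 0) (nat_lit 218) (nat_lit 208) (nat_lit 144)) (PT.nd (nat_lit 53352) (PT.lf (nat_lit 11628) (nat_lit 6) (nat_lit 153) (nat_lit 0) (nat_lit 219) (nat_lit 208) (nat_lit 143)) (PT.lf (nat_lit 11172) (nat_lit 6) (nat_lit 147) (nat_lit 5) (nat_lit 142) (nat_lit 209) (nat_lit 219)))) (PT.nd (nat_lit 156) (PT.nd (nat_lit 78) (PT.lf (nat_lit 11704) (nat_lit 6) (nat_lit 154) (nat_lit 5) (nat_lit 143) (nat_lit 209) (nat_lit 218)) (PT.lf (nat_lit 12236) (nat_lit 6) (nat_lit 161) (nat_lit 5) (nat_lit 144) (nat_lit 209) (nat_lit 217))) (PT.nd (nat_lit 78) (PT.lf (nat_lit 12768) (nat_lit 6) (nat_lit 168) (nat_lit 5) (nat_lit 145) (nat_lit 209) (nat_lit 216)) (PT.lf (nat_lit 13300) (nat_lit 6) (nat_lit 175) (nat_lit 5) (nat_lit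 146) (nat_lit 209) (nat_lit 215))))) (PT.nd (nat_lit 234) (PT.nd (nat_lit 78) (PT.lf (nat_lit 13908) (nat_lit 6) (nat_lit 183) (nat_lit 5) (nat_lit 147) (nat_lit 209) (nat_lit 214)) (PT.nd (nat_lit 78) (PT.lf (nat_lit 14440) (nat_lit 6) (nat_lit 190) (nat_lit 5) (nat_lit 148) (nat_lit 209) (nat_lit 213)) (PT.lf (nat_lit 15048) (nat_lit 6) (nat_lit 198) (nat_lit 5) (nat_lit 149) (nat_lit 209) (nat_lit 212)))) (PT.nd (nat_lit 156) (PT.nd (nat_lit 78) (PT.lf (nat_lit 15656) (nat_lit 6) (nat_lit 206) (nat_lit 5) (nat_lit 150) (nat_lit 209) (nat_lit 211)) (PT.lf (nat_lit 16264) (nat_lit 6) (nat_lit 214) (nat_lit 5) (nat_lit 151) (nat_lit 209) (nat_lit 210))) (PT.nd (nat_lit 78) (PT.lf (nat_lit 16872) (nat_lit 3) (nat_lit 222) (nat_lit 4) (nat_lit 152) (nat_lit 209) (nat_lit 209)) (PT.lf (nat_lit 17480) (nat_lit 6) (nat_lit 230) (nat_lit 4) (nat_lit 153) (nat_lit 209) (nat_lit 208)))))) (PT.nd (nat_lit 546) (PT.nd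 (nat_lit 234) (PT.nd (nat_lit 78) (PT.lf (nat_lit 18088) (nat_lit 6) (nat_lit 238) (nat_lit 4) (nat_lit 154) (nat_lit 209) (nat_lit 207)) (PT.nd (nat_lit 78) (PT.lf (nat_lit 18696) (nat_lit 6) (nat_lit 246) (nat_lit 4) (nat_lit 155) (nat_lit 209) (nat_lit 206)) (PT.lf (nat_lit 19304) (nat_lit 6) (nat_lit 254) (nat_lit 4) (nat_lit 156) (nat_lit 209) (nat_lit 205)))) (PT.nd (nat_lit 156) (PT.nd (nat_lit 78) (PT.lf (nat_lit 19988) (nat_lit 6) (nat_lit 263) (nat_lit 4) (nat_lit 157) (nat_lit 209) (nat_lit 204)) (PT.lf (nat_lit 20672) (nat_lit 6) (nat_lit 272) (nat_lit 4) (nat_lit 158) (nat_lit 209) (nat_lit 203))) (PT.nd (nat_lit 78) (PT.lf (nat_lit 21432) (nat_lit 6) (nat_lit 282) (nat_lit 4) (nat_lit 159) (nat_lit 209) (nat_lit 202)) (PT.lf (nat_lit 22116) (nat_lit 6) (nat_lit 291) (nat_lit 4) (nat_lit 160) (nat_lit 209) (nat_lit 201))))) (PT.nd (nat_lit 234) (PT.nd (nat_lit 78) (PT.lf (nat_lit 22876) (nat_lit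 6) (nat_lit 301) (nat_lit 4) (nat_lit 161) (nat_lit 209) (nat_lit 200)) (PT.nd (nat_lit 78) (PT.lf (nat_lit 23636) (nat_lit 6) (nat_lit 311) (nat_lit 4) (nat_lit 162) (nat_lit 209) (nat_lit 199)) (PT.lf (nat_lit 24472) (nat_lit 6) (nat_lit 322) (nat_lit 4) (nat_lit 163) (nat_lit 209) (nat_lit 198)))) (PT.nd (nat_lit 156) (PT.nd (nat_lit 78) (PT.lf (nat_lit 25308) (nat_lit 6) (nat_lit 333) (nat_lit 4) (nat_lit 164) (nat_lit 209) (nat_lit 197)) (PT.lf (nat_lit 26144) (nat_lit 6) (nat_lit 344) (nat_lit 4) (nat_lit 165) (nat_lit 209) (nat_lit 196))) (PT.nd (nat_lit 78) (PT.lf (nat_lit 26980) (nat_lit 6) (nat_lit 355) (nat_lit 4) (nat_lit 166) (nat_lit 209) (nat_lit 195)) (PT.lf (nat_lit 28272) (nat_lit 6) (nat_lit 372) (nat_lit 4) (nat_lit 167) (nat_lit 209) (nat_lit 194))))))) (PT.nd (nat_lit 1092) (PT.nd (nat_lit 546) (PT.nd (nat_lit 234) (PT.nd (nat_lit 78) (PT.lf (nat_lit 29944) (nat_lit 6) (nat_lit 394) (nat_lit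 4) (nat_lit 168) (nat_lit 209) (nat_lit 193)) (PT.nd (nat_lit 78) (PT.lf (nat_lit 31540) (nat_lit 6) (nat_lit 415) (nat_lit 4) (nat_lit 169) (nat_lit 209) (nat_lit 192)) (PT.lf (nat_lit 33060) (nat_lit 6) (nat_lit 435) (nat_lit 4) (nat_lit 170) (nat_lit 209) (nat_lit 191)))) (PT.nd (nat_lit 156) (PT.nd (nat_lit 78) (PT.lf (nat_lit 34504) (nat_lit 6) (nat_lit 454) (nat_lit 4) (nat_lit 171) (nat_lit 209) (nat_lit 190)) (PT.lf (nat_lit 34428) (nat_lit 6) (nat_lit 453) (nat_lit 4) (nat_lit 172) (nat_lit 209) (nat_lit 189))) (PT.nd (nat_lit 78) (PT.lf (nat_lit 34352) (nat_lit 6) (nat_lit 452) (nat_lit 4) (nat_lit 173) (nat_lit 209) (nat_lit 188)) (PT.lf (nat_lit 34276) (nat_lit 6) (nat_lit 451) (nat_lit 4) (nat_lit 174) (nat_lit 209) (nat_lit 187))))) (PT.nd (nat_lit 234) (PT.nd (nat_lit 78) (PT.lf (nat_lit 34200) (nat_lit 6) (nat_lit 450) (nat_lit 4) (nat_lit 175) (nat_lit 209) (nat_lit 186)) (PT.nd (nat_lit 78)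 (PT.lf (nat_lit 34124) (nat_lit 6) (nat_lit 449) (nat_lit 4) (nat_lit 176) (nat_lit 209) (nat_lit 185)) (PT.lf (nat_lit 34048) (nat_lit 6) (nat_lit 448) (nat_lit 4) (nat_lit 177) (nat_lit 209) (nat_lit 184)))) (PT.nd (nat_lit 156) (PT.nd (nat_lit 78) (PT.lf (nat_lit 33972) (nat_lit 6) (nat_lit 447) (nat_lit 4) (nat_lit 178) (nat_lit 209) (nat_lit 183)) (PT.lf (nat_lit 33896) (nat_lit 6) (nat_lit 446) (nat_lit 4) (nat_lit 179) (nat_lit 209) (nat_lit 182))) (PT.nd (nat_lit 78) (PT.lf (nat_lit 33820) (nat_lit 6) (nat_lit 445) (nat_lit 4) (nat_lit 180) (nat_lit 209) (nat_lit 181)) (PT.lf (nat_lit 33820) (nat_lit 6) (nat_lit 445) (nat_lit 2) (nat_lit 181) (nat_lit 209) (nat_lit 180)))))) (PT.nd (nat_lit 546) (PT.nd (nat_lit 234) (PT.nd (nat_lit 78) (PT.lf (nat_lit 33896) (nat_lit 6) (nat_lit 446) (nat_lit 2) (nat_lit 182) (nat_lit 209) (nat_lit 179)) (PT.nd (nat_lit 78) (PT.lf (nat_lit 33972) (nat_lit 6) (nat_lit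 447) (nat_lit 2) (nat_lit 183) (nat_lit 209) (nat_lit 178)) (PT.lf (nat_lit 34048) (nat_lit 6) (nat_lit 448) (nat_lit 2) (nat_lit 184) (nat_lit 209) (nat_lit 177)))) (PT.nd (nat_lit 156) (PT.nd (nat_lit 78) (PT.lf (nat_lit 34124) (nat_lit 6) (nat_lit 449) (nat_lit 2) (nat_lit 185) (nat_lit 209) (nat_lit 176)) (PT.lf (nat_lit 34200) (nat_lit 6) (nat_lit 450) (nat_lit 2) (nat_lit 186) (nat_lit 209) (nat_lit 175))) (PT.nd (nat_lit 78) (PT.lf (nat_lit 34276) (nat_lit 6) (nat_lit 451) (nat_lit 2) (nat_lit 187) (nat_lit 209) (nat_lit 174)) (PT.lf (nat_lit 34352) (nat_lit 6) (nat_lit 452) (nat_lit 2) (nat_lit 188) (nat_lit 209) (nat_lit 173))))) (PT.nd (nat_lit 312) (PT.nd (nat_lit 156) (PT.nd (nat_lit 78) (PT.lf (nat_lit 34428) (nat_lit 6) (nat_lit 453) (nat_lit 2) (nat_lit 189) (nat_lit 209) (nat_lit 172)) (PT.lf (nat_lit 34504) (nat_lit 6) (nat_lit 454) (nat_lit 2) (nat_lit 190) (nat_lit 209) (nat_lit 171))) (PT.nd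 (nat_lit 78) (PT.lf (nat_lit 33060) (nat_lit 6) (nat_lit 435) (nat_lit 2) (nat_lit 191) (nat_lit 209) (nat_lit 170)) (PT.lf (nat_lit 31540) (nat_lit 6) (nat_lit 415) (nat_lit 2) (nat_lit 192) (nat_lit 209) (nat_lit 169)))) (PT.nd (nat_lit 156) (PT.nd (nat_lit 78) (PT.lf (nat_lit 29944) (nat_lit 6) (nat_lit 394) (nat_lit 2) (nat_lit 193) (nat_lit 209) (nat_lit 168)) (PT.lf (nat_lit 28272) (nat_lit 6) (nat_lit 372) (nat_lit 2) (nat_lit 194) (nat_lit 209) (nat_lit 167))) (PT.nd (nat_lit 78) (PT.lf (nat_lit 26980) (nat_lit 6) (nat_lit 355) (nat_lit 2) (nat_lit 195) (nat_lit 209) (nat_lit 166)) (PT.lf (nat_lit 26144) (nat_lit 6) (nat_lit 344) (nat_lit 2) (nat_lit 196) (nat_lit 209) (nat_lit 165))))))))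
noncomputable def pc47 : PT := (PT.nd (nat_lit 55302) (PT.nd (nat_lit 1092) (PT.nd (nat_lit 546) (PT.nd (nat_lit 234) (PT.nd (nat_lit 78) (PT.lf (nat_lit 25308) (nat_lit 6) (nat_lit 333) (nat_lit 2) (nat_lit 197) (nat_lit 209) (nat_lit 164)) (PT.nd (nat_lit 78) (PT.lf (nat_lit 24472) (nat_lit 6) (nat_lit 322) (nat_lit 2) (nat_lit 198) (nat_lit 209) (nat_lit 163)) (PT.lf (nat_lit 23636) (nat_lit 6) (nat_lit 311) (nat_lit 2) (nat_lit 199) (nat_lit 209) (nat_lit 162)))) (PT.nd (nat_lit 156) (PT.nd (nat_lit 78) (PT.lf (nat_lit 22876) (nat_lit 6) (nat_lit 301) (nat_lit 2) (nat_lit 200) (nat_lit 209) (nat_lit 161)) (PT.lf (nat_lit 22116) (nat_lit 6) (nat_lit 291) (nat_lit 2) (nat_lit 201) (nat_lit 209) (nat_lit 160))) (PT.nd (nat_lit 78) (PT.lf (nat_lit 21432) (nat_lit 6) (nat_lit 282) (nat_lit 2) (nat_lit 202) (nat_lit 209) (nat_lit 159)) (PT.lf (nat_lit 20672) (nat_lit 6) (nat_lit 272) (nat_lit 2) (nat_lit 203) (nat_lit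 209) (nat_lit 158))))) (PT.nd (nat_lit 234) (PT.nd (nat_lit 78) (PT.lf (nat_lit 19988) (nat_lit 6) (nat_lit 263) (nat_lit 2) (nat_lit 204) (nat_lit 209) (nat_lit 157)) (PT.nd (nat_lit 78) (PT.lf (nat_lit 19304) (nat_lit 6) (nat_lit 254) (nat_lit 2) (nat_lit 205) (nat_lit 209) (nat_lit 156)) (PT.lf (nat_lit 18696) (nat_lit 6) (nat_lit 246) (nat_lit 2) (nat_lit 206) (nat_lit 209) (nat_lit 155)))) (PT.nd (nat_lit 156) (PT.nd (nat_lit 78) (PT.lf (nat_lit 18088) (nat_lit 6) (nat_lit 238) (nat_lit 2) (nat_lit 207) (nat_lit 209) (nat_lit 154)) (PT.lf (nat_lit 17480) (nat_lit 6) (nat_lit 230) (nat_lit 2) (nat_lit 208) (nat_lit 209) (nat_lit 153))) (PT.nd (nat_lit 78) (PT.lf (nat_lit 16872) (nat_lit 3) (nat_lit 222) (nat_lit 0) (nat_lit 209) (nat_lit 209) (nat_lit 152)) (PT.lf (nat_lit 16264) (nat_lit 6) (nat_lit 214) (nat_lit 0) (nat_lit 210) (nat_lit 209) (nat_lit 151)))))) (PT.nd (nat_lit 546) (PT.nd (nat_lit 234)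 (PT.nd (nat_lit 78) (PT.lf (nat_lit 15656) (nat_lit 6) (nat_lit 206) (nat_lit 0) (nat_lit 211) (nat_lit 209) (nat_lit 150)) (PT.nd (nat_lit 78) (PT.lf (nat_lit 15048) (nat_lit 6) (nat_lit 198) (nat_lit 0) (nat_lit 212) (nat_lit 209) (nat_lit 149)) (PT.lf (nat_lit 14440) (nat_lit 6) (nat_lit 190) (nat_lit 0) (nat_lit 213) (nat_lit 209) (nat_lit 148)))) (PT.nd (nat_lit 156) (PT.nd (nat_lit 78) (PT.lf (nat_lit 13908) (nat_lit 6) (nat_lit 183) (nat_lit 0) (nat_lit 214) (nat_lit 209) (nat_lit 147)) (PT.lf (nat_lit 13300) (nat_lit 6) (nat_lit 175) (nat_lit 0) (nat_lit 215) (nat_lit 209) (nat_lit 146))) (PT.nd (nat_lit 78) (PT.lf (nat_lit 12768) (nat_lit 6) (nat_lit 168) (nat_lit 0) (nat_lit 216) (nat_lit 209) (nat_lit 145)) (PT.lf (nat_lit 12236) (nat_lit 6) (nat_lit 161) (nat_lit 0) (nat_lit 217) (nat_lit 209) (nat_lit 144))))) (PT.nd (nat_lit 53352) (PT.nd (nat_lit 78) (PT.lf (nat_lit 11704) (nat_lit 6) (nat_lit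 154) (nat_lit 0) (nat_lit 218) (nat_lit 209) (nat_lit 143)) (PT.nd (nat_lit 53196) (PT.lf (nat_lit 11172) (nat_lit 6) (nat_lit 147) (nat_lit 0) (nat_lit 219) (nat_lit 209) (nat_lit 142)) (PT.lf (nat_lit 10260) (nat_lit 6) (nat_lit 135) (nat_lit 5) (nat_lit 140) (nat_lit 210) (nat_lit 220)))) (PT.nd (nat_lit 156) (PT.nd (nat_lit 78) (PT.lf (nat_lit 10792) (nat_lit 6) (nat_lit 142) (nat_lit 5) (nat_lit 141) (nat_lit 210) (nat_lit 219)) (PT.lf (nat_lit 11248) (nat_lit 6) (nat_lit 148) (nat_lit 5) (nat_lit 142) (nat_lit 210) (nat_lit 218))) (PT.nd (nat_lit 78) (PT.lf (nat_lit 11780) (nat_lit 6) (nat_lit 155) (nat_lit 5) (nat_lit 143) (nat_lit 210) (nat_lit 217)) (PT.lf (nat_lit 12312) (nat_lit 6) (nat_lit 162) (nat_lit 5) (nat_lit 144) (nat_lit 210) (nat_lit 216))))))) (PT.nd (nat_lit 1092) (PT.nd (nat_lit 546) (PT.nd (nat_lit 234) (PT.nd (nat_lit 78) (PT.lf (nat_lit 12844) (nat_lit 6) (nat_lit 169) (nat_lit 5) (nat_lit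 145) (nat_lit 210) (nat_lit 215)) (PT.nd (nat_lit 78) (PT.lf (nat_lit 13376) (nat_lit 6) (nat_lit 176) (nat_lit 5) (nat_lit 146) (nat_lit 210) (nat_lit 214)) (PT.lf (nat_lit 13984) (nat_lit 6) (nat_lit 184) (nat_lit 5) (nat_lit 147) (nat_lit 210) (nat_lit 213)))) (PT.nd (nat_lit 156) (PT.nd (nat_lit 78) (PT.lf (nat_lit 14516) (nat_lit 6) (nat_lit 191) (nat_lit 5) (nat_lit 148) (nat_lit 210) (nat_lit 212)) (PT.lf (nat_lit 15124) (nat_lit 6) (nat_lit 199) (nat_lit 5) (nat_lit 149) (nat_lit 210) (nat_lit 211))) (PT.nd (nat_lit 78) (PT.lf (nat_lit 15732) (nat_lit 3) (nat_lit 207) (nat_lit 4) (nat_lit 150) (nat_lit 210) (nat_lit 210)) (PT.lf (nat_lit 16264) (nat_lit 6) (nat_lit 214) (nat_lit 4) (nat_lit 151) (nat_lit 210) (nat_lit 209))))) (PT.nd (nat_lit 234) (PT.nd (nat_lit 78) (PT.lf (nat_lit 16796) (nat_lit 6) (nat_lit 221) (nat_lit 4) (nat_lit 152) (nat_lit 210) (nat_lit 208)) (PT.nd (nat_lit 78) (PT.lf (nat_lit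 17404) (nat_lit 6) (nat_lit 229) (nat_lit 4) (nat_lit 153) (nat_lit 210) (nat_lit 207)) (PT.lf (nat_lit 18012) (nat_lit 6) (nat_lit 237) (nat_lit 4) (nat_lit 154) (nat_lit 210) (nat_lit 206)))) (PT.nd (nat_lit 156) (PT.nd (nat_lit 78) (PT.lf (nat_lit 18620) (nat_lit 6) (nat_lit 245) (nat_lit 4) (nat_lit 155) (nat_lit 210) (nat_lit 205)) (PT.lf (nat_lit 19228) (nat_lit 6) (nat_lit 253) (nat_lit 4) (nat_lit 156) (nat_lit 210) (nat_lit 204))) (PT.nd (nat_lit 78) (PT.lf (nat_lit 19912) (nat_lit 6) (nat_lit 262) (nat_lit 4) (nat_lit 157) (nat_lit 210) (nat_lit 203)) (PT.lf (nat_lit 20596) (nat_lit 6) (nat_lit 271) (nat_lit 4) (nat_lit 158) (nat_lit 210) (nat_lit 202)))))) (PT.nd (nat_lit 546) (PT.nd (nat_lit 234) (PT.nd (nat_lit 78) (PT.lf (nat_lit 21356) (nat_lit 6) (nat_lit 281) (nat_lit 4) (nat_lit 159) (nat_lit 210) (nat_lit 201)) (PT.nd (nat_lit 78) (PT.lf (nat_lit 22040) (nat_lit 6) (nat_lit 290) (nat_lit 4)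 (nat_lit 160) (nat_lit 210) (nat_lit 200)) (PT.lf (nat_lit 22800) (nat_lit 6) (nat_lit 300) (nat_lit 4) (nat_lit 161) (nat_lit 210) (nat_lit 199)))) (PT.nd (nat_lit 156) (PT.nd (nat_lit 78) (PT.lf (nat_lit 23560) (nat_lit 6) (nat_lit 310) (nat_lit 4) (nat_lit 162) (nat_lit 210) (nat_lit 198)) (PT.lf (nat_lit 24396) (nat_lit 6) (nat_lit 321) (nat_lit 4) (nat_lit 163) (nat_lit 210) (nat_lit 197))) (PT.nd (nat_lit 78) (PT.lf (nat_lit 25232) (nat_lit 6) (nat_lit 332) (nat_lit 4) (nat_lit 164) (nat_lit 210) (nat_lit 196)) (PT.lf (nat_lit 26068) (nat_lit 6) (nat_lit 343) (nat_lit 4) (nat_lit 165) (nat_lit 210) (nat_lit 195))))) (PT.nd (nat_lit 312) (PT.nd (nat_lit 156) (PT.nd (nat_lit 78) (PT.lf (nat_lit 26904) (nat_lit 6) (nat_lit 354) (nat_lit 4) (nat_lit 166) (nat_lit 210) (nat_lit 194)) (PT.lf (nat_lit 28196) (nat_lit 6) (nat_lit 371) (nat_lit 4) (nat_lit 167) (nat_lit 210) (nat_lit 193))) (PT.nd (nat_lit 78) (PT.lf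 (nat_lit 29868) (nat_lit 6) (nat_lit 393) (nat_lit 4) (nat_lit 168) (nat_lit 210) (nat_lit 192)) (PT.lf (nat_lit 31464) (nat_lit 6) (nat_lit 414) (nat_lit 4) (nat_lit 169) (nat_lit 210) (nat_lit 191)))) (PT.nd (nat_lit 156) (PT.nd (nat_lit 78) (PT.lf (nat_lit 32984) (nat_lit 6) (nat_lit 434) (nat_lit 4) (nat_lit 170) (nat_lit 210) (nat_lit 190)) (PT.lf (nat_lit 32908) (nat_lit 6) (nat_lit 433) (nat_lit 4) (nat_lit 171) (nat_lit 210) (nat_lit 189))) (PT.nd (nat_lit 78) (PT.lf (nat_lit 32832) (nat_lit 6) (nat_lit 432) (nat_lit 4) (nat_lit 172) (nat_lit 210) (nat_lit 188)) (PT.lf (nat_lit 32756) (nat_lit 6) (nat_lit 431) (nat_lit 4) (nat_lit 173) (nat_lit 210) (nat_lit 187))))))))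
noncomputable def pc48 : PT := (PT.nd (nat_lit 2184) (PT.nd (nat_lit 1092) (PT.nd (nat_lit 546) (PT.nd (nat_lit 234) (PT.nd (nat_lit 78) (PT.lf (nat_lit 32680) (nat_lit 6) (nat_lit 430) (nat_lit 4) (nat_lit 174) (nat_lit 210) (nat_lit 186)) (PT.nd (nat_lit 78) (PT.lf (nat_lit 32604) (nat_lit 6) (nat_lit 429) (nat_lit 4) (nat_lit 175) (nat_lit 210) (nat_lit 185)) (PT.lf (nat_lit 32528) (nat_lit 6) (nat_lit 428) (nat_lit 4) (nat_lit 176) (nat_lit 210) (nat_lit 184)))) (PT.nd (nat_lit 156) (PT.nd (nat_lit 78) (PT.lf (nat_lit 32452) (nat_lit 6) (nat_lit 427) (nat_lit 4) (nat_lit 177) (nat_lit 210) (nat_lit 183)) (PT.lf (nat_lit 32376) (nat_lit 6) (nat_lit 426) (nat_lit 4) (nat_lit 178) (nat_lit 210) (nat_lit 182))) (PT.nd (nat_lit 78) (PT.lf (nat_lit 32300) (nat_lit 6) (nat_lit 425) (nat_lit 4) (nat_lit 179) (nat_lit 210) (nat_lit 181)) (PT.lf (nat_lit 32224) (nat_lit 3) (nat_lit 424) (nat_lit 2) (nat_lit 180) (nat_lit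 210) (nat_lit 180))))) (PT.nd (nat_lit 234) (PT.nd (nat_lit 78) (PT.lf (nat_lit 32300) (nat_lit 6) (nat_lit 425) (nat_lit 2) (nat_lit 181) (nat_lit 210) (nat_lit 179)) (PT.nd (nat_lit 78) (PT.lf (nat_lit 32376) (nat_lit 6) (nat_lit 426) (nat_lit 2) (nat_lit 182) (nat_lit 210) (nat_lit 178)) (PT.lf (nat_lit 32452) (nat_lit 6) (nat_lit 427) (nat_lit 2) (nat_lit 183) (nat_lit 210) (nat_lit 177)))) (PT.nd (nat_lit 156) (PT.nd (nat_lit 78) (PT.lf (nat_lit 32528) (nat_lit 6) (nat_lit 428) (nat_lit 2) (nat_lit 184) (nat_lit 210) (nat_lit 176)) (PT.lf (nat_lit 32604) (nat_lit 6) (nat_lit 429) (nat_lit 2) (nat_lit 185) (nat_lit 210) (nat_lit 175))) (PT.nd (nat_lit 78) (PT.lf (nat_lit 32680) (nat_lit 6) (nat_lit 430) (nat_lit 2) (nat_lit 186) (nat_lit 210) (nat_lit 174)) (PT.lf (nat_lit 32756) (nat_lit 6) (nat_lit 431) (nat_lit 2) (nat_lit 187) (nat_lit 210) (nat_lit 173)))))) (PT.nd (nat_lit 546) (PT.nd (nat_lit 234)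 (PT.nd (nat_lit 78) (PT.lf (nat_lit 32832) (nat_lit 6) (nat_lit 432) (nat_lit 2) (nat_lit 188) (nat_lit 210) (nat_lit 172)) (PT.nd (nat_lit 78) (PT.lf (nat_lit 32908) (nat_lit 6) (nat_lit 433) (nat_lit 2) (nat_lit 189) (nat_lit 210) (nat_lit 171)) (PT.lf (nat_lit 32984) (nat_lit 6) (nat_lit 434) (nat_lit 2) (nat_lit 190) (nat_lit 210) (nat_lit 170)))) (PT.nd (nat_lit 156) (PT.nd (nat_lit 78) (PT.lf (nat_lit 31464) (nat_lit 6) (nat_lit 414) (nat_lit 2) (nat_lit 191) (nat_lit 210) (nat_lit 169)) (PT.lf (nat_lit 29868) (nat_lit 6) (nat_lit 393) (nat_lit 2) (nat_lit 192) (nat_lit 210) (nat_lit 168))) (PT.nd (nat_lit 78) (PT.lf (nat_lit 28196) (nat_lit 6) (nat_lit 371) (nat_lit 2) (nat_lit 193) (nat_lit 210) (nat_lit 167)) (PT.lf (nat_lit 26904) (nat_lit 6) (nat_lit 354) (nat_lit 2) (nat_lit 194) (nat_lit 210) (nat_lit 166))))) (PT.nd (nat_lit 234) (PT.nd (nat_lit 78) (PT.lf (nat_lit 26068) (nat_lit 6) (nat_lit 343)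 (nat_lit 2) (nat_lit 195) (nat_lit 210) (nat_lit 165)) (PT.nd (nat_lit 78) (PT.lf (nat_lit 25232) (nat_lit 6) (nat_lit 332) (nat_lit 2) (nat_lit 196) (nat_lit 210) (nat_lit 164)) (PT.lf (nat_lit 24396) (nat_lit 6) (nat_lit 321) (nat_lit 2) (nat_lit 197) (nat_lit 210) (nat_lit 163)))) (PT.nd (nat_lit 156) (PT.nd (nat_lit 78) (PT.lf (nat_lit 23560) (nat_lit 6) (nat_lit 310) (nat_lit 2) (nat_lit 198) (nat_lit 210) (nat_lit 162)) (PT.lf (nat_lit 22800) (nat_lit 6) (nat_lit 300) (nat_lit 2) (nat_lit 199) (nat_lit 210) (nat_lit 161))) (PT.nd (nat_lit 78) (PT.lf (nat_lit 22040) (nat_lit 6) (nat_lit 290) (nat_lit 2) (nat_lit 200) (nat_lit 210) (nat_lit 160)) (PT.lf (nat_lit 21356) (nat_lit 6) (nat_lit 281) (nat_lit 2) (nat_lit 201) (nat_lit 210) (nat_lit 159))))))) (PT.nd (nat_lit 1092) (PT.nd (nat_lit 546) (PT.nd (nat_lit 234) (PT.nd (nat_lit 78) (PT.lf (nat_lit 20596) (nat_lit 6) (nat_lit 271) (nat_lit 2) (nat_lit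 202) (nat_lit 210) (nat_lit 158)) (PT.nd (nat_lit 78) (PT.lf (nat_lit 19912) (nat_lit 6) (nat_lit 262) (nat_lit 2) (nat_lit 203) (nat_lit 210) (nat_lit 157)) (PT.lf (nat_lit 19228) (nat_lit 6) (nat_lit 253) (nat_lit 2) (nat_lit 204) (nat_lit 210) (nat_lit 156)))) (PT.nd (nat_lit 156) (PT.nd (nat_lit 78) (PT.lf (nat_lit 18620) (nat_lit 6) (nat_lit 245) (nat_lit 2) (nat_lit 205) (nat_lit 210) (nat_lit 155)) (PT.lf (nat_lit 18012) (nat_lit 6) (nat_lit 237) (nat_lit 2) (nat_lit 206) (nat_lit 210) (nat_lit 154))) (PT.nd (nat_lit 78) (PT.lf (nat_lit 17404) (nat_lit 6) (nat_lit 229) (nat_lit 2) (nat_lit 207) (nat_lit 210) (nat_lit 153)) (PT.lf (nat_lit 16796) (nat_lit 6) (nat_lit 221) (nat_lit 2) (nat_lit 208) (nat_lit 210) (nat_lit 152))))) (PT.nd (nat_lit 234) (PT.nd (nat_lit 78) (PT.lf (nat_lit 16264) (nat_lit 6) (nat_lit 214) (nat_lit 2) (nat_lit 209) (nat_lit 210) (nat_lit 151)) (PT.nd (nat_lit 78) (PT.lf (nat_lit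 15732) (nat_lit 3) (nat_lit 207) (nat_lit 0) (nat_lit 210) (nat_lit 210) (nat_lit 150)) (PT.lf (nat_lit 15124) (nat_lit 6) (nat_lit 199) (nat_lit 0) (nat_lit 211) (nat_lit 210) (nat_lit 149)))) (PT.nd (nat_lit 156) (PT.nd (nat_lit 78) (PT.lf (nat_lit 14516) (nat_lit 6) (nat_lit 191) (nat_lit 0) (nat_lit 212) (nat_lit 210) (nat_lit 148)) (PT.lf (nat_lit 13984) (nat_lit 6) (nat_lit 184) (nat_lit 0) (nat_lit 213) (nat_lit 210) (nat_lit 147))) (PT.nd (nat_lit 78) (PT.lf (nat_lit 13376) (nat_lit 6) (nat_lit 176) (nat_lit 0) (nat_lit 214) (nat_lit 210) (nat_lit 146)) (PT.lf (nat_lit 12844) (nat_lit 6) (nat_lit 169) (nat_lit 0) (nat_lit 215) (nat_lit 210) (nat_lit 145)))))) (PT.nd (nat_lit 53508) (PT.nd (nat_lit 234) (PT.nd (nat_lit 78) (PT.lf (nat_lit 12312) (nat_lit 6) (nat_lit 162) (nat_lit 0) (nat_lit 216) (nat_lit 210) (nat_lit 144)) (PT.nd (nat_lit 78) (PT.lf (nat_lit 11780) (nat_lit 6) (nat_lit 155) (nat_lit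 0) (nat_lit 217) (nat_lit 210) (nat_lit 143)) (PT.lf (nat_lit 11248) (nat_lit 6) (nat_lit 148) (nat_lit 0) (nat_lit 218) (nat_lit 210) (nat_lit 142)))) (PT.nd (nat_lit 53118) (PT.nd (nat_lit 78) (PT.lf (nat_lit 10792) (nat_lit 6) (nat_lit 142) (nat_lit 0) (nat_lit 219) (nat_lit 210) (nat_lit 141)) (PT.lf (nat_lit 10260) (nat_lit 6) (nat_lit 135) (nat_lit 0) (nat_lit 220) (nat_lit 210) (nat_lit 140))) (PT.nd (nat_lit 78) (PT.lf (nat_lit 9880) (nat_lit 6) (nat_lit 130) (nat_lit 5) (nat_lit 139) (nat_lit 211) (nat_lit 220)) (PT.lf (nat_lit 10336) (nat_lit 6) (nat_lit 136) (nat_lit 5) (nat_lit 140) (nat_lit 211) (nat_lit 219))))) (PT.nd (nat_lit 234) (PT.nd (nat_lit 78) (PT.lf (nat_lit 10868) (nat_lit 6) (nat_lit 143) (nat_lit 5) (nat_lit 141) (nat_lit 211) (nat_lit 218)) (PT.nd (nat_lit 78) (PT.lf (nat_lit 11324) (nat_lit 6) (nat_lit 149) (nat_lit 5) (nat_lit 142) (nat_lit 211) (nat_lit 217)) (PT.lf (nat_lit 11856)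 (nat_lit 6) (nat_lit 156) (nat_lit 5) (nat_lit 143) (nat_lit 211) (nat_lit 216)))) (PT.nd (nat_lit 156) (PT.nd (nat_lit 78) (PT.lf (nat_lit 12388) (nat_lit 6) (nat_lit 163) (nat_lit 5) (nat_lit 144) (nat_lit 211) (nat_lit 215)) (PT.lf (nat_lit 12920) (nat_lit 6) (nat_lit 170) (nat_lit 5) (nat_lit 145) (nat_lit 211) (nat_lit 214))) (PT.nd (nat_lit 78) (PT.lf (nat_lit 13452) (nat_lit 6) (nat_lit 177) (nat_lit 5) (nat_lit 146) (nat_lit 211) (nat_lit 213)) (PT.lf (nat_lit 14060) (nat_lit 6) (nat_lit 185) (nat_lit 5) (nat_lit 147) (nat_lit 211) (nat_lit 212))))))))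
noncomputable def pc49 : PT := (PT.nd (nat_lit 2184) (PT.nd (nat_lit 1092) (PT.nd (nat_lit 546) (PT.nd (nat_lit 234) (PT.nd (nat_lit 78) (PT.lf (nat_lit 14592) (nat_lit 3) (nat_lit 192) (nat_lit 4) (nat_lit 148) (nat_lit 211) (nat_lit 211)) (PT.nd (nat_lit 78) (PT.lf (nat_lit 15124) (nat_lit 6) (nat_lit 199) (nat_lit 4) (nat_lit 149) (nat_lit 211) (nat_lit 210)) (PT.lf (nat_lit 15656) (nat_lit 6) (nat_lit 206) (nat_lit 4) (nat_lit 150) (nat_lit 211) (nat_lit 209)))) (PT.nd (nat_lit 156) (PT.nd (nat_lit 78) (PT.lf (nat_lit 16188) (nat_lit 6) (nat_lit 213) (nat_lit 4) (nat_lit 151) (nat_lit 211) (nat_lit 208)) (PT.lf (nat_lit 16720) (nat_lit 6) (nat_lit 220) (nat_lit 4) (nat_lit 152) (nat_lit 211) (nat_lit 207))) (PT.nd (nat_lit 78) (PT.lf (nat_lit 17328) (nat_lit 6) (nat_lit 228) (nat_lit 4) (nat_lit 153) (nat_lit 211) (nat_lit 206)) (PT.lf (nat_lit 17936) (nat_lit 6) (nat_lit 236) (nat_lit 4) (nat_lit 154) (nat_lit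 211) (nat_lit 205))))) (PT.nd (nat_lit 234) (PT.nd (nat_lit 78) (PT.lf (nat_lit 18544) (nat_lit 6) (nat_lit 244) (nat_lit 4) (nat_lit 155) (nat_lit 211) (nat_lit 204)) (PT.nd (nat_lit 78) (PT.lf (nat_lit 19152) (nat_lit 6) (nat_lit 252) (nat_lit 4) (nat_lit 156) (nat_lit 211) (nat_lit 203)) (PT.lf (nat_lit 19836) (nat_lit 6) (nat_lit 261) (nat_lit 4) (nat_lit 157) (nat_lit 211) (nat_lit 202)))) (PT.nd (nat_lit 156) (PT.nd (nat_lit 78) (PT.lf (nat_lit 20520) (nat_lit 6) (nat_lit 270) (nat_lit 4) (nat_lit 158) (nat_lit 211) (nat_lit 201)) (PT.lf (nat_lit 21280) (nat_lit 6) (nat_lit 280) (nat_lit 4) (nat_lit 159) (nat_lit 211) (nat_lit 200))) (PT.nd (nat_lit 78) (PT.lf (nat_lit 21964) (nat_lit 6) (nat_lit 289) (nat_lit 4) (nat_lit 160) (nat_lit 211) (nat_lit 199)) (PT.lf (nat_lit 22724) (nat_lit 6) (nat_lit 299) (nat_lit 4) (nat_lit 161) (nat_lit 211) (nat_lit 198)))))) (PT.nd (nat_lit 546) (PT.nd (nat_lit 234)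 (PT.nd (nat_lit 78) (PT.lf (nat_lit 23484) (nat_lit 6) (nat_lit 309) (nat_lit 4) (nat_lit 162) (nat_lit 211) (nat_lit 197)) (PT.nd (nat_lit 78) (PT.lf (nat_lit 24320) (nat_lit 6) (nat_lit 320) (nat_lit 4) (nat_lit 163) (nat_lit 211) (nat_lit 196)) (PT.lf (nat_lit 25156) (nat_lit 6) (nat_lit 331) (nat_lit 4) (nat_lit 164) (nat_lit 211) (nat_lit 195)))) (PT.nd (nat_lit 156) (PT.nd (nat_lit 78) (PT.lf (nat_lit 25992) (nat_lit 6) (nat_lit 342) (nat_lit 4) (nat_lit 165) (nat_lit 211) (nat_lit 194)) (PT.lf (nat_lit 26828) (nat_lit 6) (nat_lit 353) (nat_lit 4) (nat_lit 166) (nat_lit 211) (nat_lit 193))) (PT.nd (nat_lit 78) (PT.lf (nat_lit 28120) (nat_lit 6) (nat_lit 370) (nat_lit 4) (nat_lit 167) (nat_lit 211) (nat_lit 192)) (PT.lf (nat_lit 29792) (nat_lit 6) (nat_lit 392) (nat_lit 4) (nat_lit 168) (nat_lit 211) (nat_lit 191))))) (PT.nd (nat_lit 234) (PT.nd (nat_lit 78) (PT.lf (nat_lit 31388) (nat_lit 6) (nat_lit 413)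 (nat_lit 4) (nat_lit 169) (nat_lit 211) (nat_lit 190)) (PT.nd (nat_lit 78) (PT.lf (nat_lit 31312) (nat_lit 6) (nat_lit 412) (nat_lit 4) (nat_lit 170) (nat_lit 211) (nat_lit 189)) (PT.lf (nat_lit 31236) (nat_lit 6) (nat_lit 411) (nat_lit 4) (nat_lit 171) (nat_lit 211) (nat_lit 188)))) (PT.nd (nat_lit 156) (PT.nd (nat_lit 78) (PT.lf (nat_lit 31160) (nat_lit 6) (nat_lit 410) (nat_lit 4) (nat_lit 172) (nat_lit 211) (nat_lit 187)) (PT.lf (nat_lit 31084) (nat_lit 6) (nat_lit 409) (nat_lit 4) (nat_lit 173) (nat_lit 211) (nat_lit 186))) (PT.nd (nat_lit 78) (PT.lf (nat_lit 31008) (nat_lit 6) (nat_lit 408) (nat_lit 4) (nat_lit 174) (nat_lit 211) (nat_lit 185)) (PT.lf (nat_lit 30932) (nat_lit 6) (nat_lit 407) (nat_lit 4) (nat_lit 175) (nat_lit 211) (nat_lit 184))))))) (PT.nd (nat_lit 1092) (PT.nd (nat_lit 546) (PT.nd (nat_lit 234) (PT.nd (nat_lit 78) (PT.lf (nat_lit 30856) (nat_lit 6) (nat_lit 406) (nat_lit 4) (nat_lit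 176) (nat_lit 211) (nat_lit 183)) (PT.nd (nat_lit 78) (PT.lf (nat_lit 30780) (nat_lit 6) (nat_lit 405) (nat_lit 4) (nat_lit 177) (nat_lit 211) (nat_lit 182)) (PT.lf (nat_lit 30704) (nat_lit 6) (nat_lit 404) (nat_lit 4) (nat_lit 178) (nat_lit 211) (nat_lit 181)))) (PT.nd (nat_lit 156) (PT.nd (nat_lit 78) (PT.lf (nat_lit 30628) (nat_lit 6) (nat_lit 403) (nat_lit 4) (nat_lit 179) (nat_lit 211) (nat_lit 180)) (PT.lf (nat_lit 30628) (nat_lit 6) (nat_lit 403) (nat_lit 2) (nat_lit 180) (nat_lit 211) (nat_lit 179))) (PT.nd (nat_lit 78) (PT.lf (nat_lit 30704) (nat_lit 6) (nat_lit 404) (nat_lit 2) (nat_lit 181) (nat_lit 211) (nat_lit 178)) (PT.lf (nat_lit 30780) (nat_lit 6) (nat_lit 405) (nat_lit 2) (nat_lit 182) (nat_lit 211) (nat_lit 177))))) (PT.nd (nat_lit 234) (PT.nd (nat_lit 78) (PT.lf (nat_lit 30856) (nat_lit 6) (nat_lit 406) (nat_lit 2) (nat_lit 183) (nat_lit 211) (nat_lit 176)) (PT.nd (nat_lit 78) (PT.lf (nat_lit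 30932) (nat_lit 6) (nat_lit 407) (nat_lit 2) (nat_lit 184) (nat_lit 211) (nat_lit 175)) (PT.lf (nat_lit 31008) (nat_lit 6) (nat_lit 408) (nat_lit 2) (nat_lit 185) (nat_lit 211) (nat_lit 174)))) (PT.nd (nat_lit 156) (PT.nd (nat_lit 78) (PT.lf (nat_lit 31084) (nat_lit 6) (nat_lit 409) (nat_lit 2) (nat_lit 186) (nat_lit 211) (nat_lit 173)) (PT.lf (nat_lit 31160) (nat_lit 6) (nat_lit 410) (nat_lit 2) (nat_lit 187) (nat_lit 211) (nat_lit 172))) (PT.nd (nat_lit 78) (PT.lf (nat_lit 31236) (nat_lit 6) (nat_lit 411) (nat_lit 2) (nat_lit 188) (nat_lit 211) (nat_lit 171)) (PT.lf (nat_lit 31312) (nat_lit 6) (nat_lit 412) (nat_lit 2) (nat_lit 189) (nat_lit 211) (nat_lit 170)))))) (PT.nd (nat_lit 546) (PT.nd (nat_lit 234) (PT.nd (nat_lit 78) (PT.lf (nat_lit 31388) (nat_lit 6) (nat_lit 413) (nat_lit 2) (nat_lit 190) (nat_lit 211) (nat_lit 169)) (PT.nd (nat_lit 78) (PT.lf (nat_lit 29792) (nat_lit 6) (nat_lit 392) (nat_lit 2)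 (nat_lit 191) (nat_lit 211) (nat_lit 168)) (PT.lf (nat_lit 28120) (nat_lit 6) (nat_lit 370) (nat_lit 2) (nat_lit 192) (nat_lit 211) (nat_lit 167)))) (PT.nd (nat_lit 156) (PT.nd (nat_lit 78) (PT.lf (nat_lit 26828) (nat_lit 6) (nat_lit 353) (nat_lit 2) (nat_lit 193) (nat_lit 211) (nat_lit 166)) (PT.lf (nat_lit 25992) (nat_lit 6) (nat_lit 342) (nat_lit 2) (nat_lit 194) (nat_lit 211) (nat_lit 165))) (PT.nd (nat_lit 78) (PT.lf (nat_lit 25156) (nat_lit 6) (nat_lit 331) (nat_lit 2) (nat_lit 195) (nat_lit 211) (nat_lit 164)) (PT.lf (nat_lit 24320) (nat_lit 6) (nat_lit 320) (nat_lit 2) (nat_lit 196) (nat_lit 211) (nat_lit 163))))) (PT.nd (nat_lit 312) (PT.nd (nat_lit 156) (PT.nd (nat_lit 78) (PT.lf (nat_lit 23484) (nat_lit 6) (nat_lit 309) (nat_lit 2) (nat_lit 197) (nat_lit 211) (nat_lit 162)) (PT.lf (nat_lit 22724) (nat_lit 6) (nat_lit 299) (nat_lit 2) (nat_lit 198) (nat_lit 211) (nat_lit 161))) (PT.nd (nat_lit 78) (PT.lf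 (nat_lit 21964) (nat_lit 6) (nat_lit 289) (nat_lit 2) (nat_lit 199) (nat_lit 211) (nat_lit 160)) (PT.lf (nat_lit 21280) (nat_lit 6) (nat_lit 280) (nat_lit 2) (nat_lit 200) (nat_lit 211) (nat_lit 159)))) (PT.nd (nat_lit 156) (PT.nd (nat_lit 78) (PT.lf (nat_lit 20520) (nat_lit 6) (nat_lit 270) (nat_lit 2) (nat_lit 201) (nat_lit 211) (nat_lit 158)) (PT.lf (nat_lit 19836) (nat_lit 6) (nat_lit 261) (nat_lit 2) (nat_lit 202) (nat_lit 211) (nat_lit 157))) (PT.nd (nat_lit 78) (PT.lf (nat_lit 19152) (nat_lit 6) (nat_lit 252) (nat_lit 2) (nat_lit 203) (nat_lit 211) (nat_lit 156)) (PT.lf (nat_lit 18544) (nat_lit 6) (nat_lit 244) (nat_lit 2) (nat_lit 204) (nat_lit 211) (nat_lit 155))))))))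
noncomputable def pc50 : PT := (PT.nd (nat_lit 54990) (PT.nd (nat_lit 1092) (PT.nd (nat_lit 546) (PT.nd (nat_lit 234) (PT.nd (nat_lit 78) (PT.lf (nat_lit 17936) (nat_lit 6) (nat_lit 236) (nat_lit 2) (nat_lit 205) (nat_lit 211) (nat_lit 154)) (PT.nd (nat_lit 78) (PT.lf (nat_lit 17328) (nat_lit 6) (nat_lit 228) (nat_lit 2) (nat_lit 206) (nat_lit 211) (nat_lit 153)) (PT.lf (nat_lit 16720) (nat_lit 6) (nat_lit 220) (nat_lit 2) (nat_lit 207) (nat_lit 211) (nat_lit 152)))) (PT.nd (nat_lit 156) (PT.nd (nat_lit 78) (PT.lf (nat_lit 16188) (nat_lit 6) (nat_lit 213) (nat_lit 2) (nat_lit 208) (nat_lit 211) (nat_lit 151)) (PT.lf (nat_lit 15656) (nat_lit 6) (nat_lit 206) (nat_lit 2) (nat_lit 209) (nat_lit 211) (nat_lit 150))) (PT.nd (nat_lit 78) (PT.lf (nat_lit 15124) (nat_lit 6) (nat_lit 199) (nat_lit 2) (nat_lit 210) (nat_lit 211) (nat_lit 149)) (PT.lf (nat_lit 14592) (nat_lit 3) (nat_lit 192) (nat_lit 0) (nat_lit 211) (nat_lit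 211) (nat_lit 148))))) (PT.nd (nat_lit 234) (PT.nd (nat_lit 78) (PT.lf (nat_lit 14060) (nat_lit 6) (nat_lit 185) (nat_lit 0) (nat_lit 212) (nat_lit 211) (nat_lit 147)) (PT.nd (nat_lit 78) (PT.lf (nat_lit 13452) (nat_lit 6) (nat_lit 177) (nat_lit 0) (nat_lit 213) (nat_lit 211) (nat_lit 146)) (PT.lf (nat_lit 12920) (nat_lit 6) (nat_lit 170) (nat_lit 0) (nat_lit 214) (nat_lit 211) (nat_lit 145)))) (PT.nd (nat_lit 156) (PT.nd (nat_lit 78) (PT.lf (nat_lit 12388) (nat_lit 6) (nat_lit 163) (nat_lit 0) (nat_lit 215) (nat_lit 211) (nat_lit 144)) (PT.lf (nat_lit 11856) (nat_lit 6) (nat_lit 156) (nat_lit 0) (nat_lit 216) (nat_lit 211) (nat_lit 143))) (PT.nd (nat_lit 78) (PT.lf (nat_lit 11324) (nat_lit 6) (nat_lit 149) (nat_lit 0) (nat_lit 217) (nat_lit 211) (nat_lit 142)) (PT.lf (nat_lit 10868) (nat_lit 6) (nat_lit 143) (nat_lit 0) (nat_lit 218) (nat_lit 211) (nat_lit 141)))))) (PT.nd (nat_lit 53352) (PT.nd (nat_lit 53040)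 (PT.nd (nat_lit 78) (PT.lf (nat_lit 10336) (nat_lit 6) (nat_lit 136) (nat_lit 0) (nat_lit 219) (nat_lit 211) (nat_lit 140)) (PT.nd (nat_lit 52884) (PT.lf (nat_lit 9880) (nat_lit 6) (nat_lit 130) (nat_lit 0) (nat_lit 220) (nat_lit 211) (nat_lit 139)) (PT.lf (nat_lit 9120) (nat_lit 6) (nat_lit 120) (nat_lit 5) (nat_lit 137) (nat_lit 212) (nat_lit 221)))) (PT.nd (nat_lit 156) (PT.nd (nat_lit 78) (PT.lf (nat_lit 9500) (nat_lit 6) (nat_lit 125) (nat_lit 5) (nat_lit 138) (nat_lit 212) (nat_lit 220)) (PT.lf (nat_lit 9956) (nat_lit 6) (nat_lit 131) (nat_lit 5) (nat_lit 139) (nat_lit 212) (nat_lit 219))) (PT.nd (nat_lit 78) (PT.lf (nat_lit 10412) (nat_lit 6) (nat_lit 137) (nat_lit 5) (nat_lit 140) (nat_lit 212) (nat_lit 218)) (PT.lf (nat_lit 10944) (nat_lit 6) (nat_lit 144) (nat_lit 5) (nat_lit 141) (nat_lit 212) (nat_lit 217))))) (PT.nd (nat_lit 234) (PT.nd (nat_lit 78) (PT.lf (nat_lit 11400) (nat_lit 6) (nat_lit 150)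 (nat_lit 5) (nat_lit 142) (nat_lit 212) (nat_lit 216)) (PT.nd (nat_lit 78) (PT.lf (nat_lit 11932) (nat_lit 6) (nat_lit 157) (nat_lit 5) (nat_lit 143) (nat_lit 212) (nat_lit 215)) (PT.lf (nat_lit 12464) (nat_lit 6) (nat_lit 164) (nat_lit 5) (nat_lit 144) (nat_lit 212) (nat_lit 214)))) (PT.nd (nat_lit 156) (PT.nd (nat_lit 78) (PT.lf (nat_lit 12996) (nat_lit 6) (nat_lit 171) (nat_lit 5) (nat_lit 145) (nat_lit 212) (nat_lit 213)) (PT.lf (nat_lit 13528) (nat_lit 3) (nat_lit 178) (nat_lit 4) (nat_lit 146) (nat_lit 212) (nat_lit 212))) (PT.nd (nat_lit 78) (PT.lf (nat_lit 14060) (nat_lit 6) (nat_lit 185) (nat_lit 4) (nat_lit 147) (nat_lit 212) (nat_lit 211)) (PT.lf (nat_lit 14516) (nat_lit 6) (nat_lit 191) (nat_lit 4) (nat_lit 148) (nat_lit 212) (nat_lit 210))))))) (PT.nd (nat_lit 1092) (PT.nd (nat_lit 546) (PT.nd (nat_lit 234) (PT.nd (nat_lit 78) (PT.lf (nat_lit 15048) (nat_lit 6) (nat_lit 198) (nat_lit 4) (nat_lit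 149) (nat_lit 212) (nat_lit 209)) (PT.nd (nat_lit 78) (PT.lf (nat_lit 15580) (nat_lit 6) (nat_lit 205) (nat_lit 4) (nat_lit 150) (nat_lit 212) (nat_lit 208)) (PT.lf (nat_lit 16112) (nat_lit 6) (nat_lit 212) (nat_lit 4) (nat_lit 151) (nat_lit 212) (nat_lit 207)))) (PT.nd (nat_lit 156) (PT.nd (nat_lit 78) (PT.lf (nat_lit 16644) (nat_lit 6) (nat_lit 219) (nat_lit 4) (nat_lit 152) (nat_lit 212) (nat_lit 206)) (PT.lf (nat_lit 17252) (nat_lit 6) (nat_lit 227) (nat_lit 4) (nat_lit 153) (nat_lit 212) (nat_lit 205))) (PT.nd (nat_lit 78) (PT.lf (nat_lit 17860) (nat_lit 6) (nat_lit 235) (nat_lit 4) (nat_lit 154) (nat_lit 212) (nat_lit 204)) (PT.lf (nat_lit 18468) (nat_lit 6) (nat_lit 243) (nat_lit 4) (nat_lit 155) (nat_lit 212) (nat_lit 203))))) (PT.nd (nat_lit 234) (PT.nd (nat_lit 78) (PT.lf (nat_lit 19076) (nat_lit 6) (nat_lit 251) (nat_lit 4) (nat_lit 156) (nat_lit 212) (nat_lit 202)) (PT.nd (nat_lit 78) (PT.lf (nat_lit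 19760) (nat_lit 6) (nat_lit 260) (nat_lit 4) (nat_lit 157) (nat_lit 212) (nat_lit 201)) (PT.lf (nat_lit 20444) (nat_lit 6) (nat_lit 269) (nat_lit 4) (nat_lit 158) (nat_lit 212) (nat_lit 200)))) (PT.nd (nat_lit 156) (PT.nd (nat_lit 78) (PT.lf (nat_lit 21204) (nat_lit 6) (nat_lit 279) (nat_lit 4) (nat_lit 159) (nat_lit 212) (nat_lit 199)) (PT.lf (nat_lit 21888) (nat_lit 6) (nat_lit 288) (nat_lit 4) (nat_lit 160) (nat_lit 212) (nat_lit 198))) (PT.nd (nat_lit 78) (PT.lf (nat_lit 22648) (nat_lit 6) (nat_lit 298) (nat_lit 4) (nat_lit 161) (nat_lit 212) (nat_lit 197)) (PT.lf (nat_lit 23408) (nat_lit 6) (nat_lit 308) (nat_lit 4) (nat_lit 162) (nat_lit 212) (nat_lit 196)))))) (PT.nd (nat_lit 546) (PT.nd (nat_lit 234) (PT.nd (nat_lit 78) (PT.lf (nat_lit 24244) (nat_lit 6) (nat_lit 319) (nat_lit 4) (nat_lit 163) (nat_lit 212) (nat_lit 195)) (PT.nd (nat_lit 78) (PT.lf (nat_lit 25080) (nat_lit 6) (nat_lit 330) (nat_lit 4)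 (nat_lit 164) (nat_lit 212) (nat_lit 194)) (PT.lf (nat_lit 25916) (nat_lit 6) (nat_lit 341) (nat_lit 4) (nat_lit 165) (nat_lit 212) (nat_lit 193)))) (PT.nd (nat_lit 156) (PT.nd (nat_lit 78) (PT.lf (nat_lit 26752) (nat_lit 6) (nat_lit 352) (nat_lit 4) (nat_lit 166) (nat_lit 212) (nat_lit 192)) (PT.lf (nat_lit 28044) (nat_lit 6) (nat_lit 369) (nat_lit 4) (nat_lit 167) (nat_lit 212) (nat_lit 191))) (PT.nd (nat_lit 78) (PT.lf (nat_lit 29716) (nat_lit 6) (nat_lit 391) (nat_lit 4) (nat_lit 168) (nat_lit 212) (nat_lit 190)) (PT.lf (nat_lit 29640) (nat_lit 6) (nat_lit 390) (nat_lit 4) (nat_lit 169) (nat_lit 212) (nat_lit 189))))) (PT.nd (nat_lit 312) (PT.nd (nat_lit 156) (PT.nd (nat_lit 78) (PT.lf (nat_lit 29564) (nat_lit 6) (nat_lit 389) (nat_lit 4) (nat_lit 170) (nat_lit 212) (nat_lit 188)) (PT.lf (nat_lit 29488) (nat_lit 6) (nat_lit 388) (nat_lit 4) (nat_lit 171) (nat_lit 212) (nat_lit 187))) (PT.nd (nat_lit 78) (PT.lf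 (nat_lit 29412) (nat_lit 6) (nat_lit 387) (nat_lit 4) (nat_lit 172) (nat_lit 212) (nat_lit 186)) (PT.lf (nat_lit 29336) (nat_lit 6) (nat_lit 386) (nat_lit 4) (nat_lit 173) (nat_lit 212) (nat_lit 185)))) (PT.nd (nat_lit 156) (PT.nd (nat_lit 78) (PT.lf (nat_lit 29260) (nat_lit 6) (nat_lit 385) (nat_lit 4) (nat_lit 174) (nat_lit 212) (nat_lit 184)) (PT.lf (nat_lit 29184) (nat_lit 6) (nat_lit 384) (nat_lit 4) (nat_lit 175) (nat_lit 212) (nat_lit 183))) (PT.nd (nat_lit 78) (PT.lf (nat_lit 29108) (nat_lit 6) (nat_lit 383) (nat_lit 4) (nat_lit 176) (nat_lit 212) (nat_lit 182)) (PT.lf (nat_lit 29032) (nat_lit 6) (nat_lit 382) (nat_lit 4) (nat_lit 177) (nat_lit 212) (nat_lit 181))))))))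
noncomputable def pc51 : PT := (PT.nd (nat_lit 2184) (PT.nd (nat_lit 1092) (PT.nd (nat_lit 546) (PT.nd (nat_lit 234) (PT.nd (nat_lit 78) (PT.lf (nat_lit 28956) (nat_lit 6) (nat_lit 381) (nat_lit 4) (nat_lit 178) (nat_lit 212) (nat_lit 180)) (PT.nd (nat_lit 78) (PT.lf (nat_lit 28880) (nat_lit 3) (nat_lit 380) (nat_lit 2) (nat_lit 179) (nat_lit 212) (nat_lit 179)) (PT.lf (nat_lit 28956) (nat_lit 6) (nat_lit 381) (nat_lit 2) (nat_lit 180) (nat_lit 212) (nat_lit 178)))) (PT.nd (nat_lit 156) (PT.nd (nat_lit 78) (PT.lf (nat_lit 29032) (nat_lit 6) (nat_lit 382) (nat_lit 2) (nat_lit 181) (nat_lit 212) (nat_lit 177)) (PT.lf (nat_lit 29108) (nat_lit 6) (nat_lit 383) (nat_lit 2) (nat_lit 182) (nat_lit 212) (nat_lit 176))) (PT.nd (nat_lit 78) (PT.lf (nat_lit 29184) (nat_lit 6) (nat_lit 384) (nat_lit 2) (nat_lit 183) (nat_lit 212) (nat_lit 175)) (PT.lf (nat_lit 29260) (nat_lit 6) (nat_lit 385) (nat_lit 2) (nat_lit 184) (nat_lit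 212) (nat_lit 174))))) (PT.nd (nat_lit 234) (PT.nd (nat_lit 78) (PT.lf (nat_lit 29336) (nat_lit 6) (nat_lit 386) (nat_lit 2) (nat_lit 185) (nat_lit 212) (nat_lit 173)) (PT.nd (nat_lit 78) (PT.lf (nat_lit 29412) (nat_lit 6) (nat_lit 387) (nat_lit 2) (nat_lit 186) (nat_lit 212) (nat_lit 172)) (PT.lf (nat_lit 29488) (nat_lit 6) (nat_lit 388) (nat_lit 2) (nat_lit 187) (nat_lit 212) (nat_lit 171)))) (PT.nd (nat_lit 156) (PT.nd (nat_lit 78) (PT.lf (nat_lit 29564) (nat_lit 6) (nat_lit 389) (nat_lit 2) (nat_lit 188) (nat_lit 212) (nat_lit 170)) (PT.lf (nat_lit 29640) (nat_lit 6) (nat_lit 390) (nat_lit 2) (nat_lit 189) (nat_lit 212) (nat_lit 169))) (PT.nd (nat_lit 78) (PT.lf (nat_lit 29716) (nat_lit 6) (nat_lit 391) (nat_lit 2) (nat_lit 190) (nat_lit 212) (nat_lit 168)) (PT.lf (nat_lit 28044) (nat_lit 6) (nat_lit 369) (nat_lit 2) (nat_lit 191) (nat_lit 212) (nat_lit 167)))))) (PT.nd (nat_lit 546) (PT.nd (nat_lit 234)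 (PT.nd (nat_lit 78) (PT.lf (nat_lit 26752) (nat_lit 6) (nat_lit 352) (nat_lit 2) (nat_lit 192) (nat_lit 212) (nat_lit 166)) (PT.nd (nat_lit 78) (PT.lf (nat_lit 25916) (nat_lit 6) (nat_lit 341) (nat_lit 2) (nat_lit 193) (nat_lit 212) (nat_lit 165)) (PT.lf (nat_lit 25080) (nat_lit 6) (nat_lit 330) (nat_lit 2) (nat_lit 194) (nat_lit 212) (nat_lit 164)))) (PT.nd (nat_lit 156) (PT.nd (nat_lit 78) (PT.lf (nat_lit 24244) (nat_lit 6) (nat_lit 319) (nat_lit 2) (nat_lit 195) (nat_lit 212) (nat_lit 163)) (PT.lf (nat_lit 23408) (nat_lit 6) (nat_lit 308) (nat_lit 2) (nat_lit 196) (nat_lit 212) (nat_lit 162))) (PT.nd (nat_lit 78) (PT.lf (nat_lit 22648) (nat_lit 6) (nat_lit 298) (nat_lit 2) (nat_lit 197) (nat_lit 212) (nat_lit 161)) (PT.lf (nat_lit 21888) (nat_lit 6) (nat_lit 288) (nat_lit 2) (nat_lit 198) (nat_lit 212) (nat_lit 160))))) (PT.nd (nat_lit 234) (PT.nd (nat_lit 78) (PT.lf (nat_lit 21204) (nat_lit 6) (nat_lit 279)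 (nat_lit 2) (nat_lit 199) (nat_lit 212) (nat_lit 159)) (PT.nd (nat_lit 78) (PT.lf (nat_lit 20444) (nat_lit 6) (nat_lit 269) (nat_lit 2) (nat_lit 200) (nat_lit 212) (nat_lit 158)) (PT.lf (nat_lit 19760) (nat_lit 6) (nat_lit 260) (nat_lit 2) (nat_lit 201) (nat_lit 212) (nat_lit 157)))) (PT.nd (nat_lit 156) (PT.nd (nat_lit 78) (PT.lf (nat_lit 19076) (nat_lit 6) (nat_lit 251) (nat_lit 2) (nat_lit 202) (nat_lit 212) (nat_lit 156)) (PT.lf (nat_lit 18468) (nat_lit 6) (nat_lit 243) (nat_lit 2) (nat_lit 203) (nat_lit 212) (nat_lit 155))) (PT.nd (nat_lit 78) (PT.lf (nat_lit 17860) (nat_lit 6) (nat_lit 235) (nat_lit 2) (nat_lit 204) (nat_lit 212) (nat_lit 154)) (PT.lf (nat_lit 17252) (nat_lit 6) (nat_lit 227) (nat_lit 2) (nat_lit 205) (nat_lit 212) (nat_lit 153))))))) (PT.nd (nat_lit 1092) (PT.nd (nat_lit 546) (PT.nd (nat_lit 234) (PT.nd (nat_lit 78) (PT.lf (nat_lit 16644) (nat_lit 6) (nat_lit 219) (nat_lit 2) (nat_lit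 206) (nat_lit 212) (nat_lit 152)) (PT.nd (nat_lit 78) (PT.lf (nat_lit 16112) (nat_lit 6) (nat_lit 212) (nat_lit 2) (nat_lit 207) (nat_lit 212) (nat_lit 151)) (PT.lf (nat_lit 15580) (nat_lit 6) (nat_lit 205) (nat_lit 2) (nat_lit 208) (nat_lit 212) (nat_lit 150)))) (PT.nd (nat_lit 156) (PT.nd (nat_lit 78) (PT.lf (nat_lit 15048) (nat_lit 6) (nat_lit 198) (nat_lit 2) (nat_lit 209) (nat_lit 212) (nat_lit 149)) (PT.lf (nat_lit 14516) (nat_lit 6) (nat_lit 191) (nat_lit 2) (nat_lit 210) (nat_lit 212) (nat_lit 148))) (PT.nd (nat_lit 78) (PT.lf (nat_lit 14060) (nat_lit 6) (nat_lit 185) (nat_lit 2) (nat_lit 211) (nat_lit 212) (nat_lit 147)) (PT.lf (nat_lit 13528) (nat_lit 3) (nat_lit 178) (nat_lit 0) (nat_lit 212) (nat_lit 212) (nat_lit 146))))) (PT.nd (nat_lit 234) (PT.nd (nat_lit 78) (PT.lf (nat_lit 12996) (nat_lit 6) (nat_lit 171) (nat_lit 0) (nat_lit 213) (nat_lit 212) (nat_lit 145)) (PT.nd (nat_lit 78) (PT.lf (nat_lit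 12464) (nat_lit 6) (nat_lit 164) (nat_lit 0) (nat_lit 214) (nat_lit 212) (nat_lit 144)) (PT.lf (nat_lit 11932) (nat_lit 6) (nat_lit 157) (nat_lit 0) (nat_lit 215) (nat_lit 212) (nat_lit 143)))) (PT.nd (nat_lit 156) (PT.nd (nat_lit 78) (PT.lf (nat_lit 11400) (nat_lit 6) (nat_lit 150) (nat_lit 0) (nat_lit 216) (nat_lit 212) (nat_lit 142)) (PT.lf (nat_lit 10944) (nat_lit 6) (nat_lit 144) (nat_lit 0) (nat_lit 217) (nat_lit 212) (nat_lit 141))) (PT.nd (nat_lit 78) (PT.lf (nat_lit 10412) (nat_lit 6) (nat_lit 137) (nat_lit 0) (nat_lit 218) (nat_lit 212) (nat_lit 140)) (PT.lf (nat_lit 9956) (nat_lit 6) (nat_lit 131) (nat_lit 0) (nat_lit 219) (nat_lit 212) (nat_lit 139)))))) (PT.nd (nat_lit 53118) (PT.nd (nat_lit 52806) (PT.nd (nat_lit 78) (PT.lf (nat_lit 9500) (nat_lit 6) (nat_lit 125) (nat_lit 0) (nat_lit 220) (nat_lit 212) (nat_lit 138)) (PT.nd (nat_lit 52650) (PT.lf (nat_lit 9120) (nat_lit 6) (nat_lit 120) (nat_lit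 0) (nat_lit 221) (nat_lit 212) (nat_lit 137)) (PT.lf (nat_lit 8360) (nat_lit 6) (nat_lit 110) (nat_lit 5) (nat_lit 135) (nat_lit 213) (nat_lit 222)))) (PT.nd (nat_lit 156) (PT.nd (nat_lit 78) (PT.lf (nat_lit 8740) (nat_lit 6) (nat_lit 115) (nat_lit 5) (nat_lit 136) (nat_lit 213) (nat_lit 221)) (PT.lf (nat_lit 9196) (nat_lit 6) (nat_lit 121) (nat_lit 5) (nat_lit 137) (nat_lit 213) (nat_lit 220))) (PT.nd (nat_lit 78) (PT.lf (nat_lit 9576) (nat_lit 6) (nat_lit 126) (nat_lit 5) (nat_lit 138) (nat_lit 213) (nat_lit 219)) (PT.lf (nat_lit 10032) (nat_lit 6) (nat_lit 132) (nat_lit 5) (nat_lit 139) (nat_lit 213) (nat_lit 218))))) (PT.nd (nat_lit 312) (PT.nd (nat_lit 156) (PT.nd (nat_lit 78) (PT.lf (nat_lit 10488) (nat_lit 6) (nat_lit 138) (nat_lit 5) (nat_lit 140) (nat_lit 213) (nat_lit 217)) (PT.lf (nat_lit 11020) (nat_lit 6) (nat_lit 145) (nat_lit 5) (nat_lit 141) (nat_lit 213) (nat_lit 216))) (PT.nd (nat_lit 78) (PT.lf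 (nat_lit 11476) (nat_lit 6) (nat_lit 151) (nat_lit 5) (nat_lit 142) (nat_lit 213) (nat_lit 215)) (PT.lf (nat_lit 12008) (nat_lit 6) (nat_lit 158) (nat_lit 5) (nat_lit 143) (nat_lit 213) (nat_lit 214)))) (PT.nd (nat_lit 156) (PT.nd (nat_lit 78) (PT.lf (nat_lit 12540) (nat_lit 3) (nat_lit 165) (nat_lit 4) (nat_lit 144) (nat_lit 213) (nat_lit 213)) (PT.lf (nat_lit 12996) (nat_lit 6) (nat_lit 171) (nat_lit 4) (nat_lit 145) (nat_lit 213) (nat_lit 212))) (PT.nd (nat_lit 78) (PT.lf (nat_lit 13452) (nat_lit 6) (nat_lit 177) (nat_lit 4) (nat_lit 146) (nat_lit 213) (nat_lit 211)) (PT.lf (nat_lit 13984) (nat_lit 6) (nat_lit 184) (nat_lit 4) (nat_lit 147) (nat_lit 213) (nat_lit 210))))))))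
noncomputable def pc52 : PT := (PT.nd (nat_lit 3120) (PT.nd (nat_lit 1092) (PT.nd (nat_lit 546) (PT.nd (nat_lit 234) (PT.nd (nat_lit 78) (PT.lf (nat_lit 14440) (nat_lit 6) (nat_lit 190) (nat_lit 4) (nat_lit 148) (nat_lit 213) (nat_lit 209)) (PT.nd (nat_lit 78) (PT.lf (nat_lit 14972) (nat_lit 6) (nat_lit 197) (nat_lit 4) (nat_lit 149) (nat_lit 213) (nat_lit 208)) (PT.lf (nat_lit 15504) (nat_lit 6) (nat_lit 204) (nat_lit 4) (nat_lit 150) (nat_lit 213) (nat_lit 207)))) (PT.nd (nat_lit 156) (PT.nd (nat_lit 78) (PT.lf (nat_lit 16036) (nat_lit 6) (nat_lit 211) (nat_lit 4) (nat_lit 151) (nat_lit 213) (nat_lit 206)) (PT.lf (nat_lit 16568) (nat_lit 6) (nat_lit 218) (nat_lit 4) (nat_lit 152) (nat_lit 213) (nat_lit 205))) (PT.nd (nat_lit 78) (PT.lf (nat_lit 17176) (nat_lit 6) (nat_lit 226) (nat_lit 4) (nat_lit 153) (nat_lit 213) (nat_lit 204)) (PT.lf (nat_lit 17784) (nat_lit 6) (nat_lit 234) (nat_lit 4) (nat_lit 154) (nat_lit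 213) (nat_lit 203))))) (PT.nd (nat_lit 234) (PT.nd (nat_lit 78) (PT.lf (nat_lit 18392) (nat_lit 6) (nat_lit 242) (nat_lit 4) (nat_lit 155) (nat_lit 213) (nat_lit 202)) (PT.nd (nat_lit 78) (PT.lf (nat_lit 19000) (nat_lit 6) (nat_lit 250) (nat_lit 4) (nat_lit 156) (nat_lit 213) (nat_lit 201)) (PT.lf (nat_lit 19684) (nat_lit 6) (nat_lit 259) (nat_lit 4) (nat_lit 157) (nat_lit 213) (nat_lit 200)))) (PT.nd (nat_lit 156) (PT.nd (nat_lit 78) (PT.lf (nat_lit 20368) (nat_lit 6) (nat_lit 268) (nat_lit 4) (nat_lit 158) (nat_lit 213) (nat_lit 199)) (PT.lf (nat_lit 21128) (nat_lit 6) (nat_lit 278) (nat_lit 4) (nat_lit 159) (nat_lit 213) (nat_lit 198))) (PT.nd (nat_lit 78) (PT.lf (nat_lit 21812) (nat_lit 6) (nat_lit 287) (nat_lit 4) (nat_lit 160) (nat_lit 213) (nat_lit 197)) (PT.lf (nat_lit 22572) (nat_lit 6) (nat_lit 297) (nat_lit 4) (nat_lit 161) (nat_lit 213) (nat_lit 196)))))) (PT.nd (nat_lit 546) (PT.nd (nat_lit 234)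 (PT.nd (nat_lit 78) (PT.lf (nat_lit 23332) (nat_lit 6) (nat_lit 307) (nat_lit 4) (nat_lit 162) (nat_lit 213) (nat_lit 195)) (PT.nd (nat_lit 78) (PT.lf (nat_lit 24168) (nat_lit 6) (nat_lit 318) (nat_lit 4) (nat_lit 163) (nat_lit 213) (nat_lit 194)) (PT.lf (nat_lit 25004) (nat_lit 6) (nat_lit 329) (nat_lit 4) (nat_lit 164) (nat_lit 213) (nat_lit 193)))) (PT.nd (nat_lit 156) (PT.nd (nat_lit 78) (PT.lf (nat_lit 25840) (nat_lit 6) (nat_lit 340) (nat_lit 4) (nat_lit 165) (nat_lit 213) (nat_lit 192)) (PT.lf (nat_lit 26676) (nat_lit 6) (nat_lit 351) (nat_lit 4) (nat_lit 166) (nat_lit 213) (nat_lit 191))) (PT.nd (nat_lit 78) (PT.lf (nat_lit 27968) (nat_lit 6) (nat_lit 368) (nat_lit 4) (nat_lit 167) (nat_lit 213) (nat_lit 190)) (PT.lf (nat_lit 27892) (nat_lit 6) (nat_lit 367) (nat_lit 4) (nat_lit 168) (nat_lit 213) (nat_lit 189))))) (PT.nd (nat_lit 234) (PT.nd (nat_lit 78) (PT.lf (nat_lit 27816) (nat_lit 6) (nat_lit 366)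 (nat_lit 4) (nat_lit 169) (nat_lit 213) (nat_lit 188)) (PT.nd (nat_lit 78) (PT.lf (nat_lit 27740) (nat_lit 6) (nat_lit 365) (nat_lit 4) (nat_lit 170) (nat_lit 213) (nat_lit 187)) (PT.lf (nat_lit 27664) (nat_lit 6) (nat_lit 364) (nat_lit 4) (nat_lit 171) (nat_lit 213) (nat_lit 186)))) (PT.nd (nat_lit 1092) (PT.nd (nat_lit 1014) (PT.lf (nat_lit 27588) (nat_lit 6) (nat_lit 363) (nat_lit 4) (nat_lit 172) (nat_lit 213) (nat_lit 185)) (PT.lf (nat_lit 27588) (nat_lit 6) (nat_lit 363) (nat_lit 2) (nat_lit 185) (nat_lit 213) (nat_lit 172))) (PT.nd (nat_lit 78) (PT.lf (nat_lit 27664) (nat_lit 6) (nat_lit 364) (nat_lit 2) (nat_lit 186) (nat_lit 213) (nat_lit 171)) (PT.lf (nat_lit 27740) (nat_lit 6) (nat_lit 365) (nat_lit 2) (nat_lit 187) (nat_lit 213) (nat_lit 170))))))) (PT.nd (nat_lit 1092) (PT.nd (nat_lit 546) (PT.nd (nat_lit 234) (PT.nd (nat_lit 78) (PT.lf (nat_lit 27816) (nat_lit 6) (nat_lit 366) (nat_lit 2) (nat_lit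 188) (nat_lit 213) (nat_lit 169)) (PT.nd (nat_lit 78) (PT.lf (nat_lit 27892) (nat_lit 6) (nat_lit 367) (nat_lit 2) (nat_lit 189) (nat_lit 213) (nat_lit 168)) (PT.lf (nat_lit 27968) (nat_lit 6) (nat_lit 368) (nat_lit 2) (nat_lit 190) (nat_lit 213) (nat_lit 167)))) (PT.nd (nat_lit 156) (PT.nd (nat_lit 78) (PT.lf (nat_lit 26676) (nat_lit 6) (nat_lit 351) (nat_lit 2) (nat_lit 191) (nat_lit 213) (nat_lit 166)) (PT.lf (nat_lit 25840) (nat_lit 6) (nat_lit 340) (nat_lit 2) (nat_lit 192) (nat_lit 213) (nat_lit 165))) (PT.nd (nat_lit 78) (PT.lf (nat_lit 25004) (nat_lit 6) (nat_lit 329) (nat_lit 2) (nat_lit 193) (nat_lit 213) (nat_lit 164)) (PT.lf (nat_lit 24168) (nat_lit 6) (nat_lit 318) (nat_lit 2) (nat_lit 194) (nat_lit 213) (nat_lit 163))))) (PT.nd (nat_lit 234) (PT.nd (nat_lit 78) (PT.lf (nat_lit 23332) (nat_lit 6) (nat_lit 307) (nat_lit 2) (nat_lit 195) (nat_lit 213) (nat_lit 162)) (PT.nd (nat_lit 78) (PT.lf (nat_lit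 22572) (nat_lit 6) (nat_lit 297) (nat_lit 2) (nat_lit 196) (nat_lit 213) (nat_lit 161)) (PT.lf (nat_lit 21812) (nat_lit 6) (nat_lit 287) (nat_lit 2) (nat_lit 197) (nat_lit 213) (nat_lit 160)))) (PT.nd (nat_lit 156) (PT.nd (nat_lit 78) (PT.lf (nat_lit 21128) (nat_lit 6) (nat_lit 278) (nat_lit 2) (nat_lit 198) (nat_lit 213) (nat_lit 159)) (PT.lf (nat_lit 20368) (nat_lit 6) (nat_lit 268) (nat_lit 2) (nat_lit 199) (nat_lit 213) (nat_lit 158))) (PT.nd (nat_lit 78) (PT.lf (nat_lit 19684) (nat_lit 6) (nat_lit 259) (nat_lit 2) (nat_lit 200) (nat_lit 213) (nat_lit 157)) (PT.lf (nat_lit 19000) (nat_lit 6) (nat_lit 250) (nat_lit 2) (nat_lit 201) (nat_lit 213) (nat_lit 156)))))) (PT.nd (nat_lit 546) (PT.nd (nat_lit 234) (PT.nd (nat_lit 78) (PT.lf (nat_lit 18392) (nat_lit 6) (nat_lit 242) (nat_lit 2) (nat_lit 202) (nat_lit 213) (nat_lit 155)) (PT.nd (nat_lit 78) (PT.lf (nat_lit 17784) (nat_lit 6) (nat_lit 234) (nat_lit 2)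 (nat_lit 203) (nat_lit 213) (nat_lit 154)) (PT.lf (nat_lit 17176) (nat_lit 6) (nat_lit 226) (nat_lit 2) (nat_lit 204) (nat_lit 213) (nat_lit 153)))) (PT.nd (nat_lit 156) (PT.nd (nat_lit 78) (PT.lf (nat_lit 16568) (nat_lit 6) (nat_lit 218) (nat_lit 2) (nat_lit 205) (nat_lit 213) (nat_lit 152)) (PT.lf (nat_lit 16036) (nat_lit 6) (nat_lit 211) (nat_lit 2) (nat_lit 206) (nat_lit 213) (nat_lit 151))) (PT.nd (nat_lit 78) (PT.lf (nat_lit 15504) (nat_lit 6) (nat_lit 204) (nat_lit 2) (nat_lit 207) (nat_lit 213) (nat_lit 150)) (PT.lf (nat_lit 14972) (nat_lit 6) (nat_lit 197) (nat_lit 2) (nat_lit 208) (nat_lit 213) (nat_lit 149))))) (PT.nd (nat_lit 312) (PT.nd (nat_lit 156) (PT.nd (nat_lit 78) (PT.lf (nat_lit 14440) (nat_lit 6) (nat_lit 190) (nat_lit 2) (nat_lit 209) (nat_lit 213) (nat_lit 148)) (PT.lf (nat_lit 13984) (nat_lit 6) (nat_lit 184) (nat_lit 2) (nat_lit 210) (nat_lit 213) (nat_lit 147))) (PT.nd (nat_lit 78) (PT.lf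 (nat_lit 13452) (nat_lit 6) (nat_lit 177) (nat_lit 2) (nat_lit 211) (nat_lit 213) (nat_lit 146)) (PT.lf (nat_lit 12996) (nat_lit 6) (nat_lit 171) (nat_lit 2) (nat_lit 212) (nat_lit 213) (nat_lit 145)))) (PT.nd (nat_lit 156) (PT.nd (nat_lit 78) (PT.lf (nat_lit 12540) (nat_lit 3) (nat_lit 165) (nat_lit 0) (nat_lit 213) (nat_lit 213) (nat_lit 144)) (PT.lf (nat_lit 12008) (nat_lit 6) (nat_lit 158) (nat_lit 0) (nat_lit 214) (nat_lit 213) (nat_lit 143))) (PT.nd (nat_lit 78) (PT.lf (nat_lit 11476) (nat_lit 6) (nat_lit 151) (nat_lit 0) (nat_lit 215) (nat_lit 213) (nat_lit 142)) (PT.lf (nat_lit 11020) (nat_lit 6) (nat_lit 145) (nat_lit 0) (nat_lit 216) (nat_lit 213) (nat_lit 141))))))))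
noncomputable def pc53 : PT := (PT.nd (nat_lit 54600) (PT.nd (nat_lit 53508) (PT.nd (nat_lit 52962) (PT.nd (nat_lit 234) (PT.nd (nat_lit 78) (PT.lf (nat_lit 10488) (nat_lit 6) (nat_lit 138) (nat_lit 0) (nat_lit 217) (nat_lit 213) (nat_lit 140)) (PT.nd (nat_lit 78) (PT.lf (nat_lit 10032) (nat_lit 6) (nat_lit 132) (nat_lit 0) (nat_lit 218) (nat_lit 213) (nat_lit 139)) (PT.lf (nat_lit 9576) (nat_lit 6) (nat_lit 126) (nat_lit 0) (nat_lit 219) (nat_lit 213) (nat_lit 138)))) (PT.nd (nat_lit 156) (PT.nd (nat_lit 78) (PT.lf (nat_lit 9196) (nat_lit 6) (nat_lit 121) (nat_lit 0) (nat_lit 220) (nat_lit 213) (nat_lit 137)) (PT.lf (nat_lit 8740) (nat_lit 6) (nat_lit 115) (nat_lit 0) (nat_lit 221) (nat_lit 213) (nat_lit 136))) (PT.nd (nat_lit 52494) (PT.lf (nat_lit 8360) (nat_lit 6) (nat_lit 110) (nat_lit 0) (nat_lit 222) (nat_lit 213) (nat_lit 135)) (PT.lf (nat_lit 7980) (nat_lit 6) (nat_lit 105) (nat_lit 5) (nat_lit 134)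 (nat_lit 214) (nat_lit 222))))) (PT.nd (nat_lit 234) (PT.nd (nat_lit 78) (PT.lf (nat_lit 8436) (nat_lit 6) (nat_lit 111) (nat_lit 5) (nat_lit 135) (nat_lit 214) (nat_lit 221)) (PT.nd (nat_lit 78) (PT.lf (nat_lit 8816) (nat_lit 6) (nat_lit 116) (nat_lit 5) (nat_lit 136) (nat_lit 214) (nat_lit 220)) (PT.lf (nat_lit 9272) (nat_lit 6) (nat_lit 122) (nat_lit 5) (nat_lit 137) (nat_lit 214) (nat_lit 219)))) (PT.nd (nat_lit 156) (PT.nd (nat_lit 78) (PT.lf (nat_lit 9652) (nat_lit 6) (nat_lit 127) (nat_lit 5) (nat_lit 138) (nat_lit 214) (nat_lit 218)) (PT.lf (nat_lit 10108) (nat_lit 6) (nat_lit 133) (nat_lit 5) (nat_lit 139) (nat_lit 214) (nat_lit 217))) (PT.nd (nat_lit 78) (PT.lf (nat_lit 10564) (nat_lit 6) (nat_lit 139) (nat_lit 5) (nat_lit 140) (nat_lit 214) (nat_lit 216)) (PT.lf (nat_lit 11096) (nat_lit 6) (nat_lit 146) (nat_lit 5) (nat_lit 141) (nat_lit 214) (nat_lit 215)))))) (PT.nd (nat_lit 546) (PT.nd (nat_lit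 234) (PT.nd (nat_lit 78) (PT.lf (nat_lit 11552) (nat_lit 3) (nat_lit 152) (nat_lit 4) (nat_lit 142) (nat_lit 214) (nat_lit 214)) (PT.nd (nat_lit 78) (PT.lf (nat_lit 12008) (nat_lit 6) (nat_lit 158) (nat_lit 4) (nat_lit 143) (nat_lit 214) (nat_lit 213)) (PT.lf (nat_lit 12464) (nat_lit 6) (nat_lit 164) (nat_lit 4) (nat_lit 144) (nat_lit 214) (nat_lit 212)))) (PT.nd (nat_lit 156) (PT.nd (nat_lit 78) (PT.lf (nat_lit 12920) (nat_lit 6) (nat_lit 170) (nat_lit 4) (nat_lit 145) (nat_lit 214) (nat_lit 211)) (PT.lf (nat_lit 13376) (nat_lit 6) (nat_lit 176) (nat_lit 4) (nat_lit 146) (nat_lit 214) (nat_lit 210))) (PT.nd (nat_lit 78) (PT.lf (nat_lit 13908) (nat_lit 6) (nat_lit 183) (nat_lit 4) (nat_lit 147) (nat_lit 214) (nat_lit 209)) (PT.lf (nat_lit 14364) (nat_lit 6) (nat_lit 189) (nat_lit 4) (nat_lit 148) (nat_lit 214) (nat_lit 208))))) (PT.nd (nat_lit 234) (PT.nd (nat_lit 78) (PT.lf (nat_lit 14896) (nat_lit 6) (nat_lit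 196) (nat_lit 4) (nat_lit 149) (nat_lit 214) (nat_lit 207)) (PT.nd (nat_lit 78) (PT.lf (nat_lit 15428) (nat_lit 6) (nat_lit 203) (nat_lit 4) (nat_lit 150) (nat_lit 214) (nat_lit 206)) (PT.lf (nat_lit 15960) (nat_lit 6) (nat_lit 210) (nat_lit 4) (nat_lit 151) (nat_lit 214) (nat_lit 205)))) (PT.nd (nat_lit 156) (PT.nd (nat_lit 78) (PT.lf (nat_lit 16492) (nat_lit 6) (nat_lit 217) (nat_lit 4) (nat_lit 152) (nat_lit 214) (nat_lit 204)) (PT.lf (nat_lit 17100) (nat_lit 6) (nat_lit 225) (nat_lit 4) (nat_lit 153) (nat_lit 214) (nat_lit 203))) (PT.nd (nat_lit 78) (PT.lf (nat_lit 17708) (nat_lit 6) (nat_lit 233) (nat_lit 4) (nat_lit 154) (nat_lit 214) (nat_lit 202)) (PT.lf (nat_lit 18316) (nat_lit 6) (nat_lit 241) (nat_lit 4) (nat_lit 155) (nat_lit 214) (nat_lit 201))))))) (PT.nd (nat_lit 3198) (PT.nd (nat_lit 546) (PT.nd (nat_lit 234) (PT.nd (nat_lit 78) (PT.lf (nat_lit 18924) (nat_lit 6) (nat_lit 249) (nat_lit 4) (nat_lit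 156) (nat_lit 214) (nat_lit 200)) (PT.nd (nat_lit 78) (PT.lf (nat_lit 19608) (nat_lit 6) (nat_lit 258) (nat_lit 4) (nat_lit 157) (nat_lit 214) (nat_lit 199)) (PT.lf (nat_lit 20292) (nat_lit 6) (nat_lit 267) (nat_lit 4) (nat_lit 158) (nat_lit 214) (nat_lit 198)))) (PT.nd (nat_lit 156) (PT.nd (nat_lit 78) (PT.lf (nat_lit 21052) (nat_lit 6) (nat_lit 277) (nat_lit 4) (nat_lit 159) (nat_lit 214) (nat_lit 197)) (PT.lf (nat_lit 21736) (nat_lit 6) (nat_lit 286) (nat_lit 4) (nat_lit 160) (nat_lit 214) (nat_lit 196))) (PT.nd (nat_lit 78) (PT.lf (nat_lit 22496) (nat_lit 6) (nat_lit 296) (nat_lit 4) (nat_lit 161) (nat_lit 214) (nat_lit 195)) (PT.lf (nat_lit 23256) (nat_lit 6) (nat_lit 306) (nat_lit 4) (nat_lit 162) (nat_lit 214) (nat_lit 194))))) (PT.nd (nat_lit 2340) (PT.nd (nat_lit 78) (PT.lf (nat_lit 24092) (nat_lit 6) (nat_lit 317) (nat_lit 4) (nat_lit 163) (nat_lit 214) (nat_lit 193)) (PT.nd (nat_lit 2184) (PT.lf (nat_lit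 24928) (nat_lit 6) (nat_lit 328) (nat_lit 4) (nat_lit 164) (nat_lit 214) (nat_lit 192)) (PT.lf (nat_lit 24928) (nat_lit 6) (nat_lit 328) (nat_lit 2) (nat_lit 192) (nat_lit 214) (nat_lit 164)))) (PT.nd (nat_lit 156) (PT.nd (nat_lit 78) (PT.lf (nat_lit 24092) (nat_lit 6) (nat_lit 317) (nat_lit 2) (nat_lit 193) (nat_lit 214) (nat_lit 163)) (PT.lf (nat_lit 23256) (nat_lit 6) (nat_lit 306) (nat_lit 2) (nat_lit 194) (nat_lit 214) (nat_lit 162))) (PT.nd (nat_lit 78) (PT.lf (nat_lit 22496) (nat_lit 6) (nat_lit 296) (nat_lit 2) (nat_lit 195) (nat_lit 214) (nat_lit 161)) (PT.lf (nat_lit 21736) (nat_lit 6) (nat_lit 286) (nat_lit 2) (nat_lit 196) (nat_lit 214) (nat_lit 160)))))) (PT.nd (nat_lit 546) (PT.nd (nat_lit 234) (PT.nd (nat_lit 78) (PT.lf (nat_lit 21052) (nat_lit 6) (nat_lit 277) (nat_lit 2) (nat_lit 197) (nat_lit 214) (nat_lit 159)) (PT.nd (nat_lit 78) (PT.lf (nat_lit 20292) (nat_lit 6) (nat_lit 267) (nat_lit 2)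 (nat_lit 198) (nat_lit 214) (nat_lit 158)) (PT.lf (nat_lit 19608) (nat_lit 6) (nat_lit 258) (nat_lit 2) (nat_lit 199) (nat_lit 214) (nat_lit 157)))) (PT.nd (nat_lit 156) (PT.nd (nat_lit 78) (PT.lf (nat_lit 18924) (nat_lit 6) (nat_lit 249) (nat_lit 2) (nat_lit 200) (nat_lit 214) (nat_lit 156)) (PT.lf (nat_lit 18316) (nat_lit 6) (nat_lit 241) (nat_lit 2) (nat_lit 201) (nat_lit 214) (nat_lit 155))) (PT.nd (nat_lit 78) (PT.lf (nat_lit 17708) (nat_lit 6) (nat_lit 233) (nat_lit 2) (nat_lit 202) (nat_lit 214) (nat_lit 154)) (PT.lf (nat_lit 17100) (nat_lit 6) (nat_lit 225) (nat_lit 2) (nat_lit 203) (nat_lit 214) (nat_lit 153))))) (PT.nd (nat_lit 312) (PT.nd (nat_lit 156) (PT.nd (nat_lit 78) (PT.lf (nat_lit 16492) (nat_lit 6) (nat_lit 217) (nat_lit 2) (nat_lit 204) (nat_lit 214) (nat_lit 152)) (PT.lf (nat_lit 15960) (nat_lit 6) (nat_lit 210) (nat_lit 2) (nat_lit 205) (nat_lit 214) (nat_lit 151))) (PT.nd (nat_lit 78) (PT.lf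 (nat_lit 15428) (nat_lit 6) (nat_lit 203) (nat_lit 2) (nat_lit 206) (nat_lit 214) (nat_lit 150)) (PT.lf (nat_lit 14896) (nat_lit 6) (nat_lit 196) (nat_lit 2) (nat_lit 207) (nat_lit 214) (nat_lit 149)))) (PT.nd (nat_lit 156) (PT.nd (nat_lit 78) (PT.lf (nat_lit 14364) (nat_lit 6) (nat_lit 189) (nat_lit 2) (nat_lit 208) (nat_lit 214) (nat_lit 148)) (PT.lf (nat_lit 13908) (nat_lit 6) (nat_lit 183) (nat_lit 2) (nat_lit 209) (nat_lit 214) (nat_lit 147))) (PT.nd (nat_lit 78) (PT.lf (nat_lit 13376) (nat_lit 6) (nat_lit 176) (nat_lit 2) (nat_lit 210) (nat_lit 214) (nat_lit 146)) (PT.lf (nat_lit 12920) (nat_lit 6) (nat_lit 170) (nat_lit 2) (nat_lit 211) (nat_lit 214) (nat_lit 145))))))))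
noncomputable def pc54 : PT := (PT.nd (nat_lit 54444) (PT.nd (nat_lit 53352) (PT.nd (nat_lit 546) (PT.nd (nat_lit 234) (PT.nd (nat_lit 78) (PT.lf (nat_lit 12464) (nat_lit 6) (nat_lit 164) (nat_lit 2) (nat_lit 212) (nat_lit 214) (nat_lit 144)) (PT.nd (nat_lit 78) (PT.lf (nat_lit 12008) (nat_lit 6) (nat_lit 158) (nat_lit 2) (nat_lit 213) (nat_lit 214) (nat_lit 143)) (PT.lf (nat_lit 11552) (nat_lit 3) (nat_lit 152) (nat_lit 0) (nat_lit 214) (nat_lit 214) (nat_lit 142)))) (PT.nd (nat_lit 156) (PT.nd (nat_lit 78) (PT.lf (nat_lit 11096) (nat_lit 6) (nat_lit 146) (nat_lit 0) (nat_lit 215) (nat_lit 214) (nat_lit 141)) (PT.lf (nat_lit 10564) (nat_lit 6) (nat_lit 139) (nat_lit 0) (nat_lit 216) (nat_lit 214) (nat_lit 140))) (PT.nd (nat_lit 78) (PT.lf (nat_lit 10108) (nat_lit 6) (nat_lit 133) (nat_lit 0) (nat_lit 217) (nat_lit 214) (nat_lit 139)) (PT.lf (nat_lit 9652) (nat_lit 6) (nat_lit 127) (nat_lit 0) (nat_lit 218) (nat_lit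 214) (nat_lit 138))))) (PT.nd (nat_lit 234) (PT.nd (nat_lit 78) (PT.lf (nat_lit 9272) (nat_lit 6) (nat_lit 122) (nat_lit 0) (nat_lit 219) (nat_lit 214) (nat_lit 137)) (PT.nd (nat_lit 78) (PT.lf (nat_lit 8816) (nat_lit 6) (nat_lit 116) (nat_lit 0) (nat_lit 220) (nat_lit 214) (nat_lit 136)) (PT.lf (nat_lit 8436) (nat_lit 6) (nat_lit 111) (nat_lit 0) (nat_lit 221) (nat_lit 214) (nat_lit 135)))) (PT.nd (nat_lit 52416) (PT.nd (nat_lit 52338) (PT.lf (nat_lit 7980) (nat_lit 6) (nat_lit 105) (nat_lit 0) (nat_lit 222) (nat_lit 214) (nat_lit 134)) (PT.lf (nat_lit 7296) (nat_lit 6) (nat_lit 96) (nat_lit 5) (nat_lit 132) (nat_lit 215) (nat_lit 223))) (PT.nd (nat_lit 78) (PT.lf (nat_lit 7676) (nat_lit 6) (nat_lit 101) (nat_lit 5) (nat_lit 133) (nat_lit 215) (nat_lit 222)) (PT.lf (nat_lit 8056) (nat_lit 6) (nat_lit 106) (nat_lit 5) (nat_lit 134) (nat_lit 215) (nat_lit 221)))))) (PT.nd (nat_lit 546) (PT.nd (nat_lit 234) (PT.nd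 (nat_lit 78) (PT.lf (nat_lit 8512) (nat_lit 6) (nat_lit 112) (nat_lit 5) (nat_lit 135) (nat_lit 215) (nat_lit 220)) (PT.nd (nat_lit 78) (PT.lf (nat_lit 8892) (nat_lit 6) (nat_lit 117) (nat_lit 5) (nat_lit 136) (nat_lit 215) (nat_lit 219)) (PT.lf (nat_lit 9348) (nat_lit 6) (nat_lit 123) (nat_lit 5) (nat_lit 137) (nat_lit 215) (nat_lit 218)))) (PT.nd (nat_lit 156) (PT.nd (nat_lit 78) (PT.lf (nat_lit 9728) (nat_lit 6) (nat_lit 128) (nat_lit 5) (nat_lit 138) (nat_lit 215) (nat_lit 217)) (PT.lf (nat_lit 10184) (nat_lit 6) (nat_lit 134) (nat_lit 5) (nat_lit 139) (nat_lit 215) (nat_lit 216))) (PT.nd (nat_lit 78) (PT.lf (nat_lit 10640) (nat_lit 3) (nat_lit 140) (nat_lit 4) (nat_lit 140) (nat_lit 215) (nat_lit 215)) (PT.lf (nat_lit 11096) (nat_lit 6) (nat_lit 146) (nat_lit 4) (nat_lit 141) (nat_lit 215) (nat_lit 214))))) (PT.nd (nat_lit 234) (PT.nd (nat_lit 78) (PT.lf (nat_lit 11476) (nat_lit 6) (nat_lit 151) (nat_lit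 4) (nat_lit 142) (nat_lit 215) (nat_lit 213)) (PT.nd (nat_lit 78) (PT.lf (nat_lit 11932) (nat_lit 6) (nat_lit 157) (nat_lit 4) (nat_lit 143) (nat_lit 215) (nat_lit 212)) (PT.lf (nat_lit 12388) (nat_lit 6) (nat_lit 163) (nat_lit 4) (nat_lit 144) (nat_lit 215) (nat_lit 211)))) (PT.nd (nat_lit 156) (PT.nd (nat_lit 78) (PT.lf (nat_lit 12844) (nat_lit 6) (nat_lit 169) (nat_lit 4) (nat_lit 145) (nat_lit 215) (nat_lit 210)) (PT.lf (nat_lit 13300) (nat_lit 6) (nat_lit 175) (nat_lit 4) (nat_lit 146) (nat_lit 215) (nat_lit 209))) (PT.nd (nat_lit 78) (PT.lf (nat_lit 13832) (nat_lit 6) (nat_lit 182) (nat_lit 4) (nat_lit 147) (nat_lit 215) (nat_lit 208)) (PT.lf (nat_lit 14288) (nat_lit 6) (nat_lit 188) (nat_lit 4) (nat_lit 148) (nat_lit 215) (nat_lit 207))))))) (PT.nd (nat_lit 4056) (PT.nd (nat_lit 546) (PT.nd (nat_lit 234) (PT.nd (nat_lit 78) (PT.lf (nat_lit 14820) (nat_lit 6) (nat_lit 195) (nat_lit 4) (nat_lit 149) (nat_lit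 215) (nat_lit 206)) (PT.nd (nat_lit 78) (PT.lf (nat_lit 15352) (nat_lit 6) (nat_lit 202) (nat_lit 4) (nat_lit 150) (nat_lit 215) (nat_lit 205)) (PT.lf (nat_lit 15884) (nat_lit 6) (nat_lit 209) (nat_lit 4) (nat_lit 151) (nat_lit 215) (nat_lit 204)))) (PT.nd (nat_lit 156) (PT.nd (nat_lit 78) (PT.lf (nat_lit 16416) (nat_lit 6) (nat_lit 216) (nat_lit 4) (nat_lit 152) (nat_lit 215) (nat_lit 203)) (PT.lf (nat_lit 17024) (nat_lit 6) (nat_lit 224) (nat_lit 4) (nat_lit 153) (nat_lit 215) (nat_lit 202))) (PT.nd (nat_lit 78) (PT.lf (nat_lit 17632) (nat_lit 6) (nat_lit 232) (nat_lit 4) (nat_lit 154) (nat_lit 215) (nat_lit 201)) (PT.lf (nat_lit 18240) (nat_lit 6) (nat_lit 240) (nat_lit 4) (nat_lit 155) (nat_lit 215) (nat_lit 200))))) (PT.nd (nat_lit 3198) (PT.nd (nat_lit 78) (PT.lf (nat_lit 18848) (nat_lit 6) (nat_lit 248) (nat_lit 4) (nat_lit 156) (nat_lit 215) (nat_lit 199)) (PT.nd (nat_lit 78) (PT.lf (nat_lit 19532) (nat_lit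 6) (nat_lit 257) (nat_lit 4) (nat_lit 157) (nat_lit 215) (nat_lit 198)) (PT.lf (nat_lit 20216) (nat_lit 6) (nat_lit 266) (nat_lit 4) (nat_lit 158) (nat_lit 215) (nat_lit 197)))) (PT.nd (nat_lit 156) (PT.nd (nat_lit 78) (PT.lf (nat_lit 20216) (nat_lit 6) (nat_lit 266) (nat_lit 2) (nat_lit 197) (nat_lit 215) (nat_lit 158)) (PT.lf (nat_lit 19532) (nat_lit 6) (nat_lit 257) (nat_lit 2) (nat_lit 198) (nat_lit 215) (nat_lit 157))) (PT.nd (nat_lit 78) (PT.lf (nat_lit 18848) (nat_lit 6) (nat_lit 248) (nat_lit 2) (nat_lit 199) (nat_lit 215) (nat_lit 156)) (PT.lf (nat_lit 18240) (nat_lit 6) (nat_lit 240) (nat_lit 2) (nat_lit 200) (nat_lit 215) (nat_lit 155)))))) (PT.nd (nat_lit 546) (PT.nd (nat_lit 234) (PT.nd (nat_lit 78) (PT.lf (nat_lit 17632) (nat_lit 6) (nat_lit 232) (nat_lit 2) (nat_lit 201) (nat_lit 215) (nat_lit 154)) (PT.nd (nat_lit 78) (PT.lf (nat_lit 17024) (nat_lit 6) (nat_lit 224) (nat_lit 2) (nat_lit 202) (nat_lit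 215) (nat_lit 153)) (PT.lf (nat_lit 16416) (nat_lit 6) (nat_lit 216) (nat_lit 2) (nat_lit 203) (nat_lit 215) (nat_lit 152)))) (PT.nd (nat_lit 156) (PT.nd (nat_lit 78) (PT.lf (nat_lit 15884) (nat_lit 6) (nat_lit 209) (nat_lit 2) (nat_lit 204) (nat_lit 215) (nat_lit 151)) (PT.lf (nat_lit 15352) (nat_lit 6) (nat_lit 202) (nat_lit 2) (nat_lit 205) (nat_lit 215) (nat_lit 150))) (PT.nd (nat_lit 78) (PT.lf (nat_lit 14820) (nat_lit 6) (nat_lit 195) (nat_lit 2) (nat_lit 206) (nat_lit 215) (nat_lit 149)) (PT.lf (nat_lit 14288) (nat_lit 6) (nat_lit 188) (nat_lit 2) (nat_lit 207) (nat_lit 215) (nat_lit 148))))) (PT.nd (nat_lit 312) (PT.nd (nat_lit 156) (PT.nd (nat_lit 78) (PT.lf (nat_lit 13832) (nat_lit 6) (nat_lit 182) (nat_lit 2) (nat_lit 208) (nat_lit 215) (nat_lit 147)) (PT.lf (nat_lit 13300) (nat_lit 6) (nat_lit 175) (nat_lit 2) (nat_lit 209) (nat_lit 215) (nat_lit 146))) (PT.nd (nat_lit 78) (PT.lf (nat_lit 12844) (nat_lit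 6) (nat_lit 169) (nat_lit 2) (nat_lit 210) (nat_lit 215) (nat_lit 145)) (PT.lf (nat_lit 12388) (nat_lit 6) (nat_lit 163) (nat_lit 2) (nat_lit 211) (nat_lit 215) (nat_lit 144)))) (PT.nd (nat_lit 156) (PT.nd (nat_lit 78) (PT.lf (nat_lit 11932) (nat_lit 6) (nat_lit 157) (nat_lit 2) (nat_lit 212) (nat_lit 215) (nat_lit 143)) (PT.lf (nat_lit 11476) (nat_lit 6) (nat_lit 151) (nat_lit 2) (nat_lit 213) (nat_lit 215) (nat_lit 142))) (PT.nd (nat_lit 78) (PT.lf (nat_lit 11096) (nat_lit 6) (nat_lit 146) (nat_lit 2) (nat_lit 214) (nat_lit 215) (nat_lit 141)) (PT.lf (nat_lit 10640) (nat_lit 3) (nat_lit 140) (nat_lit 0) (nat_lit 215) (nat_lit 215) (nat_lit 140))))))))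
noncomputable def pc55 : PT := (PT.nd (nat_lit 54288) (PT.nd (nat_lit 53196) (PT.nd (nat_lit 546) (PT.nd (nat_lit 234) (PT.nd (nat_lit 78) (PT.lf (nat_lit 10184) (nat_lit 6) (nat_lit 134) (nat_lit 0) (nat_lit 216) (nat_lit 215) (nat_lit 139)) (PT.nd (nat_lit 78) (PT.lf (nat_lit 9728) (nat_lit 6) (nat_lit 128) (nat_lit 0) (nat_lit 217) (nat_lit 215) (nat_lit 138)) (PT.lf (nat_lit 9348) (nat_lit 6) (nat_lit 123) (nat_lit 0) (nat_lit 218) (nat_lit 215) (nat_lit 137)))) (PT.nd (nat_lit 156) (PT.nd (nat_lit 78) (PT.lf (nat_lit 8892) (nat_lit 6) (nat_lit 117) (nat_lit 0) (nat_lit 219) (nat_lit 215) (nat_lit 136)) (PT.lf (nat_lit 8512) (nat_lit 6) (nat_lit 112) (nat_lit 0) (nat_lit 220) (nat_lit 215) (nat_lit 135))) (PT.nd (nat_lit 78) (PT.lf (nat_lit 8056) (nat_lit 6) (nat_lit 106) (nat_lit 0) (nat_lit 221) (nat_lit 215) (nat_lit 134)) (PT.lf (nat_lit 7676) (nat_lit 6) (nat_lit 101) (nat_lit 0) (nat_lit 222) (nat_lit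 215) (nat_lit 133))))) (PT.nd (nat_lit 52338) (PT.nd (nat_lit 52182) (PT.lf (nat_lit 7296) (nat_lit 6) (nat_lit 96) (nat_lit 0) (nat_lit 223) (nat_lit 215) (nat_lit 132)) (PT.nd (nat_lit 78) (PT.lf (nat_lit 6992) (nat_lit 6) (nat_lit 92) (nat_lit 5) (nat_lit 131) (nat_lit 216) (nat_lit 223)) (PT.lf (nat_lit 7372) (nat_lit 6) (nat_lit 97) (nat_lit 5) (nat_lit 132) (nat_lit 216) (nat_lit 222)))) (PT.nd (nat_lit 156) (PT.nd (nat_lit 78) (PT.lf (nat_lit 7752) (nat_lit 6) (nat_lit 102) (nat_lit 5) (nat_lit 133) (nat_lit 216) (nat_lit 221)) (PT.lf (nat_lit 8132) (nat_lit 6) (nat_lit 107) (nat_lit 5) (nat_lit 134) (nat_lit 216) (nat_lit 220))) (PT.nd (nat_lit 78) (PT.lf (nat_lit 8588) (nat_lit 6) (nat_lit 113) (nat_lit 5) (nat_lit 135) (nat_lit 216) (nat_lit 219)) (PT.lf (nat_lit 8968) (nat_lit 6) (nat_lit 118) (nat_lit 5) (nat_lit 136) (nat_lit 216) (nat_lit 218)))))) (PT.nd (nat_lit 546) (PT.nd (nat_lit 234) (PT.nd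 (nat_lit 78) (PT.lf (nat_lit 9424) (nat_lit 6) (nat_lit 124) (nat_lit 5) (nat_lit 137) (nat_lit 216) (nat_lit 217)) (PT.nd (nat_lit 78) (PT.lf (nat_lit 9804) (nat_lit 3) (nat_lit 129) (nat_lit 4) (nat_lit 138) (nat_lit 216) (nat_lit 216)) (PT.lf (nat_lit 10184) (nat_lit 6) (nat_lit 134) (nat_lit 4) (nat_lit 139) (nat_lit 216) (nat_lit 215)))) (PT.nd (nat_lit 156) (PT.nd (nat_lit 78) (PT.lf (nat_lit 10564) (nat_lit 6) (nat_lit 139) (nat_lit 4) (nat_lit 140) (nat_lit 216) (nat_lit 214)) (PT.lf (nat_lit 11020) (nat_lit 6) (nat_lit 145) (nat_lit 4) (nat_lit 141) (nat_lit 216) (nat_lit 213))) (PT.nd (nat_lit 78) (PT.lf (nat_lit 11400) (nat_lit 6) (nat_lit 150) (nat_lit 4) (nat_lit 142) (nat_lit 216) (nat_lit 212)) (PT.lf (nat_lit 11856) (nat_lit 6) (nat_lit 156) (nat_lit 4) (nat_lit 143) (nat_lit 216) (nat_lit 211))))) (PT.nd (nat_lit 234) (PT.nd (nat_lit 78) (PT.lf (nat_lit 12312) (nat_lit 6) (nat_lit 162) (nat_lit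 4) (nat_lit 144) (nat_lit 216) (nat_lit 210)) (PT.nd (nat_lit 78) (PT.lf (nat_lit 12768) (nat_lit 6) (nat_lit 168) (nat_lit 4) (nat_lit 145) (nat_lit 216) (nat_lit 209)) (PT.lf (nat_lit 13224) (nat_lit 6) (nat_lit 174) (nat_lit 4) (nat_lit 146) (nat_lit 216) (nat_lit 208)))) (PT.nd (nat_lit 156) (PT.nd (nat_lit 78) (PT.lf (nat_lit 13756) (nat_lit 6) (nat_lit 181) (nat_lit 4) (nat_lit 147) (nat_lit 216) (nat_lit 207)) (PT.lf (nat_lit 14212) (nat_lit 6) (nat_lit 187) (nat_lit 4) (nat_lit 148) (nat_lit 216) (nat_lit 206))) (PT.nd (nat_lit 78) (PT.lf (nat_lit 14744) (nat_lit 6) (nat_lit 194) (nat_lit 4) (nat_lit 149) (nat_lit 216) (nat_lit 205)) (PT.lf (nat_lit 15276) (nat_lit 6) (nat_lit 201) (nat_lit 4) (nat_lit 150) (nat_lit 216) (nat_lit 204))))))) (PT.nd (nat_lit 4602) (PT.nd (nat_lit 4056) (PT.nd (nat_lit 234) (PT.nd (nat_lit 78) (PT.lf (nat_lit 15808) (nat_lit 6) (nat_lit 208) (nat_lit 4) (nat_lit 151) (nat_lit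 216) (nat_lit 203)) (PT.nd (nat_lit 78) (PT.lf (nat_lit 16340) (nat_lit 6) (nat_lit 215) (nat_lit 4) (nat_lit 152) (nat_lit 216) (nat_lit 202)) (PT.lf (nat_lit 16948) (nat_lit 6) (nat_lit 223) (nat_lit 4) (nat_lit 153) (nat_lit 216) (nat_lit 201)))) (PT.nd (nat_lit 3666) (PT.nd (nat_lit 3588) (PT.lf (nat_lit 17556) (nat_lit 6) (nat_lit 231) (nat_lit 4) (nat_lit 154) (nat_lit 216) (nat_lit 200)) (PT.lf (nat_lit 17556) (nat_lit 6) (nat_lit 231) (nat_lit 2) (nat_lit 200) (nat_lit 216) (nat_lit 154))) (PT.nd (nat_lit 78) (PT.lf (nat_lit 16948) (nat_lit 6) (nat_lit 223) (nat_lit 2) (nat_lit 201) (nat_lit 216) (nat_lit 153)) (PT.lf (nat_lit 16340) (nat_lit 6) (nat_lit 215) (nat_lit 2) (nat_lit 202) (nat_lit 216) (nat_lit 152))))) (PT.nd (nat_lit 234) (PT.nd (nat_lit 78) (PT.lf (nat_lit 15808) (nat_lit 6) (nat_lit 208) (nat_lit 2) (nat_lit 203) (nat_lit 216) (nat_lit 151)) (PT.nd (nat_lit 78) (PT.lf (nat_lit 15276)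 (nat_lit 6) (nat_lit 201) (nat_lit 2) (nat_lit 204) (nat_lit 216) (nat_lit 150)) (PT.lf (nat_lit 14744) (nat_lit 6) (nat_lit 194) (nat_lit 2) (nat_lit 205) (nat_lit 216) (nat_lit 149)))) (PT.nd (nat_lit 156) (PT.nd (nat_lit 78) (PT.lf (nat_lit 14212) (nat_lit 6) (nat_lit 187) (nat_lit 2) (nat_lit 206) (nat_lit 216) (nat_lit 148)) (PT.lf (nat_lit 13756) (nat_lit 6) (nat_lit 181) (nat_lit 2) (nat_lit 207) (nat_lit 216) (nat_lit 147))) (PT.nd (nat_lit 78) (PT.lf (nat_lit 13224) (nat_lit 6) (nat_lit 174) (nat_lit 2) (nat_lit 208) (nat_lit 216) (nat_lit 146)) (PT.lf (nat_lit 12768) (nat_lit 6) (nat_lit 168) (nat_lit 2) (nat_lit 209) (nat_lit 216) (nat_lit 145)))))) (PT.nd (nat_lit 546) (PT.nd (nat_lit 234) (PT.nd (nat_lit 78) (PT.lf (nat_lit 12312) (nat_lit 6) (nat_lit 162) (nat_lit 2) (nat_lit 210) (nat_lit 216) (nat_lit 144)) (PT.nd (nat_lit 78) (PT.lf (nat_lit 11856) (nat_lit 6) (nat_lit 156) (nat_lit 2) (nat_lit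 211) (nat_lit 216) (nat_lit 143)) (PT.lf (nat_lit 11400) (nat_lit 6) (nat_lit 150) (nat_lit 2) (nat_lit 212) (nat_lit 216) (nat_lit 142)))) (PT.nd (nat_lit 156) (PT.nd (nat_lit 78) (PT.lf (nat_lit 11020) (nat_lit 6) (nat_lit 145) (nat_lit 2) (nat_lit 213) (nat_lit 216) (nat_lit 141)) (PT.lf (nat_lit 10564) (nat_lit 6) (nat_lit 139) (nat_lit 2) (nat_lit 214) (nat_lit 216) (nat_lit 140))) (PT.nd (nat_lit 78) (PT.lf (nat_lit 10184) (nat_lit 6) (nat_lit 134) (nat_lit 2) (nat_lit 215) (nat_lit 216) (nat_lit 139)) (PT.lf (nat_lit 9804) (nat_lit 3) (nat_lit 129) (nat_lit 0) (nat_lit 216) (nat_lit 216) (nat_lit 138))))) (PT.nd (nat_lit 312) (PT.nd (nat_lit 156) (PT.nd (nat_lit 78) (PT.lf (nat_lit 9424) (nat_lit 6) (nat_lit 124) (nat_lit 0) (nat_lit 217) (nat_lit 216) (nat_lit 137)) (PT.lf (nat_lit 8968) (nat_lit 6) (nat_lit 118) (nat_lit 0) (nat_lit 218) (nat_lit 216) (nat_lit 136))) (PT.nd (nat_lit 78) (PT.lf (nat_lit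 8588) (nat_lit 6) (nat_lit 113) (nat_lit 0) (nat_lit 219) (nat_lit 216) (nat_lit 135)) (PT.lf (nat_lit 8132) (nat_lit 6) (nat_lit 107) (nat_lit 0) (nat_lit 220) (nat_lit 216) (nat_lit 134)))) (PT.nd (nat_lit 156) (PT.nd (nat_lit 78) (PT.lf (nat_lit 7752) (nat_lit 6) (nat_lit 102) (nat_lit 0) (nat_lit 221) (nat_lit 216) (nat_lit 133)) (PT.lf (nat_lit 7372) (nat_lit 6) (nat_lit 97) (nat_lit 0) (nat_lit 222) (nat_lit 216) (nat_lit 132))) (PT.nd (nat_lit 52026) (PT.lf (nat_lit 6992) (nat_lit 6) (nat_lit 92) (nat_lit 0) (nat_lit 223) (nat_lit 216) (nat_lit 131)) (PT.lf (nat_lit 6384) (nat_lit 6) (nat_lit 84) (nat_lit 5) (nat_lit 129) (nat_lit 217) (nat_lit 224))))))))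
noncomputable def pc56 : PT := (PT.nd (nat_lit 6240) (PT.nd (nat_lit 1092) (PT.nd (nat_lit 546) (PT.nd (nat_lit 234) (PT.nd (nat_lit 78) (PT.lf (nat_lit 6688) (nat_lit 6) (nat_lit 88) (nat_lit 5) (nat_lit 130) (nat_lit 217) (nat_lit 223)) (PT.nd (nat_lit 78) (PT.lf (nat_lit 7068) (nat_lit 6) (nat_lit 93) (nat_lit 5) (nat_lit 131) (nat_lit 217) (nat_lit 222)) (PT.lf (nat_lit 7448) (nat_lit 6) (nat_lit 98) (nat_lit 5) (nat_lit 132) (nat_lit 217) (nat_lit 221)))) (PT.nd (nat_lit 156) (PT.nd (nat_lit 78) (PT.lf (nat_lit 7828) (nat_lit 6) (nat_lit 103) (nat_lit 5) (nat_lit 133) (nat_lit 217) (nat_lit 220)) (PT.lf (nat_lit 8208) (nat_lit 6) (nat_lit 108) (nat_lit 5) (nat_lit 134) (nat_lit 217) (nat_lit 219))) (PT.nd (nat_lit 78) (PT.lf (nat_lit 8664) (nat_lit 6) (nat_lit 114) (nat_lit 5) (nat_lit 135) (nat_lit 217) (nat_lit 218)) (PT.lf (nat_lit 9044) (nat_lit 3) (nat_lit 119) (nat_lit 4) (nat_lit 136) (nat_lit 217)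 (nat_lit 217))))) (PT.nd (nat_lit 234) (PT.nd (nat_lit 78) (PT.lf (nat_lit 9424) (nat_lit 6) (nat_lit 124) (nat_lit 4) (nat_lit 137) (nat_lit 217) (nat_lit 216)) (PT.nd (nat_lit 78) (PT.lf (nat_lit 9728) (nat_lit 6) (nat_lit 128) (nat_lit 4) (nat_lit 138) (nat_lit 217) (nat_lit 215)) (PT.lf (nat_lit 10108) (nat_lit 6) (nat_lit 133) (nat_lit 4) (nat_lit 139) (nat_lit 217) (nat_lit 214)))) (PT.nd (nat_lit 156) (PT.nd (nat_lit 78) (PT.lf (nat_lit 10488) (nat_lit 6) (nat_lit 138) (nat_lit 4) (nat_lit 140) (nat_lit 217) (nat_lit 213)) (PT.lf (nat_lit 10944) (nat_lit 6) (nat_lit 144) (nat_lit 4) (nat_lit 141) (nat_lit 217) (nat_lit 212))) (PT.nd (nat_lit 78) (PT.lf (nat_lit 11324) (nat_lit 6) (nat_lit 149) (nat_lit 4) (nat_lit 142) (nat_lit 217) (nat_lit 211)) (PT.lf (nat_lit 11780) (nat_lit 6) (nat_lit 155) (nat_lit 4) (nat_lit 143) (nat_lit 217) (nat_lit 210)))))) (PT.nd (nat_lit 4602) (PT.nd (nat_lit 234) (PT.nd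 (nat_lit 78) (PT.lf (nat_lit 12236) (nat_lit 6) (nat_lit 161) (nat_lit 4) (nat_lit 144) (nat_lit 217) (nat_lit 209)) (PT.nd (nat_lit 78) (PT.lf (nat_lit 12692) (nat_lit 6) (nat_lit 167) (nat_lit 4) (nat_lit 145) (nat_lit 217) (nat_lit 208)) (PT.lf (nat_lit 13148) (nat_lit 6) (nat_lit 173) (nat_lit 4) (nat_lit 146) (nat_lit 217) (nat_lit 207)))) (PT.nd (nat_lit 156) (PT.nd (nat_lit 78) (PT.lf (nat_lit 13680) (nat_lit 6) (nat_lit 180) (nat_lit 4) (nat_lit 147) (nat_lit 217) (nat_lit 206)) (PT.lf (nat_lit 14136) (nat_lit 6) (nat_lit 186) (nat_lit 4) (nat_lit 148) (nat_lit 217) (nat_lit 205))) (PT.nd (nat_lit 78) (PT.lf (nat_lit 14668) (nat_lit 6) (nat_lit 193) (nat_lit 4) (nat_lit 149) (nat_lit 217) (nat_lit 204)) (PT.lf (nat_lit 15200) (nat_lit 6) (nat_lit 200) (nat_lit 4) (nat_lit 150) (nat_lit 217) (nat_lit 203))))) (PT.nd (nat_lit 234) (PT.nd (nat_lit 78) (PT.lf (nat_lit 15200) (nat_lit 6) (nat_lit 200) (nat_lit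 2) (nat_lit 203) (nat_lit 217) (nat_lit 150)) (PT.nd (nat_lit 78) (PT.lf (nat_lit 14668) (nat_lit 6) (nat_lit 193) (nat_lit 2) (nat_lit 204) (nat_lit 217) (nat_lit 149)) (PT.lf (nat_lit 14136) (nat_lit 6) (nat_lit 186) (nat_lit 2) (nat_lit 205) (nat_lit 217) (nat_lit 148)))) (PT.nd (nat_lit 156) (PT.nd (nat_lit 78) (PT.lf (nat_lit 13680) (nat_lit 6) (nat_lit 180) (nat_lit 2) (nat_lit 206) (nat_lit 217) (nat_lit 147)) (PT.lf (nat_lit 13148) (nat_lit 6) (nat_lit 173) (nat_lit 2) (nat_lit 207) (nat_lit 217) (nat_lit 146))) (PT.nd (nat_lit 78) (PT.lf (nat_lit 12692) (nat_lit 6) (nat_lit 167) (nat_lit 2) (nat_lit 208) (nat_lit 217) (nat_lit 145)) (PT.lf (nat_lit 12236) (nat_lit 6) (nat_lit 161) (nat_lit 2) (nat_lit 209) (nat_lit 217) (nat_lit 144))))))) (PT.nd (nat_lit 1092) (PT.nd (nat_lit 546) (PT.nd (nat_lit 234) (PT.nd (nat_lit 78) (PT.lf (nat_lit 11780) (nat_lit 6) (nat_lit 155) (nat_lit 2) (nat_lit 210) (nat_lit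 217) (nat_lit 143)) (PT.nd (nat_lit 78) (PT.lf (nat_lit 11324) (nat_lit 6) (nat_lit 149) (nat_lit 2) (nat_lit 211) (nat_lit 217) (nat_lit 142)) (PT.lf (nat_lit 10944) (nat_lit 6) (nat_lit 144) (nat_lit 2) (nat_lit 212) (nat_lit 217) (nat_lit 141)))) (PT.nd (nat_lit 156) (PT.nd (nat_lit 78) (PT.lf (nat_lit 10488) (nat_lit 6) (nat_lit 138) (nat_lit 2) (nat_lit 213) (nat_lit 217) (nat_lit 140)) (PT.lf (nat_lit 10108) (nat_lit 6) (nat_lit 133) (nat_lit 2) (nat_lit 214) (nat_lit 217) (nat_lit 139))) (PT.nd (nat_lit 78) (PT.lf (nat_lit 9728) (nat_lit 6) (nat_lit 128) (nat_lit 2) (nat_lit 215) (nat_lit 217) (nat_lit 138)) (PT.lf (nat_lit 9424) (nat_lit 6) (nat_lit 124) (nat_lit 2) (nat_lit 216) (nat_lit 217) (nat_lit 137))))) (PT.nd (nat_lit 234) (PT.nd (nat_lit 78) (PT.lf (nat_lit 9044) (nat_lit 3) (nat_lit 119) (nat_lit 0) (nat_lit 217) (nat_lit 217) (nat_lit 136)) (PT.nd (nat_lit 78) (PT.lf (nat_lit 8664) (nat_lit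 6) (nat_lit 114) (nat_lit 0) (nat_lit 218) (nat_lit 217) (nat_lit 135)) (PT.lf (nat_lit 8208) (nat_lit 6) (nat_lit 108) (nat_lit 0) (nat_lit 219) (nat_lit 217) (nat_lit 134)))) (PT.nd (nat_lit 156) (PT.nd (nat_lit 78) (PT.lf (nat_lit 7828) (nat_lit 6) (nat_lit 103) (nat_lit 0) (nat_lit 220) (nat_lit 217) (nat_lit 133)) (PT.lf (nat_lit 7448) (nat_lit 6) (nat_lit 98) (nat_lit 0) (nat_lit 221) (nat_lit 217) (nat_lit 132))) (PT.nd (nat_lit 78) (PT.lf (nat_lit 7068) (nat_lit 6) (nat_lit 93) (nat_lit 0) (nat_lit 222) (nat_lit 217) (nat_lit 131)) (PT.lf (nat_lit 6688) (nat_lit 6) (nat_lit 88) (nat_lit 0) (nat_lit 223) (nat_lit 217) (nat_lit 130)))))) (PT.nd (nat_lit 52338) (PT.nd (nat_lit 52026) (PT.nd (nat_lit 51870) (PT.lf (nat_lit 6384) (nat_lit 6) (nat_lit 84) (nat_lit 0) (nat_lit 224) (nat_lit 217) (nat_lit 129)) (PT.nd (nat_lit 78) (PT.lf (nat_lit 6080) (nat_lit 6) (nat_lit 80) (nat_lit 5) (nat_lit 128) (nat_lit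 218) (nat_lit 224)) (PT.lf (nat_lit 6460) (nat_lit 6) (nat_lit 85) (nat_lit 5) (nat_lit 129) (nat_lit 218) (nat_lit 223)))) (PT.nd (nat_lit 156) (PT.nd (nat_lit 78) (PT.lf (nat_lit 6764) (nat_lit 6) (nat_lit 89) (nat_lit 5) (nat_lit 130) (nat_lit 218) (nat_lit 222)) (PT.lf (nat_lit 7144) (nat_lit 6) (nat_lit 94) (nat_lit 5) (nat_lit 131) (nat_lit 218) (nat_lit 221))) (PT.nd (nat_lit 78) (PT.lf (nat_lit 7524) (nat_lit 6) (nat_lit 99) (nat_lit 5) (nat_lit 132) (nat_lit 218) (nat_lit 220)) (PT.lf (nat_lit 7904) (nat_lit 6) (nat_lit 104) (nat_lit 5) (nat_lit 133) (nat_lit 218) (nat_lit 219))))) (PT.nd (nat_lit 234) (PT.nd (nat_lit 78) (PT.lf (nat_lit 8284) (nat_lit 3) (nat_lit 109) (nat_lit 4) (nat_lit 134) (nat_lit 218) (nat_lit 218)) (PT.nd (nat_lit 78) (PT.lf (nat_lit 8664) (nat_lit 6) (nat_lit 114) (nat_lit 4) (nat_lit 135) (nat_lit 218) (nat_lit 217)) (PT.lf (nat_lit 8968) (nat_lit 6) (nat_lit 118) (nat_lit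 4) (nat_lit 136) (nat_lit 218) (nat_lit 216)))) (PT.nd (nat_lit 156) (PT.nd (nat_lit 78) (PT.lf (nat_lit 9348) (nat_lit 6) (nat_lit 123) (nat_lit 4) (nat_lit 137) (nat_lit 218) (nat_lit 215)) (PT.lf (nat_lit 9652) (nat_lit 6) (nat_lit 127) (nat_lit 4) (nat_lit 138) (nat_lit 218) (nat_lit 214))) (PT.nd (nat_lit 78) (PT.lf (nat_lit 10032) (nat_lit 6) (nat_lit 132) (nat_lit 4) (nat_lit 139) (nat_lit 218) (nat_lit 213)) (PT.lf (nat_lit 10412) (nat_lit 6) (nat_lit 137) (nat_lit 4) (nat_lit 140) (nat_lit 218) (nat_lit 212))))))))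
noncomputable def pc57 : PT := (PT.nd (nat_lit 58266) (PT.nd (nat_lit 5538) (PT.nd (nat_lit 4992) (PT.nd (nat_lit 234) (PT.nd (nat_lit 78) (PT.lf (nat_lit 10868) (nat_lit 6) (nat_lit 143) (nat_lit 4) (nat_lit 141) (nat_lit 218) (nat_lit 211)) (PT.nd (nat_lit 78) (PT.lf (nat_lit 11248) (nat_lit 6) (nat_lit 148) (nat_lit 4) (nat_lit 142) (nat_lit 218) (nat_lit 210)) (PT.lf (nat_lit 11704) (nat_lit 6) (nat_lit 154) (nat_lit 4) (nat_lit 143) (nat_lit 218) (nat_lit 209)))) (PT.nd (nat_lit 156) (PT.nd (nat_lit 78) (PT.lf (nat_lit 12160) (nat_lit 6) (nat_lit 160) (nat_lit 4) (nat_lit 144) (nat_lit 218) (nat_lit 208)) (PT.lf (nat_lit 12616) (nat_lit 6) (nat_lit 166) (nat_lit 4) (nat_lit 145) (nat_lit 218) (nat_lit 207))) (PT.nd (nat_lit 78) (PT.lf (nat_lit 13072) (nat_lit 6) (nat_lit 172) (nat_lit 4) (nat_lit 146) (nat_lit 218) (nat_lit 206)) (PT.lf (nat_lit 13604) (nat_lit 6) (nat_lit 179) (nat_lit 4) (nat_lit 147)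 (nat_lit 218) (nat_lit 205))))) (PT.nd (nat_lit 234) (PT.nd (nat_lit 78) (PT.lf (nat_lit 13604) (nat_lit 6) (nat_lit 179) (nat_lit 2) (nat_lit 205) (nat_lit 218) (nat_lit 147)) (PT.nd (nat_lit 78) (PT.lf (nat_lit 13072) (nat_lit 6) (nat_lit 172) (nat_lit 2) (nat_lit 206) (nat_lit 218) (nat_lit 146)) (PT.lf (nat_lit 12616) (nat_lit 6) (nat_lit 166) (nat_lit 2) (nat_lit 207) (nat_lit 218) (nat_lit 145)))) (PT.nd (nat_lit 156) (PT.nd (nat_lit 78) (PT.lf (nat_lit 12160) (nat_lit 6) (nat_lit 160) (nat_lit 2) (nat_lit 208) (nat_lit 218) (nat_lit 144)) (PT.lf (nat_lit 11704) (nat_lit 6) (nat_lit 154) (nat_lit 2) (nat_lit 209) (nat_lit 218) (nat_lit 143))) (PT.nd (nat_lit 78) (PT.lf (nat_lit 11248) (nat_lit 6) (nat_lit 148) (nat_lit 2) (nat_lit 210) (nat_lit 218) (nat_lit 142)) (PT.lf (nat_lit 10868) (nat_lit 6) (nat_lit 143) (nat_lit 2) (nat_lit 211) (nat_lit 218) (nat_lit 141)))))) (PT.nd (nat_lit 546) (PT.nd (nat_lit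 234) (PT.nd (nat_lit 78) (PT.lf (nat_lit 10412) (nat_lit 6) (nat_lit 137) (nat_lit 2) (nat_lit 212) (nat_lit 218) (nat_lit 140)) (PT.nd (nat_lit 78) (PT.lf (nat_lit 10032) (nat_lit 6) (nat_lit 132) (nat_lit 2) (nat_lit 213) (nat_lit 218) (nat_lit 139)) (PT.lf (nat_lit 9652) (nat_lit 6) (nat_lit 127) (nat_lit 2) (nat_lit 214) (nat_lit 218) (nat_lit 138)))) (PT.nd (nat_lit 156) (PT.nd (nat_lit 78) (PT.lf (nat_lit 9348) (nat_lit 6) (nat_lit 123) (nat_lit 2) (nat_lit 215) (nat_lit 218) (nat_lit 137)) (PT.lf (nat_lit 8968) (nat_lit 6) (nat_lit 118) (nat_lit 2) (nat_lit 216) (nat_lit 218) (nat_lit 136))) (PT.nd (nat_lit 78) (PT.lf (nat_lit 8664) (nat_lit 6) (nat_lit 114) (nat_lit 2) (nat_lit 217) (nat_lit 218) (nat_lit 135)) (PT.lf (nat_lit 8284) (nat_lit 3) (nat_lit 109) (nat_lit 0) (nat_lit 218) (nat_lit 218) (nat_lit 134))))) (PT.nd (nat_lit 234) (PT.nd (nat_lit 78) (PT.lf (nat_lit 7904) (nat_lit 6) (nat_lit 104)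 (nat_lit 0) (nat_lit 219) (nat_lit 218) (nat_lit 133)) (PT.nd (nat_lit 78) (PT.lf (nat_lit 7524) (nat_lit 6) (nat_lit 99) (nat_lit 0) (nat_lit 220) (nat_lit 218) (nat_lit 132)) (PT.lf (nat_lit 7144) (nat_lit 6) (nat_lit 94) (nat_lit 0) (nat_lit 221) (nat_lit 218) (nat_lit 131)))) (PT.nd (nat_lit 156) (PT.nd (nat_lit 78) (PT.lf (nat_lit 6764) (nat_lit 6) (nat_lit 89) (nat_lit 0) (nat_lit 222) (nat_lit 218) (nat_lit 130)) (PT.lf (nat_lit 6460) (nat_lit 6) (nat_lit 85) (nat_lit 0) (nat_lit 223) (nat_lit 218) (nat_lit 129))) (PT.nd (nat_lit 51714) (PT.lf (nat_lit 6080) (nat_lit 6) (nat_lit 80) (nat_lit 0) (nat_lit 224) (nat_lit 218) (nat_lit 128)) (PT.lf (nat_lit 5472) (nat_lit 6) (nat_lit 72) (nat_lit 5) (nat_lit 126) (nat_lit 219) (nat_lit 225))))))) (PT.nd (nat_lit 1092) (PT.nd (nat_lit 546) (PT.nd (nat_lit 234) (PT.nd (nat_lit 78) (PT.lf (nat_lit 5852) (nat_lit 6) (nat_lit 77) (nat_lit 5) (nat_lit 127) (nat_lit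 219) (nat_lit 224)) (PT.nd (nat_lit 78) (PT.lf (nat_lit 6156) (nat_lit 6) (nat_lit 81) (nat_lit 5) (nat_lit 128) (nat_lit 219) (nat_lit 223)) (PT.lf (nat_lit 6536) (nat_lit 6) (nat_lit 86) (nat_lit 5) (nat_lit 129) (nat_lit 219) (nat_lit 222)))) (PT.nd (nat_lit 156) (PT.nd (nat_lit 78) (PT.lf (nat_lit 6840) (nat_lit 6) (nat_lit 90) (nat_lit 5) (nat_lit 130) (nat_lit 219) (nat_lit 221)) (PT.lf (nat_lit 7220) (nat_lit 6) (nat_lit 95) (nat_lit 5) (nat_lit 131) (nat_lit 219) (nat_lit 220))) (PT.nd (nat_lit 78) (PT.lf (nat_lit 7600) (nat_lit 3) (nat_lit 100) (nat_lit 4) (nat_lit 132) (nat_lit 219) (nat_lit 219)) (PT.lf (nat_lit 7904) (nat_lit 6) (nat_lit 104) (nat_lit 4) (nat_lit 133) (nat_lit 219) (nat_lit 218))))) (PT.nd (nat_lit 234) (PT.nd (nat_lit 78) (PT.lf (nat_lit 8208) (nat_lit 6) (nat_lit 108) (nat_lit 4) (nat_lit 134) (nat_lit 219) (nat_lit 217)) (PT.nd (nat_lit 78) (PT.lf (nat_lit 8588) (nat_lit 6) (nat_lit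 113) (nat_lit 4) (nat_lit 135) (nat_lit 219) (nat_lit 216)) (PT.lf (nat_lit 8892) (nat_lit 6) (nat_lit 117) (nat_lit 4) (nat_lit 136) (nat_lit 219) (nat_lit 215)))) (PT.nd (nat_lit 156) (PT.nd (nat_lit 78) (PT.lf (nat_lit 9272) (nat_lit 6) (nat_lit 122) (nat_lit 4) (nat_lit 137) (nat_lit 219) (nat_lit 214)) (PT.lf (nat_lit 9576) (nat_lit 6) (nat_lit 126) (nat_lit 4) (nat_lit 138) (nat_lit 219) (nat_lit 213))) (PT.nd (nat_lit 78) (PT.lf (nat_lit 9956) (nat_lit 6) (nat_lit 131) (nat_lit 4) (nat_lit 139) (nat_lit 219) (nat_lit 212)) (PT.lf (nat_lit 10336) (nat_lit 6) (nat_lit 136) (nat_lit 4) (nat_lit 140) (nat_lit 219) (nat_lit 211)))))) (PT.nd (nat_lit 5538) (PT.nd (nat_lit 5226) (PT.nd (nat_lit 78) (PT.lf (nat_lit 10792) (nat_lit 6) (nat_lit 142) (nat_lit 4) (nat_lit 141) (nat_lit 219) (nat_lit 210)) (PT.nd (nat_lit 78) (PT.lf (nat_lit 11172) (nat_lit 6) (nat_lit 147) (nat_lit 4) (nat_lit 142) (nat_lit 219) (nat_lit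 209)) (PT.lf (nat_lit 11628) (nat_lit 6) (nat_lit 153) (nat_lit 4) (nat_lit 143) (nat_lit 219) (nat_lit 208)))) (PT.nd (nat_lit 156) (PT.nd (nat_lit 78) (PT.lf (nat_lit 11628) (nat_lit 6) (nat_lit 153) (nat_lit 2) (nat_lit 208) (nat_lit 219) (nat_lit 143)) (PT.lf (nat_lit 11172) (nat_lit 6) (nat_lit 147) (nat_lit 2) (nat_lit 209) (nat_lit 219) (nat_lit 142))) (PT.nd (nat_lit 78) (PT.lf (nat_lit 10792) (nat_lit 6) (nat_lit 142) (nat_lit 2) (nat_lit 210) (nat_lit 219) (nat_lit 141)) (PT.lf (nat_lit 10336) (nat_lit 6) (nat_lit 136) (nat_lit 2) (nat_lit 211) (nat_lit 219) (nat_lit 140))))) (PT.nd (nat_lit 312) (PT.nd (nat_lit 156) (PT.nd (nat_lit 78) (PT.lf (nat_lit 9956) (nat_lit 6) (nat_lit 131) (nat_lit 2) (nat_lit 212) (nat_lit 219) (nat_lit 139)) (PT.lf (nat_lit 9576) (nat_lit 6) (nat_lit 126) (nat_lit 2) (nat_lit 213) (nat_lit 219) (nat_lit 138))) (PT.nd (nat_lit 78) (PT.lf (nat_lit 9272) (nat_lit 6) (nat_lit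 122) (nat_lit 2) (nat_lit 214) (nat_lit 219) (nat_lit 137)) (PT.lf (nat_lit 8892) (nat_lit 6) (nat_lit 117) (nat_lit 2) (nat_lit 215) (nat_lit 219) (nat_lit 136)))) (PT.nd (nat_lit 156) (PT.nd (nat_lit 78) (PT.lf (nat_lit 8588) (nat_lit 6) (nat_lit 113) (nat_lit 2) (nat_lit 216) (nat_lit 219) (nat_lit 135)) (PT.lf (nat_lit 8208) (nat_lit 6) (nat_lit 108) (nat_lit 2) (nat_lit 217) (nat_lit 219) (nat_lit 134))) (PT.nd (nat_lit 78) (PT.lf (nat_lit 7904) (nat_lit 6) (nat_lit 104) (nat_lit 2) (nat_lit 218) (nat_lit 219) (nat_lit 133)) (PT.lf (nat_lit 7600) (nat_lit 3) (nat_lit 100) (nat_lit 0) (nat_lit 219) (nat_lit 219) (nat_lit 132))))))))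
noncomputable def pc58 : PT := (PT.nd (nat_lit 58968) (PT.nd (nat_lit 52494) (PT.nd (nat_lit 51948) (PT.nd (nat_lit 234) (PT.nd (nat_lit 78) (PT.lf (nat_lit 7220) (nat_lit 6) (nat_lit 95) (nat_lit 0) (nat_lit 220) (nat_lit 219) (nat_lit 131)) (PT.nd (nat_lit 78) (PT.lf (nat_lit 6840) (nat_lit 6) (nat_lit 90) (nat_lit 0) (nat_lit 221) (nat_lit 219) (nat_lit 130)) (PT.lf (nat_lit 6536) (nat_lit 6) (nat_lit 86) (nat_lit 0) (nat_lit 222) (nat_lit 219) (nat_lit 129)))) (PT.nd (nat_lit 156) (PT.nd (nat_lit 78) (PT.lf (nat_lit 6156) (nat_lit 6) (nat_lit 81) (nat_lit 0) (nat_lit 223) (nat_lit 219) (nat_lit 128)) (PT.lf (nat_lit 5852) (nat_lit 6) (nat_lit 77) (nat_lit 0) (nat_lit 224) (nat_lit 219) (nat_lit 127))) (PT.nd (nat_lit 51480) (PT.lf (nat_lit 5472) (nat_lit 6) (nat_lit 72) (nat_lit 0) (nat_lit 225) (nat_lit 219) (nat_lit 126)) (PT.lf (nat_lit 4940) (nat_lit 6) (nat_lit 65) (nat_lit 5) (nat_lit 124) (nat_lit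 220) (nat_lit 226))))) (PT.nd (nat_lit 234) (PT.nd (nat_lit 78) (PT.lf (nat_lit 5244) (nat_lit 6) (nat_lit 69) (nat_lit 5) (nat_lit 125) (nat_lit 220) (nat_lit 225)) (PT.nd (nat_lit 78) (PT.lf (nat_lit 5548) (nat_lit 6) (nat_lit 73) (nat_lit 5) (nat_lit 126) (nat_lit 220) (nat_lit 224)) (PT.lf (nat_lit 5928) (nat_lit 6) (nat_lit 78) (nat_lit 5) (nat_lit 127) (nat_lit 220) (nat_lit 223)))) (PT.nd (nat_lit 156) (PT.nd (nat_lit 78) (PT.lf (nat_lit 6232) (nat_lit 6) (nat_lit 82) (nat_lit 5) (nat_lit 128) (nat_lit 220) (nat_lit 222)) (PT.lf (nat_lit 6612) (nat_lit 6) (nat_lit 87) (nat_lit 5) (nat_lit 129) (nat_lit 220) (nat_lit 221))) (PT.nd (nat_lit 78) (PT.lf (nat_lit 6916) (nat_lit 3) (nat_lit 91) (nat_lit 4) (nat_lit 130) (nat_lit 220) (nat_lit 220)) (PT.lf (nat_lit 7220) (nat_lit 6) (nat_lit 95) (nat_lit 4) (nat_lit 131) (nat_lit 220) (nat_lit 219)))))) (PT.nd (nat_lit 546) (PT.nd (nat_lit 234) (PT.nd (nat_lit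 78) (PT.lf (nat_lit 7524) (nat_lit 6) (nat_lit 99) (nat_lit 4) (nat_lit 132) (nat_lit 220) (nat_lit 218)) (PT.nd (nat_lit 78) (PT.lf (nat_lit 7828) (nat_lit 6) (nat_lit 103) (nat_lit 4) (nat_lit 133) (nat_lit 220) (nat_lit 217)) (PT.lf (nat_lit 8132) (nat_lit 6) (nat_lit 107) (nat_lit 4) (nat_lit 134) (nat_lit 220) (nat_lit 216)))) (PT.nd (nat_lit 156) (PT.nd (nat_lit 78) (PT.lf (nat_lit 8512) (nat_lit 6) (nat_lit 112) (nat_lit 4) (nat_lit 135) (nat_lit 220) (nat_lit 215)) (PT.lf (nat_lit 8816) (nat_lit 6) (nat_lit 116) (nat_lit 4) (nat_lit 136) (nat_lit 220) (nat_lit 214))) (PT.nd (nat_lit 78) (PT.lf (nat_lit 9196) (nat_lit 6) (nat_lit 121) (nat_lit 4) (nat_lit 137) (nat_lit 220) (nat_lit 213)) (PT.lf (nat_lit 9500) (nat_lit 6) (nat_lit 125) (nat_lit 4) (nat_lit 138) (nat_lit 220) (nat_lit 212))))) (PT.nd (nat_lit 5616) (PT.nd (nat_lit 78) (PT.lf (nat_lit 9880) (nat_lit 6) (nat_lit 130) (nat_lit 4) (nat_lit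 139) (nat_lit 220) (nat_lit 211)) (PT.nd (nat_lit 5460) (PT.lf (nat_lit 10260) (nat_lit 6) (nat_lit 135) (nat_lit 4) (nat_lit 140) (nat_lit 220) (nat_lit 210)) (PT.lf (nat_lit 10260) (nat_lit 6) (nat_lit 135) (nat_lit 2) (nat_lit 210) (nat_lit 220) (nat_lit 140)))) (PT.nd (nat_lit 156) (PT.nd (nat_lit 78) (PT.lf (nat_lit 9880) (nat_lit 6) (nat_lit 130) (nat_lit 2) (nat_lit 211) (nat_lit 220) (nat_lit 139)) (PT.lf (nat_lit 9500) (nat_lit 6) (nat_lit 125) (nat_lit 2) (nat_lit 212) (nat_lit 220) (nat_lit 138))) (PT.nd (nat_lit 78) (PT.lf (nat_lit 9196) (nat_lit 6) (nat_lit 121) (nat_lit 2) (nat_lit 213) (nat_lit 220) (nat_lit 137)) (PT.lf (nat_lit 8816) (nat_lit 6) (nat_lit 116) (nat_lit 2) (nat_lit 214) (nat_lit 220) (nat_lit 136))))))) (PT.nd (nat_lit 52338) (PT.nd (nat_lit 546) (PT.nd (nat_lit 234) (PT.nd (nat_lit 78) (PT.lf (nat_lit 8512) (nat_lit 6) (nat_lit 112) (nat_lit 2) (nat_lit 215) (nat_lit 220) (nat_lit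 135)) (PT.nd (nat_lit 78) (PT.lf (nat_lit 8132) (nat_lit 6) (nat_lit 107) (nat_lit 2) (nat_lit 216) (nat_lit 220) (nat_lit 134)) (PT.lf (nat_lit 7828) (nat_lit 6) (nat_lit 103) (nat_lit 2) (nat_lit 217) (nat_lit 220) (nat_lit 133)))) (PT.nd (nat_lit 156) (PT.nd (nat_lit 78) (PT.lf (nat_lit 7524) (nat_lit 6) (nat_lit 99) (nat_lit 2) (nat_lit 218) (nat_lit 220) (nat_lit 132)) (PT.lf (nat_lit 7220) (nat_lit 6) (nat_lit 95) (nat_lit 2) (nat_lit 219) (nat_lit 220) (nat_lit 131))) (PT.nd (nat_lit 78) (PT.lf (nat_lit 6916) (nat_lit 3) (nat_lit 91) (nat_lit 0) (nat_lit 220) (nat_lit 220) (nat_lit 130)) (PT.lf (nat_lit 6612) (nat_lit 6) (nat_lit 87) (nat_lit 0) (nat_lit 221) (nat_lit 220) (nat_lit 129))))) (PT.nd (nat_lit 234) (PT.nd (nat_lit 78) (PT.lf (nat_lit 6232) (nat_lit 6) (nat_lit 82) (nat_lit 0) (nat_lit 222) (nat_lit 220) (nat_lit 128)) (PT.nd (nat_lit 78) (PT.lf (nat_lit 5928) (nat_lit 6) (nat_lit 78) (nat_lit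 0) (nat_lit 223) (nat_lit 220) (nat_lit 127)) (PT.lf (nat_lit 5548) (nat_lit 6) (nat_lit 73) (nat_lit 0) (nat_lit 224) (nat_lit 220) (nat_lit 126)))) (PT.nd (nat_lit 51402) (PT.nd (nat_lit 78) (PT.lf (nat_lit 5244) (nat_lit 6) (nat_lit 69) (nat_lit 0) (nat_lit 225) (nat_lit 220) (nat_lit 125)) (PT.lf (nat_lit 4940) (nat_lit 6) (nat_lit 65) (nat_lit 0) (nat_lit 226) (nat_lit 220) (nat_lit 124))) (PT.nd (nat_lit 78) (PT.lf (nat_lit 4712) (nat_lit 6) (nat_lit 62) (nat_lit 5) (nat_lit 123) (nat_lit 221) (nat_lit 226)) (PT.lf (nat_lit 5016) (nat_lit 6) (nat_lit 66) (nat_lit 5) (nat_lit 124) (nat_lit 221) (nat_lit 225)))))) (PT.nd (nat_lit 546) (PT.nd (nat_lit 234) (PT.nd (nat_lit 78) (PT.lf (nat_lit 5320) (nat_lit 6) (nat_lit 70) (nat_lit 5) (nat_lit 125) (nat_lit 221) (nat_lit 224)) (PT.nd (nat_lit 78) (PT.lf (nat_lit 5624) (nat_lit 6) (nat_lit 74) (nat_lit 5) (nat_lit 126) (nat_lit 221) (nat_lit 223)) (PT.lf (nat_lit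 6004) (nat_lit 6) (nat_lit 79) (nat_lit 5) (nat_lit 127) (nat_lit 221) (nat_lit 222)))) (PT.nd (nat_lit 156) (PT.nd (nat_lit 78) (PT.lf (nat_lit 6308) (nat_lit 3) (nat_lit 83) (nat_lit 4) (nat_lit 128) (nat_lit 221) (nat_lit 221)) (PT.lf (nat_lit 6612) (nat_lit 6) (nat_lit 87) (nat_lit 4) (nat_lit 129) (nat_lit 221) (nat_lit 220))) (PT.nd (nat_lit 78) (PT.lf (nat_lit 6840) (nat_lit 6) (nat_lit 90) (nat_lit 4) (nat_lit 130) (nat_lit 221) (nat_lit 219)) (PT.lf (nat_lit 7144) (nat_lit 6) (nat_lit 94) (nat_lit 4) (nat_lit 131) (nat_lit 221) (nat_lit 218))))) (PT.nd (nat_lit 312) (PT.nd (nat_lit 156) (PT.nd (nat_lit 78) (PT.lf (nat_lit 7448) (nat_lit 6) (nat_lit 98) (nat_lit 4) (nat_lit 132) (nat_lit 221) (nat_lit 217)) (PT.lf (nat_lit 7752) (nat_lit 6) (nat_lit 102) (nat_lit 4) (nat_lit 133) (nat_lit 221) (nat_lit 216))) (PT.nd (nat_lit 78) (PT.lf (nat_lit 8056) (nat_lit 6) (nat_lit 106) (nat_lit 4) (nat_lit 134)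 (nat_lit 221) (nat_lit 215)) (PT.lf (nat_lit 8436) (nat_lit 6) (nat_lit 111) (nat_lit 4) (nat_lit 135) (nat_lit 221) (nat_lit 214)))) (PT.nd (nat_lit 5928) (PT.nd (nat_lit 78) (PT.lf (nat_lit 8740) (nat_lit 6) (nat_lit 115) (nat_lit 4) (nat_lit 136) (nat_lit 221) (nat_lit 213)) (PT.lf (nat_lit 9120) (nat_lit 6) (nat_lit 120) (nat_lit 4) (nat_lit 137) (nat_lit 221) (nat_lit 212))) (PT.nd (nat_lit 78) (PT.lf (nat_lit 9120) (nat_lit 6) (nat_lit 120) (nat_lit 2) (nat_lit 212) (nat_lit 221) (nat_lit 137)) (PT.lf (nat_lit 8740) (nat_lit 6) (nat_lit 115) (nat_lit 2) (nat_lit 213) (nat_lit 221) (nat_lit 136))))))))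
noncomputable def pc59 : PT := (PT.nd (nat_lit 59280) (PT.nd (nat_lit 52182) (PT.nd (nat_lit 546) (PT.nd (nat_lit 234) (PT.nd (nat_lit 78) (PT.lf (nat_lit 8436) (nat_lit 6) (nat_lit 111) (nat_lit 2) (nat_lit 214) (nat_lit 221) (nat_lit 135)) (PT.nd (nat_lit 78) (PT.lf (nat_lit 8056) (nat_lit 6) (nat_lit 106) (nat_lit 2) (nat_lit 215) (nat_lit 221) (nat_lit 134)) (PT.lf (nat_lit 7752) (nat_lit 6) (nat_lit 102) (nat_lit 2) (nat_lit 216) (nat_lit 221) (nat_lit 133)))) (PT.nd (nat_lit 156) (PT.nd (nat_lit 78) (PT.lf (nat_lit 7448) (nat_lit 6) (nat_lit 98) (nat_lit 2) (nat_lit 217) (nat_lit 221) (nat_lit 132)) (PT.lf (nat_lit 7144) (nat_lit 6) (nat_lit 94) (nat_lit 2) (nat_lit 218) (nat_lit 221) (nat_lit 131))) (PT.nd (nat_lit 78) (PT.lf (nat_lit 6840) (nat_lit 6) (nat_lit 90) (nat_lit 2) (nat_lit 219) (nat_lit 221) (nat_lit 130)) (PT.lf (nat_lit 6612) (nat_lit 6) (nat_lit 87) (nat_lit 2) (nat_lit 220) (nat_lit 221)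 (nat_lit 129))))) (PT.nd (nat_lit 234) (PT.nd (nat_lit 78) (PT.lf (nat_lit 6308) (nat_lit 3) (nat_lit 83) (nat_lit 0) (nat_lit 221) (nat_lit 221) (nat_lit 128)) (PT.nd (nat_lit 78) (PT.lf (nat_lit 6004) (nat_lit 6) (nat_lit 79) (nat_lit 0) (nat_lit 222) (nat_lit 221) (nat_lit 127)) (PT.lf (nat_lit 5624) (nat_lit 6) (nat_lit 74) (nat_lit 0) (nat_lit 223) (nat_lit 221) (nat_lit 126)))) (PT.nd (nat_lit 156) (PT.nd (nat_lit 78) (PT.lf (nat_lit 5320) (nat_lit 6) (nat_lit 70) (nat_lit 0) (nat_lit 224) (nat_lit 221) (nat_lit 125)) (PT.lf (nat_lit 5016) (nat_lit 6) (nat_lit 66) (nat_lit 0) (nat_lit 225) (nat_lit 221) (nat_lit 124))) (PT.nd (nat_lit 51168) (PT.lf (nat_lit 4712) (nat_lit 6) (nat_lit 62) (nat_lit 0) (nat_lit 226) (nat_lit 221) (nat_lit 123)) (PT.lf (nat_lit 4180) (nat_lit 6) (nat_lit 55) (nat_lit 5) (nat_lit 121) (nat_lit 222) (nat_lit 227)))))) (PT.nd (nat_lit 546) (PT.nd (nat_lit 234) (PT.nd (nat_lit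 78) (PT.lf (nat_lit 4484) (nat_lit 6) (nat_lit 59) (nat_lit 5) (nat_lit 122) (nat_lit 222) (nat_lit 226)) (PT.nd (nat_lit 78) (PT.lf (nat_lit 4788) (nat_lit 6) (nat_lit 63) (nat_lit 5) (nat_lit 123) (nat_lit 222) (nat_lit 225)) (PT.lf (nat_lit 5092) (nat_lit 6) (nat_lit 67) (nat_lit 5) (nat_lit 124) (nat_lit 222) (nat_lit 224)))) (PT.nd (nat_lit 156) (PT.nd (nat_lit 78) (PT.lf (nat_lit 5396) (nat_lit 6) (nat_lit 71) (nat_lit 5) (nat_lit 125) (nat_lit 222) (nat_lit 223)) (PT.lf (nat_lit 5700) (nat_lit 3) (nat_lit 75) (nat_lit 4) (nat_lit 126) (nat_lit 222) (nat_lit 222))) (PT.nd (nat_lit 78) (PT.lf (nat_lit 6004) (nat_lit 6) (nat_lit 79) (nat_lit 4) (nat_lit 127) (nat_lit 222) (nat_lit 221)) (PT.lf (nat_lit 6232) (nat_lit 6) (nat_lit 82) (nat_lit 4) (nat_lit 128) (nat_lit 222) (nat_lit 220))))) (PT.nd (nat_lit 234) (PT.nd (nat_lit 78) (PT.lf (nat_lit 6536) (nat_lit 6) (nat_lit 86) (nat_lit 4) (nat_lit 129) (nat_lit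 222) (nat_lit 219)) (PT.nd (nat_lit 78) (PT.lf (nat_lit 6764) (nat_lit 6) (nat_lit 89) (nat_lit 4) (nat_lit 130) (nat_lit 222) (nat_lit 218)) (PT.lf (nat_lit 7068) (nat_lit 6) (nat_lit 93) (nat_lit 4) (nat_lit 131) (nat_lit 222) (nat_lit 217)))) (PT.nd (nat_lit 156) (PT.nd (nat_lit 78) (PT.lf (nat_lit 7372) (nat_lit 6) (nat_lit 97) (nat_lit 4) (nat_lit 132) (nat_lit 222) (nat_lit 216)) (PT.lf (nat_lit 7676) (nat_lit 6) (nat_lit 101) (nat_lit 4) (nat_lit 133) (nat_lit 222) (nat_lit 215))) (PT.nd (nat_lit 78) (PT.lf (nat_lit 7980) (nat_lit 6) (nat_lit 105) (nat_lit 4) (nat_lit 134) (nat_lit 222) (nat_lit 214)) (PT.lf (nat_lit 8360) (nat_lit 6) (nat_lit 110) (nat_lit 4) (nat_lit 135) (nat_lit 222) (nat_lit 213))))))) (PT.nd (nat_lit 1092) (PT.nd (nat_lit 546) (PT.nd (nat_lit 234) (PT.nd (nat_lit 78) (PT.lf (nat_lit 8360) (nat_lit 6) (nat_lit 110) (nat_lit 2) (nat_lit 213) (nat_lit 222) (nat_lit 135)) (PT.nd (nat_lit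 78) (PT.lf (nat_lit 7980) (nat_lit 6) (nat_lit 105) (nat_lit 2) (nat_lit 214) (nat_lit 222) (nat_lit 134)) (PT.lf (nat_lit 7676) (nat_lit 6) (nat_lit 101) (nat_lit 2) (nat_lit 215) (nat_lit 222) (nat_lit 133)))) (PT.nd (nat_lit 156) (PT.nd (nat_lit 78) (PT.lf (nat_lit 7372) (nat_lit 6) (nat_lit 97) (nat_lit 2) (nat_lit 216) (nat_lit 222) (nat_lit 132)) (PT.lf (nat_lit 7068) (nat_lit 6) (nat_lit 93) (nat_lit 2) (nat_lit 217) (nat_lit 222) (nat_lit 131))) (PT.nd (nat_lit 78) (PT.lf (nat_lit 6764) (nat_lit 6) (nat_lit 89) (nat_lit 2) (nat_lit 218) (nat_lit 222) (nat_lit 130)) (PT.lf (nat_lit 6536) (nat_lit 6) (nat_lit 86) (nat_lit 2) (nat_lit 219) (nat_lit 222) (nat_lit 129))))) (PT.nd (nat_lit 234) (PT.nd (nat_lit 78) (PT.lf (nat_lit 6232) (nat_lit 6) (nat_lit 82) (nat_lit 2) (nat_lit 220) (nat_lit 222) (nat_lit 128)) (PT.nd (nat_lit 78) (PT.lf (nat_lit 6004) (nat_lit 6) (nat_lit 79) (nat_lit 2) (nat_lit 221) (nat_lit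 222) (nat_lit 127)) (PT.lf (nat_lit 5700) (nat_lit 3) (nat_lit 75) (nat_lit 0) (nat_lit 222) (nat_lit 222) (nat_lit 126)))) (PT.nd (nat_lit 156) (PT.nd (nat_lit 78) (PT.lf (nat_lit 5396) (nat_lit 6) (nat_lit 71) (nat_lit 0) (nat_lit 223) (nat_lit 222) (nat_lit 125)) (PT.lf (nat_lit 5092) (nat_lit 6) (nat_lit 67) (nat_lit 0) (nat_lit 224) (nat_lit 222) (nat_lit 124))) (PT.nd (nat_lit 78) (PT.lf (nat_lit 4788) (nat_lit 6) (nat_lit 63) (nat_lit 0) (nat_lit 225) (nat_lit 222) (nat_lit 123)) (PT.lf (nat_lit 4484) (nat_lit 6) (nat_lit 59) (nat_lit 0) (nat_lit 226) (nat_lit 222) (nat_lit 122)))))) (PT.nd (nat_lit 51402) (PT.nd (nat_lit 51090) (PT.nd (nat_lit 50934) (PT.lf (nat_lit 4180) (nat_lit 6) (nat_lit 55) (nat_lit 0) (nat_lit 227) (nat_lit 222) (nat_lit 121)) (PT.nd (nat_lit 78) (PT.lf (nat_lit 3724) (nat_lit 6) (nat_lit 49) (nat_lit 5) (nat_lit 119) (nat_lit 223) (nat_lit 228)) (PT.lf (nat_lit 3952) (nat_lit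 6) (nat_lit 52) (nat_lit 5) (nat_lit 120) (nat_lit 223) (nat_lit 227)))) (PT.nd (nat_lit 156) (PT.nd (nat_lit 78) (PT.lf (nat_lit 4256) (nat_lit 6) (nat_lit 56) (nat_lit 5) (nat_lit 121) (nat_lit 223) (nat_lit 226)) (PT.lf (nat_lit 4560) (nat_lit 6) (nat_lit 60) (nat_lit 5) (nat_lit 122) (nat_lit 223) (nat_lit 225))) (PT.nd (nat_lit 78) (PT.lf (nat_lit 4864) (nat_lit 6) (nat_lit 64) (nat_lit 5) (nat_lit 123) (nat_lit 223) (nat_lit 224)) (PT.lf (nat_lit 5168) (nat_lit 3) (nat_lit 68) (nat_lit 4) (nat_lit 124) (nat_lit 223) (nat_lit 223))))) (PT.nd (nat_lit 312) (PT.nd (nat_lit 156) (PT.nd (nat_lit 78) (PT.lf (nat_lit 5396) (nat_lit 6) (nat_lit 71) (nat_lit 4) (nat_lit 125) (nat_lit 223) (nat_lit 222)) (PT.lf (nat_lit 5624) (nat_lit 6) (nat_lit 74) (nat_lit 4) (nat_lit 126) (nat_lit 223) (nat_lit 221))) (PT.nd (nat_lit 78) (PT.lf (nat_lit 5928) (nat_lit 6) (nat_lit 78) (nat_lit 4) (nat_lit 127) (nat_lit 223) (nat_lit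 220)) (PT.lf (nat_lit 6156) (nat_lit 6) (nat_lit 81) (nat_lit 4) (nat_lit 128) (nat_lit 223) (nat_lit 219)))) (PT.nd (nat_lit 156) (PT.nd (nat_lit 78) (PT.lf (nat_lit 6460) (nat_lit 6) (nat_lit 85) (nat_lit 4) (nat_lit 129) (nat_lit 223) (nat_lit 218)) (PT.lf (nat_lit 6688) (nat_lit 6) (nat_lit 88) (nat_lit 4) (nat_lit 130) (nat_lit 223) (nat_lit 217))) (PT.nd (nat_lit 78) (PT.lf (nat_lit 6992) (nat_lit 6) (nat_lit 92) (nat_lit 4) (nat_lit 131) (nat_lit 223) (nat_lit 216)) (PT.lf (nat_lit 7296) (nat_lit 6) (nat_lit 96) (nat_lit 4) (nat_lit 132) (nat_lit 223) (nat_lit 215))))))))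
noncomputable def pc60 : PT := (PT.nd (nat_lit 59670) (PT.nd (nat_lit 51792) (PT.nd (nat_lit 546) (PT.nd (nat_lit 234) (PT.nd (nat_lit 78) (PT.lf (nat_lit 7296) (nat_lit 6) (nat_lit 96) (nat_lit 2) (nat_lit 215) (nat_lit 223) (nat_lit 132)) (PT.nd (nat_lit 78) (PT.lf (nat_lit 6992) (nat_lit 6) (nat_lit 92) (nat_lit 2) (nat_lit 216) (nat_lit 223) (nat_lit 131)) (PT.lf (nat_lit 6688) (nat_lit 6) (nat_lit 88) (nat_lit 2) (nat_lit 217) (nat_lit 223) (nat_lit 130)))) (PT.nd (nat_lit 156) (PT.nd (nat_lit 78) (PT.lf (nat_lit 6460) (nat_lit 6) (nat_lit 85) (nat_lit 2) (nat_lit 218) (nat_lit 223) (nat_lit 129)) (PT.lf (nat_lit 6156) (nat_lit 6) (nat_lit 81) (nat_lit 2) (nat_lit 219) (nat_lit 223) (nat_lit 128))) (PT.nd (nat_lit 78) (PT.lf (nat_lit 5928) (nat_lit 6) (nat_lit 78) (nat_lit 2) (nat_lit 220) (nat_lit 223) (nat_lit 127)) (PT.lf (nat_lit 5624) (nat_lit 6) (nat_lit 74) (nat_lit 2) (nat_lit 221) (nat_lit 223)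 (nat_lit 126))))) (PT.nd (nat_lit 234) (PT.nd (nat_lit 78) (PT.lf (nat_lit 5396) (nat_lit 6) (nat_lit 71) (nat_lit 2) (nat_lit 222) (nat_lit 223) (nat_lit 125)) (PT.nd (nat_lit 78) (PT.lf (nat_lit 5168) (nat_lit 3) (nat_lit 68) (nat_lit 0) (nat_lit 223) (nat_lit 223) (nat_lit 124)) (PT.lf (nat_lit 4864) (nat_lit 6) (nat_lit 64) (nat_lit 0) (nat_lit 224) (nat_lit 223) (nat_lit 123)))) (PT.nd (nat_lit 156) (PT.nd (nat_lit 78) (PT.lf (nat_lit 4560) (nat_lit 6) (nat_lit 60) (nat_lit 0) (nat_lit 225) (nat_lit 223) (nat_lit 122)) (PT.lf (nat_lit 4256) (nat_lit 6) (nat_lit 56) (nat_lit 0) (nat_lit 226) (nat_lit 223) (nat_lit 121))) (PT.nd (nat_lit 78) (PT.lf (nat_lit 3952) (nat_lit 6) (nat_lit 52) (nat_lit 0) (nat_lit 227) (nat_lit 223) (nat_lit 120)) (PT.lf (nat_lit 3724) (nat_lit 6) (nat_lit 49) (nat_lit 0) (nat_lit 228) (nat_lit 223) (nat_lit 119)))))) (PT.nd (nat_lit 546) (PT.nd (nat_lit 234) (PT.nd (nat_lit 78)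 (PT.lf (nat_lit 3496) (nat_lit 6) (nat_lit 46) (nat_lit 5) (nat_lit 118) (nat_lit 224) (nat_lit 228)) (PT.nd (nat_lit 78) (PT.lf (nat_lit 3800) (nat_lit 6) (nat_lit 50) (nat_lit 5) (nat_lit 119) (nat_lit 224) (nat_lit 227)) (PT.lf (nat_lit 4028) (nat_lit 6) (nat_lit 53) (nat_lit 5) (nat_lit 120) (nat_lit 224) (nat_lit 226)))) (PT.nd (nat_lit 156) (PT.nd (nat_lit 78) (PT.lf (nat_lit 4332) (nat_lit 6) (nat_lit 57) (nat_lit 5) (nat_lit 121) (nat_lit 224) (nat_lit 225)) (PT.lf (nat_lit 4636) (nat_lit 3) (nat_lit 61) (nat_lit 4) (nat_lit 122) (nat_lit 224) (nat_lit 224))) (PT.nd (nat_lit 78) (PT.lf (nat_lit 4864) (nat_lit 6) (nat_lit 64) (nat_lit 4) (nat_lit 123) (nat_lit 224) (nat_lit 223)) (PT.lf (nat_lit 5092) (nat_lit 6) (nat_lit 67) (nat_lit 4) (nat_lit 124) (nat_lit 224) (nat_lit 222))))) (PT.nd (nat_lit 234) (PT.nd (nat_lit 78) (PT.lf (nat_lit 5320) (nat_lit 6) (nat_lit 70) (nat_lit 4) (nat_lit 125) (nat_lit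 224) (nat_lit 221)) (PT.nd (nat_lit 78) (PT.lf (nat_lit 5548) (nat_lit 6) (nat_lit 73) (nat_lit 4) (nat_lit 126) (nat_lit 224) (nat_lit 220)) (PT.lf (nat_lit 5852) (nat_lit 6) (nat_lit 77) (nat_lit 4) (nat_lit 127) (nat_lit 224) (nat_lit 219)))) (PT.nd (nat_lit 6942) (PT.nd (nat_lit 78) (PT.lf (nat_lit 6080) (nat_lit 6) (nat_lit 80) (nat_lit 4) (nat_lit 128) (nat_lit 224) (nat_lit 218)) (PT.lf (nat_lit 6384) (nat_lit 6) (nat_lit 84) (nat_lit 4) (nat_lit 129) (nat_lit 224) (nat_lit 217))) (PT.nd (nat_lit 78) (PT.lf (nat_lit 6384) (nat_lit 6) (nat_lit 84) (nat_lit 2) (nat_lit 217) (nat_lit 224) (nat_lit 129)) (PT.lf (nat_lit 6080) (nat_lit 6) (nat_lit 80) (nat_lit 2) (nat_lit 218) (nat_lit 224) (nat_lit 128))))))) (PT.nd (nat_lit 51636) (PT.nd (nat_lit 546) (PT.nd (nat_lit 234) (PT.nd (nat_lit 78) (PT.lf (nat_lit 5852) (nat_lit 6) (nat_lit 77) (nat_lit 2) (nat_lit 219) (nat_lit 224) (nat_lit 127)) (PT.nd (nat_lit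 78) (PT.lf (nat_lit 5548) (nat_lit 6) (nat_lit 73) (nat_lit 2) (nat_lit 220) (nat_lit 224) (nat_lit 126)) (PT.lf (nat_lit 5320) (nat_lit 6) (nat_lit 70) (nat_lit 2) (nat_lit 221) (nat_lit 224) (nat_lit 125)))) (PT.nd (nat_lit 156) (PT.nd (nat_lit 78) (PT.lf (nat_lit 5092) (nat_lit 6) (nat_lit 67) (nat_lit 2) (nat_lit 222) (nat_lit 224) (nat_lit 124)) (PT.lf (nat_lit 4864) (nat_lit 6) (nat_lit 64) (nat_lit 2) (nat_lit 223) (nat_lit 224) (nat_lit 123))) (PT.nd (nat_lit 78) (PT.lf (nat_lit 4636) (nat_lit 3) (nat_lit 61) (nat_lit 0) (nat_lit 224) (nat_lit 224) (nat_lit 122)) (PT.lf (nat_lit 4332) (nat_lit 6) (nat_lit 57) (nat_lit 0) (nat_lit 225) (nat_lit 224) (nat_lit 121))))) (PT.nd (nat_lit 50778) (PT.nd (nat_lit 78) (PT.lf (nat_lit 4028) (nat_lit 6) (nat_lit 53) (nat_lit 0) (nat_lit 226) (nat_lit 224) (nat_lit 120)) (PT.nd (nat_lit 78) (PT.lf (nat_lit 3800) (nat_lit 6) (nat_lit 50) (nat_lit 0) (nat_lit 227) (nat_lit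 224) (nat_lit 119)) (PT.lf (nat_lit 3496) (nat_lit 6) (nat_lit 46) (nat_lit 0) (nat_lit 228) (nat_lit 224) (nat_lit 118)))) (PT.nd (nat_lit 156) (PT.nd (nat_lit 78) (PT.lf (nat_lit 3040) (nat_lit 6) (nat_lit 40) (nat_lit 5) (nat_lit 116) (nat_lit 225) (nat_lit 229)) (PT.lf (nat_lit 3344) (nat_lit 6) (nat_lit 44) (nat_lit 5) (nat_lit 117) (nat_lit 225) (nat_lit 228))) (PT.nd (nat_lit 78) (PT.lf (nat_lit 3572) (nat_lit 6) (nat_lit 47) (nat_lit 5) (nat_lit 118) (nat_lit 225) (nat_lit 227)) (PT.lf (nat_lit 3876) (nat_lit 6) (nat_lit 51) (nat_lit 5) (nat_lit 119) (nat_lit 225) (nat_lit 226)))))) (PT.nd (nat_lit 7722) (PT.nd (nat_lit 234) (PT.nd (nat_lit 78) (PT.lf (nat_lit 4104) (nat_lit 3) (nat_lit 54) (nat_lit 4) (nat_lit 120) (nat_lit 225) (nat_lit 225)) (PT.nd (nat_lit 78) (PT.lf (nat_lit 4332) (nat_lit 6) (nat_lit 57) (nat_lit 4) (nat_lit 121) (nat_lit 225) (nat_lit 224)) (PT.lf (nat_lit 4560) (nat_lit 6) (nat_lit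 60) (nat_lit 4) (nat_lit 122) (nat_lit 225) (nat_lit 223)))) (PT.nd (nat_lit 156) (PT.nd (nat_lit 78) (PT.lf (nat_lit 4788) (nat_lit 6) (nat_lit 63) (nat_lit 4) (nat_lit 123) (nat_lit 225) (nat_lit 222)) (PT.lf (nat_lit 5016) (nat_lit 6) (nat_lit 66) (nat_lit 4) (nat_lit 124) (nat_lit 225) (nat_lit 221))) (PT.nd (nat_lit 78) (PT.lf (nat_lit 5244) (nat_lit 6) (nat_lit 69) (nat_lit 4) (nat_lit 125) (nat_lit 225) (nat_lit 220)) (PT.lf (nat_lit 5472) (nat_lit 6) (nat_lit 72) (nat_lit 4) (nat_lit 126) (nat_lit 225) (nat_lit 219))))) (PT.nd (nat_lit 312) (PT.nd (nat_lit 156) (PT.nd (nat_lit 78) (PT.lf (nat_lit 5472) (nat_lit 6) (nat_lit 72) (nat_lit 2) (nat_lit 219) (nat_lit 225) (nat_lit 126)) (PT.lf (nat_lit 5244) (nat_lit 6) (nat_lit 69) (nat_lit 2) (nat_lit 220) (nat_lit 225) (nat_lit 125))) (PT.nd (nat_lit 78) (PT.lf (nat_lit 5016) (nat_lit 6) (nat_lit 66) (nat_lit 2) (nat_lit 221) (nat_lit 225) (nat_lit 124))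 (PT.lf (nat_lit 4788) (nat_lit 6) (nat_lit 63) (nat_lit 2) (nat_lit 222) (nat_lit 225) (nat_lit 123)))) (PT.nd (nat_lit 156) (PT.nd (nat_lit 78) (PT.lf (nat_lit 4560) (nat_lit 6) (nat_lit 60) (nat_lit 2) (nat_lit 223) (nat_lit 225) (nat_lit 122)) (PT.lf (nat_lit 4332) (nat_lit 6) (nat_lit 57) (nat_lit 2) (nat_lit 224) (nat_lit 225) (nat_lit 121))) (PT.nd (nat_lit 78) (PT.lf (nat_lit 4104) (nat_lit 3) (nat_lit 54) (nat_lit 0) (nat_lit 225) (nat_lit 225) (nat_lit 120)) (PT.lf (nat_lit 3876) (nat_lit 6) (nat_lit 51) (nat_lit 0) (nat_lit 226) (nat_lit 225) (nat_lit 119))))))))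
noncomputable def pc61 : PT := (PT.nd (nat_lit 109980) (PT.nd (nat_lit 58812) (PT.nd (nat_lit 50856) (PT.nd (nat_lit 50544) (PT.nd (nat_lit 78) (PT.lf (nat_lit 3572) (nat_lit 6) (nat_lit 47) (nat_lit 0) (nat_lit 227) (nat_lit 225) (nat_lit 118)) (PT.nd (nat_lit 78) (PT.lf (nat_lit 3344) (nat_lit 6) (nat_lit 44) (nat_lit 0) (nat_lit 228) (nat_lit 225) (nat_lit 117)) (PT.lf (nat_lit 3040) (nat_lit 6) (nat_lit 40) (nat_lit 0) (nat_lit 229) (nat_lit 225) (nat_lit 116)))) (PT.nd (nat_lit 156) (PT.nd (nat_lit 78) (PT.lf (nat_lit 2660) (nat_lit 6) (nat_lit 35) (nat_lit 5) (nat_lit 114) (nat_lit 226) (nat_lit 230)) (PT.lf (nat_lit 2888) (nat_lit 6) (nat_lit 38) (nat_lit 5) (nat_lit 115) (nat_lit 226) (nat_lit 229))) (PT.nd (nat_lit 78) (PT.lf (nat_lit 3116) (nat_lit 6) (nat_lit 41) (nat_lit 5) (nat_lit 116) (nat_lit 226) (nat_lit 228)) (PT.lf (nat_lit 3420) (nat_lit 6) (nat_lit 45) (nat_lit 5) (nat_lit 117) (nat_lit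 226) (nat_lit 227))))) (PT.nd (nat_lit 234) (PT.nd (nat_lit 78) (PT.lf (nat_lit 3648) (nat_lit 3) (nat_lit 48) (nat_lit 4) (nat_lit 118) (nat_lit 226) (nat_lit 226)) (PT.nd (nat_lit 78) (PT.lf (nat_lit 3876) (nat_lit 6) (nat_lit 51) (nat_lit 4) (nat_lit 119) (nat_lit 226) (nat_lit 225)) (PT.lf (nat_lit 4028) (nat_lit 6) (nat_lit 53) (nat_lit 4) (nat_lit 120) (nat_lit 226) (nat_lit 224)))) (PT.nd (nat_lit 156) (PT.nd (nat_lit 78) (PT.lf (nat_lit 4256) (nat_lit 6) (nat_lit 56) (nat_lit 4) (nat_lit 121) (nat_lit 226) (nat_lit 223)) (PT.lf (nat_lit 4484) (nat_lit 6) (nat_lit 59) (nat_lit 4) (nat_lit 122) (nat_lit 226) (nat_lit 222))) (PT.nd (nat_lit 78) (PT.lf (nat_lit 4712) (nat_lit 6) (nat_lit 62) (nat_lit 4) (nat_lit 123) (nat_lit 226) (nat_lit 221)) (PT.lf (nat_lit 4940) (nat_lit 6) (nat_lit 65) (nat_lit 4) (nat_lit 124) (nat_lit 226) (nat_lit 220)))))) (PT.nd (nat_lit 546) (PT.nd (nat_lit 234) (PT.nd (nat_lit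 78) (PT.lf (nat_lit 4940) (nat_lit 6) (nat_lit 65) (nat_lit 2) (nat_lit 220) (nat_lit 226) (nat_lit 124)) (PT.nd (nat_lit 78) (PT.lf (nat_lit 4712) (nat_lit 6) (nat_lit 62) (nat_lit 2) (nat_lit 221) (nat_lit 226) (nat_lit 123)) (PT.lf (nat_lit 4484) (nat_lit 6) (nat_lit 59) (nat_lit 2) (nat_lit 222) (nat_lit 226) (nat_lit 122)))) (PT.nd (nat_lit 156) (PT.nd (nat_lit 78) (PT.lf (nat_lit 4256) (nat_lit 6) (nat_lit 56) (nat_lit 2) (nat_lit 223) (nat_lit 226) (nat_lit 121)) (PT.lf (nat_lit 4028) (nat_lit 6) (nat_lit 53) (nat_lit 2) (nat_lit 224) (nat_lit 226) (nat_lit 120))) (PT.nd (nat_lit 78) (PT.lf (nat_lit 3876) (nat_lit 6) (nat_lit 51) (nat_lit 2) (nat_lit 225) (nat_lit 226) (nat_lit 119)) (PT.lf (nat_lit 3648) (nat_lit 3) (nat_lit 48) (nat_lit 0) (nat_lit 226) (nat_lit 226) (nat_lit 118))))) (PT.nd (nat_lit 234) (PT.nd (nat_lit 78) (PT.lf (nat_lit 3420) (nat_lit 6) (nat_lit 45) (nat_lit 0) (nat_lit 227) (nat_lit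 226) (nat_lit 117)) (PT.nd (nat_lit 78) (PT.lf (nat_lit 3116) (nat_lit 6) (nat_lit 41) (nat_lit 0) (nat_lit 228) (nat_lit 226) (nat_lit 116)) (PT.lf (nat_lit 2888) (nat_lit 6) (nat_lit 38) (nat_lit 0) (nat_lit 229) (nat_lit 226) (nat_lit 115)))) (PT.nd (nat_lit 50232) (PT.nd (nat_lit 50154) (PT.lf (nat_lit 2660) (nat_lit 6) (nat_lit 35) (nat_lit 0) (nat_lit 230) (nat_lit 226) (nat_lit 114)) (PT.lf (nat_lit 2280) (nat_lit 6) (nat_lit 30) (nat_lit 5) (nat_lit 112) (nat_lit 227) (nat_lit 231))) (PT.nd (nat_lit 78) (PT.lf (nat_lit 2508) (nat_lit 6) (nat_lit 33) (nat_lit 5) (nat_lit 113) (nat_lit 227) (nat_lit 230)) (PT.lf (nat_lit 2736) (nat_lit 6) (nat_lit 36) (nat_lit 5) (nat_lit 114) (nat_lit 227) (nat_lit 229))))))) (PT.nd (nat_lit 8892) (PT.nd (nat_lit 8346) (PT.nd (nat_lit 234) (PT.nd (nat_lit 78) (PT.lf (nat_lit 2964) (nat_lit 6) (nat_lit 39) (nat_lit 5) (nat_lit 115) (nat_lit 227) (nat_lit 228)) (PT.nd (nat_lit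 78) (PT.lf (nat_lit 3192) (nat_lit 3) (nat_lit 42) (nat_lit 4) (nat_lit 116) (nat_lit 227) (nat_lit 227)) (PT.lf (nat_lit 3420) (nat_lit 6) (nat_lit 45) (nat_lit 4) (nat_lit 117) (nat_lit 227) (nat_lit 226)))) (PT.nd (nat_lit 156) (PT.nd (nat_lit 78) (PT.lf (nat_lit 3572) (nat_lit 6) (nat_lit 47) (nat_lit 4) (nat_lit 118) (nat_lit 227) (nat_lit 225)) (PT.lf (nat_lit 3800) (nat_lit 6) (nat_lit 50) (nat_lit 4) (nat_lit 119) (nat_lit 227) (nat_lit 224))) (PT.nd (nat_lit 78) (PT.lf (nat_lit 3952) (nat_lit 6) (nat_lit 52) (nat_lit 4) (nat_lit 120) (nat_lit 227) (nat_lit 223)) (PT.lf (nat_lit 4180) (nat_lit 6) (nat_lit 55) (nat_lit 4) (nat_lit 121) (nat_lit 227) (nat_lit 222))))) (PT.nd (nat_lit 234) (PT.nd (nat_lit 78) (PT.lf (nat_lit 4180) (nat_lit 6) (nat_lit 55) (nat_lit 2) (nat_lit 222) (nat_lit 227) (nat_lit 121)) (PT.nd (nat_lit 78) (PT.lf (nat_lit 3952) (nat_lit 6) (nat_lit 52) (nat_lit 2) (nat_lit 223) (nat_lit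 227) (nat_lit 120)) (PT.lf (nat_lit 3800) (nat_lit 6) (nat_lit 50) (nat_lit 2) (nat_lit 224) (nat_lit 227) (nat_lit 119)))) (PT.nd (nat_lit 156) (PT.nd (nat_lit 78) (PT.lf (nat_lit 3572) (nat_lit 6) (nat_lit 47) (nat_lit 2) (nat_lit 225) (nat_lit 227) (nat_lit 118)) (PT.lf (nat_lit 3420) (nat_lit 6) (nat_lit 45) (nat_lit 2) (nat_lit 226) (nat_lit 227) (nat_lit 117))) (PT.nd (nat_lit 78) (PT.lf (nat_lit 3192) (nat_lit 3) (nat_lit 42) (nat_lit 0) (nat_lit 227) (nat_lit 227) (nat_lit 116)) (PT.lf (nat_lit 2964) (nat_lit 6) (nat_lit 39) (nat_lit 0) (nat_lit 228) (nat_lit 227) (nat_lit 115)))))) (PT.nd (nat_lit 50466) (PT.nd (nat_lit 50154) (PT.nd (nat_lit 78) (PT.lf (nat_lit 2736) (nat_lit 6) (nat_lit 36) (nat_lit 0) (nat_lit 229) (nat_lit 227) (nat_lit 114)) (PT.nd (nat_lit 78) (PT.lf (nat_lit 2508) (nat_lit 6) (nat_lit 33) (nat_lit 0) (nat_lit 230) (nat_lit 227) (nat_lit 113)) (PT.lf (nat_lit 2280) (nat_lit 6)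 (nat_lit 30) (nat_lit 0) (nat_lit 231) (nat_lit 227) (nat_lit 112)))) (PT.nd (nat_lit 156) (PT.nd (nat_lit 78) (PT.lf (nat_lit 2128) (nat_lit 6) (nat_lit 28) (nat_lit 5) (nat_lit 111) (nat_lit 228) (nat_lit 231)) (PT.lf (nat_lit 2356) (nat_lit 6) (nat_lit 31) (nat_lit 5) (nat_lit 112) (nat_lit 228) (nat_lit 230))) (PT.nd (nat_lit 78) (PT.lf (nat_lit 2584) (nat_lit 6) (nat_lit 34) (nat_lit 5) (nat_lit 113) (nat_lit 228) (nat_lit 229)) (PT.lf (nat_lit 2812) (nat_lit 3) (nat_lit 37) (nat_lit 4) (nat_lit 114) (nat_lit 228) (nat_lit 228))))) (PT.nd (nat_lit 312) (PT.nd (nat_lit 156) (PT.nd (nat_lit 78) (PT.lf (nat_lit 2964) (nat_lit 6) (nat_lit 39) (nat_lit 4) (nat_lit 115) (nat_lit 228) (nat_lit 227)) (PT.lf (nat_lit 3116) (nat_lit 6) (nat_lit 41) (nat_lit 4) (nat_lit 116) (nat_lit 228) (nat_lit 226))) (PT.nd (nat_lit 78) (PT.lf (nat_lit 3344) (nat_lit 6) (nat_lit 44) (nat_lit 4) (nat_lit 117) (nat_lit 228) (nat_lit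 225)) (PT.lf (nat_lit 3496) (nat_lit 6) (nat_lit 46) (nat_lit 4) (nat_lit 118) (nat_lit 228) (nat_lit 224)))) (PT.nd (nat_lit 8190) (PT.nd (nat_lit 8112) (PT.lf (nat_lit 3724) (nat_lit 6) (nat_lit 49) (nat_lit 4) (nat_lit 119) (nat_lit 228) (nat_lit 223)) (PT.lf (nat_lit 3724) (nat_lit 6) (nat_lit 49) (nat_lit 2) (nat_lit 223) (nat_lit 228) (nat_lit 119))) (PT.nd (nat_lit 78) (PT.lf (nat_lit 3496) (nat_lit 6) (nat_lit 46) (nat_lit 2) (nat_lit 224) (nat_lit 228) (nat_lit 118)) (PT.lf (nat_lit 3344) (nat_lit 6) (nat_lit 44) (nat_lit 2) (nat_lit 225) (nat_lit 228) (nat_lit 117))))))))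
noncomputable def pc62 : PT := (PT.nd (nat_lit 109902) (PT.nd (nat_lit 59280) (PT.nd (nat_lit 50310) (PT.nd (nat_lit 234) (PT.nd (nat_lit 78) (PT.lf (nat_lit 3116) (nat_lit 6) (nat_lit 41) (nat_lit 2) (nat_lit 226) (nat_lit 228) (nat_lit 116)) (PT.nd (nat_lit 78) (PT.lf (nat_lit 2964) (nat_lit 6) (nat_lit 39) (nat_lit 2) (nat_lit 227) (nat_lit 228) (nat_lit 115)) (PT.lf (nat_lit 2812) (nat_lit 3) (nat_lit 37) (nat_lit 0) (nat_lit 228) (nat_lit 228) (nat_lit 114)))) (PT.nd (nat_lit 156) (PT.nd (nat_lit 78) (PT.lf (nat_lit 2584) (nat_lit 6) (nat_lit 34) (nat_lit 0) (nat_lit 229) (nat_lit 228) (nat_lit 113)) (PT.lf (nat_lit 2356) (nat_lit 6) (nat_lit 31) (nat_lit 0) (nat_lit 230) (nat_lit 228) (nat_lit 112))) (PT.nd (nat_lit 49842) (PT.lf (nat_lit 2128) (nat_lit 6) (nat_lit 28) (nat_lit 0) (nat_lit 231) (nat_lit 228) (nat_lit 111)) (PT.lf (nat_lit 1824) (nat_lit 6) (nat_lit 24) (nat_lit 5) (nat_lit 109) (nat_lit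 229) (nat_lit 232))))) (PT.nd (nat_lit 234) (PT.nd (nat_lit 78) (PT.lf (nat_lit 1976) (nat_lit 6) (nat_lit 26) (nat_lit 5) (nat_lit 110) (nat_lit 229) (nat_lit 231)) (PT.nd (nat_lit 78) (PT.lf (nat_lit 2204) (nat_lit 6) (nat_lit 29) (nat_lit 5) (nat_lit 111) (nat_lit 229) (nat_lit 230)) (PT.lf (nat_lit 2432) (nat_lit 3) (nat_lit 32) (nat_lit 4) (nat_lit 112) (nat_lit 229) (nat_lit 229)))) (PT.nd (nat_lit 156) (PT.nd (nat_lit 78) (PT.lf (nat_lit 2584) (nat_lit 6) (nat_lit 34) (nat_lit 4) (nat_lit 113) (nat_lit 229) (nat_lit 228)) (PT.lf (nat_lit 2736) (nat_lit 6) (nat_lit 36) (nat_lit 4) (nat_lit 114) (nat_lit 229) (nat_lit 227))) (PT.nd (nat_lit 78) (PT.lf (nat_lit 2888) (nat_lit 6) (nat_lit 38) (nat_lit 4) (nat_lit 115) (nat_lit 229) (nat_lit 226)) (PT.lf (nat_lit 3040) (nat_lit 6) (nat_lit 40) (nat_lit 4) (nat_lit 116) (nat_lit 229) (nat_lit 225)))))) (PT.nd (nat_lit 546) (PT.nd (nat_lit 234) (PT.nd (nat_lit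 78) (PT.lf (nat_lit 3040) (nat_lit 6) (nat_lit 40) (nat_lit 2) (nat_lit 225) (nat_lit 229) (nat_lit 116)) (PT.nd (nat_lit 78) (PT.lf (nat_lit 2888) (nat_lit 6) (nat_lit 38) (nat_lit 2) (nat_lit 226) (nat_lit 229) (nat_lit 115)) (PT.lf (nat_lit 2736) (nat_lit 6) (nat_lit 36) (nat_lit 2) (nat_lit 227) (nat_lit 229) (nat_lit 114)))) (PT.nd (nat_lit 156) (PT.nd (nat_lit 78) (PT.lf (nat_lit 2584) (nat_lit 6) (nat_lit 34) (nat_lit 2) (nat_lit 228) (nat_lit 229) (nat_lit 113)) (PT.lf (nat_lit 2432) (nat_lit 3) (nat_lit 32) (nat_lit 0) (nat_lit 229) (nat_lit 229) (nat_lit 112))) (PT.nd (nat_lit 78) (PT.lf (nat_lit 2204) (nat_lit 6) (nat_lit 29) (nat_lit 0) (nat_lit 230) (nat_lit 229) (nat_lit 111)) (PT.lf (nat_lit 1976) (nat_lit 6) (nat_lit 26) (nat_lit 0) (nat_lit 231) (nat_lit 229) (nat_lit 110))))) (PT.nd (nat_lit 49764) (PT.nd (nat_lit 49608) (PT.lf (nat_lit 1824) (nat_lit 6) (nat_lit 24) (nat_lit 0) (nat_lit 232)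 (nat_lit 229) (nat_lit 109)) (PT.nd (nat_lit 78) (PT.lf (nat_lit 1520) (nat_lit 6) (nat_lit 20) (nat_lit 5) (nat_lit 107) (nat_lit 230) (nat_lit 233)) (PT.lf (nat_lit 1672) (nat_lit 6) (nat_lit 22) (nat_lit 5) (nat_lit 108) (nat_lit 230) (nat_lit 232)))) (PT.nd (nat_lit 156) (PT.nd (nat_lit 78) (PT.lf (nat_lit 1900) (nat_lit 6) (nat_lit 25) (nat_lit 5) (nat_lit 109) (nat_lit 230) (nat_lit 231)) (PT.lf (nat_lit 2052) (nat_lit 3) (nat_lit 27) (nat_lit 4) (nat_lit 110) (nat_lit 230) (nat_lit 230))) (PT.nd (nat_lit 78) (PT.lf (nat_lit 2204) (nat_lit 6) (nat_lit 29) (nat_lit 4) (nat_lit 111) (nat_lit 230) (nat_lit 229)) (PT.lf (nat_lit 2356) (nat_lit 6) (nat_lit 31) (nat_lit 4) (nat_lit 112) (nat_lit 230) (nat_lit 228))))))) (PT.nd (nat_lit 59046) (PT.nd (nat_lit 9204) (PT.nd (nat_lit 8892) (PT.nd (nat_lit 78) (PT.lf (nat_lit 2508) (nat_lit 6) (nat_lit 33) (nat_lit 4) (nat_lit 113) (nat_lit 230) (nat_lit 227)) (PT.nd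 (nat_lit 8736) (PT.lf (nat_lit 2660) (nat_lit 6) (nat_lit 35) (nat_lit 4) (nat_lit 114) (nat_lit 230) (nat_lit 226)) (PT.lf (nat_lit 2660) (nat_lit 6) (nat_lit 35) (nat_lit 2) (nat_lit 226) (nat_lit 230) (nat_lit 114)))) (PT.nd (nat_lit 156) (PT.nd (nat_lit 78) (PT.lf (nat_lit 2508) (nat_lit 6) (nat_lit 33) (nat_lit 2) (nat_lit 227) (nat_lit 230) (nat_lit 113)) (PT.lf (nat_lit 2356) (nat_lit 6) (nat_lit 31) (nat_lit 2) (nat_lit 228) (nat_lit 230) (nat_lit 112))) (PT.nd (nat_lit 78) (PT.lf (nat_lit 2204) (nat_lit 6) (nat_lit 29) (nat_lit 2) (nat_lit 229) (nat_lit 230) (nat_lit 111)) (PT.lf (nat_lit 2052) (nat_lit 3) (nat_lit 27) (nat_lit 0) (nat_lit 230) (nat_lit 230) (nat_lit 110))))) (PT.nd (nat_lit 49530) (PT.nd (nat_lit 78) (PT.lf (nat_lit 1900) (nat_lit 6) (nat_lit 25) (nat_lit 0) (nat_lit 231) (nat_lit 230) (nat_lit 109)) (PT.nd (nat_lit 78) (PT.lf (nat_lit 1672) (nat_lit 6) (nat_lit 22) (nat_lit 0) (nat_lit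 232) (nat_lit 230) (nat_lit 108)) (PT.lf (nat_lit 1520) (nat_lit 6) (nat_lit 20) (nat_lit 0) (nat_lit 233) (nat_lit 230) (nat_lit 107)))) (PT.nd (nat_lit 156) (PT.nd (nat_lit 78) (PT.lf (nat_lit 1216) (nat_lit 6) (nat_lit 16) (nat_lit 5) (nat_lit 105) (nat_lit 231) (nat_lit 234)) (PT.lf (nat_lit 1368) (nat_lit 6) (nat_lit 18) (nat_lit 5) (nat_lit 106) (nat_lit 231) (nat_lit 233))) (PT.nd (nat_lit 78) (PT.lf (nat_lit 1596) (nat_lit 6) (nat_lit 21) (nat_lit 5) (nat_lit 107) (nat_lit 231) (nat_lit 232)) (PT.lf (nat_lit 1748) (nat_lit 3) (nat_lit 23) (nat_lit 4) (nat_lit 108) (nat_lit 231) (nat_lit 231)))))) (PT.nd (nat_lit 9438) (PT.nd (nat_lit 234) (PT.nd (nat_lit 78) (PT.lf (nat_lit 1900) (nat_lit 6) (nat_lit 25) (nat_lit 4) (nat_lit 109) (nat_lit 231) (nat_lit 230)) (PT.nd (nat_lit 78) (PT.lf (nat_lit 1976) (nat_lit 6) (nat_lit 26) (nat_lit 4) (nat_lit 110) (nat_lit 231) (nat_lit 229)) (PT.lf (nat_lit 2128) (nat_lit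 6) (nat_lit 28) (nat_lit 4) (nat_lit 111) (nat_lit 231) (nat_lit 228)))) (PT.nd (nat_lit 9048) (PT.nd (nat_lit 8970) (PT.lf (nat_lit 2280) (nat_lit 6) (nat_lit 30) (nat_lit 4) (nat_lit 112) (nat_lit 231) (nat_lit 227)) (PT.lf (nat_lit 2280) (nat_lit 6) (nat_lit 30) (nat_lit 2) (nat_lit 227) (nat_lit 231) (nat_lit 112))) (PT.nd (nat_lit 78) (PT.lf (nat_lit 2128) (nat_lit 6) (nat_lit 28) (nat_lit 2) (nat_lit 228) (nat_lit 231) (nat_lit 111)) (PT.lf (nat_lit 1976) (nat_lit 6) (nat_lit 26) (nat_lit 2) (nat_lit 229) (nat_lit 231) (nat_lit 110))))) (PT.nd (nat_lit 312) (PT.nd (nat_lit 156) (PT.nd (nat_lit 78) (PT.lf (nat_lit 1900) (nat_lit 6) (nat_lit 25) (nat_lit 2) (nat_lit 230) (nat_lit 231) (nat_lit 109)) (PT.lf (nat_lit 1748) (nat_lit 3) (nat_lit 23) (nat_lit 0) (nat_lit 231) (nat_lit 231) (nat_lit 108))) (PT.nd (nat_lit 78) (PT.lf (nat_lit 1596) (nat_lit 6) (nat_lit 21) (nat_lit 0) (nat_lit 232) (nat_lit 231)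 (nat_lit 107)) (PT.lf (nat_lit 1368) (nat_lit 6) (nat_lit 18) (nat_lit 0) (nat_lit 233) (nat_lit 231) (nat_lit 106)))) (PT.nd (nat_lit 49296) (PT.nd (nat_lit 49218) (PT.lf (nat_lit 1216) (nat_lit 6) (nat_lit 16) (nat_lit 0) (nat_lit 234) (nat_lit 231) (nat_lit 105)) (PT.lf (nat_lit 1064) (nat_lit 6) (nat_lit 14) (nat_lit 5) (nat_lit 104) (nat_lit 232) (nat_lit 234))) (PT.nd (nat_lit 78) (PT.lf (nat_lit 1292) (nat_lit 6) (nat_lit 17) (nat_lit 5) (nat_lit 105) (nat_lit 232) (nat_lit 233)) (PT.lf (nat_lit 1444) (nat_lit 3) (nat_lit 19) (nat_lit 4) (nat_lit 106) (nat_lit 232) (nat_lit 232))))))))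
noncomputable def pc63 : PT := (PT.nd (nat_lit 128466) (PT.nd (nat_lit 59358) (PT.nd (nat_lit 9828) (PT.nd (nat_lit 9516) (PT.nd (nat_lit 78) (PT.lf (nat_lit 1596) (nat_lit 6) (nat_lit 21) (nat_lit 4) (nat_lit 107) (nat_lit 232) (nat_lit 231)) (PT.nd (nat_lit 78) (PT.lf (nat_lit 1672) (nat_lit 6) (nat_lit 22) (nat_lit 4) (nat_lit 108) (nat_lit 232) (nat_lit 230)) (PT.lf (nat_lit 1824) (nat_lit 6) (nat_lit 24) (nat_lit 4) (nat_lit 109) (nat_lit 232) (nat_lit 229)))) (PT.nd (nat_lit 156) (PT.nd (nat_lit 78) (PT.lf (nat_lit 1824) (nat_lit 6) (nat_lit 24) (nat_lit 2) (nat_lit 229) (nat_lit 232) (nat_lit 109)) (PT.lf (nat_lit 1672) (nat_lit 6) (nat_lit 22) (nat_lit 2) (nat_lit 230) (nat_lit 232) (nat_lit 108))) (PT.nd (nat_lit 78) (PT.lf (nat_lit 1596) (nat_lit 6) (nat_lit 21) (nat_lit 2) (nat_lit 231) (nat_lit 232) (nat_lit 107)) (PT.lf (nat_lit 1444) (nat_lit 3) (nat_lit 19) (nat_lit 0) (nat_lit 232) (nat_lit 232)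 (nat_lit 106))))) (PT.nd (nat_lit 49218) (PT.nd (nat_lit 78) (PT.lf (nat_lit 1292) (nat_lit 6) (nat_lit 17) (nat_lit 0) (nat_lit 233) (nat_lit 232) (nat_lit 105)) (PT.nd (nat_lit 49062) (PT.lf (nat_lit 1064) (nat_lit 6) (nat_lit 14) (nat_lit 0) (nat_lit 234) (nat_lit 232) (nat_lit 104)) (PT.lf (nat_lit 760) (nat_lit 6) (nat_lit 10) (nat_lit 5) (nat_lit 102) (nat_lit 233) (nat_lit 235)))) (PT.nd (nat_lit 156) (PT.nd (nat_lit 78) (PT.lf (nat_lit 988) (nat_lit 6) (nat_lit 13) (nat_lit 5) (nat_lit 103) (nat_lit 233) (nat_lit 234)) (PT.lf (nat_lit 1140) (nat_lit 3) (nat_lit 15) (nat_lit 4) (nat_lit 104) (nat_lit 233) (nat_lit 233))) (PT.nd (nat_lit 78) (PT.lf (nat_lit 1292) (nat_lit 6) (nat_lit 17) (nat_lit 4) (nat_lit 105) (nat_lit 233) (nat_lit 232)) (PT.lf (nat_lit 1368) (nat_lit 6) (nat_lit 18) (nat_lit 4) (nat_lit 106) (nat_lit 233) (nat_lit 231)))))) (PT.nd (nat_lit 58812) (PT.nd (nat_lit 9750) (PT.nd (nat_lit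 9594) (PT.lf (nat_lit 1520) (nat_lit 6) (nat_lit 20) (nat_lit 4) (nat_lit 107) (nat_lit 233) (nat_lit 230)) (PT.nd (nat_lit 78) (PT.lf (nat_lit 1520) (nat_lit 6) (nat_lit 20) (nat_lit 2) (nat_lit 230) (nat_lit 233) (nat_lit 107)) (PT.lf (nat_lit 1368) (nat_lit 6) (nat_lit 18) (nat_lit 2) (nat_lit 231) (nat_lit 233) (nat_lit 106)))) (PT.nd (nat_lit 156) (PT.nd (nat_lit 78) (PT.lf (nat_lit 1292) (nat_lit 6) (nat_lit 17) (nat_lit 2) (nat_lit 232) (nat_lit 233) (nat_lit 105)) (PT.lf (nat_lit 1140) (nat_lit 3) (nat_lit 15) (nat_lit 0) (nat_lit 233) (nat_lit 233) (nat_lit 104))) (PT.nd (nat_lit 78) (PT.lf (nat_lit 988) (nat_lit 6) (nat_lit 13) (nat_lit 0) (nat_lit 234) (nat_lit 233) (nat_lit 103)) (PT.lf (nat_lit 760) (nat_lit 6) (nat_lit 10) (nat_lit 0) (nat_lit 235) (nat_lit 233) (nat_lit 102))))) (PT.nd (nat_lit 234) (PT.nd (nat_lit 78) (PT.lf (nat_lit 532) (nat_lit 6) (nat_lit 7) (nat_lit 5) (nat_lit 100) (nat_lit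 234) (nat_lit 236)) (PT.nd (nat_lit 78) (PT.lf (nat_lit 684) (nat_lit 6) (nat_lit 9) (nat_lit 5) (nat_lit 101) (nat_lit 234) (nat_lit 235)) (PT.lf (nat_lit 836) (nat_lit 3) (nat_lit 11) (nat_lit 4) (nat_lit 102) (nat_lit 234) (nat_lit 234)))) (PT.nd (nat_lit 156) (PT.nd (nat_lit 78) (PT.lf (nat_lit 988) (nat_lit 6) (nat_lit 13) (nat_lit 4) (nat_lit 103) (nat_lit 234) (nat_lit 233)) (PT.lf (nat_lit 1064) (nat_lit 6) (nat_lit 14) (nat_lit 4) (nat_lit 104) (nat_lit 234) (nat_lit 232))) (PT.nd (nat_lit 9828) (PT.lf (nat_lit 1216) (nat_lit 6) (nat_lit 16) (nat_lit 4) (nat_lit 105) (nat_lit 234) (nat_lit 231)) (PT.lf (nat_lit 1216) (nat_lit 6) (nat_lit 16) (nat_lit 2) (nat_lit 231) (nat_lit 234) (nat_lit 105))))))) (PT.nd (nat_lit 108264) (PT.nd (nat_lit 49140) (PT.nd (nat_lit 234) (PT.nd (nat_lit 78) (PT.lf (nat_lit 1064) (nat_lit 6) (nat_lit 14) (nat_lit 2) (nat_lit 232) (nat_lit 234) (nat_lit 104)) (PT.nd (nat_lit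 78) (PT.lf (nat_lit 988) (nat_lit 6) (nat_lit 13) (nat_lit 2) (nat_lit 233) (nat_lit 234) (nat_lit 103)) (PT.lf (nat_lit 836) (nat_lit 3) (nat_lit 11) (nat_lit 0) (nat_lit 234) (nat_lit 234) (nat_lit 102)))) (PT.nd (nat_lit 48750) (PT.nd (nat_lit 78) (PT.lf (nat_lit 684) (nat_lit 6) (nat_lit 9) (nat_lit 0) (nat_lit 235) (nat_lit 234) (nat_lit 101)) (PT.lf (nat_lit 532) (nat_lit 6) (nat_lit 7) (nat_lit 0) (nat_lit 236) (nat_lit 234) (nat_lit 100))) (PT.nd (nat_lit 78) (PT.lf (nat_lit 456) (nat_lit 6) (nat_lit 6) (nat_lit 5) (nat_lit 99) (nat_lit 235) (nat_lit 236)) (PT.lf (nat_lit 608) (nat_lit 3) (nat_lit 8) (nat_lit 4) (nat_lit 100) (nat_lit 235) (nat_lit 235))))) (PT.nd (nat_lit 10374) (PT.nd (nat_lit 78) (PT.lf (nat_lit 684) (nat_lit 6) (nat_lit 9) (nat_lit 4) (nat_lit 101) (nat_lit 235) (nat_lit 234)) (PT.nd (nat_lit 10218) (PT.lf (nat_lit 760) (nat_lit 6) (nat_lit 10) (nat_lit 4) (nat_lit 102) (nat_lit 235)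 (nat_lit 233)) (PT.lf (nat_lit 760) (nat_lit 6) (nat_lit 10) (nat_lit 2) (nat_lit 233) (nat_lit 235) (nat_lit 102)))) (PT.nd (nat_lit 156) (PT.nd (nat_lit 78) (PT.lf (nat_lit 684) (nat_lit 6) (nat_lit 9) (nat_lit 2) (nat_lit 234) (nat_lit 235) (nat_lit 101)) (PT.lf (nat_lit 608) (nat_lit 3) (nat_lit 8) (nat_lit 0) (nat_lit 235) (nat_lit 235) (nat_lit 100))) (PT.nd (nat_lit 48516) (PT.lf (nat_lit 456) (nat_lit 6) (nat_lit 6) (nat_lit 0) (nat_lit 236) (nat_lit 235) (nat_lit 99)) (PT.lf (nat_lit 228) (nat_lit 6) (nat_lit 3) (nat_lit 5) (nat_lit 97) (nat_lit 236) (nat_lit 237)))))) (PT.nd (nat_lit 59280) (PT.nd (nat_lit 10608) (PT.nd (nat_lit 78) (PT.lf (nat_lit 380) (nat_lit 3) (nat_lit 5) (nat_lit 4) (nat_lit 98) (nat_lit 236) (nat_lit 236)) (PT.nd (nat_lit 78) (PT.lf (nat_lit 456) (nat_lit 6) (nat_lit 6) (nat_lit 4) (nat_lit 99) (nat_lit 236) (nat_lit 235)) (PT.lf (nat_lit 532) (nat_lit 6) (nat_lit 7) (nat_lit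 4) (nat_lit 100) (nat_lit 236) (nat_lit 234)))) (PT.nd (nat_lit 156) (PT.nd (nat_lit 78) (PT.lf (nat_lit 532) (nat_lit 6) (nat_lit 7) (nat_lit 2) (nat_lit 234) (nat_lit 236) (nat_lit 100)) (PT.lf (nat_lit 456) (nat_lit 6) (nat_lit 6) (nat_lit 2) (nat_lit 235) (nat_lit 236) (nat_lit 99))) (PT.nd (nat_lit 78) (PT.lf (nat_lit 380) (nat_lit 3) (nat_lit 5) (nat_lit 0) (nat_lit 236) (nat_lit 236) (nat_lit 98)) (PT.lf (nat_lit 228) (nat_lit 6) (nat_lit 3) (nat_lit 0) (nat_lit 237) (nat_lit 236) (nat_lit 97))))) (PT.nd (nat_lit 248664) (PT.nd (nat_lit 236652) (PT.nd (nat_lit 10842) (PT.lf (nat_lit 228) (nat_lit 6) (nat_lit 3) (nat_lit 4) (nat_lit 97) (nat_lit 237) (nat_lit 236)) (PT.lf (nat_lit 228) (nat_lit 6) (nat_lit 3) (nat_lit 2) (nat_lit 236) (nat_lit 237) (nat_lit 97))) (PT.nd (nat_lit 78) (PT.lf (nat_lit 76) (nat_lit 6) (nat_lit 1) (nat_lit 5) (nat_lit 87) (nat_lit 241) (nat_lit 242)) (PT.lf (nat_lit 152) (nat_lit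 3) (nat_lit 2) (nat_lit 4) (nat_lit 88) (nat_lit 241) (nat_lit 241)))) (PT.nd (nat_lit 47346) (PT.nd (nat_lit 78) (PT.lf (nat_lit 152) (nat_lit 3) (nat_lit 2) (nat_lit 0) (nat_lit 241) (nat_lit 241) (nat_lit 88)) (PT.lf (nat_lit 76) (nat_lit 6) (nat_lit 1) (nat_lit 0) (nat_lit 242) (nat_lit 241) (nat_lit 87))) (PT.nd (nat_lit 12012) (PT.lf (nat_lit 76) (nat_lit 6) (nat_lit 1) (nat_lit 4) (nat_lit 87) (nat_lit 242) (nat_lit 241)) (PT.lf (nat_lit 76) (nat_lit 6) (nat_lit 1) (nat_lit 2) (nat_lit 241) (nat_lit 242) (nat_lit 87))))))))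
noncomputable def xc0 : XT := (XT.nd (nat_lit 295932) (nat_lit 0) (nat_lit 0) (XT.nd (nat_lit 177840) (nat_lit 0) (nat_lit 0) (XT.nd (nat_lit 118560) (nat_lit 0) (nat_lit 0) (XT.nd (nat_lit 59358) (nat_lit 0) (nat_lit 0) (XT.nd (nat_lit 59202) (nat_lit 0) (nat_lit 0) (XT.lf (nat_lit 0) (nat_lit 5095095619) (nat_lit 152) (nat_lit 16979915797) (nat_lit 0) (nat_lit 4827620667) (nat_lit 6) (nat_lit 5) (nat_lit 8) (nat_lit 4) (nat_lit 6) (nat_lit 4) (nat_lit 533) (nat_lit 304) (nat_lit 303)) (XT.nd (nat_lit 78) (nat_lit 152) (nat_lit 0) (XT.lf (nat_lit 0) (nat_lit 19865075454) (nat_lit 76) (nat_lit 3222245462) (nat_lit 76) (nat_lit 2943964522) (nat_lit 8) (nat_lit 4) (nat_lit 9) (nat_lit 5) (nat_lit 9) (nat_lit 4) (nat_lit 531) (nat_lit 305) (nat_lit 304)) (XT.lf (nat_lit 0) (nat_lit 1159142166) (nat_lit 152) (nat_lit 24685476951) (nat_lit 0) (nat_lit 618842763) (nat_lit 6) (nat_lit 5) (nat_lit 8) (nat_lit 4) (nat_lit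 6) (nat_lit 4) (nat_lit 532) (nat_lit 305) (nat_lit 303)))) (XT.nd (nat_lit 59046) (nat_lit 0) (nat_lit 152) (XT.nd (nat_lit 58968) (nat_lit 0) (nat_lit 228) (XT.lf (nat_lit 0) (nat_lit 5310148373) (nat_lit 152) (nat_lit 17086031151) (nat_lit 0) (nat_lit 4507618625) (nat_lit 6) (nat_lit 5) (nat_lit 8) (nat_lit 4) (nat_lit 6) (nat_lit 4) (nat_lit 533) (nat_lit 305) (nat_lit 302)) (XT.lf (nat_lit 0) (nat_lit 5007181053) (nat_lit 152) (nat_lit 2380244319) (nat_lit 0) (nat_lit 5007181053) (nat_lit 9) (nat_lit 5) (nat_lit 11) (nat_lit 4) (nat_lit 9) (nat_lit 4) (nat_lit 528) (nat_lit 306) (nat_lit 306))) (XT.nd (nat_lit 78) (nat_lit 0) (nat_lit 0) (XT.lf (nat_lit 0) (nat_lit 3314250676) (nat_lit 76) (nat_lit 11082150746) (nat_lit 76) (nat_lit 10798304187) (nat_lit 8) (nat_lit 4) (nat_lit 9) (nat_lit 5) (nat_lit 9) (nat_lit 4) (nat_lit 529) (nat_lit 306) (nat_lit 305)) (XT.lf (nat_lit 0) (nat_lit 11507728289) (nat_lit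 76) (nat_lit 7331626625) (nat_lit 76) (nat_lit 6769499126) (nat_lit 8) (nat_lit 4) (nat_lit 9) (nat_lit 5) (nat_lit 9) (nat_lit 4) (nat_lit 530) (nat_lit 306) (nat_lit 304))))) (XT.nd (nat_lit 58968) (nat_lit 0) (nat_lit 152) (XT.nd (nat_lit 78) (nat_lit 152) (nat_lit 0) (XT.lf (nat_lit 0) (nat_lit 19759892938) (nat_lit 76) (nat_lit 3553752971) (nat_lit 76) (nat_lit 2718801021) (nat_lit 8) (nat_lit 4) (nat_lit 9) (nat_lit 5) (nat_lit 9) (nat_lit 4) (nat_lit 531) (nat_lit 306) (nat_lit 303)) (XT.nd (nat_lit 78) (nat_lit 0) (nat_lit 0) (XT.lf (nat_lit 0) (nat_lit 1349896125) (nat_lit 152) (nat_lit 24846246964) (nat_lit 0) (nat_lit 269085437) (nat_lit 6) (nat_lit 5) (nat_lit 8) (nat_lit 4) (nat_lit 6) (nat_lit 4) (nat_lit 532) (nat_lit 306) (nat_lit 302)) (XT.lf (nat_lit 0) (nat_lit 5472863264) (nat_lit 152) (nat_lit 17298303471) (nat_lit 0) (nat_lit 4134964002) (nat_lit 6) (nat_lit 5) (nat_lit 8) (nat_lit 4) (nat_lit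 6) (nat_lit 4) (nat_lit 533) (nat_lit 306) (nat_lit 301)))) (XT.nd (nat_lit 156) (nat_lit 76) (nat_lit 0) (XT.nd (nat_lit 78) (nat_lit 0) (nat_lit 0) (XT.lf (nat_lit 0) (nat_lit 846789777) (nat_lit 152) (nat_lit 10308419538) (nat_lit 0) (nat_lit 846789777) (nat_lit 9) (nat_lit 5) (nat_lit 11) (nat_lit 4) (nat_lit 9) (nat_lit 4) (nat_lit 526) (nat_lit 307) (nat_lit 307)) (XT.lf (nat_lit 0) (nat_lit 5970889581) (nat_lit 152) (nat_lit 12740164121) (nat_lit 0) (nat_lit 5681366091) (nat_lit 9) (nat_lit 5) (nat_lit 11) (nat_lit 4) (nat_lit 9) (nat_lit 4) (nat_lit 527) (nat_lit 307) (nat_lit 306))) (XT.nd (nat_lit 78) (nat_lit 76) (nat_lit 0) (XT.lf (nat_lit 0) (nat_lit 10274610877) (nat_lit 152) (nat_lit 4813952337) (nat_lit 0) (nat_lit 9701240828) (nat_lit 9) (nat_lit 5) (nat_lit 11) (nat_lit 4) (nat_lit 9) (nat_lit 4) (nat_lit 528) (nat_lit 307) (nat_lit 305)) (XT.lf (nat_lit 0) (nat_lit 3206964510) (nat_lit 76)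 (nat_lit 11420288405) (nat_lit 76) (nat_lit 10568637416) (nat_lit 8) (nat_lit 4) (nat_lit 9) (nat_lit 5) (nat_lit 9) (nat_lit 4) (nat_lit 529) (nat_lit 307) (nat_lit 304)))))) (XT.nd (nat_lit 59124) (nat_lit 0) (nat_lit 0) (XT.nd (nat_lit 234) (nat_lit 0) (nat_lit 0) (XT.nd (nat_lit 78) (nat_lit 152) (nat_lit 0) (XT.lf (nat_lit 0) (nat_lit 11348371571) (nat_lit 76) (nat_lit 7693358814) (nat_lit 76) (nat_lit 6568883374) (nat_lit 8) (nat_lit 4) (nat_lit 9) (nat_lit 5) (nat_lit 9) (nat_lit 4) (nat_lit 530) (nat_lit 307) (nat_lit 303)) (XT.nd (nat_lit 78) (nat_lit 152) (nat_lit 0) (XT.lf (nat_lit 0) (nat_lit 19549486660) (nat_lit 76) (nat_lit 3938617052) (nat_lit 76) (nat_lit 2546666660) (nat_lit 8) (nat_lit 4) (nat_lit 9) (nat_lit 5) (nat_lit 9) (nat_lit 4) (nat_lit 531) (nat_lit 307) (nat_lit 302)) (XT.lf (nat_lit 0) (nat_lit 1353008001) (nat_lit 76) (nat_lit 135699294) (nat_lit 152) (nat_lit 24979448793) (nat_lit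 6) (nat_lit 5) (nat_lit 7) (nat_lit 5) (nat_lit 8) (nat_lit 4) (nat_lit 532) (nat_lit 307) (nat_lit 301)))) (XT.nd (nat_lit 58734) (nat_lit 0) (nat_lit 228) (XT.nd (nat_lit 58656) (nat_lit 0) (nat_lit 380) (XT.lf (nat_lit 0) (nat_lit 5583304102) (nat_lit 152) (nat_lit 17616816003) (nat_lit 0) (nat_lit 3709510660) (nat_lit 6) (nat_lit 5) (nat_lit 8) (nat_lit 4) (nat_lit 6) (nat_lit 4) (nat_lit 533) (nat_lit 307) (nat_lit 300)) (XT.lf (nat_lit 0) (nat_lit 5204509811) (nat_lit 152) (nat_lit 3210108564) (nat_lit 152) (nat_lit 3210108564) (nat_lit 11) (nat_lit 4) (nat_lit 13) (nat_lit 5) (nat_lit 13) (nat_lit 4) (nat_lit 524) (nat_lit 308) (nat_lit 308))) (XT.nd (nat_lit 78) (nat_lit 152) (nat_lit 0) (XT.lf (nat_lit 0) (nat_lit 18832179158) (nat_lit 152) (nat_lit 2546085644) (nat_lit 152) (nat_lit 2244865405) (nat_lit 11) (nat_lit 4) (nat_lit 13) (nat_lit 5) (nat_lit 13) (nat_lit 4) (nat_lit 525) (nat_lit 308) (nat_lit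 307)) (XT.lf (nat_lit 0) (nat_lit 1959033300) (nat_lit 152) (nat_lit 20671372048) (nat_lit 0) (nat_lit 1374195850) (nat_lit 9) (nat_lit 5) (nat_lit 11) (nat_lit 4) (nat_lit 9) (nat_lit 4) (nat_lit 526) (nat_lit 308) (nat_lit 306))))) (XT.nd (nat_lit 234) (nat_lit 152) (nat_lit 0) (XT.nd (nat_lit 78) (nat_lit 76) (nat_lit 0) (XT.lf (nat_lit 0) (nat_lit 6207068609) (nat_lit 152) (nat_lit 12848160791) (nat_lit 0) (nat_lit 5338384600) (nat_lit 9) (nat_lit 5) (nat_lit 11) (nat_lit 4) (nat_lit 9) (nat_lit 4) (nat_lit 527) (nat_lit 308) (nat_lit 305)) (XT.nd (nat_lit 78) (nat_lit 76) (nat_lit 0) (XT.lf (nat_lit 0) (nat_lit 10482089200) (nat_lit 152) (nat_lit 4974364397) (nat_lit 0) (nat_lit 9335124252) (nat_lit 9) (nat_lit 5) (nat_lit 11) (nat_lit 4) (nat_lit 9) (nat_lit 4) (nat_lit 528) (nat_lit 308) (nat_lit 304)) (XT.lf (nat_lit 0) (nat_lit 2992350106) (nat_lit 76) (nat_lit 11812849768) (nat_lit 76) (nat_lit 10393060368)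 (nat_lit 8) (nat_lit 4) (nat_lit 9) (nat_lit 5) (nat_lit 9) (nat_lit 4) (nat_lit 529) (nat_lit 308) (nat_lit 303)))) (XT.nd (nat_lit 156) (nat_lit 152) (nat_lit 0) (XT.nd (nat_lit 78) (nat_lit 0) (nat_lit 0) (XT.lf (nat_lit 0) (nat_lit 11082707606) (nat_lit 76) (nat_lit 8109052068) (nat_lit 76) (nat_lit 6421787716) (nat_lit 8) (nat_lit 4) (nat_lit 9) (nat_lit 5) (nat_lit 9) (nat_lit 4) (nat_lit 530) (nat_lit 308) (nat_lit 302)) (XT.lf (nat_lit 0) (nat_lit 19233774106) (nat_lit 76) (nat_lit 4376988632) (nat_lit 76) (nat_lit 2427493935) (nat_lit 8) (nat_lit 4) (nat_lit 9) (nat_lit 5) (nat_lit 9) (nat_lit 4) (nat_lit 531) (nat_lit 308) (nat_lit 301))) (XT.nd (nat_lit 78) (nat_lit 0) (nat_lit 0) (XT.lf (nat_lit 0) (nat_lit 978694877) (nat_lit 76) (nat_lit 598175492) (nat_lit 152) (nat_lit 24895350538) (nat_lit 6) (nat_lit 5) (nat_lit 7) (nat_lit 5) (nat_lit 8) (nat_lit 4) (nat_lit 532) (nat_lit 308) (nat_lit 300))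 (XT.lf (nat_lit 0) (nat_lit 5641514196) (nat_lit 152) (nat_lit 18041693653) (nat_lit 0) (nat_lit 3231091754) (nat_lit 6) (nat_lit 5) (nat_lit 8) (nat_lit 4) (nat_lit 6) (nat_lit 4) (nat_lit 533) (nat_lit 308) (nat_lit 299))))))) (XT.nd (nat_lit 59358) (nat_lit 0) (nat_lit 0) (XT.nd (nat_lit 546) (nat_lit 228) (nat_lit 0) (XT.nd (nat_lit 234) (nat_lit 152) (nat_lit 0) (XT.nd (nat_lit 78) (nat_lit 152) (nat_lit 0) (XT.lf (nat_lit 0) (nat_lit 4099119684) (nat_lit 152) (nat_lit 3064805038) (nat_lit 0) (nat_lit 4099119684) (nat_lit 13) (nat_lit 5) (nat_lit 15) (nat_lit 4) (nat_lit 13) (nat_lit 4) (nat_lit 522) (nat_lit 309) (nat_lit 309)) (XT.nd (nat_lit 78) (nat_lit 0) (nat_lit 0) (XT.lf (nat_lit 0) (nat_lit 2043987969) (nat_lit 152) (nat_lit 10573775459) (nat_lit 152) (nat_lit 10266530816) (nat_lit 11) (nat_lit 4) (nat_lit 13) (nat_lit 5) (nat_lit 13) (nat_lit 4) (nat_lit 523) (nat_lit 309) (nat_lit 308)) (XT.lf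 (nat_lit 0) (nat_lit 10354973706) (nat_lit 152) (nat_lit 6751772899) (nat_lit 152) (nat_lit 6143308016) (nat_lit 11) (nat_lit 4) (nat_lit 13) (nat_lit 5) (nat_lit 13) (nat_lit 4) (nat_lit 524) (nat_lit 309) (nat_lit 307)))) (XT.nd (nat_lit 156) (nat_lit 0) (nat_lit 0) (XT.nd (nat_lit 78) (nat_lit 152) (nat_lit 0) (XT.lf (nat_lit 0) (nat_lit 18725147051) (nat_lit 152) (nat_lit 2901475851) (nat_lit 152) (nat_lit 1997697009) (nat_lit 11) (nat_lit 4) (nat_lit 13) (nat_lit 5) (nat_lit 13) (nat_lit 4) (nat_lit 525) (nat_lit 309) (nat_lit 306)) (XT.lf (nat_lit 0) (nat_lit 2170661190) (nat_lit 152) (nat_lit 20834992349) (nat_lit 0) (nat_lit 1000756942) (nat_lit 9) (nat_lit 5) (nat_lit 11) (nat_lit 4) (nat_lit 9) (nat_lit 4) (nat_lit 526) (nat_lit 309) (nat_lit 305))) (XT.nd (nat_lit 78) (nat_lit 0) (nat_lit 0) (XT.lf (nat_lit 0) (nat_lit 6389995794) (nat_lit 152) (nat_lit 13064196482) (nat_lit 0) (nat_lit 4941810606)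 (nat_lit 9) (nat_lit 5) (nat_lit 11) (nat_lit 4) (nat_lit 9) (nat_lit 4) (nat_lit 527) (nat_lit 309) (nat_lit 304)) (XT.lf (nat_lit 0) (nat_lit 10636878440) (nat_lit 152) (nat_lit 5241787726) (nat_lit 0) (nat_lit 8915868801) (nat_lit 9) (nat_lit 5) (nat_lit 11) (nat_lit 4) (nat_lit 9) (nat_lit 4) (nat_lit 528) (nat_lit 309) (nat_lit 303))))) (XT.nd (nat_lit 234) (nat_lit 152) (nat_lit 0) (XT.nd (nat_lit 78) (nat_lit 0) (nat_lit 0) (XT.lf (nat_lit 0) (nat_lit 2670323301) (nat_lit 76) (nat_lit 12259988779) (nat_lit 76) (nat_lit 10271504189) (nat_lit 8) (nat_lit 4) (nat_lit 9) (nat_lit 5) (nat_lit 9) (nat_lit 4) (nat_lit 529) (nat_lit 309) (nat_lit 302)) (XT.nd (nat_lit 78) (nat_lit 0) (nat_lit 0) (XT.lf (nat_lit 0) (nat_lit 10710632212) (nat_lit 76) (nat_lit 8578869405) (nat_lit 76) (nat_lit 6328154469) (nat_lit 8) (nat_lit 4) (nat_lit 9) (nat_lit 5) (nat_lit 9) (nat_lit 4) (nat_lit 530) (nat_lit 309) (nat_lit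 301)) (XT.lf (nat_lit 0) (nat_lit 18812631467) (nat_lit 76) (nat_lit 4869039621) (nat_lit 76) (nat_lit 2361236112) (nat_lit 8) (nat_lit 4) (nat_lit 9) (nat_lit 5) (nat_lit 9) (nat_lit 4) (nat_lit 531) (nat_lit 309) (nat_lit 300)))) (XT.nd (nat_lit 58422) (nat_lit 0) (nat_lit 532) (XT.nd (nat_lit 78) (nat_lit 0) (nat_lit 0) (XT.lf (nat_lit 0) (nat_lit 497701106) (nat_lit 76) (nat_lit 1114948515) (nat_lit 152) (nat_lit 24864810361) (nat_lit 6) (nat_lit 5) (nat_lit 7) (nat_lit 5) (nat_lit 8) (nat_lit 4) (nat_lit 532) (nat_lit 309) (nat_lit 299)) (XT.lf (nat_lit 0) (nat_lit 5647516375) (nat_lit 152) (nat_lit 18573103040) (nat_lit 0) (nat_lit 2699519668) (nat_lit 6) (nat_lit 5) (nat_lit 8) (nat_lit 4) (nat_lit 6) (nat_lit 4) (nat_lit 533) (nat_lit 309) (nat_lit 298))) (XT.nd (nat_lit 78) (nat_lit 152) (nat_lit 0) (XT.lf (nat_lit 0) (nat_lit 10726845743) (nat_lit 152) (nat_lit 94821393) (nat_lit 152) (nat_lit 94821393)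 (nat_lit 15) (nat_lit 4) (nat_lit 17) (nat_lit 5) (nat_lit 17) (nat_lit 4) (nat_lit 520) (nat_lit 310) (nat_lit 310)) (XT.lf (nat_lit 0) (nat_lit 4132417440) (nat_lit 152) (nat_lit 14224400788) (nat_lit 0) (nat_lit 3819027903) (nat_lit 13) (nat_lit 5) (nat_lit 15) (nat_lit 4) (nat_lit 13) (nat_lit 4) (nat_lit 521) (nat_lit 310) (nat_lit 309)))))) (XT.nd (nat_lit 546) (nat_lit 228) (nat_lit 0) (XT.nd (nat_lit 234) (nat_lit 152) (nat_lit 0) (XT.nd (nat_lit 78) (nat_lit 152) (nat_lit 0) (XT.lf (nat_lit 0) (nat_lit 8481657341) (nat_lit 152) (nat_lit 6184013912) (nat_lit 0) (nat_lit 7861023160) (nat_lit 13) (nat_lit 5) (nat_lit 15) (nat_lit 4) (nat_lit 13) (nat_lit 4) (nat_lit 522) (nat_lit 310) (nat_lit 308)) (XT.nd (nat_lit 78) (nat_lit 0) (nat_lit 0) (XT.lf (nat_lit 0) (nat_lit 1934815220) (nat_lit 152) (nat_lit 10936273471) (nat_lit 152) (nat_lit 10014419051) (nat_lit 11) (nat_lit 4) (nat_lit 13) (nat_lit 5) (nat_lit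 13) (nat_lit 4) (nat_lit 523) (nat_lit 310) (nat_lit 307)) (XT.lf (nat_lit 0) (nat_lit 10192814766) (nat_lit 152) (nat_lit 7138105348) (nat_lit 152) (nat_lit 5920936969) (nat_lit 11) (nat_lit 4) (nat_lit 13) (nat_lit 5) (nat_lit 13) (nat_lit 4) (nat_lit 524) (nat_lit 310) (nat_lit 306)))) (XT.nd (nat_lit 156) (nat_lit 0) (nat_lit 0) (XT.nd (nat_lit 78) (nat_lit 152) (nat_lit 0) (XT.lf (nat_lit 0) (nat_lit 18511040864) (nat_lit 152) (nat_lit 3311175396) (nat_lit 152) (nat_lit 1804483527) (nat_lit 11) (nat_lit 4) (nat_lit 13) (nat_lit 5) (nat_lit 13) (nat_lit 4) (nat_lit 525) (nat_lit 310) (nat_lit 305)) (XT.lf (nat_lit 0) (nat_lit 2328546214) (nat_lit 152) (nat_lit 21107764145) (nat_lit 0) (nat_lit 573116383) (nat_lit 9) (nat_lit 5) (nat_lit 11) (nat_lit 4) (nat_lit 9) (nat_lit 4) (nat_lit 526) (nat_lit 310) (nat_lit 304))) (XT.nd (nat_lit 78) (nat_lit 0) (nat_lit 0) (XT.lf (nat_lit 0) (nat_lit 6519742872) (nat_lit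 152) (nat_lit 13388355915) (nat_lit 0) (nat_lit 4491488590) (nat_lit 9) (nat_lit 5) (nat_lit 11) (nat_lit 4) (nat_lit 9) (nat_lit 4) (nat_lit 527) (nat_lit 310) (nat_lit 303)) (XT.lf (nat_lit 0) (nat_lit 10739039297) (nat_lit 152) (nat_lit 5616327195) (nat_lit 0) (nat_lit 8443310062) (nat_lit 9) (nat_lit 5) (nat_lit 11) (nat_lit 4) (nat_lit 9) (nat_lit 4) (nat_lit 528) (nat_lit 310) (nat_lit 302))))) (XT.nd (nat_lit 234) (nat_lit 152) (nat_lit 0) (XT.nd (nat_lit 78) (nat_lit 0) (nat_lit 0) (XT.lf (nat_lit 0) (nat_lit 2240757810) (nat_lit 76) (nat_lit 12761880789) (nat_lit 76) (nat_lit 10203921209) (nat_lit 8) (nat_lit 4) (nat_lit 9) (nat_lit 5) (nat_lit 9) (nat_lit 4) (nat_lit 529) (nat_lit 310) (nat_lit 301)) (XT.nd (nat_lit 78) (nat_lit 0) (nat_lit 0) (XT.lf (nat_lit 0) (nat_lit 10231999476) (nat_lit 76) (nat_lit 9102995067) (nat_lit 76) (nat_lit 6287946913) (nat_lit 8) (nat_lit 4) (nat_lit 9) (nat_lit 5) (nat_lit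 9) (nat_lit 4) (nat_lit 530) (nat_lit 310) (nat_lit 300)) (XT.lf (nat_lit 0) (nat_lit 18285893591) (nat_lit 76) (nat_lit 5414962981) (nat_lit 76) (nat_lit 2347867207) (nat_lit 8) (nat_lit 4) (nat_lit 9) (nat_lit 5) (nat_lit 9) (nat_lit 4) (nat_lit 531) (nat_lit 310) (nat_lit 299)))) (XT.nd (nat_lit 58266) (nat_lit 0) (nat_lit 684) (XT.nd (nat_lit 78) (nat_lit 76) (nat_lit 0) (XT.lf (nat_lit 0) (nat_lit 1596644475) (nat_lit 152) (nat_lit 88979445) (nat_lit 76) (nat_lit 24798239742) (nat_lit 7) (nat_lit 5) (nat_lit 9) (nat_lit 5) (nat_lit 8) (nat_lit 4) (nat_lit 532) (nat_lit 310) (nat_lit 298)) (XT.lf (nat_lit 0) (nat_lit 5601312992) (nat_lit 152) (nat_lit 19211252559) (nat_lit 0) (nat_lit 2114585942) (nat_lit 6) (nat_lit 5) (nat_lit 8) (nat_lit 4) (nat_lit 6) (nat_lit 4) (nat_lit 533) (nat_lit 310) (nat_lit 297))) (XT.nd (nat_lit 78) (nat_lit 0) (nat_lit 0) (XT.lf (nat_lit 0) (nat_lit 2222785757) (nat_lit 152)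 (nat_lit 4180162863) (nat_lit 152) (nat_lit 4180162863) (nat_lit 15) (nat_lit 4) (nat_lit 17) (nat_lit 5) (nat_lit 17) (nat_lit 4) (nat_lit 518) (nat_lit 311) (nat_lit 311)) (XT.lf (nat_lit 0) (nat_lit 12892654654) (nat_lit 152) (nat_lit 4464695189) (nat_lit 152) (nat_lit 4138644715) (nat_lit 15) (nat_lit 4) (nat_lit 17) (nat_lit 5) (nat_lit 17) (nat_lit 4) (nat_lit 519) (nat_lit 311) (nat_lit 310))))))))
noncomputable def xc1 : XT := (XT.nd (nat_lit 60138) (nat_lit 0) (nat_lit 0) (XT.nd (nat_lit 59046) (nat_lit 0) (nat_lit 152) (XT.nd (nat_lit 546) (nat_lit 228) (nat_lit 0) (XT.nd (nat_lit 234) (nat_lit 304) (nat_lit 0) (XT.nd (nat_lit 78) (nat_lit 76) (nat_lit 0) (XT.lf (nat_lit 0) (nat_lit 104564907) (nat_lit 228) (nat_lit 434486689) (nat_lit 76) (nat_lit 21294515117) (nat_lit 14) (nat_lit 5) (nat_lit 17) (nat_lit 5) (nat_lit 15) (nat_lit 4) (nat_lit 520) (nat_lit 311) (nat_lit 309)) (XT.nd (nat_lit 78) (nat_lit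 0) (nat_lit 0) (XT.lf (nat_lit 0) (nat_lit 4391532206) (nat_lit 152) (nat_lit 14334296535) (nat_lit 0) (nat_lit 3451240698) (nat_lit 13) (nat_lit 5) (nat_lit 15) (nat_lit 4) (nat_lit 13) (nat_lit 4) (nat_lit 521) (nat_lit 311) (nat_lit 308)) (XT.lf (nat_lit 0) (nat_lit 8711388220) (nat_lit 152) (nat_lit 6347246753) (nat_lit 0) (nat_lit 7469876473) (nat_lit 13) (nat_lit 5) (nat_lit 15) (nat_lit 4) (nat_lit 13) (nat_lit 4) (nat_lit 522) (nat_lit 311) (nat_lit 307)))) (XT.nd (nat_lit 156) (nat_lit 152) (nat_lit 0) (XT.nd (nat_lit 78) (nat_lit 0) (nat_lit 0) (XT.lf (nat_lit 0) (nat_lit 1716426909) (nat_lit 152) (nat_lit 11354167007) (nat_lit 152) (nat_lit 9817341300) (nat_lit 11) (nat_lit 4) (nat_lit 13) (nat_lit 5) (nat_lit 13) (nat_lit 4) (nat_lit 523) (nat_lit 311) (nat_lit 306)) (XT.lf (nat_lit 0) (nat_lit 9922479208) (nat_lit 152) (nat_lit 7579365979) (nat_lit 152) (nat_lit 5753016783) (nat_lit 11) (nat_lit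 4) (nat_lit 13) (nat_lit 5) (nat_lit 13) (nat_lit 4) (nat_lit 524) (nat_lit 311) (nat_lit 305))) (XT.nd (nat_lit 78) (nat_lit 152) (nat_lit 0) (XT.lf (nat_lit 0) (nat_lit 18189776633) (nat_lit 152) (nat_lit 3775344944) (nat_lit 152) (nat_lit 1665149189) (nat_lit 11) (nat_lit 4) (nat_lit 13) (nat_lit 5) (nat_lit 13) (nat_lit 4) (nat_lit 525) (nat_lit 311) (nat_lit 304)) (XT.lf (nat_lit 0) (nat_lit 2432750288) (nat_lit 152) (nat_lit 21489794404) (nat_lit 0) (nat_lit 91106469) (nat_lit 9) (nat_lit 5) (nat_lit 11) (nat_lit 4) (nat_lit 9) (nat_lit 4) (nat_lit 526) (nat_lit 311) (nat_lit 303))))) (XT.nd (nat_lit 234) (nat_lit 152) (nat_lit 0) (XT.nd (nat_lit 78) (nat_lit 76) (nat_lit 0) (XT.lf (nat_lit 0) (nat_lit 6596360725) (nat_lit 152) (nat_lit 13820766211) (nat_lit 0) (nat_lit 3987241954) (nat_lit 9) (nat_lit 5) (nat_lit 11) (nat_lit 4) (nat_lit 9) (nat_lit 4) (nat_lit 527) (nat_lit 311) (nat_lit 302)) (XT.nd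 (nat_lit 78) (nat_lit 76) (nat_lit 0) (XT.lf (nat_lit 0) (nat_lit 10788611834) (nat_lit 152) (nat_lit 6098129684) (nat_lit 0) (nat_lit 7917262718) (nat_lit 9) (nat_lit 5) (nat_lit 11) (nat_lit 4) (nat_lit 9) (nat_lit 4) (nat_lit 528) (nat_lit 311) (nat_lit 301)) (XT.lf (nat_lit 0) (nat_lit 1703485176) (nat_lit 76) (nat_lit 13318722616) (nat_lit 76) (nat_lit 10190284926) (nat_lit 8) (nat_lit 4) (nat_lit 9) (nat_lit 5) (nat_lit 9) (nat_lit 4) (nat_lit 529) (nat_lit 311) (nat_lit 300)))) (XT.nd (nat_lit 156) (nat_lit 152) (nat_lit 0) (XT.nd (nat_lit 78) (nat_lit 0) (nat_lit 0) (XT.lf (nat_lit 0) (nat_lit 9646621701) (nat_lit 76) (nat_lit 9681634592) (nat_lit 76) (nat_lit 6301149281) (nat_lit 8) (nat_lit 4) (nat_lit 9) (nat_lit 5) (nat_lit 9) (nat_lit 4) (nat_lit 530) (nat_lit 311) (nat_lit 299)) (XT.lf (nat_lit 0) (nat_lit 17653353911) (nat_lit 76) (nat_lit 6014972799) (nat_lit 76) (nat_lit 2387381977) (nat_lit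 8) (nat_lit 4) (nat_lit 9) (nat_lit 5) (nat_lit 9) (nat_lit 4) (nat_lit 531) (nat_lit 311) (nat_lit 298))) (XT.nd (nat_lit 78) (nat_lit 76) (nat_lit 0) (XT.lf (nat_lit 0) (nat_lit 1532189800) (nat_lit 152) (nat_lit 774827730) (nat_lit 76) (nat_lit 24184350103) (nat_lit 7) (nat_lit 5) (nat_lit 9) (nat_lit 5) (nat_lit 8) (nat_lit 4) (nat_lit 532) (nat_lit 311) (nat_lit 297)) (XT.lf (nat_lit 0) (nat_lit 5502885927) (nat_lit 152) (nat_lit 19956392466) (nat_lit 0) (nat_lit 1476061192) (nat_lit 6) (nat_lit 5) (nat_lit 8) (nat_lit 4) (nat_lit 6) (nat_lit 4) (nat_lit 533) (nat_lit 311) (nat_lit 296)))))) (XT.nd (nat_lit 546) (nat_lit 380) (nat_lit 0) (XT.nd (nat_lit 234) (nat_lit 152) (nat_lit 0) (XT.nd (nat_lit 78) (nat_lit 152) (nat_lit 0) (XT.lf (nat_lit 0) (nat_lit 2115532693) (nat_lit 152) (nat_lit 6032631191) (nat_lit 0) (nat_lit 2115532693) (nat_lit 17) (nat_lit 5) (nat_lit 19) (nat_lit 4) (nat_lit 17) (nat_lit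 4) (nat_lit 516) (nat_lit 312) (nat_lit 312)) (XT.nd (nat_lit 78) (nat_lit 152) (nat_lit 0) (XT.lf (nat_lit 0) (nat_lit 8641575914) (nat_lit 152) (nat_lit 3893043789) (nat_lit 0) (nat_lit 8309004431) (nat_lit 17) (nat_lit 5) (nat_lit 19) (nat_lit 4) (nat_lit 17) (nat_lit 4) (nat_lit 517) (nat_lit 312) (nat_lit 311)) (XT.lf (nat_lit 0) (nat_lit 4390583542) (nat_lit 152) (nat_lit 8717438431) (nat_lit 152) (nat_lit 8058816473) (nat_lit 15) (nat_lit 4) (nat_lit 17) (nat_lit 5) (nat_lit 17) (nat_lit 4) (nat_lit 518) (nat_lit 312) (nat_lit 310)))) (XT.nd (nat_lit 156) (nat_lit 76) (nat_lit 0) (XT.nd (nat_lit 78) (nat_lit 76) (nat_lit 0) (XT.lf (nat_lit 0) (nat_lit 12783756906) (nat_lit 152) (nat_lit 4845867913) (nat_lit 152) (nat_lit 3867588629) (nat_lit 15) (nat_lit 4) (nat_lit 17) (nat_lit 5) (nat_lit 17) (nat_lit 4) (nat_lit 519) (nat_lit 312) (nat_lit 309)) (XT.lf (nat_lit 0) (nat_lit 342601565) (nat_lit 228) (nat_lit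 599613659) (nat_lit 76) (nat_lit 20893130638) (nat_lit 14) (nat_lit 5) (nat_lit 17) (nat_lit 5) (nat_lit 15) (nat_lit 4) (nat_lit 520) (nat_lit 312) (nat_lit 308))) (XT.nd (nat_lit 78) (nat_lit 0) (nat_lit 0) (XT.lf (nat_lit 0) (nat_lit 4596473815) (nat_lit 152) (nat_lit 14554131127) (nat_lit 0) (nat_lit 3028911594) (nat_lit 13) (nat_lit 5) (nat_lit 15) (nat_lit 4) (nat_lit 13) (nat_lit 4) (nat_lit 521) (nat_lit 312) (nat_lit 307)) (XT.lf (nat_lit 0) (nat_lit 8887522096) (nat_lit 152) (nat_lit 6619372613) (nat_lit 0) (nat_lit 7024645915) (nat_lit 13) (nat_lit 5) (nat_lit 15) (nat_lit 4) (nat_lit 13) (nat_lit 4) (nat_lit 522) (nat_lit 312) (nat_lit 306))))) (XT.nd (nat_lit 234) (nat_lit 228) (nat_lit 0) (XT.nd (nat_lit 78) (nat_lit 0) (nat_lit 0) (XT.lf (nat_lit 0) (nat_lit 1388737393) (nat_lit 152) (nat_lit 11827619946) (nat_lit 152) (nat_lit 9675220275) (nat_lit 11) (nat_lit 4) (nat_lit 13) (nat_lit 5) (nat_lit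 13) (nat_lit 4) (nat_lit 523) (nat_lit 312) (nat_lit 305)) (XT.nd (nat_lit 78) (nat_lit 0) (nat_lit 0) (XT.lf (nat_lit 0) (nat_lit 9543861019) (nat_lit 152) (nat_lit 8075727836) (nat_lit 152) (nat_lit 5639481606) (nat_lit 11) (nat_lit 4) (nat_lit 13) (nat_lit 5) (nat_lit 13) (nat_lit 4) (nat_lit 524) (nat_lit 312) (nat_lit 304)) (XT.lf (nat_lit 0) (nat_lit 17761228372) (nat_lit 152) (nat_lit 4294166524) (nat_lit 152) (nat_lit 1579639354) (nat_lit 11) (nat_lit 4) (nat_lit 13) (nat_lit 5) (nat_lit 13) (nat_lit 4) (nat_lit 525) (nat_lit 312) (nat_lit 303)))) (XT.nd (nat_lit 156) (nat_lit 76) (nat_lit 0) (XT.nd (nat_lit 78) (nat_lit 0) (nat_lit 0) (XT.lf (nat_lit 0) (nat_lit 2034863172) (nat_lit 76) (nat_lit 451381774) (nat_lit 152) (nat_lit 21532781838) (nat_lit 9) (nat_lit 5) (nat_lit 10) (nat_lit 5) (nat_lit 11) (nat_lit 4) (nat_lit 526) (nat_lit 312) (nat_lit 302)) (XT.lf (nat_lit 0) (nat_lit 6619879399) (nat_lit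 152) (nat_lit 14361596942) (nat_lit 0) (nat_lit 3428872955) (nat_lit 9) (nat_lit 5) (nat_lit 11) (nat_lit 4) (nat_lit 9) (nat_lit 4) (nat_lit 527) (nat_lit 312) (nat_lit 301))) (XT.nd (nat_lit 78) (nat_lit 76) (nat_lit 0) (XT.lf (nat_lit 0) (nat_lit 10785615493) (nat_lit 152) (nat_lit 6687384134) (nat_lit 0) (nat_lit 7337520476) (nat_lit 9) (nat_lit 5) (nat_lit 11) (nat_lit 4) (nat_lit 9) (nat_lit 4) (nat_lit 528) (nat_lit 312) (nat_lit 300)) (XT.lf (nat_lit 0) (nat_lit 1058294703) (nat_lit 76) (nat_lit 13930732630) (nat_lit 76) (nat_lit 10230589992) (nat_lit 8) (nat_lit 4) (nat_lit 9) (nat_lit 5) (nat_lit 9) (nat_lit 4) (nat_lit 529) (nat_lit 312) (nat_lit 299))))))) (XT.nd (nat_lit 58890) (nat_lit 0) (nat_lit 0) (XT.nd (nat_lit 58344) (nat_lit 0) (nat_lit 380) (XT.nd (nat_lit 234) (nat_lit 76) (nat_lit 0) (XT.nd (nat_lit 78) (nat_lit 76) (nat_lit 0) (XT.lf (nat_lit 0) (nat_lit 8954269325) (nat_lit 76) (nat_lit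 10315014899) (nat_lit 76) (nat_lit 6367766750) (nat_lit 8) (nat_lit 4) (nat_lit 9) (nat_lit 5) (nat_lit 9) (nat_lit 4) (nat_lit 530) (nat_lit 312) (nat_lit 298)) (XT.nd (nat_lit 78) (nat_lit 76) (nat_lit 0) (XT.lf (nat_lit 0) (nat_lit 16914764375) (nat_lit 76) (nat_lit 6669304373) (nat_lit 76) (nat_lit 2479795919) (nat_lit 8) (nat_lit 4) (nat_lit 9) (nat_lit 5) (nat_lit 9) (nat_lit 4) (nat_lit 531) (nat_lit 312) (nat_lit 297)) (XT.lf (nat_lit 0) (nat_lit 1416028915) (nat_lit 152) (nat_lit 1566640148) (nat_lit 76) (nat_lit 23517370403) (nat_lit 7) (nat_lit 5) (nat_lit 9) (nat_lit 5) (nat_lit 8) (nat_lit 4) (nat_lit 532) (nat_lit 312) (nat_lit 296)))) (XT.nd (nat_lit 57954) (nat_lit 0) (nat_lit 836) (XT.nd (nat_lit 57876) (nat_lit 0) (nat_lit 988) (XT.lf (nat_lit 0) (nat_lit 5352196583) (nat_lit 152) (nat_lit 20808814972) (nat_lit 0) (nat_lit 783695015) (nat_lit 6) (nat_lit 5) (nat_lit 8) (nat_lit 4) (nat_lit 6)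 (nat_lit 4) (nat_lit 533) (nat_lit 312) (nat_lit 295)) (XT.lf (nat_lit 0) (nat_lit 5840367486) (nat_lit 152) (nat_lit 2058392717) (nat_lit 152) (nat_lit 2058392717) (nat_lit 19) (nat_lit 4) (nat_lit 21) (nat_lit 5) (nat_lit 21) (nat_lit 4) (nat_lit 514) (nat_lit 313) (nat_lit 313))) (XT.nd (nat_lit 78) (nat_lit 0) (nat_lit 0) (XT.lf (nat_lit 0) (nat_lit 30699593) (nat_lit 76) (nat_lit 155789002) (nat_lit 152) (nat_lit 20032082802) (nat_lit 17) (nat_lit 5) (nat_lit 18) (nat_lit 5) (nat_lit 19) (nat_lit 4) (nat_lit 515) (nat_lit 313) (nat_lit 312)) (XT.lf (nat_lit 0) (nat_lit 4539596772) (nat_lit 152) (nat_lit 12120614512) (nat_lit 0) (nat_lit 3867802376) (nat_lit 17) (nat_lit 5) (nat_lit 19) (nat_lit 4) (nat_lit 17) (nat_lit 4) (nat_lit 516) (nat_lit 313) (nat_lit 311))))) (XT.nd (nat_lit 234) (nat_lit 304) (nat_lit 0) (XT.nd (nat_lit 78) (nat_lit 152) (nat_lit 0) (XT.lf (nat_lit 0) (nat_lit 8920017568) (nat_lit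 152) (nat_lit 4002662714) (nat_lit 0) (nat_lit 7922172697) (nat_lit 17) (nat_lit 5) (nat_lit 19) (nat_lit 4) (nat_lit 17) (nat_lit 4) (nat_lit 517) (nat_lit 313) (nat_lit 310)) (XT.nd (nat_lit 78) (nat_lit 0) (nat_lit 0) (XT.lf (nat_lit 0) (nat_lit 4225598063) (nat_lit 152) (nat_lit 9130294630) (nat_lit 152) (nat_lit 7812792433) (nat_lit 15) (nat_lit 4) (nat_lit 17) (nat_lit 5) (nat_lit 17) (nat_lit 4) (nat_lit 518) (nat_lit 313) (nat_lit 309)) (XT.lf (nat_lit 0) (nat_lit 12565918705) (nat_lit 152) (nat_lit 5282312368) (nat_lit 152) (nat_lit 3651420634) (nat_lit 15) (nat_lit 4) (nat_lit 17) (nat_lit 5) (nat_lit 17) (nat_lit 4) (nat_lit 519) (nat_lit 313) (nat_lit 308)))) (XT.nd (nat_lit 156) (nat_lit 152) (nat_lit 0) (XT.nd (nat_lit 78) (nat_lit 76) (nat_lit 0) (XT.lf (nat_lit 0) (nat_lit 527047734) (nat_lit 228) (nat_lit 873499955) (nat_lit 76) (nat_lit 20437792143) (nat_lit 14) (nat_lit 5) (nat_lit 17) (nat_lit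 5) (nat_lit 15) (nat_lit 4) (nat_lit 520) (nat_lit 313) (nat_lit 307)) (XT.lf (nat_lit 0) (nat_lit 4747322636) (nat_lit 152) (nat_lit 14883990772) (nat_lit 0) (nat_lit 2551874972) (nat_lit 13) (nat_lit 5) (nat_lit 15) (nat_lit 4) (nat_lit 13) (nat_lit 4) (nat_lit 521) (nat_lit 313) (nat_lit 306))) (XT.nd (nat_lit 78) (nat_lit 152) (nat_lit 0) (XT.lf (nat_lit 0) (nat_lit 9010128042) (nat_lit 152) (nat_lit 7000498207) (nat_lit 0) (nat_lit 6525156888) (nat_lit 13) (nat_lit 5) (nat_lit 15) (nat_lit 4) (nat_lit 13) (nat_lit 4) (nat_lit 522) (nat_lit 313) (nat_lit 305)) (XT.lf (nat_lit 0) (nat_lit 951618168) (nat_lit 152) (nat_lit 12356817957) (nat_lit 152) (nat_lit 9588000244) (nat_lit 11) (nat_lit 4) (nat_lit 13) (nat_lit 5) (nat_lit 13) (nat_lit 4) (nat_lit 523) (nat_lit 313) (nat_lit 304)))))) (XT.nd (nat_lit 546) (nat_lit 152) (nat_lit 0) (XT.nd (nat_lit 234) (nat_lit 76) (nat_lit 0) (XT.nd (nat_lit 78) (nat_lit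 152) (nat_lit 0) (XT.lf (nat_lit 0) (nat_lit 9056811721) (nat_lit 152) (nat_lit 8627385569) (nat_lit 152) (nat_lit 5580286916) (nat_lit 11) (nat_lit 4) (nat_lit 13) (nat_lit 5) (nat_lit 13) (nat_lit 4) (nat_lit 524) (nat_lit 313) (nat_lit 303)) (XT.nd (nat_lit 78) (nat_lit 152) (nat_lit 0) (XT.lf (nat_lit 0) (nat_lit 17225228024) (nat_lit 152) (nat_lit 4867843593) (nat_lit 152) (nat_lit 1547920489) (nat_lit 11) (nat_lit 4) (nat_lit 13) (nat_lit 5) (nat_lit 13) (nat_lit 4) (nat_lit 525) (nat_lit 313) (nat_lit 302)) (XT.lf (nat_lit 0) (nat_lit 1436501634) (nat_lit 76) (nat_lit 1050577420) (nat_lit 152) (nat_lit 21538516106) (nat_lit 9) (nat_lit 5) (nat_lit 10) (nat_lit 5) (nat_lit 11) (nat_lit 4) (nat_lit 526) (nat_lit 313) (nat_lit 301)))) (XT.nd (nat_lit 156) (nat_lit 76) (nat_lit 0) (XT.nd (nat_lit 78) (nat_lit 0) (nat_lit 0) (XT.lf (nat_lit 0) (nat_lit 6590308116) (nat_lit 152) (nat_lit 15011060199) (nat_lit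 0) (nat_lit 2816162625) (nat_lit 9) (nat_lit 5) (nat_lit 11) (nat_lit 4) (nat_lit 9) (nat_lit 4) (nat_lit 527) (nat_lit 313) (nat_lit 300)) (XT.lf (nat_lit 0) (nat_lit 10730049098) (nat_lit 152) (nat_lit 7384321625) (nat_lit 0) (nat_lit 6703855986) (nat_lit 9) (nat_lit 5) (nat_lit 11) (nat_lit 4) (nat_lit 9) (nat_lit 4) (nat_lit 528) (nat_lit 313) (nat_lit 299))) (XT.nd (nat_lit 78) (nat_lit 0) (nat_lit 0) (XT.lf (nat_lit 0) (nat_lit 304933376) (nat_lit 76) (nat_lit 14598150836) (nat_lit 76) (nat_lit 10324852212) (nat_lit 8) (nat_lit 4) (nat_lit 9) (nat_lit 5) (nat_lit 9) (nat_lit 4) (nat_lit 529) (nat_lit 313) (nat_lit 298)) (XT.lf (nat_lit 0) (nat_lit 8154670838) (nat_lit 76) (nat_lit 11003384372) (nat_lit 76) (nat_lit 6487825444) (nat_lit 8) (nat_lit 4) (nat_lit 9) (nat_lit 5) (nat_lit 9) (nat_lit 4) (nat_lit 530) (nat_lit 313) (nat_lit 297))))) (XT.nd (nat_lit 57876) (nat_lit 0) (nat_lit 912) (XT.nd (nat_lit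 78) (nat_lit 152) (nat_lit 0) (XT.lf (nat_lit 0) (nat_lit 16069835339) (nat_lit 76) (nat_lit 7378214305) (nat_lit 76) (nat_lit 2625145273) (nat_lit 8) (nat_lit 4) (nat_lit 9) (nat_lit 5) (nat_lit 9) (nat_lit 4) (nat_lit 531) (nat_lit 313) (nat_lit 296)) (XT.nd (nat_lit 78) (nat_lit 76) (nat_lit 0) (XT.lf (nat_lit 0) (nat_lit 1248116266) (nat_lit 152) (nat_lit 2464727214) (nat_lit 76) (nat_lit 22797039083) (nat_lit 7) (nat_lit 5) (nat_lit 9) (nat_lit 5) (nat_lit 8) (nat_lit 4) (nat_lit 532) (nat_lit 313) (nat_lit 295)) (XT.lf (nat_lit 0) (nat_lit 5149185865) (nat_lit 152) (nat_lit 21768854361) (nat_lit 0) (nat_lit 37215895) (nat_lit 6) (nat_lit 5) (nat_lit 8) (nat_lit 4) (nat_lit 6) (nat_lit 4) (nat_lit 533) (nat_lit 313) (nat_lit 294)))) (XT.nd (nat_lit 156) (nat_lit 76) (nat_lit 0) (XT.nd (nat_lit 78) (nat_lit 152) (nat_lit 0) (XT.lf (nat_lit 0) (nat_lit 3541811160) (nat_lit 152) (nat_lit 2579310284) (nat_lit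 0) (nat_lit 3541811160) (nat_lit 21) (nat_lit 5) (nat_lit 23) (nat_lit 4) (nat_lit 21) (nat_lit 4) (nat_lit 512) (nat_lit 314) (nat_lit 314)) (XT.lf (nat_lit 0) (nat_lit 3170768789) (nat_lit 152) (nat_lit 8399680841) (nat_lit 152) (nat_lit 8046753322) (nat_lit 19) (nat_lit 4) (nat_lit 21) (nat_lit 5) (nat_lit 21) (nat_lit 4) (nat_lit 513) (nat_lit 314) (nat_lit 313))) (XT.nd (nat_lit 78) (nat_lit 76) (nat_lit 0) (XT.lf (nat_lit 0) (nat_lit 11625894363) (nat_lit 152) (nat_lit 4493982370) (nat_lit 152) (nat_lit 3795047479) (nat_lit 19) (nat_lit 4) (nat_lit 21) (nat_lit 5) (nat_lit 21) (nat_lit 4) (nat_lit 514) (nat_lit 314) (nat_lit 312)) (XT.lf (nat_lit 0) (nat_lit 473630611) (nat_lit 228) (nat_lit 81423967) (nat_lit 76) (nat_lit 19664707611) (nat_lit 18) (nat_lit 5) (nat_lit 21) (nat_lit 5) (nat_lit 19) (nat_lit 4) (nat_lit 515) (nat_lit 314) (nat_lit 311))))))))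
noncomputable def xc2 : XT := (XT.nd (nat_lit 59670) (nat_lit 0) (nat_lit 0) (XT.nd (nat_lit 1092) (nat_lit 228) (nat_lit 0) (XT.nd (nat_lit 546) (nat_lit 304) (nat_lit 0) (XT.nd (nat_lit 234) (nat_lit 152) (nat_lit 0) (XT.nd (nat_lit 78) (nat_lit 152) (nat_lit 0) (XT.lf (nat_lit 0) (nat_lit 4793517526) (nat_lit 152) (nat_lit 12286692611) (nat_lit 0) (nat_lit 3449665284) (nat_lit 17) (nat_lit 5) (nat_lit 19) (nat_lit 4) (nat_lit 17) (nat_lit 4) (nat_lit 516) (nat_lit 314) (nat_lit 310)) (XT.nd (nat_lit 78) (nat_lit 152) (nat_lit 0) (XT.lf (nat_lit 0) (nat_lit 9144438584) (nat_lit 152) (nat_lit 4221943552) (nat_lit 0) (nat_lit 7480929015) (nat_lit 17) (nat_lit 5) (nat_lit 19) (nat_lit 4) (nat_lit 17) (nat_lit 4) (nat_lit 517) (nat_lit 314) (nat_lit 309)) (XT.lf (nat_lit 0) (nat_lit 3950550376) (nat_lit 152) (nat_lit 9599056230) (nat_lit 152) (nat_lit 7622157124) (nat_lit 15) (nat_lit 4) (nat_lit 17) (nat_lit 5)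 (nat_lit 17) (nat_lit 4) (nat_lit 518) (nat_lit 314) (nat_lit 308)))) (XT.nd (nat_lit 156) (nat_lit 76) (nat_lit 0) (XT.nd (nat_lit 78) (nat_lit 76) (nat_lit 0) (XT.lf (nat_lit 0) (nat_lit 12239054624) (nat_lit 152) (nat_lit 5774199708) (nat_lit 152) (nat_lit 3490055958) (nat_lit 15) (nat_lit 4) (nat_lit 17) (nat_lit 5) (nat_lit 17) (nat_lit 4) (nat_lit 519) (nat_lit 314) (nat_lit 307)) (XT.lf (nat_lit 0) (nat_lit 657975745) (nat_lit 228) (nat_lit 1256252982) (nat_lit 76) (nat_lit 19928321068) (nat_lit 14) (nat_lit 5) (nat_lit 17) (nat_lit 5) (nat_lit 15) (nat_lit 4) (nat_lit 520) (nat_lit 314) (nat_lit 306))) (XT.nd (nat_lit 78) (nat_lit 0) (nat_lit 0) (XT.lf (nat_lit 0) (nat_lit 4844137826) (nat_lit 152) (nat_lit 15324004827) (nat_lit 0) (nat_lit 2019943759) (nat_lit 13) (nat_lit 5) (nat_lit 15) (nat_lit 4) (nat_lit 13) (nat_lit 4) (nat_lit 521) (nat_lit 314) (nat_lit 305)) (XT.lf (nat_lit 0) (nat_lit 9079254139)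 (nat_lit 152) (nat_lit 7490772997) (nat_lit 0) (nat_lit 5971213513) (nat_lit 13) (nat_lit 5) (nat_lit 15) (nat_lit 4) (nat_lit 13) (nat_lit 4) (nat_lit 522) (nat_lit 314) (nat_lit 304))))) (XT.nd (nat_lit 234) (nat_lit 152) (nat_lit 0) (XT.nd (nat_lit 78) (nat_lit 0) (nat_lit 0) (XT.lf (nat_lit 0) (nat_lit 404897813) (nat_lit 152) (nat_lit 12941968568) (nat_lit 152) (nat_lit 9555647001) (nat_lit 11) (nat_lit 4) (nat_lit 13) (nat_lit 5) (nat_lit 13) (nat_lit 4) (nat_lit 523) (nat_lit 314) (nat_lit 303)) (XT.nd (nat_lit 78) (nat_lit 0) (nat_lit 0) (XT.lf (nat_lit 0) (nat_lit 8461140316) (nat_lit 152) (nat_lit 9234555516) (nat_lit 152) (nat_lit 5575409499) (nat_lit 11) (nat_lit 4) (nat_lit 13) (nat_lit 5) (nat_lit 13) (nat_lit 4) (nat_lit 524) (nat_lit 314) (nat_lit 302)) (XT.lf (nat_lit 0) (nat_lit 16581565392) (nat_lit 152) (nat_lit 5496601124) (nat_lit 152) (nat_lit 1569980155) (nat_lit 11) (nat_lit 4) (nat_lit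 13) (nat_lit 5) (nat_lit 13) (nat_lit 4) (nat_lit 525) (nat_lit 314) (nat_lit 301)))) (XT.nd (nat_lit 156) (nat_lit 0) (nat_lit 0) (XT.nd (nat_lit 78) (nat_lit 0) (nat_lit 0) (XT.lf (nat_lit 0) (nat_lit 729148864) (nat_lit 76) (nat_lit 1705504689) (nat_lit 152) (nat_lit 21598717300) (nat_lit 9) (nat_lit 5) (nat_lit 10) (nat_lit 5) (nat_lit 11) (nat_lit 4) (nat_lit 526) (nat_lit 314) (nat_lit 300)) (XT.lf (nat_lit 0) (nat_lit 6507635281) (nat_lit 152) (nat_lit 15769410674) (nat_lit 0) (nat_lit 2148870685) (nat_lit 9) (nat_lit 5) (nat_lit 11) (nat_lit 4) (nat_lit 9) (nat_lit 4) (nat_lit 527) (nat_lit 314) (nat_lit 299))) (XT.nd (nat_lit 78) (nat_lit 0) (nat_lit 0) (XT.lf (nat_lit 0) (nat_lit 10621890858) (nat_lit 152) (nat_lit 8189215466) (nat_lit 0) (nat_lit 6016020751) (nat_lit 9) (nat_lit 5) (nat_lit 11) (nat_lit 4) (nat_lit 9) (nat_lit 4) (nat_lit 528) (nat_lit 314) (nat_lit 298)) (XT.lf (nat_lit 0) (nat_lit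 14767960452) (nat_lit 152) (nat_lit 549590471) (nat_lit 0) (nat_lit 9919830041) (nat_lit 9) (nat_lit 5) (nat_lit 11) (nat_lit 4) (nat_lit 9) (nat_lit 4) (nat_lit 529) (nat_lit 314) (nat_lit 297)))))) (XT.nd (nat_lit 58032) (nat_lit 0) (nat_lit 684) (XT.nd (nat_lit 234) (nat_lit 76) (nat_lit 0) (XT.nd (nat_lit 78) (nat_lit 76) (nat_lit 0) (XT.lf (nat_lit 0) (nat_lit 7247512672) (nat_lit 76) (nat_lit 11747012960) (nat_lit 76) (nat_lit 6661372445) (nat_lit 8) (nat_lit 4) (nat_lit 9) (nat_lit 5) (nat_lit 9) (nat_lit 4) (nat_lit 530) (nat_lit 314) (nat_lit 296)) (XT.nd (nat_lit 78) (nat_lit 76) (nat_lit 0) (XT.lf (nat_lit 0) (nat_lit 15118235459) (nat_lit 76) (nat_lit 8141980596) (nat_lit 76) (nat_lit 2823487040) (nat_lit 8) (nat_lit 4) (nat_lit 9) (nat_lit 5) (nat_lit 9) (nat_lit 4) (nat_lit 531) (nat_lit 314) (nat_lit 295)) (XT.lf (nat_lit 0) (nat_lit 1028386007) (nat_lit 152) (nat_lit 3469441118) (nat_lit 76) (nat_lit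 22023073659) (nat_lit 7) (nat_lit 5) (nat_lit 9) (nat_lit 5) (nat_lit 8) (nat_lit 4) (nat_lit 532) (nat_lit 314) (nat_lit 294)))) (XT.nd (nat_lit 57642) (nat_lit 0) (nat_lit 1140) (XT.nd (nat_lit 57564) (nat_lit 0) (nat_lit 1292) (XT.lf (nat_lit 0) (nat_lit 4124980637) (nat_lit 76) (nat_lit 773817661) (nat_lit 152) (nat_lit 22068093594) (nat_lit 6) (nat_lit 5) (nat_lit 7) (nat_lit 5) (nat_lit 8) (nat_lit 4) (nat_lit 533) (nat_lit 314) (nat_lit 293)) (XT.lf (nat_lit 0) (nat_lit 8010397179) (nat_lit 152) (nat_lit 685242801) (nat_lit 152) (nat_lit 685242801) (nat_lit 23) (nat_lit 4) (nat_lit 25) (nat_lit 5) (nat_lit 25) (nat_lit 4) (nat_lit 510) (nat_lit 315) (nat_lit 315))) (XT.nd (nat_lit 78) (nat_lit 0) (nat_lit 0) (XT.lf (nat_lit 0) (nat_lit 3003906591) (nat_lit 152) (nat_lit 13393243922) (nat_lit 0) (nat_lit 2643920522) (nat_lit 21) (nat_lit 5) (nat_lit 23) (nat_lit 4) (nat_lit 21) (nat_lit 4) (nat_lit 511)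 (nat_lit 315) (nat_lit 314)) (XT.lf (nat_lit 0) (nat_lit 7412788955) (nat_lit 152) (nat_lit 5213824363) (nat_lit 0) (nat_lit 6699875367) (nat_lit 21) (nat_lit 5) (nat_lit 23) (nat_lit 4) (nat_lit 21) (nat_lit 4) (nat_lit 512) (nat_lit 315) (nat_lit 313))))) (XT.nd (nat_lit 234) (nat_lit 228) (nat_lit 0) (XT.nd (nat_lit 78) (nat_lit 76) (nat_lit 0) (XT.lf (nat_lit 0) (nat_lit 3059990756) (nat_lit 152) (nat_lit 8808691130) (nat_lit 152) (nat_lit 7749770171) (nat_lit 19) (nat_lit 4) (nat_lit 21) (nat_lit 5) (nat_lit 21) (nat_lit 4) (nat_lit 513) (nat_lit 315) (nat_lit 312)) (XT.nd (nat_lit 78) (nat_lit 76) (nat_lit 0) (XT.lf (nat_lit 0) (nat_lit 11461351026) (nat_lit 152) (nat_lit 4926786204) (nat_lit 152) (nat_lit 3528642331) (nat_lit 19) (nat_lit 4) (nat_lit 21) (nat_lit 5) (nat_lit 21) (nat_lit 4) (nat_lit 514) (nat_lit 315) (nat_lit 311)) (XT.lf (nat_lit 0) (nat_lit 706956546) (nat_lit 228) (nat_lit 302663132)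 (nat_lit 76) (nat_lit 19212561516) (nat_lit 18) (nat_lit 5) (nat_lit 21) (nat_lit 5) (nat_lit 19) (nat_lit 4) (nat_lit 515) (nat_lit 315) (nat_lit 310)))) (XT.nd (nat_lit 156) (nat_lit 152) (nat_lit 0) (XT.nd (nat_lit 78) (nat_lit 0) (nat_lit 0) (XT.lf (nat_lit 0) (nat_lit 4992927225) (nat_lit 152) (nat_lit 12563561806) (nat_lit 0) (nat_lit 2976490137) (nat_lit 17) (nat_lit 5) (nat_lit 19) (nat_lit 4) (nat_lit 17) (nat_lit 4) (nat_lit 516) (nat_lit 315) (nat_lit 309)) (XT.lf (nat_lit 0) (nat_lit 9314926971) (nat_lit 152) (nat_lit 4550972296) (nat_lit 0) (nat_lit 6985100346) (nat_lit 17) (nat_lit 5) (nat_lit 19) (nat_lit 4) (nat_lit 17) (nat_lit 4) (nat_lit 517) (nat_lit 315) (nat_lit 308))) (XT.nd (nat_lit 78) (nat_lit 0) (nat_lit 0) (XT.lf (nat_lit 0) (nat_lit 3565332620) (nat_lit 152) (nat_lit 10123907057) (nat_lit 152) (nat_lit 7486835789) (nat_lit 15) (nat_lit 4) (nat_lit 17) (nat_lit 5) (nat_lit 17) (nat_lit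 4) (nat_lit 518) (nat_lit 315) (nat_lit 307)) (XT.lf (nat_lit 0) (nat_lit 11803036482) (nat_lit 152) (nat_lit 6321722830) (nat_lit 152) (nat_lit 3383431323) (nat_lit 15) (nat_lit 4) (nat_lit 17) (nat_lit 5) (nat_lit 17) (nat_lit 4) (nat_lit 519) (nat_lit 315) (nat_lit 306))))))) (XT.nd (nat_lit 58422) (nat_lit 0) (nat_lit 532) (XT.nd (nat_lit 546) (nat_lit 304) (nat_lit 0) (XT.nd (nat_lit 234) (nat_lit 228) (nat_lit 0) (XT.nd (nat_lit 78) (nat_lit 76) (nat_lit 0) (XT.lf (nat_lit 0) (nat_lit 735436943) (nat_lit 228) (nat_lit 1748022840) (nat_lit 76) (nat_lit 19364517622) (nat_lit 14) (nat_lit 5) (nat_lit 17) (nat_lit 5) (nat_lit 15) (nat_lit 4) (nat_lit 520) (nat_lit 315) (nat_lit 305)) (XT.nd (nat_lit 78) (nat_lit 0) (nat_lit 0) (XT.lf (nat_lit 0) (nat_lit 4886957352) (nat_lit 152) (nat_lit 15874345847) (nat_lit 0) (nat_lit 1432909354) (nat_lit 13) (nat_lit 5) (nat_lit 15) (nat_lit 4) (nat_lit 13) (nat_lit 4)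 (nat_lit 521) (nat_lit 315) (nat_lit 304)) (XT.lf (nat_lit 0) (nat_lit 9094927495) (nat_lit 152) (nat_lit 8090389246) (nat_lit 0) (nat_lit 5362598557) (nat_lit 13) (nat_lit 5) (nat_lit 15) (nat_lit 4) (nat_lit 13) (nat_lit 4) (nat_lit 522) (nat_lit 315) (nat_lit 303)))) (XT.nd (nat_lit 156) (nat_lit 76) (nat_lit 0) (XT.nd (nat_lit 78) (nat_lit 152) (nat_lit 0) (XT.lf (nat_lit 0) (nat_lit 13333296979) (nat_lit 152) (nat_lit 248337793) (nat_lit 0) (nat_lit 9328143590) (nat_lit 13) (nat_lit 5) (nat_lit 15) (nat_lit 4) (nat_lit 13) (nat_lit 4) (nat_lit 523) (nat_lit 315) (nat_lit 302)) (XT.lf (nat_lit 0) (nat_lit 7756613204) (nat_lit 152) (nat_lit 9897475783) (nat_lit 152) (nat_lit 5624847442) (nat_lit 11) (nat_lit 4) (nat_lit 13) (nat_lit 5) (nat_lit 13) (nat_lit 4) (nat_lit 524) (nat_lit 315) (nat_lit 301))) (XT.nd (nat_lit 78) (nat_lit 76) (nat_lit 0) (XT.lf (nat_lit 0) (nat_lit 15829988059) (nat_lit 152) (nat_lit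 6180685689) (nat_lit 152) (nat_lit 1645827003) (nat_lit 11) (nat_lit 4) (nat_lit 13) (nat_lit 5) (nat_lit 13) (nat_lit 4) (nat_lit 525) (nat_lit 315) (nat_lit 300)) (XT.lf (nat_lit 0) (nat_lit 2329515815) (nat_lit 228) (nat_lit 86325312) (nat_lit 76) (nat_lit 21626504427) (nat_lit 10) (nat_lit 5) (nat_lit 13) (nat_lit 5) (nat_lit 11) (nat_lit 4) (nat_lit 526) (nat_lit 315) (nat_lit 299))))) (XT.nd (nat_lit 234) (nat_lit 228) (nat_lit 0) (XT.nd (nat_lit 78) (nat_lit 0) (nat_lit 0) (XT.lf (nat_lit 0) (nat_lit 6371828471) (nat_lit 152) (nat_lit 16636945758) (nat_lit 0) (nat_lit 1426735451) (nat_lit 9) (nat_lit 5) (nat_lit 11) (nat_lit 4) (nat_lit 9) (nat_lit 4) (nat_lit 527) (nat_lit 315) (nat_lit 298)) (XT.nd (nat_lit 78) (nat_lit 0) (nat_lit 0) (XT.lf (nat_lit 0) (nat_lit 10461098358) (nat_lit 152) (nat_lit 9102381302) (nat_lit 0) (nat_lit 5273745034) (nat_lit 9) (nat_lit 5) (nat_lit 11) (nat_lit 4) (nat_lit 9)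 (nat_lit 4) (nat_lit 528) (nat_lit 315) (nat_lit 297)) (XT.lf (nat_lit 0) (nat_lit 14582672178) (nat_lit 152) (nat_lit 1507492338) (nat_lit 0) (nat_lit 9157808750) (nat_lit 9) (nat_lit 5) (nat_lit 11) (nat_lit 4) (nat_lit 9) (nat_lit 4) (nat_lit 529) (nat_lit 315) (nat_lit 296)))) (XT.nd (nat_lit 156) (nat_lit 152) (nat_lit 0) (XT.nd (nat_lit 78) (nat_lit 0) (nat_lit 0) (XT.lf (nat_lit 0) (nat_lit 6232439079) (nat_lit 76) (nat_lit 12546192281) (nat_lit 76) (nat_lit 6888475812) (nat_lit 8) (nat_lit 4) (nat_lit 9) (nat_lit 5) (nat_lit 9) (nat_lit 4) (nat_lit 530) (nat_lit 315) (nat_lit 295)) (XT.lf (nat_lit 0) (nat_lit 14059591557) (nat_lit 76) (nat_lit 8960902765) (nat_lit 76) (nat_lit 3074898999) (nat_lit 8) (nat_lit 4) (nat_lit 9) (nat_lit 5) (nat_lit 9) (nat_lit 4) (nat_lit 531) (nat_lit 315) (nat_lit 294))) (XT.nd (nat_lit 78) (nat_lit 76) (nat_lit 0) (XT.lf (nat_lit 0) (nat_lit 756751967) (nat_lit 152) (nat_lit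 4581175866) (nat_lit 76) (nat_lit 21195170616) (nat_lit 7) (nat_lit 5) (nat_lit 9) (nat_lit 5) (nat_lit 8) (nat_lit 4) (nat_lit 532) (nat_lit 315) (nat_lit 293)) (XT.lf (nat_lit 0) (nat_lit 2955721678) (nat_lit 76) (nat_lit 1640792747) (nat_lit 152) (nat_lit 22383192447) (nat_lit 6) (nat_lit 5) (nat_lit 7) (nat_lit 5) (nat_lit 8) (nat_lit 4) (nat_lit 533) (nat_lit 315) (nat_lit 292)))))) (XT.nd (nat_lit 546) (nat_lit 456) (nat_lit 0) (XT.nd (nat_lit 234) (nat_lit 304) (nat_lit 0) (XT.nd (nat_lit 78) (nat_lit 152) (nat_lit 0) (XT.lf (nat_lit 0) (nat_lit 4306012755) (nat_lit 152) (nat_lit 497748122) (nat_lit 0) (nat_lit 4306012755) (nat_lit 25) (nat_lit 5) (nat_lit 27) (nat_lit 4) (nat_lit 25) (nat_lit 4) (nat_lit 508) (nat_lit 316) (nat_lit 316)) (XT.nd (nat_lit 78) (nat_lit 0) (nat_lit 0) (XT.lf (nat_lit 0) (nat_lit 7449342520) (nat_lit 152) (nat_lit 5706455750) (nat_lit 152) (nat_lit 5331926243) (nat_lit 23)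 (nat_lit 4) (nat_lit 25) (nat_lit 5) (nat_lit 25) (nat_lit 4) (nat_lit 509) (nat_lit 316) (nat_lit 315)) (XT.lf (nat_lit 0) (nat_lit 15966110130) (nat_lit 152) (nat_lit 1768996083) (nat_lit 152) (nat_lit 1027280786) (nat_lit 23) (nat_lit 4) (nat_lit 25) (nat_lit 5) (nat_lit 25) (nat_lit 4) (nat_lit 510) (nat_lit 316) (nat_lit 314)))) (XT.nd (nat_lit 156) (nat_lit 152) (nat_lit 0) (XT.nd (nat_lit 78) (nat_lit 0) (nat_lit 0) (XT.lf (nat_lit 0) (nat_lit 3308837122) (nat_lit 152) (nat_lit 13504755584) (nat_lit 0) (nat_lit 2228737744) (nat_lit 21) (nat_lit 5) (nat_lit 23) (nat_lit 4) (nat_lit 21) (nat_lit 4) (nat_lit 511) (nat_lit 316) (nat_lit 313)) (XT.lf (nat_lit 0) (nat_lit 7687504353) (nat_lit 152) (nat_lit 5379457391) (nat_lit 0) (nat_lit 6261397603) (nat_lit 21) (nat_lit 5) (nat_lit 23) (nat_lit 4) (nat_lit 21) (nat_lit 4) (nat_lit 512) (nat_lit 316) (nat_lit 312))) (XT.nd (nat_lit 78) (nat_lit 0) (nat_lit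 0) (XT.lf (nat_lit 0) (nat_lit 2838391248) (nat_lit 152) (nat_lit 9273944586) (nat_lit 152) (nat_lit 7508614923) (nat_lit 19) (nat_lit 4) (nat_lit 21) (nat_lit 5) (nat_lit 21) (nat_lit 4) (nat_lit 513) (nat_lit 316) (nat_lit 311)) (XT.lf (nat_lit 0) (nat_lit 11187040435) (nat_lit 152) (nat_lit 5415366665) (nat_lit 152) (nat_lit 3317465518) (nat_lit 19) (nat_lit 4) (nat_lit 21) (nat_lit 5) (nat_lit 21) (nat_lit 4) (nat_lit 514) (nat_lit 316) (nat_lit 310))))) (XT.nd (nat_lit 234) (nat_lit 304) (nat_lit 0) (XT.nd (nat_lit 78) (nat_lit 76) (nat_lit 0) (XT.lf (nat_lit 0) (nat_lit 886358578) (nat_lit 228) (nat_lit 633507291) (nat_lit 76) (nat_lit 18705967479) (nat_lit 18) (nat_lit 5) (nat_lit 21) (nat_lit 5) (nat_lit 19) (nat_lit 4) (nat_lit 515) (nat_lit 316) (nat_lit 309)) (XT.nd (nat_lit 78) (nat_lit 0) (nat_lit 0) (XT.lf (nat_lit 0) (nat_lit 5137904068) (nat_lit 152) (nat_lit 12951330673) (nat_lit 0) (nat_lit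 2448091374) (nat_lit 17) (nat_lit 5) (nat_lit 19) (nat_lit 4) (nat_lit 17) (nat_lit 4) (nat_lit 516) (nat_lit 316) (nat_lit 308)) (XT.lf (nat_lit 0) (nat_lit 9431549587) (nat_lit 152) (nat_lit 4989877976) (nat_lit 0) (nat_lit 6434492249) (nat_lit 17) (nat_lit 5) (nat_lit 19) (nat_lit 4) (nat_lit 17) (nat_lit 4) (nat_lit 517) (nat_lit 316) (nat_lit 307)))) (XT.nd (nat_lit 156) (nat_lit 152) (nat_lit 0) (XT.nd (nat_lit 78) (nat_lit 0) (nat_lit 0) (XT.lf (nat_lit 0) (nat_lit 3069793728) (nat_lit 152) (nat_lit 10705052936) (nat_lit 152) (nat_lit 7406775359) (nat_lit 15) (nat_lit 4) (nat_lit 17) (nat_lit 5) (nat_lit 17) (nat_lit 4) (nat_lit 518) (nat_lit 316) (nat_lit 306)) (XT.lf (nat_lit 0) (nat_lit 11257693290) (nat_lit 152) (nat_lit 6925096449) (nat_lit 152) (nat_lit 3331504912) (nat_lit 15) (nat_lit 4) (nat_lit 17) (nat_lit 5) (nat_lit 17) (nat_lit 4) (nat_lit 519) (nat_lit 316) (nat_lit 305))) (XT.nd (nat_lit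 78) (nat_lit 76) (nat_lit 0) (XT.lf (nat_lit 0) (nat_lit 759461706) (nat_lit 228) (nat_lit 2349002380) (nat_lit 76) (nat_lit 18746160704) (nat_lit 14) (nat_lit 5) (nat_lit 17) (nat_lit 5) (nat_lit 15) (nat_lit 4) (nat_lit 520) (nat_lit 316) (nat_lit 304)) (XT.lf (nat_lit 0) (nat_lit 4875798004) (nat_lit 152) (nat_lit 16535229651) (nat_lit 0) (nat_lit 790541548) (nat_lit 13) (nat_lit 5) (nat_lit 15) (nat_lit 4) (nat_lit 13) (nat_lit 4) (nat_lit 521) (nat_lit 316) (nat_lit 303))))))))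
noncomputable def xc3 : XT := (XT.nd (nat_lit 59358) (nat_lit 0) (nat_lit 0) (XT.nd (nat_lit 58266) (nat_lit 0) (nat_lit 532) (XT.nd (nat_lit 546) (nat_lit 228) (nat_lit 0) (XT.nd (nat_lit 234) (nat_lit 152) (nat_lit 0) (XT.nd (nat_lit 78) (nat_lit 152) (nat_lit 0) (XT.lf (nat_lit 0) (nat_lit 9057154256) (nat_lit 152) (nat_lit 8799582100) (nat_lit 0) (nat_lit 4699073348) (nat_lit 13) (nat_lit 5) (nat_lit 15) (nat_lit 4) (nat_lit 13) (nat_lit 4) (nat_lit 522) (nat_lit 316) (nat_lit 302)) (XT.nd (nat_lit 78) (nat_lit 152) (nat_lit 0) (XT.lf (nat_lit 0) (nat_lit 13269431689) (nat_lit 152) (nat_lit 1004892459) (nat_lit 0) (nat_lit 8643875829) (nat_lit 13) (nat_lit 5) (nat_lit 15) (nat_lit 4) (nat_lit 13) (nat_lit 4) (nat_lit 523) (nat_lit 316) (nat_lit 301)) (XT.lf (nat_lit 0) (nat_lit 6942954103) (nat_lit 152) (nat_lit 10616406337) (nat_lit 152) (nat_lit 5728620133) (nat_lit 11) (nat_lit 4) (nat_lit 13) (nat_lit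 5) (nat_lit 13) (nat_lit 4) (nat_lit 524) (nat_lit 316) (nat_lit 300)))) (XT.nd (nat_lit 156) (nat_lit 76) (nat_lit 0) (XT.nd (nat_lit 78) (nat_lit 76) (nat_lit 0) (XT.lf (nat_lit 0) (nat_lit 14970201289) (nat_lit 152) (nat_lit 6920365556) (nat_lit 152) (nat_lit 1775490778) (nat_lit 11) (nat_lit 4) (nat_lit 13) (nat_lit 5) (nat_lit 13) (nat_lit 4) (nat_lit 525) (nat_lit 316) (nat_lit 299)) (XT.lf (nat_lit 0) (nat_lit 2176502097) (nat_lit 228) (nat_lit 1000388161) (nat_lit 76) (nat_lit 20875534974) (nat_lit 10) (nat_lit 5) (nat_lit 13) (nat_lit 5) (nat_lit 11) (nat_lit 4) (nat_lit 526) (nat_lit 316) (nat_lit 298))) (XT.nd (nat_lit 78) (nat_lit 0) (nat_lit 0) (XT.lf (nat_lit 0) (nat_lit 6182834431) (nat_lit 152) (nat_lit 17614005662) (nat_lit 0) (nat_lit 649473735) (nat_lit 9) (nat_lit 5) (nat_lit 11) (nat_lit 4) (nat_lit 9) (nat_lit 4) (nat_lit 527) (nat_lit 316) (nat_lit 297)) (XT.lf (nat_lit 0) (nat_lit 10247608543)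 (nat_lit 152) (nat_lit 10124177236) (nat_lit 0) (nat_lit 4476737744) (nat_lit 9) (nat_lit 5) (nat_lit 11) (nat_lit 4) (nat_lit 9) (nat_lit 4) (nat_lit 528) (nat_lit 316) (nat_lit 296))))) (XT.nd (nat_lit 234) (nat_lit 152) (nat_lit 0) (XT.nd (nat_lit 78) (nat_lit 76) (nat_lit 0) (XT.lf (nat_lit 0) (nat_lit 14345166897) (nat_lit 152) (nat_lit 2573147126) (nat_lit 0) (nat_lit 8341443055) (nat_lit 9) (nat_lit 5) (nat_lit 11) (nat_lit 4) (nat_lit 9) (nat_lit 4) (nat_lit 529) (nat_lit 316) (nat_lit 295)) (XT.nd (nat_lit 78) (nat_lit 0) (nat_lit 0) (XT.lf (nat_lit 0) (nat_lit 5109051990) (nat_lit 76) (nat_lit 13401235740) (nat_lit 76) (nat_lit 7169224603) (nat_lit 8) (nat_lit 4) (nat_lit 9) (nat_lit 5) (nat_lit 9) (nat_lit 4) (nat_lit 530) (nat_lit 316) (nat_lit 294)) (XT.lf (nat_lit 0) (nat_lit 12893488480) (nat_lit 76) (nat_lit 9835301956) (nat_lit 76) (nat_lit 3379479744) (nat_lit 8) (nat_lit 4) (nat_lit 9) (nat_lit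 5) (nat_lit 9) (nat_lit 4) (nat_lit 531) (nat_lit 316) (nat_lit 293)))) (XT.nd (nat_lit 57330) (nat_lit 0) (nat_lit 1444) (XT.nd (nat_lit 78) (nat_lit 76) (nat_lit 0) (XT.lf (nat_lit 0) (nat_lit 433107624) (nat_lit 152) (nat_lit 5800367433) (nat_lit 76) (nat_lit 20313005285) (nat_lit 7) (nat_lit 5) (nat_lit 9) (nat_lit 5) (nat_lit 8) (nat_lit 4) (nat_lit 532) (nat_lit 316) (nat_lit 292)) (XT.lf (nat_lit 0) (nat_lit 1678416087) (nat_lit 76) (nat_lit 2563554773) (nat_lit 152) (nat_lit 22751740122) (nat_lit 6) (nat_lit 5) (nat_lit 7) (nat_lit 5) (nat_lit 8) (nat_lit 4) (nat_lit 533) (nat_lit 316) (nat_lit 291))) (XT.nd (nat_lit 78) (nat_lit 0) (nat_lit 0) (XT.lf (nat_lit 0) (nat_lit 56789837) (nat_lit 152) (nat_lit 8736455766) (nat_lit 0) (nat_lit 56789837) (nat_lit 25) (nat_lit 5) (nat_lit 27) (nat_lit 4) (nat_lit 25) (nat_lit 4) (nat_lit 506) (nat_lit 317) (nat_lit 317)) (XT.lf (nat_lit 0) (nat_lit 4525480768)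 (nat_lit 152) (nat_lit 9287979555) (nat_lit 0) (nat_lit 4143460672) (nat_lit 25) (nat_lit 5) (nat_lit 27) (nat_lit 4) (nat_lit 25) (nat_lit 4) (nat_lit 507) (nat_lit 317) (nat_lit 316)))))) (XT.nd (nat_lit 546) (nat_lit 456) (nat_lit 0) (XT.nd (nat_lit 234) (nat_lit 304) (nat_lit 0) (XT.nd (nat_lit 78) (nat_lit 152) (nat_lit 0) (XT.lf (nat_lit 0) (nat_lit 8963090435) (nat_lit 152) (nat_lit 1050542620) (nat_lit 0) (nat_lit 8206540832) (nat_lit 25) (nat_lit 5) (nat_lit 27) (nat_lit 4) (nat_lit 25) (nat_lit 4) (nat_lit 508) (nat_lit 317) (nat_lit 315)) (XT.nd (nat_lit 78) (nat_lit 0) (nat_lit 0) (XT.lf (nat_lit 0) (nat_lit 7338880377) (nat_lit 152) (nat_lit 6136917414) (nat_lit 152) (nat_lit 5013182021) (nat_lit 23) (nat_lit 4) (nat_lit 25) (nat_lit 5) (nat_lit 25) (nat_lit 4) (nat_lit 509) (nat_lit 317) (nat_lit 314)) (XT.lf (nat_lit 0) (nat_lit 15802035998) (nat_lit 152) (nat_lit 2222968506) (nat_lit 152) (nat_lit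 739247044) (nat_lit 23) (nat_lit 4) (nat_lit 25) (nat_lit 5) (nat_lit 25) (nat_lit 4) (nat_lit 510) (nat_lit 317) (nat_lit 313)))) (XT.nd (nat_lit 156) (nat_lit 152) (nat_lit 0) (XT.nd (nat_lit 78) (nat_lit 0) (nat_lit 0) (XT.lf (nat_lit 0) (nat_lit 3558831695) (nat_lit 152) (nat_lit 13727822638) (nat_lit 0) (nat_lit 1758195439) (nat_lit 21) (nat_lit 5) (nat_lit 23) (nat_lit 4) (nat_lit 21) (nat_lit 4) (nat_lit 511) (nat_lit 317) (nat_lit 312)) (XT.lf (nat_lit 0) (nat_lit 7907876247) (nat_lit 152) (nat_lit 5655584608) (nat_lit 0) (nat_lit 5768017077) (nat_lit 21) (nat_lit 5) (nat_lit 23) (nat_lit 4) (nat_lit 21) (nat_lit 4) (nat_lit 512) (nat_lit 317) (nat_lit 311))) (XT.nd (nat_lit 78) (nat_lit 0) (nat_lit 0) (XT.lf (nat_lit 0) (nat_lit 2505883363) (nat_lit 152) (nat_lit 9795623661) (nat_lit 152) (nat_lit 7323193008) (nat_lit 19) (nat_lit 4) (nat_lit 21) (nat_lit 5) (nat_lit 21) (nat_lit 4) (nat_lit 513) (nat_lit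 317) (nat_lit 310)) (XT.lf (nat_lit 0) (nat_lit 10802855017) (nat_lit 152) (nat_lit 5959915352) (nat_lit 152) (nat_lit 3161434226) (nat_lit 19) (nat_lit 4) (nat_lit 21) (nat_lit 5) (nat_lit 21) (nat_lit 4) (nat_lit 514) (nat_lit 317) (nat_lit 309))))) (XT.nd (nat_lit 234) (nat_lit 304) (nat_lit 0) (XT.nd (nat_lit 78) (nat_lit 76) (nat_lit 0) (XT.lf (nat_lit 0) (nat_lit 1011907062) (nat_lit 228) (nat_lit 1074086187) (nat_lit 76) (nat_lit 18144726834) (nat_lit 18) (nat_lit 5) (nat_lit 21) (nat_lit 5) (nat_lit 19) (nat_lit 4) (nat_lit 515) (nat_lit 317) (nat_lit 308)) (XT.nd (nat_lit 78) (nat_lit 0) (nat_lit 0) (XT.lf (nat_lit 0) (nat_lit 5228504910) (nat_lit 152) (nat_lit 13450151279) (nat_lit 0) (nat_lit 1864261782) (nat_lit 17) (nat_lit 5) (nat_lit 19) (nat_lit 4) (nat_lit 17) (nat_lit 4) (nat_lit 516) (nat_lit 317) (nat_lit 307)) (XT.lf (nat_lit 0) (nat_lit 9494352167) (nat_lit 152) (nat_lit 5538832712) (nat_lit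 0) (nat_lit 5828888800) (nat_lit 17) (nat_lit 5) (nat_lit 19) (nat_lit 4) (nat_lit 17) (nat_lit 4) (nat_lit 517) (nat_lit 317) (nat_lit 306)))) (XT.nd (nat_lit 156) (nat_lit 152) (nat_lit 0) (XT.nd (nat_lit 78) (nat_lit 0) (nat_lit 0) (XT.lf (nat_lit 0) (nat_lit 2463739372) (nat_lit 152) (nat_lit 11342721767) (nat_lit 152) (nat_lit 7381944440) (nat_lit 15) (nat_lit 4) (nat_lit 17) (nat_lit 5) (nat_lit 17) (nat_lit 4) (nat_lit 518) (nat_lit 317) (nat_lit 305)) (XT.lf (nat_lit 0) (nat_lit 10602811189) (nat_lit 152) (nat_lit 7584557182) (nat_lit 152) (nat_lit 3334256365) (nat_lit 15) (nat_lit 4) (nat_lit 17) (nat_lit 5) (nat_lit 17) (nat_lit 4) (nat_lit 519) (nat_lit 317) (nat_lit 304))) (XT.nd (nat_lit 78) (nat_lit 76) (nat_lit 0) (XT.lf (nat_lit 0) (nat_lit 730059453) (nat_lit 228) (nat_lit 3059427279) (nat_lit 76) (nat_lit 18073007821) (nat_lit 14) (nat_lit 5) (nat_lit 17) (nat_lit 5) (nat_lit 15) (nat_lit 4)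 (nat_lit 520) (nat_lit 317) (nat_lit 303)) (XT.lf (nat_lit 0) (nat_lit 4810655408) (nat_lit 152) (nat_lit 17306915411) (nat_lit 0) (nat_lit 92588432) (nat_lit 13) (nat_lit 5) (nat_lit 15) (nat_lit 4) (nat_lit 13) (nat_lit 4) (nat_lit 521) (nat_lit 317) (nat_lit 302))))))) (XT.nd (nat_lit 58110) (nat_lit 0) (nat_lit 608) (XT.nd (nat_lit 546) (nat_lit 228) (nat_lit 0) (XT.nd (nat_lit 234) (nat_lit 152) (nat_lit 0) (XT.nd (nat_lit 78) (nat_lit 152) (nat_lit 0) (XT.lf (nat_lit 0) (nat_lit 8965919609) (nat_lit 152) (nat_lit 9618629672) (nat_lit 0) (nat_lit 3980377680) (nat_lit 13) (nat_lit 5) (nat_lit 15) (nat_lit 4) (nat_lit 13) (nat_lit 4) (nat_lit 522) (nat_lit 317) (nat_lit 301)) (XT.nd (nat_lit 78) (nat_lit 152) (nat_lit 0) (XT.lf (nat_lit 0) (nat_lit 13152616600) (nat_lit 152) (nat_lit 1870373181) (nat_lit 0) (nat_lit 7904844326) (nat_lit 13) (nat_lit 5) (nat_lit 15) (nat_lit 4) (nat_lit 13) (nat_lit 4) (nat_lit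 523) (nat_lit 317) (nat_lit 300)) (XT.lf (nat_lit 0) (nat_lit 6019843930) (nat_lit 152) (nat_lit 11391629113) (nat_lit 152) (nat_lit 5886768266) (nat_lit 11) (nat_lit 4) (nat_lit 13) (nat_lit 5) (nat_lit 13) (nat_lit 4) (nat_lit 524) (nat_lit 317) (nat_lit 299)))) (XT.nd (nat_lit 156) (nat_lit 76) (nat_lit 0) (XT.nd (nat_lit 78) (nat_lit 76) (nat_lit 0) (XT.lf (nat_lit 0) (nat_lit 14001867911) (nat_lit 152) (nat_lit 7715930794) (nat_lit 152) (nat_lit 1959022326) (nat_lit 11) (nat_lit 4) (nat_lit 13) (nat_lit 5) (nat_lit 13) (nat_lit 4) (nat_lit 525) (nat_lit 317) (nat_lit 298)) (XT.lf (nat_lit 0) (nat_lit 1970818277) (nat_lit 228) (nat_lit 2022961058) (nat_lit 76) (nat_lit 20069929188) (nat_lit 10) (nat_lit 5) (nat_lit 13) (nat_lit 5) (nat_lit 11) (nat_lit 4) (nat_lit 526) (nat_lit 317) (nat_lit 297))) (XT.nd (nat_lit 78) (nat_lit 0) (nat_lit 0) (XT.lf (nat_lit 0) (nat_lit 5756130273) (nat_lit 76) (nat_lit 185654160)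 (nat_lit 152) (nat_lit 18516524776) (nat_lit 9) (nat_lit 5) (nat_lit 10) (nat_lit 5) (nat_lit 11) (nat_lit 4) (nat_lit 527) (nat_lit 317) (nat_lit 296)) (XT.lf (nat_lit 0) (nat_lit 9981337691) (nat_lit 152) (nat_lit 11255003975) (nat_lit 0) (nat_lit 3624686331) (nat_lit 9) (nat_lit 5) (nat_lit 11) (nat_lit 4) (nat_lit 9) (nat_lit 4) (nat_lit 528) (nat_lit 317) (nat_lit 295))))) (XT.nd (nat_lit 234) (nat_lit 152) (nat_lit 0) (XT.nd (nat_lit 78) (nat_lit 76) (nat_lit 0) (XT.lf (nat_lit 0) (nat_lit 14055351470) (nat_lit 152) (nat_lit 3746972741) (nat_lit 0) (nat_lit 7470412814) (nat_lit 9) (nat_lit 5) (nat_lit 11) (nat_lit 4) (nat_lit 9) (nat_lit 4) (nat_lit 529) (nat_lit 317) (nat_lit 294)) (XT.nd (nat_lit 78) (nat_lit 0) (nat_lit 0) (XT.lf (nat_lit 0) (nat_lit 3876910863) (nat_lit 76) (nat_lit 14312478648) (nat_lit 76) (nat_lit 7503728917) (nat_lit 8) (nat_lit 4) (nat_lit 9) (nat_lit 5) (nat_lit 9) (nat_lit 4)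 (nat_lit 530) (nat_lit 317) (nat_lit 293)) (XT.lf (nat_lit 0) (nat_lit 11619468931) (nat_lit 76) (nat_lit 10765521072) (nat_lit 76) (nat_lit 3737348719) (nat_lit 8) (nat_lit 4) (nat_lit 9) (nat_lit 5) (nat_lit 9) (nat_lit 4) (nat_lit 531) (nat_lit 317) (nat_lit 292)))) (XT.nd (nat_lit 57174) (nat_lit 0) (nat_lit 1596) (XT.nd (nat_lit 78) (nat_lit 76) (nat_lit 0) (XT.lf (nat_lit 0) (nat_lit 57326058) (nat_lit 152) (nat_lit 7127493932) (nat_lit 76) (nat_lit 19376231719) (nat_lit 7) (nat_lit 5) (nat_lit 9) (nat_lit 5) (nat_lit 8) (nat_lit 4) (nat_lit 532) (nat_lit 317) (nat_lit 291)) (XT.lf (nat_lit 0) (nat_lit 292562962) (nat_lit 76) (nat_lit 3542465605) (nat_lit 152) (nat_lit 23173881148) (nat_lit 6) (nat_lit 5) (nat_lit 7) (nat_lit 5) (nat_lit 8) (nat_lit 4) (nat_lit 533) (nat_lit 317) (nat_lit 290))) (XT.nd (nat_lit 78) (nat_lit 0) (nat_lit 0) (XT.lf (nat_lit 0) (nat_lit 436046805) (nat_lit 152) (nat_lit 4082037518)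 (nat_lit 152) (nat_lit 4082037518) (nat_lit 27) (nat_lit 4) (nat_lit 29) (nat_lit 5) (nat_lit 29) (nat_lit 4) (nat_lit 504) (nat_lit 318) (nat_lit 318)) (XT.lf (nat_lit 0) (nat_lit 9342049050) (nat_lit 152) (nat_lit 4251400707) (nat_lit 152) (nat_lit 3853946999) (nat_lit 27) (nat_lit 4) (nat_lit 29) (nat_lit 5) (nat_lit 29) (nat_lit 4) (nat_lit 505) (nat_lit 318) (nat_lit 317)))))) (XT.nd (nat_lit 546) (nat_lit 532) (nat_lit 0) (XT.nd (nat_lit 234) (nat_lit 304) (nat_lit 0) (XT.nd (nat_lit 78) (nat_lit 0) (nat_lit 0) (XT.lf (nat_lit 0) (nat_lit 169637943) (nat_lit 76) (nat_lit 304001734) (nat_lit 152) (nat_lit 17227030882) (nat_lit 25) (nat_lit 5) (nat_lit 26) (nat_lit 5) (nat_lit 27) (nat_lit 4) (nat_lit 506) (nat_lit 318) (nat_lit 316)) (XT.nd (nat_lit 78) (nat_lit 0) (nat_lit 0) (XT.lf (nat_lit 0) (nat_lit 4852611818) (nat_lit 152) (nat_lit 9399173236) (nat_lit 0) (nat_lit 3706401716) (nat_lit 25) (nat_lit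 5) (nat_lit 27) (nat_lit 4) (nat_lit 25) (nat_lit 4) (nat_lit 507) (nat_lit 318) (nat_lit 315)) (XT.lf (nat_lit 0) (nat_lit 9259873275) (nat_lit 152) (nat_lit 1215703336) (nat_lit 0) (nat_lit 7746477383) (nat_lit 25) (nat_lit 5) (nat_lit 27) (nat_lit 4) (nat_lit 25) (nat_lit 4) (nat_lit 508) (nat_lit 318) (nat_lit 314)))) (XT.nd (nat_lit 156) (nat_lit 152) (nat_lit 0) (XT.nd (nat_lit 78) (nat_lit 0) (nat_lit 0) (XT.lf (nat_lit 0) (nat_lit 7117912772) (nat_lit 152) (nat_lit 6623480046) (nat_lit 152) (nat_lit 4750098085) (nat_lit 23) (nat_lit 4) (nat_lit 25) (nat_lit 5) (nat_lit 25) (nat_lit 4) (nat_lit 509) (nat_lit 318) (nat_lit 313)) (XT.lf (nat_lit 0) (nat_lit 15528507619) (nat_lit 152) (nat_lit 2732580902) (nat_lit 152) (nat_lit 506271422) (nat_lit 23) (nat_lit 4) (nat_lit 25) (nat_lit 5) (nat_lit 25) (nat_lit 4) (nat_lit 510) (nat_lit 318) (nat_lit 312))) (XT.nd (nat_lit 78) (nat_lit 0) (nat_lit 0) (XT.lf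 (nat_lit 0) (nat_lit 3753988348) (nat_lit 152) (nat_lit 14062532563) (nat_lit 0) (nat_lit 1232109082) (nat_lit 21) (nat_lit 5) (nat_lit 23) (nat_lit 4) (nat_lit 21) (nat_lit 4) (nat_lit 511) (nat_lit 318) (nat_lit 311)) (XT.lf (nat_lit 0) (nat_lit 8073991057) (nat_lit 152) (nat_lit 6042314300) (nat_lit 0) (nat_lit 5219540308) (nat_lit 21) (nat_lit 5) (nat_lit 23) (nat_lit 4) (nat_lit 21) (nat_lit 4) (nat_lit 512) (nat_lit 318) (nat_lit 310))))) (XT.nd (nat_lit 312) (nat_lit 228) (nat_lit 0) (XT.nd (nat_lit 156) (nat_lit 152) (nat_lit 0) (XT.nd (nat_lit 78) (nat_lit 0) (nat_lit 0) (XT.lf (nat_lit 0) (nat_lit 2062336705) (nat_lit 152) (nat_lit 10373932935) (nat_lit 152) (nat_lit 7193431712) (nat_lit 19) (nat_lit 4) (nat_lit 21) (nat_lit 5) (nat_lit 21) (nat_lit 4) (nat_lit 513) (nat_lit 318) (nat_lit 309)) (XT.lf (nat_lit 0) (nat_lit 10308644113) (nat_lit 152) (nat_lit 6560645815) (nat_lit 152) (nat_lit 3060487264)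 (nat_lit 19) (nat_lit 4) (nat_lit 21) (nat_lit 5) (nat_lit 21) (nat_lit 4) (nat_lit 514) (nat_lit 318) (nat_lit 308))) (XT.nd (nat_lit 78) (nat_lit 76) (nat_lit 0) (XT.lf (nat_lit 0) (nat_lit 1083651233) (nat_lit 228) (nat_lit 1624572596) (nat_lit 76) (nat_lit 17528619488) (nat_lit 18) (nat_lit 5) (nat_lit 21) (nat_lit 5) (nat_lit 19) (nat_lit 4) (nat_lit 515) (nat_lit 318) (nat_lit 307)) (XT.lf (nat_lit 0) (nat_lit 5264765279) (nat_lit 152) (nat_lit 14060219240) (nat_lit 0) (nat_lit 1224772406) (nat_lit 17) (nat_lit 5) (nat_lit 19) (nat_lit 4) (nat_lit 17) (nat_lit 4) (nat_lit 516) (nat_lit 318) (nat_lit 306)))) (XT.nd (nat_lit 156) (nat_lit 76) (nat_lit 0) (XT.nd (nat_lit 78) (nat_lit 152) (nat_lit 0) (XT.lf (nat_lit 0) (nat_lit 9503359339) (nat_lit 152) (nat_lit 6198051781) (nat_lit 0) (nat_lit 5168052505) (nat_lit 17) (nat_lit 5) (nat_lit 19) (nat_lit 4) (nat_lit 17) (nat_lit 4) (nat_lit 517) (nat_lit 318)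 (nat_lit 305)) (XT.lf (nat_lit 0) (nat_lit 1746931884) (nat_lit 152) (nat_lit 12037163616) (nat_lit 152) (nat_lit 7412333293) (nat_lit 15) (nat_lit 4) (nat_lit 17) (nat_lit 5) (nat_lit 17) (nat_lit 4) (nat_lit 518) (nat_lit 318) (nat_lit 304))) (XT.nd (nat_lit 78) (nat_lit 76) (nat_lit 0) (XT.lf (nat_lit 0) (nat_lit 9838133362) (nat_lit 152) (nat_lit 8300363641) (nat_lit 152) (nat_lit 3391686758) (nat_lit 15) (nat_lit 4) (nat_lit 17) (nat_lit 5) (nat_lit 17) (nat_lit 4) (nat_lit 519) (nat_lit 318) (nat_lit 303)) (XT.lf (nat_lit 0) (nat_lit 647218655) (nat_lit 228) (nat_lit 3879576137) (nat_lit 76) (nat_lit 17344794993) (nat_lit 14) (nat_lit 5) (nat_lit 17) (nat_lit 5) (nat_lit 15) (nat_lit 4) (nat_lit 520) (nat_lit 318) (nat_lit 302))))))))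
noncomputable def xc4 : XT := (XT.nd (nat_lit 59046) (nat_lit 0) (nat_lit 0) (XT.nd (nat_lit 57954) (nat_lit 0) (nat_lit 760) (XT.nd (nat_lit 546) (nat_lit 152) (nat_lit 0) (XT.nd (nat_lit 234) (nat_lit 304) (nat_lit 0) (XT.nd (nat_lit 78) (nat_lit 0) (nat_lit 0) (XT.lf (nat_lit 0) (nat_lit 4025843157) (nat_lit 76) (nat_lit 670011016) (nat_lit 152) (nat_lit 17524044887) (nat_lit 13) (nat_lit 5) (nat_lit 14) (nat_lit 5) (nat_lit 15) (nat_lit 4) (nat_lit 521) (nat_lit 318) (nat_lit 301)) (XT.nd (nat_lit 78) (nat_lit 0) (nat_lit 0) (XT.lf (nat_lit 0) (nat_lit 8821187776) (nat_lit 152) (nat_lit 10547853158) (nat_lit 0) (nat_lit 3206229711) (nat_lit 13) (nat_lit 5) (nat_lit 15) (nat_lit 4) (nat_lit 13) (nat_lit 4) (nat_lit 522) (nat_lit 318) (nat_lit 300)) (XT.lf (nat_lit 0) (nat_lit 12982805902) (nat_lit 152) (nat_lit 2845119362) (nat_lit 0) (nat_lit 7110759264) (nat_lit 13) (nat_lit 5) (nat_lit 15) (nat_lit 4) (nat_lit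 13) (nat_lit 4) (nat_lit 523) (nat_lit 318) (nat_lit 299)))) (XT.nd (nat_lit 156) (nat_lit 152) (nat_lit 0) (XT.nd (nat_lit 78) (nat_lit 0) (nat_lit 0) (XT.lf (nat_lit 0) (nat_lit 4986920680) (nat_lit 152) (nat_lit 12223448119) (nat_lit 152) (nat_lit 6099353860) (nat_lit 11) (nat_lit 4) (nat_lit 13) (nat_lit 5) (nat_lit 13) (nat_lit 4) (nat_lit 524) (nat_lit 318) (nat_lit 298)) (XT.lf (nat_lit 0) (nat_lit 12924608187) (nat_lit 152) (nat_lit 8567693392) (nat_lit 152) (nat_lit 2196493622) (nat_lit 11) (nat_lit 4) (nat_lit 13) (nat_lit 5) (nat_lit 13) (nat_lit 4) (nat_lit 525) (nat_lit 318) (nat_lit 297))) (XT.nd (nat_lit 78) (nat_lit 76) (nat_lit 0) (XT.lf (nat_lit 0) (nat_lit 1712383694) (nat_lit 228) (nat_lit 3154445010) (nat_lit 76) (nat_lit 19209371146) (nat_lit 10) (nat_lit 5) (nat_lit 13) (nat_lit 5) (nat_lit 11) (nat_lit 4) (nat_lit 526) (nat_lit 318) (nat_lit 296)) (XT.lf (nat_lit 0) (nat_lit 4566105719)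 (nat_lit 76) (nat_lit 1085912051) (nat_lit 152) (nat_lit 18819414083) (nat_lit 9) (nat_lit 5) (nat_lit 10) (nat_lit 5) (nat_lit 11) (nat_lit 4) (nat_lit 527) (nat_lit 318) (nat_lit 295))))) (XT.nd (nat_lit 234) (nat_lit 76) (nat_lit 0) (XT.nd (nat_lit 78) (nat_lit 76) (nat_lit 0) (XT.lf (nat_lit 0) (nat_lit 9662181381) (nat_lit 152) (nat_lit 12495304977) (nat_lit 0) (nat_lit 2717256656) (nat_lit 9) (nat_lit 5) (nat_lit 11) (nat_lit 4) (nat_lit 9) (nat_lit 4) (nat_lit 528) (nat_lit 318) (nat_lit 294)) (XT.nd (nat_lit 78) (nat_lit 76) (nat_lit 0) (XT.lf (nat_lit 0) (nat_lit 13713112244) (nat_lit 152) (nat_lit 5029429505) (nat_lit 0) (nat_lit 6544376444) (nat_lit 9) (nat_lit 5) (nat_lit 11) (nat_lit 4) (nat_lit 9) (nat_lit 4) (nat_lit 529) (nat_lit 318) (nat_lit 293)) (XT.lf (nat_lit 0) (nat_lit 2535532503) (nat_lit 76) (nat_lit 15280278354) (nat_lit 76) (nat_lit 7892119933) (nat_lit 8) (nat_lit 4) (nat_lit 9) (nat_lit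 5) (nat_lit 9) (nat_lit 4) (nat_lit 530) (nat_lit 318) (nat_lit 292)))) (XT.nd (nat_lit 156) (nat_lit 76) (nat_lit 0) (XT.nd (nat_lit 78) (nat_lit 0) (nat_lit 0) (XT.lf (nat_lit 0) (nat_lit 10237033297) (nat_lit 76) (nat_lit 11751924904) (nat_lit 76) (nat_lit 4148646264) (nat_lit 8) (nat_lit 4) (nat_lit 9) (nat_lit 5) (nat_lit 9) (nat_lit 4) (nat_lit 531) (nat_lit 318) (nat_lit 291)) (XT.lf (nat_lit 0) (nat_lit 18011254601) (nat_lit 76) (nat_lit 8189847849) (nat_lit 76) (nat_lit 375667036) (nat_lit 8) (nat_lit 4) (nat_lit 9) (nat_lit 5) (nat_lit 9) (nat_lit 4) (nat_lit 532) (nat_lit 318) (nat_lit 290))) (XT.nd (nat_lit 56940) (nat_lit 0) (nat_lit 1672) (XT.lf (nat_lit 0) (nat_lit 3383334617) (nat_lit 152) (nat_lit 1186611724) (nat_lit 76) (nat_lit 22455206557) (nat_lit 7) (nat_lit 5) (nat_lit 9) (nat_lit 5) (nat_lit 8) (nat_lit 4) (nat_lit 533) (nat_lit 318) (nat_lit 289)) (XT.lf (nat_lit 0) (nat_lit 270686380)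 (nat_lit 228) (nat_lit 7819356934) (nat_lit 0) (nat_lit 270686380) (nat_lit 29) (nat_lit 5) (nat_lit 32) (nat_lit 4) (nat_lit 29) (nat_lit 4) (nat_lit 502) (nat_lit 319) (nat_lit 319)))))) (XT.nd (nat_lit 546) (nat_lit 456) (nat_lit 0) (XT.nd (nat_lit 234) (nat_lit 304) (nat_lit 0) (XT.nd (nat_lit 78) (nat_lit 152) (nat_lit 0) (XT.lf (nat_lit 0) (nat_lit 4960312197) (nat_lit 228) (nat_lit 7442997667) (nat_lit 0) (nat_lit 4554909415) (nat_lit 29) (nat_lit 5) (nat_lit 32) (nat_lit 4) (nat_lit 29) (nat_lit 4) (nat_lit 503) (nat_lit 319) (nat_lit 318)) (XT.nd (nat_lit 78) (nat_lit 0) (nat_lit 0) (XT.lf (nat_lit 0) (nat_lit 816484969) (nat_lit 152) (nat_lit 8593626194) (nat_lit 152) (nat_lit 7790769703) (nat_lit 27) (nat_lit 4) (nat_lit 29) (nat_lit 5) (nat_lit 29) (nat_lit 4) (nat_lit 504) (nat_lit 319) (nat_lit 317)) (XT.lf (nat_lit 0) (nat_lit 9231922132) (nat_lit 152) (nat_lit 4704626743) (nat_lit 152) (nat_lit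 3512109754) (nat_lit 27) (nat_lit 4) (nat_lit 29) (nat_lit 5) (nat_lit 29) (nat_lit 4) (nat_lit 505) (nat_lit 319) (nat_lit 316)))) (XT.nd (nat_lit 156) (nat_lit 152) (nat_lit 0) (XT.nd (nat_lit 78) (nat_lit 76) (nat_lit 0) (XT.lf (nat_lit 0) (nat_lit 779445815) (nat_lit 228) (nat_lit 56538) (nat_lit 76) (nat_lit 16923024164) (nat_lit 26) (nat_lit 5) (nat_lit 29) (nat_lit 5) (nat_lit 27) (nat_lit 4) (nat_lit 506) (nat_lit 319) (nat_lit 315)) (XT.lf (nat_lit 0) (nat_lit 5124982106) (nat_lit 152) (nat_lit 9621604202) (nat_lit 0) (nat_lit 3214132506) (nat_lit 25) (nat_lit 5) (nat_lit 27) (nat_lit 4) (nat_lit 25) (nat_lit 4) (nat_lit 507) (nat_lit 319) (nat_lit 314))) (XT.nd (nat_lit 78) (nat_lit 152) (nat_lit 0) (XT.lf (nat_lit 0) (nat_lit 9502490418) (nat_lit 152) (nat_lit 1491043161) (nat_lit 0) (nat_lit 7231654749) (nat_lit 25) (nat_lit 5) (nat_lit 27) (nat_lit 4) (nat_lit 25) (nat_lit 4) (nat_lit 508) (nat_lit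 319) (nat_lit 313)) (XT.lf (nat_lit 0) (nat_lit 6786353052) (nat_lit 152) (nat_lit 7166334452) (nat_lit 152) (nat_lit 4542571264) (nat_lit 23) (nat_lit 4) (nat_lit 25) (nat_lit 5) (nat_lit 25) (nat_lit 4) (nat_lit 509) (nat_lit 319) (nat_lit 312))))) (XT.nd (nat_lit 234) (nat_lit 304) (nat_lit 0) (XT.nd (nat_lit 78) (nat_lit 152) (nat_lit 0) (XT.lf (nat_lit 0) (nat_lit 15145417728) (nat_lit 152) (nat_lit 3298033116) (nat_lit 152) (nat_lit 328262556) (nat_lit 23) (nat_lit 4) (nat_lit 25) (nat_lit 5) (nat_lit 25) (nat_lit 4) (nat_lit 510) (nat_lit 319) (nat_lit 311)) (XT.nd (nat_lit 78) (nat_lit 0) (nat_lit 0) (XT.lf (nat_lit 0) (nat_lit 3894383612) (nat_lit 152) (nat_lit 14509016615) (nat_lit 0) (nat_lit 650272364) (nat_lit 21) (nat_lit 5) (nat_lit 23) (nat_lit 4) (nat_lit 21) (nat_lit 4) (nat_lit 511) (nat_lit 319) (nat_lit 310)) (XT.lf (nat_lit 0) (nat_lit 8185913926) (nat_lit 152) (nat_lit 6539798124) (nat_lit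 0) (nat_lit 4615752204) (nat_lit 21) (nat_lit 5) (nat_lit 23) (nat_lit 4) (nat_lit 21) (nat_lit 4) (nat_lit 512) (nat_lit 319) (nat_lit 309)))) (XT.nd (nat_lit 156) (nat_lit 152) (nat_lit 0) (XT.nd (nat_lit 78) (nat_lit 0) (nat_lit 0) (XT.lf (nat_lit 0) (nat_lit 1507577336) (nat_lit 152) (nat_lit 11009099196) (nat_lit 152) (nat_lit 7119280147) (nat_lit 19) (nat_lit 4) (nat_lit 21) (nat_lit 5) (nat_lit 21) (nat_lit 4) (nat_lit 513) (nat_lit 319) (nat_lit 308)) (XT.lf (nat_lit 0) (nat_lit 9704213913) (nat_lit 152) (nat_lit 7217793634) (nat_lit 152) (nat_lit 3014585048) (nat_lit 19) (nat_lit 4) (nat_lit 21) (nat_lit 5) (nat_lit 21) (nat_lit 4) (nat_lit 514) (nat_lit 319) (nat_lit 307))) (XT.nd (nat_lit 78) (nat_lit 76) (nat_lit 0) (XT.lf (nat_lit 0) (nat_lit 1101619224) (nat_lit 228) (nat_lit 2285182395) (nat_lit 76) (nat_lit 16857403828) (nat_lit 18) (nat_lit 5) (nat_lit 21) (nat_lit 5) (nat_lit 19) (nat_lit 4)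 (nat_lit 515) (nat_lit 319) (nat_lit 306)) (XT.lf (nat_lit 0) (nat_lit 5246699397) (nat_lit 152) (nat_lit 14781773798) (nat_lit 0) (nat_lit 529372467) (nat_lit 17) (nat_lit 5) (nat_lit 19) (nat_lit 4) (nat_lit 17) (nat_lit 4) (nat_lit 516) (nat_lit 319) (nat_lit 305))))))) (XT.nd (nat_lit 1092) (nat_lit 76) (nat_lit 0) (XT.nd (nat_lit 546) (nat_lit 380) (nat_lit 0) (XT.nd (nat_lit 234) (nat_lit 152) (nat_lit 0) (XT.nd (nat_lit 78) (nat_lit 152) (nat_lit 0) (XT.lf (nat_lit 0) (nat_lit 9458574635) (nat_lit 152) (nat_lit 6967793700) (nat_lit 0) (nat_lit 4451724215) (nat_lit 17) (nat_lit 5) (nat_lit 19) (nat_lit 4) (nat_lit 17) (nat_lit 4) (nat_lit 517) (nat_lit 319) (nat_lit 304)) (XT.nd (nat_lit 78) (nat_lit 0) (nat_lit 0) (XT.lf (nat_lit 0) (nat_lit 919090162) (nat_lit 152) (nat_lit 12788650814) (nat_lit 152) (nat_lit 7497953835) (nat_lit 15) (nat_lit 4) (nat_lit 17) (nat_lit 5) (nat_lit 17) (nat_lit 4) (nat_lit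 518) (nat_lit 319) (nat_lit 303)) (XT.lf (nat_lit 0) (nat_lit 8963359935) (nat_lit 152) (nat_lit 9072796534) (nat_lit 152) (nat_lit 3503818615) (nat_lit 15) (nat_lit 4) (nat_lit 17) (nat_lit 5) (nat_lit 17) (nat_lit 4) (nat_lit 519) (nat_lit 319) (nat_lit 302)))) (XT.nd (nat_lit 156) (nat_lit 0) (nat_lit 0) (XT.nd (nat_lit 78) (nat_lit 76) (nat_lit 0) (XT.lf (nat_lit 0) (nat_lit 510906826) (nat_lit 228) (nat_lit 4809770579) (nat_lit 76) (nat_lit 16561236644) (nat_lit 14) (nat_lit 5) (nat_lit 17) (nat_lit 5) (nat_lit 15) (nat_lit 4) (nat_lit 520) (nat_lit 319) (nat_lit 301)) (XT.lf (nat_lit 0) (nat_lit 3037234179) (nat_lit 76) (nat_lit 1490741811) (nat_lit 152) (nat_lit 17702883925) (nat_lit 13) (nat_lit 5) (nat_lit 14) (nat_lit 5) (nat_lit 15) (nat_lit 4) (nat_lit 521) (nat_lit 319) (nat_lit 300))) (XT.nd (nat_lit 78) (nat_lit 0) (nat_lit 0) (XT.lf (nat_lit 0) (nat_lit 8622901999) (nat_lit 152) (nat_lit 11587616959)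 (nat_lit 0) (nat_lit 2376325855) (nat_lit 13) (nat_lit 5) (nat_lit 15) (nat_lit 4) (nat_lit 13) (nat_lit 4) (nat_lit 522) (nat_lit 319) (nat_lit 299)) (XT.lf (nat_lit 0) (nat_lit 12759933003) (nat_lit 152) (nat_lit 3929513257) (nat_lit 0) (nat_lit 6261309237) (nat_lit 13) (nat_lit 5) (nat_lit 15) (nat_lit 4) (nat_lit 13) (nat_lit 4) (nat_lit 523) (nat_lit 319) (nat_lit 298))))) (XT.nd (nat_lit 234) (nat_lit 152) (nat_lit 0) (XT.nd (nat_lit 78) (nat_lit 76) (nat_lit 0) (XT.lf (nat_lit 0) (nat_lit 3843779286) (nat_lit 152) (nat_lit 13112189560) (nat_lit 152) (nat_lit 6366460284) (nat_lit 11) (nat_lit 4) (nat_lit 13) (nat_lit 5) (nat_lit 13) (nat_lit 4) (nat_lit 524) (nat_lit 319) (nat_lit 297)) (XT.nd (nat_lit 78) (nat_lit 76) (nat_lit 0) (XT.lf (nat_lit 0) (nat_lit 11737999661) (nat_lit 152) (nat_lit 9475987373) (nat_lit 152) (nat_lit 2487997792) (nat_lit 11) (nat_lit 4) (nat_lit 13) (nat_lit 5) (nat_lit 13) (nat_lit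 4) (nat_lit 525) (nat_lit 319) (nat_lit 296)) (XT.lf (nat_lit 0) (nat_lit 1401097002) (nat_lit 228) (nat_lit 4395283738) (nat_lit 76) (nat_lit 18293523374) (nat_lit 10) (nat_lit 5) (nat_lit 13) (nat_lit 5) (nat_lit 11) (nat_lit 4) (nat_lit 526) (nat_lit 319) (nat_lit 295)))) (XT.nd (nat_lit 156) (nat_lit 76) (nat_lit 0) (XT.nd (nat_lit 78) (nat_lit 0) (nat_lit 0) (XT.lf (nat_lit 0) (nat_lit 3266126137) (nat_lit 76) (nat_lit 2043021814) (nat_lit 152) (nat_lit 19176624410) (nat_lit 9) (nat_lit 5) (nat_lit 10) (nat_lit 5) (nat_lit 11) (nat_lit 4) (nat_lit 527) (nat_lit 319) (nat_lit 294)) (XT.lf (nat_lit 0) (nat_lit 9290014455) (nat_lit 152) (nat_lit 13845566638) (nat_lit 0) (nat_lit 1754092865) (nat_lit 9) (nat_lit 5) (nat_lit 11) (nat_lit 4) (nat_lit 9) (nat_lit 4) (nat_lit 528) (nat_lit 319) (nat_lit 293))) (XT.nd (nat_lit 78) (nat_lit 76) (nat_lit 0) (XT.lf (nat_lit 0) (nat_lit 13318315008) (nat_lit 152) (nat_lit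 6421020342) (nat_lit 0) (nat_lit 5562970796) (nat_lit 9) (nat_lit 5) (nat_lit 11) (nat_lit 4) (nat_lit 9) (nat_lit 4) (nat_lit 529) (nat_lit 319) (nat_lit 292)) (XT.lf (nat_lit 0) (nat_lit 1084390880) (nat_lit 76) (nat_lit 16305014389) (nat_lit 76) (nat_lit 8334549959) (nat_lit 8) (nat_lit 4) (nat_lit 9) (nat_lit 5) (nat_lit 9) (nat_lit 4) (nat_lit 530) (nat_lit 319) (nat_lit 291)))))) (XT.nd (nat_lit 57252) (nat_lit 0) (nat_lit 1216) (XT.nd (nat_lit 56940) (nat_lit 0) (nat_lit 1672) (XT.nd (nat_lit 78) (nat_lit 76) (nat_lit 0) (XT.lf (nat_lit 0) (nat_lit 8745639444) (nat_lit 76) (nat_lit 12794900277) (nat_lit 76) (nat_lit 4613533673) (nat_lit 8) (nat_lit 4) (nat_lit 9) (nat_lit 5) (nat_lit 9) (nat_lit 4) (nat_lit 531) (nat_lit 319) (nat_lit 290)) (XT.nd (nat_lit 78) (nat_lit 76) (nat_lit 0) (XT.lf (nat_lit 0) (nat_lit 16480397777) (nat_lit 76) (nat_lit 9250704928) (nat_lit 76) (nat_lit 862571486) (nat_lit 8)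 (nat_lit 4) (nat_lit 9) (nat_lit 5) (nat_lit 9) (nat_lit 4) (nat_lit 532) (nat_lit 319) (nat_lit 289)) (XT.lf (nat_lit 0) (nat_lit 2881513767) (nat_lit 152) (nat_lit 2770188218) (nat_lit 76) (nat_lit 21390848878) (nat_lit 7) (nat_lit 5) (nat_lit 9) (nat_lit 5) (nat_lit 8) (nat_lit 4) (nat_lit 533) (nat_lit 319) (nat_lit 288)))) (XT.nd (nat_lit 156) (nat_lit 228) (nat_lit 0) (XT.nd (nat_lit 78) (nat_lit 0) (nat_lit 0) (XT.lf (nat_lit 0) (nat_lit 400744793) (nat_lit 152) (nat_lit 3864848412) (nat_lit 152) (nat_lit 3864848412) (nat_lit 32) (nat_lit 4) (nat_lit 34) (nat_lit 5) (nat_lit 34) (nat_lit 4) (nat_lit 500) (nat_lit 320) (nat_lit 320)) (XT.lf (nat_lit 0) (nat_lit 9242728769) (nat_lit 152) (nat_lit 3833883006) (nat_lit 152) (nat_lit 3412101951) (nat_lit 32) (nat_lit 4) (nat_lit 34) (nat_lit 5) (nat_lit 34) (nat_lit 4) (nat_lit 501) (nat_lit 320) (nat_lit 319))) (XT.nd (nat_lit 78) (nat_lit 0) (nat_lit 0) (XT.lf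 (nat_lit 0) (nat_lit 923162396) (nat_lit 228) (nat_lit 15694690779) (nat_lit 0) (nat_lit 104248775) (nat_lit 29) (nat_lit 5) (nat_lit 32) (nat_lit 4) (nat_lit 29) (nat_lit 4) (nat_lit 502) (nat_lit 320) (nat_lit 318)) (XT.lf (nat_lit 0) (nat_lit 5311002614) (nat_lit 228) (nat_lit 7553853903) (nat_lit 0) (nat_lit 4094635285) (nat_lit 29) (nat_lit 5) (nat_lit 32) (nat_lit 4) (nat_lit 29) (nat_lit 4) (nat_lit 503) (nat_lit 320) (nat_lit 317))))) (XT.nd (nat_lit 234) (nat_lit 228) (nat_lit 0) (XT.nd (nat_lit 78) (nat_lit 76) (nat_lit 0) (XT.lf (nat_lit 0) (nat_lit 649637236) (nat_lit 152) (nat_lit 9079591628) (nat_lit 152) (nat_lit 7473563801) (nat_lit 27) (nat_lit 4) (nat_lit 29) (nat_lit 5) (nat_lit 29) (nat_lit 4) (nat_lit 504) (nat_lit 320) (nat_lit 316)) (XT.nd (nat_lit 78) (nat_lit 76) (nat_lit 0) (XT.lf (nat_lit 0) (nat_lit 9011625108) (nat_lit 152) (nat_lit 5213802842) (nat_lit 152) (nat_lit 3225754918) (nat_lit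 27) (nat_lit 4) (nat_lit 29) (nat_lit 5) (nat_lit 29) (nat_lit 4) (nat_lit 505) (nat_lit 320) (nat_lit 315)) (XT.lf (nat_lit 0) (nat_lit 1032195596) (nat_lit 228) (nat_lit 277542325) (nat_lit 76) (nat_lit 16395880010) (nat_lit 26) (nat_lit 5) (nat_lit 29) (nat_lit 5) (nat_lit 27) (nat_lit 4) (nat_lit 506) (nat_lit 320) (nat_lit 314)))) (XT.nd (nat_lit 156) (nat_lit 152) (nat_lit 0) (XT.nd (nat_lit 78) (nat_lit 0) (nat_lit 0) (XT.lf (nat_lit 0) (nat_lit 5342698446) (nat_lit 152) (nat_lit 9955359682) (nat_lit 0) (nat_lit 2666459994) (nat_lit 25) (nat_lit 5) (nat_lit 27) (nat_lit 4) (nat_lit 25) (nat_lit 4) (nat_lit 507) (nat_lit 320) (nat_lit 313)) (XT.lf (nat_lit 0) (nat_lit 9691037007) (nat_lit 152) (nat_lit 1876670071) (nat_lit 0) (nat_lit 6661871037) (nat_lit 25) (nat_lit 5) (nat_lit 27) (nat_lit 4) (nat_lit 25) (nat_lit 4) (nat_lit 508) (nat_lit 320) (nat_lit 312))) (XT.nd (nat_lit 78) (nat_lit 0) (nat_lit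 0) (XT.lf (nat_lit 0) (nat_lit 6344071193) (nat_lit 152) (nat_lit 7765693519) (nat_lit 152) (nat_lit 4390520177) (nat_lit 23) (nat_lit 4) (nat_lit 25) (nat_lit 5) (nat_lit 25) (nat_lit 4) (nat_lit 509) (nat_lit 320) (nat_lit 311)) (XT.lf (nat_lit 0) (nat_lit 14652616094) (nat_lit 152) (nat_lit 3919546896) (nat_lit 152) (nat_lit 205150641) (nat_lit 23) (nat_lit 4) (nat_lit 25) (nat_lit 5) (nat_lit 25) (nat_lit 4) (nat_lit 510) (nat_lit 320) (nat_lit 310))))))))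
noncomputable def xc5 : XT := (XT.nd (nat_lit 58734) (nat_lit 0) (nat_lit 152) (XT.nd (nat_lit 1092) (nat_lit 304) (nat_lit 0) (XT.nd (nat_lit 546) (nat_lit 456) (nat_lit 0) (XT.nd (nat_lit 234) (nat_lit 152) (nat_lit 0) (XT.nd (nat_lit 78) (nat_lit 152) (nat_lit 0) (XT.lf (nat_lit 0) (nat_lit 3980072544) (nat_lit 152) (nat_lit 15067449888) (nat_lit 0) (nat_lit 12457113) (nat_lit 21) (nat_lit 5) (nat_lit 23) (nat_lit 4) (nat_lit 21) (nat_lit 4) (nat_lit 511) (nat_lit 320) (nat_lit 309)) (XT.nd (nat_lit 78) (nat_lit 152) (nat_lit 0) (XT.lf (nat_lit 0) (nat_lit 8243688746) (nat_lit 152) (nat_lit 7148231173) (nat_lit 0) (nat_lit 3956415988) (nat_lit 21) (nat_lit 5) (nat_lit 23) (nat_lit 4) (nat_lit 21) (nat_lit 4) (nat_lit 512) (nat_lit 320) (nat_lit 308)) (XT.lf (nat_lit 0) (nat_lit 841387701) (nat_lit 152) (nat_lit 11701371529) (nat_lit 152) (nat_lit 7100709235) (nat_lit 19) (nat_lit 4) (nat_lit 21) (nat_lit 5)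 (nat_lit 21) (nat_lit 4) (nat_lit 513) (nat_lit 320) (nat_lit 307)))) (XT.nd (nat_lit 156) (nat_lit 76) (nat_lit 0) (XT.nd (nat_lit 78) (nat_lit 76) (nat_lit 0) (XT.lf (nat_lit 0) (nat_lit 8989327385) (nat_lit 152) (nat_lit 7931616513) (nat_lit 152) (nat_lit 3023709575) (nat_lit 19) (nat_lit 4) (nat_lit 21) (nat_lit 5) (nat_lit 21) (nat_lit 4) (nat_lit 514) (nat_lit 320) (nat_lit 306)) (XT.lf (nat_lit 0) (nat_lit 1065818084) (nat_lit 228) (nat_lit 3056174647) (nat_lit 76) (nat_lit 16130816635) (nat_lit 18) (nat_lit 5) (nat_lit 21) (nat_lit 5) (nat_lit 19) (nat_lit 4) (nat_lit 515) (nat_lit 320) (nat_lit 305))) (XT.nd (nat_lit 78) (nat_lit 0) (nat_lit 0) (XT.lf (nat_lit 0) (nat_lit 4950598286) (nat_lit 76) (nat_lit 225163804) (nat_lit 152) (nat_lit 15391396024) (nat_lit 17) (nat_lit 5) (nat_lit 18) (nat_lit 5) (nat_lit 19) (nat_lit 4) (nat_lit 516) (nat_lit 320) (nat_lit 304)) (XT.lf (nat_lit 0) (nat_lit 9359980492)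 (nat_lit 152) (nat_lit 7848360328) (nat_lit 0) (nat_lit 3679623015) (nat_lit 17) (nat_lit 5) (nat_lit 19) (nat_lit 4) (nat_lit 17) (nat_lit 4) (nat_lit 517) (nat_lit 320) (nat_lit 303))))) (XT.nd (nat_lit 234) (nat_lit 228) (nat_lit 0) (XT.nd (nat_lit 78) (nat_lit 228) (nat_lit 0) (XT.lf (nat_lit 0) (nat_lit 13577498194) (nat_lit 152) (nat_lit 19846685) (nat_lit 0) (nat_lit 7618859776) (nat_lit 17) (nat_lit 5) (nat_lit 19) (nat_lit 4) (nat_lit 17) (nat_lit 4) (nat_lit 518) (nat_lit 320) (nat_lit 302)) (XT.nd (nat_lit 78) (nat_lit 76) (nat_lit 0) (XT.lf (nat_lit 0) (nat_lit 7978147861) (nat_lit 152) (nat_lit 9902158777) (nat_lit 152) (nat_lit 3670695908) (nat_lit 15) (nat_lit 4) (nat_lit 17) (nat_lit 5) (nat_lit 17) (nat_lit 4) (nat_lit 519) (nat_lit 320) (nat_lit 301)) (XT.lf (nat_lit 0) (nat_lit 321070510) (nat_lit 228) (nat_lit 5850375389) (nat_lit 76) (nat_lit 15722025499) (nat_lit 14) (nat_lit 5) (nat_lit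 17) (nat_lit 5) (nat_lit 15) (nat_lit 4) (nat_lit 520) (nat_lit 320) (nat_lit 300)))) (XT.nd (nat_lit 156) (nat_lit 152) (nat_lit 0) (XT.nd (nat_lit 78) (nat_lit 0) (nat_lit 0) (XT.lf (nat_lit 0) (nat_lit 1937650533) (nat_lit 76) (nat_lit 2368695357) (nat_lit 152) (nat_lit 17936712409) (nat_lit 13) (nat_lit 5) (nat_lit 14) (nat_lit 5) (nat_lit 15) (nat_lit 4) (nat_lit 521) (nat_lit 320) (nat_lit 299)) (XT.lf (nat_lit 0) (nat_lit 8370984519) (nat_lit 152) (nat_lit 12738328825) (nat_lit 0) (nat_lit 1490340657) (nat_lit 13) (nat_lit 5) (nat_lit 15) (nat_lit 4) (nat_lit 13) (nat_lit 4) (nat_lit 522) (nat_lit 320) (nat_lit 298))) (XT.nd (nat_lit 78) (nat_lit 152) (nat_lit 0) (XT.lf (nat_lit 0) (nat_lit 12483910501) (nat_lit 152) (nat_lit 5123980118) (nat_lit 0) (nat_lit 5356161128) (nat_lit 13) (nat_lit 5) (nat_lit 15) (nat_lit 4) (nat_lit 13) (nat_lit 4) (nat_lit 523) (nat_lit 320) (nat_lit 297)) (XT.lf (nat_lit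 0) (nat_lit 2589971457) (nat_lit 152) (nat_lit 14058201961) (nat_lit 152) (nat_lit 6688192283) (nat_lit 11) (nat_lit 4) (nat_lit 13) (nat_lit 5) (nat_lit 13) (nat_lit 4) (nat_lit 524) (nat_lit 320) (nat_lit 296)))))) (XT.nd (nat_lit 546) (nat_lit 76) (nat_lit 0) (XT.nd (nat_lit 234) (nat_lit 76) (nat_lit 0) (XT.nd (nat_lit 78) (nat_lit 152) (nat_lit 0) (XT.lf (nat_lit 0) (nat_lit 10441576997) (nat_lit 152) (nat_lit 10441168931) (nat_lit 152) (nat_lit 2833649150) (nat_lit 11) (nat_lit 4) (nat_lit 13) (nat_lit 5) (nat_lit 13) (nat_lit 4) (nat_lit 525) (nat_lit 320) (nat_lit 295)) (XT.nd (nat_lit 78) (nat_lit 76) (nat_lit 0) (XT.lf (nat_lit 0) (nat_lit 1036836127) (nat_lit 228) (nat_lit 5745963845) (nat_lit 76) (nat_lit 17322026717) (nat_lit 10) (nat_lit 5) (nat_lit 13) (nat_lit 5) (nat_lit 11) (nat_lit 4) (nat_lit 526) (nat_lit 320) (nat_lit 294)) (XT.lf (nat_lit 0) (nat_lit 1855681731) (nat_lit 76) (nat_lit 3057358788)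 (nat_lit 152) (nat_lit 19588295840) (nat_lit 9) (nat_lit 5) (nat_lit 10) (nat_lit 5) (nat_lit 11) (nat_lit 4) (nat_lit 527) (nat_lit 320) (nat_lit 293)))) (XT.nd (nat_lit 156) (nat_lit 76) (nat_lit 0) (XT.nd (nat_lit 78) (nat_lit 0) (nat_lit 0) (XT.lf (nat_lit 0) (nat_lit 8864690965) (nat_lit 152) (nat_lit 15306318469) (nat_lit 0) (nat_lit 734817246) (nat_lit 9) (nat_lit 5) (nat_lit 11) (nat_lit 4) (nat_lit 9) (nat_lit 4) (nat_lit 528) (nat_lit 320) (nat_lit 292)) (XT.lf (nat_lit 0) (nat_lit 12870804940) (nat_lit 152) (nat_lit 7922290975) (nat_lit 0) (nat_lit 4525811003) (nat_lit 9) (nat_lit 5) (nat_lit 11) (nat_lit 4) (nat_lit 9) (nat_lit 4) (nat_lit 529) (nat_lit 320) (nat_lit 291))) (XT.nd (nat_lit 78) (nat_lit 76) (nat_lit 0) (XT.lf (nat_lit 0) (nat_lit 16913103069) (nat_lit 152) (nat_lit 470826048) (nat_lit 0) (nat_lit 8357206958) (nat_lit 9) (nat_lit 5) (nat_lit 11) (nat_lit 4) (nat_lit 9) (nat_lit 4) (nat_lit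 530) (nat_lit 320) (nat_lit 290)) (XT.lf (nat_lit 0) (nat_lit 7144702513) (nat_lit 76) (nat_lit 13894856202) (nat_lit 76) (nat_lit 5132193254) (nat_lit 8) (nat_lit 4) (nat_lit 9) (nat_lit 5) (nat_lit 9) (nat_lit 4) (nat_lit 531) (nat_lit 320) (nat_lit 289))))) (XT.nd (nat_lit 56784) (nat_lit 0) (nat_lit 1672) (XT.nd (nat_lit 78) (nat_lit 76) (nat_lit 0) (XT.lf (nat_lit 0) (nat_lit 14840771659) (nat_lit 76) (nat_lit 10368191935) (nat_lit 76) (nat_lit 1402816401) (nat_lit 8) (nat_lit 4) (nat_lit 9) (nat_lit 5) (nat_lit 9) (nat_lit 4) (nat_lit 532) (nat_lit 320) (nat_lit 288)) (XT.nd (nat_lit 56628) (nat_lit 0) (nat_lit 2052) (XT.lf (nat_lit 0) (nat_lit 2327469712) (nat_lit 152) (nat_lit 4462624544) (nat_lit 76) (nat_lit 20271054166) (nat_lit 7) (nat_lit 5) (nat_lit 9) (nat_lit 5) (nat_lit 8) (nat_lit 4) (nat_lit 533) (nat_lit 320) (nat_lit 287)) (XT.lf (nat_lit 0) (nat_lit 41783554) (nat_lit 228) (nat_lit 7826248112)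 (nat_lit 0) (nat_lit 41783554) (nat_lit 34) (nat_lit 5) (nat_lit 37) (nat_lit 4) (nat_lit 34) (nat_lit 4) (nat_lit 498) (nat_lit 321) (nat_lit 321)))) (XT.nd (nat_lit 156) (nat_lit 228) (nat_lit 0) (XT.nd (nat_lit 78) (nat_lit 152) (nat_lit 0) (XT.lf (nat_lit 0) (nat_lit 4491740029) (nat_lit 228) (nat_lit 7484540670) (nat_lit 0) (nat_lit 4061523353) (nat_lit 34) (nat_lit 5) (nat_lit 37) (nat_lit 4) (nat_lit 34) (nat_lit 4) (nat_lit 499) (nat_lit 321) (nat_lit 320)) (XT.lf (nat_lit 0) (nat_lit 746060577) (nat_lit 152) (nat_lit 8183730548) (nat_lit 152) (nat_lit 7331732817) (nat_lit 32) (nat_lit 4) (nat_lit 34) (nat_lit 5) (nat_lit 34) (nat_lit 4) (nat_lit 500) (nat_lit 321) (nat_lit 319))) (XT.nd (nat_lit 78) (nat_lit 228) (nat_lit 0) (XT.lf (nat_lit 0) (nat_lit 9132957594) (nat_lit 152) (nat_lit 4311266774) (nat_lit 152) (nat_lit 3045758205) (nat_lit 32) (nat_lit 4) (nat_lit 34) (nat_lit 5) (nat_lit 34) (nat_lit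 4) (nat_lit 501) (nat_lit 321) (nat_lit 318)) (XT.lf (nat_lit 0) (nat_lit 858780181) (nat_lit 152) (nat_lit 393542359) (nat_lit 228) (nat_lit 15471656243) (nat_lit 29) (nat_lit 5) (nat_lit 31) (nat_lit 5) (nat_lit 32) (nat_lit 4) (nat_lit 502) (nat_lit 321) (nat_lit 317))))))) (XT.nd (nat_lit 1092) (nat_lit 608) (nat_lit 0) (XT.nd (nat_lit 546) (nat_lit 456) (nat_lit 0) (XT.nd (nat_lit 234) (nat_lit 304) (nat_lit 0) (XT.nd (nat_lit 78) (nat_lit 152) (nat_lit 0) (XT.lf (nat_lit 0) (nat_lit 5607118191) (nat_lit 228) (nat_lit 7775609847) (nat_lit 0) (nat_lit 3579309309) (nat_lit 29) (nat_lit 5) (nat_lit 32) (nat_lit 4) (nat_lit 29) (nat_lit 4) (nat_lit 503) (nat_lit 321) (nat_lit 316)) (XT.nd (nat_lit 78) (nat_lit 0) (nat_lit 0) (XT.lf (nat_lit 0) (nat_lit 371484981) (nat_lit 152) (nat_lit 9622161913) (nat_lit 152) (nat_lit 7212332934) (nat_lit 27) (nat_lit 4) (nat_lit 29) (nat_lit 5) (nat_lit 29) (nat_lit 4) (nat_lit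 504) (nat_lit 321) (nat_lit 315)) (XT.lf (nat_lit 0) (nat_lit 8681071589) (nat_lit 152) (nat_lit 5779128680) (nat_lit 152) (nat_lit 2994770195) (nat_lit 27) (nat_lit 4) (nat_lit 29) (nat_lit 5) (nat_lit 29) (nat_lit 4) (nat_lit 505) (nat_lit 321) (nat_lit 314)))) (XT.nd (nat_lit 156) (nat_lit 152) (nat_lit 0) (XT.nd (nat_lit 78) (nat_lit 76) (nat_lit 0) (XT.lf (nat_lit 0) (nat_lit 1230886737) (nat_lit 228) (nat_lit 665153067) (nat_lit 76) (nat_lit 15813928238) (nat_lit 26) (nat_lit 5) (nat_lit 29) (nat_lit 5) (nat_lit 27) (nat_lit 4) (nat_lit 506) (nat_lit 321) (nat_lit 313)) (XT.lf (nat_lit 0) (nat_lit 5505846217) (nat_lit 152) (nat_lit 10400570560) (nat_lit 0) (nat_lit 2063169408) (nat_lit 25) (nat_lit 5) (nat_lit 27) (nat_lit 4) (nat_lit 25) (nat_lit 4) (nat_lit 507) (nat_lit 321) (nat_lit 312))) (XT.nd (nat_lit 78) (nat_lit 152) (nat_lit 0) (XT.lf (nat_lit 0) (nat_lit 9825586983) (nat_lit 152) (nat_lit 2372735292)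 (nat_lit 0) (nat_lit 6036902803) (nat_lit 25) (nat_lit 5) (nat_lit 27) (nat_lit 4) (nat_lit 25) (nat_lit 4) (nat_lit 508) (nat_lit 321) (nat_lit 311)) (XT.lf (nat_lit 0) (nat_lit 5790893751) (nat_lit 152) (nat_lit 8421792288) (nat_lit 152) (nat_lit 4293885194) (nat_lit 23) (nat_lit 4) (nat_lit 25) (nat_lit 5) (nat_lit 25) (nat_lit 4) (nat_lit 509) (nat_lit 321) (nat_lit 310))))) (XT.nd (nat_lit 234) (nat_lit 304) (nat_lit 0) (XT.nd (nat_lit 78) (nat_lit 152) (nat_lit 0) (XT.lf (nat_lit 0) (nat_lit 14049909461) (nat_lit 152) (nat_lit 4597365972) (nat_lit 152) (nat_lit 136887395) (nat_lit 23) (nat_lit 4) (nat_lit 25) (nat_lit 5) (nat_lit 25) (nat_lit 4) (nat_lit 510) (nat_lit 321) (nat_lit 309)) (XT.nd (nat_lit 78) (nat_lit 0) (nat_lit 0) (XT.lf (nat_lit 0) (nat_lit 3324928149) (nat_lit 76) (nat_lit 690644721) (nat_lit 152) (nat_lit 15051890777) (nat_lit 21) (nat_lit 5) (nat_lit 22) (nat_lit 5) (nat_lit 23) (nat_lit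 4) (nat_lit 511) (nat_lit 321) (nat_lit 308)) (XT.lf (nat_lit 0) (nat_lit 8247338173) (nat_lit 152) (nat_lit 7867852049) (nat_lit 0) (nat_lit 3241273096) (nat_lit 21) (nat_lit 5) (nat_lit 23) (nat_lit 4) (nat_lit 21) (nat_lit 4) (nat_lit 512) (nat_lit 321) (nat_lit 307)))) (XT.nd (nat_lit 156) (nat_lit 152) (nat_lit 0) (XT.nd (nat_lit 78) (nat_lit 0) (nat_lit 0) (XT.lf (nat_lit 0) (nat_lit 63506550) (nat_lit 152) (nat_lit 12451021413) (nat_lit 152) (nat_lit 7137711692) (nat_lit 19) (nat_lit 4) (nat_lit 21) (nat_lit 5) (nat_lit 21) (nat_lit 4) (nat_lit 513) (nat_lit 321) (nat_lit 306)) (XT.lf (nat_lit 0) (nat_lit 8163704183) (nat_lit 152) (nat_lit 8702394384) (nat_lit 152) (nat_lit 3087864424) (nat_lit 19) (nat_lit 4) (nat_lit 21) (nat_lit 5) (nat_lit 21) (nat_lit 4) (nat_lit 514) (nat_lit 321) (nat_lit 305))) (XT.nd (nat_lit 78) (nat_lit 76) (nat_lit 0) (XT.lf (nat_lit 0) (nat_lit 976233771) (nat_lit 228) (nat_lit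 3937851701) (nat_lit 76) (nat_lit 15348572971) (nat_lit 18) (nat_lit 5) (nat_lit 21) (nat_lit 5) (nat_lit 19) (nat_lit 4) (nat_lit 515) (nat_lit 321) (nat_lit 304)) (XT.lf (nat_lit 0) (nat_lit 4010353606) (nat_lit 76) (nat_lit 1043963728) (nat_lit 152) (nat_lit 15523332764) (nat_lit 17) (nat_lit 5) (nat_lit 18) (nat_lit 5) (nat_lit 19) (nat_lit 4) (nat_lit 516) (nat_lit 321) (nat_lit 303)))))) (XT.nd (nat_lit 546) (nat_lit 304) (nat_lit 0) (XT.nd (nat_lit 234) (nat_lit 152) (nat_lit 0) (XT.nd (nat_lit 78) (nat_lit 152) (nat_lit 0) (XT.lf (nat_lit 0) (nat_lit 9207538247) (nat_lit 152) (nat_lit 8840096985) (nat_lit 0) (nat_lit 2851446121) (nat_lit 17) (nat_lit 5) (nat_lit 19) (nat_lit 4) (nat_lit 17) (nat_lit 4) (nat_lit 517) (nat_lit 321) (nat_lit 302)) (XT.nd (nat_lit 78) (nat_lit 152) (nat_lit 0) (XT.lf (nat_lit 0) (nat_lit 13399878207) (nat_lit 152) (nat_lit 1056991369) (nat_lit 0) (nat_lit 6770961630) (nat_lit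 17) (nat_lit 5) (nat_lit 19) (nat_lit 4) (nat_lit 17) (nat_lit 4) (nat_lit 518) (nat_lit 321) (nat_lit 301)) (XT.lf (nat_lit 0) (nat_lit 6882110781) (nat_lit 152) (nat_lit 10788775609) (nat_lit 152) (nat_lit 3892384080) (nat_lit 15) (nat_lit 4) (nat_lit 17) (nat_lit 5) (nat_lit 17) (nat_lit 4) (nat_lit 519) (nat_lit 321) (nat_lit 300)))) (XT.nd (nat_lit 156) (nat_lit 0) (nat_lit 0) (XT.nd (nat_lit 78) (nat_lit 76) (nat_lit 0) (XT.lf (nat_lit 0) (nat_lit 77635261) (nat_lit 228) (nat_lit 7001798646) (nat_lit 76) (nat_lit 14826832453) (nat_lit 14) (nat_lit 5) (nat_lit 17) (nat_lit 5) (nat_lit 15) (nat_lit 4) (nat_lit 520) (nat_lit 321) (nat_lit 299)) (XT.lf (nat_lit 0) (nat_lit 726661009) (nat_lit 76) (nat_lit 3304215949) (nat_lit 152) (nat_lit 18225622035) (nat_lit 13) (nat_lit 5) (nat_lit 14) (nat_lit 5) (nat_lit 15) (nat_lit 4) (nat_lit 521) (nat_lit 321) (nat_lit 298))) (XT.nd (nat_lit 78) (nat_lit 0) (nat_lit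 0) (XT.lf (nat_lit 0) (nat_lit 8065336546) (nat_lit 152) (nat_lit 14000440017) (nat_lit 0) (nat_lit 547926674) (nat_lit 13) (nat_lit 5) (nat_lit 15) (nat_lit 4) (nat_lit 13) (nat_lit 4) (nat_lit 522) (nat_lit 321) (nat_lit 297)) (XT.lf (nat_lit 0) (nat_lit 12154630153) (nat_lit 152) (nat_lit 6428988363) (nat_lit 0) (nat_lit 4394959977) (nat_lit 13) (nat_lit 5) (nat_lit 15) (nat_lit 4) (nat_lit 13) (nat_lit 4) (nat_lit 523) (nat_lit 321) (nat_lit 296))))) (XT.nd (nat_lit 234) (nat_lit 76) (nat_lit 0) (XT.nd (nat_lit 78) (nat_lit 76) (nat_lit 0) (XT.lf (nat_lit 0) (nat_lit 1225005504) (nat_lit 152) (nat_lit 15061856307) (nat_lit 152) (nat_lit 7064676028) (nat_lit 11) (nat_lit 4) (nat_lit 13) (nat_lit 5) (nat_lit 13) (nat_lit 4) (nat_lit 524) (nat_lit 321) (nat_lit 295)) (XT.nd (nat_lit 78) (nat_lit 76) (nat_lit 0) (XT.lf (nat_lit 0) (nat_lit 9034831793) (nat_lit 152) (nat_lit 11463616568) (nat_lit 152) (nat_lit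 3233583247) (nat_lit 11) (nat_lit 4) (nat_lit 13) (nat_lit 5) (nat_lit 13) (nat_lit 4) (nat_lit 525) (nat_lit 321) (nat_lit 294)) (XT.lf (nat_lit 0) (nat_lit 619458221) (nat_lit 228) (nat_lit 7207015008) (nat_lit 76) (nat_lit 16294500195) (nat_lit 10) (nat_lit 5) (nat_lit 13) (nat_lit 5) (nat_lit 11) (nat_lit 4) (nat_lit 526) (nat_lit 321) (nat_lit 293)))) (XT.nd (nat_lit 156) (nat_lit 0) (nat_lit 0) (XT.nd (nat_lit 78) (nat_lit 0) (nat_lit 0) (XT.lf (nat_lit 0) (nat_lit 334219387) (nat_lit 76) (nat_lit 4129320750) (nat_lit 152) (nat_lit 20054589812) (nat_lit 9) (nat_lit 5) (nat_lit 10) (nat_lit 5) (nat_lit 11) (nat_lit 4) (nat_lit 527) (nat_lit 321) (nat_lit 292)) (XT.lf (nat_lit 0) (nat_lit 8042786113) (nat_lit 76) (nat_lit 345501226) (nat_lit 152) (nat_lit 16534875313) (nat_lit 9) (nat_lit 5) (nat_lit 10) (nat_lit 5) (nat_lit 11) (nat_lit 4) (nat_lit 528) (nat_lit 321) (nat_lit 291))) (XT.nd (nat_lit 78) (nat_lit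 0) (nat_lit 0) (XT.lf (nat_lit 0) (nat_lit 12370406545) (nat_lit 152) (nat_lit 9533830138) (nat_lit 0) (nat_lit 3432490337) (nat_lit 9) (nat_lit 5) (nat_lit 11) (nat_lit 4) (nat_lit 9) (nat_lit 4) (nat_lit 529) (nat_lit 321) (nat_lit 290)) (XT.lf (nat_lit 0) (nat_lit 16391379628) (nat_lit 152) (nat_lit 2121310618) (nat_lit 0) (nat_lit 7246696583) (nat_lit 9) (nat_lit 5) (nat_lit 11) (nat_lit 4) (nat_lit 9) (nat_lit 4) (nat_lit 530) (nat_lit 321) (nat_lit 289))))))))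
noncomputable def xc6 : XT := (XT.nd (nat_lit 58578) (nat_lit 0) (nat_lit 76) (XT.nd (nat_lit 57486) (nat_lit 0) (nat_lit 608) (XT.nd (nat_lit 56940) (nat_lit 0) (nat_lit 1444) (XT.nd (nat_lit 56628) (nat_lit 0) (nat_lit 2052) (XT.nd (nat_lit 78) (nat_lit 76) (nat_lit 0) (XT.lf (nat_lit 0) (nat_lit 5433594685) (nat_lit 76) (nat_lit 15052224033) (nat_lit 76) (nat_lit 5704828403) (nat_lit 8) (nat_lit 4) (nat_lit 9) (nat_lit 5) (nat_lit 9) (nat_lit 4) (nat_lit 531) (nat_lit 321) (nat_lit 288)) (XT.nd (nat_lit 78) (nat_lit 76) (nat_lit 0) (XT.lf (nat_lit 0) (nat_lit 13091733255) (nat_lit 76) (nat_lit 11542747103) (nat_lit 76) (nat_lit 1996613643) (nat_lit 8) (nat_lit 4) (nat_lit 9) (nat_lit 5) (nat_lit 9) (nat_lit 4) (nat_lit 532) (nat_lit 321) (nat_lit 287)) (XT.lf (nat_lit 0) (nat_lit 1720985180) (nat_lit 152) (nat_lit 6264584403) (nat_lit 76) (nat_lit 19095383285) (nat_lit 7) (nat_lit 5) (nat_lit 9) (nat_lit 5)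 (nat_lit 8) (nat_lit 4) (nat_lit 533) (nat_lit 321) (nat_lit 286)))) (XT.nd (nat_lit 156) (nat_lit 228) (nat_lit 0) (XT.nd (nat_lit 78) (nat_lit 152) (nat_lit 0) (XT.lf (nat_lit 0) (nat_lit 3630669211) (nat_lit 228) (nat_lit 436075988) (nat_lit 0) (nat_lit 3630669211) (nat_lit 39) (nat_lit 5) (nat_lit 42) (nat_lit 4) (nat_lit 39) (nat_lit 4) (nat_lit 496) (nat_lit 322) (nat_lit 322)) (XT.lf (nat_lit 0) (nat_lit 7494816712) (nat_lit 152) (nat_lit 4278833923) (nat_lit 152) (nat_lit 3831236494) (nat_lit 37) (nat_lit 4) (nat_lit 39) (nat_lit 5) (nat_lit 39) (nat_lit 4) (nat_lit 497) (nat_lit 322) (nat_lit 321))) (XT.nd (nat_lit 78) (nat_lit 0) (nat_lit 0) (XT.lf (nat_lit 0) (nat_lit 109444193) (nat_lit 152) (nat_lit 383557109) (nat_lit 228) (nat_lit 15327225511) (nat_lit 34) (nat_lit 5) (nat_lit 36) (nat_lit 5) (nat_lit 37) (nat_lit 4) (nat_lit 498) (nat_lit 322) (nat_lit 320)) (XT.lf (nat_lit 0) (nat_lit 4867431836)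 (nat_lit 228) (nat_lit 7595038806) (nat_lit 0) (nat_lit 3576613095) (nat_lit 34) (nat_lit 5) (nat_lit 37) (nat_lit 4) (nat_lit 34) (nat_lit 4) (nat_lit 499) (nat_lit 322) (nat_lit 319))))) (XT.nd (nat_lit 234) (nat_lit 228) (nat_lit 0) (XT.nd (nat_lit 78) (nat_lit 228) (nat_lit 0) (XT.lf (nat_lit 0) (nat_lit 579751813) (nat_lit 152) (nat_lit 8694012037) (nat_lit 152) (nat_lit 6989682458) (nat_lit 32) (nat_lit 4) (nat_lit 34) (nat_lit 5) (nat_lit 34) (nat_lit 4) (nat_lit 500) (nat_lit 322) (nat_lit 318)) (XT.nd (nat_lit 78) (nat_lit 228) (nat_lit 0) (XT.lf (nat_lit 0) (nat_lit 8913372197) (nat_lit 152) (nat_lit 4844440465) (nat_lit 152) (nat_lit 2734708104) (nat_lit 32) (nat_lit 4) (nat_lit 34) (nat_lit 5) (nat_lit 34) (nat_lit 4) (nat_lit 501) (nat_lit 322) (nat_lit 317)) (XT.lf (nat_lit 0) (nat_lit 578320351) (nat_lit 152) (nat_lit 949158075) (nat_lit 228) (nat_lit 15199642275) (nat_lit 29) (nat_lit 5) (nat_lit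 31) (nat_lit 5) (nat_lit 32) (nat_lit 4) (nat_lit 502) (nat_lit 322) (nat_lit 316)))) (XT.nd (nat_lit 156) (nat_lit 228) (nat_lit 0) (XT.nd (nat_lit 78) (nat_lit 0) (nat_lit 0) (XT.lf (nat_lit 0) (nat_lit 5848775053) (nat_lit 228) (nat_lit 8108352463) (nat_lit 0) (nat_lit 3008729397) (nat_lit 29) (nat_lit 5) (nat_lit 32) (nat_lit 4) (nat_lit 29) (nat_lit 4) (nat_lit 503) (nat_lit 322) (nat_lit 315)) (XT.lf (nat_lit 0) (nat_lit 10203586341) (nat_lit 228) (nat_lit 17843739) (nat_lit 0) (nat_lit 6989011180) (nat_lit 29) (nat_lit 5) (nat_lit 32) (nat_lit 4) (nat_lit 29) (nat_lit 4) (nat_lit 504) (nat_lit 322) (nat_lit 314))) (XT.nd (nat_lit 78) (nat_lit 76) (nat_lit 0) (XT.lf (nat_lit 0) (nat_lit 8240131944) (nat_lit 152) (nat_lit 6400825955) (nat_lit 152) (nat_lit 2819065003) (nat_lit 27) (nat_lit 4) (nat_lit 29) (nat_lit 5) (nat_lit 29) (nat_lit 4) (nat_lit 505) (nat_lit 322) (nat_lit 313)) (XT.lf (nat_lit 0) (nat_lit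 1375597154) (nat_lit 228) (nat_lit 1163040768) (nat_lit 76) (nat_lit 15176940632) (nat_lit 26) (nat_lit 5) (nat_lit 29) (nat_lit 5) (nat_lit 27) (nat_lit 4) (nat_lit 506) (nat_lit 322) (nat_lit 312)))))) (XT.nd (nat_lit 546) (nat_lit 456) (nat_lit 0) (XT.nd (nat_lit 234) (nat_lit 152) (nat_lit 0) (XT.nd (nat_lit 78) (nat_lit 152) (nat_lit 0) (XT.lf (nat_lit 0) (nat_lit 5614489397) (nat_lit 152) (nat_lit 10957411429) (nat_lit 0) (nat_lit 1404024162) (nat_lit 25) (nat_lit 5) (nat_lit 27) (nat_lit 4) (nat_lit 25) (nat_lit 4) (nat_lit 507) (nat_lit 322) (nat_lit 311)) (XT.nd (nat_lit 78) (nat_lit 152) (nat_lit 0) (XT.lf (nat_lit 0) (nat_lit 9906193109) (nat_lit 152) (nat_lit 2979433360) (nat_lit 0) (nat_lit 5356504961) (nat_lit 25) (nat_lit 5) (nat_lit 27) (nat_lit 4) (nat_lit 25) (nat_lit 4) (nat_lit 508) (nat_lit 322) (nat_lit 310)) (XT.lf (nat_lit 0) (nat_lit 5126603794) (nat_lit 152) (nat_lit 9134888053) (nat_lit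 152) (nat_lit 4252628421) (nat_lit 23) (nat_lit 4) (nat_lit 25) (nat_lit 5) (nat_lit 25) (nat_lit 4) (nat_lit 509) (nat_lit 322) (nat_lit 309)))) (XT.nd (nat_lit 156) (nat_lit 0) (nat_lit 0) (XT.nd (nat_lit 78) (nat_lit 152) (nat_lit 0) (XT.lf (nat_lit 0) (nat_lit 13337061473) (nat_lit 152) (nat_lit 5331756156) (nat_lit 152) (nat_lit 123446050) (nat_lit 23) (nat_lit 4) (nat_lit 25) (nat_lit 5) (nat_lit 25) (nat_lit 4) (nat_lit 510) (nat_lit 322) (nat_lit 308)) (XT.lf (nat_lit 0) (nat_lit 2545702502) (nat_lit 76) (nat_lit 1451163802) (nat_lit 152) (nat_lit 15079342172) (nat_lit 21) (nat_lit 5) (nat_lit 22) (nat_lit 5) (nat_lit 23) (nat_lit 4) (nat_lit 511) (nat_lit 322) (nat_lit 307))) (XT.nd (nat_lit 78) (nat_lit 0) (nat_lit 0) (XT.lf (nat_lit 0) (nat_lit 8196863639) (nat_lit 152) (nat_lit 8698942954) (nat_lit 0) (nat_lit 2470043080) (nat_lit 21) (nat_lit 5) (nat_lit 23) (nat_lit 4) (nat_lit 21) (nat_lit 4) (nat_lit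 512) (nat_lit 322) (nat_lit 306)) (XT.lf (nat_lit 0) (nat_lit 12437337011) (nat_lit 152) (nat_lit 815533160) (nat_lit 0) (nat_lit 6409296213) (nat_lit 21) (nat_lit 5) (nat_lit 23) (nat_lit 4) (nat_lit 21) (nat_lit 4) (nat_lit 513) (nat_lit 322) (nat_lit 305))))) (XT.nd (nat_lit 234) (nat_lit 152) (nat_lit 0) (XT.nd (nat_lit 78) (nat_lit 152) (nat_lit 0) (XT.lf (nat_lit 0) (nat_lit 7227020533) (nat_lit 152) (nat_lit 9530429512) (nat_lit 152) (nat_lit 3207074755) (nat_lit 19) (nat_lit 4) (nat_lit 21) (nat_lit 5) (nat_lit 21) (nat_lit 4) (nat_lit 514) (nat_lit 322) (nat_lit 304)) (XT.nd (nat_lit 78) (nat_lit 76) (nat_lit 0) (XT.lf (nat_lit 0) (nat_lit 832831155) (nat_lit 228) (nat_lit 4930559314) (nat_lit 76) (nat_lit 14510366074) (nat_lit 18) (nat_lit 5) (nat_lit 21) (nat_lit 5) (nat_lit 19) (nat_lit 4) (nat_lit 515) (nat_lit 322) (nat_lit 303)) (XT.lf (nat_lit 0) (nat_lit 2958521470) (nat_lit 76) (nat_lit 1920313320)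 (nat_lit 152) (nat_lit 15710560592) (nat_lit 17) (nat_lit 5) (nat_lit 18) (nat_lit 5) (nat_lit 19) (nat_lit 4) (nat_lit 516) (nat_lit 322) (nat_lit 302)))) (XT.nd (nat_lit 156) (nat_lit 152) (nat_lit 0) (XT.nd (nat_lit 78) (nat_lit 0) (nat_lit 0) (XT.lf (nat_lit 0) (nat_lit 9001188118) (nat_lit 152) (nat_lit 9943392589) (nat_lit 0) (nat_lit 1966868759) (nat_lit 17) (nat_lit 5) (nat_lit 19) (nat_lit 4) (nat_lit 17) (nat_lit 4) (nat_lit 517) (nat_lit 322) (nat_lit 301)) (XT.lf (nat_lit 0) (nat_lit 13168844016) (nat_lit 152) (nat_lit 2204804645) (nat_lit 0) (nat_lit 5867049705) (nat_lit 17) (nat_lit 5) (nat_lit 19) (nat_lit 4) (nat_lit 17) (nat_lit 4) (nat_lit 518) (nat_lit 322) (nat_lit 300))) (XT.nd (nat_lit 78) (nat_lit 0) (nat_lit 0) (XT.lf (nat_lit 0) (nat_lit 5674818876) (nat_lit 152) (nat_lit 11732994723) (nat_lit 152) (nat_lit 4168970067) (nat_lit 15) (nat_lit 4) (nat_lit 17) (nat_lit 5) (nat_lit 17) (nat_lit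 4) (nat_lit 519) (nat_lit 322) (nat_lit 299)) (XT.lf (nat_lit 0) (nat_lit 13654339143) (nat_lit 152) (nat_lit 8043524580) (nat_lit 152) (nat_lit 222411350) (nat_lit 15) (nat_lit 4) (nat_lit 17) (nat_lit 5) (nat_lit 17) (nat_lit 4) (nat_lit 520) (nat_lit 322) (nat_lit 298))))))) (XT.nd (nat_lit 57408) (nat_lit 0) (nat_lit 1140) (XT.nd (nat_lit 546) (nat_lit 152) (nat_lit 0) (XT.nd (nat_lit 234) (nat_lit 228) (nat_lit 0) (XT.nd (nat_lit 78) (nat_lit 76) (nat_lit 0) (XT.lf (nat_lit 0) (nat_lit 3705332155) (nat_lit 228) (nat_lit 588389896) (nat_lit 76) (nat_lit 17977387799) (nat_lit 14) (nat_lit 5) (nat_lit 17) (nat_lit 5) (nat_lit 15) (nat_lit 4) (nat_lit 521) (nat_lit 322) (nat_lit 297)) (XT.nd (nat_lit 78) (nat_lit 0) (nat_lit 0) (XT.lf (nat_lit 0) (nat_lit 7251524184) (nat_lit 76) (nat_lit 457283016) (nat_lit 152) (nat_lit 14920131448) (nat_lit 13) (nat_lit 5) (nat_lit 14) (nat_lit 5) (nat_lit 15) (nat_lit 4)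 (nat_lit 522) (nat_lit 322) (nat_lit 296)) (XT.lf (nat_lit 0) (nat_lit 11771962829) (nat_lit 152) (nat_lit 7845049759) (nat_lit 0) (nat_lit 3377328842) (nat_lit 13) (nat_lit 5) (nat_lit 15) (nat_lit 4) (nat_lit 13) (nat_lit 4) (nat_lit 523) (nat_lit 322) (nat_lit 295)))) (XT.nd (nat_lit 156) (nat_lit 76) (nat_lit 0) (XT.nd (nat_lit 78) (nat_lit 152) (nat_lit 0) (XT.lf (nat_lit 0) (nat_lit 15873526239) (nat_lit 152) (nat_lit 248353367) (nat_lit 0) (nat_lit 7246039209) (nat_lit 13) (nat_lit 5) (nat_lit 15) (nat_lit 4) (nat_lit 13) (nat_lit 4) (nat_lit 524) (nat_lit 322) (nat_lit 294)) (XT.lf (nat_lit 0) (nat_lit 7517212386) (nat_lit 152) (nat_lit 12543731245) (nat_lit 152) (nat_lit 3687956919) (nat_lit 11) (nat_lit 4) (nat_lit 13) (nat_lit 5) (nat_lit 13) (nat_lit 4) (nat_lit 525) (nat_lit 322) (nat_lit 293))) (XT.nd (nat_lit 78) (nat_lit 0) (nat_lit 0) (XT.lf (nat_lit 0) (nat_lit 148799608) (nat_lit 228) (nat_lit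 8779010190) (nat_lit 76) (nat_lit 15210540857) (nat_lit 10) (nat_lit 5) (nat_lit 13) (nat_lit 5) (nat_lit 11) (nat_lit 4) (nat_lit 526) (nat_lit 322) (nat_lit 292)) (XT.lf (nat_lit 0) (nat_lit 3968903576) (nat_lit 228) (nat_lit 1281822796) (nat_lit 76) (nat_lit 19285264683) (nat_lit 10) (nat_lit 5) (nat_lit 13) (nat_lit 5) (nat_lit 11) (nat_lit 4) (nat_lit 527) (nat_lit 322) (nat_lit 291))))) (XT.nd (nat_lit 234) (nat_lit 76) (nat_lit 0) (XT.nd (nat_lit 78) (nat_lit 0) (nat_lit 0) (XT.lf (nat_lit 0) (nat_lit 6370306468) (nat_lit 76) (nat_lit 1493275070) (nat_lit 152) (nat_lit 17078047840) (nat_lit 9) (nat_lit 5) (nat_lit 10) (nat_lit 5) (nat_lit 11) (nat_lit 4) (nat_lit 528) (nat_lit 322) (nat_lit 290)) (XT.nd (nat_lit 78) (nat_lit 0) (nat_lit 0) (XT.lf (nat_lit 0) (nat_lit 11816923588) (nat_lit 152) (nat_lit 11256269806) (nat_lit 0) (nat_lit 2282580045) (nat_lit 9) (nat_lit 5) (nat_lit 11) (nat_lit 4) (nat_lit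 9) (nat_lit 4) (nat_lit 529) (nat_lit 322) (nat_lit 289)) (XT.lf (nat_lit 0) (nat_lit 15816989763) (nat_lit 152) (nat_lit 3881932057) (nat_lit 0) (nat_lit 6079933634) (nat_lit 9) (nat_lit 5) (nat_lit 11) (nat_lit 4) (nat_lit 9) (nat_lit 4) (nat_lit 530) (nat_lit 322) (nat_lit 288)))) (XT.nd (nat_lit 56472) (nat_lit 0) (nat_lit 2356) (XT.nd (nat_lit 78) (nat_lit 0) (nat_lit 0) (XT.lf (nat_lit 0) (nat_lit 3611644937) (nat_lit 76) (nat_lit 16267457641) (nat_lit 76) (nat_lit 6331663682) (nat_lit 8) (nat_lit 4) (nat_lit 9) (nat_lit 5) (nat_lit 9) (nat_lit 4) (nat_lit 531) (nat_lit 322) (nat_lit 287)) (XT.lf (nat_lit 0) (nat_lit 11232596669) (nat_lit 76) (nat_lit 12774831040) (nat_lit 76) (nat_lit 2644196073) (nat_lit 8) (nat_lit 4) (nat_lit 9) (nat_lit 5) (nat_lit 9) (nat_lit 4) (nat_lit 532) (nat_lit 322) (nat_lit 286))) (XT.nd (nat_lit 78) (nat_lit 228) (nat_lit 0) (XT.lf (nat_lit 0) (nat_lit 6397905619) (nat_lit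 228) (nat_lit 547962171) (nat_lit 228) (nat_lit 547962171) (nat_lit 42) (nat_lit 4) (nat_lit 45) (nat_lit 5) (nat_lit 45) (nat_lit 4) (nat_lit 494) (nat_lit 323) (nat_lit 323)) (XT.lf (nat_lit 0) (nat_lit 3279546843) (nat_lit 228) (nat_lit 9086652899) (nat_lit 0) (nat_lit 2822997465) (nat_lit 39) (nat_lit 5) (nat_lit 42) (nat_lit 4) (nat_lit 39) (nat_lit 4) (nat_lit 495) (nat_lit 323) (nat_lit 322)))))) (XT.nd (nat_lit 546) (nat_lit 456) (nat_lit 0) (XT.nd (nat_lit 234) (nat_lit 532) (nat_lit 0) (XT.nd (nat_lit 78) (nat_lit 228) (nat_lit 0) (XT.lf (nat_lit 0) (nat_lit 7686473502) (nat_lit 228) (nat_lit 926665897) (nat_lit 0) (nat_lit 6782326694) (nat_lit 39) (nat_lit 5) (nat_lit 42) (nat_lit 4) (nat_lit 39) (nat_lit 4) (nat_lit 496) (nat_lit 323) (nat_lit 321)) (XT.nd (nat_lit 78) (nat_lit 76) (nat_lit 0) (XT.lf (nat_lit 0) (nat_lit 7385423055) (nat_lit 152) (nat_lit 4781854071) (nat_lit 152) (nat_lit 3438886253)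 (nat_lit 37) (nat_lit 4) (nat_lit 39) (nat_lit 5) (nat_lit 39) (nat_lit 4) (nat_lit 497) (nat_lit 323) (nat_lit 320)) (XT.lf (nat_lit 0) (nat_lit 848745286) (nat_lit 228) (nat_lit 58719015) (nat_lit 76) (nat_lit 14914625490) (nat_lit 36) (nat_lit 5) (nat_lit 39) (nat_lit 5) (nat_lit 37) (nat_lit 4) (nat_lit 498) (nat_lit 323) (nat_lit 319)))) (XT.nd (nat_lit 156) (nat_lit 228) (nat_lit 0) (XT.nd (nat_lit 78) (nat_lit 152) (nat_lit 0) (XT.lf (nat_lit 0) (nat_lit 5188746103) (nat_lit 228) (nat_lit 7816078412) (nat_lit 0) (nat_lit 3036819095) (nat_lit 34) (nat_lit 5) (nat_lit 37) (nat_lit 4) (nat_lit 34) (nat_lit 4) (nat_lit 499) (nat_lit 323) (nat_lit 318)) (XT.lf (nat_lit 0) (nat_lit 302498074) (nat_lit 152) (nat_lit 9260741404) (nat_lit 152) (nat_lit 6703411612) (nat_lit 32) (nat_lit 4) (nat_lit 34) (nat_lit 5) (nat_lit 34) (nat_lit 4) (nat_lit 500) (nat_lit 323) (nat_lit 317))) (XT.nd (nat_lit 78) (nat_lit 228)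 (nat_lit 0) (XT.lf (nat_lit 0) (nat_lit 8583886465) (nat_lit 152) (nat_lit 5433613166) (nat_lit 152) (nat_lit 2478829667) (nat_lit 32) (nat_lit 4) (nat_lit 34) (nat_lit 5) (nat_lit 34) (nat_lit 4) (nat_lit 501) (nat_lit 323) (nat_lit 316)) (XT.lf (nat_lit 0) (nat_lit 186621259) (nat_lit 152) (nat_lit 1561430848) (nat_lit 228) (nat_lit 14983490545) (nat_lit 29) (nat_lit 5) (nat_lit 31) (nat_lit 5) (nat_lit 32) (nat_lit 4) (nat_lit 502) (nat_lit 323) (nat_lit 315))))) (XT.nd (nat_lit 234) (nat_lit 304) (nat_lit 0) (XT.nd (nat_lit 78) (nat_lit 152) (nat_lit 0) (XT.lf (nat_lit 0) (nat_lit 6036067965) (nat_lit 228) (nat_lit 8552212238) (nat_lit 0) (nat_lit 2382671794) (nat_lit 29) (nat_lit 5) (nat_lit 32) (nat_lit 4) (nat_lit 29) (nat_lit 4) (nat_lit 503) (nat_lit 323) (nat_lit 314)) (XT.nd (nat_lit 78) (nat_lit 152) (nat_lit 0) (XT.lf (nat_lit 0) (nat_lit 10362148383) (nat_lit 228) (nat_lit 512403527) (nat_lit 0)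 (nat_lit 6341566421) (nat_lit 29) (nat_lit 5) (nat_lit 32) (nat_lit 4) (nat_lit 29) (nat_lit 4) (nat_lit 504) (nat_lit 323) (nat_lit 313)) (XT.lf (nat_lit 0) (nat_lit 7688633256) (nat_lit 152) (nat_lit 7079138468) (nat_lit 152) (nat_lit 2698570438) (nat_lit 27) (nat_lit 4) (nat_lit 29) (nat_lit 5) (nat_lit 29) (nat_lit 4) (nat_lit 505) (nat_lit 323) (nat_lit 312)))) (XT.nd (nat_lit 156) (nat_lit 152) (nat_lit 0) (XT.nd (nat_lit 78) (nat_lit 76) (nat_lit 0) (XT.lf (nat_lit 0) (nat_lit 1466383599) (nat_lit 228) (nat_lit 1771400679) (nat_lit 76) (nat_lit 14484667393) (nat_lit 26) (nat_lit 5) (nat_lit 29) (nat_lit 5) (nat_lit 27) (nat_lit 4) (nat_lit 506) (nat_lit 323) (nat_lit 311)) (XT.lf (nat_lit 0) (nat_lit 5668670592) (nat_lit 152) (nat_lit 11626100657) (nat_lit 0) (nat_lit 688765768) (nat_lit 25) (nat_lit 5) (nat_lit 27) (nat_lit 4) (nat_lit 25) (nat_lit 4) (nat_lit 507) (nat_lit 323) (nat_lit 310))) (XT.nd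 (nat_lit 78) (nat_lit 152) (nat_lit 0) (XT.lf (nat_lit 0) (nat_lit 9932886997) (nat_lit 152) (nat_lit 3697002196) (nat_lit 0) (nat_lit 4620410689) (nat_lit 25) (nat_lit 5) (nat_lit 27) (nat_lit 4) (nat_lit 25) (nat_lit 4) (nat_lit 508) (nat_lit 323) (nat_lit 309)) (XT.lf (nat_lit 0) (nat_lit 4350940816) (nat_lit 152) (nat_lit 9905260459) (nat_lit 152) (nat_lit 4266733677) (nat_lit 23) (nat_lit 4) (nat_lit 25) (nat_lit 5) (nat_lit 25) (nat_lit 4) (nat_lit 509) (nat_lit 323) (nat_lit 308))))))))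
noncomputable def xc7 : XT := (XT.nd (nat_lit 58344) (nat_lit 0) (nat_lit 228) (XT.nd (nat_lit 1092) (nat_lit 380) (nat_lit 0) (XT.nd (nat_lit 546) (nat_lit 304) (nat_lit 0) (XT.nd (nat_lit 234) (nat_lit 304) (nat_lit 0) (XT.nd (nat_lit 78) (nat_lit 152) (nat_lit 0) (XT.lf (nat_lit 0) (nat_lit 12513792583) (nat_lit 152) (nat_lit 6123005443) (nat_lit 152) (nat_lit 164821334) (nat_lit 23) (nat_lit 4) (nat_lit 25) (nat_lit 5) (nat_lit 25) (nat_lit 4) (nat_lit 510) (nat_lit 323) (nat_lit 307)) (XT.nd (nat_lit 78) (nat_lit 0) (nat_lit 0) (XT.lf (nat_lit 0) (nat_lit 1654630731) (nat_lit 76) (nat_lit 2269232821) (nat_lit 152) (nat_lit 15162355546) (nat_lit 21) (nat_lit 5) (nat_lit 22) (nat_lit 5) (nat_lit 23) (nat_lit 4) (nat_lit 511) (nat_lit 323) (nat_lit 306)) (XT.lf (nat_lit 0) (nat_lit 8092245349) (nat_lit 152) (nat_lit 9641829807) (nat_lit 0) (nat_lit 1642423496) (nat_lit 21) (nat_lit 5) (nat_lit 23) (nat_lit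 4) (nat_lit 21) (nat_lit 4) (nat_lit 512) (nat_lit 323) (nat_lit 305)))) (XT.nd (nat_lit 156) (nat_lit 152) (nat_lit 0) (XT.nd (nat_lit 78) (nat_lit 152) (nat_lit 0) (XT.lf (nat_lit 0) (nat_lit 12306930396) (nat_lit 152) (nat_lit 1804612078) (nat_lit 0) (nat_lit 5561794584) (nat_lit 21) (nat_lit 5) (nat_lit 23) (nat_lit 4) (nat_lit 21) (nat_lit 4) (nat_lit 513) (nat_lit 323) (nat_lit 304)) (XT.lf (nat_lit 0) (nat_lit 6178909107) (nat_lit 152) (nat_lit 10416046617) (nat_lit 152) (nat_lit 3381387315) (nat_lit 19) (nat_lit 4) (nat_lit 21) (nat_lit 5) (nat_lit 21) (nat_lit 4) (nat_lit 514) (nat_lit 323) (nat_lit 303))) (XT.nd (nat_lit 78) (nat_lit 76) (nat_lit 0) (XT.lf (nat_lit 0) (nat_lit 635553999) (nat_lit 228) (nat_lit 6034686782) (nat_lit 76) (nat_lit 13615867236) (nat_lit 18) (nat_lit 5) (nat_lit 21) (nat_lit 5) (nat_lit 19) (nat_lit 4) (nat_lit 515) (nat_lit 323) (nat_lit 302)) (XT.lf (nat_lit 0) (nat_lit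 1794689393) (nat_lit 76) (nat_lit 2854556247) (nat_lit 152) (nat_lit 15953152931) (nat_lit 17) (nat_lit 5) (nat_lit 18) (nat_lit 5) (nat_lit 19) (nat_lit 4) (nat_lit 516) (nat_lit 323) (nat_lit 301))))) (XT.nd (nat_lit 234) (nat_lit 152) (nat_lit 0) (XT.nd (nat_lit 78) (nat_lit 152) (nat_lit 0) (XT.lf (nat_lit 0) (nat_lit 8740849183) (nat_lit 152) (nat_lit 11158679804) (nat_lit 0) (nat_lit 1025544034) (nat_lit 17) (nat_lit 5) (nat_lit 19) (nat_lit 4) (nat_lit 17) (nat_lit 4) (nat_lit 517) (nat_lit 323) (nat_lit 300)) (XT.nd (nat_lit 78) (nat_lit 152) (nat_lit 0) (XT.lf (nat_lit 0) (nat_lit 12884305022) (nat_lit 152) (nat_lit 3463736637) (nat_lit 0) (nat_lit 4906769527) (nat_lit 17) (nat_lit 5) (nat_lit 19) (nat_lit 4) (nat_lit 17) (nat_lit 4) (nat_lit 518) (nat_lit 323) (nat_lit 299)) (XT.lf (nat_lit 0) (nat_lit 4355798700) (nat_lit 152) (nat_lit 12735186402) (nat_lit 152) (nat_lit 4500562334) (nat_lit 15) (nat_lit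 4) (nat_lit 17) (nat_lit 5) (nat_lit 17) (nat_lit 4) (nat_lit 519) (nat_lit 323) (nat_lit 298)))) (XT.nd (nat_lit 156) (nat_lit 76) (nat_lit 0) (XT.nd (nat_lit 78) (nat_lit 76) (nat_lit 0) (XT.lf (nat_lit 0) (nat_lit 12292811476) (nat_lit 152) (nat_lit 9064687421) (nat_lit 152) (nat_lit 578015731) (nat_lit 15) (nat_lit 4) (nat_lit 17) (nat_lit 5) (nat_lit 17) (nat_lit 4) (nat_lit 520) (nat_lit 323) (nat_lit 297)) (XT.lf (nat_lit 0) (nat_lit 3331159049) (nat_lit 228) (nat_lit 2004835920) (nat_lit 76) (nat_lit 16950870127) (nat_lit 14) (nat_lit 5) (nat_lit 17) (nat_lit 5) (nat_lit 15) (nat_lit 4) (nat_lit 521) (nat_lit 323) (nat_lit 296))) (XT.nd (nat_lit 78) (nat_lit 0) (nat_lit 0) (XT.lf (nat_lit 0) (nat_lit 5774542951) (nat_lit 76) (nat_lit 1527724601) (nat_lit 152) (nat_lit 15343078439) (nat_lit 13) (nat_lit 5) (nat_lit 14) (nat_lit 5) (nat_lit 15) (nat_lit 4) (nat_lit 522) (nat_lit 323) (nat_lit 295)) (XT.lf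 (nat_lit 0) (nat_lit 11335758463) (nat_lit 152) (nat_lit 9372719627) (nat_lit 0) (nat_lit 2302868651) (nat_lit 13) (nat_lit 5) (nat_lit 15) (nat_lit 4) (nat_lit 13) (nat_lit 4) (nat_lit 523) (nat_lit 323) (nat_lit 294)))))) (XT.nd (nat_lit 546) (nat_lit 76) (nat_lit 0) (XT.nd (nat_lit 234) (nat_lit 152) (nat_lit 0) (XT.nd (nat_lit 78) (nat_lit 152) (nat_lit 0) (XT.lf (nat_lit 0) (nat_lit 15415052559) (nat_lit 152) (nat_lit 1816446085) (nat_lit 0) (nat_lit 6153875451) (nat_lit 13) (nat_lit 5) (nat_lit 15) (nat_lit 4) (nat_lit 13) (nat_lit 4) (nat_lit 524) (nat_lit 323) (nat_lit 293)) (XT.nd (nat_lit 78) (nat_lit 0) (nat_lit 0) (XT.lf (nat_lit 0) (nat_lit 5888123629) (nat_lit 152) (nat_lit 13681936535) (nat_lit 152) (nat_lit 4196948353) (nat_lit 11) (nat_lit 4) (nat_lit 13) (nat_lit 5) (nat_lit 13) (nat_lit 4) (nat_lit 525) (nat_lit 323) (nat_lit 292)) (XT.lf (nat_lit 0) (nat_lit 13691880712) (nat_lit 152) (nat_lit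 10084722951) (nat_lit 152) (nat_lit 380312147) (nat_lit 11) (nat_lit 4) (nat_lit 13) (nat_lit 5) (nat_lit 13) (nat_lit 4) (nat_lit 526) (nat_lit 323) (nat_lit 291)))) (XT.nd (nat_lit 156) (nat_lit 0) (nat_lit 0) (XT.nd (nat_lit 78) (nat_lit 76) (nat_lit 0) (XT.lf (nat_lit 0) (nat_lit 3423399316) (nat_lit 228) (nat_lit 3004264402) (nat_lit 76) (nat_lit 18127373717) (nat_lit 10) (nat_lit 5) (nat_lit 13) (nat_lit 5) (nat_lit 11) (nat_lit 4) (nat_lit 527) (nat_lit 323) (nat_lit 290)) (XT.lf (nat_lit 0) (nat_lit 4586344412) (nat_lit 76) (nat_lit 2699189057) (nat_lit 152) (nat_lit 17675797314) (nat_lit 9) (nat_lit 5) (nat_lit 10) (nat_lit 5) (nat_lit 11) (nat_lit 4) (nat_lit 528) (nat_lit 323) (nat_lit 289))) (XT.nd (nat_lit 78) (nat_lit 0) (nat_lit 0) (XT.lf (nat_lit 0) (nat_lit 11210139017) (nat_lit 152) (nat_lit 13090285445) (nat_lit 0) (nat_lit 1075629180) (nat_lit 9) (nat_lit 5) (nat_lit 11) (nat_lit 4) (nat_lit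 9) (nat_lit 4) (nat_lit 529) (nat_lit 323) (nat_lit 288)) (XT.lf (nat_lit 0) (nat_lit 15189708223) (nat_lit 152) (nat_lit 5753380806) (nat_lit 0) (nat_lit 4856460557) (nat_lit 9) (nat_lit 5) (nat_lit 11) (nat_lit 4) (nat_lit 9) (nat_lit 4) (nat_lit 530) (nat_lit 323) (nat_lit 287))))) (XT.nd (nat_lit 56394) (nat_lit 0) (nat_lit 2356) (XT.nd (nat_lit 78) (nat_lit 0) (nat_lit 0) (XT.lf (nat_lit 0) (nat_lit 1678138781) (nat_lit 76) (nat_lit 17541033586) (nat_lit 76) (nat_lit 7012944911) (nat_lit 8) (nat_lit 4) (nat_lit 9) (nat_lit 5) (nat_lit 9) (nat_lit 4) (nat_lit 531) (nat_lit 323) (nat_lit 286)) (XT.nd (nat_lit 56238) (nat_lit 0) (nat_lit 2812) (XT.lf (nat_lit 0) (nat_lit 9262632827) (nat_lit 76) (nat_lit 14064926917) (nat_lit 76) (nat_lit 3345817644) (nat_lit 8) (nat_lit 4) (nat_lit 9) (nat_lit 5) (nat_lit 9) (nat_lit 4) (nat_lit 532) (nat_lit 323) (nat_lit 285)) (XT.lf (nat_lit 0) (nat_lit 2689163768) (nat_lit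 228) (nat_lit 1919622094) (nat_lit 0) (nat_lit 2689163768) (nat_lit 45) (nat_lit 5) (nat_lit 48) (nat_lit 4) (nat_lit 45) (nat_lit 4) (nat_lit 492) (nat_lit 324) (nat_lit 324)))) (XT.nd (nat_lit 156) (nat_lit 228) (nat_lit 0) (XT.nd (nat_lit 78) (nat_lit 0) (nat_lit 0) (XT.lf (nat_lit 0) (nat_lit 4397414003) (nat_lit 228) (nat_lit 5433677121) (nat_lit 228) (nat_lit 4958683148) (nat_lit 42) (nat_lit 4) (nat_lit 45) (nat_lit 5) (nat_lit 45) (nat_lit 4) (nat_lit 493) (nat_lit 324) (nat_lit 323)) (XT.lf (nat_lit 0) (nat_lit 12741854292) (nat_lit 228) (nat_lit 1593557833) (nat_lit 228) (nat_lit 652883494) (nat_lit 42) (nat_lit 4) (nat_lit 45) (nat_lit 5) (nat_lit 45) (nat_lit 4) (nat_lit 494) (nat_lit 324) (nat_lit 322))) (XT.nd (nat_lit 78) (nat_lit 0) (nat_lit 0) (XT.lf (nat_lit 0) (nat_lit 3681770324) (nat_lit 228) (nat_lit 9196771018) (nat_lit 0) (nat_lit 2311943150) (nat_lit 39) (nat_lit 5) (nat_lit 42) (nat_lit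 4) (nat_lit 39) (nat_lit 4) (nat_lit 495) (nat_lit 324) (nat_lit 321)) (XT.lf (nat_lit 0) (nat_lit 8057898650) (nat_lit 228) (nat_lit 1090229036) (nat_lit 0) (nat_lit 6249250467) (nat_lit 39) (nat_lit 5) (nat_lit 42) (nat_lit 4) (nat_lit 39) (nat_lit 4) (nat_lit 496) (nat_lit 324) (nat_lit 320))))))) (XT.nd (nat_lit 1092) (nat_lit 912) (nat_lit 0) (XT.nd (nat_lit 546) (nat_lit 456) (nat_lit 0) (XT.nd (nat_lit 234) (nat_lit 380) (nat_lit 0) (XT.nd (nat_lit 78) (nat_lit 228) (nat_lit 0) (XT.lf (nat_lit 0) (nat_lit 7166592841) (nat_lit 152) (nat_lit 5340494199) (nat_lit 152) (nat_lit 3101629339) (nat_lit 37) (nat_lit 4) (nat_lit 39) (nat_lit 5) (nat_lit 39) (nat_lit 4) (nat_lit 497) (nat_lit 324) (nat_lit 319)) (XT.nd (nat_lit 78) (nat_lit 152) (nat_lit 0) (XT.lf (nat_lit 0) (nat_lit 1151432025) (nat_lit 228) (nat_lit 334753223) (nat_lit 76) (nat_lit 14339024989) (nat_lit 36) (nat_lit 5) (nat_lit 39) (nat_lit 5)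 (nat_lit 37) (nat_lit 4) (nat_lit 498) (nat_lit 324) (nat_lit 318)) (XT.lf (nat_lit 0) (nat_lit 5455808837) (nat_lit 228) (nat_lit 8147746168) (nat_lit 0) (nat_lit 2441929667) (nat_lit 34) (nat_lit 5) (nat_lit 37) (nat_lit 4) (nat_lit 34) (nat_lit 4) (nat_lit 499) (nat_lit 324) (nat_lit 317)))) (XT.nd (nat_lit 156) (nat_lit 228) (nat_lit 0) (XT.nd (nat_lit 78) (nat_lit 152) (nat_lit 0) (XT.lf (nat_lit 0) (nat_lit 9798888660) (nat_lit 228) (nat_lit 84683959) (nat_lit 0) (nat_lit 6387555782) (nat_lit 34) (nat_lit 5) (nat_lit 37) (nat_lit 4) (nat_lit 34) (nat_lit 4) (nat_lit 500) (nat_lit 324) (nat_lit 316)) (XT.lf (nat_lit 0) (nat_lit 8144371188) (nat_lit 152) (nat_lit 6079015926) (nat_lit 152) (nat_lit 2278022550) (nat_lit 32) (nat_lit 4) (nat_lit 34) (nat_lit 5) (nat_lit 34) (nat_lit 4) (nat_lit 501) (nat_lit 324) (nat_lit 315))) (XT.nd (nat_lit 78) (nat_lit 152) (nat_lit 0) (XT.lf (nat_lit 0) (nat_lit 1916184823)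 (nat_lit 228) (nat_lit 312320130) (nat_lit 76) (nat_lit 14508700323) (nat_lit 31) (nat_lit 5) (nat_lit 34) (nat_lit 5) (nat_lit 32) (nat_lit 4) (nat_lit 502) (nat_lit 324) (nat_lit 314)) (XT.lf (nat_lit 0) (nat_lit 6169070377) (nat_lit 228) (nat_lit 9107363235) (nat_lit 0) (nat_lit 1700890985) (nat_lit 29) (nat_lit 5) (nat_lit 32) (nat_lit 4) (nat_lit 29) (nat_lit 4) (nat_lit 503) (nat_lit 324) (nat_lit 313))))) (XT.nd (nat_lit 234) (nat_lit 228) (nat_lit 0) (XT.nd (nat_lit 78) (nat_lit 228) (nat_lit 0) (XT.lf (nat_lit 0) (nat_lit 10466983274) (nat_lit 228) (nat_lit 1117260419) (nat_lit 0) (nat_lit 5638817814) (nat_lit 29) (nat_lit 5) (nat_lit 32) (nat_lit 4) (nat_lit 29) (nat_lit 4) (nat_lit 504) (nat_lit 324) (nat_lit 312)) (XT.nd (nat_lit 78) (nat_lit 76) (nat_lit 0) (XT.lf (nat_lit 0) (nat_lit 7026359252) (nat_lit 152) (nat_lit 7814332226) (nat_lit 152) (nat_lit 2633239247) (nat_lit 27) (nat_lit 4) (nat_lit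 29) (nat_lit 5) (nat_lit 29) (nat_lit 4) (nat_lit 505) (nat_lit 324) (nat_lit 311)) (XT.lf (nat_lit 0) (nat_lit 1503281672) (nat_lit 228) (nat_lit 2490471371) (nat_lit 76) (nat_lit 13736837041) (nat_lit 26) (nat_lit 5) (nat_lit 29) (nat_lit 5) (nat_lit 27) (nat_lit 4) (nat_lit 506) (nat_lit 324) (nat_lit 310)))) (XT.nd (nat_lit 156) (nat_lit 152) (nat_lit 0) (XT.nd (nat_lit 78) (nat_lit 0) (nat_lit 0) (XT.lf (nat_lit 0) (nat_lit 5584968572) (nat_lit 76) (nat_lit 83987782) (nat_lit 152) (nat_lit 12323457999) (nat_lit 25) (nat_lit 5) (nat_lit 26) (nat_lit 5) (nat_lit 27) (nat_lit 4) (nat_lit 507) (nat_lit 324) (nat_lit 309)) (XT.lf (nat_lit 0) (nat_lit 9905679114) (nat_lit 152) (nat_lit 4525723198) (nat_lit 0) (nat_lit 3828331322) (nat_lit 25) (nat_lit 5) (nat_lit 27) (nat_lit 4) (nat_lit 25) (nat_lit 4) (nat_lit 508) (nat_lit 324) (nat_lit 308))) (XT.nd (nat_lit 78) (nat_lit 0) (nat_lit 0) (XT.lf (nat_lit 0) (nat_lit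 3463600635) (nat_lit 152) (nat_lit 10733211614) (nat_lit 152) (nat_lit 4336206495) (nat_lit 23) (nat_lit 4) (nat_lit 25) (nat_lit 5) (nat_lit 25) (nat_lit 4) (nat_lit 509) (nat_lit 324) (nat_lit 307)) (XT.lf (nat_lit 0) (nat_lit 11579779939) (nat_lit 152) (nat_lit 6971424129) (nat_lit 152) (nat_lit 261029473) (nat_lit 23) (nat_lit 4) (nat_lit 25) (nat_lit 5) (nat_lit 25) (nat_lit 4) (nat_lit 510) (nat_lit 324) (nat_lit 306)))))) (XT.nd (nat_lit 546) (nat_lit 456) (nat_lit 0) (XT.nd (nat_lit 234) (nat_lit 304) (nat_lit 0) (XT.nd (nat_lit 78) (nat_lit 0) (nat_lit 0) (XT.lf (nat_lit 0) (nat_lit 651363396) (nat_lit 76) (nat_lit 3145172591) (nat_lit 152) (nat_lit 15300963455) (nat_lit 21) (nat_lit 5) (nat_lit 22) (nat_lit 5) (nat_lit 23) (nat_lit 4) (nat_lit 511) (nat_lit 324) (nat_lit 305)) (XT.nd (nat_lit 78) (nat_lit 0) (nat_lit 0) (XT.lf (nat_lit 0) (nat_lit 7933442277) (nat_lit 152) (nat_lit 10696882368) (nat_lit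 0) (nat_lit 758089788) (nat_lit 21) (nat_lit 5) (nat_lit 23) (nat_lit 4) (nat_lit 21) (nat_lit 4) (nat_lit 512) (nat_lit 324) (nat_lit 304)) (XT.lf (nat_lit 0) (nat_lit 12122844653) (nat_lit 152) (nat_lit 2904950977) (nat_lit 0) (nat_lit 4657968674) (nat_lit 21) (nat_lit 5) (nat_lit 23) (nat_lit 4) (nat_lit 21) (nat_lit 4) (nat_lit 513) (nat_lit 324) (nat_lit 303)))) (XT.nd (nat_lit 156) (nat_lit 76) (nat_lit 0) (XT.nd (nat_lit 78) (nat_lit 76) (nat_lit 0) (XT.lf (nat_lit 0) (nat_lit 5018958882) (nat_lit 152) (nat_lit 11359593000) (nat_lit 152) (nat_lit 3610870462) (nat_lit 19) (nat_lit 4) (nat_lit 21) (nat_lit 5) (nat_lit 21) (nat_lit 4) (nat_lit 514) (nat_lit 324) (nat_lit 302)) (XT.lf (nat_lit 0) (nat_lit 384324940) (nat_lit 228) (nat_lit 7250667097) (nat_lit 76) (nat_lit 12664725673) (nat_lit 18) (nat_lit 5) (nat_lit 21) (nat_lit 5) (nat_lit 19) (nat_lit 4) (nat_lit 515) (nat_lit 324) (nat_lit 301))) (XT.nd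 (nat_lit 78) (nat_lit 0) (nat_lit 0) (XT.lf (nat_lit 0) (nat_lit 518400972) (nat_lit 76) (nat_lit 3847058879) (nat_lit 152) (nat_lit 16251204917) (nat_lit 17) (nat_lit 5) (nat_lit 18) (nat_lit 5) (nat_lit 19) (nat_lit 4) (nat_lit 516) (nat_lit 324) (nat_lit 300)) (XT.lf (nat_lit 0) (nat_lit 8426419349) (nat_lit 152) (nat_lit 12486435213) (nat_lit 0) (nat_lit 27102799) (nat_lit 17) (nat_lit 5) (nat_lit 19) (nat_lit 4) (nat_lit 17) (nat_lit 4) (nat_lit 517) (nat_lit 324) (nat_lit 299))))) (XT.nd (nat_lit 312) (nat_lit 228) (nat_lit 0) (XT.nd (nat_lit 156) (nat_lit 76) (nat_lit 0) (XT.nd (nat_lit 78) (nat_lit 152) (nat_lit 0) (XT.lf (nat_lit 0) (nat_lit 12546149639) (nat_lit 152) (nat_lit 4834281044) (nat_lit 0) (nat_lit 3889744515) (nat_lit 17) (nat_lit 5) (nat_lit 19) (nat_lit 4) (nat_lit 17) (nat_lit 4) (nat_lit 518) (nat_lit 324) (nat_lit 298)) (XT.lf (nat_lit 0) (nat_lit 2924532990) (nat_lit 152) (nat_lit 13795743661)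 (nat_lit 152) (nat_lit 4887290917) (nat_lit 15) (nat_lit 4) (nat_lit 17) (nat_lit 5) (nat_lit 17) (nat_lit 4) (nat_lit 519) (nat_lit 324) (nat_lit 297))) (XT.nd (nat_lit 78) (nat_lit 76) (nat_lit 0) (XT.lf (nat_lit 0) (nat_lit 10819871755) (nat_lit 152) (nat_lit 10143843858) (nat_lit 152) (nat_lit 988285603) (nat_lit 15) (nat_lit 4) (nat_lit 17) (nat_lit 5) (nat_lit 17) (nat_lit 4) (nat_lit 520) (nat_lit 324) (nat_lit 296)) (XT.lf (nat_lit 0) (nat_lit 2903492940) (nat_lit 228) (nat_lit 3532762820) (nat_lit 76) (nat_lit 15867609506) (nat_lit 14) (nat_lit 5) (nat_lit 17) (nat_lit 5) (nat_lit 15) (nat_lit 4) (nat_lit 521) (nat_lit 324) (nat_lit 295)))) (XT.nd (nat_lit 156) (nat_lit 152) (nat_lit 0) (XT.nd (nat_lit 78) (nat_lit 0) (nat_lit 0) (XT.lf (nat_lit 0) (nat_lit 4185417191) (nat_lit 76) (nat_lit 2656536202) (nat_lit 152) (nat_lit 15821050404) (nat_lit 13) (nat_lit 5) (nat_lit 14) (nat_lit 5) (nat_lit 15)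 (nat_lit 4) (nat_lit 522) (nat_lit 324) (nat_lit 294)) (XT.lf (nat_lit 0) (nat_lit 10845845995) (nat_lit 152) (nat_lit 11012597050) (nat_lit 0) (nat_lit 1171158049) (nat_lit 13) (nat_lit 5) (nat_lit 15) (nat_lit 4) (nat_lit 13) (nat_lit 4) (nat_lit 523) (nat_lit 324) (nat_lit 293))) (XT.nd (nat_lit 78) (nat_lit 152) (nat_lit 0) (XT.lf (nat_lit 0) (nat_lit 14903307430) (nat_lit 152) (nat_lit 3495953755) (nat_lit 0) (nat_lit 5004808409) (nat_lit 13) (nat_lit 5) (nat_lit 15) (nat_lit 4) (nat_lit 13) (nat_lit 4) (nat_lit 524) (nat_lit 324) (nat_lit 292)) (XT.lf (nat_lit 0) (nat_lit 4146926666) (nat_lit 152) (nat_lit 14878678794) (nat_lit 152) (nat_lit 4760757152) (nat_lit 11) (nat_lit 4) (nat_lit 13) (nat_lit 5) (nat_lit 13) (nat_lit 4) (nat_lit 525) (nat_lit 324) (nat_lit 291))))))))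
noncomputable def xc8 : XT := (XT.nd (nat_lit 58188) (nat_lit 0) (nat_lit 0) (XT.nd (nat_lit 57096) (nat_lit 0) (nat_lit 1140) (XT.nd (nat_lit 56550) (nat_lit 0) (nat_lit 2356) (XT.nd (nat_lit 234) (nat_lit 76) (nat_lit 0) (XT.nd (nat_lit 78) (nat_lit 152) (nat_lit 0) (XT.lf (nat_lit 0) (nat_lit 11912086179) (nat_lit 152) (nat_lit 11298827307) (nat_lit 152) (nat_lit 965785446) (nat_lit 11) (nat_lit 4) (nat_lit 13) (nat_lit 5) (nat_lit 13) (nat_lit 4) (nat_lit 526) (nat_lit 324) (nat_lit 290)) (XT.nd (nat_lit 78) (nat_lit 76) (nat_lit 0) (XT.lf (nat_lit 0) (nat_lit 2824643461) (nat_lit 228) (nat_lit 4838164243) (nat_lit 76) (nat_lit 16912512253) (nat_lit 10) (nat_lit 5) (nat_lit 13) (nat_lit 5) (nat_lit 11) (nat_lit 4) (nat_lit 527) (nat_lit 324) (nat_lit 289)) (XT.lf (nat_lit 0) (nat_lit 2690200353) (nat_lit 76) (nat_lit 3963716095) (nat_lit 152) (nat_lit 18328358149) (nat_lit 9) (nat_lit 5) (nat_lit 10) (nat_lit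 5) (nat_lit 11) (nat_lit 4) (nat_lit 528) (nat_lit 324) (nat_lit 288)))) (XT.nd (nat_lit 156) (nat_lit 76) (nat_lit 0) (XT.nd (nat_lit 78) (nat_lit 0) (nat_lit 0) (XT.lf (nat_lit 0) (nat_lit 10359712122) (nat_lit 76) (nat_lit 191345095) (nat_lit 152) (nat_lit 14846493523) (nat_lit 9) (nat_lit 5) (nat_lit 10) (nat_lit 5) (nat_lit 11) (nat_lit 4) (nat_lit 529) (nat_lit 324) (nat_lit 287)) (XT.lf (nat_lit 0) (nat_lit 14509289017) (nat_lit 152) (nat_lit 7736390767) (nat_lit 0) (nat_lit 3575797559) (nat_lit 9) (nat_lit 5) (nat_lit 11) (nat_lit 4) (nat_lit 9) (nat_lit 4) (nat_lit 530) (nat_lit 324) (nat_lit 286))) (XT.nd (nat_lit 78) (nat_lit 76) (nat_lit 0) (XT.lf (nat_lit 0) (nat_lit 18508156525) (nat_lit 152) (nat_lit 362859807) (nat_lit 0) (nat_lit 7383644469) (nat_lit 9) (nat_lit 5) (nat_lit 11) (nat_lit 4) (nat_lit 9) (nat_lit 4) (nat_lit 531) (nat_lit 324) (nat_lit 285)) (XT.lf (nat_lit 0) (nat_lit 7181069194)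 (nat_lit 76) (nat_lit 15413540654) (nat_lit 76) (nat_lit 4101753503) (nat_lit 8) (nat_lit 4) (nat_lit 9) (nat_lit 5) (nat_lit 9) (nat_lit 4) (nat_lit 532) (nat_lit 324) (nat_lit 284))))) (XT.nd (nat_lit 234) (nat_lit 456) (nat_lit 0) (XT.nd (nat_lit 78) (nat_lit 228) (nat_lit 0) (XT.lf (nat_lit 0) (nat_lit 4246452105) (nat_lit 228) (nat_lit 1431780064) (nat_lit 228) (nat_lit 1431780064) (nat_lit 48) (nat_lit 4) (nat_lit 51) (nat_lit 5) (nat_lit 51) (nat_lit 4) (nat_lit 490) (nat_lit 325) (nat_lit 325)) (XT.nd (nat_lit 78) (nat_lit 0) (nat_lit 0) (XT.lf (nat_lit 0) (nat_lit 1462804445) (nat_lit 228) (nat_lit 11965420815) (nat_lit 0) (nat_lit 978310592) (nat_lit 45) (nat_lit 5) (nat_lit 48) (nat_lit 4) (nat_lit 45) (nat_lit 4) (nat_lit 491) (nat_lit 325) (nat_lit 324)) (XT.lf (nat_lit 0) (nat_lit 5831234942) (nat_lit 228) (nat_lit 3893558467) (nat_lit 0) (nat_lit 4871747116) (nat_lit 45) (nat_lit 5) (nat_lit 48)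 (nat_lit 4) (nat_lit 45) (nat_lit 4) (nat_lit 492) (nat_lit 325) (nat_lit 323)))) (XT.nd (nat_lit 156) (nat_lit 228) (nat_lit 0) (XT.nd (nat_lit 78) (nat_lit 0) (nat_lit 0) (XT.lf (nat_lit 0) (nat_lit 4288420970) (nat_lit 228) (nat_lit 5963902799) (nat_lit 228) (nat_lit 4538734607) (nat_lit 42) (nat_lit 4) (nat_lit 45) (nat_lit 5) (nat_lit 45) (nat_lit 4) (nat_lit 493) (nat_lit 325) (nat_lit 322)) (XT.lf (nat_lit 0) (nat_lit 12579962292) (nat_lit 228) (nat_lit 2145979117) (nat_lit 228) (nat_lit 264261547) (nat_lit 42) (nat_lit 4) (nat_lit 45) (nat_lit 5) (nat_lit 45) (nat_lit 4) (nat_lit 494) (nat_lit 325) (nat_lit 321))) (XT.nd (nat_lit 78) (nat_lit 0) (nat_lit 0) (XT.lf (nat_lit 0) (nat_lit 4029825643) (nat_lit 228) (nat_lit 9417050439) (nat_lit 0) (nat_lit 1746183486) (nat_lit 39) (nat_lit 5) (nat_lit 42) (nat_lit 4) (nat_lit 39) (nat_lit 4) (nat_lit 495) (nat_lit 325) (nat_lit 320)) (XT.lf (nat_lit 0) (nat_lit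 8375759525) (nat_lit 228) (nat_lit 1362905535) (nat_lit 0) (nat_lit 5661900692) (nat_lit 39) (nat_lit 5) (nat_lit 42) (nat_lit 4) (nat_lit 39) (nat_lit 4) (nat_lit 496) (nat_lit 325) (nat_lit 319)))))) (XT.nd (nat_lit 546) (nat_lit 456) (nat_lit 0) (XT.nd (nat_lit 234) (nat_lit 380) (nat_lit 0) (XT.nd (nat_lit 78) (nat_lit 228) (nat_lit 0) (XT.lf (nat_lit 0) (nat_lit 6838240254) (nat_lit 152) (nat_lit 5954973382) (nat_lit 152) (nat_lit 2819333494) (nat_lit 37) (nat_lit 4) (nat_lit 39) (nat_lit 5) (nat_lit 39) (nat_lit 4) (nat_lit 497) (nat_lit 325) (nat_lit 318)) (XT.nd (nat_lit 78) (nat_lit 152) (nat_lit 0) (XT.lf (nat_lit 0) (nat_lit 1400469637) (nat_lit 228) (nat_lit 720202058) (nat_lit 76) (nat_lit 13708931890) (nat_lit 36) (nat_lit 5) (nat_lit 39) (nat_lit 5) (nat_lit 37) (nat_lit 4) (nat_lit 498) (nat_lit 325) (nat_lit 317)) (XT.lf (nat_lit 0) (nat_lit 5668724767) (nat_lit 228) (nat_lit 8590172142) (nat_lit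 0) (nat_lit 1791711523) (nat_lit 34) (nat_lit 5) (nat_lit 37) (nat_lit 4) (nat_lit 34) (nat_lit 4) (nat_lit 499) (nat_lit 325) (nat_lit 316)))) (XT.nd (nat_lit 156) (nat_lit 228) (nat_lit 0) (XT.nd (nat_lit 78) (nat_lit 152) (nat_lit 0) (XT.lf (nat_lit 0) (nat_lit 9982932499) (nat_lit 228) (nat_lit 577646169) (nat_lit 0) (nat_lit 5716258757) (nat_lit 34) (nat_lit 5) (nat_lit 37) (nat_lit 4) (nat_lit 34) (nat_lit 4) (nat_lit 500) (nat_lit 325) (nat_lit 315)) (XT.lf (nat_lit 0) (nat_lit 7594654008) (nat_lit 152) (nat_lit 6780901844) (nat_lit 152) (nat_lit 2132208005) (nat_lit 32) (nat_lit 4) (nat_lit 34) (nat_lit 5) (nat_lit 34) (nat_lit 4) (nat_lit 501) (nat_lit 325) (nat_lit 314))) (XT.nd (nat_lit 78) (nat_lit 152) (nat_lit 0) (XT.lf (nat_lit 0) (nat_lit 2031823149) (nat_lit 228) (nat_lit 918940583) (nat_lit 76) (nat_lit 13793349449) (nat_lit 31) (nat_lit 5) (nat_lit 34) (nat_lit 5) (nat_lit 32) (nat_lit 4) (nat_lit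 502) (nat_lit 325) (nat_lit 313)) (XT.lf (nat_lit 0) (nat_lit 6247834446) (nat_lit 228) (nat_lit 9774023159) (nat_lit 0) (nat_lit 963119607) (nat_lit 29) (nat_lit 5) (nat_lit 32) (nat_lit 4) (nat_lit 29) (nat_lit 4) (nat_lit 503) (nat_lit 325) (nat_lit 312))))) (XT.nd (nat_lit 234) (nat_lit 228) (nat_lit 0) (XT.nd (nat_lit 78) (nat_lit 228) (nat_lit 0) (XT.lf (nat_lit 0) (nat_lit 10518132128) (nat_lit 228) (nat_lit 1832651614) (nat_lit 0) (nat_lit 4880489770) (nat_lit 29) (nat_lit 5) (nat_lit 32) (nat_lit 4) (nat_lit 29) (nat_lit 4) (nat_lit 504) (nat_lit 325) (nat_lit 311)) (XT.nd (nat_lit 78) (nat_lit 76) (nat_lit 0) (XT.lf (nat_lit 0) (nat_lit 6253050216) (nat_lit 152) (nat_lit 8606695539) (nat_lit 152) (nat_lit 2623045810) (nat_lit 27) (nat_lit 4) (nat_lit 29) (nat_lit 5) (nat_lit 29) (nat_lit 4) (nat_lit 505) (nat_lit 325) (nat_lit 310)) (XT.lf (nat_lit 0) (nat_lit 1486305845) (nat_lit 228) (nat_lit 3320534834)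 (nat_lit 76) (nat_lit 12933156309) (nat_lit 26) (nat_lit 5) (nat_lit 29) (nat_lit 5) (nat_lit 27) (nat_lit 4) (nat_lit 506) (nat_lit 325) (nat_lit 309)))) (XT.nd (nat_lit 156) (nat_lit 152) (nat_lit 0) (XT.nd (nat_lit 78) (nat_lit 0) (nat_lit 0) (XT.lf (nat_lit 0) (nat_lit 4696361252) (nat_lit 76) (nat_lit 923344380) (nat_lit 152) (nat_lit 12382767666) (nat_lit 25) (nat_lit 5) (nat_lit 26) (nat_lit 5) (nat_lit 27) (nat_lit 4) (nat_lit 507) (nat_lit 325) (nat_lit 308)) (XT.lf (nat_lit 0) (nat_lit 9824558790) (nat_lit 152) (nat_lit 5465921356) (nat_lit 0) (nat_lit 2979956242) (nat_lit 25) (nat_lit 5) (nat_lit 27) (nat_lit 4) (nat_lit 25) (nat_lit 4) (nat_lit 508) (nat_lit 325) (nat_lit 307))) (XT.nd (nat_lit 78) (nat_lit 0) (nat_lit 0) (XT.lf (nat_lit 0) (nat_lit 2464235275) (nat_lit 152) (nat_lit 11619066203) (nat_lit 152) (nat_lit 4461074118) (nat_lit 23) (nat_lit 4) (nat_lit 25) (nat_lit 5) (nat_lit 25) (nat_lit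 4) (nat_lit 509) (nat_lit 325) (nat_lit 306)) (XT.lf (nat_lit 0) (nat_lit 10534657262) (nat_lit 152) (nat_lit 7877344925) (nat_lit 152) (nat_lit 412108196) (nat_lit 23) (nat_lit 4) (nat_lit 25) (nat_lit 5) (nat_lit 25) (nat_lit 4) (nat_lit 510) (nat_lit 325) (nat_lit 305))))))) (XT.nd (nat_lit 1092) (nat_lit 380) (nat_lit 0) (XT.nd (nat_lit 546) (nat_lit 304) (nat_lit 0) (XT.nd (nat_lit 234) (nat_lit 304) (nat_lit 0) (XT.nd (nat_lit 78) (nat_lit 76) (nat_lit 0) (XT.lf (nat_lit 0) (nat_lit 3617849473) (nat_lit 228) (nat_lit 458401031) (nat_lit 76) (nat_lit 15033743110) (nat_lit 22) (nat_lit 5) (nat_lit 25) (nat_lit 5) (nat_lit 23) (nat_lit 4) (nat_lit 511) (nat_lit 325) (nat_lit 304)) (XT.nd (nat_lit 78) (nat_lit 0) (nat_lit 0) (XT.lf (nat_lit 0) (nat_lit 7535857234) (nat_lit 76) (nat_lit 185740865) (nat_lit 152) (nat_lit 11679979470) (nat_lit 21) (nat_lit 5) (nat_lit 22) (nat_lit 5) (nat_lit 23) (nat_lit 4) (nat_lit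 512) (nat_lit 325) (nat_lit 303)) (XT.lf (nat_lit 0) (nat_lit 11885007590) (nat_lit 152) (nat_lit 4116981362) (nat_lit 0) (nat_lit 3697464043) (nat_lit 21) (nat_lit 5) (nat_lit 23) (nat_lit 4) (nat_lit 21) (nat_lit 4) (nat_lit 513) (nat_lit 325) (nat_lit 302)))) (XT.nd (nat_lit 156) (nat_lit 76) (nat_lit 0) (XT.nd (nat_lit 78) (nat_lit 76) (nat_lit 0) (XT.lf (nat_lit 0) (nat_lit 3746714975) (nat_lit 152) (nat_lit 12361438678) (nat_lit 152) (nat_lit 3895614191) (nat_lit 19) (nat_lit 4) (nat_lit 21) (nat_lit 5) (nat_lit 21) (nat_lit 4) (nat_lit 514) (nat_lit 325) (nat_lit 301)) (XT.lf (nat_lit 0) (nat_lit 79045457) (nat_lit 228) (nat_lit 8578977113) (nat_lit 76) (nat_lit 11656568388) (nat_lit 18) (nat_lit 5) (nat_lit 21) (nat_lit 5) (nat_lit 19) (nat_lit 4) (nat_lit 515) (nat_lit 325) (nat_lit 300))) (XT.nd (nat_lit 78) (nat_lit 76) (nat_lit 0) (XT.lf (nat_lit 0) (nat_lit 4033020233) (nat_lit 228) (nat_lit 859423018)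 (nat_lit 76) (nat_lit 15739643231) (nat_lit 18) (nat_lit 5) (nat_lit 21) (nat_lit 5) (nat_lit 19) (nat_lit 4) (nat_lit 516) (nat_lit 325) (nat_lit 299)) (XT.lf (nat_lit 0) (nat_lit 7022024719) (nat_lit 76) (nat_lit 1042519317) (nat_lit 152) (nat_lit 12891428914) (nat_lit 17) (nat_lit 5) (nat_lit 18) (nat_lit 5) (nat_lit 19) (nat_lit 4) (nat_lit 517) (nat_lit 325) (nat_lit 298))))) (XT.nd (nat_lit 234) (nat_lit 152) (nat_lit 0) (XT.nd (nat_lit 78) (nat_lit 152) (nat_lit 0) (XT.lf (nat_lit 0) (nat_lit 12154245257) (nat_lit 152) (nat_lit 6316975332) (nat_lit 0) (nat_lit 2815575837) (nat_lit 17) (nat_lit 5) (nat_lit 19) (nat_lit 4) (nat_lit 17) (nat_lit 4) (nat_lit 518) (nat_lit 325) (nat_lit 297)) (XT.nd (nat_lit 78) (nat_lit 0) (nat_lit 0) (XT.lf (nat_lit 0) (nat_lit 1380460464) (nat_lit 152) (nat_lit 14915082406) (nat_lit 152) (nat_lit 5329307475) (nat_lit 15) (nat_lit 4) (nat_lit 17) (nat_lit 5) (nat_lit 17)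 (nat_lit 4) (nat_lit 519) (nat_lit 325) (nat_lit 296)) (XT.lf (nat_lit 0) (nat_lit 9234942356) (nat_lit 152) (nat_lit 11281417092) (nat_lit 152) (nat_lit 1453381855) (nat_lit 15) (nat_lit 4) (nat_lit 17) (nat_lit 5) (nat_lit 17) (nat_lit 4) (nat_lit 520) (nat_lit 325) (nat_lit 295)))) (XT.nd (nat_lit 156) (nat_lit 0) (nat_lit 0) (XT.nd (nat_lit 78) (nat_lit 76) (nat_lit 0) (XT.lf (nat_lit 0) (nat_lit 2422166116) (nat_lit 228) (nat_lit 5172769783) (nat_lit 76) (nat_lit 14727181130) (nat_lit 14) (nat_lit 5) (nat_lit 17) (nat_lit 5) (nat_lit 15) (nat_lit 4) (nat_lit 521) (nat_lit 325) (nat_lit 294)) (XT.lf (nat_lit 0) (nat_lit 2483523715) (nat_lit 76) (nat_lit 3844160490) (nat_lit 152) (nat_lit 16354234783) (nat_lit 13) (nat_lit 5) (nat_lit 14) (nat_lit 5) (nat_lit 15) (nat_lit 4) (nat_lit 522) (nat_lit 325) (nat_lit 293))) (XT.nd (nat_lit 78) (nat_lit 0) (nat_lit 0) (XT.lf (nat_lit 0) (nat_lit 10283664085) (nat_lit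 76) (nat_lit 18489262) (nat_lit 152) (nat_lit 12746955902) (nat_lit 13) (nat_lit 5) (nat_lit 14) (nat_lit 5) (nat_lit 15) (nat_lit 4) (nat_lit 523) (nat_lit 325) (nat_lit 292)) (XT.lf (nat_lit 0) (nat_lit 14338090167) (nat_lit 152) (nat_lit 5287535007) (nat_lit 0) (nat_lit 3798387470) (nat_lit 13) (nat_lit 5) (nat_lit 15) (nat_lit 4) (nat_lit 13) (nat_lit 4) (nat_lit 524) (nat_lit 325) (nat_lit 291)))))) (XT.nd (nat_lit 546) (nat_lit 76) (nat_lit 0) (XT.nd (nat_lit 234) (nat_lit 76) (nat_lit 0) (XT.nd (nat_lit 78) (nat_lit 76) (nat_lit 0) (XT.lf (nat_lit 0) (nat_lit 2292938673) (nat_lit 152) (nat_lit 16134427333) (nat_lit 152) (nat_lit 5379604418) (nat_lit 11) (nat_lit 4) (nat_lit 13) (nat_lit 5) (nat_lit 13) (nat_lit 4) (nat_lit 525) (nat_lit 325) (nat_lit 290)) (XT.nd (nat_lit 78) (nat_lit 76) (nat_lit 0) (XT.lf (nat_lit 0) (nat_lit 10020257431) (nat_lit 152) (nat_lit 12571597508) (nat_lit 152) (nat_lit 1605872418)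 (nat_lit 11) (nat_lit 4) (nat_lit 13) (nat_lit 5) (nat_lit 13) (nat_lit 4) (nat_lit 526) (nat_lit 325) (nat_lit 289)) (XT.lf (nat_lit 0) (nat_lit 2172401203) (nat_lit 228) (nat_lit 6784241496) (nat_lit 76) (nat_lit 15640203873) (nat_lit 10) (nat_lit 5) (nat_lit 13) (nat_lit 5) (nat_lit 11) (nat_lit 4) (nat_lit 527) (nat_lit 325) (nat_lit 288)))) (XT.nd (nat_lit 156) (nat_lit 0) (nat_lit 0) (XT.nd (nat_lit 78) (nat_lit 0) (nat_lit 0) (XT.lf (nat_lit 0) (nat_lit 681130704) (nat_lit 76) (nat_lit 5287352076) (nat_lit 152) (nat_lit 19035986249) (nat_lit 9) (nat_lit 5) (nat_lit 10) (nat_lit 5) (nat_lit 11) (nat_lit 4) (nat_lit 528) (nat_lit 325) (nat_lit 287)) (XT.lf (nat_lit 0) (nat_lit 8314240460) (nat_lit 76) (nat_lit 1531394590) (nat_lit 152) (nat_lit 15574513804) (nat_lit 9) (nat_lit 5) (nat_lit 10) (nat_lit 5) (nat_lit 11) (nat_lit 4) (nat_lit 529) (nat_lit 325) (nat_lit 286))) (XT.nd (nat_lit 78) (nat_lit 0)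 (nat_lit 0) (XT.lf (nat_lit 0) (nat_lit 13775465313) (nat_lit 152) (nat_lit 9831739589) (nat_lit 0) (nat_lit 2237442419) (nat_lit 9) (nat_lit 5) (nat_lit 11) (nat_lit 4) (nat_lit 9) (nat_lit 4) (nat_lit 530) (nat_lit 325) (nat_lit 285)) (XT.lf (nat_lit 0) (nat_lit 17755018069) (nat_lit 152) (nat_lit 2493482684) (nat_lit 0) (nat_lit 6029720080) (nat_lit 9) (nat_lit 5) (nat_lit 11) (nat_lit 4) (nat_lit 9) (nat_lit 4) (nat_lit 531) (nat_lit 325) (nat_lit 284))))) (XT.nd (nat_lit 56082) (nat_lit 0) (nat_lit 2584) (XT.nd (nat_lit 55926) (nat_lit 0) (nat_lit 3040) (XT.lf (nat_lit 0) (nat_lit 4987089471) (nat_lit 76) (nat_lit 16821201119) (nat_lit 76) (nat_lit 4912300095) (nat_lit 8) (nat_lit 4) (nat_lit 9) (nat_lit 5) (nat_lit 9) (nat_lit 4) (nat_lit 532) (nat_lit 325) (nat_lit 283)) (XT.nd (nat_lit 78) (nat_lit 228) (nat_lit 0) (XT.lf (nat_lit 0) (nat_lit 1500069969) (nat_lit 228) (nat_lit 3929250755) (nat_lit 0)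 (nat_lit 1500069969) (nat_lit 51) (nat_lit 5) (nat_lit 54) (nat_lit 4) (nat_lit 51) (nat_lit 4) (nat_lit 488) (nat_lit 326) (nat_lit 326)) (XT.lf (nat_lit 0) (nat_lit 210658427) (nat_lit 228) (nat_lit 7165611310) (nat_lit 228) (nat_lit 6661543906) (nat_lit 48) (nat_lit 4) (nat_lit 51) (nat_lit 5) (nat_lit 51) (nat_lit 4) (nat_lit 489) (nat_lit 326) (nat_lit 325)))) (XT.nd (nat_lit 156) (nat_lit 228) (nat_lit 0) (XT.nd (nat_lit 78) (nat_lit 228) (nat_lit 0) (XT.lf (nat_lit 0) (nat_lit 8439157732) (nat_lit 228) (nat_lit 3389878847) (nat_lit 228) (nat_lit 2391627712) (nat_lit 48) (nat_lit 4) (nat_lit 51) (nat_lit 5) (nat_lit 51) (nat_lit 4) (nat_lit 490) (nat_lit 326) (nat_lit 324)) (XT.lf (nat_lit 0) (nat_lit 1893183551) (nat_lit 228) (nat_lit 12075135656) (nat_lit 0) (nat_lit 439511995) (nat_lit 45) (nat_lit 5) (nat_lit 48) (nat_lit 4) (nat_lit 45) (nat_lit 4) (nat_lit 491) (nat_lit 326) (nat_lit 323))) (XT.nd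 (nat_lit 78) (nat_lit 228) (nat_lit 0) (XT.lf (nat_lit 0) (nat_lit 6230646943) (nat_lit 228) (nat_lit 4056522600) (nat_lit 0) (nat_lit 4311295021) (nat_lit 45) (nat_lit 5) (nat_lit 48) (nat_lit 4) (nat_lit 45) (nat_lit 4) (nat_lit 492) (nat_lit 326) (nat_lit 322)) (XT.lf (nat_lit 0) (nat_lit 4070392162) (nat_lit 228) (nat_lit 6549568114) (nat_lit 228) (nat_lit 4173666814) (nat_lit 42) (nat_lit 4) (nat_lit 45) (nat_lit 5) (nat_lit 45) (nat_lit 4) (nat_lit 493) (nat_lit 326) (nat_lit 321))))))))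
noncomputable def xc9 : XT := (XT.nd (nat_lit 2184) (nat_lit 456) (nat_lit 0) (XT.nd (nat_lit 1092) (nat_lit 836) (nat_lit 0) (XT.nd (nat_lit 546) (nat_lit 684) (nat_lit 0) (XT.nd (nat_lit 234) (nat_lit 380) (nat_lit 0) (XT.nd (nat_lit 78) (nat_lit 152) (nat_lit 0) (XT.lf (nat_lit 0) (nat_lit 69174605) (nat_lit 304) (nat_lit 2683766025) (nat_lit 76) (nat_lit 12240432948) (nat_lit 41) (nat_lit 5) (nat_lit 45) (nat_lit 5) (nat_lit 42) (nat_lit 4) (nat_lit 494) (nat_lit 326) (nat_lit 320)) (XT.nd (nat_lit 78) (nat_lit 0) (nat_lit 0) (XT.lf (nat_lit 0) (nat_lit 4323849292) (nat_lit 228) (nat_lit 9747577546) (nat_lit 0) (nat_lit 1125496606) (nat_lit 39) (nat_lit 5) (nat_lit 42) (nat_lit 4) (nat_lit 39) (nat_lit 4) (nat_lit 495) (nat_lit 326) (nat_lit 319)) (XT.lf (nat_lit 0) (nat_lit 8640180778) (nat_lit 228) (nat_lit 1744802327) (nat_lit 0) (nat_lit 5020047037) (nat_lit 39) (nat_lit 5) (nat_lit 42) (nat_lit 4) (nat_lit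 39) (nat_lit 4) (nat_lit 496) (nat_lit 326) (nat_lit 318)))) (XT.nd (nat_lit 156) (nat_lit 152) (nat_lit 0) (XT.nd (nat_lit 78) (nat_lit 76) (nat_lit 0) (XT.lf (nat_lit 0) (nat_lit 6400236529) (nat_lit 152) (nat_lit 6625532593) (nat_lit 152) (nat_lit 2591888014) (nat_lit 37) (nat_lit 4) (nat_lit 39) (nat_lit 5) (nat_lit 39) (nat_lit 4) (nat_lit 497) (nat_lit 326) (nat_lit 317)) (XT.lf (nat_lit 0) (nat_lit 1595955784) (nat_lit 228) (nat_lit 1215216677) (nat_lit 76) (nat_lit 13024099100) (nat_lit 36) (nat_lit 5) (nat_lit 39) (nat_lit 5) (nat_lit 37) (nat_lit 4) (nat_lit 498) (nat_lit 326) (nat_lit 316))) (XT.nd (nat_lit 78) (nat_lit 0) (nat_lit 0) (XT.lf (nat_lit 0) (nat_lit 5827577391) (nat_lit 228) (nat_lit 9143529833) (nat_lit 0) (nat_lit 1085909675) (nat_lit 34) (nat_lit 5) (nat_lit 37) (nat_lit 4) (nat_lit 34) (nat_lit 4) (nat_lit 499) (nat_lit 326) (nat_lit 315)) (XT.lf (nat_lit 0) (nat_lit 10113479150) (nat_lit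 228) (nat_lit 1180549190) (nat_lit 0) (nat_lit 4989791338) (nat_lit 34) (nat_lit 5) (nat_lit 37) (nat_lit 4) (nat_lit 34) (nat_lit 4) (nat_lit 500) (nat_lit 326) (nat_lit 314))))) (XT.nd (nat_lit 234) (nat_lit 304) (nat_lit 0) (XT.nd (nat_lit 78) (nat_lit 228) (nat_lit 0) (XT.lf (nat_lit 0) (nat_lit 6934519350) (nat_lit 152) (nat_lit 7539546168) (nat_lit 152) (nat_lit 2041328850) (nat_lit 32) (nat_lit 4) (nat_lit 34) (nat_lit 5) (nat_lit 34) (nat_lit 4) (nat_lit 501) (nat_lit 326) (nat_lit 313)) (XT.nd (nat_lit 78) (nat_lit 152) (nat_lit 0) (XT.lf (nat_lit 0) (nat_lit 2093800766) (nat_lit 228) (nat_lit 1635925560) (nat_lit 76) (nat_lit 13022566983) (nat_lit 31) (nat_lit 5) (nat_lit 34) (nat_lit 5) (nat_lit 32) (nat_lit 4) (nat_lit 502) (nat_lit 326) (nat_lit 312)) (XT.lf (nat_lit 0) (nat_lit 6272391061) (nat_lit 228) (nat_lit 10552453447) (nat_lit 0) (nat_lit 169068337) (nat_lit 29) (nat_lit 5) (nat_lit 32) (nat_lit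 4) (nat_lit 29) (nat_lit 4) (nat_lit 503) (nat_lit 326) (nat_lit 311)))) (XT.nd (nat_lit 156) (nat_lit 152) (nat_lit 0) (XT.nd (nat_lit 78) (nat_lit 152) (nat_lit 0) (XT.lf (nat_lit 0) (nat_lit 10515615001) (nat_lit 228) (nat_lit 2658857656) (nat_lit 0) (nat_lit 4066284906) (nat_lit 29) (nat_lit 5) (nat_lit 32) (nat_lit 4) (nat_lit 29) (nat_lit 4) (nat_lit 504) (nat_lit 326) (nat_lit 310)) (XT.lf (nat_lit 0) (nat_lit 5368402890) (nat_lit 152) (nat_lit 9456539138) (nat_lit 152) (nat_lit 2667986130) (nat_lit 27) (nat_lit 4) (nat_lit 29) (nat_lit 5) (nat_lit 29) (nat_lit 4) (nat_lit 505) (nat_lit 326) (nat_lit 309))) (XT.nd (nat_lit 78) (nat_lit 76) (nat_lit 0) (XT.lf (nat_lit 0) (nat_lit 1415449459) (nat_lit 228) (nat_lit 4261916583) (nat_lit 76) (nat_lit 12073310028) (nat_lit 26) (nat_lit 5) (nat_lit 29) (nat_lit 5) (nat_lit 27) (nat_lit 4) (nat_lit 506) (nat_lit 326) (nat_lit 308)) (XT.lf (nat_lit 0) (nat_lit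 3695887908) (nat_lit 76) (nat_lit 1820479851) (nat_lit 152) (nat_lit 12497440667) (nat_lit 25) (nat_lit 5) (nat_lit 26) (nat_lit 5) (nat_lit 27) (nat_lit 4) (nat_lit 507) (nat_lit 326) (nat_lit 307)))))) (XT.nd (nat_lit 546) (nat_lit 380) (nat_lit 0) (XT.nd (nat_lit 234) (nat_lit 304) (nat_lit 0) (XT.nd (nat_lit 78) (nat_lit 152) (nat_lit 0) (XT.lf (nat_lit 0) (nat_lit 9689494214) (nat_lit 152) (nat_lit 6517965375) (nat_lit 0) (nat_lit 2074952751) (nat_lit 25) (nat_lit 5) (nat_lit 27) (nat_lit 4) (nat_lit 25) (nat_lit 4) (nat_lit 508) (nat_lit 326) (nat_lit 306)) (XT.nd (nat_lit 78) (nat_lit 0) (nat_lit 0) (XT.lf (nat_lit 0) (nat_lit 1352452828) (nat_lit 152) (nat_lit 12563171622) (nat_lit 152) (nat_lit 4641385514) (nat_lit 23) (nat_lit 4) (nat_lit 25) (nat_lit 5) (nat_lit 25) (nat_lit 4) (nat_lit 509) (nat_lit 326) (nat_lit 305)) (XT.lf (nat_lit 0) (nat_lit 9378014701) (nat_lit 152) (nat_lit 8841123095) (nat_lit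 152) (nat_lit 618116748) (nat_lit 23) (nat_lit 4) (nat_lit 25) (nat_lit 5) (nat_lit 25) (nat_lit 4) (nat_lit 510) (nat_lit 326) (nat_lit 304)))) (XT.nd (nat_lit 156) (nat_lit 152) (nat_lit 0) (XT.nd (nat_lit 78) (nat_lit 76) (nat_lit 0) (XT.lf (nat_lit 0) (nat_lit 3389679884) (nat_lit 228) (nat_lit 1671166940) (nat_lit 76) (nat_lit 14062820771) (nat_lit 22) (nat_lit 5) (nat_lit 25) (nat_lit 5) (nat_lit 23) (nat_lit 4) (nat_lit 511) (nat_lit 326) (nat_lit 303)) (XT.lf (nat_lit 0) (nat_lit 6262949132) (nat_lit 76) (nat_lit 1197839446) (nat_lit 152) (nat_lit 11955121469) (nat_lit 21) (nat_lit 5) (nat_lit 22) (nat_lit 5) (nat_lit 23) (nat_lit 4) (nat_lit 512) (nat_lit 326) (nat_lit 302))) (XT.nd (nat_lit 78) (nat_lit 152) (nat_lit 0) (XT.lf (nat_lit 0) (nat_lit 11593325939) (nat_lit 152) (nat_lit 5441178540) (nat_lit 0) (nat_lit 2679904022) (nat_lit 21) (nat_lit 5) (nat_lit 23) (nat_lit 4) (nat_lit 21) (nat_lit 4)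 (nat_lit 513) (nat_lit 326) (nat_lit 301)) (XT.lf (nat_lit 0) (nat_lit 2361678466) (nat_lit 152) (nat_lit 13421976534) (nat_lit 152) (nat_lit 4235730165) (nat_lit 19) (nat_lit 4) (nat_lit 21) (nat_lit 5) (nat_lit 21) (nat_lit 4) (nat_lit 514) (nat_lit 326) (nat_lit 300))))) (XT.nd (nat_lit 234) (nat_lit 228) (nat_lit 0) (XT.nd (nat_lit 78) (nat_lit 152) (nat_lit 0) (XT.lf (nat_lit 0) (nat_lit 10308714198) (nat_lit 152) (nat_lit 9737851911) (nat_lit 152) (nat_lit 284130591) (nat_lit 19) (nat_lit 4) (nat_lit 21) (nat_lit 5) (nat_lit 21) (nat_lit 4) (nat_lit 515) (nat_lit 326) (nat_lit 299)) (XT.nd (nat_lit 78) (nat_lit 76) (nat_lit 0) (XT.lf (nat_lit 0) (nat_lit 3650242831) (nat_lit 228) (nat_lit 2342461145) (nat_lit 76) (nat_lit 14655996858) (nat_lit 18) (nat_lit 5) (nat_lit 21) (nat_lit 5) (nat_lit 19) (nat_lit 4) (nat_lit 516) (nat_lit 326) (nat_lit 298)) (XT.lf (nat_lit 0) (nat_lit 5477675802) (nat_lit 76)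 (nat_lit 2171193524) (nat_lit 152) (nat_lit 13324380980) (nat_lit 17) (nat_lit 5) (nat_lit 18) (nat_lit 5) (nat_lit 19) (nat_lit 4) (nat_lit 517) (nat_lit 326) (nat_lit 297)))) (XT.nd (nat_lit 156) (nat_lit 228) (nat_lit 0) (XT.nd (nat_lit 78) (nat_lit 0) (nat_lit 0) (XT.lf (nat_lit 0) (nat_lit 11708438190) (nat_lit 152) (nat_lit 7912400953) (nat_lit 0) (nat_lit 1683842248) (nat_lit 17) (nat_lit 5) (nat_lit 19) (nat_lit 4) (nat_lit 17) (nat_lit 4) (nat_lit 518) (nat_lit 326) (nat_lit 296)) (XT.lf (nat_lit 0) (nat_lit 15818415823) (nat_lit 152) (nat_lit 273391171) (nat_lit 0) (nat_lit 5551559577) (nat_lit 17) (nat_lit 5) (nat_lit 19) (nat_lit 4) (nat_lit 17) (nat_lit 4) (nat_lit 519) (nat_lit 326) (nat_lit 295))) (XT.nd (nat_lit 78) (nat_lit 76) (nat_lit 0) (XT.lf (nat_lit 0) (nat_lit 7537401738) (nat_lit 152) (nat_lit 12477853228) (nat_lit 152) (nat_lit 1973486879) (nat_lit 15) (nat_lit 4) (nat_lit 17) (nat_lit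 5) (nat_lit 17) (nat_lit 4) (nat_lit 520) (nat_lit 326) (nat_lit 294)) (XT.lf (nat_lit 0) (nat_lit 1886989822) (nat_lit 228) (nat_lit 6925499949) (nat_lit 76) (nat_lit 13529137770) (nat_lit 14) (nat_lit 5) (nat_lit 17) (nat_lit 5) (nat_lit 15) (nat_lit 4) (nat_lit 521) (nat_lit 326) (nat_lit 293))))))) (XT.nd (nat_lit 56784) (nat_lit 0) (nat_lit 1748) (XT.nd (nat_lit 546) (nat_lit 152) (nat_lit 0) (XT.nd (nat_lit 234) (nat_lit 228) (nat_lit 0) (XT.nd (nat_lit 78) (nat_lit 0) (nat_lit 0) (XT.lf (nat_lit 0) (nat_lit 668195115) (nat_lit 76) (nat_lit 5091063202) (nat_lit 152) (nat_lit 16942840668) (nat_lit 13) (nat_lit 5) (nat_lit 14) (nat_lit 5) (nat_lit 15) (nat_lit 4) (nat_lit 522) (nat_lit 326) (nat_lit 292)) (XT.nd (nat_lit 78) (nat_lit 0) (nat_lit 0) (XT.lf (nat_lit 0) (nat_lit 8429800611) (nat_lit 76) (nat_lit 1282634226) (nat_lit 152) (nat_lit 13357284664) (nat_lit 13) (nat_lit 5) (nat_lit 14) (nat_lit 5)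 (nat_lit 15) (nat_lit 4) (nat_lit 523) (nat_lit 326) (nat_lit 291)) (XT.lf (nat_lit 0) (nat_lit 13719179118) (nat_lit 152) (nat_lit 7191892421) (nat_lit 0) (nat_lit 2534139526) (nat_lit 13) (nat_lit 5) (nat_lit 15) (nat_lit 4) (nat_lit 13) (nat_lit 4) (nat_lit 524) (nat_lit 326) (nat_lit 290)))) (XT.nd (nat_lit 156) (nat_lit 76) (nat_lit 0) (XT.nd (nat_lit 78) (nat_lit 0) (nat_lit 0) (XT.lf (nat_lit 0) (nat_lit 325432596) (nat_lit 152) (nat_lit 17449674602) (nat_lit 152) (nat_lit 6053732836) (nat_lit 11) (nat_lit 4) (nat_lit 13) (nat_lit 5) (nat_lit 13) (nat_lit 4) (nat_lit 525) (nat_lit 326) (nat_lit 289)) (XT.lf (nat_lit 0) (nat_lit 8015652576) (nat_lit 152) (nat_lit 13903532682) (nat_lit 152) (nat_lit 2300824078) (nat_lit 11) (nat_lit 4) (nat_lit 13) (nat_lit 5) (nat_lit 13) (nat_lit 4) (nat_lit 526) (nat_lit 326) (nat_lit 288))) (XT.nd (nat_lit 78) (nat_lit 0) (nat_lit 0) (XT.lf (nat_lit 0) (nat_lit 1466416762)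 (nat_lit 228) (nat_lit 8843259329) (nat_lit 76) (nat_lit 14309949634) (nat_lit 10) (nat_lit 5) (nat_lit 13) (nat_lit 5) (nat_lit 11) (nat_lit 4) (nat_lit 527) (nat_lit 326) (nat_lit 287)) (XT.lf (nat_lit 0) (nat_lit 5238323833) (nat_lit 228) (nat_lit 1422744874) (nat_lit 76) (nat_lit 18366666875) (nat_lit 10) (nat_lit 5) (nat_lit 13) (nat_lit 5) (nat_lit 11) (nat_lit 4) (nat_lit 528) (nat_lit 326) (nat_lit 286))))) (XT.nd (nat_lit 234) (nat_lit 76) (nat_lit 0) (XT.nd (nat_lit 78) (nat_lit 0) (nat_lit 0) (XT.lf (nat_lit 0) (nat_lit 6155769102) (nat_lit 76) (nat_lit 2930750268) (nat_lit 152) (nat_lit 16357479006) (nat_lit 9) (nat_lit 5) (nat_lit 10) (nat_lit 5) (nat_lit 11) (nat_lit 4) (nat_lit 529) (nat_lit 326) (nat_lit 285)) (XT.nd (nat_lit 78) (nat_lit 0) (nat_lit 0) (XT.lf (nat_lit 0) (nat_lit 12987949337) (nat_lit 152) (nat_lit 12040248979) (nat_lit 0) (nat_lit 840870293) (nat_lit 9) (nat_lit 5) (nat_lit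 11) (nat_lit 4) (nat_lit 9) (nat_lit 4) (nat_lit 530) (nat_lit 326) (nat_lit 284)) (XT.lf (nat_lit 0) (nat_lit 16948566062) (nat_lit 152) (nat_lit 4736574481) (nat_lit 0) (nat_lit 4617883983) (nat_lit 9) (nat_lit 5) (nat_lit 11) (nat_lit 4) (nat_lit 9) (nat_lit 4) (nat_lit 531) (nat_lit 326) (nat_lit 283)))) (XT.nd (nat_lit 55848) (nat_lit 0) (nat_lit 3268) (XT.nd (nat_lit 55770) (nat_lit 0) (nat_lit 3496) (XT.lf (nat_lit 0) (nat_lit 2679833274) (nat_lit 76) (nat_lit 18288460335) (nat_lit 76) (nat_lit 5777775282) (nat_lit 8) (nat_lit 4) (nat_lit 9) (nat_lit 5) (nat_lit 9) (nat_lit 4) (nat_lit 532) (nat_lit 326) (nat_lit 282)) (XT.lf (nat_lit 0) (nat_lit 1653657856) (nat_lit 228) (nat_lit 2551077756) (nat_lit 228) (nat_lit 2551077756) (nat_lit 54) (nat_lit 4) (nat_lit 57) (nat_lit 5) (nat_lit 57) (nat_lit 4) (nat_lit 486) (nat_lit 327) (nat_lit 327))) (XT.nd (nat_lit 78) (nat_lit 228) (nat_lit 0) (XT.lf (nat_lit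 0) (nat_lit 11508977444) (nat_lit 228) (nat_lit 1349697438) (nat_lit 228) (nat_lit 825265711) (nat_lit 54) (nat_lit 4) (nat_lit 57) (nat_lit 5) (nat_lit 57) (nat_lit 4) (nat_lit 487) (nat_lit 327) (nat_lit 326)) (XT.lf (nat_lit 0) (nat_lit 3482519560) (nat_lit 228) (nat_lit 7912603925) (nat_lit 0) (nat_lit 2464303403) (nat_lit 51) (nat_lit 5) (nat_lit 54) (nat_lit 4) (nat_lit 51) (nat_lit 4) (nat_lit 488) (nat_lit 327) (nat_lit 325)))))) (XT.nd (nat_lit 546) (nat_lit 608) (nat_lit 0) (XT.nd (nat_lit 234) (nat_lit 456) (nat_lit 0) (XT.nd (nat_lit 78) (nat_lit 228) (nat_lit 0) (XT.lf (nat_lit 0) (nat_lit 102090540) (nat_lit 228) (nat_lit 7724707715) (nat_lit 228) (nat_lit 6212307829) (nat_lit 48) (nat_lit 4) (nat_lit 51) (nat_lit 5) (nat_lit 51) (nat_lit 4) (nat_lit 489) (nat_lit 327) (nat_lit 324)) (XT.nd (nat_lit 78) (nat_lit 228) (nat_lit 0) (XT.lf (nat_lit 0) (nat_lit 8277897220) (nat_lit 228) (nat_lit 3970790265)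 (nat_lit 228) (nat_lit 1973896525) (nat_lit 48) (nat_lit 4) (nat_lit 51) (nat_lit 5) (nat_lit 51) (nat_lit 4) (nat_lit 490) (nat_lit 327) (nat_lit 323)) (XT.lf (nat_lit 0) (nat_lit 2114781953) (nat_lit 152) (nat_lit 155846593) (nat_lit 228) (nat_lit 12139773629) (nat_lit 45) (nat_lit 5) (nat_lit 47) (nat_lit 5) (nat_lit 48) (nat_lit 4) (nat_lit 491) (nat_lit 327) (nat_lit 322)))) (XT.nd (nat_lit 156) (nat_lit 228) (nat_lit 0) (XT.nd (nat_lit 78) (nat_lit 228) (nat_lit 0) (XT.lf (nat_lit 0) (nat_lit 6576720173) (nat_lit 228) (nat_lit 4328200495) (nat_lit 0) (nat_lit 3696751468) (nat_lit 45) (nat_lit 5) (nat_lit 48) (nat_lit 4) (nat_lit 45) (nat_lit 4) (nat_lit 492) (nat_lit 327) (nat_lit 321)) (XT.lf (nat_lit 0) (nat_lit 3743242078) (nat_lit 228) (nat_lit 7190902738) (nat_lit 228) (nat_lit 3863336604) (nat_lit 42) (nat_lit 4) (nat_lit 45) (nat_lit 5) (nat_lit 45) (nat_lit 4) (nat_lit 493) (nat_lit 327) (nat_lit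 320))) (XT.nd (nat_lit 78) (nat_lit 152) (nat_lit 0) (XT.lf (nat_lit 0) (nat_lit 345719536) (nat_lit 304) (nat_lit 3068033680) (nat_lit 76) (nat_lit 11584037335) (nat_lit 41) (nat_lit 5) (nat_lit 45) (nat_lit 5) (nat_lit 42) (nat_lit 4) (nat_lit 494) (nat_lit 327) (nat_lit 319)) (XT.lf (nat_lit 0) (nat_lit 4563956574) (nat_lit 228) (nat_lit 10188481958) (nat_lit 0) (nat_lit 449639103) (nat_lit 39) (nat_lit 5) (nat_lit 42) (nat_lit 4) (nat_lit 39) (nat_lit 4) (nat_lit 495) (nat_lit 327) (nat_lit 318))))) (XT.nd (nat_lit 234) (nat_lit 380) (nat_lit 0) (XT.nd (nat_lit 78) (nat_lit 228) (nat_lit 0) (XT.lf (nat_lit 0) (nat_lit 8851266103) (nat_lit 228) (nat_lit 2236069175) (nat_lit 0) (nat_lit 4323437794) (nat_lit 39) (nat_lit 5) (nat_lit 42) (nat_lit 4) (nat_lit 39) (nat_lit 4) (nat_lit 496) (nat_lit 327) (nat_lit 317)) (XT.nd (nat_lit 78) (nat_lit 76) (nat_lit 0) (XT.lf (nat_lit 0) (nat_lit 5852409899) (nat_lit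 152) (nat_lit 7352434795) (nat_lit 152) (nat_lit 2419203703) (nat_lit 37) (nat_lit 4) (nat_lit 39) (nat_lit 5) (nat_lit 39) (nat_lit 4) (nat_lit 497) (nat_lit 327) (nat_lit 316)) (XT.lf (nat_lit 0) (nat_lit 1737967127) (nat_lit 228) (nat_lit 1819991203) (nat_lit 76) (nat_lit 12284258054) (nat_lit 36) (nat_lit 5) (nat_lit 39) (nat_lit 5) (nat_lit 37) (nat_lit 4) (nat_lit 498) (nat_lit 327) (nat_lit 315)))) (XT.nd (nat_lit 156) (nat_lit 228) (nat_lit 0) (XT.nd (nat_lit 78) (nat_lit 0) (nat_lit 0) (XT.lf (nat_lit 0) (nat_lit 5932429003) (nat_lit 228) (nat_lit 9808036244) (nat_lit 0) (nat_lit 324247338) (nat_lit 34) (nat_lit 5) (nat_lit 37) (nat_lit 4) (nat_lit 34) (nat_lit 4) (nat_lit 499) (nat_lit 327) (nat_lit 314)) (XT.lf (nat_lit 0) (nat_lit 10190579809) (nat_lit 228) (nat_lit 1893629455) (nat_lit 0) (nat_lit 4207868638) (nat_lit 34) (nat_lit 5) (nat_lit 37) (nat_lit 4) (nat_lit 34) (nat_lit 4) (nat_lit 500)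 (nat_lit 327) (nat_lit 313))) (XT.nd (nat_lit 78) (nat_lit 76) (nat_lit 0) (XT.lf (nat_lit 0) (nat_lit 6163708336) (nat_lit 152) (nat_lit 8355246407) (nat_lit 152) (nat_lit 2005349446) (nat_lit 32) (nat_lit 4) (nat_lit 34) (nat_lit 5) (nat_lit 34) (nat_lit 4) (nat_lit 501) (nat_lit 327) (nat_lit 312)) (XT.lf (nat_lit 0) (nat_lit 2102141979) (nat_lit 228) (nat_lit 2463556232) (nat_lit 76) (nat_lit 12196050657) (nat_lit 31) (nat_lit 5) (nat_lit 34) (nat_lit 5) (nat_lit 32) (nat_lit 4) (nat_lit 502) (nat_lit 327) (nat_lit 311))))))))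
noncomputable def xc10 : XT := (XT.nd (nat_lit 2184) (nat_lit 76) (nat_lit 0) (XT.nd (nat_lit 1092) (nat_lit 684) (nat_lit 0) (XT.nd (nat_lit 546) (nat_lit 380) (nat_lit 0) (XT.nd (nat_lit 234) (nat_lit 304) (nat_lit 0) (XT.nd (nat_lit 78) (nat_lit 152) (nat_lit 0) (XT.lf (nat_lit 0) (nat_lit 5556601911) (nat_lit 152) (nat_lit 690631980) (nat_lit 228) (nat_lit 10756811426) (nat_lit 29) (nat_lit 5) (nat_lit 31) (nat_lit 5) (nat_lit 32) (nat_lit 4) (nat_lit 503) (nat_lit 327) (nat_lit 310)) (XT.nd (nat_lit 78) (nat_lit 152) (nat_lit 0) (XT.lf (nat_lit 0) (nat_lit 10459430907) (nat_lit 228) (nat_lit 3596202549) (nat_lit 0) (nat_lit 3195883926) (nat_lit 29) (nat_lit 5) (nat_lit 32) (nat_lit 4) (nat_lit 29) (nat_lit 4) (nat_lit 504) (nat_lit 327) (nat_lit 309)) (XT.lf (nat_lit 0) (nat_lit 4372070352) (nat_lit 152) (nat_lit 10364196295) (nat_lit 152) (nat_lit 2768077830) (nat_lit 27) (nat_lit 4) (nat_lit 29) (nat_lit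 5) (nat_lit 29) (nat_lit 4) (nat_lit 505) (nat_lit 327) (nat_lit 308)))) (XT.nd (nat_lit 156) (nat_lit 152) (nat_lit 0) (XT.nd (nat_lit 78) (nat_lit 76) (nat_lit 0) (XT.lf (nat_lit 0) (nat_lit 1290684728) (nat_lit 228) (nat_lit 5314985786) (nat_lit 76) (nat_lit 11156961003) (nat_lit 26) (nat_lit 5) (nat_lit 29) (nat_lit 5) (nat_lit 27) (nat_lit 4) (nat_lit 506) (nat_lit 327) (nat_lit 307)) (XT.lf (nat_lit 0) (nat_lit 2583156197) (nat_lit 76) (nat_lit 2775746012) (nat_lit 152) (nat_lit 12667521972) (nat_lit 25) (nat_lit 5) (nat_lit 26) (nat_lit 5) (nat_lit 27) (nat_lit 4) (nat_lit 507) (nat_lit 327) (nat_lit 306))) (XT.nd (nat_lit 78) (nat_lit 152) (nat_lit 0) (XT.lf (nat_lit 0) (nat_lit 9500432420) (nat_lit 152) (nat_lit 7682267821) (nat_lit 0) (nat_lit 1112965946) (nat_lit 25) (nat_lit 5) (nat_lit 27) (nat_lit 4) (nat_lit 25) (nat_lit 4) (nat_lit 508) (nat_lit 327) (nat_lit 305)) (XT.lf (nat_lit 0) (nat_lit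 127817301) (nat_lit 152) (nat_lit 13565898107) (nat_lit 152) (nat_lit 4877211394) (nat_lit 23) (nat_lit 4) (nat_lit 25) (nat_lit 5) (nat_lit 25) (nat_lit 4) (nat_lit 509) (nat_lit 327) (nat_lit 304))))) (XT.nd (nat_lit 234) (nat_lit 228) (nat_lit 0) (XT.nd (nat_lit 78) (nat_lit 152) (nat_lit 0) (XT.lf (nat_lit 0) (nat_lit 8109398669) (nat_lit 152) (nat_lit 9863136591) (nat_lit 152) (nat_lit 879135919) (nat_lit 23) (nat_lit 4) (nat_lit 25) (nat_lit 5) (nat_lit 25) (nat_lit 4) (nat_lit 510) (nat_lit 327) (nat_lit 303)) (XT.nd (nat_lit 78) (nat_lit 76) (nat_lit 0) (XT.lf (nat_lit 0) (nat_lit 3107708658) (nat_lit 228) (nat_lit 2995952672) (nat_lit 76) (nat_lit 13034949999) (nat_lit 22) (nat_lit 5) (nat_lit 25) (nat_lit 5) (nat_lit 23) (nat_lit 4) (nat_lit 511) (nat_lit 327) (nat_lit 302)) (XT.lf (nat_lit 0) (nat_lit 4877395761) (nat_lit 76) (nat_lit 2268528239) (nat_lit 152) (nat_lit 12285593233) (nat_lit 21) (nat_lit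 5) (nat_lit 22) (nat_lit 5) (nat_lit 23) (nat_lit 4) (nat_lit 512) (nat_lit 327) (nat_lit 301)))) (XT.nd (nat_lit 156) (nat_lit 76) (nat_lit 0) (XT.nd (nat_lit 78) (nat_lit 152) (nat_lit 0) (XT.lf (nat_lit 0) (nat_lit 11247685313) (nat_lit 152) (nat_lit 6878061803) (nat_lit 0) (nat_lit 1604889567) (nat_lit 21) (nat_lit 5) (nat_lit 23) (nat_lit 4) (nat_lit 21) (nat_lit 4) (nat_lit 513) (nat_lit 327) (nat_lit 300)) (XT.lf (nat_lit 0) (nat_lit 863306205) (nat_lit 152) (nat_lit 14541622462) (nat_lit 152) (nat_lit 4631351764) (nat_lit 19) (nat_lit 4) (nat_lit 21) (nat_lit 5) (nat_lit 21) (nat_lit 4) (nat_lit 514) (nat_lit 327) (nat_lit 299))) (XT.nd (nat_lit 78) (nat_lit 76) (nat_lit 0) (XT.lf (nat_lit 0) (nat_lit 8768779608) (nat_lit 152) (nat_lit 10875891024) (nat_lit 152) (nat_lit 703389980) (nat_lit 19) (nat_lit 4) (nat_lit 21) (nat_lit 5) (nat_lit 21) (nat_lit 4) (nat_lit 515) (nat_lit 327) (nat_lit 298)) (XT.lf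 (nat_lit 0) (nat_lit 3213611734) (nat_lit 228) (nat_lit 3938093913) (nat_lit 76) (nat_lit 13514876008) (nat_lit 18) (nat_lit 5) (nat_lit 21) (nat_lit 5) (nat_lit 19) (nat_lit 4) (nat_lit 516) (nat_lit 327) (nat_lit 297)))))) (XT.nd (nat_lit 546) (nat_lit 304) (nat_lit 0) (XT.nd (nat_lit 234) (nat_lit 304) (nat_lit 0) (XT.nd (nat_lit 78) (nat_lit 0) (nat_lit 0) (XT.lf (nat_lit 0) (nat_lit 3820051647) (nat_lit 76) (nat_lit 3359002256) (nat_lit 152) (nat_lit 13812745871) (nat_lit 17) (nat_lit 5) (nat_lit 18) (nat_lit 5) (nat_lit 19) (nat_lit 4) (nat_lit 517) (nat_lit 327) (nat_lit 296)) (XT.nd (nat_lit 78) (nat_lit 0) (nat_lit 0) (XT.lf (nat_lit 0) (nat_lit 11208553609) (nat_lit 152) (nat_lit 9621183561) (nat_lit 0) (nat_lit 494099933) (nat_lit 17) (nat_lit 5) (nat_lit 19) (nat_lit 4) (nat_lit 17) (nat_lit 4) (nat_lit 518) (nat_lit 327) (nat_lit 295)) (XT.lf (nat_lit 0) (nat_lit 15296612503) (nat_lit 152) (nat_lit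 2021704199) (nat_lit 0) (nat_lit 4344648725) (nat_lit 17) (nat_lit 5) (nat_lit 19) (nat_lit 4) (nat_lit 17) (nat_lit 4) (nat_lit 519) (nat_lit 327) (nat_lit 294)))) (XT.nd (nat_lit 156) (nat_lit 76) (nat_lit 0) (XT.nd (nat_lit 78) (nat_lit 76) (nat_lit 0) (XT.lf (nat_lit 0) (nat_lit 5726584200) (nat_lit 152) (nat_lit 13733621458) (nat_lit 152) (nat_lit 2548804637) (nat_lit 15) (nat_lit 4) (nat_lit 17) (nat_lit 5) (nat_lit 17) (nat_lit 4) (nat_lit 520) (nat_lit 327) (nat_lit 293)) (XT.lf (nat_lit 0) (nat_lit 1297754183) (nat_lit 228) (nat_lit 8791640665) (nat_lit 76) (nat_lit 12273009607) (nat_lit 14) (nat_lit 5) (nat_lit 17) (nat_lit 5) (nat_lit 15) (nat_lit 4) (nat_lit 521) (nat_lit 327) (nat_lit 292))) (XT.nd (nat_lit 78) (nat_lit 76) (nat_lit 0) (XT.lf (nat_lit 0) (nat_lit 5144641886) (nat_lit 228) (nat_lit 1244738580) (nat_lit 76) (nat_lit 16334007453) (nat_lit 14) (nat_lit 5) (nat_lit 17) (nat_lit 5) (nat_lit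 15) (nat_lit 4) (nat_lit 522) (nat_lit 327) (nat_lit 291)) (XT.lf (nat_lit 0) (nat_lit 6462545706) (nat_lit 76) (nat_lit 2606208511) (nat_lit 152) (nat_lit 14022839820) (nat_lit 13) (nat_lit 5) (nat_lit 14) (nat_lit 5) (nat_lit 15) (nat_lit 4) (nat_lit 523) (nat_lit 327) (nat_lit 290))))) (XT.nd (nat_lit 234) (nat_lit 152) (nat_lit 0) (XT.nd (nat_lit 78) (nat_lit 152) (nat_lit 0) (XT.lf (nat_lit 0) (nat_lit 13046331571) (nat_lit 152) (nat_lit 9209772806) (nat_lit 0) (nat_lit 1211568796) (nat_lit 13) (nat_lit 5) (nat_lit 15) (nat_lit 4) (nat_lit 13) (nat_lit 4) (nat_lit 524) (nat_lit 327) (nat_lit 289)) (XT.nd (nat_lit 78) (nat_lit 152) (nat_lit 0) (XT.lf (nat_lit 0) (nat_lit 17079976723) (nat_lit 152) (nat_lit 1733328116) (nat_lit 0) (nat_lit 5038447110) (nat_lit 13) (nat_lit 5) (nat_lit 15) (nat_lit 4) (nat_lit 13) (nat_lit 4) (nat_lit 525) (nat_lit 327) (nat_lit 288)) (XT.lf (nat_lit 0) (nat_lit 5897485492)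 (nat_lit 152) (nat_lit 15295155155) (nat_lit 152) (nat_lit 3050912956) (nat_lit 11) (nat_lit 4) (nat_lit 13) (nat_lit 5) (nat_lit 13) (nat_lit 4) (nat_lit 526) (nat_lit 327) (nat_lit 287)))) (XT.nd (nat_lit 156) (nat_lit 76) (nat_lit 0) (XT.nd (nat_lit 78) (nat_lit 0) (nat_lit 0) (XT.lf (nat_lit 0) (nat_lit 706413281) (nat_lit 228) (nat_lit 11016025199) (nat_lit 76) (nat_lit 12921227867) (nat_lit 10) (nat_lit 5) (nat_lit 13) (nat_lit 5) (nat_lit 11) (nat_lit 4) (nat_lit 527) (nat_lit 327) (nat_lit 286)) (XT.lf (nat_lit 0) (nat_lit 4458955495) (nat_lit 228) (nat_lit 3630730935) (nat_lit 76) (nat_lit 16962480906) (nat_lit 10) (nat_lit 5) (nat_lit 13) (nat_lit 5) (nat_lit 11) (nat_lit 4) (nat_lit 528) (nat_lit 327) (nat_lit 285))) (XT.nd (nat_lit 78) (nat_lit 0) (nat_lit 0) (XT.lf (nat_lit 0) (nat_lit 3883451589) (nat_lit 76) (nat_lit 4389960897) (nat_lit 152) (nat_lit 17195696174) (nat_lit 9) (nat_lit 5) (nat_lit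 10) (nat_lit 5) (nat_lit 11) (nat_lit 4) (nat_lit 529) (nat_lit 327) (nat_lit 284)) (XT.lf (nat_lit 0) (nat_lit 11527842369) (nat_lit 76) (nat_lit 622632431) (nat_lit 152) (nat_lit 13744195129) (nat_lit 9) (nat_lit 5) (nat_lit 10) (nat_lit 5) (nat_lit 11) (nat_lit 4) (nat_lit 530) (nat_lit 327) (nat_lit 283))))))) (XT.nd (nat_lit 56628) (nat_lit 0) (nat_lit 1292) (XT.nd (nat_lit 56082) (nat_lit 0) (nat_lit 2356) (XT.nd (nat_lit 55770) (nat_lit 0) (nat_lit 3268) (XT.nd (nat_lit 78) (nat_lit 76) (nat_lit 0) (XT.lf (nat_lit 0) (nat_lit 16088484247) (nat_lit 152) (nat_lit 7093014841) (nat_lit 0) (nat_lit 3147582518) (nat_lit 9) (nat_lit 5) (nat_lit 11) (nat_lit 4) (nat_lit 9) (nat_lit 4) (nat_lit 531) (nat_lit 327) (nat_lit 282)) (XT.nd (nat_lit 55614) (nat_lit 0) (nat_lit 3724) (XT.lf (nat_lit 0) (nat_lit 258395796) (nat_lit 76) (nat_lit 19815893699) (nat_lit 76) (nat_lit 6698518465) (nat_lit 8) (nat_lit 4) (nat_lit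 9) (nat_lit 5) (nat_lit 9) (nat_lit 4) (nat_lit 532) (nat_lit 327) (nat_lit 281)) (XT.lf (nat_lit 0) (nat_lit 116835974) (nat_lit 304) (nat_lit 6355611594) (nat_lit 0) (nat_lit 116835974) (nat_lit 57) (nat_lit 5) (nat_lit 61) (nat_lit 4) (nat_lit 57) (nat_lit 4) (nat_lit 484) (nat_lit 328) (nat_lit 328)))) (XT.nd (nat_lit 156) (nat_lit 228) (nat_lit 0) (XT.nd (nat_lit 78) (nat_lit 228) (nat_lit 0) (XT.lf (nat_lit 0) (nat_lit 4551102319) (nat_lit 304) (nat_lit 4776054651) (nat_lit 0) (nat_lit 4016181957) (nat_lit 57) (nat_lit 5) (nat_lit 61) (nat_lit 4) (nat_lit 57) (nat_lit 4) (nat_lit 485) (nat_lit 328) (nat_lit 327)) (XT.lf (nat_lit 0) (nat_lit 3253792585) (nat_lit 228) (nat_lit 5658915222) (nat_lit 228) (nat_lit 4599563132) (nat_lit 54) (nat_lit 4) (nat_lit 57) (nat_lit 5) (nat_lit 57) (nat_lit 4) (nat_lit 486) (nat_lit 328) (nat_lit 326))) (XT.nd (nat_lit 78) (nat_lit 228) (nat_lit 0) (XT.lf (nat_lit 0) (nat_lit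 11402980662) (nat_lit 228) (nat_lit 1927868273) (nat_lit 228) (nat_lit 354367431) (nat_lit 54) (nat_lit 4) (nat_lit 57) (nat_lit 5) (nat_lit 57) (nat_lit 4) (nat_lit 487) (nat_lit 328) (nat_lit 325)) (XT.lf (nat_lit 0) (nat_lit 3911631434) (nat_lit 228) (nat_lit 8074932388) (nat_lit 0) (nat_lit 1874799819) (nat_lit 51) (nat_lit 5) (nat_lit 54) (nat_lit 4) (nat_lit 51) (nat_lit 4) (nat_lit 488) (nat_lit 328) (nat_lit 324))))) (XT.nd (nat_lit 234) (nat_lit 456) (nat_lit 0) (XT.nd (nat_lit 78) (nat_lit 456) (nat_lit 0) (XT.lf (nat_lit 0) (nat_lit 8224711793) (nat_lit 228) (nat_lit 113578410) (nat_lit 0) (nat_lit 5703386326) (nat_lit 51) (nat_lit 5) (nat_lit 54) (nat_lit 4) (nat_lit 51) (nat_lit 4) (nat_lit 489) (nat_lit 328) (nat_lit 323)) (XT.nd (nat_lit 78) (nat_lit 228) (nat_lit 0) (XT.lf (nat_lit 0) (nat_lit 8009059434) (nat_lit 228) (nat_lit 4606522191) (nat_lit 228) (nat_lit 1610202751) (nat_lit 48) (nat_lit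 4) (nat_lit 51) (nat_lit 5) (nat_lit 51) (nat_lit 4) (nat_lit 490) (nat_lit 328) (nat_lit 322)) (XT.lf (nat_lit 0) (nat_lit 1785004551) (nat_lit 152) (nat_lit 812522358) (nat_lit 228) (nat_lit 11816678080) (nat_lit 45) (nat_lit 5) (nat_lit 47) (nat_lit 5) (nat_lit 48) (nat_lit 4) (nat_lit 491) (nat_lit 328) (nat_lit 321)))) (XT.nd (nat_lit 156) (nat_lit 228) (nat_lit 0) (XT.nd (nat_lit 78) (nat_lit 228) (nat_lit 0) (XT.lf (nat_lit 0) (nat_lit 6869590346) (nat_lit 228) (nat_lit 4708698693) (nat_lit 0) (nat_lit 3027875459) (nat_lit 45) (nat_lit 5) (nat_lit 48) (nat_lit 4) (nat_lit 45) (nat_lit 4) (nat_lit 492) (nat_lit 328) (nat_lit 320)) (XT.lf (nat_lit 0) (nat_lit 3306842423) (nat_lit 228) (nat_lit 7888158175) (nat_lit 228) (nat_lit 3607622279) (nat_lit 42) (nat_lit 4) (nat_lit 45) (nat_lit 5) (nat_lit 45) (nat_lit 4) (nat_lit 493) (nat_lit 328) (nat_lit 319))) (XT.nd (nat_lit 78) (nat_lit 152) (nat_lit 0) (XT.lf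 (nat_lit 0) (nat_lit 568947530) (nat_lit 304) (nat_lit 3561478561) (nat_lit 76) (nat_lit 10873063830) (nat_lit 41) (nat_lit 5) (nat_lit 45) (nat_lit 5) (nat_lit 42) (nat_lit 4) (nat_lit 494) (nat_lit 328) (nat_lit 318)) (XT.lf (nat_lit 0) (nat_lit 4466697538) (nat_lit 152) (nat_lit 285397098) (nat_lit 228) (nat_lit 10456392468) (nat_lit 39) (nat_lit 5) (nat_lit 41) (nat_lit 5) (nat_lit 42) (nat_lit 4) (nat_lit 495) (nat_lit 328) (nat_lit 317)))))) (XT.nd (nat_lit 546) (nat_lit 456) (nat_lit 0) (XT.nd (nat_lit 234) (nat_lit 380) (nat_lit 0) (XT.nd (nat_lit 78) (nat_lit 228) (nat_lit 0) (XT.lf (nat_lit 0) (nat_lit 9009098279) (nat_lit 228) (nat_lit 2836898732) (nat_lit 0) (nat_lit 3571799783) (nat_lit 39) (nat_lit 5) (nat_lit 42) (nat_lit 4) (nat_lit 39) (nat_lit 4) (nat_lit 496) (nat_lit 328) (nat_lit 316)) (XT.nd (nat_lit 78) (nat_lit 76) (nat_lit 0) (XT.lf (nat_lit 0) (nat_lit 5194545531) (nat_lit 152) (nat_lit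 8135965048) (nat_lit 152) (nat_lit 2301212844) (nat_lit 37) (nat_lit 4) (nat_lit 39) (nat_lit 5) (nat_lit 39) (nat_lit 4) (nat_lit 497) (nat_lit 328) (nat_lit 315)) (XT.lf (nat_lit 0) (nat_lit 1826559356) (nat_lit 228) (nat_lit 2534762802) (nat_lit 76) (nat_lit 11489118621) (nat_lit 36) (nat_lit 5) (nat_lit 39) (nat_lit 5) (nat_lit 37) (nat_lit 4) (nat_lit 498) (nat_lit 328) (nat_lit 314)))) (XT.nd (nat_lit 156) (nat_lit 228) (nat_lit 0) (XT.nd (nat_lit 78) (nat_lit 0) (nat_lit 0) (XT.lf (nat_lit 0) (nat_lit 5486434399) (nat_lit 152) (nat_lit 500133520) (nat_lit 228) (nat_lit 10087065645) (nat_lit 34) (nat_lit 5) (nat_lit 36) (nat_lit 5) (nat_lit 37) (nat_lit 4) (nat_lit 499) (nat_lit 328) (nat_lit 313)) (XT.lf (nat_lit 0) (nat_lit 10214264710) (nat_lit 228) (nat_lit 2717166602) (nat_lit 0) (nat_lit 3370184019) (nat_lit 34) (nat_lit 5) (nat_lit 37) (nat_lit 4) (nat_lit 34) (nat_lit 4) (nat_lit 500) (nat_lit 328)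 (nat_lit 312))) (XT.nd (nat_lit 78) (nat_lit 76) (nat_lit 0) (XT.lf (nat_lit 0) (nat_lit 5281918688) (nat_lit 152) (nat_lit 9228322444) (nat_lit 152) (nat_lit 2024255683) (nat_lit 32) (nat_lit 4) (nat_lit 34) (nat_lit 5) (nat_lit 34) (nat_lit 4) (nat_lit 501) (nat_lit 328) (nat_lit 311)) (XT.lf (nat_lit 0) (nat_lit 2056850058) (nat_lit 228) (nat_lit 3402157161) (nat_lit 76) (nat_lit 11313476347) (nat_lit 31) (nat_lit 5) (nat_lit 34) (nat_lit 5) (nat_lit 32) (nat_lit 4) (nat_lit 502) (nat_lit 328) (nat_lit 310))))) (XT.nd (nat_lit 234) (nat_lit 152) (nat_lit 0) (XT.nd (nat_lit 78) (nat_lit 152) (nat_lit 0) (XT.lf (nat_lit 0) (nat_lit 4559093572) (nat_lit 152) (nat_lit 1610260498) (nat_lit 228) (nat_lit 10846084512) (nat_lit 29) (nat_lit 5) (nat_lit 31) (nat_lit 5) (nat_lit 32) (nat_lit 4) (nat_lit 503) (nat_lit 328) (nat_lit 309)) (XT.nd (nat_lit 78) (nat_lit 152) (nat_lit 0) (XT.lf (nat_lit 0) (nat_lit 10349557813)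 (nat_lit 228) (nat_lit 4645053879) (nat_lit 0) (nat_lit 2268945496) (nat_lit 29) (nat_lit 5) (nat_lit 32) (nat_lit 4) (nat_lit 29) (nat_lit 4) (nat_lit 504) (nat_lit 328) (nat_lit 308)) (XT.lf (nat_lit 0) (nat_lit 3263661886) (nat_lit 152) (nat_lit 11330022954) (nat_lit 152) (nat_lit 2923360162) (nat_lit 27) (nat_lit 4) (nat_lit 29) (nat_lit 5) (nat_lit 29) (nat_lit 4) (nat_lit 505) (nat_lit 328) (nat_lit 307)))) (XT.nd (nat_lit 156) (nat_lit 0) (nat_lit 0) (XT.nd (nat_lit 78) (nat_lit 76) (nat_lit 0) (XT.lf (nat_lit 0) (nat_lit 1111962725) (nat_lit 228) (nat_lit 6480155413) (nat_lit 76) (nat_lit 10183749883) (nat_lit 26) (nat_lit 5) (nat_lit 29) (nat_lit 5) (nat_lit 27) (nat_lit 4) (nat_lit 506) (nat_lit 328) (nat_lit 306)) (XT.lf (nat_lit 0) (nat_lit 1357729753) (nat_lit 76) (nat_lit 3789517478) (nat_lit 152) (nat_lit 12893078279) (nat_lit 25) (nat_lit 5) (nat_lit 26) (nat_lit 5) (nat_lit 27) (nat_lit 4) (nat_lit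 507) (nat_lit 328) (nat_lit 305))) (XT.nd (nat_lit 78) (nat_lit 0) (nat_lit 0) (XT.lf (nat_lit 0) (nat_lit 9257299264) (nat_lit 152) (nat_lit 8959285283) (nat_lit 0) (nat_lit 93618578) (nat_lit 25) (nat_lit 5) (nat_lit 27) (nat_lit 4) (nat_lit 25) (nat_lit 4) (nat_lit 508) (nat_lit 328) (nat_lit 304)) (XT.lf (nat_lit 0) (nat_lit 13425344436) (nat_lit 152) (nat_lit 1194280199) (nat_lit 0) (nat_lit 3966349790) (nat_lit 25) (nat_lit 5) (nat_lit 27) (nat_lit 4) (nat_lit 25) (nat_lit 4) (nat_lit 509) (nat_lit 328) (nat_lit 303))))))))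
noncomputable def xc11 : XT := (XT.nd (nat_lit 57564) (nat_lit 0) (nat_lit 760) (XT.nd (nat_lit 1092) (nat_lit 304) (nat_lit 0) (XT.nd (nat_lit 546) (nat_lit 380) (nat_lit 0) (XT.nd (nat_lit 234) (nat_lit 228) (nat_lit 0) (XT.nd (nat_lit 78) (nat_lit 152) (nat_lit 0) (XT.lf (nat_lit 0) (nat_lit 6728311671) (nat_lit 152) (nat_lit 10943786203) (nat_lit 152) (nat_lit 1195268067) (nat_lit 23) (nat_lit 4) (nat_lit 25) (nat_lit 5) (nat_lit 25) (nat_lit 4) (nat_lit 510) (nat_lit 328) (nat_lit 302)) (XT.nd (nat_lit 78) (nat_lit 76) (nat_lit 0) (XT.lf (nat_lit 0) (nat_lit 2771825219) (nat_lit 228) (nat_lit 4433277750) (nat_lit 76) (nat_lit 11949727707) (nat_lit 22) (nat_lit 5) (nat_lit 25) (nat_lit 5) (nat_lit 23) (nat_lit 4) (nat_lit 511) (nat_lit 328) (nat_lit 301)) (XT.lf (nat_lit 0) (nat_lit 3378653767) (nat_lit 76) (nat_lit 3398227124) (nat_lit 152) (nat_lit 12671524358) (nat_lit 21) (nat_lit 5) (nat_lit 22) (nat_lit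 5) (nat_lit 23) (nat_lit 4) (nat_lit 512) (nat_lit 328) (nat_lit 300)))) (XT.nd (nat_lit 156) (nat_lit 228) (nat_lit 0) (XT.nd (nat_lit 78) (nat_lit 0) (nat_lit 0) (XT.lf (nat_lit 0) (nat_lit 10847950169) (nat_lit 152) (nat_lit 8428194635) (nat_lit 0) (nat_lit 471999105) (nat_lit 21) (nat_lit 5) (nat_lit 23) (nat_lit 4) (nat_lit 21) (nat_lit 4) (nat_lit 513) (nat_lit 328) (nat_lit 299)) (XT.lf (nat_lit 0) (nat_lit 14976689073) (nat_lit 152) (nat_lit 739166274) (nat_lit 0) (nat_lit 4338507663) (nat_lit 21) (nat_lit 5) (nat_lit 23) (nat_lit 4) (nat_lit 21) (nat_lit 4) (nat_lit 514) (nat_lit 328) (nat_lit 298))) (XT.nd (nat_lit 78) (nat_lit 76) (nat_lit 0) (XT.lf (nat_lit 0) (nat_lit 7115736616) (nat_lit 152) (nat_lit 12073116637) (nat_lit 152) (nat_lit 1177846654) (nat_lit 19) (nat_lit 4) (nat_lit 21) (nat_lit 5) (nat_lit 21) (nat_lit 4) (nat_lit 515) (nat_lit 328) (nat_lit 297)) (XT.lf (nat_lit 0) (nat_lit 2722955714)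 (nat_lit 228) (nat_lit 5646947061) (nat_lit 76) (nat_lit 12315833183) (nat_lit 18) (nat_lit 5) (nat_lit 21) (nat_lit 5) (nat_lit 19) (nat_lit 4) (nat_lit 516) (nat_lit 328) (nat_lit 296))))) (XT.nd (nat_lit 234) (nat_lit 304) (nat_lit 0) (XT.nd (nat_lit 78) (nat_lit 0) (nat_lit 0) (XT.lf (nat_lit 0) (nat_lit 2048502203) (nat_lit 76) (nat_lit 4606411320) (nat_lit 152) (nat_lit 14356715103) (nat_lit 17) (nat_lit 5) (nat_lit 18) (nat_lit 5) (nat_lit 19) (nat_lit 4) (nat_lit 517) (nat_lit 328) (nat_lit 295)) (XT.nd (nat_lit 78) (nat_lit 0) (nat_lit 0) (XT.lf (nat_lit 0) (nat_lit 9895217283) (nat_lit 76) (nat_lit 764139500) (nat_lit 152) (nat_lit 10684815069) (nat_lit 17) (nat_lit 5) (nat_lit 18) (nat_lit 5) (nat_lit 19) (nat_lit 4) (nat_lit 518) (nat_lit 328) (nat_lit 294)) (XT.lf (nat_lit 0) (nat_lit 14720965416) (nat_lit 152) (nat_lit 3883269220) (nat_lit 0) (nat_lit 3079599218) (nat_lit 17) (nat_lit 5) (nat_lit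 19) (nat_lit 4) (nat_lit 17) (nat_lit 4) (nat_lit 519) (nat_lit 328) (nat_lit 293)))) (XT.nd (nat_lit 156) (nat_lit 76) (nat_lit 0) (XT.nd (nat_lit 78) (nat_lit 76) (nat_lit 0) (XT.lf (nat_lit 0) (nat_lit 3801779615) (nat_lit 152) (nat_lit 15049214239) (nat_lit 152) (nat_lit 3179560744) (nat_lit 15) (nat_lit 4) (nat_lit 17) (nat_lit 5) (nat_lit 17) (nat_lit 4) (nat_lit 520) (nat_lit 328) (nat_lit 292)) (XT.lf (nat_lit 0) (nat_lit 654228129) (nat_lit 228) (nat_lit 10771923748) (nat_lit 76) (nat_lit 10958304040) (nat_lit 14) (nat_lit 5) (nat_lit 17) (nat_lit 5) (nat_lit 15) (nat_lit 4) (nat_lit 521) (nat_lit 328) (nat_lit 291))) (XT.nd (nat_lit 78) (nat_lit 76) (nat_lit 0) (XT.lf (nat_lit 0) (nat_lit 4480486000) (nat_lit 228) (nat_lit 3262305470) (nat_lit 76) (nat_lit 15003064826) (nat_lit 14) (nat_lit 5) (nat_lit 17) (nat_lit 5) (nat_lit 15) (nat_lit 4) (nat_lit 522) (nat_lit 328) (nat_lit 290)) (XT.lf (nat_lit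 0) (nat_lit 4381127896) (nat_lit 76) (nat_lit 3989731165) (nat_lit 152) (nat_lit 14743882371) (nat_lit 13) (nat_lit 5) (nat_lit 14) (nat_lit 5) (nat_lit 15) (nat_lit 4) (nat_lit 523) (nat_lit 328) (nat_lit 289)))))) (XT.nd (nat_lit 546) (nat_lit 0) (nat_lit 0) (XT.nd (nat_lit 234) (nat_lit 152) (nat_lit 0) (XT.nd (nat_lit 78) (nat_lit 152) (nat_lit 0) (XT.lf (nat_lit 0) (nat_lit 12148300550) (nat_lit 76) (nat_lit 172100506) (nat_lit 152) (nat_lit 11170984370) (nat_lit 13) (nat_lit 5) (nat_lit 14) (nat_lit 5) (nat_lit 15) (nat_lit 4) (nat_lit 524) (nat_lit 328) (nat_lit 288)) (XT.nd (nat_lit 78) (nat_lit 152) (nat_lit 0) (XT.lf (nat_lit 0) (nat_lit 16333154303) (nat_lit 152) (nat_lit 3901417131) (nat_lit 0) (nat_lit 3641314675) (nat_lit 13) (nat_lit 5) (nat_lit 15) (nat_lit 4) (nat_lit 13) (nat_lit 4) (nat_lit 525) (nat_lit 328) (nat_lit 287)) (XT.lf (nat_lit 0) (nat_lit 3664925528) (nat_lit 152) (nat_lit 16747010661)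 (nat_lit 152) (nat_lit 3856433203) (nat_lit 11) (nat_lit 4) (nat_lit 13) (nat_lit 5) (nat_lit 13) (nat_lit 4) (nat_lit 526) (nat_lit 328) (nat_lit 286)))) (XT.nd (nat_lit 156) (nat_lit 76) (nat_lit 0) (XT.nd (nat_lit 78) (nat_lit 76) (nat_lit 0) (XT.lf (nat_lit 0) (nat_lit 11364862581) (nat_lit 152) (nat_lit 13194759777) (nat_lit 152) (nat_lit 109341310) (nat_lit 11) (nat_lit 4) (nat_lit 13) (nat_lit 5) (nat_lit 13) (nat_lit 4) (nat_lit 527) (nat_lit 328) (nat_lit 285)) (XT.lf (nat_lit 0) (nat_lit 3625649780) (nat_lit 228) (nat_lit 5952626507) (nat_lit 76) (nat_lit 15499586031) (nat_lit 10) (nat_lit 5) (nat_lit 13) (nat_lit 5) (nat_lit 11) (nat_lit 4) (nat_lit 528) (nat_lit 328) (nat_lit 284))) (XT.nd (nat_lit 78) (nat_lit 0) (nat_lit 0) (XT.lf (nat_lit 0) (nat_lit 1496396817) (nat_lit 76) (nat_lit 5909598715) (nat_lit 152) (nat_lit 18089494020) (nat_lit 9) (nat_lit 5) (nat_lit 10) (nat_lit 5) (nat_lit 11) (nat_lit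 4) (nat_lit 529) (nat_lit 328) (nat_lit 283)) (XT.lf (nat_lit 0) (nat_lit 9107157764) (nat_lit 76) (nat_lit 2157433799) (nat_lit 152) (nat_lit 14656832198) (nat_lit 9) (nat_lit 5) (nat_lit 10) (nat_lit 5) (nat_lit 11) (nat_lit 4) (nat_lit 530) (nat_lit 328) (nat_lit 282))))) (XT.nd (nat_lit 55614) (nat_lit 0) (nat_lit 3420) (XT.nd (nat_lit 78) (nat_lit 0) (nat_lit 0) (XT.lf (nat_lit 0) (nat_lit 15174435339) (nat_lit 152) (nat_lit 9563727859) (nat_lit 0) (nat_lit 1618239095) (nat_lit 9) (nat_lit 5) (nat_lit 11) (nat_lit 4) (nat_lit 9) (nat_lit 4) (nat_lit 531) (nat_lit 328) (nat_lit 281)) (XT.nd (nat_lit 55458) (nat_lit 0) (nat_lit 4180) (XT.lf (nat_lit 0) (nat_lit 19140719065) (nat_lit 152) (nat_lit 2248293903) (nat_lit 0) (nat_lit 5411509581) (nat_lit 9) (nat_lit 5) (nat_lit 11) (nat_lit 4) (nat_lit 9) (nat_lit 4) (nat_lit 532) (nat_lit 328) (nat_lit 280)) (XT.lf (nat_lit 0) (nat_lit 2582454632) (nat_lit 304)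 (nat_lit 1263828089) (nat_lit 0) (nat_lit 2582454632) (nat_lit 64) (nat_lit 5) (nat_lit 68) (nat_lit 4) (nat_lit 64) (nat_lit 4) (nat_lit 482) (nat_lit 329) (nat_lit 329)))) (XT.nd (nat_lit 156) (nat_lit 228) (nat_lit 0) (XT.nd (nat_lit 78) (nat_lit 304) (nat_lit 0) (XT.lf (nat_lit 0) (nat_lit 5487015788) (nat_lit 228) (nat_lit 4042926851) (nat_lit 228) (nat_lit 3486395706) (nat_lit 61) (nat_lit 4) (nat_lit 64) (nat_lit 5) (nat_lit 64) (nat_lit 4) (nat_lit 483) (nat_lit 329) (nat_lit 328)) (XT.lf (nat_lit 0) (nat_lit 411880285) (nat_lit 228) (nat_lit 337639615) (nat_lit 304) (nat_lit 12429653340) (nat_lit 57) (nat_lit 5) (nat_lit 60) (nat_lit 5) (nat_lit 61) (nat_lit 4) (nat_lit 484) (nat_lit 329) (nat_lit 327))) (XT.nd (nat_lit 78) (nat_lit 228) (nat_lit 0) (XT.lf (nat_lit 0) (nat_lit 5033421818) (nat_lit 304) (nat_lit 4882753398) (nat_lit 0) (nat_lit 3428450959) (nat_lit 57) (nat_lit 5) (nat_lit 61) (nat_lit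 4) (nat_lit 57) (nat_lit 4) (nat_lit 485) (nat_lit 329) (nat_lit 326)) (XT.lf (nat_lit 0) (nat_lit 3093202212) (nat_lit 228) (nat_lit 6270060598) (nat_lit 228) (nat_lit 4150940986) (nat_lit 54) (nat_lit 4) (nat_lit 57) (nat_lit 5) (nat_lit 57) (nat_lit 4) (nat_lit 486) (nat_lit 329) (nat_lit 325))))))) (XT.nd (nat_lit 1092) (nat_lit 1140) (nat_lit 0) (XT.nd (nat_lit 546) (nat_lit 608) (nat_lit 0) (XT.nd (nat_lit 234) (nat_lit 684) (nat_lit 0) (XT.nd (nat_lit 78) (nat_lit 152) (nat_lit 0) (XT.lf (nat_lit 0) (nat_lit 62353423) (nat_lit 304) (nat_lit 2497233101) (nat_lit 76) (nat_lit 11128173682) (nat_lit 53) (nat_lit 5) (nat_lit 57) (nat_lit 5) (nat_lit 54) (nat_lit 4) (nat_lit 487) (nat_lit 329) (nat_lit 324)) (XT.nd (nat_lit 78) (nat_lit 0) (nat_lit 0) (XT.lf (nat_lit 0) (nat_lit 4287643840) (nat_lit 228) (nat_lit 8345550557) (nat_lit 0) (nat_lit 1231398011) (nat_lit 51) (nat_lit 5) (nat_lit 54) (nat_lit 4) (nat_lit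 51) (nat_lit 4) (nat_lit 488) (nat_lit 329) (nat_lit 323)) (XT.lf (nat_lit 0) (nat_lit 8570787437) (nat_lit 228) (nat_lit 435178493) (nat_lit 0) (nat_lit 5039547634) (nat_lit 51) (nat_lit 5) (nat_lit 54) (nat_lit 4) (nat_lit 51) (nat_lit 4) (nat_lit 489) (nat_lit 329) (nat_lit 322)))) (XT.nd (nat_lit 156) (nat_lit 228) (nat_lit 0) (XT.nd (nat_lit 78) (nat_lit 228) (nat_lit 0) (XT.lf (nat_lit 0) (nat_lit 7632538948) (nat_lit 228) (nat_lit 5297323933) (nat_lit 228) (nat_lit 1300403765) (nat_lit 48) (nat_lit 4) (nat_lit 51) (nat_lit 5) (nat_lit 51) (nat_lit 4) (nat_lit 490) (nat_lit 329) (nat_lit 321)) (XT.lf (nat_lit 0) (nat_lit 1346183373) (nat_lit 152) (nat_lit 1524931933) (nat_lit 228) (nat_lit 11548183659) (nat_lit 45) (nat_lit 5) (nat_lit 47) (nat_lit 5) (nat_lit 48) (nat_lit 4) (nat_lit 491) (nat_lit 329) (nat_lit 320))) (XT.nd (nat_lit 78) (nat_lit 228) (nat_lit 0) (XT.lf (nat_lit 0) (nat_lit 7109372313)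 (nat_lit 228) (nat_lit 5198166409) (nat_lit 0) (nat_lit 2304404689) (nat_lit 45) (nat_lit 5) (nat_lit 48) (nat_lit 4) (nat_lit 45) (nat_lit 4) (nat_lit 492) (nat_lit 329) (nat_lit 319)) (XT.lf (nat_lit 0) (nat_lit 2761022061) (nat_lit 228) (nat_lit 8641607859) (nat_lit 228) (nat_lit 3406423559) (nat_lit 42) (nat_lit 4) (nat_lit 45) (nat_lit 5) (nat_lit 45) (nat_lit 4) (nat_lit 493) (nat_lit 329) (nat_lit 318))))) (XT.nd (nat_lit 234) (nat_lit 380) (nat_lit 0) (XT.nd (nat_lit 78) (nat_lit 152) (nat_lit 0) (XT.lf (nat_lit 0) (nat_lit 738946128) (nat_lit 304) (nat_lit 4164294174) (nat_lit 76) (nat_lit 10107233619) (nat_lit 41) (nat_lit 5) (nat_lit 45) (nat_lit 5) (nat_lit 42) (nat_lit 4) (nat_lit 494) (nat_lit 329) (nat_lit 317)) (XT.nd (nat_lit 78) (nat_lit 0) (nat_lit 0) (XT.lf (nat_lit 0) (nat_lit 3806936555) (nat_lit 152) (nat_lit 1082871735) (nat_lit 228) (nat_lit 10326316650) (nat_lit 39) (nat_lit 5) (nat_lit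 41) (nat_lit 5) (nat_lit 42) (nat_lit 4) (nat_lit 495) (nat_lit 329) (nat_lit 316)) (XT.lf (nat_lit 0) (nat_lit 9113739201) (nat_lit 228) (nat_lit 3547526619) (nat_lit 0) (nat_lit 2764838245) (nat_lit 39) (nat_lit 5) (nat_lit 42) (nat_lit 4) (nat_lit 39) (nat_lit 4) (nat_lit 496) (nat_lit 329) (nat_lit 315)))) (XT.nd (nat_lit 156) (nat_lit 152) (nat_lit 0) (XT.nd (nat_lit 78) (nat_lit 76) (nat_lit 0) (XT.lf (nat_lit 0) (nat_lit 4426385438) (nat_lit 152) (nat_lit 8976430620) (nat_lit 152) (nat_lit 2237869165) (nat_lit 37) (nat_lit 4) (nat_lit 39) (nat_lit 5) (nat_lit 39) (nat_lit 4) (nat_lit 497) (nat_lit 329) (nat_lit 314)) (XT.lf (nat_lit 0) (nat_lit 1861767214) (nat_lit 228) (nat_lit 3359811778) (nat_lit 76) (nat_lit 10638368981) (nat_lit 36) (nat_lit 5) (nat_lit 39) (nat_lit 5) (nat_lit 37) (nat_lit 4) (nat_lit 498) (nat_lit 329) (nat_lit 313))) (XT.nd (nat_lit 78) (nat_lit 0) (nat_lit 0) (XT.lf (nat_lit 0)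 (nat_lit 4603217747) (nat_lit 152) (nat_lit 1386053938) (nat_lit 228) (nat_lit 10094526524) (nat_lit 34) (nat_lit 5) (nat_lit 36) (nat_lit 5) (nat_lit 37) (nat_lit 4) (nat_lit 499) (nat_lit 329) (nat_lit 312)) (XT.lf (nat_lit 0) (nat_lit 10184543143) (nat_lit 228) (nat_lit 3651483587) (nat_lit 0) (nat_lit 2476408978) (nat_lit 34) (nat_lit 5) (nat_lit 37) (nat_lit 4) (nat_lit 34) (nat_lit 4) (nat_lit 500) (nat_lit 329) (nat_lit 311)))))) (XT.nd (nat_lit 546) (nat_lit 456) (nat_lit 0) (XT.nd (nat_lit 234) (nat_lit 304) (nat_lit 0) (XT.nd (nat_lit 78) (nat_lit 228) (nat_lit 0) (XT.lf (nat_lit 0) (nat_lit 4288804606) (nat_lit 152) (nat_lit 10159116659) (nat_lit 152) (nat_lit 2098054975) (nat_lit 32) (nat_lit 4) (nat_lit 34) (nat_lit 5) (nat_lit 34) (nat_lit 4) (nat_lit 501) (nat_lit 329) (nat_lit 310)) (XT.nd (nat_lit 78) (nat_lit 152) (nat_lit 0) (XT.lf (nat_lit 0) (nat_lit 1957907242) (nat_lit 228) (nat_lit 4452096425)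 (nat_lit 76) (nat_lit 10374497946) (nat_lit 31) (nat_lit 5) (nat_lit 34) (nat_lit 5) (nat_lit 32) (nat_lit 4) (nat_lit 502) (nat_lit 329) (nat_lit 309)) (XT.lf (nat_lit 0) (nat_lit 3449677738) (nat_lit 152) (nat_lit 2587931027) (nat_lit 228) (nat_lit 10990510589) (nat_lit 29) (nat_lit 5) (nat_lit 31) (nat_lit 5) (nat_lit 32) (nat_lit 4) (nat_lit 503) (nat_lit 329) (nat_lit 308)))) (XT.nd (nat_lit 156) (nat_lit 152) (nat_lit 0) (XT.nd (nat_lit 78) (nat_lit 152) (nat_lit 0) (XT.lf (nat_lit 0) (nat_lit 10185952632) (nat_lit 228) (nat_lit 5805822960) (nat_lit 0) (nat_lit 1285106110) (nat_lit 29) (nat_lit 5) (nat_lit 32) (nat_lit 4) (nat_lit 29) (nat_lit 4) (nat_lit 504) (nat_lit 329) (nat_lit 307)) (XT.lf (nat_lit 0) (nat_lit 2042742819) (nat_lit 152) (nat_lit 12354397871) (nat_lit 152) (nat_lit 3133894022) (nat_lit 27) (nat_lit 4) (nat_lit 29) (nat_lit 5) (nat_lit 29) (nat_lit 4) (nat_lit 505) (nat_lit 329) (nat_lit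 306))) (XT.nd (nat_lit 78) (nat_lit 76) (nat_lit 0) (XT.lf (nat_lit 0) (nat_lit 879213363) (nat_lit 228) (nat_lit 7757882392) (nat_lit 76) (nat_lit 9153295016) (nat_lit 26) (nat_lit 5) (nat_lit 29) (nat_lit 5) (nat_lit 27) (nat_lit 4) (nat_lit 506) (nat_lit 329) (nat_lit 305)) (XT.lf (nat_lit 0) (nat_lit 19128018) (nat_lit 76) (nat_lit 4862191807) (nat_lit 152) (nat_lit 13174198041) (nat_lit 25) (nat_lit 5) (nat_lit 26) (nat_lit 5) (nat_lit 27) (nat_lit 4) (nat_lit 507) (nat_lit 329) (nat_lit 304))))) (XT.nd (nat_lit 312) (nat_lit 228) (nat_lit 0) (XT.nd (nat_lit 156) (nat_lit 228) (nat_lit 0) (XT.nd (nat_lit 78) (nat_lit 0) (nat_lit 0) (XT.lf (nat_lit 0) (nat_lit 7969910576) (nat_lit 76) (nat_lit 996559148) (nat_lit 152) (nat_lit 9359429727) (nat_lit 25) (nat_lit 5) (nat_lit 26) (nat_lit 5) (nat_lit 27) (nat_lit 4) (nat_lit 508) (nat_lit 329) (nat_lit 303)) (XT.lf (nat_lit 0) (nat_lit 13104115218) (nat_lit 152)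 (nat_lit 2627066109) (nat_lit 0) (nat_lit 2871103229) (nat_lit 25) (nat_lit 5) (nat_lit 27) (nat_lit 4) (nat_lit 25) (nat_lit 4) (nat_lit 509) (nat_lit 329) (nat_lit 302))) (XT.nd (nat_lit 78) (nat_lit 76) (nat_lit 0) (XT.lf (nat_lit 0) (nat_lit 5234212103) (nat_lit 152) (nat_lit 12083495715) (nat_lit 152) (nat_lit 1566637168) (nat_lit 23) (nat_lit 4) (nat_lit 25) (nat_lit 5) (nat_lit 25) (nat_lit 4) (nat_lit 510) (nat_lit 329) (nat_lit 301)) (XT.lf (nat_lit 0) (nat_lit 2381897848) (nat_lit 228) (nat_lit 5983705832) (nat_lit 76) (nat_lit 10806728316) (nat_lit 22) (nat_lit 5) (nat_lit 25) (nat_lit 5) (nat_lit 23) (nat_lit 4) (nat_lit 511) (nat_lit 329) (nat_lit 300)))) (XT.nd (nat_lit 156) (nat_lit 152) (nat_lit 0) (XT.nd (nat_lit 78) (nat_lit 0) (nat_lit 0) (XT.lf (nat_lit 0) (nat_lit 1766135408) (nat_lit 76) (nat_lit 4587379119) (nat_lit 152) (nat_lit 13113066192) (nat_lit 21) (nat_lit 5) (nat_lit 22) (nat_lit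 5) (nat_lit 23) (nat_lit 4) (nat_lit 512) (nat_lit 329) (nat_lit 299)) (XT.lf (nat_lit 0) (nat_lit 9669925824) (nat_lit 76) (nat_lit 728769579) (nat_lit 152) (nat_lit 9368147008) (nat_lit 21) (nat_lit 5) (nat_lit 22) (nat_lit 5) (nat_lit 23) (nat_lit 4) (nat_lit 513) (nat_lit 329) (nat_lit 298))) (XT.nd (nat_lit 78) (nat_lit 152) (nat_lit 0) (XT.lf (nat_lit 0) (nat_lit 14500252362) (nat_lit 152) (nat_lit 2443369542) (nat_lit 0) (nat_lit 3129988406) (nat_lit 21) (nat_lit 5) (nat_lit 23) (nat_lit 4) (nat_lit 21) (nat_lit 4) (nat_lit 514) (nat_lit 329) (nat_lit 297)) (XT.lf (nat_lit 0) (nat_lit 5348936970) (nat_lit 152) (nat_lit 13329998250) (nat_lit 152) (nat_lit 1707686672) (nat_lit 19) (nat_lit 4) (nat_lit 21) (nat_lit 5) (nat_lit 21) (nat_lit 4) (nat_lit 515) (nat_lit 329) (nat_lit 296))))))))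
noncomputable def xc12 : XT := (XT.nd (nat_lit 57408) (nat_lit 0) (nat_lit 608) (XT.nd (nat_lit 1092) (nat_lit 76) (nat_lit 0) (XT.nd (nat_lit 546) (nat_lit 304) (nat_lit 0) (XT.nd (nat_lit 234) (nat_lit 228) (nat_lit 0) (XT.nd (nat_lit 78) (nat_lit 76) (nat_lit 0) (XT.lf (nat_lit 0) (nat_lit 2178082357) (nat_lit 228) (nat_lit 7469690726) (nat_lit 76) (nat_lit 11058398170) (nat_lit 18) (nat_lit 5) (nat_lit 21) (nat_lit 5) (nat_lit 19) (nat_lit 4) (nat_lit 516) (nat_lit 329) (nat_lit 295)) (XT.nd (nat_lit 78) (nat_lit 0) (nat_lit 0) (XT.lf (nat_lit 0) (nat_lit 162332747) (nat_lit 76) (nat_lit 5913909896) (nat_lit 152) (nat_lit 14956501997) (nat_lit 17) (nat_lit 5) (nat_lit 18) (nat_lit 5) (nat_lit 19) (nat_lit 4) (nat_lit 517) (nat_lit 329) (nat_lit 294)) (XT.lf (nat_lit 0) (nat_lit 7970614015) (nat_lit 76) (nat_lit 2088693663) (nat_lit 152) (nat_lit 11306412425) (nat_lit 17) (nat_lit 5) (nat_lit 18) (nat_lit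 5) (nat_lit 19) (nat_lit 4) (nat_lit 518) (nat_lit 329) (nat_lit 293)))) (XT.nd (nat_lit 156) (nat_lit 76) (nat_lit 0) (XT.nd (nat_lit 78) (nat_lit 152) (nat_lit 0) (XT.lf (nat_lit 0) (nat_lit 14091248819) (nat_lit 152) (nat_lit 5858816259) (nat_lit 0) (nat_lit 1755914958) (nat_lit 17) (nat_lit 5) (nat_lit 19) (nat_lit 4) (nat_lit 17) (nat_lit 4) (nat_lit 519) (nat_lit 329) (nat_lit 292)) (XT.lf (nat_lit 0) (nat_lit 1762233160) (nat_lit 152) (nat_lit 16425147491) (nat_lit 152) (nat_lit 3866002555) (nat_lit 15) (nat_lit 4) (nat_lit 17) (nat_lit 5) (nat_lit 17) (nat_lit 4) (nat_lit 520) (nat_lit 329) (nat_lit 291))) (XT.nd (nat_lit 78) (nat_lit 76) (nat_lit 0) (XT.lf (nat_lit 0) (nat_lit 9540370601) (nat_lit 152) (nat_lit 12822990882) (nat_lit 152) (nat_lit 44423325) (nat_lit 15) (nat_lit 4) (nat_lit 17) (nat_lit 5) (nat_lit 17) (nat_lit 4) (nat_lit 521) (nat_lit 329) (nat_lit 290)) (XT.lf (nat_lit 0) (nat_lit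 3762191841) (nat_lit 228) (nat_lit 5394060254) (nat_lit 76) (nat_lit 13613347598) (nat_lit 14) (nat_lit 5) (nat_lit 17) (nat_lit 5) (nat_lit 15) (nat_lit 4) (nat_lit 522) (nat_lit 329) (nat_lit 289))))) (XT.nd (nat_lit 234) (nat_lit 228) (nat_lit 0) (XT.nd (nat_lit 78) (nat_lit 0) (nat_lit 0) (XT.lf (nat_lit 0) (nat_lit 2184730940) (nat_lit 76) (nat_lit 5433744747) (nat_lit 152) (nat_lit 15520695078) (nat_lit 13) (nat_lit 5) (nat_lit 14) (nat_lit 5) (nat_lit 15) (nat_lit 4) (nat_lit 523) (nat_lit 329) (nat_lit 288)) (XT.nd (nat_lit 78) (nat_lit 0) (nat_lit 0) (XT.lf (nat_lit 0) (nat_lit 9916303326) (nat_lit 76) (nat_lit 1632043264) (nat_lit 152) (nat_lit 11967865659) (nat_lit 13) (nat_lit 5) (nat_lit 14) (nat_lit 5) (nat_lit 15) (nat_lit 4) (nat_lit 524) (nat_lit 329) (nat_lit 287)) (XT.lf (nat_lit 0) (nat_lit 15532234143) (nat_lit 152) (nat_lit 6183952785) (nat_lit 0) (nat_lit 2185107307) (nat_lit 13) (nat_lit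 5) (nat_lit 15) (nat_lit 4) (nat_lit 13) (nat_lit 4) (nat_lit 525) (nat_lit 329) (nat_lit 286)))) (XT.nd (nat_lit 156) (nat_lit 76) (nat_lit 0) (XT.nd (nat_lit 78) (nat_lit 0) (nat_lit 0) (XT.lf (nat_lit 0) (nat_lit 1317097168) (nat_lit 152) (nat_lit 18259668556) (nat_lit 152) (nat_lit 4717700711) (nat_lit 11) (nat_lit 4) (nat_lit 13) (nat_lit 5) (nat_lit 13) (nat_lit 4) (nat_lit 526) (nat_lit 329) (nat_lit 285)) (XT.lf (nat_lit 0) (nat_lit 8982760684) (nat_lit 152) (nat_lit 14722834717) (nat_lit 152) (nat_lit 989846275) (nat_lit 11) (nat_lit 4) (nat_lit 13) (nat_lit 5) (nat_lit 13) (nat_lit 4) (nat_lit 527) (nat_lit 329) (nat_lit 284))) (XT.nd (nat_lit 78) (nat_lit 0) (nat_lit 0) (XT.lf (nat_lit 0) (nat_lit 2738079901) (nat_lit 228) (nat_lit 8389342136) (nat_lit 76) (nat_lit 13977408568) (nat_lit 10) (nat_lit 5) (nat_lit 13) (nat_lit 5) (nat_lit 11) (nat_lit 4) (nat_lit 528) (nat_lit 329) (nat_lit 283)) (XT.lf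 (nat_lit 0) (nat_lit 6490462116) (nat_lit 228) (nat_lit 993133097) (nat_lit 76) (nat_lit 18039425509) (nat_lit 10) (nat_lit 5) (nat_lit 13) (nat_lit 5) (nat_lit 11) (nat_lit 4) (nat_lit 529) (nat_lit 329) (nat_lit 282)))))) (XT.nd (nat_lit 55770) (nat_lit 0) (nat_lit 2964) (XT.nd (nat_lit 55458) (nat_lit 0) (nat_lit 3952) (XT.nd (nat_lit 78) (nat_lit 0) (nat_lit 0) (XT.lf (nat_lit 0) (nat_lit 6571459207) (nat_lit 76) (nat_lit 3752960968) (nat_lit 152) (nat_lit 15625031058) (nat_lit 9) (nat_lit 5) (nat_lit 10) (nat_lit 5) (nat_lit 11) (nat_lit 4) (nat_lit 530) (nat_lit 329) (nat_lit 281)) (XT.nd (nat_lit 78) (nat_lit 0) (nat_lit 0) (XT.lf (nat_lit 0) (nat_lit 14206060886) (nat_lit 152) (nat_lit 12149682441) (nat_lit 0) (nat_lit 29253972) (nat_lit 9) (nat_lit 5) (nat_lit 11) (nat_lit 4) (nat_lit 9) (nat_lit 4) (nat_lit 531) (nat_lit 329) (nat_lit 280)) (XT.lf (nat_lit 0) (nat_lit 18154850646) (nat_lit 152) (nat_lit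 4866197283) (nat_lit 0) (nat_lit 3808422909) (nat_lit 9) (nat_lit 5) (nat_lit 11) (nat_lit 4) (nat_lit 9) (nat_lit 4) (nat_lit 532) (nat_lit 329) (nat_lit 279)))) (XT.nd (nat_lit 156) (nat_lit 228) (nat_lit 0) (XT.nd (nat_lit 78) (nat_lit 304) (nat_lit 0) (XT.lf (nat_lit 0) (nat_lit 3464808131) (nat_lit 228) (nat_lit 1404929279) (nat_lit 228) (nat_lit 1404929279) (nat_lit 68) (nat_lit 4) (nat_lit 71) (nat_lit 5) (nat_lit 71) (nat_lit 4) (nat_lit 480) (nat_lit 330) (nat_lit 330)) (XT.lf (nat_lit 0) (nat_lit 1425595808) (nat_lit 304) (nat_lit 10418768935) (nat_lit 0) (nat_lit 857934040) (nat_lit 64) (nat_lit 5) (nat_lit 68) (nat_lit 4) (nat_lit 64) (nat_lit 4) (nat_lit 481) (nat_lit 330) (nat_lit 329))) (XT.nd (nat_lit 78) (nat_lit 228) (nat_lit 0) (XT.lf (nat_lit 0) (nat_lit 5701033062) (nat_lit 304) (nat_lit 2580243427) (nat_lit 0) (nat_lit 4576840150) (nat_lit 64) (nat_lit 5) (nat_lit 68) (nat_lit 4) (nat_lit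 64) (nat_lit 4) (nat_lit 482) (nat_lit 330) (nat_lit 328)) (XT.lf (nat_lit 0) (nat_lit 5381488402) (nat_lit 228) (nat_lit 4652973301) (nat_lit 228) (nat_lit 2983161619) (nat_lit 61) (nat_lit 4) (nat_lit 64) (nat_lit 5) (nat_lit 64) (nat_lit 4) (nat_lit 483) (nat_lit 330) (nat_lit 327))))) (XT.nd (nat_lit 234) (nat_lit 456) (nat_lit 0) (XT.nd (nat_lit 78) (nat_lit 228) (nat_lit 0) (XT.lf (nat_lit 0) (nat_lit 248013882) (nat_lit 228) (nat_lit 966216774) (nat_lit 304) (nat_lit 11966811206) (nat_lit 57) (nat_lit 5) (nat_lit 60) (nat_lit 5) (nat_lit 61) (nat_lit 4) (nat_lit 484) (nat_lit 330) (nat_lit 326)) (XT.nd (nat_lit 78) (nat_lit 228) (nat_lit 0) (XT.lf (nat_lit 0) (nat_lit 5463329598) (nat_lit 304) (nat_lit 5096192737) (nat_lit 0) (nat_lit 2787678842) (nat_lit 57) (nat_lit 5) (nat_lit 61) (nat_lit 4) (nat_lit 57) (nat_lit 4) (nat_lit 485) (nat_lit 330) (nat_lit 325)) (XT.lf (nat_lit 0) (nat_lit 2825481618)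 (nat_lit 228) (nat_lit 6935831306) (nat_lit 228) (nat_lit 3756113145) (nat_lit 54) (nat_lit 4) (nat_lit 57) (nat_lit 5) (nat_lit 57) (nat_lit 4) (nat_lit 486) (nat_lit 330) (nat_lit 324)))) (XT.nd (nat_lit 156) (nat_lit 228) (nat_lit 0) (XT.nd (nat_lit 78) (nat_lit 152) (nat_lit 0) (XT.lf (nat_lit 0) (nat_lit 421939179) (nat_lit 304) (nat_lit 2821584748) (nat_lit 76) (nat_lit 10448018283) (nat_lit 53) (nat_lit 5) (nat_lit 57) (nat_lit 5) (nat_lit 54) (nat_lit 4) (nat_lit 487) (nat_lit 330) (nat_lit 323)) (XT.lf (nat_lit 0) (nat_lit 4610704234) (nat_lit 228) (nat_lit 8724564556) (nat_lit 0) (nat_lit 533845663) (nat_lit 51) (nat_lit 5) (nat_lit 54) (nat_lit 4) (nat_lit 51) (nat_lit 4) (nat_lit 488) (nat_lit 330) (nat_lit 322))) (XT.nd (nat_lit 78) (nat_lit 228) (nat_lit 0) (XT.lf (nat_lit 0) (nat_lit 8864498064) (nat_lit 228) (nat_lit 864174761) (nat_lit 0) (nat_lit 4321959127) (nat_lit 51) (nat_lit 5) (nat_lit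 54) (nat_lit 4) (nat_lit 51) (nat_lit 4) (nat_lit 489) (nat_lit 330) (nat_lit 321)) (XT.lf (nat_lit 0) (nat_lit 7148188107) (nat_lit 228) (nat_lit 6043466394) (nat_lit 228) (nat_lit 1044378078) (nat_lit 48) (nat_lit 4) (nat_lit 51) (nat_lit 5) (nat_lit 51) (nat_lit 4) (nat_lit 490) (nat_lit 330) (nat_lit 320))))))) (XT.nd (nat_lit 1092) (nat_lit 912) (nat_lit 0) (XT.nd (nat_lit 546) (nat_lit 608) (nat_lit 0) (XT.nd (nat_lit 234) (nat_lit 380) (nat_lit 0) (XT.nd (nat_lit 78) (nat_lit 228) (nat_lit 0) (XT.lf (nat_lit 0) (nat_lit 798146333) (nat_lit 152) (nat_lit 2293354696) (nat_lit 228) (nat_lit 11334185074) (nat_lit 45) (nat_lit 5) (nat_lit 47) (nat_lit 5) (nat_lit 48) (nat_lit 4) (nat_lit 491) (nat_lit 330) (nat_lit 319)) (XT.nd (nat_lit 78) (nat_lit 228) (nat_lit 0) (XT.lf (nat_lit 0) (nat_lit 7296160106) (nat_lit 228) (nat_lit 5796795590) (nat_lit 0) (nat_lit 1526055444) (nat_lit 45) (nat_lit 5) (nat_lit 48)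 (nat_lit 4) (nat_lit 45) (nat_lit 4) (nat_lit 492) (nat_lit 330) (nat_lit 318)) (XT.lf (nat_lit 0) (nat_lit 2105566943) (nat_lit 228) (nat_lit 9451547259) (nat_lit 228) (nat_lit 3259661542) (nat_lit 42) (nat_lit 4) (nat_lit 45) (nat_lit 5) (nat_lit 45) (nat_lit 4) (nat_lit 493) (nat_lit 330) (nat_lit 317)))) (XT.nd (nat_lit 156) (nat_lit 152) (nat_lit 0) (XT.nd (nat_lit 78) (nat_lit 152) (nat_lit 0) (XT.lf (nat_lit 0) (nat_lit 855781997) (nat_lit 304) (nat_lit 4876716920) (nat_lit 76) (nat_lit 9286246378) (nat_lit 41) (nat_lit 5) (nat_lit 45) (nat_lit 5) (nat_lit 42) (nat_lit 4) (nat_lit 494) (nat_lit 330) (nat_lit 316)) (XT.lf (nat_lit 0) (nat_lit 3037071315) (nat_lit 152) (nat_lit 1937122077) (nat_lit 228) (nat_lit 10250859915) (nat_lit 39) (nat_lit 5) (nat_lit 41) (nat_lit 5) (nat_lit 42) (nat_lit 4) (nat_lit 495) (nat_lit 330) (nat_lit 315))) (XT.nd (nat_lit 78) (nat_lit 152) (nat_lit 0) (XT.lf (nat_lit 0)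 (nat_lit 9165229905) (nat_lit 228) (nat_lit 4368231513) (nat_lit 0) (nat_lit 1902236722) (nat_lit 39) (nat_lit 5) (nat_lit 42) (nat_lit 4) (nat_lit 39) (nat_lit 4) (nat_lit 496) (nat_lit 330) (nat_lit 314)) (XT.lf (nat_lit 0) (nat_lit 3547628382) (nat_lit 152) (nat_lit 9874161104) (nat_lit 152) (nat_lit 2229147825) (nat_lit 37) (nat_lit 4) (nat_lit 39) (nat_lit 5) (nat_lit 39) (nat_lit 4) (nat_lit 497) (nat_lit 330) (nat_lit 313))))) (XT.nd (nat_lit 234) (nat_lit 380) (nat_lit 0) (XT.nd (nat_lit 78) (nat_lit 152) (nat_lit 0) (XT.lf (nat_lit 0) (nat_lit 1843604508) (nat_lit 228) (nat_lit 4295461678) (nat_lit 76) (nat_lit 9731675505) (nat_lit 36) (nat_lit 5) (nat_lit 39) (nat_lit 5) (nat_lit 37) (nat_lit 4) (nat_lit 498) (nat_lit 330) (nat_lit 312)) (XT.nd (nat_lit 78) (nat_lit 0) (nat_lit 0) (XT.lf (nat_lit 0) (nat_lit 3608855895) (nat_lit 152) (nat_lit 2329552258) (nat_lit 228) (nat_lit 10156845017) (nat_lit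 34) (nat_lit 5) (nat_lit 36) (nat_lit 5) (nat_lit 37) (nat_lit 4) (nat_lit 499) (nat_lit 330) (nat_lit 311)) (XT.lf (nat_lit 0) (nat_lit 10101403451) (nat_lit 228) (nat_lit 4696946809) (nat_lit 0) (nat_lit 1526193015) (nat_lit 34) (nat_lit 5) (nat_lit 37) (nat_lit 4) (nat_lit 34) (nat_lit 4) (nat_lit 500) (nat_lit 330) (nat_lit 310)))) (XT.nd (nat_lit 156) (nat_lit 152) (nat_lit 0) (XT.nd (nat_lit 78) (nat_lit 76) (nat_lit 0) (XT.lf (nat_lit 0) (nat_lit 3183976634) (nat_lit 152) (nat_lit 11147994072) (nat_lit 152) (nat_lit 2226776265) (nat_lit 32) (nat_lit 4) (nat_lit 34) (nat_lit 5) (nat_lit 34) (nat_lit 4) (nat_lit 501) (nat_lit 330) (nat_lit 309)) (XT.lf (nat_lit 0) (nat_lit 1805274730) (nat_lit 228) (nat_lit 5613785765) (nat_lit 76) (nat_lit 9378747227) (nat_lit 31) (nat_lit 5) (nat_lit 34) (nat_lit 5) (nat_lit 32) (nat_lit 4) (nat_lit 502) (nat_lit 330) (nat_lit 308))) (XT.nd (nat_lit 78) (nat_lit 0) (nat_lit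 0) (XT.lf (nat_lit 0) (nat_lit 2227919345) (nat_lit 152) (nat_lit 3624026966) (nat_lit 228) (nat_lit 11190146295) (nat_lit 29) (nat_lit 5) (nat_lit 31) (nat_lit 5) (nat_lit 32) (nat_lit 4) (nat_lit 503) (nat_lit 330) (nat_lit 307)) (XT.lf (nat_lit 0) (nat_lit 9968551204) (nat_lit 228) (nat_lit 7078964995) (nat_lit 0) (nat_lit 243979951) (nat_lit 29) (nat_lit 5) (nat_lit 32) (nat_lit 4) (nat_lit 29) (nat_lit 4) (nat_lit 504) (nat_lit 330) (nat_lit 306)))))) (XT.nd (nat_lit 546) (nat_lit 380) (nat_lit 0) (XT.nd (nat_lit 234) (nat_lit 304) (nat_lit 0) (XT.nd (nat_lit 78) (nat_lit 76) (nat_lit 0) (XT.lf (nat_lit 0) (nat_lit 708834362) (nat_lit 152) (nat_lit 13437722760) (nat_lit 152) (nat_lit 3399761970) (nat_lit 27) (nat_lit 4) (nat_lit 29) (nat_lit 5) (nat_lit 29) (nat_lit 4) (nat_lit 505) (nat_lit 330) (nat_lit 305)) (XT.nd (nat_lit 78) (nat_lit 0) (nat_lit 0) (XT.lf (nat_lit 0) (nat_lit 592345366) (nat_lit 228)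 (nat_lit 9148667793) (nat_lit 76) (nat_lit 8065192301) (nat_lit 26) (nat_lit 5) (nat_lit 29) (nat_lit 5) (nat_lit 27) (nat_lit 4) (nat_lit 506) (nat_lit 330) (nat_lit 304)) (XT.lf (nat_lit 0) (nat_lit 4570320820) (nat_lit 228) (nat_lit 1414377615) (nat_lit 76) (nat_lit 12087122668) (nat_lit 26) (nat_lit 5) (nat_lit 29) (nat_lit 5) (nat_lit 27) (nat_lit 4) (nat_lit 507) (nat_lit 330) (nat_lit 303)))) (XT.nd (nat_lit 156) (nat_lit 228) (nat_lit 0) (XT.nd (nat_lit 78) (nat_lit 0) (nat_lit 0) (XT.lf (nat_lit 0) (nat_lit 6475418645) (nat_lit 76) (nat_lit 2146936937) (nat_lit 152) (nat_lit 9720515220) (nat_lit 25) (nat_lit 5) (nat_lit 26) (nat_lit 5) (nat_lit 27) (nat_lit 4) (nat_lit 508) (nat_lit 330) (nat_lit 302)) (XT.lf (nat_lit 0) (nat_lit 12729071908) (nat_lit 152) (nat_lit 4172778649) (nat_lit 0) (nat_lit 1718029631) (nat_lit 25) (nat_lit 5) (nat_lit 27) (nat_lit 4) (nat_lit 25) (nat_lit 4) (nat_lit 509) (nat_lit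 330) (nat_lit 301))) (XT.nd (nat_lit 78) (nat_lit 76) (nat_lit 0) (XT.lf (nat_lit 0) (nat_lit 3626514045) (nat_lit 152) (nat_lit 13282712072) (nat_lit 152) (nat_lit 1993388854) (nat_lit 23) (nat_lit 4) (nat_lit 25) (nat_lit 5) (nat_lit 25) (nat_lit 4) (nat_lit 510) (nat_lit 330) (nat_lit 300)) (XT.lf (nat_lit 0) (nat_lit 1937773632) (nat_lit 228) (nat_lit 7647844929) (nat_lit 76) (nat_lit 9605503594) (nat_lit 22) (nat_lit 5) (nat_lit 25) (nat_lit 5) (nat_lit 23) (nat_lit 4) (nat_lit 511) (nat_lit 330) (nat_lit 299))))) (XT.nd (nat_lit 234) (nat_lit 304) (nat_lit 0) (XT.nd (nat_lit 78) (nat_lit 0) (nat_lit 0) (XT.lf (nat_lit 0) (nat_lit 39208324) (nat_lit 76) (nat_lit 5836450559) (nat_lit 152) (nat_lit 13610391887) (nat_lit 21) (nat_lit 5) (nat_lit 22) (nat_lit 5) (nat_lit 23) (nat_lit 4) (nat_lit 512) (nat_lit 330) (nat_lit 298)) (XT.nd (nat_lit 78) (nat_lit 0) (nat_lit 0) (XT.lf (nat_lit 0) (nat_lit 7903123784)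 (nat_lit 76) (nat_lit 1995379556) (nat_lit 152) (nat_lit 9888261009) (nat_lit 21) (nat_lit 5) (nat_lit 22) (nat_lit 5) (nat_lit 23) (nat_lit 4) (nat_lit 513) (nat_lit 330) (nat_lit 297)) (XT.lf (nat_lit 0) (nat_lit 13969826541) (nat_lit 152) (nat_lit 4261294331) (nat_lit 0) (nat_lit 1863021111) (nat_lit 21) (nat_lit 5) (nat_lit 23) (nat_lit 4) (nat_lit 21) (nat_lit 4) (nat_lit 514) (nat_lit 330) (nat_lit 296)))) (XT.nd (nat_lit 156) (nat_lit 76) (nat_lit 0) (XT.nd (nat_lit 78) (nat_lit 76) (nat_lit 0) (XT.lf (nat_lit 0) (nat_lit 3467687807) (nat_lit 152) (nat_lit 14647028758) (nat_lit 152) (nat_lit 2293117816) (nat_lit 19) (nat_lit 4) (nat_lit 21) (nat_lit 5) (nat_lit 21) (nat_lit 4) (nat_lit 515) (nat_lit 330) (nat_lit 295)) (XT.lf (nat_lit 0) (nat_lit 1578777987) (nat_lit 228) (nat_lit 9407039711) (nat_lit 76) (nat_lit 9742077857) (nat_lit 18) (nat_lit 5) (nat_lit 21) (nat_lit 5) (nat_lit 19) (nat_lit 4) (nat_lit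 516) (nat_lit 330) (nat_lit 294))) (XT.nd (nat_lit 78) (nat_lit 76) (nat_lit 0) (XT.lf (nat_lit 0) (nat_lit 5454755615) (nat_lit 228) (nat_lit 1815075005) (nat_lit 76) (nat_lit 13785086648) (nat_lit 18) (nat_lit 5) (nat_lit 21) (nat_lit 5) (nat_lit 19) (nat_lit 4) (nat_lit 517) (nat_lit 330) (nat_lit 293)) (XT.lf (nat_lit 0) (nat_lit 5931404665) (nat_lit 76) (nat_lit 3473515659) (nat_lit 152) (nat_lit 11983634997) (nat_lit 17) (nat_lit 5) (nat_lit 18) (nat_lit 5) (nat_lit 19) (nat_lit 4) (nat_lit 518) (nat_lit 330) (nat_lit 292))))))))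
noncomputable def xc13 : XT := (XT.nd (nat_lit 57252) (nat_lit 0) (nat_lit 608) (XT.nd (nat_lit 56160) (nat_lit 0) (nat_lit 2736) (XT.nd (nat_lit 546) (nat_lit 304) (nat_lit 0) (XT.nd (nat_lit 234) (nat_lit 152) (nat_lit 0) (XT.nd (nat_lit 78) (nat_lit 152) (nat_lit 0) (XT.lf (nat_lit 0) (nat_lit 13407215764) (nat_lit 152) (nat_lit 7949120042) (nat_lit 0) (nat_lit 373076855) (nat_lit 17) (nat_lit 5) (nat_lit 19) (nat_lit 4) (nat_lit 17) (nat_lit 4) (nat_lit 519) (nat_lit 330) (nat_lit 291)) (XT.nd (nat_lit 78) (nat_lit 152) (nat_lit 0) (XT.lf (nat_lit 0) (nat_lit 17471656482) (nat_lit 152) (nat_lit 387702624) (nat_lit 0) (nat_lit 4218094951) (nat_lit 17) (nat_lit 5) (nat_lit 19) (nat_lit 4) (nat_lit 17) (nat_lit 4) (nat_lit 520) (nat_lit 330) (nat_lit 290)) (XT.lf (nat_lit 0) (nat_lit 7349002718) (nat_lit 152) (nat_lit 14275995890) (nat_lit 152) (nat_lit 807314141) (nat_lit 15) (nat_lit 4) (nat_lit 17) (nat_lit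 5) (nat_lit 17) (nat_lit 4) (nat_lit 521) (nat_lit 330) (nat_lit 289)))) (XT.nd (nat_lit 156) (nat_lit 76) (nat_lit 0) (XT.nd (nat_lit 78) (nat_lit 0) (nat_lit 0) (XT.lf (nat_lit 0) (nat_lit 2989477725) (nat_lit 228) (nat_lit 7640838916) (nat_lit 76) (nat_lit 12164310784) (nat_lit 14) (nat_lit 5) (nat_lit 17) (nat_lit 5) (nat_lit 15) (nat_lit 4) (nat_lit 522) (nat_lit 330) (nat_lit 288)) (XT.lf (nat_lit 0) (nat_lit 6812136899) (nat_lit 228) (nat_lit 125834223) (nat_lit 76) (nat_lit 16226903936) (nat_lit 14) (nat_lit 5) (nat_lit 17) (nat_lit 5) (nat_lit 15) (nat_lit 4) (nat_lit 523) (nat_lit 330) (nat_lit 287))) (XT.nd (nat_lit 78) (nat_lit 0) (nat_lit 0) (XT.lf (nat_lit 0) (nat_lit 7569163669) (nat_lit 76) (nat_lit 3152730892) (nat_lit 152) (nat_lit 12820428235) (nat_lit 13) (nat_lit 5) (nat_lit 14) (nat_lit 5) (nat_lit 15) (nat_lit 4) (nat_lit 524) (nat_lit 330) (nat_lit 286)) (XT.lf (nat_lit 0) (nat_lit 14676902156)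 (nat_lit 152) (nat_lit 8581830191) (nat_lit 0) (nat_lit 669253945) (nat_lit 13) (nat_lit 5) (nat_lit 15) (nat_lit 4) (nat_lit 13) (nat_lit 4) (nat_lit 525) (nat_lit 330) (nat_lit 285))))) (XT.nd (nat_lit 234) (nat_lit 76) (nat_lit 0) (XT.nd (nat_lit 78) (nat_lit 228) (nat_lit 0) (XT.lf (nat_lit 0) (nat_lit 18694248304) (nat_lit 152) (nat_lit 1131878237) (nat_lit 0) (nat_lit 4495579495) (nat_lit 13) (nat_lit 5) (nat_lit 15) (nat_lit 4) (nat_lit 13) (nat_lit 4) (nat_lit 526) (nat_lit 330) (nat_lit 284)) (XT.nd (nat_lit 78) (nat_lit 76) (nat_lit 0) (XT.lf (nat_lit 0) (nat_lit 6485141705) (nat_lit 152) (nat_lit 16312002950) (nat_lit 152) (nat_lit 1926059046) (nat_lit 11) (nat_lit 4) (nat_lit 13) (nat_lit 5) (nat_lit 13) (nat_lit 4) (nat_lit 527) (nat_lit 330) (nat_lit 283)) (XT.lf (nat_lit 0) (nat_lit 1795897791) (nat_lit 228) (nat_lit 10941833399) (nat_lit 76) (nat_lit 12395351583) (nat_lit 10) (nat_lit 5) (nat_lit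 13) (nat_lit 5) (nat_lit 11) (nat_lit 4) (nat_lit 528) (nat_lit 330) (nat_lit 282)))) (XT.nd (nat_lit 156) (nat_lit 0) (nat_lit 0) (XT.nd (nat_lit 78) (nat_lit 76) (nat_lit 0) (XT.lf (nat_lit 0) (nat_lit 5530389871) (nat_lit 228) (nat_lit 3578162371) (nat_lit 76) (nat_lit 16443081992) (nat_lit 10) (nat_lit 5) (nat_lit 13) (nat_lit 5) (nat_lit 11) (nat_lit 4) (nat_lit 529) (nat_lit 330) (nat_lit 281)) (XT.lf (nat_lit 0) (nat_lit 3919752308) (nat_lit 76) (nat_lit 5409839635) (nat_lit 152) (nat_lit 16649171394) (nat_lit 9) (nat_lit 5) (nat_lit 10) (nat_lit 5) (nat_lit 11) (nat_lit 4) (nat_lit 530) (nat_lit 330) (nat_lit 280))) (XT.nd (nat_lit 78) (nat_lit 0) (nat_lit 0) (XT.lf (nat_lit 0) (nat_lit 11552114125) (nat_lit 76) (nat_lit 1641524876) (nat_lit 152) (nat_lit 13221025680) (nat_lit 9) (nat_lit 5) (nat_lit 10) (nat_lit 5) (nat_lit 11) (nat_lit 4) (nat_lit 531) (nat_lit 330) (nat_lit 279)) (XT.lf (nat_lit 0)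 (nat_lit 17114619947) (nat_lit 152) (nat_lit 7599729881) (nat_lit 0) (nat_lit 2145347906) (nat_lit 9) (nat_lit 5) (nat_lit 11) (nat_lit 4) (nat_lit 9) (nat_lit 4) (nat_lit 532) (nat_lit 330) (nat_lit 278)))))) (XT.nd (nat_lit 546) (nat_lit 1140) (nat_lit 0) (XT.nd (nat_lit 234) (nat_lit 608) (nat_lit 0) (XT.nd (nat_lit 78) (nat_lit 228) (nat_lit 0) (XT.lf (nat_lit 0) (nat_lit 857628932) (nat_lit 304) (nat_lit 4411332302) (nat_lit 0) (nat_lit 857628932) (nat_lit 71) (nat_lit 5) (nat_lit 75) (nat_lit 4) (nat_lit 71) (nat_lit 4) (nat_lit 478) (nat_lit 331) (nat_lit 331)) (XT.nd (nat_lit 78) (nat_lit 228) (nat_lit 0) (XT.lf (nat_lit 0) (nat_lit 5973462127) (nat_lit 304) (nat_lit 1043587019) (nat_lit 0) (nat_lit 5382866824) (nat_lit 71) (nat_lit 5) (nat_lit 75) (nat_lit 4) (nat_lit 71) (nat_lit 4) (nat_lit 479) (nat_lit 331) (nat_lit 330)) (XT.lf (nat_lit 0) (nat_lit 6877621579) (nat_lit 228) (nat_lit 3420981534)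 (nat_lit 228) (nat_lit 2251371228) (nat_lit 68) (nat_lit 4) (nat_lit 71) (nat_lit 5) (nat_lit 71) (nat_lit 4) (nat_lit 480) (nat_lit 331) (nat_lit 329)))) (XT.nd (nat_lit 156) (nat_lit 304) (nat_lit 0) (XT.nd (nat_lit 78) (nat_lit 0) (nat_lit 0) (XT.lf (nat_lit 0) (nat_lit 1940904109) (nat_lit 304) (nat_lit 10524995179) (nat_lit 0) (nat_lit 237696194) (nat_lit 64) (nat_lit 5) (nat_lit 68) (nat_lit 4) (nat_lit 64) (nat_lit 4) (nat_lit 481) (nat_lit 331) (nat_lit 328)) (XT.lf (nat_lit 0) (nat_lit 6185421784) (nat_lit 304) (nat_lit 2738025798) (nat_lit 0) (nat_lit 3936595099) (nat_lit 64) (nat_lit 5) (nat_lit 68) (nat_lit 4) (nat_lit 64) (nat_lit 4) (nat_lit 482) (nat_lit 331) (nat_lit 327))) (XT.nd (nat_lit 78) (nat_lit 76) (nat_lit 0) (XT.lf (nat_lit 0) (nat_lit 5170392245) (nat_lit 228) (nat_lit 5316774290) (nat_lit 228) (nat_lit 2533027243) (nat_lit 61) (nat_lit 4) (nat_lit 64) (nat_lit 5) (nat_lit 64) (nat_lit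 4) (nat_lit 483) (nat_lit 331) (nat_lit 326)) (XT.lf (nat_lit 0) (nat_lit 1626596858) (nat_lit 304) (nat_lit 22453119) (nat_lit 76) (nat_lit 11535151500) (nat_lit 60) (nat_lit 5) (nat_lit 64) (nat_lit 5) (nat_lit 61) (nat_lit 4) (nat_lit 484) (nat_lit 331) (nat_lit 325))))) (XT.nd (nat_lit 234) (nat_lit 608) (nat_lit 0) (XT.nd (nat_lit 78) (nat_lit 304) (nat_lit 0) (XT.lf (nat_lit 0) (nat_lit 5840994251) (nat_lit 304) (nat_lit 5416456367) (nat_lit 0) (nat_lit 2093614323) (nat_lit 57) (nat_lit 5) (nat_lit 61) (nat_lit 4) (nat_lit 57) (nat_lit 4) (nat_lit 485) (nat_lit 331) (nat_lit 324)) (XT.nd (nat_lit 78) (nat_lit 76) (nat_lit 0) (XT.lf (nat_lit 0) (nat_lit 2450525814) (nat_lit 228) (nat_lit 7656488432) (nat_lit 228) (nat_lit 3414924774) (nat_lit 54) (nat_lit 4) (nat_lit 57) (nat_lit 5) (nat_lit 57) (nat_lit 4) (nat_lit 486) (nat_lit 331) (nat_lit 323)) (XT.lf (nat_lit 0) (nat_lit 729178444) (nat_lit 304) (nat_lit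 3253117053) (nat_lit 76) (nat_lit 9714314380) (nat_lit 53) (nat_lit 5) (nat_lit 57) (nat_lit 5) (nat_lit 54) (nat_lit 4) (nat_lit 487) (nat_lit 331) (nat_lit 322)))) (XT.nd (nat_lit 156) (nat_lit 456) (nat_lit 0) (XT.nd (nat_lit 78) (nat_lit 0) (nat_lit 0) (XT.lf (nat_lit 0) (nat_lit 4661344761) (nat_lit 152) (nat_lit 221029617) (nat_lit 228) (nat_lit 8992528472) (nat_lit 51) (nat_lit 5) (nat_lit 53) (nat_lit 5) (nat_lit 54) (nat_lit 4) (nat_lit 488) (nat_lit 331) (nat_lit 321)) (XT.lf (nat_lit 0) (nat_lit 9105958856) (nat_lit 228) (nat_lit 1400735448) (nat_lit 0) (nat_lit 3550339395) (nat_lit 51) (nat_lit 5) (nat_lit 54) (nat_lit 4) (nat_lit 51) (nat_lit 4) (nat_lit 489) (nat_lit 331) (nat_lit 320))) (XT.nd (nat_lit 78) (nat_lit 228) (nat_lit 0) (XT.lf (nat_lit 0) (nat_lit 6555816969) (nat_lit 228) (nat_lit 6845242177) (nat_lit 228) (nat_lit 842025286) (nat_lit 48) (nat_lit 4) (nat_lit 51) (nat_lit 5) (nat_lit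 51) (nat_lit 4) (nat_lit 490) (nat_lit 331) (nat_lit 319)) (XT.lf (nat_lit 0) (nat_lit 140678513) (nat_lit 152) (nat_lit 3118091988) (nat_lit 228) (nat_lit 11174598403) (nat_lit 45) (nat_lit 5) (nat_lit 47) (nat_lit 5) (nat_lit 48) (nat_lit 4) (nat_lit 491) (nat_lit 331) (nat_lit 318))))))) (XT.nd (nat_lit 1092) (nat_lit 912) (nat_lit 0) (XT.nd (nat_lit 546) (nat_lit 532) (nat_lit 0) (XT.nd (nat_lit 234) (nat_lit 380) (nat_lit 0) (XT.nd (nat_lit 78) (nat_lit 304) (nat_lit 0) (XT.lf (nat_lit 0) (nat_lit 7430026976) (nat_lit 228) (nat_lit 6504820995) (nat_lit 0) (nat_lit 692522490) (nat_lit 45) (nat_lit 5) (nat_lit 48) (nat_lit 4) (nat_lit 45) (nat_lit 4) (nat_lit 492) (nat_lit 331) (nat_lit 317)) (XT.nd (nat_lit 78) (nat_lit 76) (nat_lit 0) (XT.lf (nat_lit 0) (nat_lit 1340220029) (nat_lit 228) (nat_lit 10318294000) (nat_lit 228) (nat_lit 3167278676) (nat_lit 42) (nat_lit 4) (nat_lit 45) (nat_lit 5) (nat_lit 45)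 (nat_lit 4) (nat_lit 493) (nat_lit 331) (nat_lit 316)) (XT.lf (nat_lit 0) (nat_lit 919500954) (nat_lit 304) (nat_lit 5699026178) (nat_lit 76) (nat_lit 8409780150) (nat_lit 41) (nat_lit 5) (nat_lit 45) (nat_lit 5) (nat_lit 42) (nat_lit 4) (nat_lit 494) (nat_lit 331) (nat_lit 315)))) (XT.nd (nat_lit 156) (nat_lit 228) (nat_lit 0) (XT.nd (nat_lit 78) (nat_lit 0) (nat_lit 0) (XT.lf (nat_lit 0) (nat_lit 2156799910) (nat_lit 152) (nat_lit 2848483121) (nat_lit 228) (nat_lit 10229992670) (nat_lit 39) (nat_lit 5) (nat_lit 41) (nat_lit 5) (nat_lit 42) (nat_lit 4) (nat_lit 495) (nat_lit 331) (nat_lit 314)) (XT.lf (nat_lit 0) (nat_lit 9163590582) (nat_lit 228) (nat_lit 5299335258) (nat_lit 0) (nat_lit 983656941) (nat_lit 39) (nat_lit 5) (nat_lit 42) (nat_lit 4) (nat_lit 39) (nat_lit 4) (nat_lit 496) (nat_lit 331) (nat_lit 313))) (XT.nd (nat_lit 78) (nat_lit 76) (nat_lit 0) (XT.lf (nat_lit 0) (nat_lit 2557929751) (nat_lit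 152) (nat_lit 10829508552) (nat_lit 152) (nat_lit 2275045405) (nat_lit 37) (nat_lit 4) (nat_lit 39) (nat_lit 5) (nat_lit 39) (nat_lit 4) (nat_lit 497) (nat_lit 331) (nat_lit 312)) (XT.lf (nat_lit 0) (nat_lit 1772064115) (nat_lit 228) (nat_lit 5342079425) (nat_lit 76) (nat_lit 8768682629) (nat_lit 36) (nat_lit 5) (nat_lit 39) (nat_lit 5) (nat_lit 37) (nat_lit 4) (nat_lit 498) (nat_lit 331) (nat_lit 311))))) (XT.nd (nat_lit 234) (nat_lit 228) (nat_lit 0) (XT.nd (nat_lit 78) (nat_lit 152) (nat_lit 0) (XT.lf (nat_lit 0) (nat_lit 2502958897) (nat_lit 152) (nat_lit 3330998481) (nat_lit 228) (nat_lit 10274045561) (nat_lit 34) (nat_lit 5) (nat_lit 36) (nat_lit 5) (nat_lit 37) (nat_lit 4) (nat_lit 499) (nat_lit 331) (nat_lit 310)) (XT.nd (nat_lit 78) (nat_lit 152) (nat_lit 0) (XT.lf (nat_lit 0) (nat_lit 9964813032) (nat_lit 228) (nat_lit 5853966255) (nat_lit 0) (nat_lit 519163496) (nat_lit 34) (nat_lit 5) (nat_lit 37)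 (nat_lit 4) (nat_lit 34) (nat_lit 4) (nat_lit 500) (nat_lit 331) (nat_lit 309)) (XT.lf (nat_lit 0) (nat_lit 1967001506) (nat_lit 152) (nat_lit 12195342478) (nat_lit 152) (nat_lit 2410470029) (nat_lit 32) (nat_lit 4) (nat_lit 34) (nat_lit 5) (nat_lit 34) (nat_lit 4) (nat_lit 501) (nat_lit 331) (nat_lit 308)))) (XT.nd (nat_lit 156) (nat_lit 0) (nat_lit 0) (XT.nd (nat_lit 78) (nat_lit 152) (nat_lit 0) (XT.lf (nat_lit 0) (nat_lit 1598892666) (nat_lit 228) (nat_lit 6887680745) (nat_lit 76) (nat_lit 8325833700) (nat_lit 31) (nat_lit 5) (nat_lit 34) (nat_lit 5) (nat_lit 32) (nat_lit 4) (nat_lit 502) (nat_lit 331) (nat_lit 307)) (XT.lf (nat_lit 0) (nat_lit 893339272) (nat_lit 152) (nat_lit 4718954627) (nat_lit 228) (nat_lit 11445069918) (nat_lit 29) (nat_lit 5) (nat_lit 31) (nat_lit 5) (nat_lit 32) (nat_lit 4) (nat_lit 503) (nat_lit 331) (nat_lit 306))) (XT.nd (nat_lit 78) (nat_lit 0) (nat_lit 0) (XT.lf (nat_lit 0) (nat_lit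 8836690572) (nat_lit 152) (nat_lit 866201658) (nat_lit 228) (nat_lit 7604401554) (nat_lit 29) (nat_lit 5) (nat_lit 31) (nat_lit 5) (nat_lit 32) (nat_lit 4) (nat_lit 504) (nat_lit 331) (nat_lit 305)) (XT.lf (nat_lit 0) (nat_lit 13846631263) (nat_lit 228) (nat_lit 728899891) (nat_lit 0) (nat_lit 2987277076) (nat_lit 29) (nat_lit 5) (nat_lit 32) (nat_lit 4) (nat_lit 29) (nat_lit 4) (nat_lit 505) (nat_lit 331) (nat_lit 304)))))) (XT.nd (nat_lit 546) (nat_lit 380) (nat_lit 0) (XT.nd (nat_lit 234) (nat_lit 228) (nat_lit 0) (XT.nd (nat_lit 78) (nat_lit 76) (nat_lit 0) (XT.lf (nat_lit 0) (nat_lit 251246239) (nat_lit 228) (nat_lit 10653057021) (nat_lit 76) (nat_lit 6919015032) (nat_lit 26) (nat_lit 5) (nat_lit 29) (nat_lit 5) (nat_lit 27) (nat_lit 4) (nat_lit 506) (nat_lit 331) (nat_lit 303)) (XT.nd (nat_lit 78) (nat_lit 76) (nat_lit 0) (XT.lf (nat_lit 0) (nat_lit 4205685597) (nat_lit 228) (nat_lit 2960403477) (nat_lit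 76) (nat_lit 10923321394) (nat_lit 26) (nat_lit 5) (nat_lit 29) (nat_lit 5) (nat_lit 27) (nat_lit 4) (nat_lit 507) (nat_lit 331) (nat_lit 302)) (XT.lf (nat_lit 0) (nat_lit 4867484205) (nat_lit 76) (nat_lit 3356721775) (nat_lit 152) (nat_lit 10136930174) (nat_lit 25) (nat_lit 5) (nat_lit 26) (nat_lit 5) (nat_lit 27) (nat_lit 4) (nat_lit 508) (nat_lit 331) (nat_lit 301)))) (XT.nd (nat_lit 156) (nat_lit 76) (nat_lit 0) (XT.nd (nat_lit 78) (nat_lit 152) (nat_lit 0) (XT.lf (nat_lit 0) (nat_lit 12300067430) (nat_lit 152) (nat_lit 5832023983) (nat_lit 0) (nat_lit 506676808) (nat_lit 25) (nat_lit 5) (nat_lit 27) (nat_lit 4) (nat_lit 25) (nat_lit 4) (nat_lit 509) (nat_lit 331) (nat_lit 300)) (XT.lf (nat_lit 0) (nat_lit 1904587026) (nat_lit 152) (nat_lit 14541905554) (nat_lit 152) (nat_lit 2475690481) (nat_lit 23) (nat_lit 4) (nat_lit 25) (nat_lit 5) (nat_lit 25) (nat_lit 4) (nat_lit 510) (nat_lit 331) (nat_lit 299)))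 (XT.nd (nat_lit 78) (nat_lit 0) (nat_lit 0) (XT.lf (nat_lit 0) (nat_lit 1439278405) (nat_lit 228) (nat_lit 9426347645) (nat_lit 76) (nat_lit 8345582469) (nat_lit 22) (nat_lit 5) (nat_lit 25) (nat_lit 5) (nat_lit 23) (nat_lit 4) (nat_lit 511) (nat_lit 331) (nat_lit 298)) (XT.lf (nat_lit 0) (nat_lit 5354831567) (nat_lit 228) (nat_lit 1779160603) (nat_lit 76) (nat_lit 12372596765) (nat_lit 22) (nat_lit 5) (nat_lit 25) (nat_lit 5) (nat_lit 23) (nat_lit 4) (nat_lit 512) (nat_lit 331) (nat_lit 297))))) (XT.nd (nat_lit 234) (nat_lit 152) (nat_lit 0) (XT.nd (nat_lit 78) (nat_lit 152) (nat_lit 0) (XT.lf (nat_lit 0) (nat_lit 6022017655) (nat_lit 76) (nat_lit 3322054918) (nat_lit 152) (nat_lit 10463907071) (nat_lit 21) (nat_lit 5) (nat_lit 22) (nat_lit 5) (nat_lit 23) (nat_lit 4) (nat_lit 513) (nat_lit 331) (nat_lit 296)) (XT.nd (nat_lit 78) (nat_lit 152) (nat_lit 0) (XT.lf (nat_lit 0) (nat_lit 13385203600) (nat_lit 152)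 (nat_lit 6193653551) (nat_lit 0) (nat_lit 537108929) (nat_lit 21) (nat_lit 5) (nat_lit 23) (nat_lit 4) (nat_lit 21) (nat_lit 4) (nat_lit 514) (nat_lit 331) (nat_lit 295)) (XT.lf (nat_lit 0) (nat_lit 1471251382) (nat_lit 152) (nat_lit 16024724643) (nat_lit 152) (nat_lit 2934369667) (nat_lit 19) (nat_lit 4) (nat_lit 21) (nat_lit 5) (nat_lit 21) (nat_lit 4) (nat_lit 515) (nat_lit 331) (nat_lit 294)))) (XT.nd (nat_lit 156) (nat_lit 76) (nat_lit 0) (XT.nd (nat_lit 78) (nat_lit 0) (nat_lit 0) (XT.lf (nat_lit 0) (nat_lit 924807583) (nat_lit 228) (nat_lit 11459753759) (nat_lit 76) (nat_lit 8366356040) (nat_lit 18) (nat_lit 5) (nat_lit 21) (nat_lit 5) (nat_lit 19) (nat_lit 4) (nat_lit 516) (nat_lit 331) (nat_lit 293)) (XT.lf (nat_lit 0) (nat_lit 4780070813) (nat_lit 228) (nat_lit 3904975078) (nat_lit 76) (nat_lit 12393312076) (nat_lit 18) (nat_lit 5) (nat_lit 21) (nat_lit 5) (nat_lit 19) (nat_lit 4) (nat_lit 517) (nat_lit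 331) (nat_lit 292))) (XT.nd (nat_lit 78) (nat_lit 0) (nat_lit 0) (XT.lf (nat_lit 0) (nat_lit 3776789540) (nat_lit 76) (nat_lit 4919148557) (nat_lit 152) (nat_lit 12716748363) (nat_lit 17) (nat_lit 5) (nat_lit 18) (nat_lit 5) (nat_lit 19) (nat_lit 4) (nat_lit 518) (nat_lit 331) (nat_lit 291)) (XT.lf (nat_lit 0) (nat_lit 11591963998) (nat_lit 76) (nat_lit 1083669907) (nat_lit 152) (nat_lit 9078366291) (nat_lit 17) (nat_lit 5) (nat_lit 18) (nat_lit 5) (nat_lit 19) (nat_lit 4) (nat_lit 519) (nat_lit 331) (nat_lit 290))))))))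
noncomputable def xc14 : XT := (XT.nd (nat_lit 57096) (nat_lit 0) (nat_lit 608) (XT.nd (nat_lit 56004) (nat_lit 0) (nat_lit 2964) (XT.nd (nat_lit 546) (nat_lit 304) (nat_lit 0) (XT.nd (nat_lit 234) (nat_lit 76) (nat_lit 0) (XT.nd (nat_lit 78) (nat_lit 228) (nat_lit 0) (XT.lf (nat_lit 0) (nat_lit 16713186242) (nat_lit 152) (nat_lit 2629386795) (nat_lit 0) (nat_lit 2760010640) (nat_lit 17) (nat_lit 5) (nat_lit 19) (nat_lit 4) (nat_lit 17) (nat_lit 4) (nat_lit 520) (nat_lit 331) (nat_lit 289)) (XT.nd (nat_lit 78) (nat_lit 76) (nat_lit 0) (XT.lf (nat_lit 0) (nat_lit 5041959378) (nat_lit 152) (nat_lit 15790126922) (nat_lit 152) (nat_lit 1626049146) (nat_lit 15) (nat_lit 4) (nat_lit 17) (nat_lit 5) (nat_lit 17) (nat_lit 4) (nat_lit 521) (nat_lit 331) (nat_lit 288)) (XT.lf (nat_lit 0) (nat_lit 2162040627) (nat_lit 228) (nat_lit 10003522545) (nat_lit 76) (nat_lit 10655386132) (nat_lit 14) (nat_lit 5) (nat_lit 17) (nat_lit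 5) (nat_lit 15) (nat_lit 4) (nat_lit 522) (nat_lit 331) (nat_lit 287)))) (XT.nd (nat_lit 156) (nat_lit 0) (nat_lit 0) (XT.nd (nat_lit 78) (nat_lit 76) (nat_lit 0) (XT.lf (nat_lit 0) (nat_lit 5965641026) (nat_lit 228) (nat_lit 2522962325) (nat_lit 76) (nat_lit 14702978751) (nat_lit 14) (nat_lit 5) (nat_lit 17) (nat_lit 5) (nat_lit 15) (nat_lit 4) (nat_lit 523) (nat_lit 331) (nat_lit 286)) (XT.lf (nat_lit 0) (nat_lit 5105961130) (nat_lit 76) (nat_lit 4734759739) (nat_lit 152) (nat_lit 13729006436) (nat_lit 13) (nat_lit 5) (nat_lit 14) (nat_lit 5) (nat_lit 15) (nat_lit 4) (nat_lit 524) (nat_lit 331) (nat_lit 285))) (XT.nd (nat_lit 78) (nat_lit 0) (nat_lit 0) (XT.lf (nat_lit 0) (nat_lit 12853897682) (nat_lit 76) (nat_lit 918891287) (nat_lit 152) (nat_lit 10183064457) (nat_lit 13) (nat_lit 5) (nat_lit 14) (nat_lit 5) (nat_lit 15) (nat_lit 4) (nat_lit 525) (nat_lit 331) (nat_lit 284)) (XT.lf (nat_lit 0) (nat_lit 17765900472)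 (nat_lit 152) (nat_lit 3679198556) (nat_lit 0) (nat_lit 2904962595) (nat_lit 13) (nat_lit 5) (nat_lit 15) (nat_lit 4) (nat_lit 13) (nat_lit 4) (nat_lit 526) (nat_lit 331) (nat_lit 283))))) (XT.nd (nat_lit 234) (nat_lit 76) (nat_lit 0) (XT.nd (nat_lit 78) (nat_lit 76) (nat_lit 0) (XT.lf (nat_lit 0) (nat_lit 3871026186) (nat_lit 152) (nat_lit 17962887679) (nat_lit 152) (nat_lit 2918346767) (nat_lit 11) (nat_lit 4) (nat_lit 13) (nat_lit 5) (nat_lit 13) (nat_lit 4) (nat_lit 527) (nat_lit 331) (nat_lit 282)) (XT.nd (nat_lit 78) (nat_lit 0) (nat_lit 0) (XT.lf (nat_lit 0) (nat_lit 798733968) (nat_lit 228) (nat_lit 13611101270) (nat_lit 76) (nat_lit 10752794662) (nat_lit 10) (nat_lit 5) (nat_lit 13) (nat_lit 5) (nat_lit 11) (nat_lit 4) (nat_lit 528) (nat_lit 331) (nat_lit 281)) (XT.lf (nat_lit 0) (nat_lit 4515686700) (nat_lit 228) (nat_lit 6279330255) (nat_lit 76) (nat_lit 14786518666) (nat_lit 10) (nat_lit 5) (nat_lit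 13) (nat_lit 5) (nat_lit 11) (nat_lit 4) (nat_lit 529) (nat_lit 331) (nat_lit 280)))) (XT.nd (nat_lit 156) (nat_lit 0) (nat_lit 0) (XT.nd (nat_lit 78) (nat_lit 0) (nat_lit 0) (XT.lf (nat_lit 0) (nat_lit 1150997182) (nat_lit 76) (nat_lit 7128719557) (nat_lit 152) (nat_lit 17729654831) (nat_lit 9) (nat_lit 5) (nat_lit 10) (nat_lit 5) (nat_lit 11) (nat_lit 4) (nat_lit 530) (nat_lit 331) (nat_lit 279)) (XT.lf (nat_lit 0) (nat_lit 8752290231) (nat_lit 76) (nat_lit 3374413573) (nat_lit 152) (nat_lit 14318913647) (nat_lit 9) (nat_lit 5) (nat_lit 10) (nat_lit 5) (nat_lit 11) (nat_lit 4) (nat_lit 531) (nat_lit 331) (nat_lit 278))) (XT.nd (nat_lit 54990) (nat_lit 0) (nat_lit 5320) (XT.lf (nat_lit 0) (nat_lit 16019619034) (nat_lit 152) (nat_lit 10449963670) (nat_lit 0) (nat_lit 421632387) (nat_lit 9) (nat_lit 5) (nat_lit 11) (nat_lit 4) (nat_lit 9) (nat_lit 4) (nat_lit 532) (nat_lit 331) (nat_lit 277)) (XT.lf (nat_lit 0)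 (nat_lit 2951670615) (nat_lit 304) (nat_lit 80791074) (nat_lit 0) (nat_lit 2951670615) (nat_lit 79) (nat_lit 5) (nat_lit 83) (nat_lit 4) (nat_lit 79) (nat_lit 4) (nat_lit 476) (nat_lit 332) (nat_lit 332)))))) (XT.nd (nat_lit 546) (nat_lit 988) (nat_lit 0) (XT.nd (nat_lit 234) (nat_lit 760) (nat_lit 0) (XT.nd (nat_lit 78) (nat_lit 304) (nat_lit 0) (XT.lf (nat_lit 0) (nat_lit 7696410748) (nat_lit 304) (nat_lit 2513745012) (nat_lit 304) (nat_lit 1899289659) (nat_lit 75) (nat_lit 4) (nat_lit 79) (nat_lit 5) (nat_lit 79) (nat_lit 4) (nat_lit 477) (nat_lit 332) (nat_lit 331)) (XT.nd (nat_lit 78) (nat_lit 0) (nat_lit 0) (XT.lf (nat_lit 0) (nat_lit 2285913058) (nat_lit 304) (nat_lit 8875003624) (nat_lit 0) (nat_lit 1092910546) (nat_lit 71) (nat_lit 5) (nat_lit 75) (nat_lit 4) (nat_lit 71) (nat_lit 4) (nat_lit 478) (nat_lit 332) (nat_lit 330)) (XT.lf (nat_lit 0) (nat_lit 6512987894) (nat_lit 304) (nat_lit 1147238802)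 (nat_lit 0) (nat_lit 4740970379) (nat_lit 71) (nat_lit 5) (nat_lit 75) (nat_lit 4) (nat_lit 71) (nat_lit 4) (nat_lit 479) (nat_lit 332) (nat_lit 329)))) (XT.nd (nat_lit 156) (nat_lit 228) (nat_lit 0) (XT.nd (nat_lit 78) (nat_lit 304) (nat_lit 0) (XT.lf (nat_lit 0) (nat_lit 6721617139) (nat_lit 228) (nat_lit 4084979811) (nat_lit 228) (nat_lit 1745300529) (nat_lit 68) (nat_lit 4) (nat_lit 71) (nat_lit 5) (nat_lit 71) (nat_lit 4) (nat_lit 480) (nat_lit 332) (nat_lit 328)) (XT.lf (nat_lit 0) (nat_lit 1965778563) (nat_lit 228) (nat_lit 441146679) (nat_lit 304) (nat_lit 10299206860) (nat_lit 64) (nat_lit 5) (nat_lit 67) (nat_lit 5) (nat_lit 68) (nat_lit 4) (nat_lit 481) (nat_lit 332) (nat_lit 327))) (XT.nd (nat_lit 78) (nat_lit 228) (nat_lit 0) (XT.lf (nat_lit 0) (nat_lit 6618265387) (nat_lit 304) (nat_lit 3001065164) (nat_lit 0) (nat_lit 3243923037) (nat_lit 64) (nat_lit 5) (nat_lit 68) (nat_lit 4) (nat_lit 64) (nat_lit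 4) (nat_lit 482) (nat_lit 332) (nat_lit 326)) (XT.lf (nat_lit 0) (nat_lit 4853644535) (nat_lit 228) (nat_lit 6034590132) (nat_lit 228) (nat_lit 2135816054) (nat_lit 61) (nat_lit 4) (nat_lit 64) (nat_lit 5) (nat_lit 64) (nat_lit 4) (nat_lit 483) (nat_lit 332) (nat_lit 325))))) (XT.nd (nat_lit 234) (nat_lit 456) (nat_lit 0) (XT.nd (nat_lit 78) (nat_lit 456) (nat_lit 0) (XT.lf (nat_lit 0) (nat_lit 1988937462) (nat_lit 304) (nat_lit 395269154) (nat_lit 76) (nat_lit 10804403565) (nat_lit 60) (nat_lit 5) (nat_lit 64) (nat_lit 5) (nat_lit 61) (nat_lit 4) (nat_lit 484) (nat_lit 332) (nat_lit 324)) (XT.nd (nat_lit 78) (nat_lit 228) (nat_lit 0) (XT.lf (nat_lit 0) (nat_lit 6166563881) (nat_lit 304) (nat_lit 5843669884) (nat_lit 0) (nat_lit 1345985220) (nat_lit 57) (nat_lit 5) (nat_lit 61) (nat_lit 4) (nat_lit 57) (nat_lit 4) (nat_lit 485) (nat_lit 332) (nat_lit 323)) (XT.lf (nat_lit 0) (nat_lit 1968187758) (nat_lit 228)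 (nat_lit 8432314586) (nat_lit 228) (nat_lit 3127242073) (nat_lit 54) (nat_lit 4) (nat_lit 57) (nat_lit 5) (nat_lit 57) (nat_lit 4) (nat_lit 486) (nat_lit 332) (nat_lit 322)))) (XT.nd (nat_lit 156) (nat_lit 228) (nat_lit 0) (XT.nd (nat_lit 78) (nat_lit 152) (nat_lit 0) (XT.lf (nat_lit 0) (nat_lit 984191703) (nat_lit 304) (nat_lit 3791999245) (nat_lit 76) (nat_lit 8926774246) (nat_lit 53) (nat_lit 5) (nat_lit 57) (nat_lit 5) (nat_lit 54) (nat_lit 4) (nat_lit 487) (nat_lit 332) (nat_lit 321)) (XT.lf (nat_lit 0) (nat_lit 4066751716) (nat_lit 152) (nat_lit 1038445595) (nat_lit 228) (nat_lit 8776713826) (nat_lit 51) (nat_lit 5) (nat_lit 53) (nat_lit 5) (nat_lit 54) (nat_lit 4) (nat_lit 488) (nat_lit 332) (nat_lit 320))) (XT.nd (nat_lit 78) (nat_lit 228) (nat_lit 0) (XT.lf (nat_lit 0) (nat_lit 9295264502) (nat_lit 228) (nat_lit 2045070970) (nat_lit 0) (nat_lit 2724385844) (nat_lit 51) (nat_lit 5) (nat_lit 54) (nat_lit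 4) (nat_lit 51) (nat_lit 4) (nat_lit 489) (nat_lit 332) (nat_lit 319)) (XT.lf (nat_lit 0) (nat_lit 5855193232) (nat_lit 228) (nat_lit 7702965705) (nat_lit 228) (nat_lit 693266037) (nat_lit 48) (nat_lit 4) (nat_lit 51) (nat_lit 5) (nat_lit 51) (nat_lit 4) (nat_lit 490) (nat_lit 332) (nat_lit 318))))))) (XT.nd (nat_lit 1092) (nat_lit 912) (nat_lit 0) (XT.nd (nat_lit 546) (nat_lit 608) (nat_lit 0) (XT.nd (nat_lit 234) (nat_lit 380) (nat_lit 0) (XT.nd (nat_lit 78) (nat_lit 380) (nat_lit 0) (XT.lf (nat_lit 0) (nat_lit 3377056830) (nat_lit 304) (nat_lit 618261546) (nat_lit 76) (nat_lit 10446950657) (nat_lit 47) (nat_lit 5) (nat_lit 51) (nat_lit 5) (nat_lit 48) (nat_lit 4) (nat_lit 491) (nat_lit 332) (nat_lit 317)) (XT.nd (nat_lit 78) (nat_lit 228) (nat_lit 0) (XT.lf (nat_lit 0) (nat_lit 7313185610) (nat_lit 152) (nat_lit 199132711) (nat_lit 228) (nat_lit 7124680469) (nat_lit 45) (nat_lit 5) (nat_lit 47) (nat_lit 5)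 (nat_lit 48) (nat_lit 4) (nat_lit 492) (nat_lit 332) (nat_lit 316)) (XT.lf (nat_lit 0) (nat_lit 464681183) (nat_lit 228) (nat_lit 11242187982) (nat_lit 228) (nat_lit 3129238730) (nat_lit 42) (nat_lit 4) (nat_lit 45) (nat_lit 5) (nat_lit 45) (nat_lit 4) (nat_lit 493) (nat_lit 332) (nat_lit 315)))) (XT.nd (nat_lit 156) (nat_lit 152) (nat_lit 0) (XT.nd (nat_lit 78) (nat_lit 152) (nat_lit 0) (XT.lf (nat_lit 0) (nat_lit 930127988) (nat_lit 304) (nat_lit 6631544424) (nat_lit 76) (nat_lit 7477491223) (nat_lit 41) (nat_lit 5) (nat_lit 45) (nat_lit 5) (nat_lit 42) (nat_lit 4) (nat_lit 494) (nat_lit 332) (nat_lit 314)) (XT.lf (nat_lit 0) (nat_lit 1165777136) (nat_lit 152) (nat_lit 3817312267) (nat_lit 228) (nat_lit 10263706732) (nat_lit 39) (nat_lit 5) (nat_lit 41) (nat_lit 5) (nat_lit 42) (nat_lit 4) (nat_lit 495) (nat_lit 332) (nat_lit 313))) (XT.nd (nat_lit 78) (nat_lit 152) (nat_lit 0) (XT.lf (nat_lit 0) (nat_lit 9108820591)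 (nat_lit 228) (nat_lit 6341202994) (nat_lit 0) (nat_lit 8738674) (nat_lit 39) (nat_lit 5) (nat_lit 42) (nat_lit 4) (nat_lit 39) (nat_lit 4) (nat_lit 496) (nat_lit 332) (nat_lit 312)) (XT.lf (nat_lit 0) (nat_lit 1456901429) (nat_lit 152) (nat_lit 11842847610) (nat_lit 152) (nat_lit 2375579902) (nat_lit 37) (nat_lit 4) (nat_lit 39) (nat_lit 5) (nat_lit 39) (nat_lit 4) (nat_lit 497) (nat_lit 332) (nat_lit 311))))) (XT.nd (nat_lit 234) (nat_lit 380) (nat_lit 0) (XT.nd (nat_lit 78) (nat_lit 152) (nat_lit 0) (XT.lf (nat_lit 0) (nat_lit 1647117979) (nat_lit 228) (nat_lit 6500075457) (nat_lit 76) (nat_lit 7749012708) (nat_lit 36) (nat_lit 5) (nat_lit 39) (nat_lit 5) (nat_lit 37) (nat_lit 4) (nat_lit 498) (nat_lit 332) (nat_lit 310)) (XT.nd (nat_lit 78) (nat_lit 0) (nat_lit 0) (XT.lf (nat_lit 0) (nat_lit 1285093069) (nat_lit 152) (nat_lit 4390785329) (nat_lit 228) (nat_lit 10446174118) (nat_lit 34) (nat_lit 5) (nat_lit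 36) (nat_lit 5) (nat_lit 37) (nat_lit 4) (nat_lit 499) (nat_lit 332) (nat_lit 309)) (XT.lf (nat_lit 0) (nat_lit 9225986091) (nat_lit 152) (nat_lit 552318244) (nat_lit 228) (nat_lit 6574263428) (nat_lit 34) (nat_lit 5) (nat_lit 36) (nat_lit 5) (nat_lit 37) (nat_lit 4) (nat_lit 500) (nat_lit 332) (nat_lit 308)))) (XT.nd (nat_lit 156) (nat_lit 152) (nat_lit 0) (XT.nd (nat_lit 78) (nat_lit 76) (nat_lit 0) (XT.lf (nat_lit 0) (nat_lit 637401977) (nat_lit 152) (nat_lit 13301572600) (nat_lit 152) (nat_lit 2649208306) (nat_lit 32) (nat_lit 4) (nat_lit 34) (nat_lit 5) (nat_lit 34) (nat_lit 4) (nat_lit 501) (nat_lit 332) (nat_lit 307)) (XT.lf (nat_lit 0) (nat_lit 1338680116) (nat_lit 228) (nat_lit 8274280932) (nat_lit 76) (nat_lit 7215344457) (nat_lit 31) (nat_lit 5) (nat_lit 34) (nat_lit 5) (nat_lit 32) (nat_lit 4) (nat_lit 502) (nat_lit 332) (nat_lit 306))) (XT.nd (nat_lit 78) (nat_lit 152) (nat_lit 0) (XT.lf (nat_lit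 0) (nat_lit 5322158288) (nat_lit 228) (nat_lit 547312352) (nat_lit 76) (nat_lit 11204396323) (nat_lit 31) (nat_lit 5) (nat_lit 34) (nat_lit 5) (nat_lit 32) (nat_lit 4) (nat_lit 503) (nat_lit 332) (nat_lit 305)) (XT.lf (nat_lit 0) (nat_lit 7346708841) (nat_lit 152) (nat_lit 2038524066) (nat_lit 228) (nat_lit 7939120663) (nat_lit 29) (nat_lit 5) (nat_lit 31) (nat_lit 5) (nat_lit 32) (nat_lit 4) (nat_lit 504) (nat_lit 332) (nat_lit 304)))))) (XT.nd (nat_lit 546) (nat_lit 380) (nat_lit 0) (XT.nd (nat_lit 234) (nat_lit 304) (nat_lit 0) (XT.nd (nat_lit 78) (nat_lit 228) (nat_lit 0) (XT.lf (nat_lit 0) (nat_lit 13497791124) (nat_lit 228) (nat_lit 2269921583) (nat_lit 0) (nat_lit 1812784972) (nat_lit 29) (nat_lit 5) (nat_lit 32) (nat_lit 4) (nat_lit 29) (nat_lit 4) (nat_lit 505) (nat_lit 332) (nat_lit 303)) (XT.nd (nat_lit 78) (nat_lit 76) (nat_lit 0) (XT.lf (nat_lit 0) (nat_lit 5569128167) (nat_lit 152) (nat_lit 12126454474)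 (nat_lit 152) (nat_lit 146134361) (nat_lit 27) (nat_lit 4) (nat_lit 29) (nat_lit 5) (nat_lit 29) (nat_lit 4) (nat_lit 506) (nat_lit 332) (nat_lit 302)) (XT.lf (nat_lit 0) (nat_lit 3787146971) (nat_lit 228) (nat_lit 4619806719) (nat_lit 76) (nat_lit 9701341653) (nat_lit 26) (nat_lit 5) (nat_lit 29) (nat_lit 5) (nat_lit 27) (nat_lit 4) (nat_lit 507) (nat_lit 332) (nat_lit 301)))) (XT.nd (nat_lit 156) (nat_lit 228) (nat_lit 0) (XT.nd (nat_lit 78) (nat_lit 0) (nat_lit 0) (XT.lf (nat_lit 0) (nat_lit 3145476692) (nat_lit 76) (nat_lit 4626388086) (nat_lit 152) (nat_lit 10608837887) (nat_lit 25) (nat_lit 5) (nat_lit 26) (nat_lit 5) (nat_lit 27) (nat_lit 4) (nat_lit 508) (nat_lit 332) (nat_lit 300)) (XT.lf (nat_lit 0) (nat_lit 11048380250) (nat_lit 76) (nat_lit 773575864) (nat_lit 152) (nat_lit 6836899498) (nat_lit 25) (nat_lit 5) (nat_lit 26) (nat_lit 5) (nat_lit 27) (nat_lit 4) (nat_lit 509) (nat_lit 332) (nat_lit 299)))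 (XT.nd (nat_lit 78) (nat_lit 76) (nat_lit 0) (XT.lf (nat_lit 0) (nat_lit 67755781) (nat_lit 152) (nat_lit 15861569964) (nat_lit 152) (nat_lit 3013731187) (nat_lit 23) (nat_lit 4) (nat_lit 25) (nat_lit 5) (nat_lit 25) (nat_lit 4) (nat_lit 510) (nat_lit 332) (nat_lit 298)) (XT.lf (nat_lit 0) (nat_lit 886216678) (nat_lit 228) (nat_lit 11319911430) (nat_lit 76) (nat_lit 7026470857) (nat_lit 22) (nat_lit 5) (nat_lit 25) (nat_lit 5) (nat_lit 23) (nat_lit 4) (nat_lit 511) (nat_lit 332) (nat_lit 297))))) (XT.nd (nat_lit 234) (nat_lit 304) (nat_lit 0) (XT.nd (nat_lit 78) (nat_lit 76) (nat_lit 0) (XT.lf (nat_lit 0) (nat_lit 4780125211) (nat_lit 228) (nat_lit 3711304769) (nat_lit 76) (nat_lit 11036987354) (nat_lit 22) (nat_lit 5) (nat_lit 25) (nat_lit 5) (nat_lit 23) (nat_lit 4) (nat_lit 512) (nat_lit 332) (nat_lit 296)) (XT.nd (nat_lit 78) (nat_lit 0) (nat_lit 0) (XT.lf (nat_lit 0) (nat_lit 4025869747) (nat_lit 76) (nat_lit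 4709315927) (nat_lit 152) (nat_lit 11095310937) (nat_lit 21) (nat_lit 5) (nat_lit 22) (nat_lit 5) (nat_lit 23) (nat_lit 4) (nat_lit 513) (nat_lit 332) (nat_lit 295)) (XT.lf (nat_lit 0) (nat_lit 11892193845) (nat_lit 76) (nat_lit 859541141) (nat_lit 152) (nat_lit 7387244560) (nat_lit 21) (nat_lit 5) (nat_lit 22) (nat_lit 5) (nat_lit 23) (nat_lit 4) (nat_lit 514) (nat_lit 332) (nat_lit 294)))) (XT.nd (nat_lit 156) (nat_lit 76) (nat_lit 0) (XT.nd (nat_lit 78) (nat_lit 228) (nat_lit 0) (XT.lf (nat_lit 0) (nat_lit 16826633764) (nat_lit 152) (nat_lit 632746353) (nat_lit 0) (nat_lit 2994701281) (nat_lit 21) (nat_lit 5) (nat_lit 23) (nat_lit 4) (nat_lit 21) (nat_lit 4) (nat_lit 515) (nat_lit 332) (nat_lit 293)) (XT.lf (nat_lit 0) (nat_lit 215914686) (nat_lit 228) (nat_lit 13628637858) (nat_lit 76) (nat_lit 6930693221) (nat_lit 18) (nat_lit 5) (nat_lit 21) (nat_lit 5) (nat_lit 19) (nat_lit 4) (nat_lit 516) (nat_lit 332)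 (nat_lit 292))) (XT.nd (nat_lit 78) (nat_lit 76) (nat_lit 0) (XT.lf (nat_lit 0) (nat_lit 4050869682) (nat_lit 228) (nat_lit 6110316063) (nat_lit 76) (nat_lit 10941911261) (nat_lit 18) (nat_lit 5) (nat_lit 21) (nat_lit 5) (nat_lit 19) (nat_lit 4) (nat_lit 517) (nat_lit 332) (nat_lit 291)) (XT.lf (nat_lit 0) (nat_lit 1505923696) (nat_lit 76) (nat_lit 6426159270) (nat_lit 152) (nat_lit 13506040018) (nat_lit 17) (nat_lit 5) (nat_lit 18) (nat_lit 5) (nat_lit 19) (nat_lit 4) (nat_lit 518) (nat_lit 332) (nat_lit 290))))))))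
noncomputable def xc15 : XT := (XT.nd (nat_lit 56940) (nat_lit 0) (nat_lit 760) (XT.nd (nat_lit 55848) (nat_lit 0) (nat_lit 3344) (XT.nd (nat_lit 546) (nat_lit 304) (nat_lit 0) (XT.nd (nat_lit 234) (nat_lit 152) (nat_lit 0) (XT.nd (nat_lit 78) (nat_lit 152) (nat_lit 0) (XT.lf (nat_lit 0) (nat_lit 9285591253) (nat_lit 76) (nat_lit 2606437346) (nat_lit 152) (nat_lit 9887807442) (nat_lit 17) (nat_lit 5) (nat_lit 18) (nat_lit 5) (nat_lit 19) (nat_lit 4) (nat_lit 519) (nat_lit 332) (nat_lit 289)) (XT.nd (nat_lit 78) (nat_lit 152) (nat_lit 0) (XT.lf (nat_lit 0) (nat_lit 15900230906) (nat_lit 152) (nat_lit 4986810449) (nat_lit 0) (nat_lit 1241969400) (nat_lit 17) (nat_lit 5) (nat_lit 19) (nat_lit 4) (nat_lit 17) (nat_lit 4) (nat_lit 520) (nat_lit 332) (nat_lit 288)) (XT.lf (nat_lit 0) (nat_lit 2618335856) (nat_lit 152) (nat_lit 17365977754) (nat_lit 152) (nat_lit 2500949411) (nat_lit 15) (nat_lit 4) (nat_lit 17) (nat_lit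 5) (nat_lit 17) (nat_lit 4) (nat_lit 521) (nat_lit 332) (nat_lit 287)))) (XT.nd (nat_lit 156) (nat_lit 76) (nat_lit 0) (XT.nd (nat_lit 78) (nat_lit 0) (nat_lit 0) (XT.lf (nat_lit 0) (nat_lit 1279556062) (nat_lit 228) (nat_lit 12483037683) (nat_lit 76) (nat_lit 9085981908) (nat_lit 14) (nat_lit 5) (nat_lit 17) (nat_lit 5) (nat_lit 15) (nat_lit 4) (nat_lit 522) (nat_lit 332) (nat_lit 286)) (XT.lf (nat_lit 0) (nat_lit 5064471387) (nat_lit 228) (nat_lit 5036246555) (nat_lit 76) (nat_lit 13118868120) (nat_lit 14) (nat_lit 5) (nat_lit 17) (nat_lit 5) (nat_lit 15) (nat_lit 4) (nat_lit 523) (nat_lit 332) (nat_lit 285))) (XT.nd (nat_lit 78) (nat_lit 0) (nat_lit 0) (XT.lf (nat_lit 0) (nat_lit 2525729749) (nat_lit 76) (nat_lit 6378750209) (nat_lit 152) (nat_lit 14693956569) (nat_lit 13) (nat_lit 5) (nat_lit 14) (nat_lit 5) (nat_lit 15) (nat_lit 4) (nat_lit 524) (nat_lit 332) (nat_lit 284)) (XT.lf (nat_lit 0) (nat_lit 10240777157)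 (nat_lit 76) (nat_lit 2577597853) (nat_lit 152) (nat_lit 11166554857) (nat_lit 13) (nat_lit 5) (nat_lit 14) (nat_lit 5) (nat_lit 15) (nat_lit 4) (nat_lit 525) (nat_lit 332) (nat_lit 283))))) (XT.nd (nat_lit 234) (nat_lit 152) (nat_lit 0) (XT.nd (nat_lit 78) (nat_lit 152) (nat_lit 0) (XT.lf (nat_lit 0) (nat_lit 16782806702) (nat_lit 152) (nat_lit 6343136703) (nat_lit 0) (nat_lit 1253771938) (nat_lit 13) (nat_lit 5) (nat_lit 15) (nat_lit 4) (nat_lit 13) (nat_lit 4) (nat_lit 526) (nat_lit 332) (nat_lit 282)) (XT.nd (nat_lit 78) (nat_lit 0) (nat_lit 0) (XT.lf (nat_lit 0) (nat_lit 1139388983) (nat_lit 152) (nat_lit 19676136309) (nat_lit 152) (nat_lit 3967098570) (nat_lit 11) (nat_lit 4) (nat_lit 13) (nat_lit 5) (nat_lit 13) (nat_lit 4) (nat_lit 527) (nat_lit 332) (nat_lit 281)) (XT.lf (nat_lit 0) (nat_lit 8793587902) (nat_lit 152) (nat_lit 16142686761) (nat_lit 152) (nat_lit 257175517) (nat_lit 11) (nat_lit 4) (nat_lit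 13) (nat_lit 5) (nat_lit 13) (nat_lit 4) (nat_lit 528) (nat_lit 332) (nat_lit 280)))) (XT.nd (nat_lit 156) (nat_lit 76) (nat_lit 0) (XT.nd (nat_lit 78) (nat_lit 0) (nat_lit 0) (XT.lf (nat_lit 0) (nat_lit 3445954680) (nat_lit 228) (nat_lit 9097696030) (nat_lit 76) (nat_lit 13069085899) (nat_lit 10) (nat_lit 5) (nat_lit 13) (nat_lit 5) (nat_lit 11) (nat_lit 4) (nat_lit 529) (nat_lit 332) (nat_lit 279)) (XT.lf (nat_lit 0) (nat_lit 7185653408) (nat_lit 228) (nat_lit 1713125422) (nat_lit 76) (nat_lit 17142283691) (nat_lit 10) (nat_lit 5) (nat_lit 13) (nat_lit 5) (nat_lit 11) (nat_lit 4) (nat_lit 530) (nat_lit 332) (nat_lit 278))) (XT.nd (nat_lit 78) (nat_lit 0) (nat_lit 0) (XT.lf (nat_lit 0) (nat_lit 5834941514) (nat_lit 76) (nat_lit 5169702914) (nat_lit 152) (nat_lit 15473227167) (nat_lit 9) (nat_lit 5) (nat_lit 10) (nat_lit 5) (nat_lit 11) (nat_lit 4) (nat_lit 531) (nat_lit 332) (nat_lit 277)) (XT.lf (nat_lit 0)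 (nat_lit 13496869750) (nat_lit 76) (nat_lit 1381518479) (nat_lit 152) (nat_lit 12045467644) (nat_lit 9) (nat_lit 5) (nat_lit 10) (nat_lit 5) (nat_lit 11) (nat_lit 4) (nat_lit 532) (nat_lit 332) (nat_lit 276)))))) (XT.nd (nat_lit 546) (nat_lit 1140) (nat_lit 0) (XT.nd (nat_lit 234) (nat_lit 836) (nat_lit 0) (XT.nd (nat_lit 78) (nat_lit 304) (nat_lit 0) (XT.lf (nat_lit 0) (nat_lit 3970465741) (nat_lit 304) (nat_lit 938361003) (nat_lit 304) (nat_lit 938361003) (nat_lit 83) (nat_lit 4) (nat_lit 87) (nat_lit 5) (nat_lit 87) (nat_lit 4) (nat_lit 474) (nat_lit 333) (nat_lit 333)) (XT.nd (nat_lit 78) (nat_lit 0) (nat_lit 0) (XT.lf (nat_lit 0) (nat_lit 2294619410) (nat_lit 304) (nat_lit 7867644097) (nat_lit 0) (nat_lit 1667874950) (nat_lit 79) (nat_lit 5) (nat_lit 83) (nat_lit 4) (nat_lit 79) (nat_lit 4) (nat_lit 475) (nat_lit 333) (nat_lit 332)) (XT.lf (nat_lit 0) (nat_lit 6498733572) (nat_lit 304) (nat_lit 212636654)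 (nat_lit 0) (nat_lit 5257533758) (nat_lit 79) (nat_lit 5) (nat_lit 83) (nat_lit 4) (nat_lit 79) (nat_lit 4) (nat_lit 476) (nat_lit 333) (nat_lit 331)))) (XT.nd (nat_lit 156) (nat_lit 228) (nat_lit 0) (XT.nd (nat_lit 78) (nat_lit 304) (nat_lit 0) (XT.lf (nat_lit 0) (nat_lit 7593959135) (nat_lit 304) (nat_lit 3180186412) (nat_lit 304) (nat_lit 1336579389) (nat_lit 75) (nat_lit 4) (nat_lit 79) (nat_lit 5) (nat_lit 79) (nat_lit 4) (nat_lit 477) (nat_lit 333) (nat_lit 330)) (XT.lf (nat_lit 0) (nat_lit 2805099914) (nat_lit 304) (nat_lit 9032041206) (nat_lit 0) (nat_lit 418627046) (nat_lit 71) (nat_lit 5) (nat_lit 75) (nat_lit 4) (nat_lit 71) (nat_lit 4) (nat_lit 478) (nat_lit 333) (nat_lit 329))) (XT.nd (nat_lit 78) (nat_lit 228) (nat_lit 0) (XT.lf (nat_lit 0) (nat_lit 7001655704) (nat_lit 304) (nat_lit 1354583015) (nat_lit 0) (nat_lit 4047521068) (nat_lit 71) (nat_lit 5) (nat_lit 75) (nat_lit 4) (nat_lit 71) (nat_lit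 4) (nat_lit 479) (nat_lit 333) (nat_lit 328)) (XT.lf (nat_lit 0) (nat_lit 6461541764) (nat_lit 228) (nat_lit 4802113781) (nat_lit 228) (nat_lit 1291448000) (nat_lit 68) (nat_lit 4) (nat_lit 71) (nat_lit 5) (nat_lit 71) (nat_lit 4) (nat_lit 480) (nat_lit 333) (nat_lit 327))))) (XT.nd (nat_lit 234) (nat_lit 608) (nat_lit 0) (XT.nd (nat_lit 78) (nat_lit 228) (nat_lit 0) (XT.lf (nat_lit 0) (nat_lit 1645952532) (nat_lit 228) (nat_lit 1176937112) (nat_lit 304) (nat_lit 9887039043) (nat_lit 64) (nat_lit 5) (nat_lit 67) (nat_lit 5) (nat_lit 68) (nat_lit 4) (nat_lit 481) (nat_lit 333) (nat_lit 326)) (XT.nd (nat_lit 78) (nat_lit 228) (nat_lit 0) (XT.lf (nat_lit 0) (nat_lit 6999733615) (nat_lit 304) (nat_lit 3369464680) (nat_lit 0) (nat_lit 2498552328) (nat_lit 64) (nat_lit 5) (nat_lit 68) (nat_lit 4) (nat_lit 64) (nat_lit 4) (nat_lit 482) (nat_lit 333) (nat_lit 325)) (XT.lf (nat_lit 0) (nat_lit 4431121058) (nat_lit 228)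 (nat_lit 6806702323) (nat_lit 228) (nat_lit 1791372285) (nat_lit 61) (nat_lit 4) (nat_lit 64) (nat_lit 5) (nat_lit 64) (nat_lit 4) (nat_lit 483) (nat_lit 333) (nat_lit 324)))) (XT.nd (nat_lit 156) (nat_lit 304) (nat_lit 0) (XT.nd (nat_lit 78) (nat_lit 228) (nat_lit 0) (XT.lf (nat_lit 0) (nat_lit 2299784292) (nat_lit 304) (nat_lit 873833172) (nat_lit 76) (nat_lit 10020684445) (nat_lit 60) (nat_lit 5) (nat_lit 64) (nat_lit 5) (nat_lit 61) (nat_lit 4) (nat_lit 484) (nat_lit 333) (nat_lit 323)) (XT.lf (nat_lit 0) (nat_lit 6440166162) (nat_lit 304) (nat_lit 6378000820) (nat_lit 0) (nat_lit 544498345) (nat_lit 57) (nat_lit 5) (nat_lit 61) (nat_lit 4) (nat_lit 57) (nat_lit 4) (nat_lit 485) (nat_lit 333) (nat_lit 322))) (XT.nd (nat_lit 78) (nat_lit 76) (nat_lit 0) (XT.lf (nat_lit 0) (nat_lit 1378278298) (nat_lit 228) (nat_lit 9263614016) (nat_lit 228) (nat_lit 2892952226) (nat_lit 54) (nat_lit 4) (nat_lit 57) (nat_lit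 5) (nat_lit 57) (nat_lit 4) (nat_lit 486) (nat_lit 333) (nat_lit 321)) (XT.lf (nat_lit 0) (nat_lit 1187078963) (nat_lit 304) (nat_lit 4438442650) (nat_lit 76) (nat_lit 8085089041) (nat_lit 53) (nat_lit 5) (nat_lit 57) (nat_lit 5) (nat_lit 54) (nat_lit 4) (nat_lit 487) (nat_lit 333) (nat_lit 320))))))) (XT.nd (nat_lit 1092) (nat_lit 1140) (nat_lit 0) (XT.nd (nat_lit 546) (nat_lit 532) (nat_lit 0) (XT.nd (nat_lit 234) (nat_lit 532) (nat_lit 0) (XT.nd (nat_lit 78) (nat_lit 228) (nat_lit 0) (XT.lf (nat_lit 0) (nat_lit 3364119975) (nat_lit 152) (nat_lit 1911628296) (nat_lit 228) (nat_lit 8614464035) (nat_lit 51) (nat_lit 5) (nat_lit 53) (nat_lit 5) (nat_lit 54) (nat_lit 4) (nat_lit 488) (nat_lit 333) (nat_lit 319)) (XT.nd (nat_lit 78) (nat_lit 228) (nat_lit 0) (XT.lf (nat_lit 0) (nat_lit 9432489241) (nat_lit 228) (nat_lit 2797434008) (nat_lit 0) (nat_lit 1843774570) (nat_lit 51) (nat_lit 5) (nat_lit 54) (nat_lit 4)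 (nat_lit 51) (nat_lit 4) (nat_lit 489) (nat_lit 333) (nat_lit 318)) (XT.lf (nat_lit 0) (nat_lit 5046042142) (nat_lit 228) (nat_lit 8616973340) (nat_lit 228) (nat_lit 598041993) (nat_lit 48) (nat_lit 4) (nat_lit 51) (nat_lit 5) (nat_lit 51) (nat_lit 4) (nat_lit 490) (nat_lit 333) (nat_lit 317)))) (XT.nd (nat_lit 156) (nat_lit 304) (nat_lit 0) (XT.nd (nat_lit 78) (nat_lit 152) (nat_lit 0) (XT.lf (nat_lit 0) (nat_lit 3443964800) (nat_lit 304) (nat_lit 1483903505) (nat_lit 76) (nat_lit 9524570508) (nat_lit 47) (nat_lit 5) (nat_lit 51) (nat_lit 5) (nat_lit 48) (nat_lit 4) (nat_lit 491) (nat_lit 333) (nat_lit 316)) (XT.lf (nat_lit 0) (nat_lit 6390103825) (nat_lit 152) (nat_lit 1156592741) (nat_lit 228) (nat_lit 7101130734) (nat_lit 45) (nat_lit 5) (nat_lit 47) (nat_lit 5) (nat_lit 48) (nat_lit 4) (nat_lit 492) (nat_lit 333) (nat_lit 315))) (XT.nd (nat_lit 78) (nat_lit 304) (nat_lit 0) (XT.lf (nat_lit 0) (nat_lit 11705583801)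 (nat_lit 228) (nat_lit 514554781) (nat_lit 0) (nat_lit 2627519073) (nat_lit 45) (nat_lit 5) (nat_lit 48) (nat_lit 4) (nat_lit 45) (nat_lit 4) (nat_lit 493) (nat_lit 333) (nat_lit 314)) (XT.lf (nat_lit 0) (nat_lit 887667265) (nat_lit 304) (nat_lit 7674637350) (nat_lit 76) (nat_lit 6489013993) (nat_lit 41) (nat_lit 5) (nat_lit 45) (nat_lit 5) (nat_lit 42) (nat_lit 4) (nat_lit 494) (nat_lit 333) (nat_lit 313))))) (XT.nd (nat_lit 234) (nat_lit 228) (nat_lit 0) (XT.nd (nat_lit 78) (nat_lit 152) (nat_lit 0) (XT.lf (nat_lit 0) (nat_lit 63614355) (nat_lit 152) (nat_lit 4843989445) (nat_lit 228) (nat_lit 10352015323) (nat_lit 39) (nat_lit 5) (nat_lit 41) (nat_lit 5) (nat_lit 42) (nat_lit 4) (nat_lit 495) (nat_lit 333) (nat_lit 312)) (XT.nd (nat_lit 78) (nat_lit 152) (nat_lit 0) (XT.lf (nat_lit 0) (nat_lit 7971133853) (nat_lit 152) (nat_lit 1036494207) (nat_lit 228) (nat_lit 6464478697) (nat_lit 39) (nat_lit 5) (nat_lit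 41) (nat_lit 5) (nat_lit 42) (nat_lit 4) (nat_lit 496) (nat_lit 333) (nat_lit 311)) (XT.lf (nat_lit 0) (nat_lit 244111639) (nat_lit 152) (nat_lit 12914575665) (nat_lit 152) (nat_lit 2530790744) (nat_lit 37) (nat_lit 4) (nat_lit 39) (nat_lit 5) (nat_lit 39) (nat_lit 4) (nat_lit 497) (nat_lit 333) (nat_lit 310)))) (XT.nd (nat_lit 156) (nat_lit 152) (nat_lit 0) (XT.nd (nat_lit 78) (nat_lit 0) (nat_lit 0) (XT.lf (nat_lit 0) (nat_lit 1468717104) (nat_lit 228) (nat_lit 7769903889) (nat_lit 76) (nat_lit 6672265871) (nat_lit 36) (nat_lit 5) (nat_lit 39) (nat_lit 5) (nat_lit 37) (nat_lit 4) (nat_lit 498) (nat_lit 333) (nat_lit 309)) (XT.lf (nat_lit 0) (nat_lit 5464402814) (nat_lit 228) (nat_lit 44626126) (nat_lit 76) (nat_lit 10628372599) (nat_lit 36) (nat_lit 5) (nat_lit 39) (nat_lit 5) (nat_lit 37) (nat_lit 4) (nat_lit 499) (nat_lit 333) (nat_lit 308))) (XT.nd (nat_lit 78) (nat_lit 0) (nat_lit 0) (XT.lf (nat_lit 0)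 (nat_lit 7852920436) (nat_lit 152) (nat_lit 1689091029) (nat_lit 228) (nat_lit 6826408342) (nat_lit 34) (nat_lit 5) (nat_lit 36) (nat_lit 5) (nat_lit 37) (nat_lit 4) (nat_lit 500) (nat_lit 333) (nat_lit 307)) (XT.lf (nat_lit 0) (nat_lit 13667003713) (nat_lit 228) (nat_lit 794781142) (nat_lit 0) (nat_lit 2142970176) (nat_lit 34) (nat_lit 5) (nat_lit 37) (nat_lit 4) (nat_lit 34) (nat_lit 4) (nat_lit 501) (nat_lit 333) (nat_lit 306)))))) (XT.nd (nat_lit 546) (nat_lit 456) (nat_lit 0) (XT.nd (nat_lit 234) (nat_lit 304) (nat_lit 0) (XT.nd (nat_lit 78) (nat_lit 152) (nat_lit 0) (XT.lf (nat_lit 0) (nat_lit 1024535036) (nat_lit 228) (nat_lit 9774130091) (nat_lit 76) (nat_lit 6046844012) (nat_lit 31) (nat_lit 5) (nat_lit 34) (nat_lit 5) (nat_lit 32) (nat_lit 4) (nat_lit 502) (nat_lit 333) (nat_lit 305)) (XT.nd (nat_lit 78) (nat_lit 152) (nat_lit 0) (XT.lf (nat_lit 0) (nat_lit 4984363295) (nat_lit 228) (nat_lit 2088666543)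 (nat_lit 76) (nat_lit 10018519923) (nat_lit 31) (nat_lit 5) (nat_lit 34) (nat_lit 5) (nat_lit 32) (nat_lit 4) (nat_lit 503) (nat_lit 333) (nat_lit 304)) (XT.lf (nat_lit 0) (nat_lit 5743638892) (nat_lit 152) (nat_lit 3270204641) (nat_lit 228) (nat_lit 8328870770) (nat_lit 29) (nat_lit 5) (nat_lit 31) (nat_lit 5) (nat_lit 32) (nat_lit 4) (nat_lit 504) (nat_lit 333) (nat_lit 303)))) (XT.nd (nat_lit 156) (nat_lit 152) (nat_lit 0) (XT.nd (nat_lit 78) (nat_lit 152) (nat_lit 0) (XT.lf (nat_lit 0) (nat_lit 13095297685) (nat_lit 228) (nat_lit 3924131525) (nat_lit 0) (nat_lit 580057211) (nat_lit 29) (nat_lit 5) (nat_lit 32) (nat_lit 4) (nat_lit 29) (nat_lit 4) (nat_lit 505) (nat_lit 333) (nat_lit 302)) (XT.lf (nat_lit 0) (nat_lit 3852426763) (nat_lit 152) (nat_lit 13406862378) (nat_lit 152) (nat_lit 602098414) (nat_lit 27) (nat_lit 4) (nat_lit 29) (nat_lit 5) (nat_lit 29) (nat_lit 4) (nat_lit 506) (nat_lit 333) (nat_lit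 301))) (XT.nd (nat_lit 78) (nat_lit 76) (nat_lit 0) (XT.lf (nat_lit 0) (nat_lit 3314540809) (nat_lit 228) (nat_lit 6393238088) (nat_lit 76) (nat_lit 8420704238) (nat_lit 26) (nat_lit 5) (nat_lit 29) (nat_lit 5) (nat_lit 27) (nat_lit 4) (nat_lit 507) (nat_lit 333) (nat_lit 300)) (XT.lf (nat_lit 0) (nat_lit 1308720810) (nat_lit 76) (nat_lit 5956433780) (nat_lit 152) (nat_lit 11136423422) (nat_lit 25) (nat_lit 5) (nat_lit 26) (nat_lit 5) (nat_lit 27) (nat_lit 4) (nat_lit 508) (nat_lit 333) (nat_lit 299))))) (XT.nd (nat_lit 312) (nat_lit 228) (nat_lit 0) (XT.nd (nat_lit 156) (nat_lit 228) (nat_lit 0) (XT.nd (nat_lit 78) (nat_lit 0) (nat_lit 0) (XT.lf (nat_lit 0) (nat_lit 9172647364) (nat_lit 76) (nat_lit 2120601783) (nat_lit 152) (nat_lit 7386927116) (nat_lit 25) (nat_lit 5) (nat_lit 26) (nat_lit 5) (nat_lit 27) (nat_lit 4) (nat_lit 509) (nat_lit 333) (nat_lit 298)) (XT.lf (nat_lit 0) (nat_lit 15369759523) (nat_lit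 152) (nat_lit 1859981835) (nat_lit 0) (nat_lit 1735258673) (nat_lit 25) (nat_lit 5) (nat_lit 27) (nat_lit 4) (nat_lit 25) (nat_lit 4) (nat_lit 510) (nat_lit 333) (nat_lit 297))) (XT.nd (nat_lit 78) (nat_lit 0) (nat_lit 0) (XT.lf (nat_lit 0) (nat_lit 278371565) (nat_lit 228) (nat_lit 13329278860) (nat_lit 76) (nat_lit 5647651458) (nat_lit 22) (nat_lit 5) (nat_lit 25) (nat_lit 5) (nat_lit 23) (nat_lit 4) (nat_lit 511) (nat_lit 333) (nat_lit 296)) (XT.lf (nat_lit 0) (nat_lit 4151059872) (nat_lit 228) (nat_lit 5758496101) (nat_lit 76) (nat_lit 9641993642) (nat_lit 22) (nat_lit 5) (nat_lit 25) (nat_lit 5) (nat_lit 23) (nat_lit 4) (nat_lit 512) (nat_lit 333) (nat_lit 295)))) (XT.nd (nat_lit 156) (nat_lit 152) (nat_lit 0) (XT.nd (nat_lit 78) (nat_lit 0) (nat_lit 0) (XT.lf (nat_lit 0) (nat_lit 1913897259) (nat_lit 76) (nat_lit 6157706609) (nat_lit 152) (nat_lit 11782720219) (nat_lit 21) (nat_lit 5) (nat_lit 22) (nat_lit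 5) (nat_lit 23) (nat_lit 4) (nat_lit 513) (nat_lit 333) (nat_lit 294)) (XT.lf (nat_lit 0) (nat_lit 9743383061) (nat_lit 76) (nat_lit 2324134721) (nat_lit 152) (nat_lit 8095706713) (nat_lit 21) (nat_lit 5) (nat_lit 22) (nat_lit 5) (nat_lit 23) (nat_lit 4) (nat_lit 514) (nat_lit 333) (nat_lit 293))) (XT.nd (nat_lit 78) (nat_lit 152) (nat_lit 0) (XT.lf (nat_lit 0) (nat_lit 16112573529) (nat_lit 152) (nat_lit 2832715101) (nat_lit 0) (nat_lit 1533639252) (nat_lit 21) (nat_lit 5) (nat_lit 23) (nat_lit 4) (nat_lit 21) (nat_lit 4) (nat_lit 515) (nat_lit 333) (nat_lit 292)) (XT.lf (nat_lit 0) (nat_lit 4882669125) (nat_lit 152) (nat_lit 15362685281) (nat_lit 152) (nat_lit 555463707) (nat_lit 19) (nat_lit 4) (nat_lit 21) (nat_lit 5) (nat_lit 21) (nat_lit 4) (nat_lit 516) (nat_lit 333) (nat_lit 291))))))))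
noncomputable def xc16 : XT := (XT.nd (nat_lit 56784) (nat_lit 0) (nat_lit 1064) (XT.nd (nat_lit 1092) (nat_lit 76) (nat_lit 0) (XT.nd (nat_lit 546) (nat_lit 304) (nat_lit 0) (XT.nd (nat_lit 234) (nat_lit 228) (nat_lit 0) (XT.nd (nat_lit 78) (nat_lit 76) (nat_lit 0) (XT.lf (nat_lit 0) (nat_lit 3266866261) (nat_lit 228) (nat_lit 8431962799) (nat_lit 76) (nat_lit 9430315026) (nat_lit 18) (nat_lit 5) (nat_lit 21) (nat_lit 5) (nat_lit 19) (nat_lit 4) (nat_lit 517) (nat_lit 333) (nat_lit 290)) (XT.nd (nat_lit 78) (nat_lit 76) (nat_lit 0) (XT.lf (nat_lit 0) (nat_lit 7118782449) (nat_lit 228) (nat_lit 870514721) (nat_lit 76) (nat_lit 13475463154) (nat_lit 18) (nat_lit 5) (nat_lit 21) (nat_lit 5) (nat_lit 19) (nat_lit 4) (nat_lit 518) (nat_lit 333) (nat_lit 289)) (XT.lf (nat_lit 0) (nat_lit 6862773466) (nat_lit 76) (nat_lit 4190864629) (nat_lit 152) (nat_lit 10753341320) (nat_lit 17) (nat_lit 5) (nat_lit 18) (nat_lit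 5) (nat_lit 19) (nat_lit 4) (nat_lit 519) (nat_lit 333) (nat_lit 288)))) (XT.nd (nat_lit 156) (nat_lit 76) (nat_lit 0) (XT.nd (nat_lit 78) (nat_lit 152) (nat_lit 0) (XT.lf (nat_lit 0) (nat_lit 14693588663) (nat_lit 76) (nat_lit 341097636) (nat_lit 152) (nat_lit 7122015063) (nat_lit 17) (nat_lit 5) (nat_lit 18) (nat_lit 5) (nat_lit 19) (nat_lit 4) (nat_lit 520) (nat_lit 333) (nat_lit 287)) (XT.lf (nat_lit 0) (nat_lit 77181712) (nat_lit 152) (nat_lit 19004166368) (nat_lit 152) (nat_lit 3432358034) (nat_lit 15) (nat_lit 4) (nat_lit 17) (nat_lit 5) (nat_lit 17) (nat_lit 4) (nat_lit 521) (nat_lit 333) (nat_lit 286))) (XT.nd (nat_lit 78) (nat_lit 0) (nat_lit 0) (XT.lf (nat_lit 0) (nat_lit 341677956) (nat_lit 228) (nat_lit 15080356689) (nat_lit 76) (nat_lit 7455482659) (nat_lit 14) (nat_lit 5) (nat_lit 17) (nat_lit 5) (nat_lit 15) (nat_lit 4) (nat_lit 522) (nat_lit 333) (nat_lit 285)) (XT.lf (nat_lit 0) (nat_lit 4108274582)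 (nat_lit 228) (nat_lit 7666672515) (nat_lit 76) (nat_lit 11473950826) (nat_lit 14) (nat_lit 5) (nat_lit 17) (nat_lit 5) (nat_lit 15) (nat_lit 4) (nat_lit 523) (nat_lit 333) (nat_lit 284))))) (XT.nd (nat_lit 234) (nat_lit 228) (nat_lit 0) (XT.nd (nat_lit 78) (nat_lit 76) (nat_lit 0) (XT.lf (nat_lit 0) (nat_lit 7913924931) (nat_lit 228) (nat_lit 170279406) (nat_lit 76) (nat_lit 15544234973) (nat_lit 14) (nat_lit 5) (nat_lit 17) (nat_lit 5) (nat_lit 15) (nat_lit 4) (nat_lit 524) (nat_lit 333) (nat_lit 283)) (XT.nd (nat_lit 78) (nat_lit 0) (nat_lit 0) (XT.lf (nat_lit 0) (nat_lit 7510260818) (nat_lit 76) (nat_lit 4298622192) (nat_lit 152) (nat_lit 12206432065) (nat_lit 13) (nat_lit 5) (nat_lit 14) (nat_lit 5) (nat_lit 15) (nat_lit 4) (nat_lit 525) (nat_lit 333) (nat_lit 282)) (XT.lf (nat_lit 0) (nat_lit 15282863754) (nat_lit 76) (nat_lit 464735083) (nat_lit 152) (nat_lit 8663019645) (nat_lit 13) (nat_lit 5) (nat_lit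 14) (nat_lit 5) (nat_lit 15) (nat_lit 4) (nat_lit 526) (nat_lit 333) (nat_lit 281)))) (XT.nd (nat_lit 156) (nat_lit 76) (nat_lit 0) (XT.nd (nat_lit 78) (nat_lit 152) (nat_lit 0) (XT.lf (nat_lit 0) (nat_lit 19752687486) (nat_lit 152) (nat_lit 1688403144) (nat_lit 0) (nat_lit 3372992512) (nat_lit 13) (nat_lit 5) (nat_lit 15) (nat_lit 4) (nat_lit 13) (nat_lit 4) (nat_lit 527) (nat_lit 333) (nat_lit 280)) (XT.lf (nat_lit 0) (nat_lit 5912315186) (nat_lit 152) (nat_lit 17932934848) (nat_lit 152) (nat_lit 1380226634) (nat_lit 11) (nat_lit 4) (nat_lit 13) (nat_lit 5) (nat_lit 13) (nat_lit 4) (nat_lit 528) (nat_lit 333) (nat_lit 279))) (XT.nd (nat_lit 78) (nat_lit 0) (nat_lit 0) (XT.lf (nat_lit 0) (nat_lit 2320774307) (nat_lit 228) (nat_lit 12034364937) (nat_lit 76) (nat_lit 11290110189) (nat_lit 10) (nat_lit 5) (nat_lit 13) (nat_lit 5) (nat_lit 11) (nat_lit 4) (nat_lit 529) (nat_lit 333) (nat_lit 278)) (XT.lf (nat_lit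 0) (nat_lit 6043945316) (nat_lit 228) (nat_lit 4679854423) (nat_lit 76) (nat_lit 15350109433) (nat_lit 10) (nat_lit 5) (nat_lit 13) (nat_lit 5) (nat_lit 11) (nat_lit 4) (nat_lit 530) (nat_lit 333) (nat_lit 277)))))) (XT.nd (nat_lit 55146) (nat_lit 0) (nat_lit 3952) (XT.nd (nat_lit 54834) (nat_lit 0) (nat_lit 5320) (XT.nd (nat_lit 78) (nat_lit 0) (nat_lit 0) (XT.lf (nat_lit 0) (nat_lit 2798923916) (nat_lit 76) (nat_lit 7028096934) (nat_lit 152) (nat_lit 16684418914) (nat_lit 9) (nat_lit 5) (nat_lit 10) (nat_lit 5) (nat_lit 11) (nat_lit 4) (nat_lit 531) (nat_lit 333) (nat_lit 276)) (XT.nd (nat_lit 54678) (nat_lit 0) (nat_lit 5928) (XT.lf (nat_lit 0) (nat_lit 10431575358) (nat_lit 76) (nat_lit 3253113281) (nat_lit 152) (nat_lit 13273060068) (nat_lit 9) (nat_lit 5) (nat_lit 10) (nat_lit 5) (nat_lit 11) (nat_lit 4) (nat_lit 532) (nat_lit 333) (nat_lit 275)) (XT.lf (nat_lit 0) (nat_lit 1006511438) (nat_lit 304) (nat_lit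 3702451287) (nat_lit 0) (nat_lit 1006511438) (nat_lit 87) (nat_lit 5) (nat_lit 91) (nat_lit 4) (nat_lit 87) (nat_lit 4) (nat_lit 472) (nat_lit 334) (nat_lit 334)))) (XT.nd (nat_lit 156) (nat_lit 304) (nat_lit 0) (XT.nd (nat_lit 78) (nat_lit 0) (nat_lit 0) (XT.lf (nat_lit 0) (nat_lit 167827096) (nat_lit 304) (nat_lit 6022882550) (nat_lit 304) (nat_lit 5370817613) (nat_lit 83) (nat_lit 4) (nat_lit 87) (nat_lit 5) (nat_lit 87) (nat_lit 4) (nat_lit 473) (nat_lit 334) (nat_lit 333)) (XT.lf (nat_lit 0) (nat_lit 7890485126) (nat_lit 304) (nat_lit 2547936709) (nat_lit 304) (nat_lit 1256592423) (nat_lit 83) (nat_lit 4) (nat_lit 87) (nat_lit 5) (nat_lit 87) (nat_lit 4) (nat_lit 474) (nat_lit 334) (nat_lit 332))) (XT.nd (nat_lit 78) (nat_lit 0) (nat_lit 0) (XT.lf (nat_lit 0) (nat_lit 2870567481) (nat_lit 304) (nat_lit 7970774197) (nat_lit 0) (nat_lit 990088318) (nat_lit 79) (nat_lit 5) (nat_lit 83) (nat_lit 4) (nat_lit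 79) (nat_lit 4) (nat_lit 475) (nat_lit 334) (nat_lit 331)) (XT.lf (nat_lit 0) (nat_lit 7043944272) (nat_lit 304) (nat_lit 365820190) (nat_lit 0) (nat_lit 4561057900) (nat_lit 79) (nat_lit 5) (nat_lit 83) (nat_lit 4) (nat_lit 79) (nat_lit 4) (nat_lit 476) (nat_lit 334) (nat_lit 330))))) (XT.nd (nat_lit 234) (nat_lit 760) (nat_lit 0) (XT.nd (nat_lit 78) (nat_lit 304) (nat_lit 0) (XT.lf (nat_lit 0) (nat_lit 7389015734) (nat_lit 304) (nat_lit 3898875208) (nat_lit 304) (nat_lit 825393532) (nat_lit 75) (nat_lit 4) (nat_lit 79) (nat_lit 5) (nat_lit 79) (nat_lit 4) (nat_lit 477) (nat_lit 334) (nat_lit 329)) (XT.nd (nat_lit 78) (nat_lit 0) (nat_lit 0) (XT.lf (nat_lit 0) (nat_lit 2963099091) (nat_lit 228) (nat_lit 311948319) (nat_lit 304) (nat_lit 8983915990) (nat_lit 71) (nat_lit 5) (nat_lit 74) (nat_lit 5) (nat_lit 75) (nat_lit 4) (nat_lit 478) (nat_lit 334) (nat_lit 328)) (XT.lf (nat_lit 0) (nat_lit 7439657191) (nat_lit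 304) (nat_lit 1665700969) (nat_lit 0) (nat_lit 3302246951) (nat_lit 71) (nat_lit 5) (nat_lit 75) (nat_lit 4) (nat_lit 71) (nat_lit 4) (nat_lit 479) (nat_lit 334) (nat_lit 327)))) (XT.nd (nat_lit 156) (nat_lit 228) (nat_lit 0) (XT.nd (nat_lit 78) (nat_lit 304) (nat_lit 0) (XT.lf (nat_lit 0) (nat_lit 6097293464) (nat_lit 228) (nat_lit 5572664673) (nat_lit 228) (nat_lit 889635663) (nat_lit 68) (nat_lit 4) (nat_lit 71) (nat_lit 5) (nat_lit 71) (nat_lit 4) (nat_lit 480) (nat_lit 334) (nat_lit 326)) (XT.lf (nat_lit 0) (nat_lit 1220591854) (nat_lit 228) (nat_lit 1966804792) (nat_lit 304) (nat_lit 9527621354) (nat_lit 64) (nat_lit 5) (nat_lit 67) (nat_lit 5) (nat_lit 68) (nat_lit 4) (nat_lit 481) (nat_lit 334) (nat_lit 325))) (XT.nd (nat_lit 78) (nat_lit 228) (nat_lit 0) (XT.lf (nat_lit 0) (nat_lit 7329976062) (nat_lit 304) (nat_lit 3843368816) (nat_lit 0) (nat_lit 1700190670) (nat_lit 64) (nat_lit 5) (nat_lit 68) (nat_lit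 4) (nat_lit 64) (nat_lit 4) (nat_lit 482) (nat_lit 334) (nat_lit 324)) (XT.lf (nat_lit 0) (nat_lit 3902656118) (nat_lit 228) (nat_lit 7633413654) (nat_lit 228) (nat_lit 1499560857) (nat_lit 61) (nat_lit 4) (nat_lit 64) (nat_lit 5) (nat_lit 64) (nat_lit 4) (nat_lit 483) (nat_lit 334) (nat_lit 323))))))) (XT.nd (nat_lit 1092) (nat_lit 1216) (nat_lit 0) (XT.nd (nat_lit 546) (nat_lit 684) (nat_lit 0) (XT.nd (nat_lit 234) (nat_lit 456) (nat_lit 0) (XT.nd (nat_lit 78) (nat_lit 456) (nat_lit 0) (XT.lf (nat_lit 0) (nat_lit 2559259248) (nat_lit 304) (nat_lit 1458332844) (nat_lit 76) (nat_lit 9183686798) (nat_lit 60) (nat_lit 5) (nat_lit 64) (nat_lit 5) (nat_lit 61) (nat_lit 4) (nat_lit 484) (nat_lit 334) (nat_lit 322)) (XT.nd (nat_lit 78) (nat_lit 228) (nat_lit 0) (XT.lf (nat_lit 0) (nat_lit 6348659727) (nat_lit 228) (nat_lit 315295770) (nat_lit 304) (nat_lit 6706410057) (nat_lit 57) (nat_lit 5) (nat_lit 60) (nat_lit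 5) (nat_lit 61) (nat_lit 4) (nat_lit 485) (nat_lit 334) (nat_lit 321)) (XT.lf (nat_lit 0) (nat_lit 680566098) (nat_lit 228) (nat_lit 10150712719) (nat_lit 228) (nat_lit 2711963354) (nat_lit 54) (nat_lit 4) (nat_lit 57) (nat_lit 5) (nat_lit 57) (nat_lit 4) (nat_lit 486) (nat_lit 334) (nat_lit 320)))) (XT.nd (nat_lit 156) (nat_lit 228) (nat_lit 0) (XT.nd (nat_lit 78) (nat_lit 152) (nat_lit 0) (XT.lf (nat_lit 0) (nat_lit 1337919786) (nat_lit 304) (nat_lit 5192700775) (nat_lit 76) (nat_lit 7188928693) (nat_lit 53) (nat_lit 5) (nat_lit 57) (nat_lit 5) (nat_lit 54) (nat_lit 4) (nat_lit 487) (nat_lit 334) (nat_lit 319)) (XT.lf (nat_lit 0) (nat_lit 2553173997) (nat_lit 152) (nat_lit 2840920146) (nat_lit 228) (nat_lit 8505715470) (nat_lit 51) (nat_lit 5) (nat_lit 53) (nat_lit 5) (nat_lit 54) (nat_lit 4) (nat_lit 488) (nat_lit 334) (nat_lit 318))) (XT.nd (nat_lit 78) (nat_lit 228) (nat_lit 0) (XT.lf (nat_lit 0) (nat_lit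 9517686885) (nat_lit 228) (nat_lit 3658119605) (nat_lit 0) (nat_lit 908160235) (nat_lit 51) (nat_lit 5) (nat_lit 54) (nat_lit 4) (nat_lit 51) (nat_lit 4) (nat_lit 489) (nat_lit 334) (nat_lit 317)) (XT.lf (nat_lit 0) (nat_lit 4128046385) (nat_lit 228) (nat_lit 9587623516) (nat_lit 228) (nat_lit 556315811) (nat_lit 48) (nat_lit 4) (nat_lit 51) (nat_lit 5) (nat_lit 51) (nat_lit 4) (nat_lit 490) (nat_lit 334) (nat_lit 316))))) (XT.nd (nat_lit 234) (nat_lit 456) (nat_lit 0) (XT.nd (nat_lit 78) (nat_lit 152) (nat_lit 0) (XT.lf (nat_lit 0) (nat_lit 3458607271) (nat_lit 304) (nat_lit 2458431855) (nat_lit 76) (nat_lit 8546861372) (nat_lit 47) (nat_lit 5) (nat_lit 51) (nat_lit 5) (nat_lit 48) (nat_lit 4) (nat_lit 491) (nat_lit 334) (nat_lit 315)) (XT.nd (nat_lit 78) (nat_lit 0) (nat_lit 0) (XT.lf (nat_lit 0) (nat_lit 5357589311) (nat_lit 152) (nat_lit 2171029815) (nat_lit 228) (nat_lit 7131332235) (nat_lit 45) (nat_lit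 5) (nat_lit 47) (nat_lit 5) (nat_lit 48) (nat_lit 4) (nat_lit 492) (nat_lit 334) (nat_lit 314)) (XT.lf (nat_lit 0) (nat_lit 11655008075) (nat_lit 228) (nat_lit 1597163584) (nat_lit 0) (nat_lit 1608267845) (nat_lit 45) (nat_lit 5) (nat_lit 48) (nat_lit 4) (nat_lit 45) (nat_lit 4) (nat_lit 493) (nat_lit 334) (nat_lit 313)))) (XT.nd (nat_lit 156) (nat_lit 152) (nat_lit 0) (XT.nd (nat_lit 78) (nat_lit 0) (nat_lit 0) (XT.lf (nat_lit 0) (nat_lit 792102134) (nat_lit 304) (nat_lit 8828714014) (nat_lit 76) (nat_lit 5443960823) (nat_lit 41) (nat_lit 5) (nat_lit 45) (nat_lit 5) (nat_lit 42) (nat_lit 4) (nat_lit 494) (nat_lit 334) (nat_lit 312)) (XT.lf (nat_lit 0) (nat_lit 4786263969) (nat_lit 304) (nat_lit 1135036613) (nat_lit 76) (nat_lit 9352299768) (nat_lit 41) (nat_lit 5) (nat_lit 45) (nat_lit 5) (nat_lit 42) (nat_lit 4) (nat_lit 495) (nat_lit 334) (nat_lit 311))) (XT.nd (nat_lit 78) (nat_lit 0) (nat_lit 0) (XT.lf (nat_lit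 0) (nat_lit 6713946617) (nat_lit 152) (nat_lit 2139727758) (nat_lit 228) (nat_lit 6633073111) (nat_lit 39) (nat_lit 5) (nat_lit 41) (nat_lit 5) (nat_lit 42) (nat_lit 4) (nat_lit 496) (nat_lit 334) (nat_lit 310)) (XT.lf (nat_lit 0) (nat_lit 12971215801) (nat_lit 228) (nat_lit 1066738823) (nat_lit 0) (nat_lit 1666841594) (nat_lit 39) (nat_lit 5) (nat_lit 42) (nat_lit 4) (nat_lit 39) (nat_lit 4) (nat_lit 497) (nat_lit 334) (nat_lit 309)))))) (XT.nd (nat_lit 546) (nat_lit 456) (nat_lit 0) (XT.nd (nat_lit 234) (nat_lit 380) (nat_lit 0) (XT.nd (nat_lit 78) (nat_lit 152) (nat_lit 0) (XT.lf (nat_lit 0) (nat_lit 1236791526) (nat_lit 228) (nat_lit 9152062694) (nat_lit 76) (nat_lit 5538019865) (nat_lit 36) (nat_lit 5) (nat_lit 39) (nat_lit 5) (nat_lit 37) (nat_lit 4) (nat_lit 498) (nat_lit 334) (nat_lit 308)) (XT.nd (nat_lit 78) (nat_lit 152) (nat_lit 0) (XT.lf (nat_lit 0) (nat_lit 5208231127) (nat_lit 228) (nat_lit 1468977614)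 (nat_lit 76) (nat_lit 9476671616) (nat_lit 36) (nat_lit 5) (nat_lit 39) (nat_lit 5) (nat_lit 37) (nat_lit 4) (nat_lit 499) (nat_lit 334) (nat_lit 307)) (XT.lf (nat_lit 0) (nat_lit 6367724966) (nat_lit 152) (nat_lit 2884701242) (nat_lit 228) (nat_lit 7133147233) (nat_lit 34) (nat_lit 5) (nat_lit 36) (nat_lit 5) (nat_lit 37) (nat_lit 4) (nat_lit 500) (nat_lit 334) (nat_lit 306)))) (XT.nd (nat_lit 156) (nat_lit 152) (nat_lit 0) (XT.nd (nat_lit 78) (nat_lit 228) (nat_lit 0) (XT.lf (nat_lit 0) (nat_lit 13345970591) (nat_lit 228) (nat_lit 2330824867) (nat_lit 0) (nat_lit 945748581) (nat_lit 34) (nat_lit 5) (nat_lit 37) (nat_lit 4) (nat_lit 34) (nat_lit 4) (nat_lit 501) (nat_lit 334) (nat_lit 305)) (XT.lf (nat_lit 0) (nat_lit 656334231) (nat_lit 228) (nat_lit 11387816398) (nat_lit 76) (nat_lit 4819874130) (nat_lit 31) (nat_lit 5) (nat_lit 34) (nat_lit 5) (nat_lit 32) (nat_lit 4) (nat_lit 502) (nat_lit 334) (nat_lit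 304))) (XT.nd (nat_lit 78) (nat_lit 152) (nat_lit 0) (XT.lf (nat_lit 0) (nat_lit 4592976302) (nat_lit 228) (nat_lit 3743044058) (nat_lit 76) (nat_lit 8774514791) (nat_lit 31) (nat_lit 5) (nat_lit 34) (nat_lit 5) (nat_lit 32) (nat_lit 4) (nat_lit 503) (nat_lit 334) (nat_lit 303)) (XT.lf (nat_lit 0) (nat_lit 4026852068) (nat_lit 152) (nat_lit 4561726395) (nat_lit 228) (nat_lit 8773804718) (nat_lit 29) (nat_lit 5) (nat_lit 31) (nat_lit 5) (nat_lit 32) (nat_lit 4) (nat_lit 504) (nat_lit 334) (nat_lit 302))))) (XT.nd (nat_lit 234) (nat_lit 228) (nat_lit 0) (XT.nd (nat_lit 78) (nat_lit 228) (nat_lit 0) (XT.lf (nat_lit 0) (nat_lit 11922829677) (nat_lit 152) (nat_lit 720843622) (nat_lit 228) (nat_lit 4976014998) (nat_lit 29) (nat_lit 5) (nat_lit 31) (nat_lit 5) (nat_lit 32) (nat_lit 4) (nat_lit 505) (nat_lit 334) (nat_lit 301)) (XT.nd (nat_lit 78) (nat_lit 76) (nat_lit 0) (XT.lf (nat_lit 0) (nat_lit 2021169839) (nat_lit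 152) (nat_lit 14747715089) (nat_lit 152) (nat_lit 1113485797) (nat_lit 27) (nat_lit 4) (nat_lit 29) (nat_lit 5) (nat_lit 29) (nat_lit 4) (nat_lit 506) (nat_lit 334) (nat_lit 300)) (XT.lf (nat_lit 0) (nat_lit 2787681775) (nat_lit 228) (nat_lit 8281393045) (nat_lit 76) (nat_lit 7080906937) (nat_lit 26) (nat_lit 5) (nat_lit 29) (nat_lit 5) (nat_lit 27) (nat_lit 4) (nat_lit 507) (nat_lit 334) (nat_lit 299)))) (XT.nd (nat_lit 156) (nat_lit 152) (nat_lit 0) (XT.nd (nat_lit 78) (nat_lit 76) (nat_lit 0) (XT.lf (nat_lit 0) (nat_lit 6708054759) (nat_lit 228) (nat_lit 635064069) (nat_lit 76) (nat_lit 11080567993) (nat_lit 26) (nat_lit 5) (nat_lit 29) (nat_lit 5) (nat_lit 27) (nat_lit 4) (nat_lit 508) (nat_lit 334) (nat_lit 298)) (XT.lf (nat_lit 0) (nat_lit 7182210068) (nat_lit 76) (nat_lit 3528195725) (nat_lit 152) (nat_lit 7992399411) (nat_lit 25) (nat_lit 5) (nat_lit 26) (nat_lit 5) (nat_lit 27) (nat_lit 4) (nat_lit 509)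 (nat_lit 334) (nat_lit 297))) (XT.nd (nat_lit 78) (nat_lit 152) (nat_lit 0) (XT.lf (nat_lit 0) (nat_lit 14756528553) (nat_lit 152) (nat_lit 3901694566) (nat_lit 0) (nat_lit 330018767) (nat_lit 25) (nat_lit 5) (nat_lit 27) (nat_lit 4) (nat_lit 25) (nat_lit 4) (nat_lit 510) (nat_lit 334) (nat_lit 296)) (XT.lf (nat_lit 0) (nat_lit 3821508088) (nat_lit 152) (nat_lit 15068162451) (nat_lit 152) (nat_lit 389605045) (nat_lit 23) (nat_lit 4) (nat_lit 25) (nat_lit 5) (nat_lit 25) (nat_lit 4) (nat_lit 511) (nat_lit 334) (nat_lit 295))))))))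
noncomputable def xc17 : XT := (XT.nd (nat_lit 56628) (nat_lit 0) (nat_lit 1520) (XT.nd (nat_lit 1092) (nat_lit 304) (nat_lit 0) (XT.nd (nat_lit 546) (nat_lit 380) (nat_lit 0) (XT.nd (nat_lit 234) (nat_lit 228) (nat_lit 0) (XT.nd (nat_lit 78) (nat_lit 76) (nat_lit 0) (XT.lf (nat_lit 0) (nat_lit 3467388859) (nat_lit 228) (nat_lit 7921537420) (nat_lit 76) (nat_lit 8187068574) (nat_lit 22) (nat_lit 5) (nat_lit 25) (nat_lit 5) (nat_lit 23) (nat_lit 4) (nat_lit 512) (nat_lit 334) (nat_lit 294)) (XT.nd (nat_lit 78) (nat_lit 76) (nat_lit 0) (XT.lf (nat_lit 0) (nat_lit 7355110347) (nat_lit 228) (nat_lit 310600320) (nat_lit 76) (nat_lit 12213719874) (nat_lit 22) (nat_lit 5) (nat_lit 25) (nat_lit 5) (nat_lit 23) (nat_lit 4) (nat_lit 513) (nat_lit 334) (nat_lit 293)) (XT.lf (nat_lit 0) (nat_lit 7478641790) (nat_lit 76) (nat_lit 3850108266) (nat_lit 152) (nat_lit 8860031052) (nat_lit 21) (nat_lit 5) (nat_lit 22) (nat_lit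 5) (nat_lit 23) (nat_lit 4) (nat_lit 514) (nat_lit 334) (nat_lit 292)))) (XT.nd (nat_lit 156) (nat_lit 76) (nat_lit 0) (XT.nd (nat_lit 78) (nat_lit 152) (nat_lit 0) (XT.lf (nat_lit 0) (nat_lit 15343962958) (nat_lit 152) (nat_lit 5148813320) (nat_lit 0) (nat_lit 12309656) (nat_lit 21) (nat_lit 5) (nat_lit 23) (nat_lit 4) (nat_lit 21) (nat_lit 4) (nat_lit 515) (nat_lit 334) (nat_lit 291)) (XT.lf (nat_lit 0) (nat_lit 2500318132) (nat_lit 152) (nat_lit 16941413572) (nat_lit 152) (nat_lit 1385949196) (nat_lit 19) (nat_lit 4) (nat_lit 21) (nat_lit 5) (nat_lit 21) (nat_lit 4) (nat_lit 516) (nat_lit 334) (nat_lit 290))) (XT.nd (nat_lit 78) (nat_lit 0) (nat_lit 0) (XT.lf (nat_lit 0) (nat_lit 2427753098) (nat_lit 228) (nat_lit 10870825738) (nat_lit 76) (nat_lit 7857930589) (nat_lit 18) (nat_lit 5) (nat_lit 21) (nat_lit 5) (nat_lit 19) (nat_lit 4) (nat_lit 517) (nat_lit 334) (nat_lit 289)) (XT.lf (nat_lit 0) (nat_lit 6260532384)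 (nat_lit 228) (nat_lit 3343731798) (nat_lit 76) (nat_lit 11888248452) (nat_lit 18) (nat_lit 5) (nat_lit 21) (nat_lit 5) (nat_lit 19) (nat_lit 4) (nat_lit 518) (nat_lit 334) (nat_lit 288))))) (XT.nd (nat_lit 234) (nat_lit 304) (nat_lit 0) (XT.nd (nat_lit 78) (nat_lit 0) (nat_lit 0) (XT.lf (nat_lit 0) (nat_lit 4322560512) (nat_lit 76) (nat_lit 5837573102) (nat_lit 152) (nat_lit 11675307349) (nat_lit 17) (nat_lit 5) (nat_lit 18) (nat_lit 5) (nat_lit 19) (nat_lit 4) (nat_lit 519) (nat_lit 334) (nat_lit 287)) (XT.nd (nat_lit 78) (nat_lit 0) (nat_lit 0) (XT.lf (nat_lit 0) (nat_lit 12119916763) (nat_lit 76) (nat_lit 2002654023) (nat_lit 152) (nat_lit 8062968413) (nat_lit 17) (nat_lit 5) (nat_lit 18) (nat_lit 5) (nat_lit 19) (nat_lit 4) (nat_lit 520) (nat_lit 334) (nat_lit 286)) (XT.lf (nat_lit 0) (nat_lit 18139602906) (nat_lit 152) (nat_lit 2548629637) (nat_lit 0) (nat_lit 1854907991) (nat_lit 17) (nat_lit 5) (nat_lit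 19) (nat_lit 4) (nat_lit 17) (nat_lit 4) (nat_lit 521) (nat_lit 334) (nat_lit 285)))) (XT.nd (nat_lit 156) (nat_lit 76) (nat_lit 0) (XT.nd (nat_lit 78) (nat_lit 76) (nat_lit 0) (XT.lf (nat_lit 0) (nat_lit 5106912486) (nat_lit 152) (nat_lit 17140161632) (nat_lit 152) (nat_lit 660625708) (nat_lit 15) (nat_lit 4) (nat_lit 17) (nat_lit 5) (nat_lit 17) (nat_lit 4) (nat_lit 522) (nat_lit 334) (nat_lit 284)) (XT.lf (nat_lit 0) (nat_lit 3096675632) (nat_lit 228) (nat_lit 10415271743) (nat_lit 76) (nat_lit 9767581803) (nat_lit 14) (nat_lit 5) (nat_lit 17) (nat_lit 5) (nat_lit 15) (nat_lit 4) (nat_lit 523) (nat_lit 334) (nat_lit 283))) (XT.nd (nat_lit 78) (nat_lit 76) (nat_lit 0) (XT.lf (nat_lit 0) (nat_lit 6884718619) (nat_lit 228) (nat_lit 2950700004) (nat_lit 76) (nat_lit 13824007775) (nat_lit 14) (nat_lit 5) (nat_lit 17) (nat_lit 5) (nat_lit 15) (nat_lit 4) (nat_lit 524) (nat_lit 334) (nat_lit 282)) (XT.lf (nat_lit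 0) (nat_lit 4661277876) (nat_lit 76) (nat_lit 6082639216) (nat_lit 152) (nat_lit 13303103876) (nat_lit 13) (nat_lit 5) (nat_lit 14) (nat_lit 5) (nat_lit 15) (nat_lit 4) (nat_lit 525) (nat_lit 334) (nat_lit 281)))))) (XT.nd (nat_lit 54990) (nat_lit 0) (nat_lit 5320) (XT.nd (nat_lit 234) (nat_lit 152) (nat_lit 0) (XT.nd (nat_lit 78) (nat_lit 152) (nat_lit 0) (XT.lf (nat_lit 0) (nat_lit 12402888636) (nat_lit 76) (nat_lit 2262619414) (nat_lit 152) (nat_lit 9777162364) (nat_lit 13) (nat_lit 5) (nat_lit 14) (nat_lit 5) (nat_lit 15) (nat_lit 4) (nat_lit 526) (nat_lit 334) (nat_lit 280)) (XT.nd (nat_lit 78) (nat_lit 152) (nat_lit 0) (XT.lf (nat_lit 0) (nat_lit 18642046284) (nat_lit 152) (nat_lit 4619392605) (nat_lit 0) (nat_lit 1585270666) (nat_lit 13) (nat_lit 5) (nat_lit 15) (nat_lit 4) (nat_lit 13) (nat_lit 4) (nat_lit 527) (nat_lit 334) (nat_lit 279)) (XT.lf (nat_lit 0) (nat_lit 2911940498) (nat_lit 152) (nat_lit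 19786641483) (nat_lit 152) (nat_lit 2560245041) (nat_lit 11) (nat_lit 4) (nat_lit 13) (nat_lit 5) (nat_lit 13) (nat_lit 4) (nat_lit 528) (nat_lit 334) (nat_lit 278)))) (XT.nd (nat_lit 156) (nat_lit 76) (nat_lit 0) (XT.nd (nat_lit 78) (nat_lit 0) (nat_lit 0) (XT.lf (nat_lit 0) (nat_lit 1139704334) (nat_lit 228) (nat_lit 15090488611) (nat_lit 76) (nat_lit 9448893898) (nat_lit 10) (nat_lit 5) (nat_lit 13) (nat_lit 5) (nat_lit 11) (nat_lit 4) (nat_lit 529) (nat_lit 334) (nat_lit 277)) (XT.lf (nat_lit 0) (nat_lit 4846671697) (nat_lit 228) (nat_lit 7765448777) (nat_lit 76) (nat_lit 13495953389) (nat_lit 10) (nat_lit 5) (nat_lit 13) (nat_lit 5) (nat_lit 11) (nat_lit 4) (nat_lit 530) (nat_lit 334) (nat_lit 276))) (XT.nd (nat_lit 78) (nat_lit 76) (nat_lit 0) (XT.lf (nat_lit 0) (nat_lit 8595688834) (nat_lit 228) (nat_lit 352271651) (nat_lit 76) (nat_lit 17598328284) (nat_lit 10) (nat_lit 5) (nat_lit 13) (nat_lit 5) (nat_lit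 11) (nat_lit 4) (nat_lit 531) (nat_lit 334) (nat_lit 275)) (XT.lf (nat_lit 0) (nat_lit 7246995546) (nat_lit 76) (nat_lit 5188282704) (nat_lit 152) (nat_lit 14557684113) (nat_lit 9) (nat_lit 5) (nat_lit 10) (nat_lit 5) (nat_lit 11) (nat_lit 4) (nat_lit 532) (nat_lit 334) (nat_lit 274))))) (XT.nd (nat_lit 234) (nat_lit 608) (nat_lit 0) (XT.nd (nat_lit 78) (nat_lit 304) (nat_lit 0) (XT.lf (nat_lit 0) (nat_lit 39108316) (nat_lit 304) (nat_lit 2774856240) (nat_lit 304) (nat_lit 2774856240) (nat_lit 91) (nat_lit 4) (nat_lit 95) (nat_lit 5) (nat_lit 95) (nat_lit 4) (nat_lit 470) (nat_lit 335) (nat_lit 335)) (XT.nd (nat_lit 78) (nat_lit 304) (nat_lit 0) (XT.lf (nat_lit 0) (nat_lit 7703710113) (nat_lit 304) (nat_lit 2138969773) (nat_lit 304) (nat_lit 1460561413) (nat_lit 91) (nat_lit 4) (nat_lit 95) (nat_lit 5) (nat_lit 95) (nat_lit 4) (nat_lit 471) (nat_lit 335) (nat_lit 334)) (XT.lf (nat_lit 0) (nat_lit 2646540671)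 (nat_lit 304) (nat_lit 7455683014) (nat_lit 0) (nat_lit 1329369499) (nat_lit 87) (nat_lit 5) (nat_lit 91) (nat_lit 4) (nat_lit 87) (nat_lit 4) (nat_lit 472) (nat_lit 335) (nat_lit 333)))) (XT.nd (nat_lit 156) (nat_lit 304) (nat_lit 0) (XT.nd (nat_lit 78) (nat_lit 0) (nat_lit 0) (XT.lf (nat_lit 0) (nat_lit 65925456) (nat_lit 304) (nat_lit 6726671313) (nat_lit 304) (nat_lit 4770220792) (nat_lit 83) (nat_lit 4) (nat_lit 87) (nat_lit 5) (nat_lit 87) (nat_lit 4) (nat_lit 473) (nat_lit 335) (nat_lit 332)) (XT.lf (nat_lit 0) (nat_lit 7739126273) (nat_lit 304) (nat_lit 3270499753) (nat_lit 304) (nat_lit 687304772) (nat_lit 83) (nat_lit 4) (nat_lit 87) (nat_lit 5) (nat_lit 87) (nat_lit 4) (nat_lit 474) (nat_lit 335) (nat_lit 331))) (XT.nd (nat_lit 78) (nat_lit 0) (nat_lit 0) (XT.lf (nat_lit 0) (nat_lit 3395945024) (nat_lit 304) (nat_lit 8177074839) (nat_lit 0) (nat_lit 260993715) (nat_lit 79) (nat_lit 5) (nat_lit 83)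 (nat_lit 4) (nat_lit 79) (nat_lit 4) (nat_lit 475) (nat_lit 335) (nat_lit 330)) (XT.lf (nat_lit 0) (nat_lit 7539187138) (nat_lit 304) (nat_lit 621192829) (nat_lit 0) (nat_lit 3813640526) (nat_lit 79) (nat_lit 5) (nat_lit 83) (nat_lit 4) (nat_lit 79) (nat_lit 4) (nat_lit 476) (nat_lit 335) (nat_lit 329))))))) (XT.nd (nat_lit 1092) (nat_lit 1444) (nat_lit 0) (XT.nd (nat_lit 546) (nat_lit 988) (nat_lit 0) (XT.nd (nat_lit 234) (nat_lit 760) (nat_lit 0) (XT.nd (nat_lit 78) (nat_lit 304) (nat_lit 0) (XT.lf (nat_lit 0) (nat_lit 7081500173) (nat_lit 304) (nat_lit 4670093238) (nat_lit 304) (nat_lit 365531624) (nat_lit 75) (nat_lit 4) (nat_lit 79) (nat_lit 5) (nat_lit 79) (nat_lit 4) (nat_lit 477) (nat_lit 335) (nat_lit 328)) (XT.nd (nat_lit 78) (nat_lit 0) (nat_lit 0) (XT.lf (nat_lit 0) (nat_lit 2595743068) (nat_lit 228) (nat_lit 1101270025) (nat_lit 304) (nat_lit 8566379624) (nat_lit 71) (nat_lit 5) (nat_lit 74) (nat_lit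 5) (nat_lit 75) (nat_lit 4) (nat_lit 478) (nat_lit 335) (nat_lit 327)) (XT.lf (nat_lit 0) (nat_lit 7827164121) (nat_lit 304) (nat_lit 2080714673) (nat_lit 0) (nat_lit 2504855762) (nat_lit 71) (nat_lit 5) (nat_lit 75) (nat_lit 4) (nat_lit 71) (nat_lit 4) (nat_lit 479) (nat_lit 335) (nat_lit 326)))) (XT.nd (nat_lit 156) (nat_lit 228) (nat_lit 0) (XT.nd (nat_lit 78) (nat_lit 304) (nat_lit 0) (XT.lf (nat_lit 0) (nat_lit 5628729397) (nat_lit 228) (nat_lit 6396934663) (nat_lit 228) (nat_lit 539705941) (nat_lit 68) (nat_lit 4) (nat_lit 71) (nat_lit 5) (nat_lit 71) (nat_lit 4) (nat_lit 480) (nat_lit 335) (nat_lit 325)) (XT.lf (nat_lit 0) (nat_lit 689529723) (nat_lit 228) (nat_lit 2811059471) (nat_lit 304) (nat_lit 9220812845) (nat_lit 64) (nat_lit 5) (nat_lit 67) (nat_lit 5) (nat_lit 68) (nat_lit 4) (nat_lit 481) (nat_lit 335) (nat_lit 324))) (XT.nd (nat_lit 78) (nat_lit 228) (nat_lit 0) (XT.lf (nat_lit 0) (nat_lit 7609122236)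 (nat_lit 304) (nat_lit 4422963416) (nat_lit 0) (nat_lit 848524979) (nat_lit 64) (nat_lit 5) (nat_lit 68) (nat_lit 4) (nat_lit 64) (nat_lit 4) (nat_lit 482) (nat_lit 335) (nat_lit 323)) (XT.lf (nat_lit 0) (nat_lit 3268042474) (nat_lit 228) (nat_lit 8515048323) (nat_lit 228) (nat_lit 1260267337) (nat_lit 61) (nat_lit 4) (nat_lit 64) (nat_lit 5) (nat_lit 64) (nat_lit 4) (nat_lit 483) (nat_lit 335) (nat_lit 322))))) (XT.nd (nat_lit 234) (nat_lit 684) (nat_lit 0) (XT.nd (nat_lit 78) (nat_lit 228) (nat_lit 0) (XT.lf (nat_lit 0) (nat_lit 2767464085) (nat_lit 304) (nat_lit 2148997386) (nat_lit 76) (nat_lit 8293082390) (nat_lit 60) (nat_lit 5) (nat_lit 64) (nat_lit 5) (nat_lit 61) (nat_lit 4) (nat_lit 484) (nat_lit 335) (nat_lit 321)) (XT.nd (nat_lit 78) (nat_lit 0) (nat_lit 0) (XT.lf (nat_lit 0) (nat_lit 5602354571) (nat_lit 228) (nat_lit 1237557994) (nat_lit 304) (nat_lit 6539372263) (nat_lit 57) (nat_lit 5) (nat_lit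 60) (nat_lit 5) (nat_lit 61) (nat_lit 4) (nat_lit 485) (nat_lit 335) (nat_lit 320)) (XT.lf (nat_lit 0) (nat_lit 10969549150) (nat_lit 304) (nat_lit 123580139) (nat_lit 0) (nat_lit 2459795054) (nat_lit 57) (nat_lit 5) (nat_lit 61) (nat_lit 4) (nat_lit 57) (nat_lit 4) (nat_lit 486) (nat_lit 335) (nat_lit 319)))) (XT.nd (nat_lit 156) (nat_lit 228) (nat_lit 0) (XT.nd (nat_lit 78) (nat_lit 152) (nat_lit 0) (XT.lf (nat_lit 0) (nat_lit 1436773325) (nat_lit 304) (nat_lit 6055069408) (nat_lit 76) (nat_lit 6237941766) (nat_lit 53) (nat_lit 5) (nat_lit 57) (nat_lit 5) (nat_lit 54) (nat_lit 4) (nat_lit 487) (nat_lit 335) (nat_lit 318)) (XT.lf (nat_lit 0) (nat_lit 1633595762) (nat_lit 152) (nat_lit 3826685573) (nat_lit 228) (nat_lit 8450425486) (nat_lit 51) (nat_lit 5) (nat_lit 53) (nat_lit 5) (nat_lit 54) (nat_lit 4) (nat_lit 488) (nat_lit 335) (nat_lit 317))) (XT.nd (nat_lit 78) (nat_lit 228) (nat_lit 0) (XT.lf (nat_lit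 0) (nat_lit 9467510985) (nat_lit 152) (nat_lit 83924755) (nat_lit 228) (nat_lit 4544085425) (nat_lit 51) (nat_lit 5) (nat_lit 53) (nat_lit 5) (nat_lit 54) (nat_lit 4) (nat_lit 489) (nat_lit 335) (nat_lit 316)) (XT.lf (nat_lit 0) (nat_lit 3100845961) (nat_lit 228) (nat_lit 10615296881) (nat_lit 228) (nat_lit 568071129) (nat_lit 48) (nat_lit 4) (nat_lit 51) (nat_lit 5) (nat_lit 51) (nat_lit 4) (nat_lit 490) (nat_lit 335) (nat_lit 315)))))) (XT.nd (nat_lit 546) (nat_lit 760) (nat_lit 0) (XT.nd (nat_lit 234) (nat_lit 456) (nat_lit 0) (XT.nd (nat_lit 78) (nat_lit 152) (nat_lit 0) (XT.lf (nat_lit 0) (nat_lit 3420989984) (nat_lit 304) (nat_lit 3542228765) (nat_lit 76) (nat_lit 7513439834) (nat_lit 47) (nat_lit 5) (nat_lit 51) (nat_lit 5) (nat_lit 48) (nat_lit 4) (nat_lit 491) (nat_lit 335) (nat_lit 314)) (XT.nd (nat_lit 78) (nat_lit 0) (nat_lit 0) (XT.lf (nat_lit 0) (nat_lit 4215237158) (nat_lit 152) (nat_lit 3242841752)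 (nat_lit 228) (nat_lit 7215296816) (nat_lit 45) (nat_lit 5) (nat_lit 47) (nat_lit 5) (nat_lit 48) (nat_lit 4) (nat_lit 492) (nat_lit 335) (nat_lit 313)) (XT.lf (nat_lit 0) (nat_lit 11552105133) (nat_lit 228) (nat_lit 2789664153) (nat_lit 0) (nat_lit 532749504) (nat_lit 45) (nat_lit 5) (nat_lit 48) (nat_lit 4) (nat_lit 45) (nat_lit 4) (nat_lit 493) (nat_lit 335) (nat_lit 312)))) (XT.nd (nat_lit 156) (nat_lit 152) (nat_lit 0) (XT.nd (nat_lit 78) (nat_lit 0) (nat_lit 0) (XT.lf (nat_lit 0) (nat_lit 643395119) (nat_lit 304) (nat_lit 10094226993) (nat_lit 76) (nat_lit 4341921887) (nat_lit 41) (nat_lit 5) (nat_lit 45) (nat_lit 5) (nat_lit 42) (nat_lit 4) (nat_lit 494) (nat_lit 335) (nat_lit 311)) (XT.lf (nat_lit 0) (nat_lit 4612692568) (nat_lit 304) (nat_lit 2443431936) (nat_lit 76) (nat_lit 8232747387) (nat_lit 41) (nat_lit 5) (nat_lit 45) (nat_lit 5) (nat_lit 42) (nat_lit 4) (nat_lit 495) (nat_lit 335) (nat_lit 310)))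 (XT.nd (nat_lit 78) (nat_lit 0) (nat_lit 0) (XT.lf (nat_lit 0) (nat_lit 5345563184) (nat_lit 152) (nat_lit 3301278488) (nat_lit 228) (nat_lit 6855849666) (nat_lit 39) (nat_lit 5) (nat_lit 41) (nat_lit 5) (nat_lit 42) (nat_lit 4) (nat_lit 496) (nat_lit 335) (nat_lit 309)) (XT.lf (nat_lit 0) (nat_lit 12732557265) (nat_lit 228) (nat_lit 2485665583) (nat_lit 0) (nat_lit 503160683) (nat_lit 39) (nat_lit 5) (nat_lit 42) (nat_lit 4) (nat_lit 39) (nat_lit 4) (nat_lit 497) (nat_lit 335) (nat_lit 308))))) (XT.nd (nat_lit 234) (nat_lit 380) (nat_lit 0) (XT.nd (nat_lit 78) (nat_lit 152) (nat_lit 0) (XT.lf (nat_lit 0) (nat_lit 951250296) (nat_lit 228) (nat_lit 10647093895) (nat_lit 76) (nat_lit 4345829887) (nat_lit 36) (nat_lit 5) (nat_lit 39) (nat_lit 5) (nat_lit 37) (nat_lit 4) (nat_lit 498) (nat_lit 335) (nat_lit 307)) (XT.nd (nat_lit 78) (nat_lit 152) (nat_lit 0) (XT.lf (nat_lit 0) (nat_lit 4898919201) (nat_lit 228) (nat_lit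 3005374190) (nat_lit 76) (nat_lit 8267368917) (nat_lit 36) (nat_lit 5) (nat_lit 39) (nat_lit 5) (nat_lit 37) (nat_lit 4) (nat_lit 499) (nat_lit 335) (nat_lit 306)) (XT.lf (nat_lit 0) (nat_lit 4769817253) (nat_lit 152) (nat_lit 4139617749) (nat_lit 228) (nat_lit 7494600392) (nat_lit 34) (nat_lit 5) (nat_lit 36) (nat_lit 5) (nat_lit 37) (nat_lit 4) (nat_lit 500) (nat_lit 335) (nat_lit 305)))) (XT.nd (nat_lit 156) (nat_lit 152) (nat_lit 0) (XT.nd (nat_lit 78) (nat_lit 228) (nat_lit 0) (XT.lf (nat_lit 0) (nat_lit 12659870445) (nat_lit 152) (nat_lit 313777685) (nat_lit 228) (nat_lit 3667950777) (nat_lit 34) (nat_lit 5) (nat_lit 36) (nat_lit 5) (nat_lit 37) (nat_lit 4) (nat_lit 501) (nat_lit 335) (nat_lit 304)) (XT.lf (nat_lit 0) (nat_lit 233933309) (nat_lit 228) (nat_lit 13115972671) (nat_lit 76) (nat_lit 3533953645) (nat_lit 31) (nat_lit 5) (nat_lit 34) (nat_lit 5) (nat_lit 32) (nat_lit 4) (nat_lit 502) (nat_lit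 335) (nat_lit 303))) (XT.nd (nat_lit 78) (nat_lit 152) (nat_lit 0) (XT.lf (nat_lit 0) (nat_lit 4147843823) (nat_lit 228) (nat_lit 5511093672) (nat_lit 76) (nat_lit 7471893082) (nat_lit 31) (nat_lit 5) (nat_lit 34) (nat_lit 5) (nat_lit 32) (nat_lit 4) (nat_lit 503) (nat_lit 335) (nat_lit 302)) (XT.lf (nat_lit 0) (nat_lit 2195675120) (nat_lit 152) (nat_lit 5913595808) (nat_lit 228) (nat_lit 9274096991) (nat_lit 29) (nat_lit 5) (nat_lit 31) (nat_lit 5) (nat_lit 32) (nat_lit 4) (nat_lit 504) (nat_lit 335) (nat_lit 301))))))))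
noncomputable def xc18 : XT := (XT.nd (nat_lit 56472) (nat_lit 0) (nat_lit 2432) (XT.nd (nat_lit 1092) (nat_lit 684) (nat_lit 0) (XT.nd (nat_lit 546) (nat_lit 380) (nat_lit 0) (XT.nd (nat_lit 234) (nat_lit 228) (nat_lit 0) (XT.nd (nat_lit 78) (nat_lit 228) (nat_lit 0) (XT.lf (nat_lit 0) (nat_lit 10052798920) (nat_lit 152) (nat_lit 2089465716) (nat_lit 228) (nat_lit 5498856119) (nat_lit 29) (nat_lit 5) (nat_lit 31) (nat_lit 5) (nat_lit 32) (nat_lit 4) (nat_lit 505) (nat_lit 335) (nat_lit 300)) (XT.nd (nat_lit 78) (nat_lit 76) (nat_lit 0) (XT.lf (nat_lit 0) (nat_lit 74639255) (nat_lit 152) (nat_lit 16149538432) (nat_lit 152) (nat_lit 1680497054) (nat_lit 27) (nat_lit 4) (nat_lit 29) (nat_lit 5) (nat_lit 29) (nat_lit 4) (nat_lit 506) (nat_lit 335) (nat_lit 299)) (XT.lf (nat_lit 0) (nat_lit 2206363258) (nat_lit 228) (nat_lit 10285012046) (nat_lit 76) (nat_lit 5681424341) (nat_lit 26) (nat_lit 5) (nat_lit 29) (nat_lit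 5) (nat_lit 27) (nat_lit 4) (nat_lit 507) (nat_lit 335) (nat_lit 298)))) (XT.nd (nat_lit 156) (nat_lit 152) (nat_lit 0) (XT.nd (nat_lit 78) (nat_lit 76) (nat_lit 0) (XT.lf (nat_lit 0) (nat_lit 6105418875) (nat_lit 228) (nat_lit 2676394651) (nat_lit 76) (nat_lit 9665122792) (nat_lit 26) (nat_lit 5) (nat_lit 29) (nat_lit 5) (nat_lit 27) (nat_lit 4) (nat_lit 508) (nat_lit 335) (nat_lit 297)) (XT.lf (nat_lit 0) (nat_lit 5076287797) (nat_lit 76) (nat_lit 4996909689) (nat_lit 152) (nat_lit 8653553825) (nat_lit 25) (nat_lit 5) (nat_lit 26) (nat_lit 5) (nat_lit 27) (nat_lit 4) (nat_lit 509) (nat_lit 335) (nat_lit 296))) (XT.nd (nat_lit 78) (nat_lit 152) (nat_lit 0) (XT.lf (nat_lit 0) (nat_lit 12946110749) (nat_lit 76) (nat_lit 1150310265) (nat_lit 152) (nat_lit 4916230022) (nat_lit 25) (nat_lit 5) (nat_lit 26) (nat_lit 5) (nat_lit 27) (nat_lit 4) (nat_lit 510) (nat_lit 335) (nat_lit 295)) (XT.lf (nat_lit 0) (nat_lit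 1598659619) (nat_lit 152) (nat_lit 16588579124) (nat_lit 152) (nat_lit 1117297437) (nat_lit 23) (nat_lit 4) (nat_lit 25) (nat_lit 5) (nat_lit 25) (nat_lit 4) (nat_lit 511) (nat_lit 335) (nat_lit 294))))) (XT.nd (nat_lit 234) (nat_lit 228) (nat_lit 0) (XT.nd (nat_lit 78) (nat_lit 76) (nat_lit 0) (XT.lf (nat_lit 0) (nat_lit 2728844066) (nat_lit 228) (nat_lit 10201276977) (nat_lit 76) (nat_lit 6671641589) (nat_lit 22) (nat_lit 5) (nat_lit 25) (nat_lit 5) (nat_lit 23) (nat_lit 4) (nat_lit 512) (nat_lit 335) (nat_lit 293)) (XT.nd (nat_lit 78) (nat_lit 76) (nat_lit 0) (XT.lf (nat_lit 0) (nat_lit 6596569261) (nat_lit 228) (nat_lit 2625982185) (nat_lit 76) (nat_lit 10683051474) (nat_lit 22) (nat_lit 5) (nat_lit 25) (nat_lit 5) (nat_lit 23) (nat_lit 4) (nat_lit 513) (nat_lit 335) (nat_lit 292)) (XT.lf (nat_lit 0) (nat_lit 5097081900) (nat_lit 76) (nat_lit 5438060197) (nat_lit 152) (nat_lit 9680517310) (nat_lit 21) (nat_lit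 5) (nat_lit 22) (nat_lit 5) (nat_lit 23) (nat_lit 4) (nat_lit 514) (nat_lit 335) (nat_lit 291)))) (XT.nd (nat_lit 156) (nat_lit 76) (nat_lit 0) (XT.nd (nat_lit 78) (nat_lit 152) (nat_lit 0) (XT.lf (nat_lit 0) (nat_lit 12940081780) (nat_lit 76) (nat_lit 1590747037) (nat_lit 152) (nat_lit 6001530431) (nat_lit 21) (nat_lit 5) (nat_lit 22) (nat_lit 5) (nat_lit 23) (nat_lit 4) (nat_lit 515) (nat_lit 335) (nat_lit 290)) (XT.lf (nat_lit 0) (nat_lit 69574) (nat_lit 152) (nat_lit 18582805428) (nat_lit 152) (nat_lit 2272998068) (nat_lit 19) (nat_lit 4) (nat_lit 21) (nat_lit 5) (nat_lit 21) (nat_lit 4) (nat_lit 516) (nat_lit 335) (nat_lit 289))) (XT.nd (nat_lit 78) (nat_lit 0) (nat_lit 0) (XT.lf (nat_lit 0) (nat_lit 1533201130) (nat_lit 228) (nat_lit 13427861294) (nat_lit 76) (nat_lit 6224141329) (nat_lit 18) (nat_lit 5) (nat_lit 21) (nat_lit 5) (nat_lit 19) (nat_lit 4) (nat_lit 517) (nat_lit 335) (nat_lit 288)) (XT.lf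 (nat_lit 0) (nat_lit 5347218746) (nat_lit 228) (nat_lit 5934447883) (nat_lit 76) (nat_lit 10239919716) (nat_lit 18) (nat_lit 5) (nat_lit 21) (nat_lit 5) (nat_lit 19) (nat_lit 4) (nat_lit 518) (nat_lit 335) (nat_lit 287)))))) (XT.nd (nat_lit 546) (nat_lit 304) (nat_lit 0) (XT.nd (nat_lit 234) (nat_lit 304) (nat_lit 0) (XT.nd (nat_lit 78) (nat_lit 0) (nat_lit 0) (XT.lf (nat_lit 0) (nat_lit 1663956228) (nat_lit 76) (nat_lit 7547208532) (nat_lit 152) (nat_lit 12654067086) (nat_lit 17) (nat_lit 5) (nat_lit 18) (nat_lit 5) (nat_lit 19) (nat_lit 4) (nat_lit 519) (nat_lit 335) (nat_lit 286)) (XT.nd (nat_lit 78) (nat_lit 0) (nat_lit 0) (XT.lf (nat_lit 0) (nat_lit 9428509592) (nat_lit 76) (nat_lit 3726846232) (nat_lit 152) (nat_lit 9060343170) (nat_lit 17) (nat_lit 5) (nat_lit 18) (nat_lit 5) (nat_lit 19) (nat_lit 4) (nat_lit 520) (nat_lit 335) (nat_lit 285)) (XT.lf (nat_lit 0) (nat_lit 17143212344) (nat_lit 152) (nat_lit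 5291430715) (nat_lit 0) (nat_lit 139244693) (nat_lit 17) (nat_lit 5) (nat_lit 19) (nat_lit 4) (nat_lit 17) (nat_lit 4) (nat_lit 521) (nat_lit 335) (nat_lit 284)))) (XT.nd (nat_lit 156) (nat_lit 76) (nat_lit 0) (XT.nd (nat_lit 78) (nat_lit 76) (nat_lit 0) (XT.lf (nat_lit 0) (nat_lit 2295445659) (nat_lit 152) (nat_lit 18919355557) (nat_lit 152) (nat_lit 1724367309) (nat_lit 15) (nat_lit 4) (nat_lit 17) (nat_lit 5) (nat_lit 17) (nat_lit 4) (nat_lit 522) (nat_lit 335) (nat_lit 283)) (XT.lf (nat_lit 0) (nat_lit 2029277832) (nat_lit 228) (nat_lit 13283122122) (nat_lit 76) (nat_lit 7999091885) (nat_lit 14) (nat_lit 5) (nat_lit 17) (nat_lit 5) (nat_lit 15) (nat_lit 4) (nat_lit 523) (nat_lit 335) (nat_lit 282))) (XT.nd (nat_lit 78) (nat_lit 76) (nat_lit 0) (XT.lf (nat_lit 0) (nat_lit 5800058699) (nat_lit 228) (nat_lit 5849747804) (nat_lit 76) (nat_lit 12041931411) (nat_lit 14) (nat_lit 5) (nat_lit 17) (nat_lit 5) (nat_lit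 15) (nat_lit 4) (nat_lit 524) (nat_lit 335) (nat_lit 281)) (XT.lf (nat_lit 0) (nat_lit 1692711081) (nat_lit 76) (nat_lit 7930348539) (nat_lit 152) (nat_lit 14457000358) (nat_lit 13) (nat_lit 5) (nat_lit 14) (nat_lit 5) (nat_lit 15) (nat_lit 4) (nat_lit 525) (nat_lit 335) (nat_lit 280))))) (XT.nd (nat_lit 234) (nat_lit 304) (nat_lit 0) (XT.nd (nat_lit 78) (nat_lit 0) (nat_lit 0) (XT.lf (nat_lit 0) (nat_lit 9403937356) (nat_lit 76) (nat_lit 4123924135) (nat_lit 152) (nat_lit 10948187187) (nat_lit 13) (nat_lit 5) (nat_lit 14) (nat_lit 5) (nat_lit 15) (nat_lit 4) (nat_lit 526) (nat_lit 335) (nat_lit 279)) (XT.nd (nat_lit 78) (nat_lit 0) (nat_lit 0) (XT.lf (nat_lit 0) (nat_lit 17209214961) (nat_lit 76) (nat_lit 268295464) (nat_lit 152) (nat_lit 7403118586) (nat_lit 13) (nat_lit 5) (nat_lit 14) (nat_lit 5) (nat_lit 15) (nat_lit 4) (nat_lit 527) (nat_lit 335) (nat_lit 278)) (XT.lf (nat_lit 0) (nat_lit 21497175932) (nat_lit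 152) (nat_lit 205975474) (nat_lit 0) (nat_lit 3590335812) (nat_lit 13) (nat_lit 5) (nat_lit 15) (nat_lit 4) (nat_lit 13) (nat_lit 4) (nat_lit 528) (nat_lit 335) (nat_lit 277)))) (XT.nd (nat_lit 156) (nat_lit 76) (nat_lit 0) (XT.nd (nat_lit 78) (nat_lit 76) (nat_lit 0) (XT.lf (nat_lit 0) (nat_lit 7446340836) (nat_lit 152) (nat_lit 18168891388) (nat_lit 152) (nat_lit 99017028) (nat_lit 11) (nat_lit 4) (nat_lit 13) (nat_lit 5) (nat_lit 13) (nat_lit 4) (nat_lit 529) (nat_lit 335) (nat_lit 276)) (XT.lf (nat_lit 0) (nat_lit 3593363033) (nat_lit 228) (nat_lit 10971118522) (nat_lit 76) (nat_lit 11579088438) (nat_lit 10) (nat_lit 5) (nat_lit 13) (nat_lit 5) (nat_lit 11) (nat_lit 4) (nat_lit 530) (nat_lit 335) (nat_lit 275))) (XT.nd (nat_lit 78) (nat_lit 76) (nat_lit 0) (XT.lf (nat_lit 0) (nat_lit 7326805731) (nat_lit 228) (nat_lit 3586267693) (nat_lit 76) (nat_lit 15669026047) (nat_lit 10) (nat_lit 5) (nat_lit 13) (nat_lit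 5) (nat_lit 11) (nat_lit 4) (nat_lit 531) (nat_lit 335) (nat_lit 274)) (XT.lf (nat_lit 0) (nat_lit 3941881458) (nat_lit 76) (nat_lit 7187785639) (nat_lit 152) (nat_lit 15899843553) (nat_lit 9) (nat_lit 5) (nat_lit 10) (nat_lit 5) (nat_lit 11) (nat_lit 4) (nat_lit 532) (nat_lit 335) (nat_lit 273))))))) (XT.nd (nat_lit 1092) (nat_lit 1748) (nat_lit 0) (XT.nd (nat_lit 546) (nat_lit 1444) (nat_lit 0) (XT.nd (nat_lit 234) (nat_lit 608) (nat_lit 0) (XT.nd (nat_lit 78) (nat_lit 684) (nat_lit 0) (XT.lf (nat_lit 0) (nat_lit 3558334463) (nat_lit 304) (nat_lit 954334827) (nat_lit 304) (nat_lit 954334827) (nat_lit 100) (nat_lit 4) (nat_lit 104) (nat_lit 5) (nat_lit 104) (nat_lit 4) (nat_lit 468) (nat_lit 336) (nat_lit 336)) (XT.nd (nat_lit 78) (nat_lit 304) (nat_lit 0) (XT.lf (nat_lit 0) (nat_lit 2174010389) (nat_lit 380) (nat_lit 7398763079) (nat_lit 0) (nat_lit 1482033862) (nat_lit 95) (nat_lit 5) (nat_lit 100) (nat_lit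 4) (nat_lit 95) (nat_lit 4) (nat_lit 469) (nat_lit 336) (nat_lit 335)) (XT.lf (nat_lit 0) (nat_lit 28059204) (nat_lit 304) (nat_lit 6260305853) (nat_lit 304) (nat_lit 4889920966) (nat_lit 91) (nat_lit 4) (nat_lit 95) (nat_lit 5) (nat_lit 95) (nat_lit 4) (nat_lit 470) (nat_lit 336) (nat_lit 334)))) (XT.nd (nat_lit 156) (nat_lit 304) (nat_lit 0) (XT.nd (nat_lit 78) (nat_lit 304) (nat_lit 0) (XT.lf (nat_lit 0) (nat_lit 7604378735) (nat_lit 304) (nat_lit 2867814953) (nat_lit 304) (nat_lit 832323831) (nat_lit 91) (nat_lit 4) (nat_lit 95) (nat_lit 5) (nat_lit 95) (nat_lit 4) (nat_lit 471) (nat_lit 336) (nat_lit 333)) (XT.lf (nat_lit 0) (nat_lit 3230171323) (nat_lit 304) (nat_lit 7608044243) (nat_lit 0) (nat_lit 595312441) (nat_lit 87) (nat_lit 5) (nat_lit 91) (nat_lit 4) (nat_lit 87) (nat_lit 4) (nat_lit 472) (nat_lit 336) (nat_lit 332))) (XT.nd (nat_lit 78) (nat_lit 304) (nat_lit 0) (XT.lf (nat_lit 0) (nat_lit 7345437568)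 (nat_lit 304) (nat_lit 136108968) (nat_lit 0) (nat_lit 4083834226) (nat_lit 87) (nat_lit 5) (nat_lit 91) (nat_lit 4) (nat_lit 87) (nat_lit 4) (nat_lit 473) (nat_lit 336) (nat_lit 331)) (XT.lf (nat_lit 0) (nat_lit 7486795568) (nat_lit 304) (nat_lit 4044694497) (nat_lit 304) (nat_lit 168635802) (nat_lit 83) (nat_lit 4) (nat_lit 87) (nat_lit 5) (nat_lit 87) (nat_lit 4) (nat_lit 474) (nat_lit 336) (nat_lit 330))))) (XT.nd (nat_lit 234) (nat_lit 760) (nat_lit 0) (XT.nd (nat_lit 78) (nat_lit 380) (nat_lit 0) (XT.lf (nat_lit 0) (nat_lit 3347775869) (nat_lit 228) (nat_lit 526601246) (nat_lit 304) (nat_lit 7963444725) (nat_lit 79) (nat_lit 5) (nat_lit 82) (nat_lit 5) (nat_lit 83) (nat_lit 4) (nat_lit 475) (nat_lit 336) (nat_lit 329)) (XT.nd (nat_lit 78) (nat_lit 380) (nat_lit 0) (XT.lf (nat_lit 0) (nat_lit 7984656383) (nat_lit 304) (nat_lit 978854717) (nat_lit 0) (nat_lit 3014988533) (nat_lit 79) (nat_lit 5) (nat_lit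 83) (nat_lit 4) (nat_lit 79) (nat_lit 4) (nat_lit 476) (nat_lit 336) (nat_lit 328)) (XT.lf (nat_lit 0) (nat_lit 42620273) (nat_lit 380) (nat_lit 5451236664) (nat_lit 76) (nat_lit 6628385580) (nat_lit 74) (nat_lit 5) (nat_lit 79) (nat_lit 5) (nat_lit 75) (nat_lit 4) (nat_lit 477) (nat_lit 336) (nat_lit 327)))) (XT.nd (nat_lit 156) (nat_lit 532) (nat_lit 0) (XT.nd (nat_lit 78) (nat_lit 0) (nat_lit 0) (XT.lf (nat_lit 0) (nat_lit 2124324040) (nat_lit 228) (nat_lit 1944084277) (nat_lit 304) (nat_lit 8200704623) (nat_lit 71) (nat_lit 5) (nat_lit 74) (nat_lit 5) (nat_lit 75) (nat_lit 4) (nat_lit 478) (nat_lit 336) (nat_lit 326)) (XT.lf (nat_lit 0) (nat_lit 8164328457) (nat_lit 304) (nat_lit 2599786876) (nat_lit 0) (nat_lit 1655034799) (nat_lit 71) (nat_lit 5) (nat_lit 75) (nat_lit 4) (nat_lit 71) (nat_lit 4) (nat_lit 479) (nat_lit 336) (nat_lit 325))) (XT.nd (nat_lit 78) (nat_lit 304) (nat_lit 0) (XT.lf (nat_lit 0)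 (nat_lit 5055665811) (nat_lit 228) (nat_lit 7275246995) (nat_lit 228) (nat_lit 241521609) (nat_lit 68) (nat_lit 4) (nat_lit 71) (nat_lit 5) (nat_lit 71) (nat_lit 4) (nat_lit 480) (nat_lit 336) (nat_lit 324)) (XT.lf (nat_lit 0) (nat_lit 52557877) (nat_lit 228) (nat_lit 3710032229) (nat_lit 304) (nat_lit 8966493198) (nat_lit 64) (nat_lit 5) (nat_lit 67) (nat_lit 5) (nat_lit 68) (nat_lit 4) (nat_lit 481) (nat_lit 336) (nat_lit 323)))))) (XT.nd (nat_lit 546) (nat_lit 760) (nat_lit 0) (XT.nd (nat_lit 234) (nat_lit 684) (nat_lit 0) (XT.nd (nat_lit 78) (nat_lit 304) (nat_lit 0) (XT.lf (nat_lit 0) (nat_lit 7780121859) (nat_lit 228) (nat_lit 57533290) (nat_lit 304) (nat_lit 5051316026) (nat_lit 64) (nat_lit 5) (nat_lit 67) (nat_lit 5) (nat_lit 68) (nat_lit 4) (nat_lit 482) (nat_lit 336) (nat_lit 322)) (XT.nd (nat_lit 78) (nat_lit 76) (nat_lit 0) (XT.lf (nat_lit 0) (nat_lit 2527031257) (nat_lit 228) (nat_lit 9451952071)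 (nat_lit 228) (nat_lit 1073397882) (nat_lit 61) (nat_lit 4) (nat_lit 64) (nat_lit 5) (nat_lit 64) (nat_lit 4) (nat_lit 483) (nat_lit 336) (nat_lit 321)) (XT.lf (nat_lit 0) (nat_lit 2924480452) (nat_lit 304) (nat_lit 2946097647) (nat_lit 76) (nat_lit 7348521965) (nat_lit 60) (nat_lit 5) (nat_lit 64) (nat_lit 5) (nat_lit 61) (nat_lit 4) (nat_lit 484) (nat_lit 336) (nat_lit 320)))) (XT.nd (nat_lit 156) (nat_lit 456) (nat_lit 0) (XT.nd (nat_lit 78) (nat_lit 0) (nat_lit 0) (XT.lf (nat_lit 0) (nat_lit 4749110242) (nat_lit 228) (nat_lit 2215413901) (nat_lit 304) (nat_lit 6424974148) (nat_lit 57) (nat_lit 5) (nat_lit 60) (nat_lit 5) (nat_lit 61) (nat_lit 4) (nat_lit 485) (nat_lit 336) (nat_lit 319)) (XT.lf (nat_lit 0) (nat_lit 11061066632) (nat_lit 304) (nat_lit 1025771395) (nat_lit 0) (nat_lit 1476970645) (nat_lit 57) (nat_lit 5) (nat_lit 61) (nat_lit 4) (nat_lit 57) (nat_lit 4) (nat_lit 486) (nat_lit 336) (nat_lit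 318))) (XT.nd (nat_lit 78) (nat_lit 152) (nat_lit 0) (XT.lf (nat_lit 0) (nat_lit 1483678348) (nat_lit 304) (nat_lit 7025886733) (nat_lit 76) (nat_lit 5231755325) (nat_lit 53) (nat_lit 5) (nat_lit 57) (nat_lit 5) (nat_lit 54) (nat_lit 4) (nat_lit 487) (nat_lit 336) (nat_lit 317)) (XT.lf (nat_lit 0) (nat_lit 605024652) (nat_lit 152) (nat_lit 4869311151) (nat_lit 228) (nat_lit 8448572400) (nat_lit 51) (nat_lit 5) (nat_lit 53) (nat_lit 5) (nat_lit 54) (nat_lit 4) (nat_lit 488) (nat_lit 336) (nat_lit 316))))) (XT.nd (nat_lit 234) (nat_lit 456) (nat_lit 0) (XT.nd (nat_lit 78) (nat_lit 304) (nat_lit 0) (XT.lf (nat_lit 0) (nat_lit 8394967196) (nat_lit 152) (nat_lit 1144578310) (nat_lit 228) (nat_lit 4568704237) (nat_lit 51) (nat_lit 5) (nat_lit 53) (nat_lit 5) (nat_lit 54) (nat_lit 4) (nat_lit 489) (nat_lit 336) (nat_lit 315)) (XT.nd (nat_lit 78) (nat_lit 76) (nat_lit 0) (XT.lf (nat_lit 0) (nat_lit 1964038048) (nat_lit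 228) (nat_lit 11700396443) (nat_lit 228) (nat_lit 633312555) (nat_lit 48) (nat_lit 4) (nat_lit 51) (nat_lit 5) (nat_lit 51) (nat_lit 4) (nat_lit 490) (nat_lit 336) (nat_lit 314)) (XT.lf (nat_lit 0) (nat_lit 3331098189) (nat_lit 304) (nat_lit 4735719252) (nat_lit 76) (nat_lit 6423900631) (nat_lit 47) (nat_lit 5) (nat_lit 51) (nat_lit 5) (nat_lit 48) (nat_lit 4) (nat_lit 491) (nat_lit 336) (nat_lit 313)))) (XT.nd (nat_lit 156) (nat_lit 304) (nat_lit 0) (XT.nd (nat_lit 78) (nat_lit 0) (nat_lit 0) (XT.lf (nat_lit 0) (nat_lit 2962599387) (nat_lit 152) (nat_lit 4372448871) (nat_lit 228) (nat_lit 7353057403) (nat_lit 45) (nat_lit 5) (nat_lit 47) (nat_lit 5) (nat_lit 48) (nat_lit 4) (nat_lit 492) (nat_lit 336) (nat_lit 312)) (XT.lf (nat_lit 0) (nat_lit 10793354226) (nat_lit 152) (nat_lit 607424198) (nat_lit 228) (nat_lit 3489043740) (nat_lit 45) (nat_lit 5) (nat_lit 47) (nat_lit 5) (nat_lit 48) (nat_lit 4) (nat_lit 493)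 (nat_lit 336) (nat_lit 311))) (XT.nd (nat_lit 78) (nat_lit 0) (nat_lit 0) (XT.lf (nat_lit 0) (nat_lit 441487904) (nat_lit 304) (nat_lit 11471672568) (nat_lit 76) (nat_lit 3182465014) (nat_lit 41) (nat_lit 5) (nat_lit 45) (nat_lit 5) (nat_lit 42) (nat_lit 4) (nat_lit 494) (nat_lit 336) (nat_lit 310)) (XT.lf (nat_lit 0) (nat_lit 4386408503) (nat_lit 304) (nat_lit 3862919025) (nat_lit 76) (nat_lit 7056120470) (nat_lit 41) (nat_lit 5) (nat_lit 45) (nat_lit 5) (nat_lit 42) (nat_lit 4) (nat_lit 495) (nat_lit 336) (nat_lit 309))))))))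
noncomputable def xc19 : XT := (XT.nd (nat_lit 2184) (nat_lit 380) (nat_lit 0) (XT.nd (nat_lit 1092) (nat_lit 836) (nat_lit 0) (XT.nd (nat_lit 546) (nat_lit 532) (nat_lit 0) (XT.nd (nat_lit 234) (nat_lit 304) (nat_lit 0) (XT.nd (nat_lit 78) (nat_lit 228) (nat_lit 0) (XT.lf (nat_lit 0) (nat_lit 3865446933) (nat_lit 152) (nat_lit 4521601906) (nat_lit 228) (nat_lit 7132895726) (nat_lit 39) (nat_lit 5) (nat_lit 41) (nat_lit 5) (nat_lit 42) (nat_lit 4) (nat_lit 496) (nat_lit 336) (nat_lit 308)) (XT.nd (nat_lit 78) (nat_lit 228) (nat_lit 0) (XT.lf (nat_lit 0) (nat_lit 11718032166) (nat_lit 152) (nat_lit 727725883) (nat_lit 228) (nat_lit 3293425646) (nat_lit 39) (nat_lit 5) (nat_lit 41) (nat_lit 5) (nat_lit 42) (nat_lit 4) (nat_lit 497) (nat_lit 336) (nat_lit 307)) (XT.lf (nat_lit 0) (nat_lit 611981437) (nat_lit 228) (nat_lit 12255583778) (nat_lit 76) (nat_lit 3095228412) (nat_lit 36) (nat_lit 5) (nat_lit 39) (nat_lit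 5) (nat_lit 37) (nat_lit 4) (nat_lit 498) (nat_lit 336) (nat_lit 306)))) (XT.nd (nat_lit 156) (nat_lit 152) (nat_lit 0) (XT.nd (nat_lit 78) (nat_lit 152) (nat_lit 0) (XT.lf (nat_lit 0) (nat_lit 4536345738) (nat_lit 228) (nat_lit 4654418363) (nat_lit 76) (nat_lit 6999990264) (nat_lit 36) (nat_lit 5) (nat_lit 39) (nat_lit 5) (nat_lit 37) (nat_lit 4) (nat_lit 499) (nat_lit 336) (nat_lit 305)) (XT.lf (nat_lit 0) (nat_lit 3058570666) (nat_lit 152) (nat_lit 5454332674) (nat_lit 228) (nat_lit 7910909564) (nat_lit 34) (nat_lit 5) (nat_lit 36) (nat_lit 5) (nat_lit 37) (nat_lit 4) (nat_lit 500) (nat_lit 336) (nat_lit 304))) (XT.nd (nat_lit 78) (nat_lit 152) (nat_lit 0) (XT.lf (nat_lit 0) (nat_lit 10909126323) (nat_lit 152) (nat_lit 1645334044) (nat_lit 228) (nat_lit 4107375340) (nat_lit 34) (nat_lit 5) (nat_lit 36) (nat_lit 5) (nat_lit 37) (nat_lit 4) (nat_lit 501) (nat_lit 336) (nat_lit 303)) (XT.lf (nat_lit 0) (nat_lit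 1944115361) (nat_lit 152) (nat_lit 14714813703) (nat_lit 152) (nat_lit 246060503) (nat_lit 32) (nat_lit 4) (nat_lit 34) (nat_lit 5) (nat_lit 34) (nat_lit 4) (nat_lit 502) (nat_lit 336) (nat_lit 302))))) (XT.nd (nat_lit 234) (nat_lit 304) (nat_lit 0) (XT.nd (nat_lit 78) (nat_lit 152) (nat_lit 0) (XT.lf (nat_lit 0) (nat_lit 3648791297) (nat_lit 228) (nat_lit 7393508739) (nat_lit 76) (nat_lit 6110143963) (nat_lit 31) (nat_lit 5) (nat_lit 34) (nat_lit 5) (nat_lit 32) (nat_lit 4) (nat_lit 503) (nat_lit 336) (nat_lit 301)) (XT.nd (nat_lit 78) (nat_lit 0) (nat_lit 0) (XT.lf (nat_lit 0) (nat_lit 249389939) (nat_lit 152) (nat_lit 7326343025) (nat_lit 228) (nat_lit 9829943782) (nat_lit 29) (nat_lit 5) (nat_lit 31) (nat_lit 5) (nat_lit 32) (nat_lit 4) (nat_lit 504) (nat_lit 336) (nat_lit 300)) (XT.lf (nat_lit 0) (nat_lit 8068421770) (nat_lit 152) (nat_lit 3518637129) (nat_lit 228) (nat_lit 6076809623) (nat_lit 29) (nat_lit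 5) (nat_lit 31) (nat_lit 5) (nat_lit 32) (nat_lit 4) (nat_lit 505) (nat_lit 336) (nat_lit 299)))) (XT.nd (nat_lit 156) (nat_lit 76) (nat_lit 0) (XT.nd (nat_lit 78) (nat_lit 228) (nat_lit 0) (XT.lf (nat_lit 0) (nat_lit 15637860754) (nat_lit 228) (nat_lit 1961856297) (nat_lit 0) (nat_lit 328333158) (nat_lit 29) (nat_lit 5) (nat_lit 32) (nat_lit 4) (nat_lit 29) (nat_lit 4) (nat_lit 506) (nat_lit 336) (nat_lit 298)) (XT.lf (nat_lit 0) (nat_lit 1570357290) (nat_lit 228) (nat_lit 12404880821) (nat_lit 76) (nat_lit 4221707631) (nat_lit 26) (nat_lit 5) (nat_lit 29) (nat_lit 5) (nat_lit 27) (nat_lit 4) (nat_lit 507) (nat_lit 336) (nat_lit 297))) (XT.nd (nat_lit 78) (nat_lit 76) (nat_lit 0) (XT.lf (nat_lit 0) (nat_lit 5448513528) (nat_lit 228) (nat_lit 4833235565) (nat_lit 76) (nat_lit 8189756470) (nat_lit 26) (nat_lit 5) (nat_lit 29) (nat_lit 5) (nat_lit 27) (nat_lit 4) (nat_lit 508) (nat_lit 336) (nat_lit 296)) (XT.lf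 (nat_lit 0) (nat_lit 2854054701) (nat_lit 76) (nat_lit 6527319639) (nat_lit 152) (nat_lit 9370649631) (nat_lit 25) (nat_lit 5) (nat_lit 26) (nat_lit 5) (nat_lit 27) (nat_lit 4) (nat_lit 509) (nat_lit 336) (nat_lit 295)))))) (XT.nd (nat_lit 546) (nat_lit 532) (nat_lit 0) (XT.nd (nat_lit 234) (nat_lit 76) (nat_lit 0) (XT.nd (nat_lit 78) (nat_lit 228) (nat_lit 0) (XT.lf (nat_lit 0) (nat_lit 10687868925) (nat_lit 76) (nat_lit 2696407318) (nat_lit 152) (nat_lit 5654058845) (nat_lit 25) (nat_lit 5) (nat_lit 26) (nat_lit 5) (nat_lit 27) (nat_lit 4) (nat_lit 510) (nat_lit 336) (nat_lit 294)) (XT.nd (nat_lit 78) (nat_lit 228) (nat_lit 0) (XT.lf (nat_lit 0) (nat_lit 17434653113) (nat_lit 152) (nat_lit 731800823) (nat_lit 0) (nat_lit 1164579976) (nat_lit 25) (nat_lit 5) (nat_lit 27) (nat_lit 4) (nat_lit 25) (nat_lit 4) (nat_lit 511) (nat_lit 336) (nat_lit 293)) (XT.lf (nat_lit 0) (nat_lit 1935135866) (nat_lit 228) (nat_lit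 12598608788) (nat_lit 76) (nat_lit 5095118405) (nat_lit 22) (nat_lit 5) (nat_lit 25) (nat_lit 5) (nat_lit 23) (nat_lit 4) (nat_lit 512) (nat_lit 336) (nat_lit 292)))) (XT.nd (nat_lit 156) (nat_lit 0) (nat_lit 0) (XT.nd (nat_lit 78) (nat_lit 76) (nat_lit 0) (XT.lf (nat_lit 0) (nat_lit 5783256854) (nat_lit 228) (nat_lit 5058257435) (nat_lit 76) (nat_lit 9091585724) (nat_lit 22) (nat_lit 5) (nat_lit 25) (nat_lit 5) (nat_lit 23) (nat_lit 4) (nat_lit 513) (nat_lit 336) (nat_lit 291)) (XT.lf (nat_lit 0) (nat_lit 2597769444) (nat_lit 76) (nat_lit 7088613239) (nat_lit 152) (nat_lit 10557487249) (nat_lit 21) (nat_lit 5) (nat_lit 22) (nat_lit 5) (nat_lit 23) (nat_lit 4) (nat_lit 514) (nat_lit 336) (nat_lit 290))) (XT.nd (nat_lit 78) (nat_lit 0) (nat_lit 0) (XT.lf (nat_lit 0) (nat_lit 10406736433) (nat_lit 76) (nat_lit 3256269054) (nat_lit 152) (nat_lit 6897949969) (nat_lit 21) (nat_lit 5) (nat_lit 22) (nat_lit 5) (nat_lit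 23) (nat_lit 4) (nat_lit 515) (nat_lit 336) (nat_lit 289)) (XT.lf (nat_lit 0) (nat_lit 17685452149) (nat_lit 152) (nat_lit 2584707634) (nat_lit 0) (nat_lit 614905802) (nat_lit 21) (nat_lit 5) (nat_lit 23) (nat_lit 4) (nat_lit 21) (nat_lit 4) (nat_lit 516) (nat_lit 336) (nat_lit 288))))) (XT.nd (nat_lit 234) (nat_lit 304) (nat_lit 0) (XT.nd (nat_lit 78) (nat_lit 0) (nat_lit 0) (XT.lf (nat_lit 0) (nat_lit 582859550) (nat_lit 228) (nat_lit 16104072229) (nat_lit 76) (nat_lit 4528306543) (nat_lit 18) (nat_lit 5) (nat_lit 21) (nat_lit 5) (nat_lit 19) (nat_lit 4) (nat_lit 517) (nat_lit 336) (nat_lit 287)) (XT.nd (nat_lit 78) (nat_lit 0) (nat_lit 0) (XT.lf (nat_lit 0) (nat_lit 4378483374) (nat_lit 228) (nat_lit 8643678942) (nat_lit 76) (nat_lit 8529830542) (nat_lit 18) (nat_lit 5) (nat_lit 21) (nat_lit 5) (nat_lit 19) (nat_lit 4) (nat_lit 518) (nat_lit 336) (nat_lit 286)) (XT.lf (nat_lit 0) (nat_lit 8213592751) (nat_lit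 228) (nat_lit 1099470587) (nat_lit 76) (nat_lit 12583155744) (nat_lit 18) (nat_lit 5) (nat_lit 21) (nat_lit 5) (nat_lit 19) (nat_lit 4) (nat_lit 519) (nat_lit 336) (nat_lit 285)))) (XT.nd (nat_lit 156) (nat_lit 228) (nat_lit 0) (XT.nd (nat_lit 78) (nat_lit 0) (nat_lit 0) (XT.lf (nat_lit 0) (nat_lit 6618311697) (nat_lit 76) (nat_lit 5514350417) (nat_lit 152) (nat_lit 10114530461) (nat_lit 17) (nat_lit 5) (nat_lit 18) (nat_lit 5) (nat_lit 19) (nat_lit 4) (nat_lit 520) (nat_lit 336) (nat_lit 284)) (XT.lf (nat_lit 0) (nat_lit 14441664435) (nat_lit 76) (nat_lit 1660400524) (nat_lit 152) (nat_lit 6503689281) (nat_lit 17) (nat_lit 5) (nat_lit 18) (nat_lit 5) (nat_lit 19) (nat_lit 4) (nat_lit 521) (nat_lit 336) (nat_lit 283))) (XT.nd (nat_lit 78) (nat_lit 228) (nat_lit 0) (XT.lf (nat_lit 0) (nat_lit 20130687078) (nat_lit 152) (nat_lit 627707657) (nat_lit 0) (nat_lit 2213503372) (nat_lit 17) (nat_lit 5) (nat_lit 19) (nat_lit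 4) (nat_lit 17) (nat_lit 4) (nat_lit 522) (nat_lit 336) (nat_lit 282)) (XT.lf (nat_lit 0) (nat_lit 905662594) (nat_lit 228) (nat_lit 16271348300) (nat_lit 76) (nat_lit 6167787549) (nat_lit 14) (nat_lit 5) (nat_lit 17) (nat_lit 5) (nat_lit 15) (nat_lit 4) (nat_lit 523) (nat_lit 336) (nat_lit 281))))))) (XT.nd (nat_lit 55224) (nat_lit 0) (nat_lit 3648) (XT.nd (nat_lit 546) (nat_lit 76) (nat_lit 0) (XT.nd (nat_lit 234) (nat_lit 228) (nat_lit 0) (XT.nd (nat_lit 78) (nat_lit 76) (nat_lit 0) (XT.lf (nat_lit 0) (nat_lit 4659519815) (nat_lit 228) (nat_lit 8868559689) (nat_lit 76) (nat_lit 10197307029) (nat_lit 14) (nat_lit 5) (nat_lit 17) (nat_lit 5) (nat_lit 15) (nat_lit 4) (nat_lit 524) (nat_lit 336) (nat_lit 280)) (XT.nd (nat_lit 78) (nat_lit 76) (nat_lit 0) (XT.lf (nat_lit 0) (nat_lit 8454938722) (nat_lit 228) (nat_lit 1378287000) (nat_lit 76) (nat_lit 14281037987) (nat_lit 14) (nat_lit 5) (nat_lit 17) (nat_lit 5)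 (nat_lit 15) (nat_lit 4) (nat_lit 525) (nat_lit 336) (nat_lit 279)) (XT.lf (nat_lit 0) (nat_lit 6284833855) (nat_lit 76) (nat_lit 6049379172) (nat_lit 152) (nat_lit 12176553339) (nat_lit 13) (nat_lit 5) (nat_lit 14) (nat_lit 5) (nat_lit 15) (nat_lit 4) (nat_lit 526) (nat_lit 336) (nat_lit 278)))) (XT.nd (nat_lit 156) (nat_lit 228) (nat_lit 0) (XT.nd (nat_lit 78) (nat_lit 0) (nat_lit 0) (XT.lf (nat_lit 0) (nat_lit 14060906841) (nat_lit 76) (nat_lit 2206817973) (nat_lit 152) (nat_lit 8647947964) (nat_lit 13) (nat_lit 5) (nat_lit 14) (nat_lit 5) (nat_lit 15) (nat_lit 4) (nat_lit 527) (nat_lit 336) (nat_lit 277)) (XT.lf (nat_lit 0) (nat_lit 20258900236) (nat_lit 152) (nat_lit 3405609675) (nat_lit 0) (nat_lit 1664594149) (nat_lit 13) (nat_lit 5) (nat_lit 15) (nat_lit 4) (nat_lit 13) (nat_lit 4) (nat_lit 528) (nat_lit 336) (nat_lit 276))) (XT.nd (nat_lit 78) (nat_lit 76) (nat_lit 0) (XT.lf (nat_lit 0) (nat_lit 4175506619)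 (nat_lit 152) (nat_lit 20164621415) (nat_lit 152) (nat_lit 1410477837) (nat_lit 11) (nat_lit 4) (nat_lit 13) (nat_lit 5) (nat_lit 13) (nat_lit 4) (nat_lit 529) (nat_lit 336) (nat_lit 275)) (XT.lf (nat_lit 0) (nat_lit 2283527829) (nat_lit 228) (nat_lit 14298120783) (nat_lit 76) (nat_lit 9598762870) (nat_lit 10) (nat_lit 5) (nat_lit 13) (nat_lit 5) (nat_lit 11) (nat_lit 4) (nat_lit 530) (nat_lit 336) (nat_lit 274))))) (XT.nd (nat_lit 54366) (nat_lit 0) (nat_lit 6536) (XT.nd (nat_lit 78) (nat_lit 76) (nat_lit 0) (XT.lf (nat_lit 0) (nat_lit 6001701470) (nat_lit 228) (nat_lit 6941040834) (nat_lit 76) (nat_lit 13676507060) (nat_lit 10) (nat_lit 5) (nat_lit 13) (nat_lit 5) (nat_lit 11) (nat_lit 4) (nat_lit 531) (nat_lit 336) (nat_lit 273)) (XT.nd (nat_lit 54210) (nat_lit 0) (nat_lit 7220) (XT.lf (nat_lit 0) (nat_lit 514936970) (nat_lit 76) (nat_lit 9252406204) (nat_lit 152) (nat_lit 17300064726) (nat_lit 9) (nat_lit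 5) (nat_lit 10) (nat_lit 5) (nat_lit 11) (nat_lit 4) (nat_lit 532) (nat_lit 336) (nat_lit 272)) (XT.lf (nat_lit 0) (nat_lit 744687284) (nat_lit 380) (nat_lit 3860496672) (nat_lit 0) (nat_lit 744687284) (nat_lit 104) (nat_lit 5) (nat_lit 109) (nat_lit 4) (nat_lit 104) (nat_lit 4) (nat_lit 466) (nat_lit 337) (nat_lit 337)))) (XT.nd (nat_lit 156) (nat_lit 380) (nat_lit 0) (XT.nd (nat_lit 78) (nat_lit 304) (nat_lit 0) (XT.lf (nat_lit 0) (nat_lit 5569159768) (nat_lit 380) (nat_lit 397467159) (nat_lit 0) (nat_lit 4849227390) (nat_lit 104) (nat_lit 5) (nat_lit 109) (nat_lit 4) (nat_lit 104) (nat_lit 4) (nat_lit 467) (nat_lit 337) (nat_lit 336)) (XT.lf (nat_lit 0) (nat_lit 7067795578) (nat_lit 304) (nat_lit 2646299390) (nat_lit 304) (nat_lit 1220550954) (nat_lit 100) (nat_lit 4) (nat_lit 104) (nat_lit 5) (nat_lit 104) (nat_lit 4) (nat_lit 468) (nat_lit 337) (nat_lit 335))) (XT.nd (nat_lit 78) (nat_lit 0) (nat_lit 0)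 (XT.lf (nat_lit 0) (nat_lit 2816772291) (nat_lit 380) (nat_lit 7498752281) (nat_lit 0) (nat_lit 740571346) (nat_lit 95) (nat_lit 5) (nat_lit 100) (nat_lit 4) (nat_lit 95) (nat_lit 4) (nat_lit 469) (nat_lit 337) (nat_lit 334)) (XT.lf (nat_lit 0) (nat_lit 6900341910) (nat_lit 380) (nat_lit 120827023) (nat_lit 0) (nat_lit 4159034730) (nat_lit 95) (nat_lit 5) (nat_lit 100) (nat_lit 4) (nat_lit 95) (nat_lit 4) (nat_lit 470) (nat_lit 337) (nat_lit 333)))))) (XT.nd (nat_lit 546) (nat_lit 1292) (nat_lit 0) (XT.nd (nat_lit 234) (nat_lit 988) (nat_lit 0) (XT.nd (nat_lit 78) (nat_lit 304) (nat_lit 0) (XT.lf (nat_lit 0) (nat_lit 7405677025) (nat_lit 304) (nat_lit 3647382777) (nat_lit 304) (nat_lit 254010660) (nat_lit 91) (nat_lit 4) (nat_lit 95) (nat_lit 5) (nat_lit 95) (nat_lit 4) (nat_lit 471) (nat_lit 337) (nat_lit 332)) (XT.nd (nat_lit 78) (nat_lit 0) (nat_lit 0) (XT.lf (nat_lit 0) (nat_lit 3573436327) (nat_lit 228)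 (nat_lit 191953669) (nat_lit 304) (nat_lit 7671338634) (nat_lit 87) (nat_lit 5) (nat_lit 90) (nat_lit 5) (nat_lit 91) (nat_lit 4) (nat_lit 472) (nat_lit 337) (nat_lit 331)) (XT.lf (nat_lit 0) (nat_lit 7849643458) (nat_lit 304) (nat_lit 437962279) (nat_lit 0) (nat_lit 3281608236) (nat_lit 87) (nat_lit 5) (nat_lit 91) (nat_lit 4) (nat_lit 87) (nat_lit 4) (nat_lit 473) (nat_lit 337) (nat_lit 330)))) (XT.nd (nat_lit 156) (nat_lit 380) (nat_lit 0) (XT.nd (nat_lit 78) (nat_lit 228) (nat_lit 0) (XT.lf (nat_lit 0) (nat_lit 295688342) (nat_lit 380) (nat_lit 4573151978) (nat_lit 76) (nat_lit 6835721490) (nat_lit 82) (nat_lit 5) (nat_lit 87) (nat_lit 5) (nat_lit 83) (nat_lit 4) (nat_lit 474) (nat_lit 337) (nat_lit 329)) (XT.lf (nat_lit 0) (nat_lit 2934435056) (nat_lit 228) (nat_lit 1370254443) (nat_lit 304) (nat_lit 7538194010) (nat_lit 79) (nat_lit 5) (nat_lit 82) (nat_lit 5) (nat_lit 83) (nat_lit 4) (nat_lit 475) (nat_lit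 337) (nat_lit 328))) (XT.nd (nat_lit 78) (nat_lit 380) (nat_lit 0) (XT.lf (nat_lit 0) (nat_lit 8380526701) (nat_lit 304) (nat_lit 1438946113) (nat_lit 0) (nat_lit 2164788723) (nat_lit 79) (nat_lit 5) (nat_lit 83) (nat_lit 4) (nat_lit 79) (nat_lit 4) (nat_lit 476) (nat_lit 337) (nat_lit 327)) (XT.lf (nat_lit 0) (nat_lit 395663486) (nat_lit 380) (nat_lit 5973028880) (nat_lit 76) (nat_lit 5759911328) (nat_lit 74) (nat_lit 5) (nat_lit 79) (nat_lit 5) (nat_lit 75) (nat_lit 4) (nat_lit 477) (nat_lit 337) (nat_lit 326))))) (XT.nd (nat_lit 312) (nat_lit 760) (nat_lit 0) (XT.nd (nat_lit 156) (nat_lit 304) (nat_lit 0) (XT.nd (nat_lit 78) (nat_lit 0) (nat_lit 0) (XT.lf (nat_lit 0) (nat_lit 1548657136) (nat_lit 228) (nat_lit 2840721590) (nat_lit 304) (nat_lit 7886747583) (nat_lit 71) (nat_lit 5) (nat_lit 74) (nat_lit 5) (nat_lit 75) (nat_lit 4) (nat_lit 478) (nat_lit 337) (nat_lit 325)) (XT.lf (nat_lit 0) (nat_lit 8451282421)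 (nat_lit 304) (nat_lit 3223121136) (nat_lit 0) (nat_lit 752450800) (nat_lit 71) (nat_lit 5) (nat_lit 75) (nat_lit 4) (nat_lit 71) (nat_lit 4) (nat_lit 479) (nat_lit 337) (nat_lit 324))) (XT.nd (nat_lit 78) (nat_lit 0) (nat_lit 0) (XT.lf (nat_lit 0) (nat_lit 4968242) (nat_lit 304) (nat_lit 8202944524) (nat_lit 76) (nat_lit 4372876394) (nat_lit 67) (nat_lit 5) (nat_lit 71) (nat_lit 5) (nat_lit 68) (nat_lit 4) (nat_lit 480) (nat_lit 337) (nat_lit 323)) (XT.lf (nat_lit 0) (nat_lit 3977985790) (nat_lit 304) (nat_lit 681516480) (nat_lit 76) (nat_lit 8078472865) (nat_lit 67) (nat_lit 5) (nat_lit 71) (nat_lit 5) (nat_lit 68) (nat_lit 4) (nat_lit 481) (nat_lit 337) (nat_lit 322)))) (XT.nd (nat_lit 156) (nat_lit 304) (nat_lit 0) (XT.nd (nat_lit 78) (nat_lit 228) (nat_lit 0) (XT.lf (nat_lit 0) (nat_lit 6991649762) (nat_lit 228) (nat_lit 1029578589) (nat_lit 304) (nat_lit 4877280831) (nat_lit 64) (nat_lit 5) (nat_lit 67)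 (nat_lit 5) (nat_lit 68) (nat_lit 4) (nat_lit 482) (nat_lit 337) (nat_lit 321)) (XT.lf (nat_lit 0) (nat_lit 1679331876) (nat_lit 228) (nat_lit 10444492310) (nat_lit 228) (nat_lit 938879212) (nat_lit 61) (nat_lit 4) (nat_lit 64) (nat_lit 5) (nat_lit 64) (nat_lit 4) (nat_lit 483) (nat_lit 337) (nat_lit 320))) (XT.nd (nat_lit 78) (nat_lit 228) (nat_lit 0) (XT.lf (nat_lit 0) (nat_lit 3030369925) (nat_lit 304) (nat_lit 3849946215) (nat_lit 76) (nat_lit 6349635107) (nat_lit 60) (nat_lit 5) (nat_lit 64) (nat_lit 5) (nat_lit 61) (nat_lit 4) (nat_lit 484) (nat_lit 337) (nat_lit 319)) (XT.lf (nat_lit 0) (nat_lit 3788592135) (nat_lit 228) (nat_lit 3249246962) (nat_lit 304) (nat_lit 6363170851) (nat_lit 57) (nat_lit 5) (nat_lit 60) (nat_lit 5) (nat_lit 61) (nat_lit 4) (nat_lit 485) (nat_lit 337) (nat_lit 318))))))))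
noncomputable def xc20 : XT := (XT.nd (nat_lit 2184) (nat_lit 912) (nat_lit 0) (XT.nd (nat_lit 1092) (nat_lit 1064) (nat_lit 0) (XT.nd (nat_lit 546) (nat_lit 684) (nat_lit 0) (XT.nd (nat_lit 234) (nat_lit 608) (nat_lit 0) (XT.nd (nat_lit 78) (nat_lit 304) (nat_lit 0) (XT.lf (nat_lit 0) (nat_lit 11101448465) (nat_lit 304) (nat_lit 2035287215) (nat_lit 0) (nat_lit 439252119) (nat_lit 57) (nat_lit 5) (nat_lit 61) (nat_lit 4) (nat_lit 57) (nat_lit 4) (nat_lit 486) (nat_lit 337) (nat_lit 317)) (XT.nd (nat_lit 78) (nat_lit 0) (nat_lit 0) (XT.lf (nat_lit 0) (nat_lit 1478653247) (nat_lit 304) (nat_lit 8105533461) (nat_lit 76) (nat_lit 4169974786) (nat_lit 53) (nat_lit 5) (nat_lit 57) (nat_lit 5) (nat_lit 54) (nat_lit 4) (nat_lit 487) (nat_lit 337) (nat_lit 316)) (XT.lf (nat_lit 0) (nat_lit 5439723278) (nat_lit 304) (nat_lit 525953053) (nat_lit 76) (nat_lit 7970673010) (nat_lit 53) (nat_lit 5) (nat_lit 57) (nat_lit 5)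 (nat_lit 54) (nat_lit 4) (nat_lit 488) (nat_lit 337) (nat_lit 315)))) (XT.nd (nat_lit 156) (nat_lit 228) (nat_lit 0) (XT.nd (nat_lit 78) (nat_lit 228) (nat_lit 0) (XT.lf (nat_lit 0) (nat_lit 7213889379) (nat_lit 152) (nat_lit 2262147399) (nat_lit 228) (nat_lit 4646240162) (nat_lit 51) (nat_lit 5) (nat_lit 53) (nat_lit 5) (nat_lit 54) (nat_lit 4) (nat_lit 489) (nat_lit 337) (nat_lit 314)) (XT.lf (nat_lit 0) (nat_lit 717176838) (nat_lit 228) (nat_lit 12843347733) (nat_lit 228) (nat_lit 752065676) (nat_lit 48) (nat_lit 4) (nat_lit 51) (nat_lit 5) (nat_lit 51) (nat_lit 4) (nat_lit 490) (nat_lit 337) (nat_lit 313))) (XT.nd (nat_lit 78) (nat_lit 152) (nat_lit 0) (XT.lf (nat_lit 0) (nat_lit 3188896634) (nat_lit 304) (nat_lit 6039371352) (nat_lit 76) (nat_lit 5277816493) (nat_lit 47) (nat_lit 5) (nat_lit 51) (nat_lit 5) (nat_lit 48) (nat_lit 4) (nat_lit 491) (nat_lit 337) (nat_lit 312)) (XT.lf (nat_lit 0) (nat_lit 1599184766)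 (nat_lit 152) (nat_lit 5560294153) (nat_lit 228) (nat_lit 7544668022) (nat_lit 45) (nat_lit 5) (nat_lit 47) (nat_lit 5) (nat_lit 48) (nat_lit 4) (nat_lit 492) (nat_lit 337) (nat_lit 311))))) (XT.nd (nat_lit 234) (nat_lit 380) (nat_lit 0) (XT.nd (nat_lit 78) (nat_lit 304) (nat_lit 0) (XT.lf (nat_lit 0) (nat_lit 9388334045) (nat_lit 152) (nat_lit 1812570015) (nat_lit 228) (nat_lit 3705452854) (nat_lit 45) (nat_lit 5) (nat_lit 47) (nat_lit 5) (nat_lit 48) (nat_lit 4) (nat_lit 493) (nat_lit 337) (nat_lit 310)) (XT.nd (nat_lit 78) (nat_lit 0) (nat_lit 0) (XT.lf (nat_lit 0) (nat_lit 186301308) (nat_lit 304) (nat_lit 12961590913) (nat_lit 76) (nat_lit 1965135514) (nat_lit 41) (nat_lit 5) (nat_lit 45) (nat_lit 5) (nat_lit 42) (nat_lit 4) (nat_lit 494) (nat_lit 337) (nat_lit 309)) (XT.lf (nat_lit 0) (nat_lit 4107323036) (nat_lit 304) (nat_lit 5394054541) (nat_lit 76) (nat_lit 5821957594) (nat_lit 41) (nat_lit 5) (nat_lit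 45) (nat_lit 5) (nat_lit 42) (nat_lit 4) (nat_lit 495) (nat_lit 337) (nat_lit 308)))) (XT.nd (nat_lit 156) (nat_lit 228) (nat_lit 0) (XT.nd (nat_lit 78) (nat_lit 0) (nat_lit 0) (XT.lf (nat_lit 0) (nat_lit 2273017427) (nat_lit 152) (nat_lit 5801176569) (nat_lit 228) (nat_lit 7464319937) (nat_lit 39) (nat_lit 5) (nat_lit 41) (nat_lit 5) (nat_lit 42) (nat_lit 4) (nat_lit 496) (nat_lit 337) (nat_lit 307)) (XT.lf (nat_lit 0) (nat_lit 10085459517) (nat_lit 152) (nat_lit 2024212204) (nat_lit 228) (nat_lit 3648552648) (nat_lit 39) (nat_lit 5) (nat_lit 41) (nat_lit 5) (nat_lit 42) (nat_lit 4) (nat_lit 497) (nat_lit 337) (nat_lit 306))) (XT.nd (nat_lit 78) (nat_lit 0) (nat_lit 0) (XT.lf (nat_lit 0) (nat_lit 218851900) (nat_lit 228) (nat_lit 13978163124) (nat_lit 76) (nat_lit 1785725008) (nat_lit 36) (nat_lit 5) (nat_lit 39) (nat_lit 5) (nat_lit 37) (nat_lit 4) (nat_lit 498) (nat_lit 337) (nat_lit 305)) (XT.lf (nat_lit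 0) (nat_lit 4120368551) (nat_lit 228) (nat_lit 6416756817) (nat_lit 76) (nat_lit 5674038646) (nat_lit 36) (nat_lit 5) (nat_lit 39) (nat_lit 5) (nat_lit 37) (nat_lit 4) (nat_lit 499) (nat_lit 337) (nat_lit 304)))))) (XT.nd (nat_lit 546) (nat_lit 532) (nat_lit 0) (XT.nd (nat_lit 234) (nat_lit 228) (nat_lit 0) (XT.nd (nat_lit 78) (nat_lit 152) (nat_lit 0) (XT.lf (nat_lit 0) (nat_lit 1233314127) (nat_lit 152) (nat_lit 6829361593) (nat_lit 228) (nat_lit 8382238009) (nat_lit 34) (nat_lit 5) (nat_lit 36) (nat_lit 5) (nat_lit 37) (nat_lit 4) (nat_lit 500) (nat_lit 337) (nat_lit 303)) (XT.nd (nat_lit 78) (nat_lit 152) (nat_lit 0) (XT.lf (nat_lit 0) (nat_lit 9045146711) (nat_lit 152) (nat_lit 3036874171) (nat_lit 228) (nat_lit 4601365932) (nat_lit 34) (nat_lit 5) (nat_lit 36) (nat_lit 5) (nat_lit 37) (nat_lit 4) (nat_lit 501) (nat_lit 337) (nat_lit 302)) (XT.lf (nat_lit 0) (nat_lit 3872659) (nat_lit 152) (nat_lit 16139103339)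 (nat_lit 152) (nat_lit 784440876) (nat_lit 32) (nat_lit 4) (nat_lit 34) (nat_lit 5) (nat_lit 34) (nat_lit 4) (nat_lit 502) (nat_lit 337) (nat_lit 301)))) (XT.nd (nat_lit 156) (nat_lit 152) (nat_lit 0) (XT.nd (nat_lit 78) (nat_lit 0) (nat_lit 0) (XT.lf (nat_lit 0) (nat_lit 3095623016) (nat_lit 228) (nat_lit 9391027459) (nat_lit 76) (nat_lit 4688733416) (nat_lit 31) (nat_lit 5) (nat_lit 34) (nat_lit 5) (nat_lit 32) (nat_lit 4) (nat_lit 503) (nat_lit 337) (nat_lit 300)) (XT.lf (nat_lit 0) (nat_lit 6999525024) (nat_lit 228) (nat_lit 1788991960) (nat_lit 76) (nat_lit 8640566032) (nat_lit 31) (nat_lit 5) (nat_lit 34) (nat_lit 5) (nat_lit 32) (nat_lit 4) (nat_lit 504) (nat_lit 337) (nat_lit 299))) (XT.nd (nat_lit 78) (nat_lit 0) (nat_lit 0) (XT.lf (nat_lit 0) (nat_lit 5968920040) (nat_lit 152) (nat_lit 5008918321) (nat_lit 228) (nat_lit 6710102160) (nat_lit 29) (nat_lit 5) (nat_lit 31) (nat_lit 5) (nat_lit 32) (nat_lit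 4) (nat_lit 505) (nat_lit 337) (nat_lit 298)) (XT.lf (nat_lit 0) (nat_lit 13832282659) (nat_lit 152) (nat_lit 1173371084) (nat_lit 228) (nat_lit 2946933563) (nat_lit 29) (nat_lit 5) (nat_lit 31) (nat_lit 5) (nat_lit 32) (nat_lit 4) (nat_lit 506) (nat_lit 337) (nat_lit 297))))) (XT.nd (nat_lit 234) (nat_lit 228) (nat_lit 0) (XT.nd (nat_lit 78) (nat_lit 76) (nat_lit 0) (XT.lf (nat_lit 0) (nat_lit 879414456) (nat_lit 228) (nat_lit 14641830693) (nat_lit 76) (nat_lit 2701184372) (nat_lit 26) (nat_lit 5) (nat_lit 29) (nat_lit 5) (nat_lit 27) (nat_lit 4) (nat_lit 507) (nat_lit 337) (nat_lit 296)) (XT.nd (nat_lit 78) (nat_lit 76) (nat_lit 0) (XT.lf (nat_lit 0) (nat_lit 4737081107) (nat_lit 228) (nat_lit 7106432632) (nat_lit 76) (nat_lit 6653890453) (nat_lit 26) (nat_lit 5) (nat_lit 29) (nat_lit 5) (nat_lit 27) (nat_lit 4) (nat_lit 508) (nat_lit 337) (nat_lit 295)) (XT.lf (nat_lit 0) (nat_lit 514639314) (nat_lit 76) (nat_lit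 8120025737) (nat_lit 152) (nat_lit 10143968046) (nat_lit 25) (nat_lit 5) (nat_lit 26) (nat_lit 5) (nat_lit 27) (nat_lit 4) (nat_lit 509) (nat_lit 337) (nat_lit 294)))) (XT.nd (nat_lit 156) (nat_lit 228) (nat_lit 0) (XT.nd (nat_lit 78) (nat_lit 0) (nat_lit 0) (XT.lf (nat_lit 0) (nat_lit 8313150866) (nat_lit 76) (nat_lit 4304492930) (nat_lit 152) (nat_lit 6447703745) (nat_lit 25) (nat_lit 5) (nat_lit 26) (nat_lit 5) (nat_lit 27) (nat_lit 4) (nat_lit 510) (nat_lit 337) (nat_lit 293)) (XT.lf (nat_lit 0) (nat_lit 16197719510) (nat_lit 76) (nat_lit 443106933) (nat_lit 152) (nat_lit 2717768572) (nat_lit 25) (nat_lit 5) (nat_lit 26) (nat_lit 5) (nat_lit 27) (nat_lit 4) (nat_lit 511) (nat_lit 337) (nat_lit 292))) (XT.nd (nat_lit 78) (nat_lit 0) (nat_lit 0) (XT.lf (nat_lit 0) (nat_lit 1085953003) (nat_lit 228) (nat_lit 15114472982) (nat_lit 76) (nat_lit 3456880775) (nat_lit 22) (nat_lit 5) (nat_lit 25) (nat_lit 5) (nat_lit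 23) (nat_lit 4) (nat_lit 512) (nat_lit 337) (nat_lit 291)) (XT.lf (nat_lit 0) (nat_lit 4914854178) (nat_lit 228) (nat_lit 7608379903) (nat_lit 76) (nat_lit 7438698520) (nat_lit 22) (nat_lit 5) (nat_lit 25) (nat_lit 5) (nat_lit 23) (nat_lit 4) (nat_lit 513) (nat_lit 337) (nat_lit 290))))))) (XT.nd (nat_lit 1092) (nat_lit 228) (nat_lit 0) (XT.nd (nat_lit 546) (nat_lit 304) (nat_lit 0) (XT.nd (nat_lit 234) (nat_lit 304) (nat_lit 0) (XT.nd (nat_lit 78) (nat_lit 76) (nat_lit 0) (XT.lf (nat_lit 0) (nat_lit 8782270613) (nat_lit 228) (nat_lit 20009779) (nat_lit 76) (nat_lit 11471140720) (nat_lit 22) (nat_lit 5) (nat_lit 25) (nat_lit 5) (nat_lit 23) (nat_lit 4) (nat_lit 514) (nat_lit 337) (nat_lit 289)) (XT.nd (nat_lit 78) (nat_lit 0) (nat_lit 0) (XT.lf (nat_lit 0) (nat_lit 7755325711) (nat_lit 76) (nat_lit 4984745948) (nat_lit 152) (nat_lit 7850815731) (nat_lit 21) (nat_lit 5) (nat_lit 22) (nat_lit 5) (nat_lit 23) (nat_lit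 4) (nat_lit 515) (nat_lit 337) (nat_lit 288)) (XT.lf (nat_lit 0) (nat_lit 15620362219) (nat_lit 76) (nat_lit 1119787027) (nat_lit 152) (nat_lit 4175299888) (nat_lit 21) (nat_lit 5) (nat_lit 22) (nat_lit 5) (nat_lit 23) (nat_lit 4) (nat_lit 516) (nat_lit 337) (nat_lit 287)))) (XT.nd (nat_lit 156) (nat_lit 76) (nat_lit 0) (XT.nd (nat_lit 78) (nat_lit 76) (nat_lit 0) (XT.lf (nat_lit 0) (nat_lit 2343273999) (nat_lit 152) (nat_lit 18474020836) (nat_lit 152) (nat_lit 429274332) (nat_lit 19) (nat_lit 4) (nat_lit 21) (nat_lit 5) (nat_lit 21) (nat_lit 4) (nat_lit 517) (nat_lit 337) (nat_lit 286)) (XT.lf (nat_lit 0) (nat_lit 3353946370) (nat_lit 228) (nat_lit 11472487420) (nat_lit 76) (nat_lit 6757310308) (nat_lit 18) (nat_lit 5) (nat_lit 21) (nat_lit 5) (nat_lit 19) (nat_lit 4) (nat_lit 518) (nat_lit 337) (nat_lit 285))) (XT.nd (nat_lit 78) (nat_lit 76) (nat_lit 0) (XT.lf (nat_lit 0) (nat_lit 7171376207) (nat_lit 228)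 (nat_lit 3960016978) (nat_lit 76) (nat_lit 10796934638) (nat_lit 18) (nat_lit 5) (nat_lit 21) (nat_lit 5) (nat_lit 19) (nat_lit 4) (nat_lit 519) (nat_lit 337) (nat_lit 284)) (XT.lf (nat_lit 0) (nat_lit 3688221038) (nat_lit 76) (nat_lit 7365867558) (nat_lit 152) (nat_lit 11225943693) (nat_lit 17) (nat_lit 5) (nat_lit 18) (nat_lit 5) (nat_lit 19) (nat_lit 4) (nat_lit 520) (nat_lit 337) (nat_lit 283))))) (XT.nd (nat_lit 234) (nat_lit 152) (nat_lit 0) (XT.nd (nat_lit 78) (nat_lit 152) (nat_lit 0) (XT.lf (nat_lit 0) (nat_lit 11480662882) (nat_lit 76) (nat_lit 3525634843) (nat_lit 152) (nat_lit 7632643862) (nat_lit 17) (nat_lit 5) (nat_lit 18) (nat_lit 5) (nat_lit 19) (nat_lit 4) (nat_lit 521) (nat_lit 337) (nat_lit 282)) (XT.nd (nat_lit 78) (nat_lit 152) (nat_lit 0) (XT.lf (nat_lit 0) (nat_lit 19005865608) (nat_lit 152) (nat_lit 3640344519) (nat_lit 0) (nat_lit 359460098) (nat_lit 17) (nat_lit 5) (nat_lit 19) (nat_lit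 4) (nat_lit 17) (nat_lit 4) (nat_lit 522) (nat_lit 337) (nat_lit 281)) (XT.lf (nat_lit 0) (nat_lit 3996497137) (nat_lit 152) (nat_lit 19104668631) (nat_lit 152) (nat_lit 278260146) (nat_lit 15) (nat_lit 4) (nat_lit 17) (nat_lit 5) (nat_lit 17) (nat_lit 4) (nat_lit 523) (nat_lit 337) (nat_lit 280)))) (XT.nd (nat_lit 156) (nat_lit 76) (nat_lit 0) (XT.nd (nat_lit 78) (nat_lit 0) (nat_lit 0) (XT.lf (nat_lit 0) (nat_lit 3462654695) (nat_lit 228) (nat_lit 12008319505) (nat_lit 76) (nat_lit 8289411247) (nat_lit 14) (nat_lit 5) (nat_lit 17) (nat_lit 5) (nat_lit 15) (nat_lit 4) (nat_lit 524) (nat_lit 337) (nat_lit 279)) (XT.lf (nat_lit 0) (nat_lit 7241807122) (nat_lit 228) (nat_lit 4547444842) (nat_lit 76) (nat_lit 12360339393) (nat_lit 14) (nat_lit 5) (nat_lit 17) (nat_lit 5) (nat_lit 15) (nat_lit 4) (nat_lit 525) (nat_lit 337) (nat_lit 278))) (XT.nd (nat_lit 78) (nat_lit 0) (nat_lit 0) (XT.lf (nat_lit 0) (nat_lit 3044354954)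 (nat_lit 76) (nat_lit 8039739604) (nat_lit 152) (nat_lit 13462742531) (nat_lit 13) (nat_lit 5) (nat_lit 14) (nat_lit 5) (nat_lit 15) (nat_lit 4) (nat_lit 526) (nat_lit 337) (nat_lit 277)) (XT.lf (nat_lit 0) (nat_lit 10791795960) (nat_lit 76) (nat_lit 4209989652) (nat_lit 152) (nat_lit 9950277575) (nat_lit 13) (nat_lit 5) (nat_lit 14) (nat_lit 5) (nat_lit 15) (nat_lit 4) (nat_lit 527) (nat_lit 337) (nat_lit 276)))))) (XT.nd (nat_lit 54522) (nat_lit 0) (nat_lit 5852) (XT.nd (nat_lit 234) (nat_lit 0) (nat_lit 0) (XT.nd (nat_lit 78) (nat_lit 228) (nat_lit 0) (XT.lf (nat_lit 0) (nat_lit 18637483241) (nat_lit 76) (nat_lit 329015996) (nat_lit 152) (nat_lit 6399527678) (nat_lit 13) (nat_lit 5) (nat_lit 14) (nat_lit 5) (nat_lit 15) (nat_lit 4) (nat_lit 528) (nat_lit 337) (nat_lit 275)) (XT.nd (nat_lit 78) (nat_lit 76) (nat_lit 0) (XT.lf (nat_lit 0) (nat_lit 782460916) (nat_lit 152) (nat_lit 22225813683) (nat_lit 152)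 (nat_lit 2780046321) (nat_lit 11) (nat_lit 4) (nat_lit 13) (nat_lit 5) (nat_lit 13) (nat_lit 4) (nat_lit 529) (nat_lit 337) (nat_lit 274)) (XT.lf (nat_lit 0) (nat_lit 916652425) (nat_lit 228) (nat_lit 17747760267) (nat_lit 76) (nat_lit 7554200086) (nat_lit 10) (nat_lit 5) (nat_lit 13) (nat_lit 5) (nat_lit 11) (nat_lit 4) (nat_lit 530) (nat_lit 337) (nat_lit 273)))) (XT.nd (nat_lit 54132) (nat_lit 0) (nat_lit 7524) (XT.nd (nat_lit 78) (nat_lit 0) (nat_lit 0) (XT.lf (nat_lit 0) (nat_lit 4619856402) (nat_lit 228) (nat_lit 10417906671) (nat_lit 76) (nat_lit 11619989945) (nat_lit 10) (nat_lit 5) (nat_lit 13) (nat_lit 5) (nat_lit 11) (nat_lit 4) (nat_lit 531) (nat_lit 337) (nat_lit 272)) (XT.lf (nat_lit 0) (nat_lit 8367478653) (nat_lit 228) (nat_lit 2995374859) (nat_lit 76) (nat_lit 15743421336) (nat_lit 10) (nat_lit 5) (nat_lit 13) (nat_lit 5) (nat_lit 11) (nat_lit 4) (nat_lit 532) (nat_lit 337) (nat_lit 271))) (XT.nd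 (nat_lit 78) (nat_lit 380) (nat_lit 0) (XT.lf (nat_lit 0) (nat_lit 2334022850) (nat_lit 380) (nat_lit 569091347) (nat_lit 0) (nat_lit 2334022850) (nat_lit 114) (nat_lit 5) (nat_lit 119) (nat_lit 4) (nat_lit 114) (nat_lit 4) (nat_lit 464) (nat_lit 338) (nat_lit 338)) (XT.lf (nat_lit 0) (nat_lit 6203886345) (nat_lit 380) (nat_lit 2565582252) (nat_lit 380) (nat_lit 1816564605) (nat_lit 109) (nat_lit 4) (nat_lit 114) (nat_lit 5) (nat_lit 114) (nat_lit 4) (nat_lit 465) (nat_lit 338) (nat_lit 337))))) (XT.nd (nat_lit 234) (nat_lit 988) (nat_lit 0) (XT.nd (nat_lit 78) (nat_lit 304) (nat_lit 0) (XT.lf (nat_lit 0) (nat_lit 2192229748) (nat_lit 380) (nat_lit 7770190357) (nat_lit 0) (nat_lit 737966343) (nat_lit 104) (nat_lit 5) (nat_lit 109) (nat_lit 4) (nat_lit 104) (nat_lit 4) (nat_lit 466) (nat_lit 338) (nat_lit 336)) (XT.nd (nat_lit 78) (nat_lit 304) (nat_lit 0) (XT.lf (nat_lit 0) (nat_lit 6241156274) (nat_lit 380)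 (nat_lit 494896539) (nat_lit 0) (nat_lit 4081076811) (nat_lit 104) (nat_lit 5) (nat_lit 109) (nat_lit 4) (nat_lit 104) (nat_lit 4) (nat_lit 467) (nat_lit 338) (nat_lit 335)) (XT.lf (nat_lit 0) (nat_lit 6921156365) (nat_lit 304) (nat_lit 3433729428) (nat_lit 304) (nat_lit 581673438) (nat_lit 100) (nat_lit 4) (nat_lit 104) (nat_lit 5) (nat_lit 104) (nat_lit 4) (nat_lit 468) (nat_lit 338) (nat_lit 334)))) (XT.nd (nat_lit 156) (nat_lit 608) (nat_lit 0) (XT.nd (nat_lit 78) (nat_lit 0) (nat_lit 0) (XT.lf (nat_lit 0) (nat_lit 3359563698) (nat_lit 304) (nat_lit 51341276) (nat_lit 380) (nat_lit 7647761961) (nat_lit 95) (nat_lit 5) (nat_lit 99) (nat_lit 5) (nat_lit 100) (nat_lit 4) (nat_lit 469) (nat_lit 338) (nat_lit 333)) (XT.lf (nat_lit 0) (nat_lit 7464138436) (nat_lit 380) (nat_lit 368422113) (nat_lit 0) (nat_lit 3350833941) (nat_lit 95) (nat_lit 5) (nat_lit 100) (nat_lit 4) (nat_lit 95) (nat_lit 4) (nat_lit 470) (nat_lit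 338) (nat_lit 332))) (XT.nd (nat_lit 78) (nat_lit 228) (nat_lit 0) (XT.lf (nat_lit 0) (nat_lit 271003396) (nat_lit 380) (nat_lit 4205156984) (nat_lit 76) (nat_lit 6834705090) (nat_lit 90) (nat_lit 5) (nat_lit 95) (nat_lit 5) (nat_lit 91) (nat_lit 4) (nat_lit 471) (nat_lit 338) (nat_lit 331)) (XT.lf (nat_lit 0) (nat_lit 3216603640) (nat_lit 228) (nat_lit 1038808213) (nat_lit 304) (nat_lit 7185724349) (nat_lit 87) (nat_lit 5) (nat_lit 90) (nat_lit 5) (nat_lit 91) (nat_lit 4) (nat_lit 472) (nat_lit 338) (nat_lit 330))))))))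
noncomputable def xc21 : XT := (XT.nd (nat_lit 2184) (nat_lit 1748) (nat_lit 0) (XT.nd (nat_lit 1092) (nat_lit 1596) (nat_lit 0) (XT.nd (nat_lit 546) (nat_lit 1064) (nat_lit 0) (XT.nd (nat_lit 234) (nat_lit 608) (nat_lit 0) (XT.nd (nat_lit 78) (nat_lit 608) (nat_lit 0) (XT.lf (nat_lit 0) (nat_lit 8304984138) (nat_lit 304) (nat_lit 840617473) (nat_lit 0) (nat_lit 2428725649) (nat_lit 87) (nat_lit 5) (nat_lit 91) (nat_lit 4) (nat_lit 87) (nat_lit 4) (nat_lit 473) (nat_lit 338) (nat_lit 329)) (XT.nd (nat_lit 78) (nat_lit 228) (nat_lit 0) (XT.lf (nat_lit 0) (nat_lit 708227942) (nat_lit 380) (nat_lit 5036233347) (nat_lit 76) (nat_lit 5965802626) (nat_lit 82) (nat_lit 5) (nat_lit 87) (nat_lit 5) (nat_lit 83) (nat_lit 4) (nat_lit 474) (nat_lit 338) (nat_lit 328)) (XT.lf (nat_lit 0) (nat_lit 2418505612) (nat_lit 228) (nat_lit 2266828252) (nat_lit 304) (nat_lit 7163901048) (nat_lit 79) (nat_lit 5) (nat_lit 82) (nat_lit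 5) (nat_lit 83) (nat_lit 4) (nat_lit 475) (nat_lit 338) (nat_lit 327)))) (XT.nd (nat_lit 156) (nat_lit 228) (nat_lit 0) (XT.nd (nat_lit 78) (nat_lit 380) (nat_lit 0) (XT.lf (nat_lit 0) (nat_lit 8726953334) (nat_lit 304) (nat_lit 2001647446) (nat_lit 0) (nat_lit 1262707685) (nat_lit 79) (nat_lit 5) (nat_lit 83) (nat_lit 4) (nat_lit 79) (nat_lit 4) (nat_lit 476) (nat_lit 338) (nat_lit 326)) (XT.lf (nat_lit 0) (nat_lit 698530473) (nat_lit 380) (nat_lit 6598832861) (nat_lit 76) (nat_lit 4838895189) (nat_lit 74) (nat_lit 5) (nat_lit 79) (nat_lit 5) (nat_lit 75) (nat_lit 4) (nat_lit 477) (nat_lit 338) (nat_lit 325))) (XT.nd (nat_lit 78) (nat_lit 0) (nat_lit 0) (XT.lf (nat_lit 0) (nat_lit 868516604) (nat_lit 228) (nat_lit 3791533586) (nat_lit 304) (nat_lit 7624385386) (nat_lit 71) (nat_lit 5) (nat_lit 74) (nat_lit 5) (nat_lit 75) (nat_lit 4) (nat_lit 478) (nat_lit 338) (nat_lit 324)) (XT.lf (nat_lit 0) (nat_lit 8483524437)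 (nat_lit 228) (nat_lit 205951278) (nat_lit 304) (nat_lit 3746347792) (nat_lit 71) (nat_lit 5) (nat_lit 74) (nat_lit 5) (nat_lit 75) (nat_lit 4) (nat_lit 479) (nat_lit 338) (nat_lit 323))))) (XT.nd (nat_lit 234) (nat_lit 532) (nat_lit 0) (XT.nd (nat_lit 78) (nat_lit 228) (nat_lit 0) (XT.lf (nat_lit 0) (nat_lit 197434577) (nat_lit 304) (nat_lit 8996638291) (nat_lit 76) (nat_lit 3396340625) (nat_lit 67) (nat_lit 5) (nat_lit 71) (nat_lit 5) (nat_lit 68) (nat_lit 4) (nat_lit 480) (nat_lit 338) (nat_lit 322)) (XT.nd (nat_lit 78) (nat_lit 228) (nat_lit 0) (XT.lf (nat_lit 0) (nat_lit 4143407687) (nat_lit 304) (nat_lit 1519956339) (nat_lit 76) (nat_lit 7084786056) (nat_lit 67) (nat_lit 5) (nat_lit 71) (nat_lit 5) (nat_lit 68) (nat_lit 4) (nat_lit 481) (nat_lit 338) (nat_lit 321)) (XT.lf (nat_lit 0) (nat_lit 6097615768) (nat_lit 228) (nat_lit 2056715661) (nat_lit 304) (nat_lit 4755008609) (nat_lit 64) (nat_lit 5) (nat_lit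 67) (nat_lit 5) (nat_lit 68) (nat_lit 4) (nat_lit 482) (nat_lit 338) (nat_lit 320)))) (XT.nd (nat_lit 156) (nat_lit 228) (nat_lit 0) (XT.nd (nat_lit 78) (nat_lit 76) (nat_lit 0) (XT.lf (nat_lit 0) (nat_lit 724611898) (nat_lit 228) (nat_lit 11493058273) (nat_lit 228) (nat_lit 856658573) (nat_lit 61) (nat_lit 4) (nat_lit 64) (nat_lit 5) (nat_lit 64) (nat_lit 4) (nat_lit 483) (nat_lit 338) (nat_lit 319)) (XT.lf (nat_lit 0) (nat_lit 3085174028) (nat_lit 304) (nat_lit 4860897541) (nat_lit 76) (nat_lit 5296030095) (nat_lit 60) (nat_lit 5) (nat_lit 64) (nat_lit 5) (nat_lit 61) (nat_lit 4) (nat_lit 484) (nat_lit 338) (nat_lit 318))) (XT.nd (nat_lit 78) (nat_lit 0) (nat_lit 0) (XT.lf (nat_lit 0) (nat_lit 2720423576) (nat_lit 228) (nat_lit 4339462604) (nat_lit 304) (nat_lit 6353938134) (nat_lit 57) (nat_lit 5) (nat_lit 60) (nat_lit 5) (nat_lit 61) (nat_lit 4) (nat_lit 485) (nat_lit 338) (nat_lit 317)) (XT.lf (nat_lit 0)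 (nat_lit 10432555890) (nat_lit 228) (nat_lit 662455697) (nat_lit 304) (nat_lit 2494368892) (nat_lit 57) (nat_lit 5) (nat_lit 60) (nat_lit 5) (nat_lit 61) (nat_lit 4) (nat_lit 486) (nat_lit 338) (nat_lit 316)))))) (XT.nd (nat_lit 546) (nat_lit 684) (nat_lit 0) (XT.nd (nat_lit 234) (nat_lit 456) (nat_lit 0) (XT.nd (nat_lit 78) (nat_lit 152) (nat_lit 0) (XT.lf (nat_lit 0) (nat_lit 1421696053) (nat_lit 304) (nat_lit 9294432985) (nat_lit 76) (nat_lit 3052183765) (nat_lit 53) (nat_lit 5) (nat_lit 57) (nat_lit 5) (nat_lit 54) (nat_lit 4) (nat_lit 487) (nat_lit 338) (nat_lit 315)) (XT.nd (nat_lit 78) (nat_lit 152) (nat_lit 0) (XT.lf (nat_lit 0) (nat_lit 5357610002) (nat_lit 304) (nat_lit 1757397646) (nat_lit 76) (nat_lit 6836004260) (nat_lit 53) (nat_lit 5) (nat_lit 57) (nat_lit 5) (nat_lit 54) (nat_lit 4) (nat_lit 488) (nat_lit 338) (nat_lit 314)) (XT.lf (nat_lit 0) (nat_lit 5923814368) (nat_lit 152) (nat_lit 3437070286)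 (nat_lit 228) (nat_lit 4776723609) (nat_lit 51) (nat_lit 5) (nat_lit 53) (nat_lit 5) (nat_lit 54) (nat_lit 4) (nat_lit 489) (nat_lit 338) (nat_lit 313)))) (XT.nd (nat_lit 156) (nat_lit 152) (nat_lit 0) (XT.nd (nat_lit 78) (nat_lit 304) (nat_lit 0) (XT.lf (nat_lit 0) (nat_lit 13408529108) (nat_lit 228) (nat_lit 631829945) (nat_lit 0) (nat_lit 288307204) (nat_lit 51) (nat_lit 5) (nat_lit 54) (nat_lit 4) (nat_lit 51) (nat_lit 4) (nat_lit 490) (nat_lit 338) (nat_lit 312)) (XT.lf (nat_lit 0) (nat_lit 2994329553) (nat_lit 304) (nat_lit 7453696302) (nat_lit 76) (nat_lit 4074737974) (nat_lit 47) (nat_lit 5) (nat_lit 51) (nat_lit 5) (nat_lit 48) (nat_lit 4) (nat_lit 491) (nat_lit 338) (nat_lit 311))) (XT.nd (nat_lit 78) (nat_lit 0) (nat_lit 0) (XT.lf (nat_lit 0) (nat_lit 124458622) (nat_lit 152) (nat_lit 6806843421) (nat_lit 228) (nat_lit 7790203812) (nat_lit 45) (nat_lit 5) (nat_lit 47) (nat_lit 5) (nat_lit 48) (nat_lit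 4) (nat_lit 492) (nat_lit 338) (nat_lit 310)) (XT.lf (nat_lit 0) (nat_lit 7872818138) (nat_lit 152) (nat_lit 3076080592) (nat_lit 228) (nat_lit 3975300894) (nat_lit 45) (nat_lit 5) (nat_lit 47) (nat_lit 5) (nat_lit 48) (nat_lit 4) (nat_lit 493) (nat_lit 338) (nat_lit 309))))) (XT.nd (nat_lit 234) (nat_lit 228) (nat_lit 0) (XT.nd (nat_lit 78) (nat_lit 228) (nat_lit 0) (XT.lf (nat_lit 0) (nat_lit 566370804) (nat_lit 228) (nat_lit 14441481109) (nat_lit 228) (nat_lit 123889573) (nat_lit 42) (nat_lit 4) (nat_lit 45) (nat_lit 5) (nat_lit 45) (nat_lit 4) (nat_lit 494) (nat_lit 338) (nat_lit 308)) (XT.nd (nat_lit 78) (nat_lit 152) (nat_lit 0) (XT.lf (nat_lit 0) (nat_lit 3775326721) (nat_lit 304) (nat_lit 7037438929) (nat_lit 76) (nat_lit 4529774773) (nat_lit 41) (nat_lit 5) (nat_lit 45) (nat_lit 5) (nat_lit 42) (nat_lit 4) (nat_lit 495) (nat_lit 338) (nat_lit 307)) (XT.lf (nat_lit 0) (nat_lit 567650183) (nat_lit 152)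 (nat_lit 7140504273) (nat_lit 228) (nat_lit 7850252269) (nat_lit 39) (nat_lit 5) (nat_lit 41) (nat_lit 5) (nat_lit 42) (nat_lit 4) (nat_lit 496) (nat_lit 338) (nat_lit 306)))) (XT.nd (nat_lit 156) (nat_lit 76) (nat_lit 0) (XT.nd (nat_lit 78) (nat_lit 152) (nat_lit 0) (XT.lf (nat_lit 0) (nat_lit 8340736251) (nat_lit 152) (nat_lit 3380119964) (nat_lit 228) (nat_lit 4057723010) (nat_lit 39) (nat_lit 5) (nat_lit 41) (nat_lit 5) (nat_lit 42) (nat_lit 4) (nat_lit 497) (nat_lit 338) (nat_lit 305)) (XT.lf (nat_lit 0) (nat_lit 186981701) (nat_lit 152) (nat_lit 15585683012) (nat_lit 152) (nat_lit 231326367) (nat_lit 37) (nat_lit 4) (nat_lit 39) (nat_lit 5) (nat_lit 39) (nat_lit 4) (nat_lit 498) (nat_lit 338) (nat_lit 304))) (XT.nd (nat_lit 78) (nat_lit 0) (nat_lit 0) (XT.lf (nat_lit 0) (nat_lit 3650824513) (nat_lit 228) (nat_lit 8293080665) (nat_lit 76) (nat_lit 4288994082) (nat_lit 36) (nat_lit 5) (nat_lit 39) (nat_lit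 5) (nat_lit 37) (nat_lit 4) (nat_lit 499) (nat_lit 338) (nat_lit 303)) (XT.lf (nat_lit 0) (nat_lit 7563163740) (nat_lit 228) (nat_lit 697400069) (nat_lit 76) (nat_lit 8206690571) (nat_lit 36) (nat_lit 5) (nat_lit 39) (nat_lit 5) (nat_lit 37) (nat_lit 4) (nat_lit 500) (nat_lit 338) (nat_lit 302))))))) (XT.nd (nat_lit 1092) (nat_lit 684) (nat_lit 0) (XT.nd (nat_lit 546) (nat_lit 304) (nat_lit 0) (XT.nd (nat_lit 234) (nat_lit 380) (nat_lit 0) (XT.nd (nat_lit 78) (nat_lit 228) (nat_lit 0) (XT.lf (nat_lit 0) (nat_lit 7067200637) (nat_lit 152) (nat_lit 4488943769) (nat_lit 228) (nat_lit 5150116276) (nat_lit 34) (nat_lit 5) (nat_lit 36) (nat_lit 5) (nat_lit 37) (nat_lit 4) (nat_lit 501) (nat_lit 338) (nat_lit 301)) (XT.nd (nat_lit 78) (nat_lit 228) (nat_lit 0) (XT.lf (nat_lit 0) (nat_lit 14921363594) (nat_lit 152) (nat_lit 669175325) (nat_lit 228) (nat_lit 1360288846) (nat_lit 34) (nat_lit 5) (nat_lit 36) (nat_lit 5)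 (nat_lit 37) (nat_lit 4) (nat_lit 502) (nat_lit 338) (nat_lit 300)) (XT.lf (nat_lit 0) (nat_lit 2488122052) (nat_lit 228) (nat_lit 11504433174) (nat_lit 76) (nat_lit 3207104024) (nat_lit 31) (nat_lit 5) (nat_lit 34) (nat_lit 5) (nat_lit 32) (nat_lit 4) (nat_lit 503) (nat_lit 338) (nat_lit 299)))) (XT.nd (nat_lit 156) (nat_lit 228) (nat_lit 0) (XT.nd (nat_lit 78) (nat_lit 152) (nat_lit 0) (XT.lf (nat_lit 0) (nat_lit 6371023615) (nat_lit 228) (nat_lit 3939252956) (nat_lit 76) (nat_lit 7143507290) (nat_lit 31) (nat_lit 5) (nat_lit 34) (nat_lit 5) (nat_lit 32) (nat_lit 4) (nat_lit 504) (nat_lit 338) (nat_lit 298)) (XT.lf (nat_lit 0) (nat_lit 3753470396) (nat_lit 152) (nat_lit 6560893716) (nat_lit 228) (nat_lit 7398982080) (nat_lit 29) (nat_lit 5) (nat_lit 31) (nat_lit 5) (nat_lit 32) (nat_lit 4) (nat_lit 505) (nat_lit 338) (nat_lit 297))) (XT.nd (nat_lit 78) (nat_lit 228) (nat_lit 0) (XT.lf (nat_lit 0) (nat_lit 11580938101)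 (nat_lit 152) (nat_lit 2740823366) (nat_lit 228) (nat_lit 3656645133) (nat_lit 29) (nat_lit 5) (nat_lit 31) (nat_lit 5) (nat_lit 32) (nat_lit 4) (nat_lit 506) (nat_lit 338) (nat_lit 296)) (XT.lf (nat_lit 0) (nat_lit 133263799) (nat_lit 228) (nat_lit 16996738897) (nat_lit 76) (nat_lit 1119258277) (nat_lit 26) (nat_lit 5) (nat_lit 29) (nat_lit 5) (nat_lit 27) (nat_lit 4) (nat_lit 507) (nat_lit 338) (nat_lit 295))))) (XT.nd (nat_lit 234) (nat_lit 228) (nat_lit 0) (XT.nd (nat_lit 78) (nat_lit 76) (nat_lit 0) (XT.lf (nat_lit 0) (nat_lit 3970842619) (nat_lit 228) (nat_lit 9496877302) (nat_lit 76) (nat_lit 5056922440) (nat_lit 26) (nat_lit 5) (nat_lit 29) (nat_lit 5) (nat_lit 27) (nat_lit 4) (nat_lit 508) (nat_lit 338) (nat_lit 294)) (XT.nd (nat_lit 78) (nat_lit 76) (nat_lit 0) (XT.lf (nat_lit 0) (nat_lit 7845391233) (nat_lit 228) (nat_lit 1917394614) (nat_lit 76) (nat_lit 9043550989) (nat_lit 26) (nat_lit 5) (nat_lit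 29) (nat_lit 5) (nat_lit 27) (nat_lit 4) (nat_lit 509) (nat_lit 338) (nat_lit 293)) (XT.lf (nat_lit 0) (nat_lit 5821025307) (nat_lit 76) (nat_lit 5975197720) (nat_lit 152) (nat_lit 7297475957) (nat_lit 25) (nat_lit 5) (nat_lit 26) (nat_lit 5) (nat_lit 27) (nat_lit 4) (nat_lit 510) (nat_lit 338) (nat_lit 292)))) (XT.nd (nat_lit 156) (nat_lit 0) (nat_lit 0) (XT.nd (nat_lit 78) (nat_lit 228) (nat_lit 0) (XT.lf (nat_lit 0) (nat_lit 13671662124) (nat_lit 76) (nat_lit 2128594032) (nat_lit 152) (nat_lit 3587077968) (nat_lit 25) (nat_lit 5) (nat_lit 26) (nat_lit 5) (nat_lit 27) (nat_lit 4) (nat_lit 511) (nat_lit 338) (nat_lit 291)) (XT.lf (nat_lit 0) (nat_lit 180962462) (nat_lit 228) (nat_lit 17749856173) (nat_lit 76) (nat_lit 1756286254) (nat_lit 22) (nat_lit 5) (nat_lit 25) (nat_lit 5) (nat_lit 23) (nat_lit 4) (nat_lit 512) (nat_lit 338) (nat_lit 290))) (XT.nd (nat_lit 78) (nat_lit 0) (nat_lit 0) (XT.lf (nat_lit 0)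 (nat_lit 3991020685) (nat_lit 228) (nat_lit 10277349637) (nat_lit 76) (nat_lit 5723741672) (nat_lit 22) (nat_lit 5) (nat_lit 25) (nat_lit 5) (nat_lit 23) (nat_lit 4) (nat_lit 513) (nat_lit 338) (nat_lit 289)) (XT.lf (nat_lit 0) (nat_lit 7839963637) (nat_lit 228) (nat_lit 2721907497) (nat_lit 76) (nat_lit 9742103159) (nat_lit 22) (nat_lit 5) (nat_lit 25) (nat_lit 5) (nat_lit 23) (nat_lit 4) (nat_lit 514) (nat_lit 338) (nat_lit 288)))))) (XT.nd (nat_lit 546) (nat_lit 304) (nat_lit 0) (XT.nd (nat_lit 234) (nat_lit 304) (nat_lit 0) (XT.nd (nat_lit 78) (nat_lit 0) (nat_lit 0) (XT.lf (nat_lit 0) (nat_lit 4984809843) (nat_lit 76) (nat_lit 6776855555) (nat_lit 152) (nat_lit 8860501391) (nat_lit 21) (nat_lit 5) (nat_lit 22) (nat_lit 5) (nat_lit 23) (nat_lit 4) (nat_lit 515) (nat_lit 338) (nat_lit 287)) (XT.nd (nat_lit 78) (nat_lit 0) (nat_lit 0) (XT.lf (nat_lit 0) (nat_lit 12817776399) (nat_lit 76) (nat_lit 2926002232)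 (nat_lit 152) (nat_lit 5203313339) (nat_lit 21) (nat_lit 5) (nat_lit 22) (nat_lit 5) (nat_lit 23) (nat_lit 4) (nat_lit 516) (nat_lit 338) (nat_lit 286)) (XT.lf (nat_lit 0) (nat_lit 19776281084) (nat_lit 152) (nat_lit 541667623) (nat_lit 0) (nat_lit 961160227) (nat_lit 21) (nat_lit 5) (nat_lit 23) (nat_lit 4) (nat_lit 21) (nat_lit 4) (nat_lit 517) (nat_lit 338) (nat_lit 285)))) (XT.nd (nat_lit 156) (nat_lit 76) (nat_lit 0) (XT.nd (nat_lit 78) (nat_lit 0) (nat_lit 0) (XT.lf (nat_lit 0) (nat_lit 2273205956) (nat_lit 228) (nat_lit 14421982653) (nat_lit 76) (nat_lit 4921663906) (nat_lit 18) (nat_lit 5) (nat_lit 21) (nat_lit 5) (nat_lit 19) (nat_lit 4) (nat_lit 518) (nat_lit 338) (nat_lit 284)) (XT.lf (nat_lit 0) (nat_lit 6073302911) (nat_lit 228) (nat_lit 6940627813) (nat_lit 76) (nat_lit 8947856009) (nat_lit 18) (nat_lit 5) (nat_lit 21) (nat_lit 5) (nat_lit 19) (nat_lit 4) (nat_lit 519) (nat_lit 338) (nat_lit 283)))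 (XT.nd (nat_lit 78) (nat_lit 0) (nat_lit 0) (XT.lf (nat_lit 0) (nat_lit 637088560) (nat_lit 76) (nat_lit 9282123742) (nat_lit 152) (nat_lit 12395018715) (nat_lit 17) (nat_lit 5) (nat_lit 18) (nat_lit 5) (nat_lit 19) (nat_lit 4) (nat_lit 520) (nat_lit 338) (nat_lit 282)) (XT.lf (nat_lit 0) (nat_lit 8399225607) (nat_lit 76) (nat_lit 5455339241) (nat_lit 152) (nat_lit 8818916284) (nat_lit 17) (nat_lit 5) (nat_lit 18) (nat_lit 5) (nat_lit 19) (nat_lit 4) (nat_lit 521) (nat_lit 338) (nat_lit 281))))) (XT.nd (nat_lit 234) (nat_lit 76) (nat_lit 0) (XT.nd (nat_lit 78) (nat_lit 228) (nat_lit 0) (XT.lf (nat_lit 0) (nat_lit 16256590011) (nat_lit 76) (nat_lit 1578651787) (nat_lit 152) (nat_lit 5205349403) (nat_lit 17) (nat_lit 5) (nat_lit 18) (nat_lit 5) (nat_lit 19) (nat_lit 4) (nat_lit 522) (nat_lit 338) (nat_lit 280)) (XT.nd (nat_lit 78) (nat_lit 76) (nat_lit 0) (XT.lf (nat_lit 0) (nat_lit 791686771) (nat_lit 152) (nat_lit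 21091511832) (nat_lit 152) (nat_lit 1532098697) (nat_lit 15) (nat_lit 4) (nat_lit 17) (nat_lit 5) (nat_lit 17) (nat_lit 4) (nat_lit 523) (nat_lit 338) (nat_lit 279)) (XT.lf (nat_lit 0) (nat_lit 2208993981) (nat_lit 228) (nat_lit 15270258531) (nat_lit 76) (nat_lit 6317495869) (nat_lit 14) (nat_lit 5) (nat_lit 17) (nat_lit 5) (nat_lit 15) (nat_lit 4) (nat_lit 524) (nat_lit 338) (nat_lit 278)))) (XT.nd (nat_lit 156) (nat_lit 76) (nat_lit 0) (XT.nd (nat_lit 78) (nat_lit 0) (nat_lit 0) (XT.lf (nat_lit 0) (nat_lit 5972198878) (nat_lit 228) (nat_lit 7838205463) (nat_lit 76) (nat_lit 10375872239) (nat_lit 14) (nat_lit 5) (nat_lit 17) (nat_lit 5) (nat_lit 15) (nat_lit 4) (nat_lit 525) (nat_lit 338) (nat_lit 277)) (XT.lf (nat_lit 0) (nat_lit 9779085508) (nat_lit 228) (nat_lit 314589395) (nat_lit 76) (nat_lit 14490558697) (nat_lit 14) (nat_lit 5) (nat_lit 17) (nat_lit 5) (nat_lit 15) (nat_lit 4) (nat_lit 526) (nat_lit 338)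 (nat_lit 276))) (XT.nd (nat_lit 78) (nat_lit 0) (nat_lit 0) (XT.lf (nat_lit 0) (nat_lit 7400600316) (nat_lit 76) (nat_lit 6278596059) (nat_lit 152) (nat_lit 11310618136) (nat_lit 13) (nat_lit 5) (nat_lit 14) (nat_lit 5) (nat_lit 15) (nat_lit 4) (nat_lit 527) (nat_lit 338) (nat_lit 275)) (XT.lf (nat_lit 0) (nat_lit 15218767432) (nat_lit 76) (nat_lit 2409936174) (nat_lit 152) (nat_lit 7775381906) (nat_lit 13) (nat_lit 5) (nat_lit 14) (nat_lit 5) (nat_lit 15) (nat_lit 4) (nat_lit 528) (nat_lit 338) (nat_lit 274))))))))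
noncomputable def xc22 : XT := (XT.nd (nat_lit 56004) (nat_lit 0) (nat_lit 912) (XT.nd (nat_lit 54912) (nat_lit 0) (nat_lit 3572) (XT.nd (nat_lit 54366) (nat_lit 0) (nat_lit 6080) (XT.nd (nat_lit 234) (nat_lit 0) (nat_lit 0) (XT.nd (nat_lit 78) (nat_lit 228) (nat_lit 0) (XT.lf (nat_lit 0) (nat_lit 21636901390) (nat_lit 152) (nat_lit 2698268310) (nat_lit 0) (nat_lit 1491884452) (nat_lit 13) (nat_lit 5) (nat_lit 15) (nat_lit 4) (nat_lit 13) (nat_lit 4) (nat_lit 529) (nat_lit 338) (nat_lit 273)) (XT.nd (nat_lit 78) (nat_lit 76) (nat_lit 0) (XT.lf (nat_lit 0) (nat_lit 4933391489) (nat_lit 152) (nat_lit 20810182966) (nat_lit 152) (nat_lit 514547591) (nat_lit 11) (nat_lit 4) (nat_lit 13) (nat_lit 5) (nat_lit 13) (nat_lit 4) (nat_lit 530) (nat_lit 338) (nat_lit 272)) (XT.lf (nat_lit 0) (nat_lit 3180728627) (nat_lit 228) (nat_lit 14018228681) (nat_lit 76) (nat_lit 9498668222) (nat_lit 10) (nat_lit 5) (nat_lit 13) (nat_lit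 5) (nat_lit 11) (nat_lit 4) (nat_lit 531) (nat_lit 338) (nat_lit 271)))) (XT.nd (nat_lit 53976) (nat_lit 0) (nat_lit 7904) (XT.nd (nat_lit 53898) (nat_lit 0) (nat_lit 8284) (XT.lf (nat_lit 0) (nat_lit 6913962504) (nat_lit 228) (nat_lit 6621865989) (nat_lit 76) (nat_lit 13610609483) (nat_lit 10) (nat_lit 5) (nat_lit 13) (nat_lit 5) (nat_lit 11) (nat_lit 4) (nat_lit 532) (nat_lit 338) (nat_lit 270)) (XT.lf (nat_lit 0) (nat_lit 2539762899) (nat_lit 380) (nat_lit 1294494321) (nat_lit 380) (nat_lit 1294494321) (nat_lit 119) (nat_lit 4) (nat_lit 124) (nat_lit 5) (nat_lit 124) (nat_lit 4) (nat_lit 462) (nat_lit 339) (nat_lit 339))) (XT.nd (nat_lit 78) (nat_lit 0) (nat_lit 0) (XT.lf (nat_lit 0) (nat_lit 1388880935) (nat_lit 380) (nat_lit 8351415446) (nat_lit 0) (nat_lit 624882935) (nat_lit 114) (nat_lit 5) (nat_lit 119) (nat_lit 4) (nat_lit 114) (nat_lit 4) (nat_lit 463) (nat_lit 339) (nat_lit 338)) (XT.lf (nat_lit 0)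 (nat_lit 5400913567) (nat_lit 380) (nat_lit 1186100244) (nat_lit 0) (nat_lit 3887897920) (nat_lit 114) (nat_lit 5) (nat_lit 119) (nat_lit 4) (nat_lit 114) (nat_lit 4) (nat_lit 464) (nat_lit 339) (nat_lit 337))))) (XT.nd (nat_lit 234) (nat_lit 1064) (nat_lit 0) (XT.nd (nat_lit 78) (nat_lit 380) (nat_lit 0) (XT.lf (nat_lit 0) (nat_lit 6107729693) (nat_lit 380) (nat_lit 3363462720) (nat_lit 380) (nat_lit 1116116047) (nat_lit 109) (nat_lit 4) (nat_lit 114) (nat_lit 5) (nat_lit 114) (nat_lit 4) (nat_lit 465) (nat_lit 339) (nat_lit 336)) (XT.nd (nat_lit 78) (nat_lit 0) (nat_lit 0) (XT.lf (nat_lit 0) (nat_lit 2784099917) (nat_lit 304) (nat_lit 63117394) (nat_lit 380) (nat_lit 7855093096) (nat_lit 104) (nat_lit 5) (nat_lit 108) (nat_lit 5) (nat_lit 109) (nat_lit 4) (nat_lit 466) (nat_lit 339) (nat_lit 335)) (XT.lf (nat_lit 0) (nat_lit 6865480436) (nat_lit 380) (nat_lit 689793506) (nat_lit 0) (nat_lit 3264406799) (nat_lit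 104) (nat_lit 5) (nat_lit 109) (nat_lit 4) (nat_lit 104) (nat_lit 4) (nat_lit 467) (nat_lit 339) (nat_lit 334)))) (XT.nd (nat_lit 156) (nat_lit 380) (nat_lit 0) (XT.nd (nat_lit 78) (nat_lit 304) (nat_lit 0) (XT.lf (nat_lit 0) (nat_lit 8105710) (nat_lit 380) (nat_lit 4263108461) (nat_lit 76) (nat_lit 6668533679) (nat_lit 99) (nat_lit 5) (nat_lit 104) (nat_lit 5) (nat_lit 100) (nat_lit 4) (nat_lit 468) (nat_lit 339) (nat_lit 333)) (XT.lf (nat_lit 0) (nat_lit 3057661277) (nat_lit 304) (nat_lit 903848380) (nat_lit 380) (nat_lit 7100914365) (nat_lit 95) (nat_lit 5) (nat_lit 99) (nat_lit 5) (nat_lit 100) (nat_lit 4) (nat_lit 469) (nat_lit 339) (nat_lit 332))) (XT.nd (nat_lit 78) (nat_lit 380) (nat_lit 0) (XT.lf (nat_lit 0) (nat_lit 7979793554) (nat_lit 380) (nat_lit 715191164) (nat_lit 0) (nat_lit 2492878683) (nat_lit 95) (nat_lit 5) (nat_lit 100) (nat_lit 4) (nat_lit 95) (nat_lit 4) (nat_lit 470) (nat_lit 339) (nat_lit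 331)) (XT.lf (nat_lit 0) (nat_lit 743844811) (nat_lit 380) (nat_lit 4611092812) (nat_lit 76) (nat_lit 5960975520) (nat_lit 90) (nat_lit 5) (nat_lit 95) (nat_lit 5) (nat_lit 91) (nat_lit 4) (nat_lit 471) (nat_lit 339) (nat_lit 330)))))) (XT.nd (nat_lit 546) (nat_lit 1064) (nat_lit 0) (XT.nd (nat_lit 234) (nat_lit 836) (nat_lit 0) (XT.nd (nat_lit 78) (nat_lit 380) (nat_lit 0) (XT.lf (nat_lit 0) (nat_lit 2758840627) (nat_lit 228) (nat_lit 1937671903) (nat_lit 304) (nat_lit 6750318252) (nat_lit 87) (nat_lit 5) (nat_lit 90) (nat_lit 5) (nat_lit 91) (nat_lit 4) (nat_lit 472) (nat_lit 339) (nat_lit 329)) (XT.nd (nat_lit 78) (nat_lit 380) (nat_lit 0) (XT.lf (nat_lit 0) (nat_lit 8711638172) (nat_lit 304) (nat_lit 1344232454) (nat_lit 0) (nat_lit 1524852002) (nat_lit 87) (nat_lit 5) (nat_lit 91) (nat_lit 4) (nat_lit 87) (nat_lit 4) (nat_lit 473) (nat_lit 339) (nat_lit 328)) (XT.lf (nat_lit 0) (nat_lit 1071356467) (nat_lit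 380) (nat_lit 5601661109) (nat_lit 76) (nat_lit 5044238739) (nat_lit 82) (nat_lit 5) (nat_lit 87) (nat_lit 5) (nat_lit 83) (nat_lit 4) (nat_lit 474) (nat_lit 339) (nat_lit 327)))) (XT.nd (nat_lit 156) (nat_lit 608) (nat_lit 0) (XT.nd (nat_lit 78) (nat_lit 0) (nat_lit 0) (XT.lf (nat_lit 0) (nat_lit 1799785213) (nat_lit 228) (nat_lit 3216674268) (nat_lit 304) (nat_lit 6840419060) (nat_lit 79) (nat_lit 5) (nat_lit 82) (nat_lit 5) (nat_lit 83) (nat_lit 4) (nat_lit 475) (nat_lit 339) (nat_lit 326)) (XT.lf (nat_lit 0) (nat_lit 9024072138) (nat_lit 304) (nat_lit 2667179383) (nat_lit 0) (nat_lit 308391661) (nat_lit 79) (nat_lit 5) (nat_lit 83) (nat_lit 4) (nat_lit 79) (nat_lit 4) (nat_lit 476) (nat_lit 339) (nat_lit 325))) (XT.nd (nat_lit 78) (nat_lit 228) (nat_lit 0) (XT.lf (nat_lit 0) (nat_lit 951340008) (nat_lit 380) (nat_lit 7328894020) (nat_lit 76) (nat_lit 3864975980) (nat_lit 74) (nat_lit 5) (nat_lit 79) (nat_lit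 5) (nat_lit 75) (nat_lit 4) (nat_lit 477) (nat_lit 339) (nat_lit 324)) (XT.lf (nat_lit 0) (nat_lit 83635723) (nat_lit 228) (nat_lit 4796893132) (nat_lit 304) (nat_lit 7413515143) (nat_lit 71) (nat_lit 5) (nat_lit 74) (nat_lit 5) (nat_lit 75) (nat_lit 4) (nat_lit 478) (nat_lit 339) (nat_lit 323))))) (XT.nd (nat_lit 234) (nat_lit 760) (nat_lit 0) (XT.nd (nat_lit 78) (nat_lit 304) (nat_lit 0) (XT.lf (nat_lit 0) (nat_lit 7654410621) (nat_lit 228) (nat_lit 1228555685) (nat_lit 304) (nat_lit 3563015502) (nat_lit 71) (nat_lit 5) (nat_lit 74) (nat_lit 5) (nat_lit 75) (nat_lit 4) (nat_lit 479) (nat_lit 339) (nat_lit 322)) (XT.nd (nat_lit 78) (nat_lit 0) (nat_lit 0) (XT.lf (nat_lit 0) (nat_lit 339120472) (nat_lit 304) (nat_lit 9896593040) (nat_lit 76) (nat_lit 2365629040) (nat_lit 67) (nat_lit 5) (nat_lit 71) (nat_lit 5) (nat_lit 68) (nat_lit 4) (nat_lit 480) (nat_lit 339) (nat_lit 321)) (XT.lf (nat_lit 0) (nat_lit 4258579426)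 (nat_lit 304) (nat_lit 2463779806) (nat_lit 76) (nat_lit 6037259726) (nat_lit 67) (nat_lit 5) (nat_lit 71) (nat_lit 5) (nat_lit 68) (nat_lit 4) (nat_lit 481) (nat_lit 339) (nat_lit 320)))) (XT.nd (nat_lit 156) (nat_lit 532) (nat_lit 0) (XT.nd (nat_lit 78) (nat_lit 0) (nat_lit 0) (XT.lf (nat_lit 0) (nat_lit 5097669275) (nat_lit 228) (nat_lit 3139347306) (nat_lit 304) (nat_lit 4684451411) (nat_lit 64) (nat_lit 5) (nat_lit 67) (nat_lit 5) (nat_lit 68) (nat_lit 4) (nat_lit 482) (nat_lit 339) (nat_lit 319)) (XT.lf (nat_lit 0) (nat_lit 12262749379) (nat_lit 304) (nat_lit 333076661) (nat_lit 0) (nat_lit 491391941) (nat_lit 64) (nat_lit 5) (nat_lit 68) (nat_lit 4) (nat_lit 64) (nat_lit 4) (nat_lit 483) (nat_lit 339) (nat_lit 318))) (XT.nd (nat_lit 78) (nat_lit 228) (nat_lit 0) (XT.lf (nat_lit 0) (nat_lit 3088914253) (nat_lit 304) (nat_lit 5979348076) (nat_lit 76) (nat_lit 4187293752) (nat_lit 60) (nat_lit 5) (nat_lit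 64) (nat_lit 5) (nat_lit 61) (nat_lit 4) (nat_lit 484) (nat_lit 339) (nat_lit 317)) (XT.lf (nat_lit 0) (nat_lit 1544185674) (nat_lit 228) (nat_lit 5486488361) (nat_lit 304) (nat_lit 6397272378) (nat_lit 57) (nat_lit 5) (nat_lit 60) (nat_lit 5) (nat_lit 61) (nat_lit 4) (nat_lit 485) (nat_lit 339) (nat_lit 316))))))) (XT.nd (nat_lit 1092) (nat_lit 1064) (nat_lit 0) (XT.nd (nat_lit 546) (nat_lit 836) (nat_lit 0) (XT.nd (nat_lit 234) (nat_lit 456) (nat_lit 0) (XT.nd (nat_lit 78) (nat_lit 304) (nat_lit 0) (XT.lf (nat_lit 0) (nat_lit 9214235882) (nat_lit 228) (nat_lit 1826471263) (nat_lit 304) (nat_lit 2563305744) (nat_lit 57) (nat_lit 5) (nat_lit 60) (nat_lit 5) (nat_lit 61) (nat_lit 4) (nat_lit 486) (nat_lit 339) (nat_lit 315)) (XT.nd (nat_lit 78) (nat_lit 0) (nat_lit 0) (XT.lf (nat_lit 0) (nat_lit 1312784429) (nat_lit 304) (nat_lit 10593051539) (nat_lit 76) (nat_lit 1877943912) (nat_lit 53) (nat_lit 5) (nat_lit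 57) (nat_lit 5) (nat_lit 54) (nat_lit 4) (nat_lit 487) (nat_lit 339) (nat_lit 314)) (XT.lf (nat_lit 0) (nat_lit 5224035552) (nat_lit 304) (nat_lit 3097727052) (nat_lit 76) (nat_lit 5645217616) (nat_lit 53) (nat_lit 5) (nat_lit 57) (nat_lit 5) (nat_lit 54) (nat_lit 4) (nat_lit 488) (nat_lit 339) (nat_lit 313)))) (XT.nd (nat_lit 156) (nat_lit 304) (nat_lit 0) (XT.nd (nat_lit 78) (nat_lit 0) (nat_lit 0) (XT.lf (nat_lit 0) (nat_lit 4524236251) (nat_lit 152) (nat_lit 4669807723) (nat_lit 228) (nat_lit 4960205746) (nat_lit 51) (nat_lit 5) (nat_lit 53) (nat_lit 5) (nat_lit 54) (nat_lit 4) (nat_lit 489) (nat_lit 339) (nat_lit 312)) (XT.lf (nat_lit 0) (nat_lit 12258568929) (nat_lit 152) (nat_lit 957253845) (nat_lit 228) (nat_lit 1130009921) (nat_lit 51) (nat_lit 5) (nat_lit 53) (nat_lit 5) (nat_lit 54) (nat_lit 4) (nat_lit 490) (nat_lit 339) (nat_lit 311))) (XT.nd (nat_lit 78) (nat_lit 0) (nat_lit 0) (XT.lf (nat_lit 0)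 (nat_lit 2747320645) (nat_lit 304) (nat_lit 8979248739) (nat_lit 76) (nat_lit 2814193279) (nat_lit 47) (nat_lit 5) (nat_lit 51) (nat_lit 5) (nat_lit 48) (nat_lit 4) (nat_lit 491) (nat_lit 339) (nat_lit 310)) (XT.lf (nat_lit 0) (nat_lit 6659921447) (nat_lit 304) (nat_lit 1442980909) (nat_lit 76) (nat_lit 6637096993) (nat_lit 47) (nat_lit 5) (nat_lit 51) (nat_lit 5) (nat_lit 48) (nat_lit 4) (nat_lit 492) (nat_lit 339) (nat_lit 309))))) (XT.nd (nat_lit 234) (nat_lit 380) (nat_lit 0) (XT.nd (nat_lit 78) (nat_lit 304) (nat_lit 0) (XT.lf (nat_lit 0) (nat_lit 6246212184) (nat_lit 152) (nat_lit 4398451423) (nat_lit 228) (nat_lit 4298693685) (nat_lit 45) (nat_lit 5) (nat_lit 47) (nat_lit 5) (nat_lit 48) (nat_lit 4) (nat_lit 493) (nat_lit 339) (nat_lit 308)) (XT.nd (nat_lit 78) (nat_lit 304) (nat_lit 0) (XT.lf (nat_lit 0) (nat_lit 14029553314) (nat_lit 152) (nat_lit 642966060) (nat_lit 228) (nat_lit 479008673) (nat_lit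 45) (nat_lit 5) (nat_lit 47) (nat_lit 5) (nat_lit 48) (nat_lit 4) (nat_lit 494) (nat_lit 339) (nat_lit 307)) (XT.lf (nat_lit 0) (nat_lit 3390289364) (nat_lit 304) (nat_lit 8793716654) (nat_lit 76) (nat_lit 3179065270) (nat_lit 41) (nat_lit 5) (nat_lit 45) (nat_lit 5) (nat_lit 42) (nat_lit 4) (nat_lit 495) (nat_lit 339) (nat_lit 306)))) (XT.nd (nat_lit 156) (nat_lit 228) (nat_lit 0) (XT.nd (nat_lit 78) (nat_lit 152) (nat_lit 0) (XT.lf (nat_lit 0) (nat_lit 7296911098) (nat_lit 304) (nat_lit 1234912235) (nat_lit 76) (nat_lit 7047644921) (nat_lit 41) (nat_lit 5) (nat_lit 45) (nat_lit 5) (nat_lit 42) (nat_lit 4) (nat_lit 496) (nat_lit 339) (nat_lit 305)) (XT.lf (nat_lit 0) (nat_lit 6483178163) (nat_lit 152) (nat_lit 4795980891) (nat_lit 228) (nat_lit 4521097191) (nat_lit 39) (nat_lit 5) (nat_lit 41) (nat_lit 5) (nat_lit 42) (nat_lit 4) (nat_lit 497) (nat_lit 339) (nat_lit 304))) (XT.nd (nat_lit 78) (nat_lit 228) (nat_lit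 0) (XT.lf (nat_lit 0) (nat_lit 14295957816) (nat_lit 152) (nat_lit 1009160139) (nat_lit 228) (nat_lit 721073427) (nat_lit 39) (nat_lit 5) (nat_lit 41) (nat_lit 5) (nat_lit 42) (nat_lit 4) (nat_lit 498) (nat_lit 339) (nat_lit 303)) (XT.lf (nat_lit 0) (nat_lit 3127529488) (nat_lit 228) (nat_lit 10284125719) (nat_lit 76) (nat_lit 2844313418) (nat_lit 36) (nat_lit 5) (nat_lit 39) (nat_lit 5) (nat_lit 37) (nat_lit 4) (nat_lit 499) (nat_lit 339) (nat_lit 302)))))) (XT.nd (nat_lit 546) (nat_lit 532) (nat_lit 0) (XT.nd (nat_lit 234) (nat_lit 380) (nat_lit 0) (XT.nd (nat_lit 78) (nat_lit 152) (nat_lit 0) (XT.lf (nat_lit 0) (nat_lit 7018338864) (nat_lit 228) (nat_lit 2725911018) (nat_lit 76) (nat_lit 6746510387) (nat_lit 36) (nat_lit 5) (nat_lit 39) (nat_lit 5) (nat_lit 37) (nat_lit 4) (nat_lit 500) (nat_lit 339) (nat_lit 301)) (XT.nd (nat_lit 78) (nat_lit 0) (nat_lit 0) (XT.lf (nat_lit 0) (nat_lit 4974512436) (nat_lit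 152) (nat_lit 6002112277) (nat_lit 228) (nat_lit 5753841567) (nat_lit 34) (nat_lit 5) (nat_lit 36) (nat_lit 5) (nat_lit 37) (nat_lit 4) (nat_lit 501) (nat_lit 339) (nat_lit 300)) (XT.lf (nat_lit 0) (nat_lit 12792185776) (nat_lit 152) (nat_lit 2197902714) (nat_lit 228) (nat_lit 1985369185) (nat_lit 34) (nat_lit 5) (nat_lit 36) (nat_lit 5) (nat_lit 37) (nat_lit 4) (nat_lit 502) (nat_lit 339) (nat_lit 299)))) (XT.nd (nat_lit 156) (nat_lit 152) (nat_lit 0) (XT.nd (nat_lit 78) (nat_lit 0) (nat_lit 0) (XT.lf (nat_lit 0) (nat_lit 1826050169) (nat_lit 228) (nat_lit 13734554671) (nat_lit 76) (nat_lit 1664674756) (nat_lit 31) (nat_lit 5) (nat_lit 34) (nat_lit 5) (nat_lit 32) (nat_lit 4) (nat_lit 503) (nat_lit 339) (nat_lit 298)) (XT.lf (nat_lit 0) (nat_lit 5688363061) (nat_lit 228) (nat_lit 6205507081) (nat_lit 76) (nat_lit 5585951208) (nat_lit 31) (nat_lit 5) (nat_lit 34) (nat_lit 5) (nat_lit 32) (nat_lit 4) (nat_lit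 504) (nat_lit 339) (nat_lit 297))) (XT.nd (nat_lit 78) (nat_lit 0) (nat_lit 0) (XT.lf (nat_lit 0) (nat_lit 1421204033) (nat_lit 152) (nat_lit 8175171931) (nat_lit 228) (nat_lit 8143719530) (nat_lit 29) (nat_lit 5) (nat_lit 31) (nat_lit 5) (nat_lit 32) (nat_lit 4) (nat_lit 505) (nat_lit 339) (nat_lit 296)) (XT.lf (nat_lit 0) (nat_lit 9213480647) (nat_lit 152) (nat_lit 4370275000) (nat_lit 228) (nat_lit 4421805769) (nat_lit 29) (nat_lit 5) (nat_lit 31) (nat_lit 5) (nat_lit 32) (nat_lit 4) (nat_lit 506) (nat_lit 339) (nat_lit 295))))) (XT.nd (nat_lit 234) (nat_lit 304) (nat_lit 0) (XT.nd (nat_lit 78) (nat_lit 228) (nat_lit 0) (XT.lf (nat_lit 0) (nat_lit 17091910630) (nat_lit 152) (nat_lit 519329451) (nat_lit 228) (nat_lit 665899651) (nat_lit 29) (nat_lit 5) (nat_lit 31) (nat_lit 5) (nat_lit 32) (nat_lit 4) (nat_lit 507) (nat_lit 339) (nat_lit 294)) (XT.nd (nat_lit 78) (nat_lit 0) (nat_lit 0) (XT.lf (nat_lit 0) (nat_lit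 3149497579) (nat_lit 228) (nat_lit 12005507003) (nat_lit 76) (nat_lit 3398226170) (nat_lit 26) (nat_lit 5) (nat_lit 29) (nat_lit 5) (nat_lit 27) (nat_lit 4) (nat_lit 508) (nat_lit 339) (nat_lit 293)) (XT.lf (nat_lit 0) (nat_lit 7004738397) (nat_lit 228) (nat_lit 4460180856) (nat_lit 76) (nat_lit 7370396896) (nat_lit 26) (nat_lit 5) (nat_lit 29) (nat_lit 5) (nat_lit 27) (nat_lit 4) (nat_lit 509) (nat_lit 339) (nat_lit 292)))) (XT.nd (nat_lit 156) (nat_lit 228) (nat_lit 0) (XT.nd (nat_lit 78) (nat_lit 0) (nat_lit 0) (XT.lf (nat_lit 0) (nat_lit 3210514946) (nat_lit 76) (nat_lit 7709176869) (nat_lit 152) (nat_lit 8203708724) (nat_lit 25) (nat_lit 5) (nat_lit 26) (nat_lit 5) (nat_lit 27) (nat_lit 4) (nat_lit 510) (nat_lit 339) (nat_lit 291)) (XT.lf (nat_lit 0) (nat_lit 11027885266) (nat_lit 76) (nat_lit 3877065639) (nat_lit 152) (nat_lit 4512464836) (nat_lit 25) (nat_lit 5) (nat_lit 26) (nat_lit 5) (nat_lit 27) (nat_lit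 4) (nat_lit 511) (nat_lit 339) (nat_lit 290))) (XT.nd (nat_lit 78) (nat_lit 228) (nat_lit 0) (XT.lf (nat_lit 0) (nat_lit 18932754612) (nat_lit 152) (nat_lit 782361034) (nat_lit 0) (nat_lit 2947887) (nat_lit 25) (nat_lit 5) (nat_lit 27) (nat_lit 4) (nat_lit 25) (nat_lit 4) (nat_lit 512) (nat_lit 339) (nat_lit 289)) (XT.lf (nat_lit 0) (nat_lit 3011394086) (nat_lit 228) (nat_lit 13066213292) (nat_lit 76) (nat_lit 3946042647) (nat_lit 22) (nat_lit 5) (nat_lit 25) (nat_lit 5) (nat_lit 23) (nat_lit 4) (nat_lit 513) (nat_lit 339) (nat_lit 288))))))))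
noncomputable def xc23 : XT := (XT.nd (nat_lit 55848) (nat_lit 0) (nat_lit 2204) (XT.nd (nat_lit 1092) (nat_lit 228) (nat_lit 0) (XT.nd (nat_lit 546) (nat_lit 380) (nat_lit 0) (XT.nd (nat_lit 234) (nat_lit 228) (nat_lit 0) (XT.nd (nat_lit 78) (nat_lit 76) (nat_lit 0) (XT.lf (nat_lit 0) (nat_lit 6842225780) (nat_lit 228) (nat_lit 5543053488) (nat_lit 76) (nat_lit 7950599514) (nat_lit 22) (nat_lit 5) (nat_lit 25) (nat_lit 5) (nat_lit 23) (nat_lit 4) (nat_lit 514) (nat_lit 339) (nat_lit 287)) (XT.nd (nat_lit 78) (nat_lit 0) (nat_lit 0) (XT.lf (nat_lit 0) (nat_lit 2094102353) (nat_lit 76) (nat_lit 8633300662) (nat_lit 152) (nat_lit 9927402903) (nat_lit 21) (nat_lit 5) (nat_lit 22) (nat_lit 5) (nat_lit 23) (nat_lit 4) (nat_lit 515) (nat_lit 339) (nat_lit 286)) (XT.lf (nat_lit 0) (nat_lit 9895627779) (nat_lit 76) (nat_lit 4796276357) (nat_lit 152) (nat_lit 6288183275) (nat_lit 21) (nat_lit 5) (nat_lit 22) (nat_lit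 5) (nat_lit 23) (nat_lit 4) (nat_lit 516) (nat_lit 339) (nat_lit 285)))) (XT.nd (nat_lit 156) (nat_lit 0) (nat_lit 0) (XT.nd (nat_lit 78) (nat_lit 228) (nat_lit 0) (XT.lf (nat_lit 0) (nat_lit 17790917945) (nat_lit 76) (nat_lit 909898444) (nat_lit 152) (nat_lit 2611763779) (nat_lit 21) (nat_lit 5) (nat_lit 22) (nat_lit 5) (nat_lit 23) (nat_lit 4) (nat_lit 517) (nat_lit 339) (nat_lit 284)) (XT.lf (nat_lit 0) (nat_lit 1135838313) (nat_lit 228) (nat_lit 17493321305) (nat_lit 76) (nat_lit 3022171477) (nat_lit 18) (nat_lit 5) (nat_lit 21) (nat_lit 5) (nat_lit 19) (nat_lit 4) (nat_lit 518) (nat_lit 339) (nat_lit 283))) (XT.nd (nat_lit 78) (nat_lit 0) (nat_lit 0) (XT.lf (nat_lit 0) (nat_lit 4918942246) (nat_lit 228) (nat_lit 10042471957) (nat_lit 76) (nat_lit 7035194728) (nat_lit 18) (nat_lit 5) (nat_lit 21) (nat_lit 5) (nat_lit 19) (nat_lit 4) (nat_lit 519) (nat_lit 339) (nat_lit 282)) (XT.lf (nat_lit 0) (nat_lit 8744055411)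 (nat_lit 228) (nat_lit 2503018459) (nat_lit 76) (nat_lit 11102398956) (nat_lit 18) (nat_lit 5) (nat_lit 21) (nat_lit 5) (nat_lit 19) (nat_lit 4) (nat_lit 520) (nat_lit 339) (nat_lit 281))))) (XT.nd (nat_lit 234) (nat_lit 304) (nat_lit 0) (XT.nd (nat_lit 78) (nat_lit 0) (nat_lit 0) (XT.lf (nat_lit 0) (nat_lit 5196144203) (nat_lit 76) (nat_lit 7450270464) (nat_lit 152) (nat_lit 10062971753) (nat_lit 17) (nat_lit 5) (nat_lit 18) (nat_lit 5) (nat_lit 19) (nat_lit 4) (nat_lit 521) (nat_lit 339) (nat_lit 280)) (XT.nd (nat_lit 78) (nat_lit 0) (nat_lit 0) (XT.lf (nat_lit 0) (nat_lit 13024380582) (nat_lit 76) (nat_lit 3586509013) (nat_lit 152) (nat_lit 6465934477) (nat_lit 17) (nat_lit 5) (nat_lit 18) (nat_lit 5) (nat_lit 19) (nat_lit 4) (nat_lit 522) (nat_lit 339) (nat_lit 279)) (XT.lf (nat_lit 0) (nat_lit 20624703289) (nat_lit 152) (nat_lit 2502898069) (nat_lit 0) (nat_lit 324615147) (nat_lit 17) (nat_lit 5) (nat_lit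 19) (nat_lit 4) (nat_lit 17) (nat_lit 4) (nat_lit 523) (nat_lit 339) (nat_lit 278)))) (XT.nd (nat_lit 156) (nat_lit 76) (nat_lit 0) (XT.nd (nat_lit 78) (nat_lit 0) (nat_lit 0) (XT.lf (nat_lit 0) (nat_lit 898046042) (nat_lit 228) (nat_lit 18655655959) (nat_lit 76) (nat_lit 4280787597) (nat_lit 14) (nat_lit 5) (nat_lit 17) (nat_lit 5) (nat_lit 15) (nat_lit 4) (nat_lit 524) (nat_lit 339) (nat_lit 277)) (XT.lf (nat_lit 0) (nat_lit 4645616105) (nat_lit 228) (nat_lit 11251859357) (nat_lit 76) (nat_lit 8326858304) (nat_lit 14) (nat_lit 5) (nat_lit 17) (nat_lit 5) (nat_lit 15) (nat_lit 4) (nat_lit 525) (nat_lit 339) (nat_lit 276))) (XT.nd (nat_lit 78) (nat_lit 76) (nat_lit 0) (XT.lf (nat_lit 0) (nat_lit 8437174467) (nat_lit 228) (nat_lit 3755945706) (nat_lit 76) (nat_lit 12429480387) (nat_lit 14) (nat_lit 5) (nat_lit 17) (nat_lit 5) (nat_lit 15) (nat_lit 4) (nat_lit 526) (nat_lit 339) (nat_lit 275)) (XT.lf (nat_lit 0)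 (nat_lit 3885990027) (nat_lit 76) (nat_lit 8413448412) (nat_lit 152) (nat_lit 12729503115) (nat_lit 13) (nat_lit 5) (nat_lit 14) (nat_lit 5) (nat_lit 15) (nat_lit 4) (nat_lit 527) (nat_lit 339) (nat_lit 274)))))) (XT.nd (nat_lit 54210) (nat_lit 0) (nat_lit 6764) (XT.nd (nat_lit 234) (nat_lit 76) (nat_lit 0) (XT.nd (nat_lit 78) (nat_lit 152) (nat_lit 0) (XT.lf (nat_lit 0) (nat_lit 11677176589) (nat_lit 76) (nat_lit 4556860852) (nat_lit 152) (nat_lit 9209476361) (nat_lit 13) (nat_lit 5) (nat_lit 14) (nat_lit 5) (nat_lit 15) (nat_lit 4) (nat_lit 528) (nat_lit 339) (nat_lit 273)) (XT.nd (nat_lit 78) (nat_lit 152) (nat_lit 0) (XT.lf (nat_lit 0) (nat_lit 19570754807) (nat_lit 76) (nat_lit 647049478) (nat_lit 152) (nat_lit 5649169800) (nat_lit 13) (nat_lit 5) (nat_lit 14) (nat_lit 5) (nat_lit 15) (nat_lit 4) (nat_lit 529) (nat_lit 339) (nat_lit 272)) (XT.lf (nat_lit 0) (nat_lit 1265387991) (nat_lit 152) (nat_lit 23016668511)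 (nat_lit 152) (nat_lit 2016836857) (nat_lit 11) (nat_lit 4) (nat_lit 13) (nat_lit 5) (nat_lit 13) (nat_lit 4) (nat_lit 530) (nat_lit 339) (nat_lit 271)))) (XT.nd (nat_lit 53820) (nat_lit 0) (nat_lit 8664) (XT.nd (nat_lit 78) (nat_lit 0) (nat_lit 0) (XT.lf (nat_lit 0) (nat_lit 1683753781) (nat_lit 228) (nat_lit 17743418754) (nat_lit 76) (nat_lit 7311710002) (nat_lit 10) (nat_lit 5) (nat_lit 13) (nat_lit 5) (nat_lit 11) (nat_lit 4) (nat_lit 531) (nat_lit 339) (nat_lit 270)) (XT.lf (nat_lit 0) (nat_lit 5402881409) (nat_lit 228) (nat_lit 10372712063) (nat_lit 76) (nat_lit 11412386429) (nat_lit 10) (nat_lit 5) (nat_lit 13) (nat_lit 5) (nat_lit 11) (nat_lit 4) (nat_lit 532) (nat_lit 339) (nat_lit 269))) (XT.nd (nat_lit 78) (nat_lit 0) (nat_lit 0) (XT.lf (nat_lit 0) (nat_lit 217659856) (nat_lit 380) (nat_lit 4589358241) (nat_lit 0) (nat_lit 217659856) (nat_lit 124) (nat_lit 5) (nat_lit 129) (nat_lit 4) (nat_lit 124)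 (nat_lit 4) (nat_lit 460) (nat_lit 340) (nat_lit 340)) (XT.lf (nat_lit 0) (nat_lit 4408832982) (nat_lit 380) (nat_lit 2129604179) (nat_lit 0) (nat_lit 3613969463) (nat_lit 124) (nat_lit 5) (nat_lit 129) (nat_lit 4) (nat_lit 124) (nat_lit 4) (nat_lit 461) (nat_lit 340) (nat_lit 339))))) (XT.nd (nat_lit 234) (nat_lit 1140) (nat_lit 0) (XT.nd (nat_lit 78) (nat_lit 380) (nat_lit 0) (XT.lf (nat_lit 0) (nat_lit 5032255383) (nat_lit 380) (nat_lit 3400013501) (nat_lit 380) (nat_lit 1825872022) (nat_lit 119) (nat_lit 4) (nat_lit 124) (nat_lit 5) (nat_lit 124) (nat_lit 4) (nat_lit 462) (nat_lit 340) (nat_lit 338)) (XT.nd (nat_lit 78) (nat_lit 0) (nat_lit 0) (XT.lf (nat_lit 0) (nat_lit 1917003458) (nat_lit 304) (nat_lit 189502945) (nat_lit 380) (nat_lit 8259936330) (nat_lit 114) (nat_lit 5) (nat_lit 118) (nat_lit 5) (nat_lit 119) (nat_lit 4) (nat_lit 463) (nat_lit 340) (nat_lit 337)) (XT.lf (nat_lit 0) (nat_lit 6086788920)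 (nat_lit 380) (nat_lit 1329871686) (nat_lit 0) (nat_lit 3060164287) (nat_lit 114) (nat_lit 5) (nat_lit 119) (nat_lit 4) (nat_lit 114) (nat_lit 4) (nat_lit 464) (nat_lit 340) (nat_lit 336)))) (XT.nd (nat_lit 156) (nat_lit 380) (nat_lit 0) (XT.nd (nat_lit 78) (nat_lit 380) (nat_lit 0) (XT.lf (nat_lit 0) (nat_lit 5915378681) (nat_lit 380) (nat_lit 4210518903) (nat_lit 380) (nat_lit 463961891) (nat_lit 109) (nat_lit 4) (nat_lit 114) (nat_lit 5) (nat_lit 114) (nat_lit 4) (nat_lit 465) (nat_lit 340) (nat_lit 335)) (XT.lf (nat_lit 0) (nat_lit 2535539437) (nat_lit 304) (nat_lit 923823189) (nat_lit 380) (nat_lit 7246057114) (nat_lit 104) (nat_lit 5) (nat_lit 108) (nat_lit 5) (nat_lit 109) (nat_lit 4) (nat_lit 466) (nat_lit 340) (nat_lit 334))) (XT.nd (nat_lit 78) (nat_lit 380) (nat_lit 0) (XT.lf (nat_lit 0) (nat_lit 7442377085) (nat_lit 380) (nat_lit 982234490) (nat_lit 0) (nat_lit 2398897088) (nat_lit 104) (nat_lit 5)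 (nat_lit 109) (nat_lit 4) (nat_lit 104) (nat_lit 4) (nat_lit 467) (nat_lit 340) (nat_lit 333)) (XT.lf (nat_lit 0) (nat_lit 542136278) (nat_lit 380) (nat_lit 4613470948) (nat_lit 76) (nat_lit 5788537665) (nat_lit 99) (nat_lit 5) (nat_lit 104) (nat_lit 5) (nat_lit 100) (nat_lit 4) (nat_lit 468) (nat_lit 340) (nat_lit 332))))))) (XT.nd (nat_lit 1092) (nat_lit 1900) (nat_lit 0) (XT.nd (nat_lit 546) (nat_lit 1140) (nat_lit 0) (XT.nd (nat_lit 234) (nat_lit 836) (nat_lit 0) (XT.nd (nat_lit 78) (nat_lit 380) (nat_lit 0) (XT.lf (nat_lit 0) (nat_lit 2656487606) (nat_lit 304) (nat_lit 1807442480) (nat_lit 380) (nat_lit 6603536013) (nat_lit 95) (nat_lit 5) (nat_lit 99) (nat_lit 5) (nat_lit 100) (nat_lit 4) (nat_lit 469) (nat_lit 340) (nat_lit 331)) (XT.nd (nat_lit 78) (nat_lit 380) (nat_lit 0) (XT.lf (nat_lit 0) (nat_lit 8447509482) (nat_lit 380) (nat_lit 1161270162) (nat_lit 0) (nat_lit 1584832503) (nat_lit 95) (nat_lit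 5) (nat_lit 100) (nat_lit 4) (nat_lit 95) (nat_lit 4) (nat_lit 470) (nat_lit 340) (nat_lit 330)) (XT.lf (nat_lit 0) (nat_lit 1168030407) (nat_lit 380) (nat_lit 5117710908) (nat_lit 76) (nat_lit 5036507134) (nat_lit 90) (nat_lit 5) (nat_lit 95) (nat_lit 5) (nat_lit 91) (nat_lit 4) (nat_lit 471) (nat_lit 340) (nat_lit 329)))) (XT.nd (nat_lit 156) (nat_lit 608) (nat_lit 0) (XT.nd (nat_lit 78) (nat_lit 0) (nat_lit 0) (XT.lf (nat_lit 0) (nat_lit 2199967775) (nat_lit 228) (nat_lit 2888897232) (nat_lit 304) (nat_lit 6364949597) (nat_lit 87) (nat_lit 5) (nat_lit 90) (nat_lit 5) (nat_lit 91) (nat_lit 4) (nat_lit 472) (nat_lit 340) (nat_lit 328)) (XT.lf (nat_lit 0) (nat_lit 9069765033) (nat_lit 304) (nat_lit 1949004719) (nat_lit 0) (nat_lit 569632833) (nat_lit 87) (nat_lit 5) (nat_lit 91) (nat_lit 4) (nat_lit 87) (nat_lit 4) (nat_lit 473) (nat_lit 340) (nat_lit 327))) (XT.nd (nat_lit 78) (nat_lit 228) (nat_lit 0) (XT.lf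 (nat_lit 0) (nat_lit 1385216319) (nat_lit 380) (nat_lit 6269657002) (nat_lit 76) (nat_lit 4070668432) (nat_lit 82) (nat_lit 5) (nat_lit 87) (nat_lit 5) (nat_lit 83) (nat_lit 4) (nat_lit 474) (nat_lit 340) (nat_lit 326)) (XT.lf (nat_lit 0) (nat_lit 1078031222) (nat_lit 228) (nat_lit 4220164982) (nat_lit 304) (nat_lit 6567621188) (nat_lit 79) (nat_lit 5) (nat_lit 82) (nat_lit 5) (nat_lit 83) (nat_lit 4) (nat_lit 475) (nat_lit 340) (nat_lit 325))))) (XT.nd (nat_lit 234) (nat_lit 760) (nat_lit 0) (XT.nd (nat_lit 78) (nat_lit 380) (nat_lit 0) (XT.lf (nat_lit 0) (nat_lit 8568778511) (nat_lit 228) (nat_lit 707816732) (nat_lit 304) (nat_lit 2732581800) (nat_lit 79) (nat_lit 5) (nat_lit 82) (nat_lit 5) (nat_lit 83) (nat_lit 4) (nat_lit 476) (nat_lit 340) (nat_lit 324)) (XT.nd (nat_lit 78) (nat_lit 0) (nat_lit 0) (XT.lf (nat_lit 0) (nat_lit 1154191231) (nat_lit 380) (nat_lit 8163498656) (nat_lit 76) (nat_lit 2837771772)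 (nat_lit 74) (nat_lit 5) (nat_lit 79) (nat_lit 5) (nat_lit 75) (nat_lit 4) (nat_lit 477) (nat_lit 340) (nat_lit 323)) (XT.lf (nat_lit 0) (nat_lit 5056136175) (nat_lit 380) (nat_lit 795718622) (nat_lit 76) (nat_lit 6452995847) (nat_lit 74) (nat_lit 5) (nat_lit 79) (nat_lit 5) (nat_lit 75) (nat_lit 4) (nat_lit 478) (nat_lit 340) (nat_lit 322)))) (XT.nd (nat_lit 156) (nat_lit 228) (nat_lit 0) (XT.nd (nat_lit 78) (nat_lit 304) (nat_lit 0) (XT.lf (nat_lit 0) (nat_lit 6721115971) (nat_lit 228) (nat_lit 2305763767) (nat_lit 304) (nat_lit 3430552513) (nat_lit 71) (nat_lit 5) (nat_lit 74) (nat_lit 5) (nat_lit 75) (nat_lit 4) (nat_lit 479) (nat_lit 340) (nat_lit 321)) (XT.lf (nat_lit 0) (nat_lit 430081490) (nat_lit 304) (nat_lit 10903161694) (nat_lit 76) (nat_lit 1280337438) (nat_lit 67) (nat_lit 5) (nat_lit 71) (nat_lit 5) (nat_lit 68) (nat_lit 4) (nat_lit 480) (nat_lit 340) (nat_lit 320))) (XT.nd (nat_lit 78) (nat_lit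 228) (nat_lit 0) (XT.lf (nat_lit 0) (nat_lit 4323546173) (nat_lit 304) (nat_lit 3513357008) (nat_lit 76) (nat_lit 4935483080) (nat_lit 67) (nat_lit 5) (nat_lit 71) (nat_lit 5) (nat_lit 68) (nat_lit 4) (nat_lit 481) (nat_lit 340) (nat_lit 319)) (XT.lf (nat_lit 0) (nat_lit 3991418148) (nat_lit 228) (nat_lit 4277898085) (nat_lit 304) (nat_lit 4665581568) (nat_lit 64) (nat_lit 5) (nat_lit 67) (nat_lit 5) (nat_lit 68) (nat_lit 4) (nat_lit 482) (nat_lit 340) (nat_lit 318)))))) (XT.nd (nat_lit 546) (nat_lit 912) (nat_lit 0) (XT.nd (nat_lit 234) (nat_lit 456) (nat_lit 0) (XT.nd (nat_lit 78) (nat_lit 532) (nat_lit 0) (XT.lf (nat_lit 0) (nat_lit 11609299852) (nat_lit 228) (nat_lit 657259491) (nat_lit 304) (nat_lit 834667223) (nat_lit 64) (nat_lit 5) (nat_lit 67) (nat_lit 5) (nat_lit 68) (nat_lit 4) (nat_lit 483) (nat_lit 340) (nat_lit 317)) (XT.nd (nat_lit 78) (nat_lit 228) (nat_lit 0) (XT.lf (nat_lit 0) (nat_lit 3041592067)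 (nat_lit 304) (nat_lit 7205736428) (nat_lit 76) (nat_lit 3022991278) (nat_lit 60) (nat_lit 5) (nat_lit 64) (nat_lit 5) (nat_lit 61) (nat_lit 4) (nat_lit 484) (nat_lit 340) (nat_lit 316)) (XT.lf (nat_lit 0) (nat_lit 259417160) (nat_lit 228) (nat_lit 6690774047) (nat_lit 304) (nat_lit 6493190576) (nat_lit 57) (nat_lit 5) (nat_lit 60) (nat_lit 5) (nat_lit 61) (nat_lit 4) (nat_lit 485) (nat_lit 340) (nat_lit 315)))) (XT.nd (nat_lit 156) (nat_lit 152) (nat_lit 0) (XT.nd (nat_lit 78) (nat_lit 304) (nat_lit 0) (XT.lf (nat_lit 0) (nat_lit 7888210402) (nat_lit 228) (nat_lit 3047413626) (nat_lit 304) (nat_lit 2684324538) (nat_lit 57) (nat_lit 5) (nat_lit 60) (nat_lit 5) (nat_lit 61) (nat_lit 4) (nat_lit 486) (nat_lit 340) (nat_lit 314)) (XT.lf (nat_lit 0) (nat_lit 1151875664) (nat_lit 304) (nat_lit 12001898386) (nat_lit 76) (nat_lit 646794742) (nat_lit 53) (nat_lit 5) (nat_lit 57) (nat_lit 5) (nat_lit 54) (nat_lit 4) (nat_lit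 487) (nat_lit 340) (nat_lit 313))) (XT.nd (nat_lit 78) (nat_lit 152) (nat_lit 0) (XT.lf (nat_lit 0) (nat_lit 5038947547) (nat_lit 304) (nat_lit 4547466891) (nat_lit 76) (nat_lit 4397846100) (nat_lit 53) (nat_lit 5) (nat_lit 57) (nat_lit 5) (nat_lit 54) (nat_lit 4) (nat_lit 488) (nat_lit 340) (nat_lit 312)) (XT.lf (nat_lit 0) (nat_lit 3014606173) (nat_lit 152) (nat_lit 5960843138) (nat_lit 228) (nat_lit 5196758528) (nat_lit 51) (nat_lit 5) (nat_lit 53) (nat_lit 5) (nat_lit 54) (nat_lit 4) (nat_lit 489) (nat_lit 340) (nat_lit 311))))) (XT.nd (nat_lit 312) (nat_lit 456) (nat_lit 0) (XT.nd (nat_lit 156) (nat_lit 152) (nat_lit 0) (XT.nd (nat_lit 78) (nat_lit 304) (nat_lit 0) (XT.lf (nat_lit 0) (nat_lit 10709111440) (nat_lit 152) (nat_lit 2264617754) (nat_lit 228) (nat_lit 1390539116) (nat_lit 51) (nat_lit 5) (nat_lit 53) (nat_lit 5) (nat_lit 54) (nat_lit 4) (nat_lit 490) (nat_lit 340) (nat_lit 310)) (XT.lf (nat_lit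 0) (nat_lit 2447773045) (nat_lit 304) (nat_lit 10616626917) (nat_lit 76) (nat_lit 1495688077) (nat_lit 47) (nat_lit 5) (nat_lit 51) (nat_lit 5) (nat_lit 48) (nat_lit 4) (nat_lit 491) (nat_lit 340) (nat_lit 309))) (XT.nd (nat_lit 78) (nat_lit 152) (nat_lit 0) (XT.lf (nat_lit 0) (nat_lit 6337272258) (nat_lit 304) (nat_lit 3119824577) (nat_lit 76) (nat_lit 5302697007) (nat_lit 47) (nat_lit 5) (nat_lit 51) (nat_lit 5) (nat_lit 48) (nat_lit 4) (nat_lit 492) (nat_lit 340) (nat_lit 308)) (XT.lf (nat_lit 0) (nat_lit 4507878299) (nat_lit 152) (nat_lit 5780201085) (nat_lit 228) (nat_lit 4675758046) (nat_lit 45) (nat_lit 5) (nat_lit 47) (nat_lit 5) (nat_lit 48) (nat_lit 4) (nat_lit 493) (nat_lit 340) (nat_lit 307)))) (XT.nd (nat_lit 156) (nat_lit 152) (nat_lit 0) (XT.nd (nat_lit 78) (nat_lit 304) (nat_lit 0) (XT.lf (nat_lit 0) (nat_lit 12252782323) (nat_lit 152) (nat_lit 2040698741) (nat_lit 228) (nat_lit 878983011) (nat_lit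 45) (nat_lit 5) (nat_lit 47) (nat_lit 5) (nat_lit 48) (nat_lit 4) (nat_lit 494) (nat_lit 340) (nat_lit 306)) (XT.lf (nat_lit 0) (nat_lit 2952059969) (nat_lit 304) (nat_lit 10663576451) (nat_lit 76) (nat_lit 1769299394) (nat_lit 41) (nat_lit 5) (nat_lit 45) (nat_lit 5) (nat_lit 42) (nat_lit 4) (nat_lit 495) (nat_lit 340) (nat_lit 305))) (XT.nd (nat_lit 78) (nat_lit 152) (nat_lit 0) (XT.lf (nat_lit 0) (nat_lit 6836602839) (nat_lit 304) (nat_lit 3142850327) (nat_lit 76) (nat_lit 5622327607) (nat_lit 41) (nat_lit 5) (nat_lit 45) (nat_lit 5) (nat_lit 42) (nat_lit 4) (nat_lit 496) (nat_lit 340) (nat_lit 304)) (XT.lf (nat_lit 0) (nat_lit 4512056798) (nat_lit 152) (nat_lit 6272350226) (nat_lit 228) (nat_lit 5038856906) (nat_lit 39) (nat_lit 5) (nat_lit 41) (nat_lit 5) (nat_lit 42) (nat_lit 4) (nat_lit 497) (nat_lit 340) (nat_lit 303))))))))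
noncomputable def xc24 : XT := (XT.nd (nat_lit 2184) (nat_lit 304) (nat_lit 0) (XT.nd (nat_lit 1092) (nat_lit 836) (nat_lit 0) (XT.nd (nat_lit 546) (nat_lit 456) (nat_lit 0) (XT.nd (nat_lit 234) (nat_lit 380) (nat_lit 0) (XT.nd (nat_lit 78) (nat_lit 228) (nat_lit 0) (XT.lf (nat_lit 0) (nat_lit 12287750392) (nat_lit 152) (nat_lit 2501153231) (nat_lit 228) (nat_lit 1260730857) (nat_lit 39) (nat_lit 5) (nat_lit 41) (nat_lit 5) (nat_lit 42) (nat_lit 4) (nat_lit 498) (nat_lit 340) (nat_lit 302)) (XT.nd (nat_lit 78) (nat_lit 0) (nat_lit 0) (XT.lf (nat_lit 0) (nat_lit 2550278262) (nat_lit 228) (nat_lit 12390672783) (nat_lit 76) (nat_lit 1339430112) (nat_lit 36) (nat_lit 5) (nat_lit 39) (nat_lit 5) (nat_lit 37) (nat_lit 4) (nat_lit 499) (nat_lit 340) (nat_lit 301)) (XT.lf (nat_lit 0) (nat_lit 6419979941) (nat_lit 228) (nat_lit 4869189352) (nat_lit 76) (nat_lit 5226431474) (nat_lit 36) (nat_lit 5) (nat_lit 39) (nat_lit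 5) (nat_lit 37) (nat_lit 4) (nat_lit 500) (nat_lit 340) (nat_lit 300)))) (XT.nd (nat_lit 156) (nat_lit 228) (nat_lit 0) (XT.nd (nat_lit 78) (nat_lit 0) (nat_lit 0) (XT.lf (nat_lit 0) (nat_lit 2766261445) (nat_lit 152) (nat_lit 7576973094) (nat_lit 228) (nat_lit 6412778561) (nat_lit 34) (nat_lit 5) (nat_lit 36) (nat_lit 5) (nat_lit 37) (nat_lit 4) (nat_lit 501) (nat_lit 340) (nat_lit 299)) (XT.lf (nat_lit 0) (nat_lit 10548160651) (nat_lit 152) (nat_lit 3788017335) (nat_lit 228) (nat_lit 2665242500) (nat_lit 34) (nat_lit 5) (nat_lit 36) (nat_lit 5) (nat_lit 37) (nat_lit 4) (nat_lit 502) (nat_lit 340) (nat_lit 298))) (XT.nd (nat_lit 78) (nat_lit 0) (nat_lit 0) (XT.lf (nat_lit 0) (nat_lit 1109147732) (nat_lit 228) (nat_lit 16082266506) (nat_lit 76) (nat_lit 60840738) (nat_lit 31) (nat_lit 5) (nat_lit 34) (nat_lit 5) (nat_lit 32) (nat_lit 4) (nat_lit 503) (nat_lit 340) (nat_lit 297)) (XT.lf (nat_lit 0) (nat_lit 4951275651)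 (nat_lit 228) (nat_lit 8588643061) (nat_lit 76) (nat_lit 3967286980) (nat_lit 31) (nat_lit 5) (nat_lit 34) (nat_lit 5) (nat_lit 32) (nat_lit 4) (nat_lit 504) (nat_lit 340) (nat_lit 296))))) (XT.nd (nat_lit 234) (nat_lit 304) (nat_lit 0) (XT.nd (nat_lit 78) (nat_lit 152) (nat_lit 0) (XT.lf (nat_lit 0) (nat_lit 8830271967) (nat_lit 228) (nat_lit 1015300847) (nat_lit 76) (nat_lit 7922492515) (nat_lit 31) (nat_lit 5) (nat_lit 34) (nat_lit 5) (nat_lit 32) (nat_lit 4) (nat_lit 505) (nat_lit 340) (nat_lit 295)) (XT.nd (nat_lit 78) (nat_lit 0) (nat_lit 0) (XT.lf (nat_lit 0) (nat_lit 6728981881) (nat_lit 152) (nat_lit 6062364988) (nat_lit 228) (nat_lit 5242715536) (nat_lit 29) (nat_lit 5) (nat_lit 31) (nat_lit 5) (nat_lit 32) (nat_lit 4) (nat_lit 506) (nat_lit 340) (nat_lit 294)) (XT.lf (nat_lit 0) (nat_lit 14573587287) (nat_lit 152) (nat_lit 2226003655) (nat_lit 228) (nat_lit 1506439547) (nat_lit 29) (nat_lit 5) (nat_lit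 31) (nat_lit 5) (nat_lit 32) (nat_lit 4) (nat_lit 507) (nat_lit 340) (nat_lit 293)))) (XT.nd (nat_lit 156) (nat_lit 76) (nat_lit 0) (XT.nd (nat_lit 78) (nat_lit 0) (nat_lit 0) (XT.lf (nat_lit 0) (nat_lit 2272723890) (nat_lit 228) (nat_lit 14633305512) (nat_lit 76) (nat_lit 1677151172) (nat_lit 26) (nat_lit 5) (nat_lit 29) (nat_lit 5) (nat_lit 27) (nat_lit 4) (nat_lit 508) (nat_lit 340) (nat_lit 292)) (XT.lf (nat_lit 0) (nat_lit 6109035496) (nat_lit 228) (nat_lit 7121466171) (nat_lit 76) (nat_lit 5635147563) (nat_lit 26) (nat_lit 5) (nat_lit 29) (nat_lit 5) (nat_lit 27) (nat_lit 4) (nat_lit 509) (nat_lit 340) (nat_lit 291))) (XT.nd (nat_lit 78) (nat_lit 0) (nat_lit 0) (XT.lf (nat_lit 0) (nat_lit 480596053) (nat_lit 76) (nat_lit 9507110367) (nat_lit 152) (nat_lit 9166757432) (nat_lit 25) (nat_lit 5) (nat_lit 26) (nat_lit 5) (nat_lit 27) (nat_lit 4) (nat_lit 510) (nat_lit 340) (nat_lit 290)) (XT.lf (nat_lit 0) (nat_lit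 8265352159) (nat_lit 76) (nat_lit 5689207430) (nat_lit 152) (nat_lit 5494292076) (nat_lit 25) (nat_lit 5) (nat_lit 26) (nat_lit 5) (nat_lit 27) (nat_lit 4) (nat_lit 511) (nat_lit 340) (nat_lit 289)))))) (XT.nd (nat_lit 546) (nat_lit 380) (nat_lit 0) (XT.nd (nat_lit 234) (nat_lit 228) (nat_lit 0) (XT.nd (nat_lit 78) (nat_lit 228) (nat_lit 0) (XT.lf (nat_lit 0) (nat_lit 16141214456) (nat_lit 76) (nat_lit 1823084426) (nat_lit 152) (nat_lit 1785566267) (nat_lit 25) (nat_lit 5) (nat_lit 26) (nat_lit 5) (nat_lit 27) (nat_lit 4) (nat_lit 512) (nat_lit 340) (nat_lit 288)) (XT.nd (nat_lit 78) (nat_lit 0) (nat_lit 0) (XT.lf (nat_lit 0) (nat_lit 1975590214) (nat_lit 228) (nat_lit 15976064540) (nat_lit 76) (nat_lit 2104904309) (nat_lit 22) (nat_lit 5) (nat_lit 25) (nat_lit 5) (nat_lit 23) (nat_lit 4) (nat_lit 513) (nat_lit 340) (nat_lit 287)) (XT.lf (nat_lit 0) (nat_lit 5788665773) (nat_lit 228) (nat_lit 8484554086) (nat_lit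 76) (nat_lit 6095927234) (nat_lit 22) (nat_lit 5) (nat_lit 25) (nat_lit 5) (nat_lit 23) (nat_lit 4) (nat_lit 514) (nat_lit 340) (nat_lit 286)))) (XT.nd (nat_lit 156) (nat_lit 152) (nat_lit 0) (XT.nd (nat_lit 78) (nat_lit 76) (nat_lit 0) (XT.lf (nat_lit 0) (nat_lit 9642838732) (nat_lit 228) (nat_lit 905891546) (nat_lit 76) (nat_lit 10139968106) (nat_lit 22) (nat_lit 5) (nat_lit 25) (nat_lit 5) (nat_lit 23) (nat_lit 4) (nat_lit 515) (nat_lit 340) (nat_lit 285)) (XT.lf (nat_lit 0) (nat_lit 6852770419) (nat_lit 76) (nat_lit 6731342843) (nat_lit 152) (nat_lit 7430335134) (nat_lit 21) (nat_lit 5) (nat_lit 22) (nat_lit 5) (nat_lit 23) (nat_lit 4) (nat_lit 516) (nat_lit 340) (nat_lit 284))) (XT.nd (nat_lit 78) (nat_lit 152) (nat_lit 0) (XT.lf (nat_lit 0) (nat_lit 14717840352) (nat_lit 76) (nat_lit 2858256951) (nat_lit 152) (nat_lit 3771186326) (nat_lit 21) (nat_lit 5) (nat_lit 22) (nat_lit 5) (nat_lit 23) (nat_lit 4)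 (nat_lit 517) (nat_lit 340) (nat_lit 283)) (XT.lf (nat_lit 0) (nat_lit 999092279) (nat_lit 152) (nat_lit 20628711983) (nat_lit 152) (nat_lit 59381384) (nat_lit 19) (nat_lit 4) (nat_lit 21) (nat_lit 5) (nat_lit 21) (nat_lit 4) (nat_lit 518) (nat_lit 340) (nat_lit 282))))) (XT.nd (nat_lit 234) (nat_lit 228) (nat_lit 0) (XT.nd (nat_lit 78) (nat_lit 76) (nat_lit 0) (XT.lf (nat_lit 0) (nat_lit 3707841520) (nat_lit 228) (nat_lit 13266765821) (nat_lit 76) (nat_lit 5058200734) (nat_lit 18) (nat_lit 5) (nat_lit 21) (nat_lit 5) (nat_lit 19) (nat_lit 4) (nat_lit 519) (nat_lit 340) (nat_lit 281)) (XT.nd (nat_lit 78) (nat_lit 76) (nat_lit 0) (XT.lf (nat_lit 0) (nat_lit 7516621523) (nat_lit 228) (nat_lit 5756633249) (nat_lit 76) (nat_lit 9112747473) (nat_lit 18) (nat_lit 5) (nat_lit 21) (nat_lit 5) (nat_lit 19) (nat_lit 4) (nat_lit 520) (nat_lit 340) (nat_lit 280)) (XT.lf (nat_lit 0) (nat_lit 1870162559) (nat_lit 76) (nat_lit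 9511210837) (nat_lit 152) (nat_lit 11365298133) (nat_lit 17) (nat_lit 5) (nat_lit 18) (nat_lit 5) (nat_lit 19) (nat_lit 4) (nat_lit 521) (nat_lit 340) (nat_lit 279)))) (XT.nd (nat_lit 156) (nat_lit 228) (nat_lit 0) (XT.nd (nat_lit 78) (nat_lit 0) (nat_lit 0) (XT.lf (nat_lit 0) (nat_lit 9669842050) (nat_lit 76) (nat_lit 5660121938) (nat_lit 152) (nat_lit 7784466352) (nat_lit 17) (nat_lit 5) (nat_lit 18) (nat_lit 5) (nat_lit 19) (nat_lit 4) (nat_lit 522) (nat_lit 340) (nat_lit 278)) (XT.lf (nat_lit 0) (nat_lit 17568961294) (nat_lit 76) (nat_lit 1757107885) (nat_lit 152) (nat_lit 4164111170) (nat_lit 17) (nat_lit 5) (nat_lit 18) (nat_lit 5) (nat_lit 19) (nat_lit 4) (nat_lit 523) (nat_lit 340) (nat_lit 277))) (XT.nd (nat_lit 78) (nat_lit 76) (nat_lit 0) (XT.lf (nat_lit 0) (nat_lit 1704625834) (nat_lit 152) (nat_lit 21691977511) (nat_lit 152) (nat_lit 476958617) (nat_lit 15) (nat_lit 4) (nat_lit 17) (nat_lit 5) (nat_lit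 17) (nat_lit 4) (nat_lit 524) (nat_lit 340) (nat_lit 276)) (XT.lf (nat_lit 0) (nat_lit 3261538575) (nat_lit 228) (nat_lit 14789745211) (nat_lit 76) (nat_lit 6212494052) (nat_lit 14) (nat_lit 5) (nat_lit 17) (nat_lit 5) (nat_lit 15) (nat_lit 4) (nat_lit 525) (nat_lit 340) (nat_lit 275))))))) (XT.nd (nat_lit 54600) (nat_lit 0) (nat_lit 4864) (XT.nd (nat_lit 54054) (nat_lit 0) (nat_lit 7904) (XT.nd (nat_lit 234) (nat_lit 228) (nat_lit 0) (XT.nd (nat_lit 78) (nat_lit 76) (nat_lit 0) (XT.lf (nat_lit 0) (nat_lit 7038069223) (nat_lit 228) (nat_lit 7320990792) (nat_lit 76) (nat_lit 10303288316) (nat_lit 14) (nat_lit 5) (nat_lit 17) (nat_lit 5) (nat_lit 15) (nat_lit 4) (nat_lit 526) (nat_lit 340) (nat_lit 274)) (XT.nd (nat_lit 78) (nat_lit 0) (nat_lit 0) (XT.lf (nat_lit 0) (nat_lit 246586814) (nat_lit 76) (nat_lit 10615383909) (nat_lit 152) (nat_lit 14207488937) (nat_lit 13) (nat_lit 5) (nat_lit 14) (nat_lit 5) (nat_lit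 15) (nat_lit 4) (nat_lit 527) (nat_lit 340) (nat_lit 273)) (XT.lf (nat_lit 0) (nat_lit 8011321853) (nat_lit 76) (nat_lit 6770631961) (nat_lit 152) (nat_lit 10702373434) (nat_lit 13) (nat_lit 5) (nat_lit 14) (nat_lit 5) (nat_lit 15) (nat_lit 4) (nat_lit 528) (nat_lit 340) (nat_lit 272)))) (XT.nd (nat_lit 156) (nat_lit 228) (nat_lit 0) (XT.nd (nat_lit 78) (nat_lit 0) (nat_lit 0) (XT.lf (nat_lit 0) (nat_lit 15878967206) (nat_lit 76) (nat_lit 2872424128) (nat_lit 152) (nat_lit 7156685748) (nat_lit 13) (nat_lit 5) (nat_lit 14) (nat_lit 5) (nat_lit 15) (nat_lit 4) (nat_lit 529) (nat_lit 340) (nat_lit 271)) (XT.lf (nat_lit 0) (nat_lit 22778856988) (nat_lit 152) (nat_lit 2495284178) (nat_lit 0) (nat_lit 1066593827) (nat_lit 13) (nat_lit 5) (nat_lit 15) (nat_lit 4) (nat_lit 13) (nat_lit 4) (nat_lit 530) (nat_lit 340) (nat_lit 270))) (XT.nd (nat_lit 78) (nat_lit 0) (nat_lit 0) (XT.lf (nat_lit 0) (nat_lit 128344816) (nat_lit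 228) (nat_lit 21594937749) (nat_lit 76) (nat_lit 5058257653) (nat_lit 10) (nat_lit 5) (nat_lit 13) (nat_lit 5) (nat_lit 11) (nat_lit 4) (nat_lit 531) (nat_lit 340) (nat_lit 269)) (XT.lf (nat_lit 0) (nat_lit 3833642788) (nat_lit 228) (nat_lit 14249383999) (nat_lit 76) (nat_lit 9147890126) (nat_lit 10) (nat_lit 5) (nat_lit 13) (nat_lit 5) (nat_lit 11) (nat_lit 4) (nat_lit 532) (nat_lit 340) (nat_lit 268))))) (XT.nd (nat_lit 234) (nat_lit 760) (nat_lit 0) (XT.nd (nat_lit 78) (nat_lit 760) (nat_lit 0) (XT.lf (nat_lit 0) (nat_lit 1645344528) (nat_lit 456) (nat_lit 1633594072) (nat_lit 0) (nat_lit 1645344528) (nat_lit 134) (nat_lit 5) (nat_lit 140) (nat_lit 4) (nat_lit 134) (nat_lit 4) (nat_lit 458) (nat_lit 341) (nat_lit 341)) (XT.nd (nat_lit 78) (nat_lit 380) (nat_lit 0) (XT.lf (nat_lit 0) (nat_lit 3754749020) (nat_lit 380) (nat_lit 3510102136) (nat_lit 380) (nat_lit 2683126130) (nat_lit 129) (nat_lit 4) (nat_lit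 134) (nat_lit 5) (nat_lit 134) (nat_lit 4) (nat_lit 459) (nat_lit 341) (nat_lit 340)) (XT.lf (nat_lit 0) (nat_lit 821076717) (nat_lit 304) (nat_lit 396157694) (nat_lit 380) (nat_lit 8832714370) (nat_lit 124) (nat_lit 5) (nat_lit 128) (nat_lit 5) (nat_lit 129) (nat_lit 4) (nat_lit 460) (nat_lit 341) (nat_lit 339)))) (XT.nd (nat_lit 156) (nat_lit 380) (nat_lit 0) (XT.nd (nat_lit 78) (nat_lit 380) (nat_lit 0) (XT.lf (nat_lit 0) (nat_lit 5157373398) (nat_lit 380) (nat_lit 2223838099) (nat_lit 0) (nat_lit 2772471130) (nat_lit 124) (nat_lit 5) (nat_lit 129) (nat_lit 4) (nat_lit 124) (nat_lit 4) (nat_lit 461) (nat_lit 341) (nat_lit 338)) (XT.lf (nat_lit 0) (nat_lit 4890425599) (nat_lit 380) (nat_lit 4259264647) (nat_lit 380) (nat_lit 1110364379) (nat_lit 119) (nat_lit 4) (nat_lit 124) (nat_lit 5) (nat_lit 124) (nat_lit 4) (nat_lit 462) (nat_lit 341) (nat_lit 337))) (XT.nd (nat_lit 78) (nat_lit 0) (nat_lit 0) (XT.lf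 (nat_lit 0) (nat_lit 1720183288) (nat_lit 304) (nat_lit 1061054931) (nat_lit 380) (nat_lit 7587667898) (nat_lit 114) (nat_lit 5) (nat_lit 118) (nat_lit 5) (nat_lit 119) (nat_lit 4) (nat_lit 463) (nat_lit 341) (nat_lit 336)) (XT.lf (nat_lit 0) (nat_lit 6725940729) (nat_lit 380) (nat_lit 1569553399) (nat_lit 0) (nat_lit 2184520198) (nat_lit 114) (nat_lit 5) (nat_lit 119) (nat_lit 4) (nat_lit 114) (nat_lit 4) (nat_lit 464) (nat_lit 341) (nat_lit 335)))))) (XT.nd (nat_lit 546) (nat_lit 1216) (nat_lit 0) (XT.nd (nat_lit 234) (nat_lit 1064) (nat_lit 0) (XT.nd (nat_lit 78) (nat_lit 304) (nat_lit 0) (XT.lf (nat_lit 0) (nat_lit 138315469) (nat_lit 456) (nat_lit 4967839341) (nat_lit 76) (nat_lit 5487514237) (nat_lit 108) (nat_lit 5) (nat_lit 114) (nat_lit 5) (nat_lit 109) (nat_lit 4) (nat_lit 465) (nat_lit 341) (nat_lit 334)) (XT.nd (nat_lit 78) (nat_lit 0) (nat_lit 0) (XT.lf (nat_lit 0) (nat_lit 2189369322) (nat_lit 304)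 (nat_lit 1834681389) (nat_lit 380) (nat_lit 6685762058) (nat_lit 104) (nat_lit 5) (nat_lit 108) (nat_lit 5) (nat_lit 109) (nat_lit 4) (nat_lit 466) (nat_lit 341) (nat_lit 333)) (XT.lf (nat_lit 0) (nat_lit 7972072457) (nat_lit 380) (nat_lit 1372334175) (nat_lit 0) (nat_lit 1484208265) (nat_lit 104) (nat_lit 5) (nat_lit 109) (nat_lit 4) (nat_lit 104) (nat_lit 4) (nat_lit 467) (nat_lit 341) (nat_lit 332)))) (XT.nd (nat_lit 156) (nat_lit 380) (nat_lit 0) (XT.nd (nat_lit 78) (nat_lit 304) (nat_lit 0) (XT.lf (nat_lit 0) (nat_lit 1028256441) (nat_lit 380) (nat_lit 5062851117) (nat_lit 76) (nat_lit 4858720056) (nat_lit 99) (nat_lit 5) (nat_lit 104) (nat_lit 5) (nat_lit 100) (nat_lit 4) (nat_lit 468) (nat_lit 341) (nat_lit 331)) (XT.lf (nat_lit 0) (nat_lit 2155885362) (nat_lit 304) (nat_lit 2762477924) (nat_lit 380) (nat_lit 6155431853) (nat_lit 95) (nat_lit 5) (nat_lit 99) (nat_lit 5) (nat_lit 100) (nat_lit 4) (nat_lit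 469) (nat_lit 341) (nat_lit 330))) (XT.nd (nat_lit 78) (nat_lit 380) (nat_lit 0) (XT.lf (nat_lit 0) (nat_lit 8867469637) (nat_lit 380) (nat_lit 1706834041) (nat_lit 0) (nat_lit 626339305) (nat_lit 95) (nat_lit 5) (nat_lit 100) (nat_lit 4) (nat_lit 95) (nat_lit 4) (nat_lit 470) (nat_lit 341) (nat_lit 329)) (XT.lf (nat_lit 0) (nat_lit 1543726532) (nat_lit 380) (nat_lit 5725209944) (nat_lit 76) (nat_lit 4060937393) (nat_lit 90) (nat_lit 5) (nat_lit 95) (nat_lit 5) (nat_lit 91) (nat_lit 4) (nat_lit 471) (nat_lit 341) (nat_lit 328))))) (XT.nd (nat_lit 234) (nat_lit 608) (nat_lit 0) (XT.nd (nat_lit 78) (nat_lit 380) (nat_lit 0) (XT.lf (nat_lit 0) (nat_lit 1539765917) (nat_lit 228) (nat_lit 3892857231) (nat_lit 304) (nat_lit 6029467258) (nat_lit 87) (nat_lit 5) (nat_lit 90) (nat_lit 5) (nat_lit 91) (nat_lit 4) (nat_lit 472) (nat_lit 341) (nat_lit 327)) (XT.nd (nat_lit 78) (nat_lit 380) (nat_lit 0) (XT.lf (nat_lit 0)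 (nat_lit 8939264152) (nat_lit 228) (nat_lit 443118025) (nat_lit 304) (nat_lit 2214930423) (nat_lit 87) (nat_lit 5) (nat_lit 90) (nat_lit 5) (nat_lit 91) (nat_lit 4) (nat_lit 473) (nat_lit 341) (nat_lit 326)) (XT.lf (nat_lit 0) (nat_lit 1649930581) (nat_lit 380) (nat_lit 7040482985) (nat_lit 76) (nat_lit 3044709911) (nat_lit 82) (nat_lit 5) (nat_lit 87) (nat_lit 5) (nat_lit 83) (nat_lit 4) (nat_lit 474) (nat_lit 341) (nat_lit 325)))) (XT.nd (nat_lit 156) (nat_lit 380) (nat_lit 0) (XT.nd (nat_lit 78) (nat_lit 0) (nat_lit 0) (XT.lf (nat_lit 0) (nat_lit 252960600) (nat_lit 228) (nat_lit 5277693919) (nat_lit 304) (nat_lit 6345400454) (nat_lit 79) (nat_lit 5) (nat_lit 82) (nat_lit 5) (nat_lit 83) (nat_lit 4) (nat_lit 475) (nat_lit 341) (nat_lit 324)) (XT.lf (nat_lit 0) (nat_lit 7700569880) (nat_lit 228) (nat_lit 1781831986) (nat_lit 304) (nat_lit 2537556317) (nat_lit 79) (nat_lit 5) (nat_lit 82) (nat_lit 5) (nat_lit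 83) (nat_lit 4) (nat_lit 476) (nat_lit 341) (nat_lit 323))) (XT.nd (nat_lit 78) (nat_lit 0) (nat_lit 0) (XT.lf (nat_lit 0) (nat_lit 1307163692) (nat_lit 380) (nat_lit 9102974065) (nat_lit 76) (nat_lit 1756879740) (nat_lit 74) (nat_lit 5) (nat_lit 79) (nat_lit 5) (nat_lit 75) (nat_lit 4) (nat_lit 477) (nat_lit 341) (nat_lit 322)) (XT.lf (nat_lit 0) (nat_lit 5182931298) (nat_lit 380) (nat_lit 1777990905) (nat_lit 76) (nat_lit 5356017744) (nat_lit 74) (nat_lit 5) (nat_lit 79) (nat_lit 5) (nat_lit 75) (nat_lit 4) (nat_lit 478) (nat_lit 341) (nat_lit 321))))))))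
noncomputable def xc25 : XT := (XT.nd (nat_lit 2184) (nat_lit 1444) (nat_lit 0) (XT.nd (nat_lit 1092) (nat_lit 1368) (nat_lit 0) (XT.nd (nat_lit 546) (nat_lit 988) (nat_lit 0) (XT.nd (nat_lit 234) (nat_lit 532) (nat_lit 0) (XT.nd (nat_lit 78) (nat_lit 304) (nat_lit 0) (XT.lf (nat_lit 0) (nat_lit 5683274490) (nat_lit 228) (nat_lit 3437997959) (nat_lit 304) (nat_lit 3348906878) (nat_lit 71) (nat_lit 5) (nat_lit 74) (nat_lit 5) (nat_lit 75) (nat_lit 4) (nat_lit 479) (nat_lit 341) (nat_lit 320)) (XT.nd (nat_lit 78) (nat_lit 0) (nat_lit 0) (XT.lf (nat_lit 0) (nat_lit 470353301) (nat_lit 304) (nat_lit 12016738988) (nat_lit 76) (nat_lit 140040215) (nat_lit 67) (nat_lit 5) (nat_lit 71) (nat_lit 5) (nat_lit 68) (nat_lit 4) (nat_lit 480) (nat_lit 341) (nat_lit 319)) (XT.lf (nat_lit 0) (nat_lit 4338333405) (nat_lit 304) (nat_lit 4669099543) (nat_lit 76) (nat_lit 3779024049) (nat_lit 67) (nat_lit 5) (nat_lit 71) (nat_lit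 5) (nat_lit 68) (nat_lit 4) (nat_lit 481) (nat_lit 341) (nat_lit 318)))) (XT.nd (nat_lit 156) (nat_lit 304) (nat_lit 0) (XT.nd (nat_lit 78) (nat_lit 0) (nat_lit 0) (XT.lf (nat_lit 0) (nat_lit 2778428564) (nat_lit 228) (nat_lit 5472814488) (nat_lit 304) (nat_lit 4698391678) (nat_lit 64) (nat_lit 5) (nat_lit 67) (nat_lit 5) (nat_lit 68) (nat_lit 4) (nat_lit 482) (nat_lit 341) (nat_lit 317)) (XT.lf (nat_lit 0) (nat_lit 10355243758) (nat_lit 228) (nat_lit 1868480791) (nat_lit 304) (nat_lit 892742987) (nat_lit 64) (nat_lit 5) (nat_lit 67) (nat_lit 5) (nat_lit 68) (nat_lit 4) (nat_lit 483) (nat_lit 341) (nat_lit 316))) (XT.nd (nat_lit 78) (nat_lit 0) (nat_lit 0) (XT.lf (nat_lit 0) (nat_lit 2943188913) (nat_lit 304) (nat_lit 8540543533) (nat_lit 76) (nat_lit 1802666084) (nat_lit 60) (nat_lit 5) (nat_lit 64) (nat_lit 5) (nat_lit 61) (nat_lit 4) (nat_lit 484) (nat_lit 341) (nat_lit 315)) (XT.lf (nat_lit 0) (nat_lit 6825771322)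 (nat_lit 304) (nat_lit 1119508121) (nat_lit 76) (nat_lit 5514709732) (nat_lit 60) (nat_lit 5) (nat_lit 64) (nat_lit 5) (nat_lit 61) (nat_lit 4) (nat_lit 485) (nat_lit 341) (nat_lit 314))))) (XT.nd (nat_lit 234) (nat_lit 456) (nat_lit 0) (XT.nd (nat_lit 78) (nat_lit 304) (nat_lit 0) (XT.lf (nat_lit 0) (nat_lit 6453959440) (nat_lit 228) (nat_lit 4325761585) (nat_lit 304) (nat_lit 2857472733) (nat_lit 57) (nat_lit 5) (nat_lit 60) (nat_lit 5) (nat_lit 61) (nat_lit 4) (nat_lit 486) (nat_lit 341) (nat_lit 313)) (XT.nd (nat_lit 78) (nat_lit 0) (nat_lit 0) (XT.lf (nat_lit 0) (nat_lit 292853652) (nat_lit 228) (nat_lit 650275023) (nat_lit 304) (nat_lit 12875473007) (nat_lit 53) (nat_lit 5) (nat_lit 56) (nat_lit 5) (nat_lit 57) (nat_lit 5) (nat_lit 487) (nat_lit 341) (nat_lit 312)) (XT.lf (nat_lit 0) (nat_lit 4802273403) (nat_lit 304) (nat_lit 6107185688) (nat_lit 76) (nat_lit 3093400548) (nat_lit 53) (nat_lit 5) (nat_lit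 57) (nat_lit 5) (nat_lit 54) (nat_lit 4) (nat_lit 488) (nat_lit 341) (nat_lit 311)))) (XT.nd (nat_lit 156) (nat_lit 304) (nat_lit 0) (XT.nd (nat_lit 78) (nat_lit 0) (nat_lit 0) (XT.lf (nat_lit 0) (nat_lit 1394332124) (nat_lit 152) (nat_lit 7310682818) (nat_lit 228) (nat_lit 5486474720) (nat_lit 51) (nat_lit 5) (nat_lit 53) (nat_lit 5) (nat_lit 54) (nat_lit 4) (nat_lit 489) (nat_lit 341) (nat_lit 310)) (XT.lf (nat_lit 0) (nat_lit 9049790908) (nat_lit 152) (nat_lit 3630465761) (nat_lit 228) (nat_lit 1703761595) (nat_lit 51) (nat_lit 5) (nat_lit 53) (nat_lit 5) (nat_lit 54) (nat_lit 4) (nat_lit 490) (nat_lit 341) (nat_lit 309))) (XT.nd (nat_lit 78) (nat_lit 0) (nat_lit 0) (XT.lf (nat_lit 0) (nat_lit 2095569282) (nat_lit 304) (nat_lit 12366472948) (nat_lit 76) (nat_lit 118705307) (nat_lit 47) (nat_lit 5) (nat_lit 51) (nat_lit 5) (nat_lit 48) (nat_lit 4) (nat_lit 491) (nat_lit 341) (nat_lit 308)) (XT.lf (nat_lit 0)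 (nat_lit 5962419878) (nat_lit 304) (nat_lit 4908362263) (nat_lit 76) (nat_lit 3910131116) (nat_lit 47) (nat_lit 5) (nat_lit 51) (nat_lit 5) (nat_lit 48) (nat_lit 4) (nat_lit 492) (nat_lit 341) (nat_lit 307)))))) (XT.nd (nat_lit 546) (nat_lit 532) (nat_lit 0) (XT.nd (nat_lit 234) (nat_lit 380) (nat_lit 0) (XT.nd (nat_lit 78) (nat_lit 304) (nat_lit 0) (XT.lf (nat_lit 0) (nat_lit 2657134783) (nat_lit 152) (nat_lit 7221871440) (nat_lit 228) (nat_lit 5106641846) (nat_lit 45) (nat_lit 5) (nat_lit 47) (nat_lit 5) (nat_lit 48) (nat_lit 4) (nat_lit 493) (nat_lit 341) (nat_lit 306)) (XT.nd (nat_lit 78) (nat_lit 304) (nat_lit 0) (XT.lf (nat_lit 0) (nat_lit 10364355370) (nat_lit 152) (nat_lit 3498038724) (nat_lit 228) (nat_lit 1332327572) (nat_lit 45) (nat_lit 5) (nat_lit 47) (nat_lit 5) (nat_lit 48) (nat_lit 4) (nat_lit 494) (nat_lit 341) (nat_lit 305)) (XT.lf (nat_lit 0) (nat_lit 2460466682) (nat_lit 304) (nat_lit 12647751600)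 (nat_lit 76) (nat_lit 299924295) (nat_lit 41) (nat_lit 5) (nat_lit 45) (nat_lit 5) (nat_lit 42) (nat_lit 4) (nat_lit 495) (nat_lit 341) (nat_lit 304)))) (XT.nd (nat_lit 156) (nat_lit 228) (nat_lit 0) (XT.nd (nat_lit 78) (nat_lit 152) (nat_lit 0) (XT.lf (nat_lit 0) (nat_lit 6323363608) (nat_lit 304) (nat_lit 5164357138) (nat_lit 76) (nat_lit 4137706001) (nat_lit 41) (nat_lit 5) (nat_lit 45) (nat_lit 5) (nat_lit 42) (nat_lit 4) (nat_lit 496) (nat_lit 341) (nat_lit 303)) (XT.lf (nat_lit 0) (nat_lit 2426599168) (nat_lit 152) (nat_lit 7809806936) (nat_lit 228) (nat_lit 5611205200) (nat_lit 39) (nat_lit 5) (nat_lit 41) (nat_lit 5) (nat_lit 42) (nat_lit 4) (nat_lit 497) (nat_lit 341) (nat_lit 302))) (XT.nd (nat_lit 78) (nat_lit 228) (nat_lit 0) (XT.lf (nat_lit 0) (nat_lit 10165933881) (nat_lit 152) (nat_lit 4053927350) (nat_lit 228) (nat_lit 1854547498) (nat_lit 39) (nat_lit 5) (nat_lit 41) (nat_lit 5) (nat_lit 42)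 (nat_lit 4) (nat_lit 498) (nat_lit 341) (nat_lit 301)) (XT.lf (nat_lit 0) (nat_lit 1691080248) (nat_lit 152) (nat_lit 229252676) (nat_lit 228) (nat_lit 14385783737) (nat_lit 36) (nat_lit 5) (nat_lit 38) (nat_lit 5) (nat_lit 39) (nat_lit 5) (nat_lit 499) (nat_lit 341) (nat_lit 300))))) (XT.nd (nat_lit 234) (nat_lit 380) (nat_lit 0) (XT.nd (nat_lit 78) (nat_lit 152) (nat_lit 0) (XT.lf (nat_lit 0) (nat_lit 5767852321) (nat_lit 228) (nat_lit 7128075570) (nat_lit 76) (nat_lit 3645857721) (nat_lit 36) (nat_lit 5) (nat_lit 39) (nat_lit 5) (nat_lit 37) (nat_lit 4) (nat_lit 500) (nat_lit 341) (nat_lit 299)) (XT.nd (nat_lit 78) (nat_lit 0) (nat_lit 0) (XT.lf (nat_lit 0) (nat_lit 441581684) (nat_lit 152) (nat_lit 9214143812) (nat_lit 228) (nat_lit 7127185663) (nat_lit 34) (nat_lit 5) (nat_lit 36) (nat_lit 5) (nat_lit 37) (nat_lit 4) (nat_lit 501) (nat_lit 341) (nat_lit 298)) (XT.lf (nat_lit 0) (nat_lit 8188408210) (nat_lit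 152) (nat_lit 5440142764) (nat_lit 228) (nat_lit 3400175408) (nat_lit 34) (nat_lit 5) (nat_lit 36) (nat_lit 5) (nat_lit 37) (nat_lit 4) (nat_lit 502) (nat_lit 341) (nat_lit 297)))) (XT.nd (nat_lit 156) (nat_lit 152) (nat_lit 0) (XT.nd (nat_lit 78) (nat_lit 152) (nat_lit 0) (XT.lf (nat_lit 0) (nat_lit 355994924) (nat_lit 228) (nat_lit 1261894050) (nat_lit 76) (nat_lit 15662329768) (nat_lit 33) (nat_lit 5) (nat_lit 36) (nat_lit 5) (nat_lit 34) (nat_lit 5) (nat_lit 503) (nat_lit 341) (nat_lit 296)) (XT.lf (nat_lit 0) (nat_lit 4159472331) (nat_lit 228) (nat_lit 11089595460) (nat_lit 76) (nat_lit 2286879836) (nat_lit 31) (nat_lit 5) (nat_lit 34) (nat_lit 5) (nat_lit 32) (nat_lit 4) (nat_lit 504) (nat_lit 341) (nat_lit 295))) (XT.nd (nat_lit 78) (nat_lit 152) (nat_lit 0) (XT.lf (nat_lit 0) (nat_lit 8019067483) (nat_lit 228) (nat_lit 3550301829) (nat_lit 76) (nat_lit 6227831037) (nat_lit 31) (nat_lit 5) (nat_lit 34)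 (nat_lit 5) (nat_lit 32) (nat_lit 4) (nat_lit 505) (nat_lit 341) (nat_lit 294)) (XT.lf (nat_lit 0) (nat_lit 4126467492) (nat_lit 152) (nat_lit 7817756893) (nat_lit 228) (nat_lit 6119696359) (nat_lit 29) (nat_lit 5) (nat_lit 31) (nat_lit 5) (nat_lit 32) (nat_lit 4) (nat_lit 506) (nat_lit 341) (nat_lit 293))))))) (XT.nd (nat_lit 1092) (nat_lit 608) (nat_lit 0) (XT.nd (nat_lit 546) (nat_lit 304) (nat_lit 0) (XT.nd (nat_lit 234) (nat_lit 304) (nat_lit 0) (XT.nd (nat_lit 78) (nat_lit 228) (nat_lit 0) (XT.lf (nat_lit 0) (nat_lit 11937911546) (nat_lit 152) (nat_lit 3995693812) (nat_lit 228) (nat_lit 2402665595) (nat_lit 29) (nat_lit 5) (nat_lit 31) (nat_lit 5) (nat_lit 32) (nat_lit 4) (nat_lit 507) (nat_lit 341) (nat_lit 292)) (XT.nd (nat_lit 78) (nat_lit 0) (nat_lit 0) (XT.lf (nat_lit 0) (nat_lit 1232482362) (nat_lit 152) (nat_lit 108399157) (nat_lit 228) (nat_lit 17273607980) (nat_lit 26) (nat_lit 5) (nat_lit 28)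 (nat_lit 5) (nat_lit 29) (nat_lit 5) (nat_lit 508) (nat_lit 341) (nat_lit 291)) (XT.lf (nat_lit 0) (nat_lit 5157931276) (nat_lit 228) (nat_lit 9902294199) (nat_lit 76) (nat_lit 3837122499) (nat_lit 26) (nat_lit 5) (nat_lit 29) (nat_lit 5) (nat_lit 27) (nat_lit 4) (nat_lit 509) (nat_lit 341) (nat_lit 290)))) (XT.nd (nat_lit 156) (nat_lit 228) (nat_lit 0) (XT.nd (nat_lit 78) (nat_lit 76) (nat_lit 0) (XT.lf (nat_lit 0) (nat_lit 9015287684) (nat_lit 228) (nat_lit 2338721550) (nat_lit 76) (nat_lit 7832584145) (nat_lit 26) (nat_lit 5) (nat_lit 29) (nat_lit 5) (nat_lit 27) (nat_lit 4) (nat_lit 510) (nat_lit 341) (nat_lit 289)) (XT.lf (nat_lit 0) (nat_lit 5382979459) (nat_lit 76) (nat_lit 7565730049) (nat_lit 152) (nat_lit 6532944715) (nat_lit 25) (nat_lit 5) (nat_lit 26) (nat_lit 5) (nat_lit 27) (nat_lit 4) (nat_lit 511) (nat_lit 341) (nat_lit 288))) (XT.nd (nat_lit 78) (nat_lit 228) (nat_lit 0) (XT.lf (nat_lit 0) (nat_lit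 13227493991) (nat_lit 76) (nat_lit 3713263613) (nat_lit 152) (nat_lit 2842268244) (nat_lit 25) (nat_lit 5) (nat_lit 26) (nat_lit 5) (nat_lit 27) (nat_lit 4) (nat_lit 512) (nat_lit 341) (nat_lit 287)) (XT.lf (nat_lit 0) (nat_lit 883202872) (nat_lit 228) (nat_lit 19008044499) (nat_lit 76) (nat_lit 199604641) (nat_lit 22) (nat_lit 5) (nat_lit 25) (nat_lit 5) (nat_lit 23) (nat_lit 4) (nat_lit 513) (nat_lit 341) (nat_lit 286))))) (XT.nd (nat_lit 234) (nat_lit 228) (nat_lit 0) (XT.nd (nat_lit 78) (nat_lit 76) (nat_lit 0) (XT.lf (nat_lit 0) (nat_lit 4678870455) (nat_lit 228) (nat_lit 11547562819) (nat_lit 76) (nat_lit 4177358996) (nat_lit 22) (nat_lit 5) (nat_lit 25) (nat_lit 5) (nat_lit 23) (nat_lit 4) (nat_lit 514) (nat_lit 341) (nat_lit 285)) (XT.nd (nat_lit 78) (nat_lit 76) (nat_lit 0) (XT.lf (nat_lit 0) (nat_lit 8515976771) (nat_lit 228) (nat_lit 3999320646) (nat_lit 76) (nat_lit 8208391466) (nat_lit 22) (nat_lit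 5) (nat_lit 25) (nat_lit 5) (nat_lit 23) (nat_lit 4) (nat_lit 515) (nat_lit 341) (nat_lit 284)) (XT.lf (nat_lit 0) (nat_lit 3688011042) (nat_lit 76) (nat_lit 8731960540) (nat_lit 152) (nat_lit 8630216820) (nat_lit 21) (nat_lit 5) (nat_lit 22) (nat_lit 5) (nat_lit 23) (nat_lit 4) (nat_lit 516) (nat_lit 341) (nat_lit 283)))) (XT.nd (nat_lit 156) (nat_lit 228) (nat_lit 0) (XT.nd (nat_lit 78) (nat_lit 0) (nat_lit 0) (XT.lf (nat_lit 0) (nat_lit 11523453296) (nat_lit 76) (nat_lit 4871906040) (nat_lit 152) (nat_lit 4988000058) (nat_lit 21) (nat_lit 5) (nat_lit 22) (nat_lit 5) (nat_lit 23) (nat_lit 4) (nat_lit 517) (nat_lit 341) (nat_lit 282)) (XT.lf (nat_lit 0) (nat_lit 19456929972) (nat_lit 76) (nat_lit 960457717) (nat_lit 152) (nat_lit 1306471053) (nat_lit 21) (nat_lit 5) (nat_lit 22) (nat_lit 5) (nat_lit 23) (nat_lit 4) (nat_lit 518) (nat_lit 341) (nat_lit 281))) (XT.nd (nat_lit 78) (nat_lit 0) (nat_lit 0) (XT.lf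 (nat_lit 0) (nat_lit 2439525793) (nat_lit 228) (nat_lit 16614773834) (nat_lit 76) (nat_lit 3016098733) (nat_lit 18) (nat_lit 5) (nat_lit 21) (nat_lit 5) (nat_lit 19) (nat_lit 4) (nat_lit 519) (nat_lit 341) (nat_lit 280)) (XT.lf (nat_lit 0) (nat_lit 6232292892) (nat_lit 228) (nat_lit 9133387268) (nat_lit 76) (nat_lit 7058236170) (nat_lit 18) (nat_lit 5) (nat_lit 21) (nat_lit 5) (nat_lit 19) (nat_lit 4) (nat_lit 520) (nat_lit 341) (nat_lit 279)))))) (XT.nd (nat_lit 546) (nat_lit 304) (nat_lit 0) (XT.nd (nat_lit 234) (nat_lit 228) (nat_lit 0) (XT.nd (nat_lit 78) (nat_lit 76) (nat_lit 0) (XT.lf (nat_lit 0) (nat_lit 10069203505) (nat_lit 228) (nat_lit 1559301336) (nat_lit 76) (nat_lit 11156641072) (nat_lit 18) (nat_lit 5) (nat_lit 21) (nat_lit 5) (nat_lit 19) (nat_lit 4) (nat_lit 521) (nat_lit 341) (nat_lit 278)) (XT.nd (nat_lit 78) (nat_lit 0) (nat_lit 0) (XT.lf (nat_lit 0) (nat_lit 6191658911) (nat_lit 76) (nat_lit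 7800303746) (nat_lit 152) (nat_lit 9161462099) (nat_lit 17) (nat_lit 5) (nat_lit 18) (nat_lit 5) (nat_lit 19) (nat_lit 4) (nat_lit 522) (nat_lit 341) (nat_lit 277)) (XT.lf (nat_lit 0) (nat_lit 14063330166) (nat_lit 76) (nat_lit 3909470153) (nat_lit 152) (nat_lit 5556683133) (nat_lit 17) (nat_lit 5) (nat_lit 18) (nat_lit 5) (nat_lit 19) (nat_lit 4) (nat_lit 523) (nat_lit 341) (nat_lit 276)))) (XT.nd (nat_lit 156) (nat_lit 0) (nat_lit 0) (XT.nd (nat_lit 78) (nat_lit 228) (nat_lit 0) (XT.lf (nat_lit 0) (nat_lit 22003246664) (nat_lit 152) (nat_lit 1875825204) (nat_lit 0) (nat_lit 34598227) (nat_lit 17) (nat_lit 5) (nat_lit 19) (nat_lit 4) (nat_lit 17) (nat_lit 4) (nat_lit 524) (nat_lit 341) (nat_lit 275)) (XT.lf (nat_lit 0) (nat_lit 1819423512) (nat_lit 228) (nat_lit 18453250432) (nat_lit 76) (nat_lit 4031950320) (nat_lit 14) (nat_lit 5) (nat_lit 17) (nat_lit 5) (nat_lit 15) (nat_lit 4) (nat_lit 525) (nat_lit 341)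 (nat_lit 274))) (XT.nd (nat_lit 78) (nat_lit 0) (nat_lit 0) (XT.lf (nat_lit 0) (nat_lit 5581221107) (nat_lit 228) (nat_lit 11011122712) (nat_lit 76) (nat_lit 8111148684) (nat_lit 14) (nat_lit 5) (nat_lit 17) (nat_lit 5) (nat_lit 15) (nat_lit 4) (nat_lit 526) (nat_lit 341) (nat_lit 273)) (XT.lf (nat_lit 0) (nat_lit 9389077432) (nat_lit 228) (nat_lit 3472883741) (nat_lit 76) (nat_lit 12248966583) (nat_lit 14) (nat_lit 5) (nat_lit 17) (nat_lit 5) (nat_lit 15) (nat_lit 4) (nat_lit 527) (nat_lit 341) (nat_lit 272))))) (XT.nd (nat_lit 234) (nat_lit 228) (nat_lit 0) (XT.nd (nat_lit 78) (nat_lit 0) (nat_lit 0) (XT.lf (nat_lit 0) (nat_lit 4219765635) (nat_lit 76) (nat_lit 9052117646) (nat_lit 152) (nat_lit 12254658575) (nat_lit 13) (nat_lit 5) (nat_lit 14) (nat_lit 5) (nat_lit 15) (nat_lit 4) (nat_lit 528) (nat_lit 341) (nat_lit 271)) (XT.nd (nat_lit 78) (nat_lit 0) (nat_lit 0) (XT.lf (nat_lit 0) (nat_lit 12061986609)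 (nat_lit 76) (nat_lit 5165285834) (nat_lit 152) (nat_lit 8723303118) (nat_lit 13) (nat_lit 5) (nat_lit 14) (nat_lit 5) (nat_lit 15) (nat_lit 4) (nat_lit 529) (nat_lit 341) (nat_lit 270)) (XT.lf (nat_lit 0) (nat_lit 20010701764) (nat_lit 76) (nat_lit 1223246370) (nat_lit 152) (nat_lit 5149703987) (nat_lit 13) (nat_lit 5) (nat_lit 14) (nat_lit 5) (nat_lit 15) (nat_lit 4) (nat_lit 530) (nat_lit 341) (nat_lit 269)))) (XT.nd (nat_lit 53508) (nat_lit 0) (nat_lit 9804) (XT.nd (nat_lit 78) (nat_lit 76) (nat_lit 0) (XT.lf (nat_lit 0) (nat_lit 1241346668) (nat_lit 152) (nat_lit 24078215265) (nat_lit 152) (nat_lit 1505857829) (nat_lit 11) (nat_lit 4) (nat_lit 13) (nat_lit 5) (nat_lit 13) (nat_lit 4) (nat_lit 531) (nat_lit 341) (nat_lit 268)) (XT.lf (nat_lit 0) (nat_lit 2205631252) (nat_lit 228) (nat_lit 18253402064) (nat_lit 76) (nat_lit 6816232536) (nat_lit 10) (nat_lit 5) (nat_lit 13) (nat_lit 5) (nat_lit 11) (nat_lit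 4) (nat_lit 532) (nat_lit 341) (nat_lit 267))) (XT.nd (nat_lit 78) (nat_lit 76) (nat_lit 0) (XT.lf (nat_lit 0) (nat_lit 1164551652) (nat_lit 456) (nat_lit 1831681312) (nat_lit 456) (nat_lit 1831681312) (nat_lit 140) (nat_lit 4) (nat_lit 146) (nat_lit 5) (nat_lit 146) (nat_lit 4) (nat_lit 456) (nat_lit 342) (nat_lit 342)) (XT.lf (nat_lit 0) (nat_lit 207409550) (nat_lit 532) (nat_lit 441418542) (nat_lit 76) (nat_lit 9102920394) (nat_lit 139) (nat_lit 5) (nat_lit 146) (nat_lit 5) (nat_lit 140) (nat_lit 4) (nat_lit 457) (nat_lit 342) (nat_lit 341))))))))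
noncomputable def xc26 : XT := (XT.nd (nat_lit 2184) (nat_lit 2660) (nat_lit 0) (XT.nd (nat_lit 1092) (nat_lit 2280) (nat_lit 0) (XT.nd (nat_lit 546) (nat_lit 1824) (nat_lit 0) (XT.nd (nat_lit 234) (nat_lit 760) (nat_lit 0) (XT.nd (nat_lit 78) (nat_lit 760) (nat_lit 0) (XT.lf (nat_lit 0) (nat_lit 4103102703) (nat_lit 456) (nat_lit 3313491017) (nat_lit 0) (nat_lit 2432611172) (nat_lit 134) (nat_lit 5) (nat_lit 140) (nat_lit 4) (nat_lit 134) (nat_lit 4) (nat_lit 458) (nat_lit 342) (nat_lit 340)) (XT.nd (nat_lit 78) (nat_lit 380) (nat_lit 0) (XT.lf (nat_lit 0) (nat_lit 3661832557) (nat_lit 380) (nat_lit 4384336932) (nat_lit 380) (nat_lit 1903084612) (nat_lit 129) (nat_lit 4) (nat_lit 134) (nat_lit 5) (nat_lit 134) (nat_lit 4) (nat_lit 459) (nat_lit 342) (nat_lit 339)) (XT.lf (nat_lit 0) (nat_lit 674378924) (nat_lit 304) (nat_lit 1281311552) (nat_lit 380) (nat_lit 8096076573) (nat_lit 124) (nat_lit 5) (nat_lit 128)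 (nat_lit 5) (nat_lit 129) (nat_lit 4) (nat_lit 460) (nat_lit 342) (nat_lit 338)))) (XT.nd (nat_lit 156) (nat_lit 380) (nat_lit 0) (XT.nd (nat_lit 78) (nat_lit 380) (nat_lit 0) (XT.lf (nat_lit 0) (nat_lit 5859884257) (nat_lit 380) (nat_lit 2412342894) (nat_lit 0) (nat_lit 1884007983) (nat_lit 124) (nat_lit 5) (nat_lit 129) (nat_lit 4) (nat_lit 124) (nat_lit 4) (nat_lit 461) (nat_lit 342) (nat_lit 337)) (XT.lf (nat_lit 0) (nat_lit 4653980827) (nat_lit 380) (nat_lit 5167079042) (nat_lit 380) (nat_lit 442185121) (nat_lit 119) (nat_lit 4) (nat_lit 124) (nat_lit 5) (nat_lit 124) (nat_lit 4) (nat_lit 462) (nat_lit 342) (nat_lit 336))) (XT.nd (nat_lit 78) (nat_lit 0) (nat_lit 0) (XT.lf (nat_lit 0) (nat_lit 1427419467) (nat_lit 304) (nat_lit 1981810440) (nat_lit 380) (nat_lit 6963422746) (nat_lit 114) (nat_lit 5) (nat_lit 118) (nat_lit 5) (nat_lit 119) (nat_lit 4) (nat_lit 463) (nat_lit 342) (nat_lit 335)) (XT.lf (nat_lit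 0) (nat_lit 7318619642) (nat_lit 380) (nat_lit 1905239378) (nat_lit 0) (nat_lit 1260622264) (nat_lit 114) (nat_lit 5) (nat_lit 119) (nat_lit 4) (nat_lit 114) (nat_lit 4) (nat_lit 464) (nat_lit 342) (nat_lit 334))))) (XT.nd (nat_lit 234) (nat_lit 1064) (nat_lit 0) (XT.nd (nat_lit 78) (nat_lit 304) (nat_lit 0) (XT.lf (nat_lit 0) (nat_lit 687333066) (nat_lit 456) (nat_lit 5361561111) (nat_lit 76) (nat_lit 4549808660) (nat_lit 108) (nat_lit 5) (nat_lit 114) (nat_lit 5) (nat_lit 109) (nat_lit 4) (nat_lit 465) (nat_lit 342) (nat_lit 333)) (XT.nd (nat_lit 78) (nat_lit 0) (nat_lit 0) (XT.lf (nat_lit 0) (nat_lit 1745453817) (nat_lit 304) (nat_lit 2796049193) (nat_lit 380) (nat_lit 6173988205) (nat_lit 104) (nat_lit 5) (nat_lit 108) (nat_lit 5) (nat_lit 109) (nat_lit 4) (nat_lit 466) (nat_lit 342) (nat_lit 332)) (XT.lf (nat_lit 0) (nat_lit 8454774274) (nat_lit 380) (nat_lit 1860245540) (nat_lit 0) (nat_lit 519981627) (nat_lit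 104) (nat_lit 5) (nat_lit 109) (nat_lit 4) (nat_lit 104) (nat_lit 4) (nat_lit 467) (nat_lit 342) (nat_lit 331)))) (XT.nd (nat_lit 156) (nat_lit 380) (nat_lit 0) (XT.nd (nat_lit 78) (nat_lit 304) (nat_lit 0) (XT.lf (nat_lit 0) (nat_lit 1466656833) (nat_lit 380) (nat_lit 5611425194) (nat_lit 76) (nat_lit 3878716219) (nat_lit 99) (nat_lit 5) (nat_lit 104) (nat_lit 5) (nat_lit 100) (nat_lit 4) (nat_lit 468) (nat_lit 342) (nat_lit 330)) (XT.lf (nat_lit 0) (nat_lit 1555658231) (nat_lit 304) (nat_lit 3769329238) (nat_lit 380) (nat_lit 5756426160) (nat_lit 95) (nat_lit 5) (nat_lit 99) (nat_lit 5) (nat_lit 100) (nat_lit 4) (nat_lit 469) (nat_lit 342) (nat_lit 329))) (XT.nd (nat_lit 78) (nat_lit 380) (nat_lit 0) (XT.lf (nat_lit 0) (nat_lit 8854291943) (nat_lit 304) (nat_lit 388066350) (nat_lit 380) (nat_lit 1966549980) (nat_lit 95) (nat_lit 5) (nat_lit 99) (nat_lit 5) (nat_lit 100) (nat_lit 4) (nat_lit 470) (nat_lit 342)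 (nat_lit 328)) (XT.lf (nat_lit 0) (nat_lit 1871080518) (nat_lit 380) (nat_lit 6433828156) (nat_lit 76) (nat_lit 3033883722) (nat_lit 90) (nat_lit 5) (nat_lit 95) (nat_lit 5) (nat_lit 91) (nat_lit 4) (nat_lit 471) (nat_lit 342) (nat_lit 327)))))) (XT.nd (nat_lit 546) (nat_lit 1064) (nat_lit 0) (XT.nd (nat_lit 234) (nat_lit 608) (nat_lit 0) (XT.nd (nat_lit 78) (nat_lit 380) (nat_lit 0) (XT.lf (nat_lit 0) (nat_lit 777976150) (nat_lit 228) (nat_lit 4949945610) (nat_lit 304) (nat_lit 5743739674) (nat_lit 87) (nat_lit 5) (nat_lit 90) (nat_lit 5) (nat_lit 91) (nat_lit 4) (nat_lit 472) (nat_lit 342) (nat_lit 326)) (XT.nd (nat_lit 78) (nat_lit 380) (nat_lit 0) (XT.lf (nat_lit 0) (nat_lit 8134577923) (nat_lit 228) (nat_lit 1516246580) (nat_lit 304) (nat_lit 1956607421) (nat_lit 87) (nat_lit 5) (nat_lit 90) (nat_lit 5) (nat_lit 91) (nat_lit 4) (nat_lit 473) (nat_lit 342) (nat_lit 325)) (XT.lf (nat_lit 0) (nat_lit 1865603062)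 (nat_lit 380) (nat_lit 7914441342) (nat_lit 76) (nat_lit 1965960841) (nat_lit 82) (nat_lit 5) (nat_lit 87) (nat_lit 5) (nat_lit 83) (nat_lit 4) (nat_lit 474) (nat_lit 342) (nat_lit 324)))) (XT.nd (nat_lit 156) (nat_lit 380) (nat_lit 0) (XT.nd (nat_lit 78) (nat_lit 228) (nat_lit 0) (XT.lf (nat_lit 0) (nat_lit 5718313002) (nat_lit 380) (nat_lit 666887626) (nat_lit 76) (nat_lit 5502306919) (nat_lit 82) (nat_lit 5) (nat_lit 87) (nat_lit 5) (nat_lit 83) (nat_lit 4) (nat_lit 475) (nat_lit 342) (nat_lit 323)) (XT.lf (nat_lit 0) (nat_lit 6729566902) (nat_lit 228) (nat_lit 2909976919) (nat_lit 304) (nat_lit 2392487586) (nat_lit 79) (nat_lit 5) (nat_lit 82) (nat_lit 5) (nat_lit 83) (nat_lit 4) (nat_lit 476) (nat_lit 342) (nat_lit 322))) (XT.nd (nat_lit 78) (nat_lit 0) (nat_lit 0) (XT.lf (nat_lit 0) (nat_lit 1410317379) (nat_lit 380) (nat_lit 10147688669) (nat_lit 76) (nat_lit 621876004) (nat_lit 74) (nat_lit 5) (nat_lit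 79) (nat_lit 5) (nat_lit 75) (nat_lit 4) (nat_lit 477) (nat_lit 342) (nat_lit 321)) (XT.lf (nat_lit 0) (nat_lit 5260420928) (nat_lit 380) (nat_lit 2864663229) (nat_lit 76) (nat_lit 4205243351) (nat_lit 74) (nat_lit 5) (nat_lit 79) (nat_lit 5) (nat_lit 75) (nat_lit 4) (nat_lit 478) (nat_lit 342) (nat_lit 320))))) (XT.nd (nat_lit 234) (nat_lit 532) (nat_lit 0) (XT.nd (nat_lit 78) (nat_lit 304) (nat_lit 0) (XT.lf (nat_lit 0) (nat_lit 4540479181) (nat_lit 228) (nat_lit 4625702273) (nat_lit 304) (nat_lit 3318046580) (nat_lit 71) (nat_lit 5) (nat_lit 74) (nat_lit 5) (nat_lit 75) (nat_lit 4) (nat_lit 479) (nat_lit 342) (nat_lit 319)) (XT.nd (nat_lit 78) (nat_lit 228) (nat_lit 0) (XT.lf (nat_lit 0) (nat_lit 470811212) (nat_lit 304) (nat_lit 594936085) (nat_lit 76) (nat_lit 11576039023) (nat_lit 70) (nat_lit 5) (nat_lit 74) (nat_lit 5) (nat_lit 71) (nat_lit 5) (nat_lit 480) (nat_lit 342) (nat_lit 318)) (XT.lf (nat_lit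 0) (nat_lit 4302946922) (nat_lit 304) (nat_lit 5931460645) (nat_lit 76) (nat_lit 2567429119) (nat_lit 67) (nat_lit 5) (nat_lit 71) (nat_lit 5) (nat_lit 68) (nat_lit 4) (nat_lit 481) (nat_lit 342) (nat_lit 317)))) (XT.nd (nat_lit 156) (nat_lit 304) (nat_lit 0) (XT.nd (nat_lit 78) (nat_lit 0) (nat_lit 0) (XT.lf (nat_lit 0) (nat_lit 1458224838) (nat_lit 228) (nat_lit 6724565110) (nat_lit 304) (nat_lit 4782894611) (nat_lit 64) (nat_lit 5) (nat_lit 67) (nat_lit 5) (nat_lit 68) (nat_lit 4) (nat_lit 482) (nat_lit 342) (nat_lit 316)) (XT.lf (nat_lit 0) (nat_lit 8994778749) (nat_lit 228) (nat_lit 3136216605) (nat_lit 304) (nat_lit 1002016167) (nat_lit 64) (nat_lit 5) (nat_lit 67) (nat_lit 5) (nat_lit 68) (nat_lit 4) (nat_lit 483) (nat_lit 342) (nat_lit 315))) (XT.nd (nat_lit 78) (nat_lit 0) (nat_lit 0) (XT.lf (nat_lit 0) (nat_lit 2793666200) (nat_lit 304) (nat_lit 9984292847) (nat_lit 76) (nat_lit 525839612) (nat_lit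 60) (nat_lit 5) (nat_lit 64) (nat_lit 5) (nat_lit 61) (nat_lit 4) (nat_lit 484) (nat_lit 342) (nat_lit 314)) (XT.lf (nat_lit 0) (nat_lit 6652393293) (nat_lit 304) (nat_lit 2603174958) (nat_lit 76) (nat_lit 4222306297) (nat_lit 60) (nat_lit 5) (nat_lit 64) (nat_lit 5) (nat_lit 61) (nat_lit 4) (nat_lit 485) (nat_lit 342) (nat_lit 313))))))) (XT.nd (nat_lit 1092) (nat_lit 988) (nat_lit 0) (XT.nd (nat_lit 546) (nat_lit 684) (nat_lit 0) (XT.nd (nat_lit 234) (nat_lit 456) (nat_lit 0) (XT.nd (nat_lit 78) (nat_lit 304) (nat_lit 0) (XT.lf (nat_lit 0) (nat_lit 4910920543) (nat_lit 228) (nat_lit 5662016454) (nat_lit 304) (nat_lit 3082818229) (nat_lit 57) (nat_lit 5) (nat_lit 60) (nat_lit 5) (nat_lit 61) (nat_lit 4) (nat_lit 486) (nat_lit 342) (nat_lit 312)) (XT.nd (nat_lit 78) (nat_lit 228) (nat_lit 0) (XT.lf (nat_lit 0) (nat_lit 695494584) (nat_lit 304) (nat_lit 1310319689) (nat_lit 76) (nat_lit 11831890689) (nat_lit 56)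 (nat_lit 5) (nat_lit 60) (nat_lit 5) (nat_lit 57) (nat_lit 5) (nat_lit 487) (nat_lit 342) (nat_lit 311)) (XT.lf (nat_lit 0) (nat_lit 4513920306) (nat_lit 304) (nat_lit 7777495097) (nat_lit 76) (nat_lit 1731369413) (nat_lit 53) (nat_lit 5) (nat_lit 57) (nat_lit 5) (nat_lit 54) (nat_lit 4) (nat_lit 488) (nat_lit 342) (nat_lit 310)))) (XT.nd (nat_lit 156) (nat_lit 304) (nat_lit 0) (XT.nd (nat_lit 78) (nat_lit 152) (nat_lit 0) (XT.lf (nat_lit 0) (nat_lit 8384824278) (nat_lit 304) (nat_lit 332798581) (nat_lit 76) (nat_lit 5494436101) (nat_lit 53) (nat_lit 5) (nat_lit 57) (nat_lit 5) (nat_lit 54) (nat_lit 4) (nat_lit 489) (nat_lit 342) (nat_lit 309)) (XT.lf (nat_lit 0) (nat_lit 7279956621) (nat_lit 152) (nat_lit 5055333495) (nat_lit 228) (nat_lit 2069800192) (nat_lit 51) (nat_lit 5) (nat_lit 53) (nat_lit 5) (nat_lit 54) (nat_lit 4) (nat_lit 490) (nat_lit 342) (nat_lit 308))) (XT.nd (nat_lit 78) (nat_lit 0) (nat_lit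 0) (XT.lf (nat_lit 0) (nat_lit 364436471) (nat_lit 228) (nat_lit 1334801180) (nat_lit 304) (nat_lit 12903338277) (nat_lit 47) (nat_lit 5) (nat_lit 50) (nat_lit 5) (nat_lit 51) (nat_lit 5) (nat_lit 491) (nat_lit 342) (nat_lit 307)) (XT.lf (nat_lit 0) (nat_lit 5535217307) (nat_lit 304) (nat_lit 6809295355) (nat_lit 76) (nat_lit 2458853214) (nat_lit 47) (nat_lit 5) (nat_lit 51) (nat_lit 5) (nat_lit 48) (nat_lit 4) (nat_lit 492) (nat_lit 342) (nat_lit 306))))) (XT.nd (nat_lit 234) (nat_lit 228) (nat_lit 0) (XT.nd (nat_lit 78) (nat_lit 304) (nat_lit 0) (XT.lf (nat_lit 0) (nat_lit 693255854) (nat_lit 152) (nat_lit 8724027850) (nat_lit 228) (nat_lit 5591514059) (nat_lit 45) (nat_lit 5) (nat_lit 47) (nat_lit 5) (nat_lit 48) (nat_lit 4) (nat_lit 493) (nat_lit 342) (nat_lit 305)) (XT.nd (nat_lit 78) (nat_lit 304) (nat_lit 0) (XT.lf (nat_lit 0) (nat_lit 8363531895) (nat_lit 152) (nat_lit 5015557514) (nat_lit 228) (nat_lit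 1839220139) (nat_lit 45) (nat_lit 5) (nat_lit 47) (nat_lit 5) (nat_lit 48) (nat_lit 4) (nat_lit 494) (nat_lit 342) (nat_lit 304)) (XT.lf (nat_lit 0) (nat_lit 677428965) (nat_lit 228) (nat_lit 1245977468) (nat_lit 304) (nat_lit 13509132451) (nat_lit 41) (nat_lit 5) (nat_lit 44) (nat_lit 5) (nat_lit 45) (nat_lit 5) (nat_lit 495) (nat_lit 342) (nat_lit 303)))) (XT.nd (nat_lit 156) (nat_lit 76) (nat_lit 0) (XT.nd (nat_lit 78) (nat_lit 152) (nat_lit 0) (XT.lf (nat_lit 0) (nat_lit 5756992133) (nat_lit 304) (nat_lit 7300225414) (nat_lit 76) (nat_lit 2593197898) (nat_lit 41) (nat_lit 5) (nat_lit 45) (nat_lit 5) (nat_lit 42) (nat_lit 4) (nat_lit 496) (nat_lit 342) (nat_lit 302)) (XT.lf (nat_lit 0) (nat_lit 225987446) (nat_lit 152) (nat_lit 9408953946) (nat_lit 228) (nat_lit 6238366521) (nat_lit 39) (nat_lit 5) (nat_lit 41) (nat_lit 5) (nat_lit 42) (nat_lit 4) (nat_lit 497) (nat_lit 342) (nat_lit 301))) (XT.nd (nat_lit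 78) (nat_lit 76) (nat_lit 0) (XT.lf (nat_lit 0) (nat_lit 7929676197) (nat_lit 152) (nat_lit 5668091428) (nat_lit 228) (nat_lit 2502756219) (nat_lit 39) (nat_lit 5) (nat_lit 41) (nat_lit 5) (nat_lit 42) (nat_lit 4) (nat_lit 498) (nat_lit 342) (nat_lit 300)) (XT.lf (nat_lit 0) (nat_lit 1249281885) (nat_lit 228) (nat_lit 624486116) (nat_lit 76) (nat_lit 14459180517) (nat_lit 38) (nat_lit 5) (nat_lit 41) (nat_lit 5) (nat_lit 39) (nat_lit 5) (nat_lit 499) (nat_lit 342) (nat_lit 299)))))) (XT.nd (nat_lit 546) (nat_lit 304) (nat_lit 0) (XT.nd (nat_lit 234) (nat_lit 380) (nat_lit 0) (XT.nd (nat_lit 78) (nat_lit 152) (nat_lit 0) (XT.lf (nat_lit 0) (nat_lit 5061700269) (nat_lit 228) (nat_lit 9503455511) (nat_lit 76) (nat_lit 2004169297) (nat_lit 36) (nat_lit 5) (nat_lit 39) (nat_lit 5) (nat_lit 37) (nat_lit 4) (nat_lit 500) (nat_lit 342) (nat_lit 298)) (XT.nd (nat_lit 78) (nat_lit 152) (nat_lit 0) (XT.lf (nat_lit 0) (nat_lit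 8926816148) (nat_lit 228) (nat_lit 1974202375) (nat_lit 76) (nat_lit 5909892722) (nat_lit 36) (nat_lit 5) (nat_lit 39) (nat_lit 5) (nat_lit 37) (nat_lit 4) (nat_lit 501) (nat_lit 342) (nat_lit 297)) (XT.lf (nat_lit 0) (nat_lit 5712003059) (nat_lit 152) (nat_lit 7154926893) (nat_lit 228) (nat_lit 4190456117) (nat_lit 34) (nat_lit 5) (nat_lit 36) (nat_lit 5) (nat_lit 37) (nat_lit 4) (nat_lit 502) (nat_lit 342) (nat_lit 296)))) (XT.nd (nat_lit 156) (nat_lit 152) (nat_lit 0) (XT.nd (nat_lit 78) (nat_lit 228) (nat_lit 0) (XT.lf (nat_lit 0) (nat_lit 13510597689) (nat_lit 152) (nat_lit 3349436017) (nat_lit 228) (nat_lit 449283563) (nat_lit 34) (nat_lit 5) (nat_lit 36) (nat_lit 5) (nat_lit 37) (nat_lit 4) (nat_lit 503) (nat_lit 342) (nat_lit 295)) (XT.lf (nat_lit 0) (nat_lit 3312642592) (nat_lit 228) (nat_lit 13709345045) (nat_lit 76) (nat_lit 544070793) (nat_lit 31) (nat_lit 5) (nat_lit 34) (nat_lit 5) (nat_lit 32)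 (nat_lit 4) (nat_lit 504) (nat_lit 342) (nat_lit 294))) (XT.nd (nat_lit 78) (nat_lit 152) (nat_lit 0) (XT.lf (nat_lit 0) (nat_lit 7153216993) (nat_lit 228) (nat_lit 6203432376) (nat_lit 76) (nat_lit 4471047155) (nat_lit 31) (nat_lit 5) (nat_lit 34) (nat_lit 5) (nat_lit 32) (nat_lit 4) (nat_lit 505) (nat_lit 342) (nat_lit 293)) (XT.lf (nat_lit 0) (nat_lit 1404916885) (nat_lit 152) (nat_lit 9637139104) (nat_lit 228) (nat_lit 7053092152) (nat_lit 29) (nat_lit 5) (nat_lit 31) (nat_lit 5) (nat_lit 32) (nat_lit 4) (nat_lit 506) (nat_lit 342) (nat_lit 292))))) (XT.nd (nat_lit 234) (nat_lit 76) (nat_lit 0) (XT.nd (nat_lit 78) (nat_lit 228) (nat_lit 0) (XT.lf (nat_lit 0) (nat_lit 9183849809) (nat_lit 152) (nat_lit 5829093917) (nat_lit 228) (nat_lit 3354929255) (nat_lit 29) (nat_lit 5) (nat_lit 31) (nat_lit 5) (nat_lit 32) (nat_lit 4) (nat_lit 507) (nat_lit 342) (nat_lit 291)) (XT.nd (nat_lit 78) (nat_lit 152) (nat_lit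 0) (XT.lf (nat_lit 0) (nat_lit 374849570) (nat_lit 228) (nat_lit 1595283744) (nat_lit 76) (nat_lit 16676611599) (nat_lit 28) (nat_lit 5) (nat_lit 31) (nat_lit 5) (nat_lit 29) (nat_lit 5) (nat_lit 508) (nat_lit 342) (nat_lit 290)) (XT.lf (nat_lit 0) (nat_lit 4151052753) (nat_lit 228) (nat_lit 12803755461) (nat_lit 76) (nat_lit 1975616597) (nat_lit 26) (nat_lit 5) (nat_lit 29) (nat_lit 5) (nat_lit 27) (nat_lit 4) (nat_lit 509) (nat_lit 342) (nat_lit 289)))) (XT.nd (nat_lit 156) (nat_lit 0) (nat_lit 0) (XT.nd (nat_lit 78) (nat_lit 76) (nat_lit 0) (XT.lf (nat_lit 0) (nat_lit 7990571743) (nat_lit 228) (nat_lit 5271738176) (nat_lit 76) (nat_lit 5957721450) (nat_lit 26) (nat_lit 5) (nat_lit 29) (nat_lit 5) (nat_lit 27) (nat_lit 4) (nat_lit 510) (nat_lit 342) (nat_lit 288)) (XT.lf (nat_lit 0) (nat_lit 2379636821) (nat_lit 76) (nat_lit 9507369386) (nat_lit 152) (nat_lit 7628830070) (nat_lit 25) (nat_lit 5) (nat_lit 26)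 (nat_lit 5) (nat_lit 27) (nat_lit 4) (nat_lit 511) (nat_lit 342) (nat_lit 287))) (XT.nd (nat_lit 78) (nat_lit 0) (nat_lit 0) (XT.lf (nat_lit 0) (nat_lit 10193418252) (nat_lit 76) (nat_lit 5668291742) (nat_lit 152) (nat_lit 3955849028) (nat_lit 25) (nat_lit 5) (nat_lit 26) (nat_lit 5) (nat_lit 27) (nat_lit 4) (nat_lit 512) (nat_lit 342) (nat_lit 286)) (XT.lf (nat_lit 0) (nat_lit 18102611719) (nat_lit 76) (nat_lit 1778947602) (nat_lit 152) (nat_lit 244452255) (nat_lit 25) (nat_lit 5) (nat_lit 26) (nat_lit 5) (nat_lit 27) (nat_lit 4) (nat_lit 513) (nat_lit 342) (nat_lit 285))))))))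
noncomputable def xc27 : XT := (XT.nd (nat_lit 55380) (nat_lit 0) (nat_lit 3040) (XT.nd (nat_lit 1092) (nat_lit 304) (nat_lit 0) (XT.nd (nat_lit 546) (nat_lit 304) (nat_lit 0) (XT.nd (nat_lit 234) (nat_lit 228) (nat_lit 0) (XT.nd (nat_lit 78) (nat_lit 76) (nat_lit 0) (XT.lf (nat_lit 0) (nat_lit 3512404612) (nat_lit 228) (nat_lit 14733280867) (nat_lit 76) (nat_lit 2194142422) (nat_lit 22) (nat_lit 5) (nat_lit 25) (nat_lit 5) (nat_lit 23) (nat_lit 4) (nat_lit 514) (nat_lit 342) (nat_lit 284)) (XT.nd (nat_lit 78) (nat_lit 76) (nat_lit 0) (XT.lf (nat_lit 0) (nat_lit 7332778926) (nat_lit 228) (nat_lit 7214862584) (nat_lit 76) (nat_lit 6212421557) (nat_lit 22) (nat_lit 5) (nat_lit 25) (nat_lit 5) (nat_lit 23) (nat_lit 4) (nat_lit 515) (nat_lit 342) (nat_lit 283)) (XT.lf (nat_lit 0) (nat_lit 400108565) (nat_lit 76) (nat_lit 10798914003) (nat_lit 152) (nat_lit 9888298873) (nat_lit 21) (nat_lit 5) (nat_lit 22) (nat_lit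 5) (nat_lit 23) (nat_lit 4) (nat_lit 516) (nat_lit 342) (nat_lit 282)))) (XT.nd (nat_lit 156) (nat_lit 228) (nat_lit 0) (XT.nd (nat_lit 78) (nat_lit 0) (nat_lit 0) (XT.lf (nat_lit 0) (nat_lit 8206504075) (nat_lit 76) (nat_lit 6951635378) (nat_lit 152) (nat_lit 6262682157) (nat_lit 21) (nat_lit 5) (nat_lit 22) (nat_lit 5) (nat_lit 23) (nat_lit 4) (nat_lit 517) (nat_lit 342) (nat_lit 281)) (XT.lf (nat_lit 0) (nat_lit 16111503551) (nat_lit 76) (nat_lit 3052712422) (nat_lit 152) (nat_lit 2597427707) (nat_lit 21) (nat_lit 5) (nat_lit 22) (nat_lit 5) (nat_lit 23) (nat_lit 4) (nat_lit 518) (nat_lit 342) (nat_lit 280))) (XT.nd (nat_lit 78) (nat_lit 0) (nat_lit 0) (XT.lf (nat_lit 0) (nat_lit 1113497686) (nat_lit 228) (nat_lit 20087808939) (nat_lit 76) (nat_lit 908087902) (nat_lit 18) (nat_lit 5) (nat_lit 21) (nat_lit 5) (nat_lit 19) (nat_lit 4) (nat_lit 519) (nat_lit 342) (nat_lit 279)) (XT.lf (nat_lit 0) (nat_lit 4890565860)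 (nat_lit 228) (nat_lit 12634604732) (nat_lit 76) (nat_lit 4938059357) (nat_lit 18) (nat_lit 5) (nat_lit 21) (nat_lit 5) (nat_lit 19) (nat_lit 4) (nat_lit 520) (nat_lit 342) (nat_lit 278))))) (XT.nd (nat_lit 234) (nat_lit 228) (nat_lit 0) (XT.nd (nat_lit 78) (nat_lit 76) (nat_lit 0) (XT.lf (nat_lit 0) (nat_lit 8712085369) (nat_lit 228) (nat_lit 5088148564) (nat_lit 76) (nat_lit 9024536824) (nat_lit 18) (nat_lit 5) (nat_lit 21) (nat_lit 5) (nat_lit 19) (nat_lit 4) (nat_lit 521) (nat_lit 342) (nat_lit 277)) (XT.nd (nat_lit 78) (nat_lit 0) (nat_lit 0) (XT.lf (nat_lit 0) (nat_lit 2588467172) (nat_lit 76) (nat_lit 10007893722) (nat_lit 152) (nat_lit 10597461718) (nat_lit 17) (nat_lit 5) (nat_lit 18) (nat_lit 5) (nat_lit 19) (nat_lit 4) (nat_lit 522) (nat_lit 342) (nat_lit 276)) (XT.lf (nat_lit 0) (nat_lit 10433228634) (nat_lit 76) (nat_lit 6129001758) (nat_lit 152) (nat_lit 7007953552) (nat_lit 17) (nat_lit 5) (nat_lit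 18) (nat_lit 5) (nat_lit 19) (nat_lit 4) (nat_lit 523) (nat_lit 342) (nat_lit 275)))) (XT.nd (nat_lit 156) (nat_lit 0) (nat_lit 0) (XT.nd (nat_lit 78) (nat_lit 228) (nat_lit 0) (XT.lf (nat_lit 0) (nat_lit 18381593382) (nat_lit 76) (nat_lit 2196181064) (nat_lit 152) (nat_lit 3376897394) (nat_lit 17) (nat_lit 5) (nat_lit 18) (nat_lit 5) (nat_lit 19) (nat_lit 4) (nat_lit 524) (nat_lit 342) (nat_lit 274)) (XT.lf (nat_lit 0) (nat_lit 318705381) (nat_lit 228) (nat_lit 22243811689) (nat_lit 76) (nat_lit 1784371995) (nat_lit 14) (nat_lit 5) (nat_lit 17) (nat_lit 5) (nat_lit 15) (nat_lit 4) (nat_lit 525) (nat_lit 342) (nat_lit 273))) (XT.nd (nat_lit 78) (nat_lit 0) (nat_lit 0) (XT.lf (nat_lit 0) (nat_lit 4066058806) (nat_lit 228) (nat_lit 14827788574) (nat_lit 76) (nat_lit 5852201828) (nat_lit 14) (nat_lit 5) (nat_lit 17) (nat_lit 5) (nat_lit 15) (nat_lit 4) (nat_lit 526) (nat_lit 342) (nat_lit 272)) (XT.lf (nat_lit 0)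 (nat_lit 7859754181) (nat_lit 228) (nat_lit 7315142355) (nat_lit 76) (nat_lit 9978874109) (nat_lit 14) (nat_lit 5) (nat_lit 17) (nat_lit 5) (nat_lit 15) (nat_lit 4) (nat_lit 527) (nat_lit 342) (nat_lit 271)))))) (XT.nd (nat_lit 53742) (nat_lit 0) (nat_lit 8208) (XT.nd (nat_lit 234) (nat_lit 228) (nat_lit 0) (XT.nd (nat_lit 78) (nat_lit 0) (nat_lit 0) (XT.lf (nat_lit 0) (nat_lit 301021048) (nat_lit 76) (nat_lit 11402212607) (nat_lit 152) (nat_lit 13866940522) (nat_lit 13) (nat_lit 5) (nat_lit 14) (nat_lit 5) (nat_lit 15) (nat_lit 4) (nat_lit 528) (nat_lit 342) (nat_lit 270)) (XT.nd (nat_lit 78) (nat_lit 0) (nat_lit 0) (XT.lf (nat_lit 0) (nat_lit 8118316161) (nat_lit 76) (nat_lit 7526533757) (nat_lit 152) (nat_lit 10349636271) (nat_lit 13) (nat_lit 5) (nat_lit 14) (nat_lit 5) (nat_lit 15) (nat_lit 4) (nat_lit 529) (nat_lit 342) (nat_lit 269)) (XT.lf (nat_lit 0) (nat_lit 16042594198) (nat_lit 76) (nat_lit 3595428569)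 (nat_lit 152) (nat_lit 6789812832) (nat_lit 13) (nat_lit 5) (nat_lit 14) (nat_lit 5) (nat_lit 15) (nat_lit 4) (nat_lit 530) (nat_lit 342) (nat_lit 268)))) (XT.nd (nat_lit 53352) (nat_lit 0) (nat_lit 10336) (XT.nd (nat_lit 78) (nat_lit 228) (nat_lit 0) (XT.lf (nat_lit 0) (nat_lit 23686867460) (nat_lit 152) (nat_lit 2795978938) (nat_lit 0) (nat_lit 387494962) (nat_lit 13) (nat_lit 5) (nat_lit 15) (nat_lit 4) (nat_lit 13) (nat_lit 4) (nat_lit 531) (nat_lit 342) (nat_lit 267)) (XT.lf (nat_lit 0) (nat_lit 518208367) (nat_lit 228) (nat_lit 22386336458) (nat_lit 76) (nat_lit 4416499283) (nat_lit 10) (nat_lit 5) (nat_lit 13) (nat_lit 5) (nat_lit 11) (nat_lit 4) (nat_lit 532) (nat_lit 342) (nat_lit 266))) (XT.nd (nat_lit 78) (nat_lit 456) (nat_lit 0) (XT.lf (nat_lit 0) (nat_lit 3825750915) (nat_lit 456) (nat_lit 454805363) (nat_lit 456) (nat_lit 454805363) (nat_lit 152) (nat_lit 4) (nat_lit 158) (nat_lit 5) (nat_lit 158)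 (nat_lit 4) (nat_lit 454) (nat_lit 343) (nat_lit 343)) (XT.lf (nat_lit 0) (nat_lit 2946737625) (nat_lit 456) (nat_lit 4546548730) (nat_lit 0) (nat_lit 2069144073) (nat_lit 146) (nat_lit 5) (nat_lit 152) (nat_lit 4) (nat_lit 146) (nat_lit 4) (nat_lit 455) (nat_lit 343) (nat_lit 342))))) (XT.nd (nat_lit 234) (nat_lit 1216) (nat_lit 0) (XT.nd (nat_lit 78) (nat_lit 456) (nat_lit 0) (XT.lf (nat_lit 0) (nat_lit 2283471486) (nat_lit 456) (nat_lit 4555487864) (nat_lit 456) (nat_lit 2817508476) (nat_lit 140) (nat_lit 4) (nat_lit 146) (nat_lit 5) (nat_lit 146) (nat_lit 4) (nat_lit 456) (nat_lit 343) (nat_lit 341)) (XT.nd (nat_lit 78) (nat_lit 380) (nat_lit 0) (XT.lf (nat_lit 0) (nat_lit 1011461214) (nat_lit 532) (nat_lit 538343261) (nat_lit 76) (nat_lit 8203104225) (nat_lit 139) (nat_lit 5) (nat_lit 146) (nat_lit 5) (nat_lit 140) (nat_lit 4) (nat_lit 457) (nat_lit 343) (nat_lit 340)) (XT.lf (nat_lit 0) (nat_lit 4870170706)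 (nat_lit 456) (nat_lit 3452417795) (nat_lit 0) (nat_lit 1528532550) (nat_lit 134) (nat_lit 5) (nat_lit 140) (nat_lit 4) (nat_lit 134) (nat_lit 4) (nat_lit 458) (nat_lit 343) (nat_lit 339)))) (XT.nd (nat_lit 156) (nat_lit 456) (nat_lit 0) (XT.nd (nat_lit 78) (nat_lit 380) (nat_lit 0) (XT.lf (nat_lit 0) (nat_lit 3475963193) (nat_lit 380) (nat_lit 5306173358) (nat_lit 380) (nat_lit 1169671683) (nat_lit 129) (nat_lit 4) (nat_lit 134) (nat_lit 5) (nat_lit 134) (nat_lit 4) (nat_lit 459) (nat_lit 343) (nat_lit 338)) (XT.lf (nat_lit 0) (nat_lit 433409743) (nat_lit 304) (nat_lit 2214703810) (nat_lit 380) (nat_lit 7406755148) (nat_lit 124) (nat_lit 5) (nat_lit 128) (nat_lit 5) (nat_lit 129) (nat_lit 4) (nat_lit 460) (nat_lit 343) (nat_lit 337))) (XT.nd (nat_lit 78) (nat_lit 456) (nat_lit 0) (XT.lf (nat_lit 0) (nat_lit 6516641052) (nat_lit 380) (nat_lit 2695192487) (nat_lit 0) (nat_lit 948231606) (nat_lit 124) (nat_lit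 5) (nat_lit 129) (nat_lit 4) (nat_lit 124) (nat_lit 4) (nat_lit 461) (nat_lit 343) (nat_lit 336)) (XT.lf (nat_lit 0) (nat_lit 176581110) (nat_lit 456) (nat_lit 5946046628) (nat_lit 76) (nat_lit 4145062280) (nat_lit 118) (nat_lit 5) (nat_lit 124) (nat_lit 5) (nat_lit 119) (nat_lit 4) (nat_lit 462) (nat_lit 343) (nat_lit 335))))))) (XT.nd (nat_lit 1092) (nat_lit 2204) (nat_lit 0) (XT.nd (nat_lit 546) (nat_lit 1216) (nat_lit 0) (XT.nd (nat_lit 234) (nat_lit 988) (nat_lit 0) (XT.nd (nat_lit 78) (nat_lit 456) (nat_lit 0) (XT.lf (nat_lit 0) (nat_lit 1038597187) (nat_lit 304) (nat_lit 2952130554) (nat_lit 380) (nat_lit 6386956070) (nat_lit 114) (nat_lit 5) (nat_lit 118) (nat_lit 5) (nat_lit 119) (nat_lit 4) (nat_lit 463) (nat_lit 343) (nat_lit 334)) (XT.nd (nat_lit 78) (nat_lit 456) (nat_lit 0) (XT.lf (nat_lit 0) (nat_lit 7865058083) (nat_lit 380) (nat_lit 2337061263) (nat_lit 0) (nat_lit 288108173) (nat_lit 114) (nat_lit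 5) (nat_lit 119) (nat_lit 4) (nat_lit 114) (nat_lit 4) (nat_lit 464) (nat_lit 343) (nat_lit 333)) (XT.lf (nat_lit 0) (nat_lit 1189391145) (nat_lit 456) (nat_lit 5852788156) (nat_lit 76) (nat_lit 3562843766) (nat_lit 108) (nat_lit 5) (nat_lit 114) (nat_lit 5) (nat_lit 109) (nat_lit 4) (nat_lit 465) (nat_lit 343) (nat_lit 332)))) (XT.nd (nat_lit 156) (nat_lit 684) (nat_lit 0) (XT.nd (nat_lit 78) (nat_lit 0) (nat_lit 0) (XT.lf (nat_lit 0) (nat_lit 1203618838) (nat_lit 304) (nat_lit 3808303609) (nat_lit 380) (nat_lit 5710534860) (nat_lit 104) (nat_lit 5) (nat_lit 108) (nat_lit 5) (nat_lit 109) (nat_lit 4) (nat_lit 466) (nat_lit 343) (nat_lit 331)) (XT.lf (nat_lit 0) (nat_lit 8393194799) (nat_lit 304) (nat_lit 500728092) (nat_lit 380) (nat_lit 1948682890) (nat_lit 104) (nat_lit 5) (nat_lit 108) (nat_lit 5) (nat_lit 109) (nat_lit 4) (nat_lit 467) (nat_lit 343) (nat_lit 330))) (XT.nd (nat_lit 78) (nat_lit 304) (nat_lit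 0) (XT.lf (nat_lit 0) (nat_lit 1857509376) (nat_lit 380) (nat_lit 6259408307) (nat_lit 76) (nat_lit 2848141837) (nat_lit 99) (nat_lit 5) (nat_lit 104) (nat_lit 5) (nat_lit 100) (nat_lit 4) (nat_lit 468) (nat_lit 343) (nat_lit 329)) (XT.lf (nat_lit 0) (nat_lit 855570829) (nat_lit 304) (nat_lit 4828391264) (nat_lit 380) (nat_lit 5406362460) (nat_lit 95) (nat_lit 5) (nat_lit 99) (nat_lit 5) (nat_lit 100) (nat_lit 4) (nat_lit 469) (nat_lit 343) (nat_lit 328))))) (XT.nd (nat_lit 234) (nat_lit 836) (nat_lit 0) (XT.nd (nat_lit 78) (nat_lit 380) (nat_lit 0) (XT.lf (nat_lit 0) (nat_lit 8111564408) (nat_lit 304) (nat_lit 1462695105) (nat_lit 380) (nat_lit 1644113006) (nat_lit 95) (nat_lit 5) (nat_lit 99) (nat_lit 5) (nat_lit 100) (nat_lit 4) (nat_lit 470) (nat_lit 343) (nat_lit 327)) (XT.nd (nat_lit 78) (nat_lit 0) (nat_lit 0) (XT.lf (nat_lit 0) (nat_lit 2150220738) (nat_lit 380) (nat_lit 7243843433) (nat_lit 76) (nat_lit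 1954943354) (nat_lit 90) (nat_lit 5) (nat_lit 95) (nat_lit 5) (nat_lit 91) (nat_lit 4) (nat_lit 471) (nat_lit 343) (nat_lit 326)) (XT.lf (nat_lit 0) (nat_lit 5975433070) (nat_lit 380) (nat_lit 84576291) (nat_lit 76) (nat_lit 5422510952) (nat_lit 90) (nat_lit 5) (nat_lit 95) (nat_lit 5) (nat_lit 91) (nat_lit 4) (nat_lit 472) (nat_lit 343) (nat_lit 325)))) (XT.nd (nat_lit 156) (nat_lit 228) (nat_lit 0) (XT.nd (nat_lit 78) (nat_lit 380) (nat_lit 0) (XT.lf (nat_lit 0) (nat_lit 7228846151) (nat_lit 228) (nat_lit 2642603546) (nat_lit 304) (nat_lit 1747389779) (nat_lit 87) (nat_lit 5) (nat_lit 90) (nat_lit 5) (nat_lit 91) (nat_lit 4) (nat_lit 473) (nat_lit 343) (nat_lit 324)) (XT.lf (nat_lit 0) (nat_lit 2032318340) (nat_lit 380) (nat_lit 8891874802) (nat_lit 76) (nat_lit 833998182) (nat_lit 82) (nat_lit 5) (nat_lit 87) (nat_lit 5) (nat_lit 83) (nat_lit 4) (nat_lit 474) (nat_lit 343) (nat_lit 323))) (XT.nd (nat_lit 78)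 (nat_lit 228) (nat_lit 0) (XT.lf (nat_lit 0) (nat_lit 5859173760) (nat_lit 380) (nat_lit 1686058582) (nat_lit 76) (nat_lit 4354988695) (nat_lit 82) (nat_lit 5) (nat_lit 87) (nat_lit 5) (nat_lit 83) (nat_lit 4) (nat_lit 475) (nat_lit 343) (nat_lit 322)) (XT.lf (nat_lit 0) (nat_lit 5655388794) (nat_lit 228) (nat_lit 4092693940) (nat_lit 304) (nat_lit 2297318717) (nat_lit 79) (nat_lit 5) (nat_lit 82) (nat_lit 5) (nat_lit 83) (nat_lit 4) (nat_lit 476) (nat_lit 343) (nat_lit 321)))))) (XT.nd (nat_lit 546) (nat_lit 1064) (nat_lit 0) (XT.nd (nat_lit 234) (nat_lit 532) (nat_lit 0) (XT.nd (nat_lit 78) (nat_lit 228) (nat_lit 0) (XT.lf (nat_lit 0) (nat_lit 892198749) (nat_lit 304) (nat_lit 575228762) (nat_lit 380) (nat_lit 10726558163) (nat_lit 74) (nat_lit 5) (nat_lit 78) (nat_lit 5) (nat_lit 79) (nat_lit 5) (nat_lit 477) (nat_lit 343) (nat_lit 320)) (XT.nd (nat_lit 78) (nat_lit 228) (nat_lit 0) (XT.lf (nat_lit 0) (nat_lit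 5288635454) (nat_lit 380) (nat_lit 4056161738) (nat_lit 76) (nat_lit 3000221384) (nat_lit 74) (nat_lit 5) (nat_lit 79) (nat_lit 5) (nat_lit 75) (nat_lit 4) (nat_lit 478) (nat_lit 343) (nat_lit 319)) (XT.lf (nat_lit 0) (nat_lit 3292281888) (nat_lit 228) (nat_lit 5869342477) (nat_lit 304) (nat_lit 3337959516) (nat_lit 71) (nat_lit 5) (nat_lit 74) (nat_lit 5) (nat_lit 75) (nat_lit 4) (nat_lit 479) (nat_lit 343) (nat_lit 318)))) (XT.nd (nat_lit 156) (nat_lit 228) (nat_lit 0) (XT.nd (nat_lit 78) (nat_lit 228) (nat_lit 0) (XT.lf (nat_lit 0) (nat_lit 426544583) (nat_lit 304) (nat_lit 1898759171) (nat_lit 76) (nat_lit 10332342280) (nat_lit 70) (nat_lit 5) (nat_lit 74) (nat_lit 5) (nat_lit 71) (nat_lit 5) (nat_lit 480) (nat_lit 343) (nat_lit 317)) (XT.lf (nat_lit 0) (nat_lit 4217372845) (nat_lit 304) (nat_lit 7300935356) (nat_lit 76) (nat_lit 1300223156) (nat_lit 67) (nat_lit 5) (nat_lit 71) (nat_lit 5) (nat_lit 68) (nat_lit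 4) (nat_lit 481) (nat_lit 343) (nat_lit 316))) (XT.nd (nat_lit 78) (nat_lit 0) (nat_lit 0) (XT.lf (nat_lit 0) (nat_lit 30289246) (nat_lit 228) (nat_lit 8033640833) (nat_lit 304) (nat_lit 4919123502) (nat_lit 64) (nat_lit 5) (nat_lit 67) (nat_lit 5) (nat_lit 68) (nat_lit 4) (nat_lit 482) (nat_lit 343) (nat_lit 315)) (XT.lf (nat_lit 0) (nat_lit 7527371310) (nat_lit 228) (nat_lit 4460964086) (nat_lit 304) (nat_lit 1162529616) (nat_lit 64) (nat_lit 5) (nat_lit 67) (nat_lit 5) (nat_lit 68) (nat_lit 4) (nat_lit 483) (nat_lit 343) (nat_lit 314))))) (XT.nd (nat_lit 312) (nat_lit 456) (nat_lit 0) (XT.nd (nat_lit 156) (nat_lit 304) (nat_lit 0) (XT.nd (nat_lit 78) (nat_lit 0) (nat_lit 0) (XT.lf (nat_lit 0) (nat_lit 1779554407) (nat_lit 228) (nat_lit 818726601) (nat_lit 304) (nat_lit 10724139658) (nat_lit 60) (nat_lit 5) (nat_lit 63) (nat_lit 5) (nat_lit 64) (nat_lit 5) (nat_lit 484) (nat_lit 343) (nat_lit 313)) (XT.lf (nat_lit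 0) (nat_lit 6428304820) (nat_lit 304) (nat_lit 4195567482) (nat_lit 76) (nat_lit 2873206297) (nat_lit 60) (nat_lit 5) (nat_lit 64) (nat_lit 5) (nat_lit 61) (nat_lit 4) (nat_lit 485) (nat_lit 343) (nat_lit 312))) (XT.nd (nat_lit 78) (nat_lit 76) (nat_lit 0) (XT.lf (nat_lit 0) (nat_lit 3258488600) (nat_lit 228) (nat_lit 7056702255) (nat_lit 304) (nat_lit 3360449398) (nat_lit 57) (nat_lit 5) (nat_lit 60) (nat_lit 5) (nat_lit 61) (nat_lit 4) (nat_lit 486) (nat_lit 343) (nat_lit 311)) (XT.lf (nat_lit 0) (nat_lit 398619655) (nat_lit 304) (nat_lit 3019260799) (nat_lit 76) (nat_lit 10440210801) (nat_lit 56) (nat_lit 5) (nat_lit 60) (nat_lit 5) (nat_lit 57) (nat_lit 5) (nat_lit 487) (nat_lit 343) (nat_lit 310)))) (XT.nd (nat_lit 156) (nat_lit 228) (nat_lit 0) (XT.nd (nat_lit 78) (nat_lit 0) (nat_lit 0) (XT.lf (nat_lit 0) (nat_lit 4173775178) (nat_lit 304) (nat_lit 9559050142) (nat_lit 76) (nat_lit 311218564) (nat_lit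 53) (nat_lit 5) (nat_lit 57) (nat_lit 5) (nat_lit 54) (nat_lit 4) (nat_lit 488) (nat_lit 343) (nat_lit 309)) (XT.lf (nat_lit 0) (nat_lit 8022341268) (nat_lit 304) (nat_lit 2152132430) (nat_lit 76) (nat_lit 4059298313) (nat_lit 53) (nat_lit 5) (nat_lit 57) (nat_lit 5) (nat_lit 54) (nat_lit 4) (nat_lit 489) (nat_lit 343) (nat_lit 308))) (XT.nd (nat_lit 78) (nat_lit 76) (nat_lit 0) (XT.lf (nat_lit 0) (nat_lit 5398914524) (nat_lit 152) (nat_lit 6539779726) (nat_lit 228) (nat_lit 2488798449) (nat_lit 51) (nat_lit 5) (nat_lit 53) (nat_lit 5) (nat_lit 54) (nat_lit 4) (nat_lit 490) (nat_lit 343) (nat_lit 307)) (XT.lf (nat_lit 0) (nat_lit 1261508477) (nat_lit 228) (nat_lit 1578158940) (nat_lit 76) (nat_lit 11785856644) (nat_lit 50) (nat_lit 5) (nat_lit 53) (nat_lit 5) (nat_lit 51) (nat_lit 5) (nat_lit 491) (nat_lit 343) (nat_lit 306))))))))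
noncomputable def xc28 : XT := (XT.nd (nat_lit 2184) (nat_lit 608) (nat_lit 0) (XT.nd (nat_lit 1092) (nat_lit 760) (nat_lit 0) (XT.nd (nat_lit 546) (nat_lit 608) (nat_lit 0) (XT.nd (nat_lit 234) (nat_lit 456) (nat_lit 0) (XT.nd (nat_lit 78) (nat_lit 152) (nat_lit 0) (XT.lf (nat_lit 0) (nat_lit 5055497014) (nat_lit 304) (nat_lit 8823369317) (nat_lit 76) (nat_lit 948294175) (nat_lit 47) (nat_lit 5) (nat_lit 51) (nat_lit 5) (nat_lit 48) (nat_lit 4) (nat_lit 492) (nat_lit 343) (nat_lit 305)) (XT.nd (nat_lit 78) (nat_lit 152) (nat_lit 0) (XT.lf (nat_lit 0) (nat_lit 8911720037) (nat_lit 304) (nat_lit 1366370294) (nat_lit 76) (nat_lit 4755025474) (nat_lit 47) (nat_lit 5) (nat_lit 51) (nat_lit 5) (nat_lit 48) (nat_lit 4) (nat_lit 493) (nat_lit 343) (nat_lit 304)) (XT.lf (nat_lit 0) (nat_lit 6249527262) (nat_lit 152) (nat_lit 6593850216) (nat_lit 228) (nat_lit 2399859493) (nat_lit 45) (nat_lit 5) (nat_lit 47) (nat_lit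 5) (nat_lit 48) (nat_lit 4) (nat_lit 494) (nat_lit 343) (nat_lit 303)))) (XT.nd (nat_lit 156) (nat_lit 152) (nat_lit 0) (XT.nd (nat_lit 78) (nat_lit 228) (nat_lit 0) (XT.lf (nat_lit 0) (nat_lit 1344833957) (nat_lit 228) (nat_lit 1502541348) (nat_lit 76) (nat_lit 12610675690) (nat_lit 44) (nat_lit 5) (nat_lit 47) (nat_lit 5) (nat_lit 45) (nat_lit 5) (nat_lit 495) (nat_lit 343) (nat_lit 302)) (XT.lf (nat_lit 0) (nat_lit 5137266308) (nat_lit 304) (nat_lit 9551292751) (nat_lit 76) (nat_lit 988197610) (nat_lit 41) (nat_lit 5) (nat_lit 45) (nat_lit 5) (nat_lit 42) (nat_lit 4) (nat_lit 496) (nat_lit 343) (nat_lit 301))) (XT.nd (nat_lit 78) (nat_lit 152) (nat_lit 0) (XT.lf (nat_lit 0) (nat_lit 8993350850) (nat_lit 304) (nat_lit 2063222215) (nat_lit 76) (nat_lit 4843519293) (nat_lit 41) (nat_lit 5) (nat_lit 45) (nat_lit 5) (nat_lit 42) (nat_lit 4) (nat_lit 497) (nat_lit 343) (nat_lit 300)) (XT.lf (nat_lit 0) (nat_lit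 5578100377) (nat_lit 152) (nat_lit 7344278469) (nat_lit 228) (nat_lit 3205611219) (nat_lit 39) (nat_lit 5) (nat_lit 41) (nat_lit 5) (nat_lit 42) (nat_lit 4) (nat_lit 498) (nat_lit 343) (nat_lit 299))))) (XT.nd (nat_lit 234) (nat_lit 380) (nat_lit 0) (XT.nd (nat_lit 78) (nat_lit 152) (nat_lit 0) (XT.lf (nat_lit 0) (nat_lit 535680172) (nat_lit 228) (nat_lit 3033497450) (nat_lit 76) (nat_lit 12791733267) (nat_lit 38) (nat_lit 5) (nat_lit 41) (nat_lit 5) (nat_lit 39) (nat_lit 5) (nat_lit 499) (nat_lit 343) (nat_lit 298)) (XT.nd (nat_lit 78) (nat_lit 0) (nat_lit 0) (XT.lf (nat_lit 0) (nat_lit 4301246860) (nat_lit 228) (nat_lit 11996260697) (nat_lit 76) (nat_lit 300722401) (nat_lit 36) (nat_lit 5) (nat_lit 39) (nat_lit 5) (nat_lit 37) (nat_lit 4) (nat_lit 500) (nat_lit 343) (nat_lit 297)) (XT.lf (nat_lit 0) (nat_lit 8146862489) (nat_lit 228) (nat_lit 4500941576) (nat_lit 76) (nat_lit 4192407434) (nat_lit 36) (nat_lit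 5) (nat_lit 39) (nat_lit 5) (nat_lit 37) (nat_lit 4) (nat_lit 501) (nat_lit 343) (nat_lit 296)))) (XT.nd (nat_lit 156) (nat_lit 228) (nat_lit 0) (XT.nd (nat_lit 78) (nat_lit 0) (nat_lit 0) (XT.lf (nat_lit 0) (nat_lit 3117974058) (nat_lit 152) (nat_lit 8933042187) (nat_lit 228) (nat_lit 5036394543) (nat_lit 34) (nat_lit 5) (nat_lit 36) (nat_lit 5) (nat_lit 37) (nat_lit 4) (nat_lit 502) (nat_lit 343) (nat_lit 295)) (XT.lf (nat_lit 0) (nat_lit 10883518919) (nat_lit 152) (nat_lit 5141643468) (nat_lit 228) (nat_lit 1314563914) (nat_lit 34) (nat_lit 5) (nat_lit 36) (nat_lit 5) (nat_lit 37) (nat_lit 4) (nat_lit 503) (nat_lit 343) (nat_lit 294))) (XT.nd (nat_lit 78) (nat_lit 0) (nat_lit 0) (XT.lf (nat_lit 0) (nat_lit 1140163238) (nat_lit 152) (nat_lit 1278592574) (nat_lit 228) (nat_lit 15178628062) (nat_lit 31) (nat_lit 5) (nat_lit 33) (nat_lit 5) (nat_lit 34) (nat_lit 5) (nat_lit 504) (nat_lit 343) (nat_lit 293)) (XT.lf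 (nat_lit 0) (nat_lit 6232380948) (nat_lit 228) (nat_lit 8975732932) (nat_lit 76) (nat_lit 2651451937) (nat_lit 31) (nat_lit 5) (nat_lit 34) (nat_lit 5) (nat_lit 32) (nat_lit 4) (nat_lit 505) (nat_lit 343) (nat_lit 292)))))) (XT.nd (nat_lit 546) (nat_lit 304) (nat_lit 0) (XT.nd (nat_lit 234) (nat_lit 304) (nat_lit 0) (XT.nd (nat_lit 78) (nat_lit 152) (nat_lit 0) (XT.lf (nat_lit 0) (nat_lit 10093816141) (nat_lit 228) (nat_lit 1417894148) (nat_lit 76) (nat_lit 6615859989) (nat_lit 31) (nat_lit 5) (nat_lit 34) (nat_lit 5) (nat_lit 32) (nat_lit 4) (nat_lit 506) (nat_lit 343) (nat_lit 291)) (XT.nd (nat_lit 78) (nat_lit 0) (nat_lit 0) (XT.lf (nat_lit 0) (nat_lit 6310322053) (nat_lit 152) (nat_lit 7726922951) (nat_lit 228) (nat_lit 4363603964) (nat_lit 29) (nat_lit 5) (nat_lit 31) (nat_lit 5) (nat_lit 32) (nat_lit 4) (nat_lit 507) (nat_lit 343) (nat_lit 290)) (XT.lf (nat_lit 0) (nat_lit 14149200169) (nat_lit 152) (nat_lit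 3883951349) (nat_lit 228) (nat_lit 646978790) (nat_lit 29) (nat_lit 5) (nat_lit 31) (nat_lit 5) (nat_lit 32) (nat_lit 4) (nat_lit 508) (nat_lit 343) (nat_lit 289)))) (XT.nd (nat_lit 156) (nat_lit 76) (nat_lit 0) (XT.nd (nat_lit 78) (nat_lit 0) (nat_lit 0) (XT.lf (nat_lit 0) (nat_lit 3088005073) (nat_lit 228) (nat_lit 15826987784) (nat_lit 76) (nat_lit 49899855) (nat_lit 26) (nat_lit 5) (nat_lit 29) (nat_lit 5) (nat_lit 27) (nat_lit 4) (nat_lit 509) (nat_lit 343) (nat_lit 288)) (XT.lf (nat_lit 0) (nat_lit 6910036397) (nat_lit 228) (nat_lit 8325907132) (nat_lit 76) (nat_lit 4018909813) (nat_lit 26) (nat_lit 5) (nat_lit 29) (nat_lit 5) (nat_lit 27) (nat_lit 4) (nat_lit 510) (nat_lit 343) (nat_lit 287))) (XT.nd (nat_lit 78) (nat_lit 76) (nat_lit 0) (XT.lf (nat_lit 0) (nat_lit 10773875912) (nat_lit 228) (nat_lit 736071530) (nat_lit 76) (nat_lit 8041366941) (nat_lit 26) (nat_lit 5) (nat_lit 29) (nat_lit 5) (nat_lit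 27) (nat_lit 4) (nat_lit 511) (nat_lit 343) (nat_lit 286)) (XT.lf (nat_lit 0) (nat_lit 7037797405) (nat_lit 76) (nat_lit 7688935492) (nat_lit 152) (nat_lit 5126745317) (nat_lit 25) (nat_lit 5) (nat_lit 26) (nat_lit 5) (nat_lit 27) (nat_lit 4) (nat_lit 512) (nat_lit 343) (nat_lit 285))))) (XT.nd (nat_lit 234) (nat_lit 76) (nat_lit 0) (XT.nd (nat_lit 78) (nat_lit 228) (nat_lit 0) (XT.lf (nat_lit 0) (nat_lit 14917451174) (nat_lit 76) (nat_lit 3812460241) (nat_lit 152) (nat_lit 1432356838) (nat_lit 25) (nat_lit 5) (nat_lit 26) (nat_lit 5) (nat_lit 27) (nat_lit 4) (nat_lit 513) (nat_lit 343) (nat_lit 284)) (XT.nd (nat_lit 78) (nat_lit 0) (nat_lit 0) (XT.lf (nat_lit 0) (nat_lit 2288810807) (nat_lit 228) (nat_lit 18042957533) (nat_lit 76) (nat_lit 145499779) (nat_lit 22) (nat_lit 5) (nat_lit 25) (nat_lit 5) (nat_lit 23) (nat_lit 4) (nat_lit 514) (nat_lit 343) (nat_lit 283)) (XT.lf (nat_lit 0) (nat_lit 6092781196) (nat_lit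 228) (nat_lit 10553778356) (nat_lit 76) (nat_lit 4151275643) (nat_lit 22) (nat_lit 5) (nat_lit 25) (nat_lit 5) (nat_lit 23) (nat_lit 4) (nat_lit 515) (nat_lit 343) (nat_lit 282)))) (XT.nd (nat_lit 156) (nat_lit 0) (nat_lit 0) (XT.nd (nat_lit 78) (nat_lit 76) (nat_lit 0) (XT.lf (nat_lit 0) (nat_lit 9940344790) (nat_lit 228) (nat_lit 2972720493) (nat_lit 76) (nat_lit 8212405647) (nat_lit 22) (nat_lit 5) (nat_lit 25) (nat_lit 5) (nat_lit 23) (nat_lit 4) (nat_lit 516) (nat_lit 343) (nat_lit 281)) (XT.lf (nat_lit 0) (nat_lit 4765691925) (nat_lit 76) (nat_lit 9098260545) (nat_lit 152) (nat_lit 7595732498) (nat_lit 21) (nat_lit 5) (nat_lit 22) (nat_lit 5) (nat_lit 23) (nat_lit 4) (nat_lit 517) (nat_lit 343) (nat_lit 280))) (XT.nd (nat_lit 78) (nat_lit 0) (nat_lit 0) (XT.lf (nat_lit 0) (nat_lit 12642772577) (nat_lit 76) (nat_lit 5211617362) (nat_lit 152) (nat_lit 3946433494) (nat_lit 21) (nat_lit 5) (nat_lit 22) (nat_lit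 5) (nat_lit 23) (nat_lit 4) (nat_lit 518) (nat_lit 343) (nat_lit 279)) (XT.lf (nat_lit 0) (nat_lit 20622104622) (nat_lit 76) (nat_lit 1271560079) (nat_lit 152) (nat_lit 255746549) (nat_lit 21) (nat_lit 5) (nat_lit 22) (nat_lit 5) (nat_lit 23) (nat_lit 4) (nat_lit 519) (nat_lit 343) (nat_lit 278))))))) (XT.nd (nat_lit 54210) (nat_lit 0) (nat_lit 6916) (XT.nd (nat_lit 546) (nat_lit 76) (nat_lit 0) (XT.nd (nat_lit 234) (nat_lit 304) (nat_lit 0) (XT.nd (nat_lit 78) (nat_lit 0) (nat_lit 0) (XT.lf (nat_lit 0) (nat_lit 3490914258) (nat_lit 228) (nat_lit 16261658668) (nat_lit 76) (nat_lit 2751385590) (nat_lit 18) (nat_lit 5) (nat_lit 21) (nat_lit 5) (nat_lit 19) (nat_lit 4) (nat_lit 520) (nat_lit 343) (nat_lit 277)) (XT.nd (nat_lit 78) (nat_lit 0) (nat_lit 0) (XT.lf (nat_lit 0) (nat_lit 7297344450) (nat_lit 228) (nat_lit 8742290504) (nat_lit 76) (nat_lit 6826169495) (nat_lit 18) (nat_lit 5) (nat_lit 21) (nat_lit 5) (nat_lit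 19) (nat_lit 4) (nat_lit 521) (nat_lit 343) (nat_lit 276)) (XT.lf (nat_lit 0) (nat_lit 11150020481) (nat_lit 228) (nat_lit 1126179846) (nat_lit 76) (nat_lit 10959291238) (nat_lit 18) (nat_lit 5) (nat_lit 21) (nat_lit 5) (nat_lit 19) (nat_lit 4) (nat_lit 522) (nat_lit 343) (nat_lit 275)))) (XT.nd (nat_lit 156) (nat_lit 228) (nat_lit 0) (XT.nd (nat_lit 78) (nat_lit 0) (nat_lit 0) (XT.lf (nat_lit 0) (nat_lit 6677233127) (nat_lit 76) (nat_lit 8416573103) (nat_lit 152) (nat_lit 8518491551) (nat_lit 17) (nat_lit 5) (nat_lit 18) (nat_lit 5) (nat_lit 19) (nat_lit 4) (nat_lit 523) (nat_lit 343) (nat_lit 274)) (XT.lf (nat_lit 0) (nat_lit 14599733022) (nat_lit 76) (nat_lit 4495230330) (nat_lit 152) (nat_lit 4902113209) (nat_lit 17) (nat_lit 5) (nat_lit 18) (nat_lit 5) (nat_lit 19) (nat_lit 4) (nat_lit 524) (nat_lit 343) (nat_lit 273))) (XT.nd (nat_lit 78) (nat_lit 228) (nat_lit 0) (XT.lf (nat_lit 0) (nat_lit 22629460363)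 (nat_lit 76) (nat_lit 518191486) (nat_lit 152) (nat_lit 1242475133) (nat_lit 17) (nat_lit 5) (nat_lit 18) (nat_lit 5) (nat_lit 19) (nat_lit 4) (nat_lit 525) (nat_lit 343) (nat_lit 272)) (XT.lf (nat_lit 0) (nat_lit 2491988140) (nat_lit 228) (nat_lit 18772485112) (nat_lit 76) (nat_lit 3525561887) (nat_lit 14) (nat_lit 5) (nat_lit 17) (nat_lit 5) (nat_lit 15) (nat_lit 4) (nat_lit 526) (nat_lit 343) (nat_lit 271))))) (XT.nd (nat_lit 234) (nat_lit 0) (nat_lit 0) (XT.nd (nat_lit 78) (nat_lit 76) (nat_lit 0) (XT.lf (nat_lit 0) (nat_lit 6271800229) (nat_lit 228) (nat_lit 11284929826) (nat_lit 76) (nat_lit 7641307092) (nat_lit 14) (nat_lit 5) (nat_lit 17) (nat_lit 5) (nat_lit 15) (nat_lit 4) (nat_lit 527) (nat_lit 343) (nat_lit 270)) (XT.nd (nat_lit 78) (nat_lit 76) (nat_lit 0) (XT.lf (nat_lit 0) (nat_lit 10099714212) (nat_lit 228) (nat_lit 3697313320) (nat_lit 76) (nat_lit 11817727305) (nat_lit 14) (nat_lit 5) (nat_lit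 17) (nat_lit 5) (nat_lit 15) (nat_lit 4) (nat_lit 528) (nat_lit 343) (nat_lit 269)) (XT.lf (nat_lit 0) (nat_lit 4046409326) (nat_lit 76) (nat_lit 9957093878) (nat_lit 152) (nat_lit 12036322984) (nat_lit 13) (nat_lit 5) (nat_lit 14) (nat_lit 5) (nat_lit 15) (nat_lit 4) (nat_lit 529) (nat_lit 343) (nat_lit 268)))) (XT.nd (nat_lit 53274) (nat_lit 0) (nat_lit 10564) (XT.nd (nat_lit 78) (nat_lit 0) (nat_lit 0) (XT.lf (nat_lit 0) (nat_lit 11946729403) (nat_lit 76) (nat_lit 6036708569) (nat_lit 152) (nat_lit 8490005125) (nat_lit 13) (nat_lit 5) (nat_lit 14) (nat_lit 5) (nat_lit 15) (nat_lit 4) (nat_lit 530) (nat_lit 343) (nat_lit 267)) (XT.lf (nat_lit 0) (nat_lit 19957609728) (nat_lit 76) (nat_lit 2059145117) (nat_lit 152) (nat_lit 4899507254) (nat_lit 13) (nat_lit 5) (nat_lit 14) (nat_lit 5) (nat_lit 15) (nat_lit 4) (nat_lit 531) (nat_lit 343) (nat_lit 266))) (XT.nd (nat_lit 78) (nat_lit 456) (nat_lit 0) (XT.lf (nat_lit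 0) (nat_lit 854115170) (nat_lit 532) (nat_lit 2938009163) (nat_lit 0) (nat_lit 854115170) (nat_lit 158) (nat_lit 5) (nat_lit 165) (nat_lit 4) (nat_lit 158) (nat_lit 4) (nat_lit 452) (nat_lit 344) (nat_lit 344)) (XT.lf (nat_lit 0) (nat_lit 803740159) (nat_lit 456) (nat_lit 4745048541) (nat_lit 456) (nat_lit 3832000209) (nat_lit 152) (nat_lit 4) (nat_lit 158) (nat_lit 5) (nat_lit 158) (nat_lit 4) (nat_lit 453) (nat_lit 344) (nat_lit 343)))))) (XT.nd (nat_lit 546) (nat_lit 1520) (nat_lit 0) (XT.nd (nat_lit 234) (nat_lit 1216) (nat_lit 0) (XT.nd (nat_lit 78) (nat_lit 912) (nat_lit 0) (XT.lf (nat_lit 0) (nat_lit 7607145988) (nat_lit 456) (nat_lit 1836202632) (nat_lit 456) (nat_lit 28008876) (nat_lit 152) (nat_lit 4) (nat_lit 158) (nat_lit 5) (nat_lit 158) (nat_lit 4) (nat_lit 454) (nat_lit 344) (nat_lit 342)) (XT.nd (nat_lit 78) (nat_lit 456) (nat_lit 0) (XT.lf (nat_lit 0) (nat_lit 3779659253) (nat_lit 456) (nat_lit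 4637516095) (nat_lit 0) (nat_lit 1146534440) (nat_lit 146) (nat_lit 5) (nat_lit 152) (nat_lit 4) (nat_lit 146) (nat_lit 4) (nat_lit 455) (nat_lit 344) (nat_lit 341)) (XT.lf (nat_lit 0) (nat_lit 2146558136) (nat_lit 456) (nat_lit 5494234047) (nat_lit 456) (nat_lit 2017593710) (nat_lit 140) (nat_lit 4) (nat_lit 146) (nat_lit 5) (nat_lit 146) (nat_lit 4) (nat_lit 456) (nat_lit 344) (nat_lit 340)))) (XT.nd (nat_lit 156) (nat_lit 760) (nat_lit 0) (XT.nd (nat_lit 78) (nat_lit 380) (nat_lit 0) (XT.lf (nat_lit 0) (nat_lit 1770778134) (nat_lit 532) (nat_lit 726644511) (nat_lit 76) (nat_lit 7257918660) (nat_lit 139) (nat_lit 5) (nat_lit 146) (nat_lit 5) (nat_lit 140) (nat_lit 4) (nat_lit 457) (nat_lit 344) (nat_lit 339)) (XT.lf (nat_lit 0) (nat_lit 5592193878) (nat_lit 456) (nat_lit 3684022957) (nat_lit 0) (nat_lit 578098650) (nat_lit 134) (nat_lit 5) (nat_lit 140) (nat_lit 4) (nat_lit 134) (nat_lit 4) (nat_lit 458) (nat_lit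 344) (nat_lit 338))) (XT.nd (nat_lit 78) (nat_lit 380) (nat_lit 0) (XT.lf (nat_lit 0) (nat_lit 3197068039) (nat_lit 380) (nat_lit 6275972917) (nat_lit 380) (nat_lit 482599729) (nat_lit 129) (nat_lit 4) (nat_lit 134) (nat_lit 5) (nat_lit 134) (nat_lit 4) (nat_lit 459) (nat_lit 344) (nat_lit 337)) (XT.lf (nat_lit 0) (nat_lit 98074674) (nat_lit 304) (nat_lit 3196700504) (nat_lit 380) (nat_lit 6764479774) (nat_lit 124) (nat_lit 5) (nat_lit 128) (nat_lit 5) (nat_lit 129) (nat_lit 4) (nat_lit 460) (nat_lit 344) (nat_lit 336))))) (XT.nd (nat_lit 234) (nat_lit 760) (nat_lit 0) (XT.nd (nat_lit 78) (nat_lit 760) (nat_lit 0) (XT.lf (nat_lit 0) (nat_lit 7092439985) (nat_lit 304) (nat_lit 35693093) (nat_lit 380) (nat_lit 3037036450) (nat_lit 124) (nat_lit 5) (nat_lit 128) (nat_lit 5) (nat_lit 129) (nat_lit 4) (nat_lit 461) (nat_lit 344) (nat_lit 335)) (XT.nd (nat_lit 78) (nat_lit 304) (nat_lit 0) (XT.lf (nat_lit 0) (nat_lit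 743339313) (nat_lit 456) (nat_lit 6381513273) (nat_lit 76) (nat_lit 3148510772) (nat_lit 118) (nat_lit 5) (nat_lit 124) (nat_lit 5) (nat_lit 119) (nat_lit 4) (nat_lit 462) (nat_lit 344) (nat_lit 334)) (XT.lf (nat_lit 0) (nat_lit 553563968) (nat_lit 304) (nat_lit 3972395790) (nat_lit 380) (nat_lit 5858041805) (nat_lit 114) (nat_lit 5) (nat_lit 118) (nat_lit 5) (nat_lit 119) (nat_lit 4) (nat_lit 463) (nat_lit 344) (nat_lit 333)))) (XT.nd (nat_lit 156) (nat_lit 304) (nat_lit 0) (XT.nd (nat_lit 78) (nat_lit 456) (nat_lit 0) (XT.lf (nat_lit 0) (nat_lit 7627145363) (nat_lit 304) (nat_lit 743150000) (nat_lit 380) (nat_lit 2126863420) (nat_lit 114) (nat_lit 5) (nat_lit 118) (nat_lit 5) (nat_lit 119) (nat_lit 4) (nat_lit 464) (nat_lit 344) (nat_lit 332)) (XT.lf (nat_lit 0) (nat_lit 1644686591) (nat_lit 456) (nat_lit 6441713116) (nat_lit 76) (nat_lit 2526232510) (nat_lit 108) (nat_lit 5) (nat_lit 114) (nat_lit 5) (nat_lit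 109) (nat_lit 4) (nat_lit 465) (nat_lit 344) (nat_lit 331))) (XT.nd (nat_lit 78) (nat_lit 0) (nat_lit 0) (XT.lf (nat_lit 0) (nat_lit 563651902) (nat_lit 304) (nat_lit 4871841597) (nat_lit 380) (nat_lit 5295220277) (nat_lit 104) (nat_lit 5) (nat_lit 108) (nat_lit 5) (nat_lit 109) (nat_lit 4) (nat_lit 466) (nat_lit 344) (nat_lit 330)) (XT.lf (nat_lit 0) (nat_lit 7710859750) (nat_lit 304) (nat_lit 1579330382) (nat_lit 380) (nat_lit 1561230773) (nat_lit 104) (nat_lit 5) (nat_lit 108) (nat_lit 5) (nat_lit 109) (nat_lit 4) (nat_lit 467) (nat_lit 344) (nat_lit 329))))))))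
noncomputable def xc29 : XT := (XT.nd (nat_lit 2184) (nat_lit 2052) (nat_lit 0) (XT.nd (nat_lit 1092) (nat_lit 1748) (nat_lit 0) (XT.nd (nat_lit 546) (nat_lit 1140) (nat_lit 0) (XT.nd (nat_lit 234) (nat_lit 988) (nat_lit 0) (XT.nd (nat_lit 78) (nat_lit 304) (nat_lit 0) (XT.lf (nat_lit 0) (nat_lit 2200967345) (nat_lit 380) (nat_lit 7007054566) (nat_lit 76) (nat_lit 1766592765) (nat_lit 99) (nat_lit 5) (nat_lit 104) (nat_lit 5) (nat_lit 100) (nat_lit 4) (nat_lit 468) (nat_lit 344) (nat_lit 328)) (XT.nd (nat_lit 78) (nat_lit 0) (nat_lit 0) (XT.lf (nat_lit 0) (nat_lit 55348612) (nat_lit 304) (nat_lit 5940079321) (nat_lit 380) (nat_lit 5105103473) (nat_lit 95) (nat_lit 5) (nat_lit 99) (nat_lit 5) (nat_lit 100) (nat_lit 4) (nat_lit 469) (nat_lit 344) (nat_lit 327)) (XT.lf (nat_lit 0) (nat_lit 7269538140) (nat_lit 304) (nat_lit 2589644660) (nat_lit 380) (nat_lit 1369939046) (nat_lit 95) (nat_lit 5) (nat_lit 99) (nat_lit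 5) (nat_lit 100) (nat_lit 4) (nat_lit 470) (nat_lit 344) (nat_lit 326)))) (XT.nd (nat_lit 156) (nat_lit 608) (nat_lit 0) (XT.nd (nat_lit 78) (nat_lit 0) (nat_lit 0) (XT.lf (nat_lit 0) (nat_lit 2381256660) (nat_lit 380) (nat_lit 8155573428) (nat_lit 76) (nat_lit 823693176) (nat_lit 90) (nat_lit 5) (nat_lit 95) (nat_lit 5) (nat_lit 91) (nat_lit 4) (nat_lit 471) (nat_lit 344) (nat_lit 325)) (XT.lf (nat_lit 0) (nat_lit 6180412351) (nat_lit 380) (nat_lit 1037810078) (nat_lit 76) (nat_lit 4276345707) (nat_lit 90) (nat_lit 5) (nat_lit 95) (nat_lit 5) (nat_lit 91) (nat_lit 4) (nat_lit 472) (nat_lit 344) (nat_lit 324))) (XT.nd (nat_lit 78) (nat_lit 380) (nat_lit 0) (XT.lf (nat_lit 0) (nat_lit 6221713648) (nat_lit 228) (nat_lit 3822630631) (nat_lit 304) (nat_lit 1587195451) (nat_lit 87) (nat_lit 5) (nat_lit 90) (nat_lit 5) (nat_lit 91) (nat_lit 4) (nat_lit 473) (nat_lit 344) (nat_lit 323)) (XT.lf (nat_lit 0) (nat_lit 1796160252)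 (nat_lit 304) (nat_lit 356294843) (nat_lit 380) (nat_lit 9619185132) (nat_lit 82) (nat_lit 5) (nat_lit 86) (nat_lit 5) (nat_lit 87) (nat_lit 5) (nat_lit 474) (nat_lit 344) (nat_lit 322))))) (XT.nd (nat_lit 234) (nat_lit 836) (nat_lit 0) (XT.nd (nat_lit 78) (nat_lit 304) (nat_lit 0) (XT.lf (nat_lit 0) (nat_lit 5951649644) (nat_lit 380) (nat_lit 2808269566) (nat_lit 76) (nat_lit 3154314064) (nat_lit 82) (nat_lit 5) (nat_lit 87) (nat_lit 5) (nat_lit 83) (nat_lit 4) (nat_lit 475) (nat_lit 344) (nat_lit 321)) (XT.nd (nat_lit 78) (nat_lit 76) (nat_lit 0) (XT.lf (nat_lit 0) (nat_lit 4477614308) (nat_lit 228) (nat_lit 5330446861) (nat_lit 304) (nat_lit 2252012389) (nat_lit 79) (nat_lit 5) (nat_lit 82) (nat_lit 5) (nat_lit 83) (nat_lit 4) (nat_lit 476) (nat_lit 344) (nat_lit 320)) (XT.lf (nat_lit 0) (nat_lit 1481552193) (nat_lit 304) (nat_lit 352435243) (nat_lit 76) (nat_lit 10375285744) (nat_lit 78) (nat_lit 5) (nat_lit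 82) (nat_lit 5) (nat_lit 79) (nat_lit 5) (nat_lit 477) (nat_lit 344) (nat_lit 319)))) (XT.nd (nat_lit 156) (nat_lit 304) (nat_lit 0) (XT.nd (nat_lit 78) (nat_lit 228) (nat_lit 0) (XT.lf (nat_lit 0) (nat_lit 5267585941) (nat_lit 380) (nat_lit 5352953688) (nat_lit 76) (nat_lit 1740479284) (nat_lit 74) (nat_lit 5) (nat_lit 79) (nat_lit 5) (nat_lit 75) (nat_lit 4) (nat_lit 478) (nat_lit 344) (nat_lit 318)) (XT.lf (nat_lit 0) (nat_lit 1938193124) (nat_lit 228) (nat_lit 7169406272) (nat_lit 304) (nat_lit 3408653496) (nat_lit 71) (nat_lit 5) (nat_lit 74) (nat_lit 5) (nat_lit 75) (nat_lit 4) (nat_lit 479) (nat_lit 344) (nat_lit 317))) (XT.nd (nat_lit 78) (nat_lit 228) (nat_lit 0) (XT.lf (nat_lit 0) (nat_lit 332645558) (nat_lit 304) (nat_lit 3308665046) (nat_lit 76) (nat_lit 9033505072) (nat_lit 70) (nat_lit 5) (nat_lit 74) (nat_lit 5) (nat_lit 71) (nat_lit 5) (nat_lit 480) (nat_lit 344) (nat_lit 316)) (XT.lf (nat_lit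 0) (nat_lit 4058331882) (nat_lit 228) (nat_lit 23397648) (nat_lit 304) (nat_lit 8754814989) (nat_lit 67) (nat_lit 5) (nat_lit 70) (nat_lit 5) (nat_lit 71) (nat_lit 5) (nat_lit 481) (nat_lit 344) (nat_lit 315)))))) (XT.nd (nat_lit 546) (nat_lit 684) (nat_lit 0) (XT.nd (nat_lit 234) (nat_lit 532) (nat_lit 0) (XT.nd (nat_lit 78) (nat_lit 532) (nat_lit 0) (XT.lf (nat_lit 0) (nat_lit 7904394382) (nat_lit 304) (nat_lit 1486187538) (nat_lit 76) (nat_lit 3610971137) (nat_lit 67) (nat_lit 5) (nat_lit 71) (nat_lit 5) (nat_lit 68) (nat_lit 4) (nat_lit 482) (nat_lit 344) (nat_lit 314)) (XT.nd (nat_lit 78) (nat_lit 304) (nat_lit 0) (XT.lf (nat_lit 0) (nat_lit 5952445986) (nat_lit 228) (nat_lit 5843242742) (nat_lit 304) (nat_lit 1374346279) (nat_lit 64) (nat_lit 5) (nat_lit 67) (nat_lit 5) (nat_lit 68) (nat_lit 4) (nat_lit 483) (nat_lit 344) (nat_lit 313)) (XT.lf (nat_lit 0) (nat_lit 126906353) (nat_lit 228) (nat_lit 2228570489)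 (nat_lit 304) (nat_lit 10986824613) (nat_lit 60) (nat_lit 5) (nat_lit 63) (nat_lit 5) (nat_lit 64) (nat_lit 5) (nat_lit 484) (nat_lit 344) (nat_lit 312)))) (XT.nd (nat_lit 156) (nat_lit 304) (nat_lit 0) (XT.nd (nat_lit 78) (nat_lit 228) (nat_lit 0) (XT.lf (nat_lit 0) (nat_lit 6153418026) (nat_lit 304) (nat_lit 5897310161) (nat_lit 76) (nat_lit 1466880674) (nat_lit 60) (nat_lit 5) (nat_lit 64) (nat_lit 5) (nat_lit 61) (nat_lit 4) (nat_lit 485) (nat_lit 344) (nat_lit 311)) (XT.lf (nat_lit 0) (nat_lit 1496015597) (nat_lit 228) (nat_lit 8510365922) (nat_lit 304) (nat_lit 3690475115) (nat_lit 57) (nat_lit 5) (nat_lit 60) (nat_lit 5) (nat_lit 61) (nat_lit 4) (nat_lit 486) (nat_lit 344) (nat_lit 310))) (XT.nd (nat_lit 78) (nat_lit 228) (nat_lit 0) (XT.lf (nat_lit 0) (nat_lit 50486067) (nat_lit 304) (nat_lit 4838480678) (nat_lit 76) (nat_lit 8990839840) (nat_lit 56) (nat_lit 5) (nat_lit 60) (nat_lit 5) (nat_lit 57) (nat_lit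 5) (nat_lit 487) (nat_lit 344) (nat_lit 309)) (XT.lf (nat_lit 0) (nat_lit 2606260438) (nat_lit 228) (nat_lit 1183125827) (nat_lit 304) (nat_lit 10277105282) (nat_lit 53) (nat_lit 5) (nat_lit 56) (nat_lit 5) (nat_lit 57) (nat_lit 5) (nat_lit 488) (nat_lit 344) (nat_lit 308))))) (XT.nd (nat_lit 234) (nat_lit 456) (nat_lit 0) (XT.nd (nat_lit 78) (nat_lit 228) (nat_lit 0) (XT.lf (nat_lit 0) (nat_lit 7608370834) (nat_lit 304) (nat_lit 4082669802) (nat_lit 76) (nat_lit 2565777751) (nat_lit 53) (nat_lit 5) (nat_lit 57) (nat_lit 5) (nat_lit 54) (nat_lit 4) (nat_lit 489) (nat_lit 344) (nat_lit 307)) (XT.nd (nat_lit 78) (nat_lit 76) (nat_lit 0) (XT.lf (nat_lit 0) (nat_lit 3405926954) (nat_lit 152) (nat_lit 8084386591) (nat_lit 228) (nat_lit 2960920681) (nat_lit 51) (nat_lit 5) (nat_lit 53) (nat_lit 5) (nat_lit 54) (nat_lit 4) (nat_lit 490) (nat_lit 344) (nat_lit 306)) (XT.lf (nat_lit 0) (nat_lit 774146848) (nat_lit 228)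 (nat_lit 3628187106) (nat_lit 76) (nat_lit 10247428243) (nat_lit 50) (nat_lit 5) (nat_lit 53) (nat_lit 5) (nat_lit 51) (nat_lit 5) (nat_lit 491) (nat_lit 344) (nat_lit 305)))) (XT.nd (nat_lit 156) (nat_lit 228) (nat_lit 0) (XT.nd (nat_lit 78) (nat_lit 0) (nat_lit 0) (XT.lf (nat_lit 0) (nat_lit 3896757620) (nat_lit 228) (nat_lit 630406270) (nat_lit 304) (nat_lit 10325060726) (nat_lit 47) (nat_lit 5) (nat_lit 50) (nat_lit 5) (nat_lit 51) (nat_lit 5) (nat_lit 492) (nat_lit 344) (nat_lit 304)) (XT.lf (nat_lit 0) (nat_lit 8358370077) (nat_lit 304) (nat_lit 3530120067) (nat_lit 76) (nat_lit 3170196524) (nat_lit 47) (nat_lit 5) (nat_lit 51) (nat_lit 5) (nat_lit 48) (nat_lit 4) (nat_lit 493) (nat_lit 344) (nat_lit 303))) (XT.nd (nat_lit 78) (nat_lit 76) (nat_lit 0) (XT.lf (nat_lit 0) (nat_lit 4021512449) (nat_lit 152) (nat_lit 8233535768) (nat_lit 228) (nat_lit 3014465494) (nat_lit 45) (nat_lit 5) (nat_lit 47) (nat_lit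 5) (nat_lit 48) (nat_lit 4) (nat_lit 494) (nat_lit 344) (nat_lit 302)) (XT.lf (nat_lit 0) (nat_lit 717810497) (nat_lit 228) (nat_lit 3787934332) (nat_lit 76) (nat_lit 10979078323) (nat_lit 44) (nat_lit 5) (nat_lit 47) (nat_lit 5) (nat_lit 45) (nat_lit 5) (nat_lit 495) (nat_lit 344) (nat_lit 301))))))) (XT.nd (nat_lit 1092) (nat_lit 684) (nat_lit 0) (XT.nd (nat_lit 546) (nat_lit 608) (nat_lit 0) (XT.nd (nat_lit 234) (nat_lit 380) (nat_lit 0) (XT.nd (nat_lit 78) (nat_lit 152) (nat_lit 0) (XT.lf (nat_lit 0) (nat_lit 3781469598) (nat_lit 228) (nat_lit 686933533) (nat_lit 304) (nat_lit 11235968416) (nat_lit 41) (nat_lit 5) (nat_lit 44) (nat_lit 5) (nat_lit 45) (nat_lit 5) (nat_lit 496) (nat_lit 344) (nat_lit 300)) (XT.nd (nat_lit 78) (nat_lit 152) (nat_lit 0) (XT.lf (nat_lit 0) (nat_lit 8300030138) (nat_lit 304) (nat_lit 4464860070) (nat_lit 76) (nat_lit 3163311990) (nat_lit 41) (nat_lit 5) (nat_lit 45) (nat_lit 5)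 (nat_lit 42) (nat_lit 4) (nat_lit 497) (nat_lit 344) (nat_lit 299)) (XT.lf (nat_lit 0) (nat_lit 3110284234) (nat_lit 152) (nat_lit 9083145803) (nat_lit 228) (nat_lit 3963388128) (nat_lit 39) (nat_lit 5) (nat_lit 41) (nat_lit 5) (nat_lit 42) (nat_lit 4) (nat_lit 498) (nat_lit 344) (nat_lit 298)))) (XT.nd (nat_lit 156) (nat_lit 152) (nat_lit 0) (XT.nd (nat_lit 78) (nat_lit 228) (nat_lit 0) (XT.lf (nat_lit 0) (nat_lit 10829602006) (nat_lit 152) (nat_lit 5325790570) (nat_lit 228) (nat_lit 234811263) (nat_lit 39) (nat_lit 5) (nat_lit 41) (nat_lit 5) (nat_lit 42) (nat_lit 4) (nat_lit 499) (nat_lit 344) (nat_lit 297)) (XT.lf (nat_lit 0) (nat_lit 2011210960) (nat_lit 152) (nat_lit 1484622070) (nat_lit 228) (nat_lit 13132485778) (nat_lit 36) (nat_lit 5) (nat_lit 38) (nat_lit 5) (nat_lit 39) (nat_lit 5) (nat_lit 500) (nat_lit 344) (nat_lit 296))) (XT.nd (nat_lit 78) (nat_lit 152) (nat_lit 0) (XT.lf (nat_lit 0) (nat_lit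 7312691616) (nat_lit 228) (nat_lit 7145418219) (nat_lit 76) (nat_lit 2412770919) (nat_lit 36) (nat_lit 5) (nat_lit 39) (nat_lit 5) (nat_lit 37) (nat_lit 4) (nat_lit 501) (nat_lit 344) (nat_lit 295)) (XT.lf (nat_lit 0) (nat_lit 405303943) (nat_lit 152) (nat_lit 10775185944) (nat_lit 228) (nat_lit 5938322426) (nat_lit 34) (nat_lit 5) (nat_lit 36) (nat_lit 5) (nat_lit 37) (nat_lit 4) (nat_lit 502) (nat_lit 344) (nat_lit 294))))) (XT.nd (nat_lit 234) (nat_lit 380) (nat_lit 0) (XT.nd (nat_lit 78) (nat_lit 228) (nat_lit 0) (XT.lf (nat_lit 0) (nat_lit 8138447068) (nat_lit 152) (nat_lit 6997603066) (nat_lit 228) (nat_lit 2235454468) (nat_lit 34) (nat_lit 5) (nat_lit 36) (nat_lit 5) (nat_lit 37) (nat_lit 4) (nat_lit 503) (nat_lit 344) (nat_lit 293)) (XT.nd (nat_lit 78) (nat_lit 152) (nat_lit 0) (XT.lf (nat_lit 0) (nat_lit 1484193177) (nat_lit 228) (nat_lit 1677676418) (nat_lit 76) (nat_lit 14467932019) (nat_lit 33) (nat_lit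 5) (nat_lit 36) (nat_lit 5) (nat_lit 34) (nat_lit 5) (nat_lit 504) (nat_lit 344) (nat_lit 292)) (XT.lf (nat_lit 0) (nat_lit 5256198237) (nat_lit 228) (nat_lit 11868290673) (nat_lit 76) (nat_lit 768331814) (nat_lit 31) (nat_lit 5) (nat_lit 34) (nat_lit 5) (nat_lit 32) (nat_lit 4) (nat_lit 505) (nat_lit 344) (nat_lit 291)))) (XT.nd (nat_lit 156) (nat_lit 228) (nat_lit 0) (XT.nd (nat_lit 78) (nat_lit 152) (nat_lit 0) (XT.lf (nat_lit 0) (nat_lit 9099709752) (nat_lit 228) (nat_lit 4341907516) (nat_lit 76) (nat_lit 4719571064) (nat_lit 31) (nat_lit 5) (nat_lit 34) (nat_lit 5) (nat_lit 32) (nat_lit 4) (nat_lit 506) (nat_lit 344) (nat_lit 290)) (XT.lf (nat_lit 0) (nat_lit 3316201403) (nat_lit 152) (nat_lit 9689925161) (nat_lit 228) (nat_lit 5429085282) (nat_lit 29) (nat_lit 5) (nat_lit 31) (nat_lit 5) (nat_lit 32) (nat_lit 4) (nat_lit 507) (nat_lit 344) (nat_lit 289))) (XT.nd (nat_lit 78) (nat_lit 228) (nat_lit 0) (XT.lf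 (nat_lit 0) (nat_lit 11124443556) (nat_lit 152) (nat_lit 5860162934) (nat_lit 228) (nat_lit 1730239720) (nat_lit 29) (nat_lit 5) (nat_lit 31) (nat_lit 5) (nat_lit 32) (nat_lit 4) (nat_lit 508) (nat_lit 344) (nat_lit 288)) (XT.lf (nat_lit 0) (nat_lit 14564772) (nat_lit 152) (nat_lit 1966574892) (nat_lit 228) (nat_lit 17019370167) (nat_lit 26) (nat_lit 5) (nat_lit 28) (nat_lit 5) (nat_lit 29) (nat_lit 5) (nat_lit 509) (nat_lit 344) (nat_lit 287)))))) (XT.nd (nat_lit 546) (nat_lit 380) (nat_lit 0) (XT.nd (nat_lit 234) (nat_lit 228) (nat_lit 0) (XT.nd (nat_lit 78) (nat_lit 76) (nat_lit 0) (XT.lf (nat_lit 0) (nat_lit 5773257910) (nat_lit 228) (nat_lit 11502426130) (nat_lit 76) (nat_lit 2015388914) (nat_lit 26) (nat_lit 5) (nat_lit 29) (nat_lit 5) (nat_lit 27) (nat_lit 4) (nat_lit 510) (nat_lit 344) (nat_lit 286)) (XT.nd (nat_lit 78) (nat_lit 76) (nat_lit 0) (XT.lf (nat_lit 0) (nat_lit 9620288826) (nat_lit 228) (nat_lit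 3942325853) (nat_lit 76) (nat_lit 6025259638) (nat_lit 26) (nat_lit 5) (nat_lit 29) (nat_lit 5) (nat_lit 27) (nat_lit 4) (nat_lit 511) (nat_lit 344) (nat_lit 285)) (XT.lf (nat_lit 0) (nat_lit 3759393952) (nat_lit 76) (nat_lit 9775987272) (nat_lit 152) (nat_lit 6355416286) (nat_lit 25) (nat_lit 5) (nat_lit 26) (nat_lit 5) (nat_lit 27) (nat_lit 4) (nat_lit 512) (nat_lit 344) (nat_lit 284)))) (XT.nd (nat_lit 156) (nat_lit 152) (nat_lit 0) (XT.nd (nat_lit 78) (nat_lit 76) (nat_lit 0) (XT.lf (nat_lit 0) (nat_lit 11610087233) (nat_lit 76) (nat_lit 5912128578) (nat_lit 152) (nat_lit 2677702605) (nat_lit 25) (nat_lit 5) (nat_lit 26) (nat_lit 5) (nat_lit 27) (nat_lit 4) (nat_lit 513) (nat_lit 344) (nat_lit 283)) (XT.lf (nat_lit 0) (nat_lit 1026895804) (nat_lit 152) (nat_lit 962191627) (nat_lit 76) (nat_lit 18526654440) (nat_lit 24) (nat_lit 5) (nat_lit 26) (nat_lit 5) (nat_lit 25) (nat_lit 5) (nat_lit 514) (nat_lit 344)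 (nat_lit 282))) (XT.nd (nat_lit 78) (nat_lit 0) (nat_lit 0) (XT.lf (nat_lit 0) (nat_lit 4795497309) (nat_lit 228) (nat_lit 14017377341) (nat_lit 76) (nat_lit 2024145434) (nat_lit 22) (nat_lit 5) (nat_lit 25) (nat_lit 5) (nat_lit 23) (nat_lit 4) (nat_lit 515) (nat_lit 344) (nat_lit 281)) (XT.lf (nat_lit 0) (nat_lit 8627293963) (nat_lit 228) (nat_lit 6464423195) (nat_lit 76) (nat_lit 6073257685) (nat_lit 22) (nat_lit 5) (nat_lit 25) (nat_lit 5) (nat_lit 23) (nat_lit 4) (nat_lit 516) (nat_lit 344) (nat_lit 280))))) (XT.nd (nat_lit 234) (nat_lit 304) (nat_lit 0) (XT.nd (nat_lit 78) (nat_lit 0) (nat_lit 0) (XT.lf (nat_lit 0) (nat_lit 1199667508) (nat_lit 76) (nat_lit 11312623355) (nat_lit 152) (nat_lit 8987673847) (nat_lit 21) (nat_lit 5) (nat_lit 22) (nat_lit 5) (nat_lit 23) (nat_lit 4) (nat_lit 517) (nat_lit 344) (nat_lit 279)) (XT.nd (nat_lit 78) (nat_lit 0) (nat_lit 0) (XT.lf (nat_lit 0) (nat_lit 9049376764) (nat_lit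 76) (nat_lit 7438019164) (nat_lit 152) (nat_lit 5354017437) (nat_lit 21) (nat_lit 5) (nat_lit 22) (nat_lit 5) (nat_lit 23) (nat_lit 4) (nat_lit 518) (nat_lit 344) (nat_lit 278)) (XT.lf (nat_lit 0) (nat_lit 17001874107) (nat_lit 76) (nat_lit 3509764815) (nat_lit 152) (nat_lit 1678666368) (nat_lit 21) (nat_lit 5) (nat_lit 22) (nat_lit 5) (nat_lit 23) (nat_lit 4) (nat_lit 519) (nat_lit 344) (nat_lit 277)))) (XT.nd (nat_lit 156) (nat_lit 76) (nat_lit 0) (XT.nd (nat_lit 78) (nat_lit 0) (nat_lit 0) (XT.lf (nat_lit 0) (nat_lit 2032789204) (nat_lit 228) (nat_lit 20015971451) (nat_lit 76) (nat_lit 497357352) (nat_lit 18) (nat_lit 5) (nat_lit 21) (nat_lit 5) (nat_lit 19) (nat_lit 4) (nat_lit 520) (nat_lit 344) (nat_lit 276)) (XT.lf (nat_lit 0) (nat_lit 5824425948) (nat_lit 228) (nat_lit 12523160153) (nat_lit 76) (nat_lit 4560676980) (nat_lit 18) (nat_lit 5) (nat_lit 21) (nat_lit 5) (nat_lit 19) (nat_lit 4) (nat_lit 521)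 (nat_lit 344) (nat_lit 275))) (XT.nd (nat_lit 78) (nat_lit 76) (nat_lit 0) (XT.lf (nat_lit 0) (nat_lit 9662598599) (nat_lit 228) (nat_lit 4933085639) (nat_lit 76) (nat_lit 8682559236) (nat_lit 18) (nat_lit 5) (nat_lit 21) (nat_lit 5) (nat_lit 19) (nat_lit 4) (nat_lit 522) (nat_lit 344) (nat_lit 274)) (XT.lf (nat_lit 0) (nat_lit 2793870708) (nat_lit 76) (nat_lit 10773081276) (nat_lit 152) (nat_lit 10088889498) (nat_lit 17) (nat_lit 5) (nat_lit 18) (nat_lit 5) (nat_lit 19) (nat_lit 4) (nat_lit 523) (nat_lit 344) (nat_lit 273))))))))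
noncomputable def xc30 : XT := (XT.nd (nat_lit 55146) (nat_lit 0) (nat_lit 2128) (XT.nd (nat_lit 54054) (nat_lit 0) (nat_lit 6536) (XT.nd (nat_lit 546) (nat_lit 0) (nat_lit 0) (XT.nd (nat_lit 234) (nat_lit 76) (nat_lit 0) (XT.nd (nat_lit 78) (nat_lit 228) (nat_lit 0) (XT.lf (nat_lit 0) (nat_lit 10691012903) (nat_lit 76) (nat_lit 6862991366) (nat_lit 152) (nat_lit 6486901172) (nat_lit 17) (nat_lit 5) (nat_lit 18) (nat_lit 5) (nat_lit 19) (nat_lit 4) (nat_lit 524) (nat_lit 344) (nat_lit 272)) (XT.nd (nat_lit 78) (nat_lit 228) (nat_lit 0) (XT.lf (nat_lit 0) (nat_lit 18695879755) (nat_lit 76) (nat_lit 2896984741) (nat_lit 152) (nat_lit 2841370955) (nat_lit 17) (nat_lit 5) (nat_lit 18) (nat_lit 5) (nat_lit 19) (nat_lit 4) (nat_lit 525) (nat_lit 344) (nat_lit 271)) (XT.lf (nat_lit 0) (nat_lit 858391824) (nat_lit 228) (nat_lit 22846759264) (nat_lit 76) (nat_lit 1130316452) (nat_lit 14) (nat_lit 5) (nat_lit 17) (nat_lit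 5) (nat_lit 15) (nat_lit 4) (nat_lit 526) (nat_lit 344) (nat_lit 270)))) (XT.nd (nat_lit 156) (nat_lit 76) (nat_lit 0) (XT.nd (nat_lit 78) (nat_lit 0) (nat_lit 0) (XT.lf (nat_lit 0) (nat_lit 4624592850) (nat_lit 228) (nat_lit 15383802932) (nat_lit 76) (nat_lit 5235348838) (nat_lit 14) (nat_lit 5) (nat_lit 17) (nat_lit 5) (nat_lit 15) (nat_lit 4) (nat_lit 527) (nat_lit 344) (nat_lit 269)) (XT.lf (nat_lit 0) (nat_lit 8439162653) (nat_lit 228) (nat_lit 7820303047) (nat_lit 76) (nat_lit 9401266286) (nat_lit 14) (nat_lit 5) (nat_lit 17) (nat_lit 5) (nat_lit 15) (nat_lit 4) (nat_lit 528) (nat_lit 344) (nat_lit 268))) (XT.nd (nat_lit 78) (nat_lit 76) (nat_lit 0) (XT.lf (nat_lit 0) (nat_lit 12303597142) (nat_lit 228) (nat_lit 153293533) (nat_lit 76) (nat_lit 13629702490) (nat_lit 14) (nat_lit 5) (nat_lit 17) (nat_lit 5) (nat_lit 15) (nat_lit 4) (nat_lit 529) (nat_lit 344) (nat_lit 267)) (XT.lf (nat_lit 0) (nat_lit 7721501158)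 (nat_lit 76) (nat_lit 8548043732) (nat_lit 152) (nat_lit 10250947610) (nat_lit 13) (nat_lit 5) (nat_lit 14) (nat_lit 5) (nat_lit 15) (nat_lit 4) (nat_lit 530) (nat_lit 344) (nat_lit 266))))) (XT.nd (nat_lit 53196) (nat_lit 0) (nat_lit 10108) (XT.nd (nat_lit 53040) (nat_lit 0) (nat_lit 11552) (XT.lf (nat_lit 0) (nat_lit 15709353840) (nat_lit 76) (nat_lit 4580783893) (nat_lit 152) (nat_lit 6673430881) (nat_lit 13) (nat_lit 5) (nat_lit 14) (nat_lit 5) (nat_lit 15) (nat_lit 4) (nat_lit 531) (nat_lit 344) (nat_lit 265)) (XT.nd (nat_lit 78) (nat_lit 456) (nat_lit 0) (XT.lf (nat_lit 0) (nat_lit 2099267362) (nat_lit 532) (nat_lit 362111291) (nat_lit 0) (nat_lit 2099267362) (nat_lit 171) (nat_lit 5) (nat_lit 178) (nat_lit 4) (nat_lit 171) (nat_lit 4) (nat_lit 450) (nat_lit 345) (nat_lit 345)) (XT.lf (nat_lit 0) (nat_lit 5932069523) (nat_lit 456) (nat_lit 2112037482) (nat_lit 456) (nat_lit 1162101998) (nat_lit 165) (nat_lit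 4) (nat_lit 171) (nat_lit 5) (nat_lit 171) (nat_lit 4) (nat_lit 451) (nat_lit 345) (nat_lit 344)))) (XT.nd (nat_lit 156) (nat_lit 456) (nat_lit 0) (XT.nd (nat_lit 78) (nat_lit 456) (nat_lit 0) (XT.lf (nat_lit 0) (nat_lit 2608404871) (nat_lit 532) (nat_lit 5920667916) (nat_lit 0) (nat_lit 764047240) (nat_lit 158) (nat_lit 5) (nat_lit 165) (nat_lit 4) (nat_lit 158) (nat_lit 4) (nat_lit 452) (nat_lit 345) (nat_lit 343)) (XT.lf (nat_lit 0) (nat_lit 714141357) (nat_lit 456) (nat_lit 5703715858) (nat_lit 456) (nat_lit 2964212803) (nat_lit 152) (nat_lit 4) (nat_lit 158) (nat_lit 5) (nat_lit 158) (nat_lit 4) (nat_lit 453) (nat_lit 345) (nat_lit 342))) (XT.nd (nat_lit 78) (nat_lit 380) (nat_lit 0) (XT.lf (nat_lit 0) (nat_lit 798339137) (nat_lit 532) (nat_lit 2004451548) (nat_lit 76) (nat_lit 6670364653) (nat_lit 151) (nat_lit 5) (nat_lit 158) (nat_lit 5) (nat_lit 152) (nat_lit 4) (nat_lit 454) (nat_lit 345) (nat_lit 341))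 (XT.lf (nat_lit 0) (nat_lit 4568235591) (nat_lit 456) (nat_lit 4819486498) (nat_lit 0) (nat_lit 178546921) (nat_lit 146) (nat_lit 5) (nat_lit 152) (nat_lit 4) (nat_lit 146) (nat_lit 4) (nat_lit 455) (nat_lit 345) (nat_lit 340)))))) (XT.nd (nat_lit 546) (nat_lit 1444) (nat_lit 0) (XT.nd (nat_lit 234) (nat_lit 1216) (nat_lit 0) (XT.nd (nat_lit 78) (nat_lit 456) (nat_lit 0) (XT.lf (nat_lit 0) (nat_lit 1918309563) (nat_lit 456) (nat_lit 6479969309) (nat_lit 456) (nat_lit 1263304634) (nat_lit 140) (nat_lit 4) (nat_lit 146) (nat_lit 5) (nat_lit 146) (nat_lit 4) (nat_lit 456) (nat_lit 345) (nat_lit 339)) (XT.nd (nat_lit 78) (nat_lit 380) (nat_lit 0) (XT.lf (nat_lit 0) (nat_lit 2485658082) (nat_lit 532) (nat_lit 1006396138) (nat_lit 76) (nat_lit 6266993036) (nat_lit 139) (nat_lit 5) (nat_lit 146) (nat_lit 5) (nat_lit 140) (nat_lit 4) (nat_lit 457) (nat_lit 345) (nat_lit 338)) (XT.lf (nat_lit 0) (nat_lit 5847579981) (nat_lit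 380) (nat_lit 424632377) (nat_lit 456) (nat_lit 3586521949) (nat_lit 134) (nat_lit 5) (nat_lit 139) (nat_lit 5) (nat_lit 140) (nat_lit 4) (nat_lit 458) (nat_lit 345) (nat_lit 337)))) (XT.nd (nat_lit 156) (nat_lit 760) (nat_lit 0) (XT.nd (nat_lit 78) (nat_lit 0) (nat_lit 0) (XT.lf (nat_lit 0) (nat_lit 156323234) (nat_lit 456) (nat_lit 7136743677) (nat_lit 76) (nat_lit 2667665477) (nat_lit 128) (nat_lit 5) (nat_lit 134) (nat_lit 5) (nat_lit 129) (nat_lit 4) (nat_lit 459) (nat_lit 345) (nat_lit 336)) (XT.lf (nat_lit 0) (nat_lit 3898082938) (nat_lit 456) (nat_lit 327406722) (nat_lit 76) (nat_lit 5839394784) (nat_lit 128) (nat_lit 5) (nat_lit 134) (nat_lit 5) (nat_lit 129) (nat_lit 4) (nat_lit 460) (nat_lit 345) (nat_lit 335))) (XT.nd (nat_lit 78) (nat_lit 456) (nat_lit 0) (XT.lf (nat_lit 0) (nat_lit 6619998959) (nat_lit 304) (nat_lit 1080923933) (nat_lit 380) (nat_lit 2470500937) (nat_lit 124) (nat_lit 5) (nat_lit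 128) (nat_lit 5) (nat_lit 129) (nat_lit 4) (nat_lit 461) (nat_lit 345) (nat_lit 334)) (XT.lf (nat_lit 0) (nat_lit 1264111083) (nat_lit 456) (nat_lit 6912963909) (nat_lit 76) (nat_lit 2103249661) (nat_lit 118) (nat_lit 5) (nat_lit 124) (nat_lit 5) (nat_lit 119) (nat_lit 4) (nat_lit 462) (nat_lit 345) (nat_lit 333))))) (XT.nd (nat_lit 234) (nat_lit 684) (nat_lit 0) (XT.nd (nat_lit 78) (nat_lit 760) (nat_lit 0) (XT.lf (nat_lit 0) (nat_lit 5015316807) (nat_lit 456) (nat_lit 27504872) (nat_lit 76) (nat_lit 5348783089) (nat_lit 118) (nat_lit 5) (nat_lit 124) (nat_lit 5) (nat_lit 119) (nat_lit 4) (nat_lit 463) (nat_lit 345) (nat_lit 332)) (XT.nd (nat_lit 78) (nat_lit 456) (nat_lit 0) (XT.lf (nat_lit 0) (nat_lit 7003631554) (nat_lit 304) (nat_lit 1828291583) (nat_lit 380) (nat_lit 1673406787) (nat_lit 114) (nat_lit 5) (nat_lit 118) (nat_lit 5) (nat_lit 119) (nat_lit 4) (nat_lit 464) (nat_lit 345) (nat_lit 331)) (XT.lf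 (nat_lit 0) (nat_lit 2053397952) (nat_lit 456) (nat_lit 7128566940) (nat_lit 76) (nat_lit 1439568377) (nat_lit 108) (nat_lit 5) (nat_lit 114) (nat_lit 5) (nat_lit 109) (nat_lit 4) (nat_lit 465) (nat_lit 345) (nat_lit 330)))) (XT.nd (nat_lit 156) (nat_lit 380) (nat_lit 0) (XT.nd (nat_lit 78) (nat_lit 304) (nat_lit 0) (XT.lf (nat_lit 0) (nat_lit 5813516528) (nat_lit 456) (nat_lit 172406764) (nat_lit 76) (nat_lit 4754317881) (nat_lit 108) (nat_lit 5) (nat_lit 114) (nat_lit 5) (nat_lit 109) (nat_lit 4) (nat_lit 466) (nat_lit 345) (nat_lit 329)) (XT.lf (nat_lit 0) (nat_lit 6930972523) (nat_lit 304) (nat_lit 2709337940) (nat_lit 380) (nat_lit 1221208227) (nat_lit 104) (nat_lit 5) (nat_lit 108) (nat_lit 5) (nat_lit 109) (nat_lit 4) (nat_lit 467) (nat_lit 345) (nat_lit 328))) (XT.nd (nat_lit 78) (nat_lit 0) (nat_lit 0) (XT.lf (nat_lit 0) (nat_lit 2497165431) (nat_lit 380) (nat_lit 7854657167) (nat_lit 76) (nat_lit 633644864)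 (nat_lit 99) (nat_lit 5) (nat_lit 104) (nat_lit 5) (nat_lit 100) (nat_lit 4) (nat_lit 468) (nat_lit 345) (nat_lit 327)) (XT.lf (nat_lit 0) (nat_lit 6264995526) (nat_lit 380) (nat_lit 834235678) (nat_lit 76) (nat_lit 4012697220) (nat_lit 99) (nat_lit 5) (nat_lit 104) (nat_lit 5) (nat_lit 100) (nat_lit 4) (nat_lit 469) (nat_lit 345) (nat_lit 326))))))) (XT.nd (nat_lit 1092) (nat_lit 1748) (nat_lit 0) (XT.nd (nat_lit 546) (nat_lit 1140) (nat_lit 0) (XT.nd (nat_lit 234) (nat_lit 836) (nat_lit 0) (XT.nd (nat_lit 78) (nat_lit 380) (nat_lit 0) (XT.lf (nat_lit 0) (nat_lit 6327882932) (nat_lit 304) (nat_lit 3769356957) (nat_lit 380) (nat_lit 1143920578) (nat_lit 95) (nat_lit 5) (nat_lit 99) (nat_lit 5) (nat_lit 100) (nat_lit 4) (nat_lit 470) (nat_lit 345) (nat_lit 325)) (XT.nd (nat_lit 78) (nat_lit 0) (nat_lit 0) (XT.lf (nat_lit 0) (nat_lit 2201550573) (nat_lit 304) (nat_lit 365098776) (nat_lit 380) (nat_lit 8806647370)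 (nat_lit 90) (nat_lit 5) (nat_lit 94) (nat_lit 5) (nat_lit 95) (nat_lit 5) (nat_lit 471) (nat_lit 345) (nat_lit 324)) (XT.lf (nat_lit 0) (nat_lit 6337888850) (nat_lit 380) (nat_lit 2092302324) (nat_lit 76) (nat_lit 3077719476) (nat_lit 90) (nat_lit 5) (nat_lit 95) (nat_lit 5) (nat_lit 91) (nat_lit 4) (nat_lit 472) (nat_lit 345) (nat_lit 323)))) (XT.nd (nat_lit 156) (nat_lit 228) (nat_lit 0) (XT.nd (nat_lit 78) (nat_lit 380) (nat_lit 0) (XT.lf (nat_lit 0) (nat_lit 5112785460) (nat_lit 228) (nat_lit 5056790591) (nat_lit 304) (nat_lit 1475961615) (nat_lit 87) (nat_lit 5) (nat_lit 90) (nat_lit 5) (nat_lit 91) (nat_lit 4) (nat_lit 473) (nat_lit 345) (nat_lit 322)) (XT.lf (nat_lit 0) (nat_lit 617076162) (nat_lit 304) (nat_lit 1612512969) (nat_lit 380) (nat_lit 9556697525) (nat_lit 82) (nat_lit 5) (nat_lit 86) (nat_lit 5) (nat_lit 87) (nat_lit 5) (nat_lit 474) (nat_lit 345) (nat_lit 321))) (XT.nd (nat_lit 78) (nat_lit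 228) (nat_lit 0) (XT.lf (nat_lit 0) (nat_lit 5995776921) (nat_lit 380) (nat_lit 4033960661) (nat_lit 76) (nat_lit 1899812175) (nat_lit 82) (nat_lit 5) (nat_lit 87) (nat_lit 5) (nat_lit 83) (nat_lit 4) (nat_lit 475) (nat_lit 345) (nat_lit 320)) (XT.lf (nat_lit 0) (nat_lit 3195781571) (nat_lit 228) (nat_lit 6623721074) (nat_lit 304) (nat_lit 2256550836) (nat_lit 79) (nat_lit 5) (nat_lit 82) (nat_lit 5) (nat_lit 83) (nat_lit 4) (nat_lit 476) (nat_lit 345) (nat_lit 319))))) (XT.nd (nat_lit 234) (nat_lit 532) (nat_lit 0) (XT.nd (nat_lit 78) (nat_lit 532) (nat_lit 0) (XT.lf (nat_lit 0) (nat_lit 1452764740) (nat_lit 304) (nat_lit 1689622253) (nat_lit 76) (nat_lit 9083362216) (nat_lit 78) (nat_lit 5) (nat_lit 82) (nat_lit 5) (nat_lit 79) (nat_lit 5) (nat_lit 477) (nat_lit 345) (nat_lit 318)) (XT.nd (nat_lit 78) (nat_lit 228) (nat_lit 0) (XT.lf (nat_lit 0) (nat_lit 5197264133) (nat_lit 380) (nat_lit 6755547625) (nat_lit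 76) (nat_lit 425523036) (nat_lit 74) (nat_lit 5) (nat_lit 79) (nat_lit 5) (nat_lit 75) (nat_lit 4) (nat_lit 478) (nat_lit 345) (nat_lit 317)) (XT.lf (nat_lit 0) (nat_lit 477681872) (nat_lit 228) (nat_lit 8526403487) (nat_lit 304) (nat_lit 3530156242) (nat_lit 71) (nat_lit 5) (nat_lit 74) (nat_lit 5) (nat_lit 75) (nat_lit 4) (nat_lit 479) (nat_lit 345) (nat_lit 316)))) (XT.nd (nat_lit 156) (nat_lit 228) (nat_lit 0) (XT.nd (nat_lit 78) (nat_lit 228) (nat_lit 0) (XT.lf (nat_lit 0) (nat_lit 189077313) (nat_lit 304) (nat_lit 4825206614) (nat_lit 76) (nat_lit 7679018052) (nat_lit 70) (nat_lit 5) (nat_lit 74) (nat_lit 5) (nat_lit 71) (nat_lit 5) (nat_lit 480) (nat_lit 345) (nat_lit 315)) (XT.lf (nat_lit 0) (nat_lit 2483061256) (nat_lit 228) (nat_lit 1421677201) (nat_lit 304) (nat_lit 8950969288) (nat_lit 67) (nat_lit 5) (nat_lit 70) (nat_lit 5) (nat_lit 71) (nat_lit 5) (nat_lit 481) (nat_lit 345) (nat_lit 314))) (XT.nd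 (nat_lit 78) (nat_lit 228) (nat_lit 0) (XT.lf (nat_lit 0) (nat_lit 7695242581) (nat_lit 304) (nat_lit 3109733190) (nat_lit 76) (nat_lit 2216392026) (nat_lit 67) (nat_lit 5) (nat_lit 71) (nat_lit 5) (nat_lit 68) (nat_lit 4) (nat_lit 482) (nat_lit 345) (nat_lit 313)) (XT.lf (nat_lit 0) (nat_lit 4269385161) (nat_lit 228) (nat_lit 7283594643) (nat_lit 304) (nat_lit 1637549223) (nat_lit 64) (nat_lit 5) (nat_lit 67) (nat_lit 5) (nat_lit 68) (nat_lit 4) (nat_lit 483) (nat_lit 345) (nat_lit 312)))))) (XT.nd (nat_lit 546) (nat_lit 760) (nat_lit 0) (XT.nd (nat_lit 234) (nat_lit 684) (nat_lit 0) (XT.nd (nat_lit 78) (nat_lit 228) (nat_lit 0) (XT.lf (nat_lit 0) (nat_lit 2072318139) (nat_lit 304) (nat_lit 1614107152) (nat_lit 76) (nat_lit 9676880336) (nat_lit 63) (nat_lit 5) (nat_lit 67) (nat_lit 5) (nat_lit 64) (nat_lit 5) (nat_lit 484) (nat_lit 345) (nat_lit 311)) (XT.nd (nat_lit 78) (nat_lit 0) (nat_lit 0) (XT.lf (nat_lit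 0) (nat_lit 5827625112) (nat_lit 304) (nat_lit 7709070344) (nat_lit 76) (nat_lit 2777928) (nat_lit 60) (nat_lit 5) (nat_lit 64) (nat_lit 5) (nat_lit 61) (nat_lit 4) (nat_lit 485) (nat_lit 345) (nat_lit 310)) (XT.lf (nat_lit 0) (nat_lit 9648836855) (nat_lit 304) (nat_lit 372242721) (nat_lit 76) (nat_lit 3698284134) (nat_lit 60) (nat_lit 5) (nat_lit 64) (nat_lit 5) (nat_lit 61) (nat_lit 4) (nat_lit 486) (nat_lit 345) (nat_lit 309)))) (XT.nd (nat_lit 156) (nat_lit 152) (nat_lit 0) (XT.nd (nat_lit 78) (nat_lit 304) (nat_lit 0) (XT.lf (nat_lit 0) (nat_lit 7131824462) (nat_lit 228) (nat_lit 6417307784) (nat_lit 304) (nat_lit 353681296) (nat_lit 57) (nat_lit 5) (nat_lit 60) (nat_lit 5) (nat_lit 61) (nat_lit 4) (nat_lit 487) (nat_lit 345) (nat_lit 308)) (XT.lf (nat_lit 0) (nat_lit 613705307) (nat_lit 228) (nat_lit 2741650205) (nat_lit 304) (nat_lit 10734886040) (nat_lit 53) (nat_lit 5) (nat_lit 56) (nat_lit 5) (nat_lit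 57) (nat_lit 5) (nat_lit 488) (nat_lit 345) (nat_lit 307))) (XT.nd (nat_lit 78) (nat_lit 152) (nat_lit 0) (XT.lf (nat_lit 0) (nat_lit 7142750634) (nat_lit 304) (nat_lit 6125167772) (nat_lit 76) (nat_lit 1013288721) (nat_lit 53) (nat_lit 5) (nat_lit 57) (nat_lit 5) (nat_lit 54) (nat_lit 4) (nat_lit 489) (nat_lit 345) (nat_lit 306)) (XT.lf (nat_lit 0) (nat_lit 1300212347) (nat_lit 152) (nat_lit 9689759817) (nat_lit 228) (nat_lit 3486352034) (nat_lit 51) (nat_lit 5) (nat_lit 53) (nat_lit 5) (nat_lit 54) (nat_lit 4) (nat_lit 490) (nat_lit 345) (nat_lit 305))))) (XT.nd (nat_lit 234) (nat_lit 456) (nat_lit 0) (XT.nd (nat_lit 78) (nat_lit 228) (nat_lit 0) (XT.lf (nat_lit 0) (nat_lit 234595480) (nat_lit 228) (nat_lit 5791231609) (nat_lit 76) (nat_lit 8649520077) (nat_lit 50) (nat_lit 5) (nat_lit 53) (nat_lit 5) (nat_lit 51) (nat_lit 5) (nat_lit 491) (nat_lit 345) (nat_lit 304)) (XT.nd (nat_lit 78) (nat_lit 0) (nat_lit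 0) (XT.lf (nat_lit 0) (nat_lit 1669550570) (nat_lit 228) (nat_lit 2283002288) (nat_lit 304) (nat_lit 10925964336) (nat_lit 47) (nat_lit 5) (nat_lit 50) (nat_lit 5) (nat_lit 51) (nat_lit 5) (nat_lit 492) (nat_lit 345) (nat_lit 303)) (XT.lf (nat_lit 0) (nat_lit 7752515745) (nat_lit 304) (nat_lit 5807934170) (nat_lit 76) (nat_lit 1525160487) (nat_lit 47) (nat_lit 5) (nat_lit 51) (nat_lit 5) (nat_lit 48) (nat_lit 4) (nat_lit 493) (nat_lit 345) (nat_lit 302)))) (XT.nd (nat_lit 156) (nat_lit 228) (nat_lit 0) (XT.nd (nat_lit 78) (nat_lit 76) (nat_lit 0) (XT.lf (nat_lit 0) (nat_lit 1678613724) (nat_lit 152) (nat_lit 9935257185) (nat_lit 228) (nat_lit 3683279162) (nat_lit 45) (nat_lit 5) (nat_lit 47) (nat_lit 5) (nat_lit 48) (nat_lit 4) (nat_lit 494) (nat_lit 345) (nat_lit 301)) (XT.lf (nat_lit 0) (nat_lit 37691844) (nat_lit 228) (nat_lit 6188530819) (nat_lit 76) (nat_lit 9286731156) (nat_lit 44) (nat_lit 5) (nat_lit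 47) (nat_lit 5) (nat_lit 45) (nat_lit 5) (nat_lit 495) (nat_lit 345) (nat_lit 300))) (XT.nd (nat_lit 78) (nat_lit 0) (nat_lit 0) (XT.lf (nat_lit 0) (nat_lit 1314793002) (nat_lit 228) (nat_lit 2437793238) (nat_lit 304) (nat_lit 11980635750) (nat_lit 41) (nat_lit 5) (nat_lit 44) (nat_lit 5) (nat_lit 45) (nat_lit 5) (nat_lit 496) (nat_lit 345) (nat_lit 299)) (XT.lf (nat_lit 0) (nat_lit 7553240107) (nat_lit 304) (nat_lit 6982831803) (nat_lit 76) (nat_lit 1421605893) (nat_lit 41) (nat_lit 5) (nat_lit 45) (nat_lit 5) (nat_lit 42) (nat_lit 4) (nat_lit 497) (nat_lit 345) (nat_lit 298))))))))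
noncomputable def xc31 : XT := (XT.nd (nat_lit 2184) (nat_lit 304) (nat_lit 0) (XT.nd (nat_lit 1092) (nat_lit 684) (nat_lit 0) (XT.nd (nat_lit 546) (nat_lit 532) (nat_lit 0) (XT.nd (nat_lit 234) (nat_lit 380) (nat_lit 0) (XT.nd (nat_lit 78) (nat_lit 76) (nat_lit 0) (XT.lf (nat_lit 0) (nat_lit 525259996) (nat_lit 152) (nat_lit 10885375337) (nat_lit 228) (nat_lit 4776384114) (nat_lit 39) (nat_lit 5) (nat_lit 41) (nat_lit 5) (nat_lit 42) (nat_lit 4) (nat_lit 498) (nat_lit 345) (nat_lit 297)) (XT.nd (nat_lit 78) (nat_lit 76) (nat_lit 0) (XT.lf (nat_lit 0) (nat_lit 8211646410) (nat_lit 152) (nat_lit 7141893554) (nat_lit 228) (nat_lit 1067251792) (nat_lit 39) (nat_lit 5) (nat_lit 41) (nat_lit 5) (nat_lit 42) (nat_lit 4) (nat_lit 499) (nat_lit 345) (nat_lit 296)) (XT.lf (nat_lit 0) (nat_lit 2642438732) (nat_lit 228) (nat_lit 690846117) (nat_lit 76) (nat_lit 13326372661) (nat_lit 38) (nat_lit 5) (nat_lit 41) (nat_lit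 5) (nat_lit 39) (nat_lit 5) (nat_lit 500) (nat_lit 345) (nat_lit 295)))) (XT.nd (nat_lit 156) (nat_lit 228) (nat_lit 0) (XT.nd (nat_lit 78) (nat_lit 0) (nat_lit 0) (XT.lf (nat_lit 0) (nat_lit 6423976402) (nat_lit 228) (nat_lit 9908669354) (nat_lit 76) (nat_lit 570285279) (nat_lit 36) (nat_lit 5) (nat_lit 39) (nat_lit 5) (nat_lit 37) (nat_lit 4) (nat_lit 501) (nat_lit 345) (nat_lit 294)) (XT.lf (nat_lit 0) (nat_lit 10270767651) (nat_lit 228) (nat_lit 2395239606) (nat_lit 76) (nat_lit 4485280537) (nat_lit 36) (nat_lit 5) (nat_lit 39) (nat_lit 5) (nat_lit 37) (nat_lit 4) (nat_lit 502) (nat_lit 345) (nat_lit 293))) (XT.nd (nat_lit 78) (nat_lit 76) (nat_lit 0) (XT.lf (nat_lit 0) (nat_lit 5274305638) (nat_lit 152) (nat_lit 8918042639) (nat_lit 228) (nat_lit 3212316358) (nat_lit 34) (nat_lit 5) (nat_lit 36) (nat_lit 5) (nat_lit 37) (nat_lit 4) (nat_lit 503) (nat_lit 345) (nat_lit 292)) (XT.lf (nat_lit 0) (nat_lit 502155720)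 (nat_lit 228) (nat_lit 4600022792) (nat_lit 76) (nat_lit 12561274497) (nat_lit 33) (nat_lit 5) (nat_lit 36) (nat_lit 5) (nat_lit 34) (nat_lit 5) (nat_lit 504) (nat_lit 345) (nat_lit 291))))) (XT.nd (nat_lit 234) (nat_lit 228) (nat_lit 0) (XT.nd (nat_lit 78) (nat_lit 152) (nat_lit 0) (XT.lf (nat_lit 0) (nat_lit 3037322295) (nat_lit 152) (nat_lit 1194720666) (nat_lit 228) (nat_lit 13695276189) (nat_lit 31) (nat_lit 5) (nat_lit 33) (nat_lit 5) (nat_lit 34) (nat_lit 5) (nat_lit 505) (nat_lit 345) (nat_lit 290)) (XT.nd (nat_lit 78) (nat_lit 152) (nat_lit 0) (XT.lf (nat_lit 0) (nat_lit 8050225324) (nat_lit 228) (nat_lit 7386695630) (nat_lit 76) (nat_lit 2759276969) (nat_lit 31) (nat_lit 5) (nat_lit 34) (nat_lit 5) (nat_lit 32) (nat_lit 4) (nat_lit 506) (nat_lit 345) (nat_lit 289)) (XT.lf (nat_lit 0) (nat_lit 200313695) (nat_lit 152) (nat_lit 11718870352) (nat_lit 228) (nat_lit 6551791043) (nat_lit 29) (nat_lit 5) (nat_lit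 31) (nat_lit 5) (nat_lit 32) (nat_lit 4) (nat_lit 507) (nat_lit 345) (nat_lit 288)))) (XT.nd (nat_lit 156) (nat_lit 152) (nat_lit 0) (XT.nd (nat_lit 78) (nat_lit 76) (nat_lit 0) (XT.lf (nat_lit 0) (nat_lit 7978520590) (nat_lit 152) (nat_lit 7902058492) (nat_lit 228) (nat_lit 2870376474) (nat_lit 29) (nat_lit 5) (nat_lit 31) (nat_lit 5) (nat_lit 32) (nat_lit 4) (nat_lit 508) (nat_lit 345) (nat_lit 287)) (XT.lf (nat_lit 0) (nat_lit 838996364) (nat_lit 228) (nat_lit 3189930727) (nat_lit 76) (nat_lit 15008183562) (nat_lit 28) (nat_lit 5) (nat_lit 31) (nat_lit 5) (nat_lit 29) (nat_lit 5) (nat_lit 509) (nat_lit 345) (nat_lit 286))) (XT.nd (nat_lit 78) (nat_lit 0) (nat_lit 0) (XT.lf (nat_lit 0) (nat_lit 4525803680) (nat_lit 152) (nat_lit 54339612) (nat_lit 228) (nat_lit 14748554062) (nat_lit 26) (nat_lit 5) (nat_lit 28) (nat_lit 5) (nat_lit 29) (nat_lit 5) (nat_lit 510) (nat_lit 345) (nat_lit 285)) (XT.lf (nat_lit 0)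 (nat_lit 8410342382) (nat_lit 228) (nat_lit 7271592867) (nat_lit 76) (nat_lit 3943904172) (nat_lit 26) (nat_lit 5) (nat_lit 29) (nat_lit 5) (nat_lit 27) (nat_lit 4) (nat_lit 511) (nat_lit 345) (nat_lit 284)))))) (XT.nd (nat_lit 546) (nat_lit 304) (nat_lit 0) (XT.nd (nat_lit 234) (nat_lit 304) (nat_lit 0) (XT.nd (nat_lit 78) (nat_lit 0) (nat_lit 0) (XT.lf (nat_lit 0) (nat_lit 356922243) (nat_lit 76) (nat_lit 11930265533) (nat_lit 152) (nat_lit 7642343766) (nat_lit 25) (nat_lit 5) (nat_lit 26) (nat_lit 5) (nat_lit 27) (nat_lit 4) (nat_lit 512) (nat_lit 345) (nat_lit 283)) (XT.nd (nat_lit 78) (nat_lit 0) (nat_lit 0) (XT.lf (nat_lit 0) (nat_lit 8179222889) (nat_lit 76) (nat_lit 8078776014) (nat_lit 152) (nat_lit 3980977927) (nat_lit 25) (nat_lit 5) (nat_lit 26) (nat_lit 5) (nat_lit 27) (nat_lit 4) (nat_lit 513) (nat_lit 345) (nat_lit 282)) (XT.lf (nat_lit 0) (nat_lit 16101740995) (nat_lit 76) (nat_lit 4174752519)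 (nat_lit 152) (nat_lit 278759908) (nat_lit 25) (nat_lit 5) (nat_lit 26) (nat_lit 5) (nat_lit 27) (nat_lit 4) (nat_lit 514) (nat_lit 345) (nat_lit 281)))) (XT.nd (nat_lit 156) (nat_lit 76) (nat_lit 0) (XT.nd (nat_lit 78) (nat_lit 0) (nat_lit 0) (XT.lf (nat_lit 0) (nat_lit 3269475817) (nat_lit 152) (nat_lit 172059835) (nat_lit 228) (nat_lit 17436075105) (nat_lit 22) (nat_lit 5) (nat_lit 24) (nat_lit 5) (nat_lit 25) (nat_lit 5) (nat_lit 515) (nat_lit 345) (nat_lit 280)) (XT.lf (nat_lit 0) (nat_lit 7256757396) (nat_lit 228) (nat_lit 10081616332) (nat_lit 76) (nat_lit 3867526900) (nat_lit 22) (nat_lit 5) (nat_lit 25) (nat_lit 5) (nat_lit 23) (nat_lit 4) (nat_lit 516) (nat_lit 345) (nat_lit 279))) (XT.nd (nat_lit 78) (nat_lit 76) (nat_lit 0) (XT.lf (nat_lit 0) (nat_lit 11118810568) (nat_lit 228) (nat_lit 2460271898) (nat_lit 76) (nat_lit 7962270445) (nat_lit 22) (nat_lit 5) (nat_lit 25) (nat_lit 5) (nat_lit 23) (nat_lit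 4) (nat_lit 517) (nat_lit 345) (nat_lit 278)) (XT.lf (nat_lit 0) (nat_lit 5329906937) (nat_lit 76) (nat_lit 9732790928) (nat_lit 152) (nat_lit 6820731528) (nat_lit 21) (nat_lit 5) (nat_lit 22) (nat_lit 5) (nat_lit 23) (nat_lit 4) (nat_lit 518) (nat_lit 345) (nat_lit 277))))) (XT.nd (nat_lit 234) (nat_lit 76) (nat_lit 0) (XT.nd (nat_lit 78) (nat_lit 228) (nat_lit 0) (XT.lf (nat_lit 0) (nat_lit 13256095749) (nat_lit 76) (nat_lit 5816108083) (nat_lit 152) (nat_lit 3160415632) (nat_lit 21) (nat_lit 5) (nat_lit 22) (nat_lit 5) (nat_lit 23) (nat_lit 4) (nat_lit 519) (nat_lit 345) (nat_lit 276)) (XT.nd (nat_lit 78) (nat_lit 152) (nat_lit 0) (XT.lf (nat_lit 0) (nat_lit 536205157) (nat_lit 152) (nat_lit 1304204318) (nat_lit 76) (nat_lit 20748903751) (nat_lit 20) (nat_lit 5) (nat_lit 22) (nat_lit 5) (nat_lit 21) (nat_lit 5) (nat_lit 520) (nat_lit 345) (nat_lit 275)) (XT.lf (nat_lit 0) (nat_lit 4292752247) (nat_lit 228)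 (nat_lit 16432240204) (nat_lit 76) (nat_lit 2227170850) (nat_lit 18) (nat_lit 5) (nat_lit 21) (nat_lit 5) (nat_lit 19) (nat_lit 4) (nat_lit 521) (nat_lit 345) (nat_lit 274)))) (XT.nd (nat_lit 156) (nat_lit 76) (nat_lit 0) (XT.nd (nat_lit 78) (nat_lit 0) (nat_lit 0) (XT.lf (nat_lit 0) (nat_lit 8116705898) (nat_lit 228) (nat_lit 8867691321) (nat_lit 76) (nat_lit 6338034000) (nat_lit 18) (nat_lit 5) (nat_lit 21) (nat_lit 5) (nat_lit 19) (nat_lit 4) (nat_lit 522) (nat_lit 345) (nat_lit 273)) (XT.lf (nat_lit 0) (nat_lit 11988979425) (nat_lit 228) (nat_lit 1202402219) (nat_lit 76) (nat_lit 10509292265) (nat_lit 18) (nat_lit 5) (nat_lit 21) (nat_lit 5) (nat_lit 19) (nat_lit 4) (nat_lit 523) (nat_lit 345) (nat_lit 272))) (XT.nd (nat_lit 78) (nat_lit 0) (nat_lit 0) (XT.lf (nat_lit 0) (nat_lit 6653900194) (nat_lit 76) (nat_lit 9300392706) (nat_lit 152) (nat_lit 8131882769) (nat_lit 17) (nat_lit 5) (nat_lit 18) (nat_lit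 5) (nat_lit 19) (nat_lit 4) (nat_lit 524) (nat_lit 345) (nat_lit 271)) (XT.lf (nat_lit 0) (nat_lit 14634394016) (nat_lit 76) (nat_lit 5345201982) (nat_lit 152) (nat_lit 4500183785) (nat_lit 17) (nat_lit 5) (nat_lit 18) (nat_lit 5) (nat_lit 19) (nat_lit 4) (nat_lit 525) (nat_lit 345) (nat_lit 270))))))) (XT.nd (nat_lit 53898) (nat_lit 0) (nat_lit 6232) (XT.nd (nat_lit 53352) (nat_lit 0) (nat_lit 10108) (XT.nd (nat_lit 234) (nat_lit 76) (nat_lit 0) (XT.nd (nat_lit 78) (nat_lit 228) (nat_lit 0) (XT.lf (nat_lit 0) (nat_lit 22726229561) (nat_lit 76) (nat_lit 1332327170) (nat_lit 152) (nat_lit 823242089) (nat_lit 17) (nat_lit 5) (nat_lit 18) (nat_lit 5) (nat_lit 19) (nat_lit 4) (nat_lit 526) (nat_lit 345) (nat_lit 269)) (XT.nd (nat_lit 78) (nat_lit 0) (nat_lit 0) (XT.lf (nat_lit 0) (nat_lit 2917486080) (nat_lit 228) (nat_lit 19613369075) (nat_lit 76) (nat_lit 2760055833) (nat_lit 14) (nat_lit 5) (nat_lit 17) (nat_lit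 5) (nat_lit 15) (nat_lit 4) (nat_lit 527) (nat_lit 345) (nat_lit 268)) (XT.lf (nat_lit 0) (nat_lit 6718973353) (nat_lit 228) (nat_lit 12073512936) (nat_lit 76) (nat_lit 6915676454) (nat_lit 14) (nat_lit 5) (nat_lit 17) (nat_lit 5) (nat_lit 15) (nat_lit 4) (nat_lit 528) (nat_lit 345) (nat_lit 267)))) (XT.nd (nat_lit 156) (nat_lit 0) (nat_lit 0) (XT.nd (nat_lit 78) (nat_lit 76) (nat_lit 0) (XT.lf (nat_lit 0) (nat_lit 10570581833) (nat_lit 228) (nat_lit 4429683565) (nat_lit 76) (nat_lit 11134017728) (nat_lit 14) (nat_lit 5) (nat_lit 17) (nat_lit 5) (nat_lit 15) (nat_lit 4) (nat_lit 529) (nat_lit 345) (nat_lit 266)) (XT.lf (nat_lit 0) (nat_lit 3365252510) (nat_lit 76) (nat_lit 11130418896) (nat_lit 152) (nat_lit 12073330850) (nat_lit 13) (nat_lit 5) (nat_lit 14) (nat_lit 5) (nat_lit 15) (nat_lit 4) (nat_lit 530) (nat_lit 345) (nat_lit 265))) (XT.nd (nat_lit 52884) (nat_lit 0) (nat_lit 12540) (XT.lf (nat_lit 0) (nat_lit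 11330529072) (nat_lit 76) (nat_lit 7173260639) (nat_lit 152) (nat_lit 8508540731) (nat_lit 13) (nat_lit 5) (nat_lit 14) (nat_lit 5) (nat_lit 15) (nat_lit 4) (nat_lit 531) (nat_lit 345) (nat_lit 264)) (XT.lf (nat_lit 0) (nat_lit 2117943297) (nat_lit 532) (nat_lit 1180233145) (nat_lit 532) (nat_lit 1180233145) (nat_lit 178) (nat_lit 4) (nat_lit 185) (nat_lit 5) (nat_lit 185) (nat_lit 4) (nat_lit 448) (nat_lit 346) (nat_lit 346))))) (XT.nd (nat_lit 234) (nat_lit 1444) (nat_lit 0) (XT.nd (nat_lit 78) (nat_lit 456) (nat_lit 0) (XT.lf (nat_lit 0) (nat_lit 1373927900) (nat_lit 532) (nat_lit 7259623696) (nat_lit 0) (nat_lit 404993706) (nat_lit 171) (nat_lit 5) (nat_lit 178) (nat_lit 4) (nat_lit 171) (nat_lit 4) (nat_lit 449) (nat_lit 346) (nat_lit 345)) (XT.nd (nat_lit 78) (nat_lit 456) (nat_lit 0) (XT.lf (nat_lit 0) (nat_lit 5136600361) (nat_lit 532) (nat_lit 767597428) (nat_lit 0) (nat_lit 3217730682) (nat_lit 171)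 (nat_lit 5) (nat_lit 178) (nat_lit 4) (nat_lit 171) (nat_lit 4) (nat_lit 450) (nat_lit 346) (nat_lit 344)) (XT.lf (nat_lit 0) (nat_lit 5845028766) (nat_lit 456) (nat_lit 3106315457) (nat_lit 456) (nat_lit 256136479) (nat_lit 165) (nat_lit 4) (nat_lit 171) (nat_lit 5) (nat_lit 171) (nat_lit 4) (nat_lit 451) (nat_lit 346) (nat_lit 343)))) (XT.nd (nat_lit 156) (nat_lit 456) (nat_lit 0) (XT.nd (nat_lit 78) (nat_lit 456) (nat_lit 0) (XT.lf (nat_lit 0) (nat_lit 3238902538) (nat_lit 456) (nat_lit 227498376) (nat_lit 532) (nat_lit 5828612889) (nat_lit 158) (nat_lit 5) (nat_lit 164) (nat_lit 5) (nat_lit 165) (nat_lit 4) (nat_lit 452) (nat_lit 346) (nat_lit 342)) (XT.lf (nat_lit 0) (nat_lit 534908617) (nat_lit 456) (nat_lit 6708378107) (nat_lit 456) (nat_lit 2141346015) (nat_lit 152) (nat_lit 4) (nat_lit 158) (nat_lit 5) (nat_lit 158) (nat_lit 4) (nat_lit 453) (nat_lit 346) (nat_lit 341))) (XT.nd (nat_lit 78) (nat_lit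 380) (nat_lit 0) (XT.lf (nat_lit 0) (nat_lit 1580584914) (nat_lit 532) (nat_lit 2234636400) (nat_lit 76) (nat_lit 5661003403) (nat_lit 151) (nat_lit 5) (nat_lit 158) (nat_lit 5) (nat_lit 152) (nat_lit 4) (nat_lit 454) (nat_lit 346) (nat_lit 340)) (XT.lf (nat_lit 0) (nat_lit 4471973178) (nat_lit 380) (nat_lit 846297430) (nat_lit 456) (nat_lit 4251728594) (nat_lit 146) (nat_lit 5) (nat_lit 151) (nat_lit 5) (nat_lit 152) (nat_lit 4) (nat_lit 455) (nat_lit 346) (nat_lit 339)))))) (XT.nd (nat_lit 546) (nat_lit 1748) (nat_lit 0) (XT.nd (nat_lit 234) (nat_lit 1216) (nat_lit 0) (XT.nd (nat_lit 78) (nat_lit 456) (nat_lit 0) (XT.lf (nat_lit 0) (nat_lit 1598636257) (nat_lit 456) (nat_lit 7513080214) (nat_lit 456) (nat_lit 554345450) (nat_lit 140) (nat_lit 4) (nat_lit 146) (nat_lit 5) (nat_lit 146) (nat_lit 4) (nat_lit 456) (nat_lit 346) (nat_lit 338)) (XT.nd (nat_lit 78) (nat_lit 380) (nat_lit 0) (XT.lf (nat_lit 0) (nat_lit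 3156381403) (nat_lit 532) (nat_lit 1377707847) (nat_lit 76) (nat_lit 5229938756) (nat_lit 139) (nat_lit 5) (nat_lit 146) (nat_lit 5) (nat_lit 140) (nat_lit 4) (nat_lit 457) (nat_lit 346) (nat_lit 337)) (XT.lf (nat_lit 0) (nat_lit 5429056760) (nat_lit 380) (nat_lit 1482791260) (nat_lit 456) (nat_lit 2952504125) (nat_lit 134) (nat_lit 5) (nat_lit 139) (nat_lit 5) (nat_lit 140) (nat_lit 4) (nat_lit 458) (nat_lit 346) (nat_lit 336)))) (XT.nd (nat_lit 156) (nat_lit 760) (nat_lit 0) (XT.nd (nat_lit 78) (nat_lit 0) (nat_lit 0) (XT.lf (nat_lit 0) (nat_lit 743697592) (nat_lit 456) (nat_lit 7612313452) (nat_lit 76) (nat_lit 1611038156) (nat_lit 128) (nat_lit 5) (nat_lit 134) (nat_lit 5) (nat_lit 129) (nat_lit 4) (nat_lit 459) (nat_lit 346) (nat_lit 335)) (XT.lf (nat_lit 0) (nat_lit 4457369986) (nat_lit 456) (nat_lit 845026244) (nat_lit 76) (nat_lit 4769381223) (nat_lit 128) (nat_lit 5) (nat_lit 134) (nat_lit 5) (nat_lit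 129) (nat_lit 4) (nat_lit 460) (nat_lit 346) (nat_lit 334))) (XT.nd (nat_lit 78) (nat_lit 456) (nat_lit 0) (XT.lf (nat_lit 0) (nat_lit 6053727442) (nat_lit 304) (nat_lit 2175269309) (nat_lit 380) (nat_lit 1949958518) (nat_lit 124) (nat_lit 5) (nat_lit 128) (nat_lit 5) (nat_lit 129) (nat_lit 4) (nat_lit 461) (nat_lit 346) (nat_lit 333)) (XT.lf (nat_lit 0) (nat_lit 1739100642) (nat_lit 456) (nat_lit 7540606949) (nat_lit 76) (nat_lit 1008869040) (nat_lit 118) (nat_lit 5) (nat_lit 124) (nat_lit 5) (nat_lit 119) (nat_lit 4) (nat_lit 462) (nat_lit 346) (nat_lit 332))))) (XT.nd (nat_lit 312) (nat_lit 988) (nat_lit 0) (XT.nd (nat_lit 156) (nat_lit 456) (nat_lit 0) (XT.nd (nat_lit 78) (nat_lit 304) (nat_lit 0) (XT.lf (nat_lit 0) (nat_lit 5463031253) (nat_lit 456) (nat_lit 696675475) (nat_lit 76) (nat_lit 4240708871) (nat_lit 118) (nat_lit 5) (nat_lit 124) (nat_lit 5) (nat_lit 119) (nat_lit 4) (nat_lit 463) (nat_lit 346)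 (nat_lit 331)) (XT.lf (nat_lit 0) (nat_lit 6284313670) (nat_lit 304) (nat_lit 2963913316) (nat_lit 380) (nat_lit 1266555069) (nat_lit 114) (nat_lit 5) (nat_lit 118) (nat_lit 5) (nat_lit 119) (nat_lit 4) (nat_lit 464) (nat_lit 346) (nat_lit 330))) (XT.nd (nat_lit 78) (nat_lit 0) (nat_lit 0) (XT.lf (nat_lit 0) (nat_lit 2415685506) (nat_lit 456) (nat_lit 7913618983) (nat_lit 76) (nat_lit 302425224) (nat_lit 108) (nat_lit 5) (nat_lit 114) (nat_lit 5) (nat_lit 109) (nat_lit 4) (nat_lit 465) (nat_lit 346) (nat_lit 329)) (XT.lf (nat_lit 0) (nat_lit 6149305328) (nat_lit 456) (nat_lit 998451402) (nat_lit 76) (nat_lit 3603223196) (nat_lit 108) (nat_lit 5) (nat_lit 114) (nat_lit 5) (nat_lit 109) (nat_lit 4) (nat_lit 466) (nat_lit 346) (nat_lit 328)))) (XT.nd (nat_lit 156) (nat_lit 304) (nat_lit 0) (XT.nd (nat_lit 78) (nat_lit 380) (nat_lit 0) (XT.lf (nat_lit 0) (nat_lit 6053227280) (nat_lit 304) (nat_lit 3891193907) (nat_lit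 380) (nat_lit 928481909) (nat_lit 104) (nat_lit 5) (nat_lit 108) (nat_lit 5) (nat_lit 109) (nat_lit 4) (nat_lit 467) (nat_lit 346) (nat_lit 327)) (XT.lf (nat_lit 0) (nat_lit 2191375152) (nat_lit 304) (nat_lit 558470599) (nat_lit 380) (nat_lit 8247703865) (nat_lit 99) (nat_lit 5) (nat_lit 103) (nat_lit 5) (nat_lit 104) (nat_lit 5) (nat_lit 468) (nat_lit 346) (nat_lit 326))) (XT.nd (nat_lit 78) (nat_lit 304) (nat_lit 0) (XT.lf (nat_lit 0) (nat_lit 6488293871) (nat_lit 380) (nat_lit 1822573860) (nat_lit 76) (nat_lit 2813741879) (nat_lit 99) (nat_lit 5) (nat_lit 104) (nat_lit 5) (nat_lit 100) (nat_lit 4) (nat_lit 469) (nat_lit 346) (nat_lit 325)) (XT.lf (nat_lit 0) (nat_lit 5286229507) (nat_lit 304) (nat_lit 5002294629) (nat_lit 380) (nat_lit 965968970) (nat_lit 95) (nat_lit 5) (nat_lit 99) (nat_lit 5) (nat_lit 100) (nat_lit 4) (nat_lit 470) (nat_lit 346) (nat_lit 324))))))))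
noncomputable def xc32 : XT := (XT.nd (nat_lit 2184) (nat_lit 1824) (nat_lit 0) (XT.nd (nat_lit 1092) (nat_lit 1672) (nat_lit 0) (XT.nd (nat_lit 546) (nat_lit 1140) (nat_lit 0) (XT.nd (nat_lit 234) (nat_lit 684) (nat_lit 0) (XT.nd (nat_lit 78) (nat_lit 228) (nat_lit 0) (XT.lf (nat_lit 0) (nat_lit 1091107099) (nat_lit 304) (nat_lit 1618762166) (nat_lit 380) (nat_lit 8677395677) (nat_lit 90) (nat_lit 5) (nat_lit 94) (nat_lit 5) (nat_lit 95) (nat_lit 5) (nat_lit 471) (nat_lit 346) (nat_lit 323)) (XT.nd (nat_lit 78) (nat_lit 228) (nat_lit 0) (XT.lf (nat_lit 0) (nat_lit 6447924322) (nat_lit 380) (nat_lit 3248466557) (nat_lit 76) (nat_lit 1826162210) (nat_lit 90) (nat_lit 5) (nat_lit 95) (nat_lit 5) (nat_lit 91) (nat_lit 4) (nat_lit 472) (nat_lit 346) (nat_lit 322)) (XT.lf (nat_lit 0) (nat_lit 3901626713) (nat_lit 228) (nat_lit 6345567410) (nat_lit 304) (nat_lit 1413644650) (nat_lit 87) (nat_lit 5) (nat_lit 90) (nat_lit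 5) (nat_lit 91) (nat_lit 4) (nat_lit 473) (nat_lit 346) (nat_lit 321)))) (XT.nd (nat_lit 156) (nat_lit 304) (nat_lit 0) (XT.nd (nat_lit 78) (nat_lit 304) (nat_lit 0) (XT.lf (nat_lit 0) (nat_lit 2262586690) (nat_lit 304) (nat_lit 657069461) (nat_lit 76) (nat_lit 8882503482) (nat_lit 86) (nat_lit 5) (nat_lit 90) (nat_lit 5) (nat_lit 87) (nat_lit 5) (nat_lit 474) (nat_lit 346) (nat_lit 320)) (XT.lf (nat_lit 0) (nat_lit 5991572894) (nat_lit 380) (nat_lit 5363612531) (nat_lit 76) (nat_lit 590991065) (nat_lit 82) (nat_lit 5) (nat_lit 87) (nat_lit 5) (nat_lit 83) (nat_lit 4) (nat_lit 475) (nat_lit 346) (nat_lit 319))) (XT.nd (nat_lit 78) (nat_lit 76) (nat_lit 0) (XT.lf (nat_lit 0) (nat_lit 1809387905) (nat_lit 228) (nat_lit 7973023746) (nat_lit 304) (nat_lit 2310935836) (nat_lit 79) (nat_lit 5) (nat_lit 82) (nat_lit 5) (nat_lit 83) (nat_lit 4) (nat_lit 476) (nat_lit 346) (nat_lit 318)) (XT.lf (nat_lit 0) (nat_lit 1375261118)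 (nat_lit 304) (nat_lit 3131588016) (nat_lit 76) (nat_lit 7736686946) (nat_lit 78) (nat_lit 5) (nat_lit 82) (nat_lit 5) (nat_lit 79) (nat_lit 5) (nat_lit 477) (nat_lit 346) (nat_lit 317))))) (XT.nd (nat_lit 234) (nat_lit 608) (nat_lit 0) (XT.nd (nat_lit 78) (nat_lit 228) (nat_lit 0) (XT.lf (nat_lit 0) (nat_lit 4126136884) (nat_lit 304) (nat_lit 957723748) (nat_lit 380) (nat_lit 7312988013) (nat_lit 74) (nat_lit 5) (nat_lit 78) (nat_lit 5) (nat_lit 79) (nat_lit 5) (nat_lit 478) (nat_lit 346) (nat_lit 316)) (XT.nd (nat_lit 78) (nat_lit 228) (nat_lit 0) (XT.lf (nat_lit 0) (nat_lit 8858117526) (nat_lit 380) (nat_lit 1075531370) (nat_lit 76) (nat_lit 2619766651) (nat_lit 74) (nat_lit 5) (nat_lit 79) (nat_lit 5) (nat_lit 75) (nat_lit 4) (nat_lit 479) (nat_lit 346) (nat_lit 315)) (XT.lf (nat_lit 0) (nat_lit 6264105301) (nat_lit 228) (nat_lit 6444733849) (nat_lit 304) (nat_lit 4272487) (nat_lit 71) (nat_lit 5) (nat_lit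 74) (nat_lit 5) (nat_lit 75) (nat_lit 4) (nat_lit 480) (nat_lit 346) (nat_lit 314)))) (XT.nd (nat_lit 156) (nat_lit 304) (nat_lit 0) (XT.nd (nat_lit 78) (nat_lit 0) (nat_lit 0) (XT.lf (nat_lit 0) (nat_lit 799891552) (nat_lit 228) (nat_lit 2877884564) (nat_lit 304) (nat_lit 9198423513) (nat_lit 67) (nat_lit 5) (nat_lit 70) (nat_lit 5) (nat_lit 71) (nat_lit 5) (nat_lit 481) (nat_lit 346) (nat_lit 313)) (XT.lf (nat_lit 0) (nat_lit 7436196000) (nat_lit 304) (nat_lit 4841381642) (nat_lit 76) (nat_lit 764931861) (nat_lit 67) (nat_lit 5) (nat_lit 71) (nat_lit 5) (nat_lit 68) (nat_lit 4) (nat_lit 482) (nat_lit 346) (nat_lit 312))) (XT.nd (nat_lit 78) (nat_lit 76) (nat_lit 0) (XT.lf (nat_lit 0) (nat_lit 2477528809) (nat_lit 228) (nat_lit 8782584633) (nat_lit 304) (nat_lit 1952241663) (nat_lit 64) (nat_lit 5) (nat_lit 67) (nat_lit 5) (nat_lit 68) (nat_lit 4) (nat_lit 483) (nat_lit 346) (nat_lit 311)) (XT.lf (nat_lit 0)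 (nat_lit 1739612011) (nat_lit 304) (nat_lit 3462514185) (nat_lit 76) (nat_lit 8183496861) (nat_lit 63) (nat_lit 5) (nat_lit 67) (nat_lit 5) (nat_lit 64) (nat_lit 5) (nat_lit 484) (nat_lit 346) (nat_lit 310)))))) (XT.nd (nat_lit 546) (nat_lit 760) (nat_lit 0) (XT.nd (nat_lit 234) (nat_lit 456) (nat_lit 0) (XT.nd (nat_lit 78) (nat_lit 228) (nat_lit 0) (XT.lf (nat_lit 0) (nat_lit 3920924392) (nat_lit 228) (nat_lit 1539871794) (nat_lit 304) (nat_lit 8101684602) (nat_lit 60) (nat_lit 5) (nat_lit 63) (nat_lit 5) (nat_lit 64) (nat_lit 5) (nat_lit 485) (nat_lit 346) (nat_lit 309)) (XT.nd (nat_lit 78) (nat_lit 228) (nat_lit 0) (XT.lf (nat_lit 0) (nat_lit 9250403564) (nat_lit 304) (nat_lit 2330885435) (nat_lit 76) (nat_lit 2161721572) (nat_lit 60) (nat_lit 5) (nat_lit 64) (nat_lit 5) (nat_lit 61) (nat_lit 4) (nat_lit 486) (nat_lit 346) (nat_lit 308)) (XT.lf (nat_lit 0) (nat_lit 5111235745) (nat_lit 228) (nat_lit 8005161369)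 (nat_lit 304) (nat_lit 810756550) (nat_lit 57) (nat_lit 5) (nat_lit 60) (nat_lit 5) (nat_lit 61) (nat_lit 4) (nat_lit 487) (nat_lit 346) (nat_lit 307)))) (XT.nd (nat_lit 156) (nat_lit 152) (nat_lit 0) (XT.nd (nat_lit 78) (nat_lit 228) (nat_lit 0) (XT.lf (nat_lit 0) (nat_lit 2879148151) (nat_lit 304) (nat_lit 1471805088) (nat_lit 76) (nat_lit 9764197268) (nat_lit 56) (nat_lit 5) (nat_lit 60) (nat_lit 5) (nat_lit 57) (nat_lit 5) (nat_lit 488) (nat_lit 346) (nat_lit 306)) (XT.lf (nat_lit 0) (nat_lit 6022502364) (nat_lit 228) (nat_lit 606735034) (nat_lit 304) (nat_lit 7677631611) (nat_lit 53) (nat_lit 5) (nat_lit 56) (nat_lit 5) (nat_lit 57) (nat_lit 5) (nat_lit 489) (nat_lit 346) (nat_lit 305))) (XT.nd (nat_lit 78) (nat_lit 152) (nat_lit 0) (XT.lf (nat_lit 0) (nat_lit 10443441012) (nat_lit 304) (nat_lit 907001492) (nat_lit 76) (nat_lit 3152210608) (nat_lit 53) (nat_lit 5) (nat_lit 57) (nat_lit 5) (nat_lit 54) (nat_lit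 4) (nat_lit 490) (nat_lit 346) (nat_lit 304)) (XT.lf (nat_lit 0) (nat_lit 6631750245) (nat_lit 152) (nat_lit 7708385431) (nat_lit 228) (nat_lit 362106303) (nat_lit 51) (nat_lit 5) (nat_lit 53) (nat_lit 5) (nat_lit 54) (nat_lit 4) (nat_lit 491) (nat_lit 346) (nat_lit 303))))) (XT.nd (nat_lit 234) (nat_lit 456) (nat_lit 0) (XT.nd (nat_lit 78) (nat_lit 228) (nat_lit 0) (XT.lf (nat_lit 0) (nat_lit 3329565080) (nat_lit 228) (nat_lit 663521963) (nat_lit 76) (nat_lit 10912998977) (nat_lit 50) (nat_lit 5) (nat_lit 53) (nat_lit 5) (nat_lit 51) (nat_lit 5) (nat_lit 492) (nat_lit 346) (nat_lit 302)) (XT.nd (nat_lit 78) (nat_lit 0) (nat_lit 0) (XT.lf (nat_lit 0) (nat_lit 6911978924) (nat_lit 228) (nat_lit 183129527) (nat_lit 304) (nat_lit 8018765334) (nat_lit 47) (nat_lit 5) (nat_lit 50) (nat_lit 5) (nat_lit 51) (nat_lit 5) (nat_lit 493) (nat_lit 346) (nat_lit 301)) (XT.lf (nat_lit 0) (nat_lit 10924658960) (nat_lit 304)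 (nat_lit 769856704) (nat_lit 76) (nat_lit 3631539930) (nat_lit 47) (nat_lit 5) (nat_lit 51) (nat_lit 5) (nat_lit 48) (nat_lit 4) (nat_lit 494) (nat_lit 346) (nat_lit 300)))) (XT.nd (nat_lit 156) (nat_lit 228) (nat_lit 0) (XT.nd (nat_lit 78) (nat_lit 76) (nat_lit 0) (XT.lf (nat_lit 0) (nat_lit 6832512700) (nat_lit 152) (nat_lit 8004814400) (nat_lit 228) (nat_lit 705035379) (nat_lit 45) (nat_lit 5) (nat_lit 47) (nat_lit 5) (nat_lit 48) (nat_lit 4) (nat_lit 495) (nat_lit 346) (nat_lit 299)) (XT.lf (nat_lit 0) (nat_lit 2991272177) (nat_lit 228) (nat_lit 1252259990) (nat_lit 76) (nat_lit 11519752401) (nat_lit 44) (nat_lit 5) (nat_lit 47) (nat_lit 5) (nat_lit 45) (nat_lit 5) (nat_lit 496) (nat_lit 346) (nat_lit 298))) (XT.nd (nat_lit 78) (nat_lit 0) (nat_lit 0) (XT.lf (nat_lit 0) (nat_lit 6367840562) (nat_lit 228) (nat_lit 387362347) (nat_lit 304) (nat_lit 9233277519) (nat_lit 41) (nat_lit 5) (nat_lit 44) (nat_lit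 5) (nat_lit 45) (nat_lit 5) (nat_lit 497) (nat_lit 346) (nat_lit 297)) (XT.lf (nat_lit 0) (nat_lit 10587828690) (nat_lit 304) (nat_lit 2149421391) (nat_lit 76) (nat_lit 3481072858) (nat_lit 41) (nat_lit 5) (nat_lit 45) (nat_lit 5) (nat_lit 42) (nat_lit 4) (nat_lit 498) (nat_lit 346) (nat_lit 296))))))) (XT.nd (nat_lit 1092) (nat_lit 684) (nat_lit 0) (XT.nd (nat_lit 546) (nat_lit 532) (nat_lit 0) (XT.nd (nat_lit 234) (nat_lit 228) (nat_lit 0) (XT.nd (nat_lit 78) (nat_lit 228) (nat_lit 0) (XT.lf (nat_lit 0) (nat_lit 5476114698) (nat_lit 152) (nat_lit 9021793467) (nat_lit 228) (nat_lit 1954848955) (nat_lit 39) (nat_lit 5) (nat_lit 41) (nat_lit 5) (nat_lit 42) (nat_lit 4) (nat_lit 499) (nat_lit 346) (nat_lit 295)) (XT.nd (nat_lit 78) (nat_lit 152) (nat_lit 0) (XT.lf (nat_lit 0) (nat_lit 1748038194) (nat_lit 228) (nat_lit 3484483193) (nat_lit 76) (nat_lit 11459590791) (nat_lit 38) (nat_lit 5) (nat_lit 41) (nat_lit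 5) (nat_lit 39) (nat_lit 5) (nat_lit 500) (nat_lit 346) (nat_lit 294)) (XT.lf (nat_lit 0) (nat_lit 4135632572) (nat_lit 152) (nat_lit 1353523734) (nat_lit 228) (nat_lit 11447042848) (nat_lit 36) (nat_lit 5) (nat_lit 38) (nat_lit 5) (nat_lit 39) (nat_lit 5) (nat_lit 501) (nat_lit 346) (nat_lit 293)))) (XT.nd (nat_lit 156) (nat_lit 76) (nat_lit 0) (XT.nd (nat_lit 78) (nat_lit 152) (nat_lit 0) (XT.lf (nat_lit 0) (nat_lit 9309144364) (nat_lit 228) (nat_lit 5309698645) (nat_lit 76) (nat_lit 2566253926) (nat_lit 36) (nat_lit 5) (nat_lit 39) (nat_lit 5) (nat_lit 37) (nat_lit 4) (nat_lit 502) (nat_lit 346) (nat_lit 292)) (XT.lf (nat_lit 0) (nat_lit 2289971435) (nat_lit 152) (nat_lit 10903715301) (nat_lit 228) (nat_lit 4245532668) (nat_lit 34) (nat_lit 5) (nat_lit 36) (nat_lit 5) (nat_lit 37) (nat_lit 4) (nat_lit 503) (nat_lit 346) (nat_lit 291))) (XT.nd (nat_lit 78) (nat_lit 76) (nat_lit 0) (XT.lf (nat_lit 0) (nat_lit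 10051932865) (nat_lit 152) (nat_lit 7104239878) (nat_lit 228) (nat_lit 542256153) (nat_lit 34) (nat_lit 5) (nat_lit 36) (nat_lit 5) (nat_lit 37) (nat_lit 4) (nat_lit 504) (nat_lit 346) (nat_lit 290)) (XT.lf (nat_lit 0) (nat_lit 3157733746) (nat_lit 228) (nat_lit 75633822) (nat_lit 76) (nat_lit 14729742648) (nat_lit 33) (nat_lit 5) (nat_lit 36) (nat_lit 5) (nat_lit 34) (nat_lit 5) (nat_lit 505) (nat_lit 346) (nat_lit 289))))) (XT.nd (nat_lit 234) (nat_lit 228) (nat_lit 0) (XT.nd (nat_lit 78) (nat_lit 152) (nat_lit 0) (XT.lf (nat_lit 0) (nat_lit 6944951295) (nat_lit 228) (nat_lit 10553452522) (nat_lit 76) (nat_lit 734208960) (nat_lit 31) (nat_lit 5) (nat_lit 34) (nat_lit 5) (nat_lit 32) (nat_lit 4) (nat_lit 506) (nat_lit 346) (nat_lit 288)) (XT.nd (nat_lit 78) (nat_lit 152) (nat_lit 0) (XT.lf (nat_lit 0) (nat_lit 10795719567) (nat_lit 228) (nat_lit 2998711686) (nat_lit 76) (nat_lit 4713326905) (nat_lit 31) (nat_lit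 5) (nat_lit 34) (nat_lit 5) (nat_lit 32) (nat_lit 4) (nat_lit 507) (nat_lit 346) (nat_lit 287)) (XT.lf (nat_lit 0) (nat_lit 4710197576) (nat_lit 152) (nat_lit 10010438766) (nat_lit 228) (nat_lit 4067836165) (nat_lit 29) (nat_lit 5) (nat_lit 31) (nat_lit 5) (nat_lit 32) (nat_lit 4) (nat_lit 508) (nat_lit 346) (nat_lit 286)))) (XT.nd (nat_lit 156) (nat_lit 0) (nat_lit 0) (XT.nd (nat_lit 78) (nat_lit 228) (nat_lit 0) (XT.lf (nat_lit 0) (nat_lit 12555618068) (nat_lit 152) (nat_lit 6155384962) (nat_lit 228) (nat_lit 364067631) (nat_lit 29) (nat_lit 5) (nat_lit 31) (nat_lit 5) (nat_lit 32) (nat_lit 4) (nat_lit 509) (nat_lit 346) (nat_lit 285)) (XT.lf (nat_lit 0) (nat_lit 1125527967) (nat_lit 152) (nat_lit 2218039107) (nat_lit 228) (nat_lit 16023907372) (nat_lit 26) (nat_lit 5) (nat_lit 28) (nat_lit 5) (nat_lit 29) (nat_lit 5) (nat_lit 510) (nat_lit 346) (nat_lit 284))) (XT.nd (nat_lit 78) (nat_lit 0) (nat_lit 0) (XT.lf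 (nat_lit 0) (nat_lit 7143562092) (nat_lit 228) (nat_lit 10725178167) (nat_lit 76) (nat_lit 1796484326) (nat_lit 26) (nat_lit 5) (nat_lit 29) (nat_lit 5) (nat_lit 27) (nat_lit 4) (nat_lit 511) (nat_lit 346) (nat_lit 283)) (XT.lf (nat_lit 0) (nat_lit 11002250993) (nat_lit 228) (nat_lit 3129364416) (nat_lit 76) (nat_lit 5837668338) (nat_lit 26) (nat_lit 5) (nat_lit 29) (nat_lit 5) (nat_lit 27) (nat_lit 4) (nat_lit 512) (nat_lit 346) (nat_lit 282)))))) (XT.nd (nat_lit 546) (nat_lit 304) (nat_lit 0) (XT.nd (nat_lit 234) (nat_lit 228) (nat_lit 0) (XT.nd (nat_lit 78) (nat_lit 76) (nat_lit 0) (XT.lf (nat_lit 0) (nat_lit 4623512706) (nat_lit 76) (nat_lit 10313252213) (nat_lit 152) (nat_lit 5342693892) (nat_lit 25) (nat_lit 5) (nat_lit 26) (nat_lit 5) (nat_lit 27) (nat_lit 4) (nat_lit 513) (nat_lit 346) (nat_lit 281)) (XT.nd (nat_lit 78) (nat_lit 76) (nat_lit 0) (XT.lf (nat_lit 0) (nat_lit 12518740697) (nat_lit 76) (nat_lit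 6421117583) (nat_lit 152) (nat_lit 1656188908) (nat_lit 25) (nat_lit 5) (nat_lit 26) (nat_lit 5) (nat_lit 27) (nat_lit 4) (nat_lit 514) (nat_lit 346) (nat_lit 280)) (XT.lf (nat_lit 0) (nat_lit 2045741378) (nat_lit 152) (nat_lit 415215492) (nat_lit 76) (nat_lit 18458358739) (nat_lit 24) (nat_lit 5) (nat_lit 26) (nat_lit 5) (nat_lit 25) (nat_lit 5) (nat_lit 515) (nat_lit 346) (nat_lit 279)))) (XT.nd (nat_lit 156) (nat_lit 76) (nat_lit 0) (XT.nd (nat_lit 78) (nat_lit 0) (nat_lit 0) (XT.lf (nat_lit 0) (nat_lit 5828197622) (nat_lit 228) (nat_lit 13825718409) (nat_lit 76) (nat_lit 1594348301) (nat_lit 22) (nat_lit 5) (nat_lit 25) (nat_lit 5) (nat_lit 23) (nat_lit 4) (nat_lit 516) (nat_lit 346) (nat_lit 278)) (XT.lf (nat_lit 0) (nat_lit 9675393255) (nat_lit 228) (nat_lit 6230856735) (nat_lit 76) (nat_lit 5677767248) (nat_lit 22) (nat_lit 5) (nat_lit 25) (nat_lit 5) (nat_lit 23) (nat_lit 4) (nat_lit 517) (nat_lit 346)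 (nat_lit 277))) (XT.nd (nat_lit 78) (nat_lit 0) (nat_lit 0) (XT.lf (nat_lit 0) (nat_lit 1482904480) (nat_lit 76) (nat_lit 12096832565) (nat_lit 152) (nat_lit 8347150951) (nat_lit 21) (nat_lit 5) (nat_lit 22) (nat_lit 5) (nat_lit 23) (nat_lit 4) (nat_lit 518) (nat_lit 346) (nat_lit 276)) (XT.lf (nat_lit 0) (nat_lit 9383300614) (nat_lit 76) (nat_lit 8191494331) (nat_lit 152) (nat_lit 4701575421) (nat_lit 21) (nat_lit 5) (nat_lit 22) (nat_lit 5) (nat_lit 23) (nat_lit 4) (nat_lit 519) (nat_lit 346) (nat_lit 275))))) (XT.nd (nat_lit 234) (nat_lit 76) (nat_lit 0) (XT.nd (nat_lit 78) (nat_lit 228) (nat_lit 0) (XT.lf (nat_lit 0) (nat_lit 17390625055) (nat_lit 76) (nat_lit 4230516111) (nat_lit 152) (nat_lit 1012280084) (nat_lit 21) (nat_lit 5) (nat_lit 22) (nat_lit 5) (nat_lit 23) (nat_lit 4) (nat_lit 520) (nat_lit 346) (nat_lit 274)) (XT.nd (nat_lit 78) (nat_lit 0) (nat_lit 0) (XT.lf (nat_lit 0) (nat_lit 2525282584)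 (nat_lit 152) (nat_lit 177593160) (nat_lit 228) (nat_lit 20294623523) (nat_lit 18) (nat_lit 5) (nat_lit 20) (nat_lit 5) (nat_lit 21) (nat_lit 5) (nat_lit 521) (nat_lit 346) (nat_lit 273)) (XT.lf (nat_lit 0) (nat_lit 6511736146) (nat_lit 228) (nat_lit 12931539876) (nat_lit 76) (nat_lit 3924796111) (nat_lit 18) (nat_lit 5) (nat_lit 21) (nat_lit 5) (nat_lit 19) (nat_lit 4) (nat_lit 522) (nat_lit 346) (nat_lit 272)))) (XT.nd (nat_lit 156) (nat_lit 0) (nat_lit 0) (XT.nd (nat_lit 78) (nat_lit 76) (nat_lit 0) (XT.lf (nat_lit 0) (nat_lit 10370342814) (nat_lit 228) (nat_lit 5290785214) (nat_lit 76) (nat_lit 8085463155) (nat_lit 18) (nat_lit 5) (nat_lit 21) (nat_lit 5) (nat_lit 19) (nat_lit 4) (nat_lit 523) (nat_lit 346) (nat_lit 271)) (XT.lf (nat_lit 0) (nat_lit 2486811712) (nat_lit 76) (nat_lit 11808390193) (nat_lit 152) (nat_lit 9837703090) (nat_lit 17) (nat_lit 5) (nat_lit 18) (nat_lit 5) (nat_lit 19) (nat_lit 4) (nat_lit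 524) (nat_lit 346) (nat_lit 270))) (XT.nd (nat_lit 78) (nat_lit 0) (nat_lit 0) (XT.lf (nat_lit 0) (nat_lit 10443410408) (nat_lit 76) (nat_lit 7863803294) (nat_lit 152) (nat_lit 6219564139) (nat_lit 17) (nat_lit 5) (nat_lit 18) (nat_lit 5) (nat_lit 19) (nat_lit 4) (nat_lit 525) (nat_lit 346) (nat_lit 269)) (XT.lf (nat_lit 0) (nat_lit 18511819358) (nat_lit 76) (nat_lit 3861324388) (nat_lit 152) (nat_lit 2555916593) (nat_lit 17) (nat_lit 5) (nat_lit 18) (nat_lit 5) (nat_lit 19) (nat_lit 4) (nat_lit 526) (nat_lit 346) (nat_lit 268))))))))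
noncomputable def xc33 : XT := (XT.nd (nat_lit 54834) (nat_lit 0) (nat_lit 2356) (XT.nd (nat_lit 53742) (nat_lit 0) (nat_lit 6536) (XT.nd (nat_lit 53196) (nat_lit 0) (nat_lit 10488) (XT.nd (nat_lit 234) (nat_lit 76) (nat_lit 0) (XT.nd (nat_lit 78) (nat_lit 0) (nat_lit 0) (XT.lf (nat_lit 0) (nat_lit 1149810464) (nat_lit 228) (nat_lit 23975286908) (nat_lit 76) (nat_lit 214457377) (nat_lit 14) (nat_lit 5) (nat_lit 17) (nat_lit 5) (nat_lit 15) (nat_lit 4) (nat_lit 527) (nat_lit 346) (nat_lit 267)) (XT.nd (nat_lit 78) (nat_lit 0) (nat_lit 0) (XT.lf (nat_lit 0) (nat_lit 4938471729) (nat_lit 228) (nat_lit 16458610913) (nat_lit 76) (nat_lit 4359983067) (nat_lit 14) (nat_lit 5) (nat_lit 17) (nat_lit 5) (nat_lit 15) (nat_lit 4) (nat_lit 528) (nat_lit 346) (nat_lit 266)) (XT.lf (nat_lit 0) (nat_lit 8777505690) (nat_lit 228) (nat_lit 8837507173) (nat_lit 76) (nat_lit 8568427352) (nat_lit 14) (nat_lit 5) (nat_lit 17) (nat_lit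 5) (nat_lit 15) (nat_lit 4) (nat_lit 529) (nat_lit 346) (nat_lit 265)))) (XT.nd (nat_lit 52806) (nat_lit 0) (nat_lit 13072) (XT.nd (nat_lit 78) (nat_lit 76) (nat_lit 0) (XT.lf (nat_lit 0) (nat_lit 12668417853) (nat_lit 228) (nat_lit 1108987018) (nat_lit 76) (nat_lit 12841440602) (nat_lit 14) (nat_lit 5) (nat_lit 17) (nat_lit 5) (nat_lit 15) (nat_lit 4) (nat_lit 530) (nat_lit 346) (nat_lit 264)) (XT.lf (nat_lit 0) (nat_lit 6819418238) (nat_lit 76) (nat_lit 9837592012) (nat_lit 152) (nat_lit 10405556457) (nat_lit 13) (nat_lit 5) (nat_lit 14) (nat_lit 5) (nat_lit 15) (nat_lit 4) (nat_lit 531) (nat_lit 346) (nat_lit 263))) (XT.nd (nat_lit 78) (nat_lit 0) (nat_lit 0) (XT.lf (nat_lit 0) (nat_lit 45728145) (nat_lit 532) (nat_lit 4308167934) (nat_lit 0) (nat_lit 45728145) (nat_lit 185) (nat_lit 5) (nat_lit 192) (nat_lit 4) (nat_lit 185) (nat_lit 4) (nat_lit 446) (nat_lit 347) (nat_lit 347)) (XT.lf (nat_lit 0) (nat_lit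 3812598595) (nat_lit 532) (nat_lit 2260088743) (nat_lit 0) (nat_lit 2804519459) (nat_lit 185) (nat_lit 5) (nat_lit 192) (nat_lit 4) (nat_lit 185) (nat_lit 4) (nat_lit 447) (nat_lit 347) (nat_lit 346))))) (XT.nd (nat_lit 234) (nat_lit 1520) (nat_lit 0) (XT.nd (nat_lit 78) (nat_lit 532) (nat_lit 0) (XT.lf (nat_lit 0) (nat_lit 4193218025) (nat_lit 532) (nat_lit 3380315487) (nat_lit 532) (nat_lit 1383923473) (nat_lit 178) (nat_lit 4) (nat_lit 185) (nat_lit 5) (nat_lit 185) (nat_lit 4) (nat_lit 448) (nat_lit 347) (nat_lit 345)) (XT.nd (nat_lit 78) (nat_lit 0) (nat_lit 0) (XT.lf (nat_lit 0) (nat_lit 1688514748) (nat_lit 456) (nat_lit 615366913) (nat_lit 532) (nat_lit 6735869339) (nat_lit 171) (nat_lit 5) (nat_lit 177) (nat_lit 5) (nat_lit 178) (nat_lit 4) (nat_lit 449) (nat_lit 347) (nat_lit 344)) (XT.lf (nat_lit 0) (nat_lit 6032295459) (nat_lit 532) (nat_lit 897738972) (nat_lit 0) (nat_lit 2193803603) (nat_lit 171)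 (nat_lit 5) (nat_lit 178) (nat_lit 4) (nat_lit 171) (nat_lit 4) (nat_lit 450) (nat_lit 347) (nat_lit 343)))) (XT.nd (nat_lit 156) (nat_lit 532) (nat_lit 0) (XT.nd (nat_lit 78) (nat_lit 456) (nat_lit 0) (XT.lf (nat_lit 0) (nat_lit 598263742) (nat_lit 532) (nat_lit 3543047429) (nat_lit 76) (nat_lit 5068634710) (nat_lit 164) (nat_lit 5) (nat_lit 171) (nat_lit 5) (nat_lit 165) (nat_lit 4) (nat_lit 451) (nat_lit 347) (nat_lit 342)) (XT.lf (nat_lit 0) (nat_lit 3011839222) (nat_lit 456) (nat_lit 1274559210) (nat_lit 532) (nat_lit 5011685773) (nat_lit 158) (nat_lit 5) (nat_lit 164) (nat_lit 5) (nat_lit 165) (nat_lit 4) (nat_lit 452) (nat_lit 347) (nat_lit 341))) (XT.nd (nat_lit 78) (nat_lit 76) (nat_lit 0) (XT.lf (nat_lit 0) (nat_lit 265971650) (nat_lit 456) (nat_lit 7759429274) (nat_lit 456) (nat_lit 1363077152) (nat_lit 152) (nat_lit 4) (nat_lit 158) (nat_lit 5) (nat_lit 158) (nat_lit 4) (nat_lit 453) (nat_lit 347)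 (nat_lit 340)) (XT.lf (nat_lit 0) (nat_lit 2319402557) (nat_lit 532) (nat_lit 2554674480) (nat_lit 76) (nat_lit 4606493437) (nat_lit 151) (nat_lit 5) (nat_lit 158) (nat_lit 5) (nat_lit 152) (nat_lit 4) (nat_lit 454) (nat_lit 347) (nat_lit 339)))))) (XT.nd (nat_lit 546) (nat_lit 1900) (nat_lit 0) (XT.nd (nat_lit 234) (nat_lit 1140) (nat_lit 0) (XT.nd (nat_lit 78) (nat_lit 532) (nat_lit 0) (XT.lf (nat_lit 0) (nat_lit 4105756872) (nat_lit 380) (nat_lit 1920282991) (nat_lit 456) (nat_lit 3548942338) (nat_lit 146) (nat_lit 5) (nat_lit 151) (nat_lit 5) (nat_lit 152) (nat_lit 4) (nat_lit 455) (nat_lit 347) (nat_lit 338)) (XT.nd (nat_lit 78) (nat_lit 0) (nat_lit 0) (XT.lf (nat_lit 0) (nat_lit 108124941) (nat_lit 532) (nat_lit 8485121385) (nat_lit 76) (nat_lit 1078562340) (nat_lit 139) (nat_lit 5) (nat_lit 146) (nat_lit 5) (nat_lit 140) (nat_lit 4) (nat_lit 456) (nat_lit 347) (nat_lit 337)) (XT.lf (nat_lit 0) (nat_lit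 3783211126) (nat_lit 532) (nat_lit 1840725251) (nat_lit 76) (nat_lit 4146349131) (nat_lit 139) (nat_lit 5) (nat_lit 146) (nat_lit 5) (nat_lit 140) (nat_lit 4) (nat_lit 457) (nat_lit 347) (nat_lit 336)))) (XT.nd (nat_lit 156) (nat_lit 304) (nat_lit 0) (XT.nd (nat_lit 78) (nat_lit 456) (nat_lit 0) (XT.lf (nat_lit 0) (nat_lit 4918438083) (nat_lit 380) (nat_lit 2589110337) (nat_lit 456) (nat_lit 2363698848) (nat_lit 134) (nat_lit 5) (nat_lit 139) (nat_lit 5) (nat_lit 140) (nat_lit 4) (nat_lit 458) (nat_lit 347) (nat_lit 335)) (XT.lf (nat_lit 0) (nat_lit 1286083071) (nat_lit 456) (nat_lit 8182335111) (nat_lit 76) (nat_lit 506238084) (nat_lit 128) (nat_lit 5) (nat_lit 134) (nat_lit 5) (nat_lit 129) (nat_lit 4) (nat_lit 459) (nat_lit 347) (nat_lit 334))) (XT.nd (nat_lit 78) (nat_lit 304) (nat_lit 0) (XT.lf (nat_lit 0) (nat_lit 4972218885) (nat_lit 456) (nat_lit 1456273146) (nat_lit 76) (nat_lit 3651457386) (nat_lit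 128) (nat_lit 5) (nat_lit 134) (nat_lit 5) (nat_lit 129) (nat_lit 4) (nat_lit 460) (nat_lit 347) (nat_lit 333)) (XT.lf (nat_lit 0) (nat_lit 5393403367) (nat_lit 304) (nat_lit 3319158374) (nat_lit 380) (nat_lit 1475205058) (nat_lit 124) (nat_lit 5) (nat_lit 128) (nat_lit 5) (nat_lit 129) (nat_lit 4) (nat_lit 461) (nat_lit 347) (nat_lit 332))))) (XT.nd (nat_lit 234) (nat_lit 1140) (nat_lit 0) (XT.nd (nat_lit 78) (nat_lit 304) (nat_lit 0) (XT.lf (nat_lit 0) (nat_lit 2032527679) (nat_lit 380) (nat_lit 136855138) (nat_lit 456) (nat_lit 8128721943) (nat_lit 118) (nat_lit 5) (nat_lit 123) (nat_lit 5) (nat_lit 124) (nat_lit 5) (nat_lit 462) (nat_lit 347) (nat_lit 331)) (XT.nd (nat_lit 78) (nat_lit 304) (nat_lit 0) (XT.lf (nat_lit 0) (nat_lit 5865684566) (nat_lit 456) (nat_lit 1461470351) (nat_lit 76) (nat_lit 3083354477) (nat_lit 118) (nat_lit 5) (nat_lit 124) (nat_lit 5) (nat_lit 119) (nat_lit 4) (nat_lit 463) (nat_lit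 347) (nat_lit 330)) (XT.lf (nat_lit 0) (nat_lit 5468909627) (nat_lit 304) (nat_lit 4150460540) (nat_lit 380) (nat_lit 906148716) (nat_lit 114) (nat_lit 5) (nat_lit 118) (nat_lit 5) (nat_lit 119) (nat_lit 4) (nat_lit 464) (nat_lit 347) (nat_lit 329)))) (XT.nd (nat_lit 156) (nat_lit 684) (nat_lit 0) (XT.nd (nat_lit 78) (nat_lit 0) (nat_lit 0) (XT.lf (nat_lit 0) (nat_lit 1840105311) (nat_lit 380) (nat_lit 897412613) (nat_lit 456) (nat_lit 7905591093) (nat_lit 108) (nat_lit 5) (nat_lit 113) (nat_lit 5) (nat_lit 114) (nat_lit 5) (nat_lit 465) (nat_lit 347) (nat_lit 328)) (XT.lf (nat_lit 0) (nat_lit 6439331978) (nat_lit 456) (nat_lit 1922198347) (nat_lit 76) (nat_lit 2401477113) (nat_lit 108) (nat_lit 5) (nat_lit 114) (nat_lit 5) (nat_lit 109) (nat_lit 4) (nat_lit 466) (nat_lit 347) (nat_lit 327))) (XT.nd (nat_lit 78) (nat_lit 380) (nat_lit 0) (XT.lf (nat_lit 0) (nat_lit 5077279806) (nat_lit 304) (nat_lit 5125361757)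 (nat_lit 380) (nat_lit 682937023) (nat_lit 104) (nat_lit 5) (nat_lit 108) (nat_lit 5) (nat_lit 109) (nat_lit 4) (nat_lit 467) (nat_lit 347) (nat_lit 326)) (XT.lf (nat_lit 0) (nat_lit 1147983100) (nat_lit 304) (nat_lit 1812009757) (nat_lit 380) (nat_lit 8050855306) (nat_lit 99) (nat_lit 5) (nat_lit 103) (nat_lit 5) (nat_lit 104) (nat_lit 5) (nat_lit 468) (nat_lit 347) (nat_lit 325))))))) (XT.nd (nat_lit 1092) (nat_lit 1748) (nat_lit 0) (XT.nd (nat_lit 546) (nat_lit 1140) (nat_lit 0) (XT.nd (nat_lit 234) (nat_lit 912) (nat_lit 0) (XT.nd (nat_lit 78) (nat_lit 380) (nat_lit 0) (XT.lf (nat_lit 0) (nat_lit 6665051177) (nat_lit 380) (nat_lit 2910779423) (nat_lit 76) (nat_lit 1562756525) (nat_lit 99) (nat_lit 5) (nat_lit 104) (nat_lit 5) (nat_lit 100) (nat_lit 4) (nat_lit 469) (nat_lit 347) (nat_lit 324)) (XT.nd (nat_lit 78) (nat_lit 76) (nat_lit 0) (XT.lf (nat_lit 0) (nat_lit 4144169374) (nat_lit 304) (nat_lit 6288941180)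 (nat_lit 380) (nat_lit 836014436) (nat_lit 95) (nat_lit 5) (nat_lit 99) (nat_lit 5) (nat_lit 100) (nat_lit 4) (nat_lit 470) (nat_lit 347) (nat_lit 323)) (XT.lf (nat_lit 0) (nat_lit 2806341027) (nat_lit 380) (nat_lit 119697914) (nat_lit 76) (nat_lit 8476487103) (nat_lit 94) (nat_lit 5) (nat_lit 99) (nat_lit 5) (nat_lit 95) (nat_lit 5) (nat_lit 471) (nat_lit 347) (nat_lit 322)))) (XT.nd (nat_lit 156) (nat_lit 380) (nat_lit 0) (XT.nd (nat_lit 78) (nat_lit 228) (nat_lit 0) (XT.lf (nat_lit 0) (nat_lit 6510561920) (nat_lit 380) (nat_lit 4506756173) (nat_lit 76) (nat_lit 521183102) (nat_lit 90) (nat_lit 5) (nat_lit 95) (nat_lit 5) (nat_lit 91) (nat_lit 4) (nat_lit 472) (nat_lit 347) (nat_lit 321)) (XT.lf (nat_lit 0) (nat_lit 2587762442) (nat_lit 228) (nat_lit 7689466492) (nat_lit 304) (nat_lit 1400220118) (nat_lit 87) (nat_lit 5) (nat_lit 90) (nat_lit 5) (nat_lit 91) (nat_lit 4) (nat_lit 473) (nat_lit 347) (nat_lit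 320))) (XT.nd (nat_lit 78) (nat_lit 304) (nat_lit 0) (XT.lf (nat_lit 0) (nat_lit 2251819822) (nat_lit 304) (nat_lit 2026050878) (nat_lit 76) (nat_lit 7541387499) (nat_lit 86) (nat_lit 5) (nat_lit 90) (nat_lit 5) (nat_lit 87) (nat_lit 5) (nat_lit 474) (nat_lit 347) (nat_lit 319)) (XT.lf (nat_lit 0) (nat_lit 5161188415) (nat_lit 304) (nat_lit 782930806) (nat_lit 380) (nat_lit 6019899106) (nat_lit 82) (nat_lit 5) (nat_lit 86) (nat_lit 5) (nat_lit 87) (nat_lit 5) (nat_lit 475) (nat_lit 347) (nat_lit 318))))) (XT.nd (nat_lit 234) (nat_lit 532) (nat_lit 0) (XT.nd (nat_lit 78) (nat_lit 380) (nat_lit 0) (XT.lf (nat_lit 0) (nat_lit 317889626) (nat_lit 228) (nat_lit 9378884015) (nat_lit 304) (nat_lit 2415188717) (nat_lit 79) (nat_lit 5) (nat_lit 82) (nat_lit 5) (nat_lit 83) (nat_lit 4) (nat_lit 476) (nat_lit 347) (nat_lit 317)) (XT.nd (nat_lit 78) (nat_lit 304) (nat_lit 0) (XT.lf (nat_lit 0) (nat_lit 1249010933) (nat_lit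 304) (nat_lit 4678898007) (nat_lit 76) (nat_lit 6334731825) (nat_lit 78) (nat_lit 5) (nat_lit 82) (nat_lit 5) (nat_lit 79) (nat_lit 5) (nat_lit 477) (nat_lit 347) (nat_lit 316)) (XT.lf (nat_lit 0) (nat_lit 2520639407) (nat_lit 304) (nat_lit 2403640615) (nat_lit 380) (nat_lit 7492348724) (nat_lit 74) (nat_lit 5) (nat_lit 78) (nat_lit 5) (nat_lit 79) (nat_lit 5) (nat_lit 478) (nat_lit 347) (nat_lit 315)))) (XT.nd (nat_lit 156) (nat_lit 304) (nat_lit 0) (XT.nd (nat_lit 78) (nat_lit 228) (nat_lit 0) (XT.lf (nat_lit 0) (nat_lit 8666360117) (nat_lit 380) (nat_lit 2728678351) (nat_lit 76) (nat_lit 1178809351) (nat_lit 74) (nat_lit 5) (nat_lit 79) (nat_lit 5) (nat_lit 75) (nat_lit 4) (nat_lit 479) (nat_lit 347) (nat_lit 314)) (XT.lf (nat_lit 0) (nat_lit 4551976726) (nat_lit 228) (nat_lit 7931646635) (nat_lit 304) (nat_lit 250598182) (nat_lit 71) (nat_lit 5) (nat_lit 74) (nat_lit 5) (nat_lit 75) (nat_lit 4) (nat_lit 480)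 (nat_lit 347) (nat_lit 313))) (XT.nd (nat_lit 78) (nat_lit 228) (nat_lit 0) (XT.lf (nat_lit 0) (nat_lit 3407193169) (nat_lit 304) (nat_lit 978829171) (nat_lit 76) (nat_lit 8511877075) (nat_lit 70) (nat_lit 5) (nat_lit 74) (nat_lit 5) (nat_lit 71) (nat_lit 5) (nat_lit 481) (nat_lit 347) (nat_lit 312)) (XT.lf (nat_lit 0) (nat_lit 6378182006) (nat_lit 228) (nat_lit 753865639) (nat_lit 304) (nat_lit 5932840929) (nat_lit 67) (nat_lit 5) (nat_lit 70) (nat_lit 5) (nat_lit 71) (nat_lit 5) (nat_lit 482) (nat_lit 347) (nat_lit 311)))))) (XT.nd (nat_lit 546) (nat_lit 684) (nat_lit 0) (XT.nd (nat_lit 234) (nat_lit 532) (nat_lit 0) (XT.nd (nat_lit 78) (nat_lit 304) (nat_lit 0) (XT.lf (nat_lit 0) (nat_lit 576174243) (nat_lit 228) (nat_lit 10340800552) (nat_lit 304) (nat_lit 2318547010) (nat_lit 64) (nat_lit 5) (nat_lit 67) (nat_lit 5) (nat_lit 68) (nat_lit 4) (nat_lit 483) (nat_lit 347) (nat_lit 310)) (XT.nd (nat_lit 78) (nat_lit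 228) (nat_lit 0) (XT.lf (nat_lit 0) (nat_lit 1356404026) (nat_lit 304) (nat_lit 5420704010) (nat_lit 76) (nat_lit 6632170940) (nat_lit 63) (nat_lit 5) (nat_lit 67) (nat_lit 5) (nat_lit 64) (nat_lit 5) (nat_lit 484) (nat_lit 347) (nat_lit 309)) (XT.lf (nat_lit 0) (nat_lit 1900901549) (nat_lit 228) (nat_lit 3142290148) (nat_lit 304) (nat_lit 8543640310) (nat_lit 60) (nat_lit 5) (nat_lit 63) (nat_lit 5) (nat_lit 64) (nat_lit 5) (nat_lit 485) (nat_lit 347) (nat_lit 308)))) (XT.nd (nat_lit 156) (nat_lit 304) (nat_lit 0) (XT.nd (nat_lit 78) (nat_lit 228) (nat_lit 0) (XT.lf (nat_lit 0) (nat_lit 8801212273) (nat_lit 304) (nat_lit 4400301152) (nat_lit 76) (nat_lit 566487325) (nat_lit 60) (nat_lit 5) (nat_lit 64) (nat_lit 5) (nat_lit 61) (nat_lit 4) (nat_lit 486) (nat_lit 347) (nat_lit 307)) (XT.lf (nat_lit 0) (nat_lit 2979106158) (nat_lit 228) (nat_lit 9653488976) (nat_lit 304) (nat_lit 1320248007) (nat_lit 57) (nat_lit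 5) (nat_lit 60) (nat_lit 5) (nat_lit 61) (nat_lit 4) (nat_lit 487) (nat_lit 347) (nat_lit 306))) (XT.nd (nat_lit 78) (nat_lit 228) (nat_lit 0) (XT.lf (nat_lit 0) (nat_lit 2355611169) (nat_lit 304) (nat_lit 3661120447) (nat_lit 76) (nat_lit 8124595888) (nat_lit 56) (nat_lit 5) (nat_lit 60) (nat_lit 5) (nat_lit 57) (nat_lit 5) (nat_lit 488) (nat_lit 347) (nat_lit 305)) (XT.lf (nat_lit 0) (nat_lit 3769516880) (nat_lit 228) (nat_lit 2301234486) (nat_lit 304) (nat_lit 8263000297) (nat_lit 53) (nat_lit 5) (nat_lit 56) (nat_lit 5) (nat_lit 57) (nat_lit 5) (nat_lit 489) (nat_lit 347) (nat_lit 304))))) (XT.nd (nat_lit 234) (nat_lit 456) (nat_lit 0) (XT.nd (nat_lit 78) (nat_lit 228) (nat_lit 0) (XT.lf (nat_lit 0) (nat_lit 9853721059) (nat_lit 304) (nat_lit 3210085242) (nat_lit 76) (nat_lit 1466360688) (nat_lit 53) (nat_lit 5) (nat_lit 57) (nat_lit 5) (nat_lit 54) (nat_lit 4) (nat_lit 490) (nat_lit 347) (nat_lit 303)) (XT.nd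 (nat_lit 78) (nat_lit 76) (nat_lit 0) (XT.lf (nat_lit 0) (nat_lit 4264067412) (nat_lit 152) (nat_lit 9451140344) (nat_lit 228) (nat_lit 1015258675) (nat_lit 51) (nat_lit 5) (nat_lit 53) (nat_lit 5) (nat_lit 54) (nat_lit 4) (nat_lit 491) (nat_lit 347) (nat_lit 302)) (XT.lf (nat_lit 0) (nat_lit 2665179651) (nat_lit 228) (nat_lit 3088783634) (nat_lit 76) (nat_lit 9180834154) (nat_lit 50) (nat_lit 5) (nat_lit 53) (nat_lit 5) (nat_lit 51) (nat_lit 5) (nat_lit 492) (nat_lit 347) (nat_lit 301)))) (XT.nd (nat_lit 156) (nat_lit 228) (nat_lit 0) (XT.nd (nat_lit 78) (nat_lit 0) (nat_lit 0) (XT.lf (nat_lit 0) (nat_lit 4421112737) (nat_lit 228) (nat_lit 1974026882) (nat_lit 304) (nat_lit 8748163298) (nat_lit 47) (nat_lit 5) (nat_lit 50) (nat_lit 5) (nat_lit 51) (nat_lit 5) (nat_lit 493) (nat_lit 347) (nat_lit 300)) (XT.lf (nat_lit 0) (nat_lit 10193732058) (nat_lit 304) (nat_lit 3311547285) (nat_lit 76) (nat_lit 1850830471)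 (nat_lit 47) (nat_lit 5) (nat_lit 51) (nat_lit 5) (nat_lit 48) (nat_lit 4) (nat_lit 494) (nat_lit 347) (nat_lit 299))) (XT.nd (nat_lit 78) (nat_lit 76) (nat_lit 0) (XT.lf (nat_lit 0) (nat_lit 4224238689) (nat_lit 152) (nat_lit 9846275514) (nat_lit 228) (nat_lit 1502626027) (nat_lit 45) (nat_lit 5) (nat_lit 47) (nat_lit 5) (nat_lit 48) (nat_lit 4) (nat_lit 495) (nat_lit 347) (nat_lit 298)) (XT.lf (nat_lit 0) (nat_lit 2185223449) (nat_lit 228) (nat_lit 3918552720) (nat_lit 76) (nat_lit 9690773680) (nat_lit 44) (nat_lit 5) (nat_lit 47) (nat_lit 5) (nat_lit 45) (nat_lit 5) (nat_lit 496) (nat_lit 347) (nat_lit 297))))))))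
noncomputable def xc34 : XT := (XT.nd (nat_lit 2184) (nat_lit 380) (nat_lit 0) (XT.nd (nat_lit 1092) (nat_lit 760) (nat_lit 0) (XT.nd (nat_lit 546) (nat_lit 608) (nat_lit 0) (XT.nd (nat_lit 234) (nat_lit 228) (nat_lit 0) (XT.nd (nat_lit 78) (nat_lit 152) (nat_lit 0) (XT.lf (nat_lit 0) (nat_lit 3633908037) (nat_lit 228) (nat_lit 2278947970) (nat_lit 304) (nat_lit 10107621141) (nat_lit 41) (nat_lit 5) (nat_lit 44) (nat_lit 5) (nat_lit 45) (nat_lit 5) (nat_lit 497) (nat_lit 347) (nat_lit 296)) (XT.nd (nat_lit 78) (nat_lit 152) (nat_lit 0) (XT.lf (nat_lit 0) (nat_lit 9714725753) (nat_lit 304) (nat_lit 4934931421) (nat_lit 76) (nat_lit 1601282973) (nat_lit 41) (nat_lit 5) (nat_lit 45) (nat_lit 5) (nat_lit 42) (nat_lit 4) (nat_lit 498) (nat_lit 347) (nat_lit 295)) (XT.lf (nat_lit 0) (nat_lit 2621934112) (nat_lit 152) (nat_lit 10966227525) (nat_lit 228) (nat_lit 2897950827) (nat_lit 39) (nat_lit 5) (nat_lit 41) (nat_lit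 5) (nat_lit 42) (nat_lit 4) (nat_lit 499) (nat_lit 347) (nat_lit 294)))) (XT.nd (nat_lit 156) (nat_lit 0) (nat_lit 0) (XT.nd (nat_lit 78) (nat_lit 152) (nat_lit 0) (XT.lf (nat_lit 0) (nat_lit 799222554) (nat_lit 228) (nat_lit 6397173203) (nat_lit 76) (nat_lit 9529560943) (nat_lit 38) (nat_lit 5) (nat_lit 41) (nat_lit 5) (nat_lit 39) (nat_lit 5) (nat_lit 500) (nat_lit 347) (nat_lit 293)) (XT.lf (nat_lit 0) (nat_lit 1153162893) (nat_lit 152) (nat_lit 3350085447) (nat_lit 228) (nat_lit 12467542142) (nat_lit 36) (nat_lit 5) (nat_lit 38) (nat_lit 5) (nat_lit 39) (nat_lit 5) (nat_lit 501) (nat_lit 347) (nat_lit 292))) (XT.nd (nat_lit 78) (nat_lit 0) (nat_lit 0) (XT.lf (nat_lit 0) (nat_lit 8292611418) (nat_lit 228) (nat_lit 8344531733) (nat_lit 76) (nat_lit 583162475) (nat_lit 36) (nat_lit 5) (nat_lit 39) (nat_lit 5) (nat_lit 37) (nat_lit 4) (nat_lit 502) (nat_lit 347) (nat_lit 291)) (XT.lf (nat_lit 0) (nat_lit 12144970113)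 (nat_lit 228) (nat_lit 805027474) (nat_lit 76) (nat_lit 4525078948) (nat_lit 36) (nat_lit 5) (nat_lit 39) (nat_lit 5) (nat_lit 37) (nat_lit 4) (nat_lit 503) (nat_lit 347) (nat_lit 290))))) (XT.nd (nat_lit 234) (nat_lit 228) (nat_lit 0) (XT.nd (nat_lit 78) (nat_lit 228) (nat_lit 0) (XT.lf (nat_lit 0) (nat_lit 6916301369) (nat_lit 152) (nat_lit 9168688024) (nat_lit 228) (nat_lit 1649750643) (nat_lit 34) (nat_lit 5) (nat_lit 36) (nat_lit 5) (nat_lit 37) (nat_lit 4) (nat_lit 504) (nat_lit 347) (nat_lit 289)) (XT.nd (nat_lit 78) (nat_lit 152) (nat_lit 0) (XT.lf (nat_lit 0) (nat_lit 2047814424) (nat_lit 228) (nat_lit 3269962865) (nat_lit 76) (nat_lit 12682131367) (nat_lit 33) (nat_lit 5) (nat_lit 36) (nat_lit 5) (nat_lit 34) (nat_lit 5) (nat_lit 505) (nat_lit 347) (nat_lit 288)) (XT.lf (nat_lit 0) (nat_lit 4417924777) (nat_lit 152) (nat_lit 1374453308) (nat_lit 228) (nat_lit 12477890614) (nat_lit 31) (nat_lit 5) (nat_lit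 33) (nat_lit 5) (nat_lit 34) (nat_lit 5) (nat_lit 506) (nat_lit 347) (nat_lit 287)))) (XT.nd (nat_lit 156) (nat_lit 76) (nat_lit 0) (XT.nd (nat_lit 78) (nat_lit 152) (nat_lit 0) (XT.lf (nat_lit 0) (nat_lit 9617663788) (nat_lit 228) (nat_lit 6317739361) (nat_lit 76) (nat_lit 2610524900) (nat_lit 31) (nat_lit 5) (nat_lit 34) (nat_lit 5) (nat_lit 32) (nat_lit 4) (nat_lit 507) (nat_lit 347) (nat_lit 286)) (XT.lf (nat_lit 0) (nat_lit 1318192818) (nat_lit 152) (nat_lit 12186130573) (nat_lit 228) (nat_lit 5323088384) (nat_lit 29) (nat_lit 5) (nat_lit 31) (nat_lit 5) (nat_lit 32) (nat_lit 4) (nat_lit 508) (nat_lit 347) (nat_lit 285))) (XT.nd (nat_lit 78) (nat_lit 76) (nat_lit 0) (XT.lf (nat_lit 0) (nat_lit 9135310415) (nat_lit 152) (nat_lit 8343280189) (nat_lit 228) (nat_lit 1635745464) (nat_lit 29) (nat_lit 5) (nat_lit 31) (nat_lit 5) (nat_lit 32) (nat_lit 4) (nat_lit 509) (nat_lit 347) (nat_lit 284)) (XT.lf (nat_lit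 0) (nat_lit 2065367509) (nat_lit 228) (nat_lit 2368513143) (nat_lit 76) (nat_lit 14973492322) (nat_lit 28) (nat_lit 5) (nat_lit 31) (nat_lit 5) (nat_lit 29) (nat_lit 5) (nat_lit 510) (nat_lit 347) (nat_lit 283)))))) (XT.nd (nat_lit 546) (nat_lit 304) (nat_lit 0) (XT.nd (nat_lit 234) (nat_lit 228) (nat_lit 0) (XT.nd (nat_lit 78) (nat_lit 76) (nat_lit 0) (XT.lf (nat_lit 0) (nat_lit 5398805212) (nat_lit 152) (nat_lit 423394926) (nat_lit 228) (nat_lit 13883790133) (nat_lit 26) (nat_lit 5) (nat_lit 28) (nat_lit 5) (nat_lit 29) (nat_lit 5) (nat_lit 511) (nat_lit 347) (nat_lit 282)) (XT.nd (nat_lit 78) (nat_lit 76) (nat_lit 0) (XT.lf (nat_lit 0) (nat_lit 9662611533) (nat_lit 228) (nat_lit 6736093192) (nat_lit 76) (nat_lit 3611714093) (nat_lit 26) (nat_lit 5) (nat_lit 29) (nat_lit 5) (nat_lit 27) (nat_lit 4) (nat_lit 512) (nat_lit 347) (nat_lit 281)) (XT.lf (nat_lit 0) (nat_lit 941562288) (nat_lit 76) (nat_lit 12616433442)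 (nat_lit 152) (nat_lit 6763384507) (nat_lit 25) (nat_lit 5) (nat_lit 26) (nat_lit 5) (nat_lit 27) (nat_lit 4) (nat_lit 513) (nat_lit 347) (nat_lit 280)))) (XT.nd (nat_lit 156) (nat_lit 152) (nat_lit 0) (XT.nd (nat_lit 78) (nat_lit 76) (nat_lit 0) (XT.lf (nat_lit 0) (nat_lit 8810035264) (nat_lit 76) (nat_lit 8735954560) (nat_lit 152) (nat_lit 3092284458) (nat_lit 25) (nat_lit 5) (nat_lit 26) (nat_lit 5) (nat_lit 27) (nat_lit 4) (nat_lit 514) (nat_lit 347) (nat_lit 279)) (XT.lf (nat_lit 0) (nat_lit 613575678) (nat_lit 152) (nat_lit 4183255960) (nat_lit 76) (nat_lit 16165199186) (nat_lit 24) (nat_lit 5) (nat_lit 26) (nat_lit 5) (nat_lit 25) (nat_lit 5) (nat_lit 515) (nat_lit 347) (nat_lit 278))) (XT.nd (nat_lit 78) (nat_lit 0) (nat_lit 0) (XT.lf (nat_lit 0) (nat_lit 3588870966) (nat_lit 152) (nat_lit 757099046) (nat_lit 228) (nat_lit 16946014246) (nat_lit 22) (nat_lit 5) (nat_lit 24) (nat_lit 5) (nat_lit 25) (nat_lit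 5) (nat_lit 516) (nat_lit 347) (nat_lit 277)) (XT.lf (nat_lit 0) (nat_lit 8173683841) (nat_lit 228) (nat_lit 10129299520) (nat_lit 76) (nat_lit 3325146845) (nat_lit 22) (nat_lit 5) (nat_lit 25) (nat_lit 5) (nat_lit 23) (nat_lit 4) (nat_lit 517) (nat_lit 347) (nat_lit 276))))) (XT.nd (nat_lit 234) (nat_lit 228) (nat_lit 0) (XT.nd (nat_lit 78) (nat_lit 76) (nat_lit 0) (XT.lf (nat_lit 0) (nat_lit 12054119028) (nat_lit 228) (nat_lit 2460441264) (nat_lit 76) (nat_lit 7456922179) (nat_lit 22) (nat_lit 5) (nat_lit 25) (nat_lit 5) (nat_lit 23) (nat_lit 4) (nat_lit 518) (nat_lit 347) (nat_lit 275)) (XT.nd (nat_lit 78) (nat_lit 0) (nat_lit 0) (XT.lf (nat_lit 0) (nat_lit 5381969960) (nat_lit 76) (nat_lit 10636855083) (nat_lit 152) (nat_lit 6302750109) (nat_lit 21) (nat_lit 5) (nat_lit 22) (nat_lit 5) (nat_lit 23) (nat_lit 4) (nat_lit 519) (nat_lit 347) (nat_lit 274)) (XT.lf (nat_lit 0) (nat_lit 13364503284) (nat_lit 76)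 (nat_lit 6686780949) (nat_lit 152) (nat_lit 2627622752) (nat_lit 21) (nat_lit 5) (nat_lit 22) (nat_lit 5) (nat_lit 23) (nat_lit 4) (nat_lit 520) (nat_lit 347) (nat_lit 273)))) (XT.nd (nat_lit 156) (nat_lit 0) (nat_lit 0) (XT.nd (nat_lit 78) (nat_lit 152) (nat_lit 0) (XT.lf (nat_lit 0) (nat_lit 1078614774) (nat_lit 152) (nat_lit 1593446852) (nat_lit 76) (nat_lit 20371738294) (nat_lit 20) (nat_lit 5) (nat_lit 22) (nat_lit 5) (nat_lit 21) (nat_lit 5) (nat_lit 521) (nat_lit 347) (nat_lit 272)) (XT.lf (nat_lit 0) (nat_lit 4847059944) (nat_lit 228) (nat_lit 17126224971) (nat_lit 76) (nat_lit 1441899200) (nat_lit 18) (nat_lit 5) (nat_lit 21) (nat_lit 5) (nat_lit 19) (nat_lit 4) (nat_lit 522) (nat_lit 347) (nat_lit 271))) (XT.nd (nat_lit 78) (nat_lit 0) (nat_lit 0) (XT.lf (nat_lit 0) (nat_lit 8692267730) (nat_lit 228) (nat_lit 9509523680) (nat_lit 76) (nat_lit 5592182695) (nat_lit 18) (nat_lit 5) (nat_lit 21) (nat_lit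 5) (nat_lit 19) (nat_lit 4) (nat_lit 523) (nat_lit 347) (nat_lit 270)) (XT.lf (nat_lit 0) (nat_lit 12587844632) (nat_lit 228) (nat_lit 1788123473) (nat_lit 76) (nat_lit 9804908361) (nat_lit 18) (nat_lit 5) (nat_lit 21) (nat_lit 5) (nat_lit 19) (nat_lit 4) (nat_lit 524) (nat_lit 347) (nat_lit 269))))))) (XT.nd (nat_lit 53586) (nat_lit 0) (nat_lit 7676) (XT.nd (nat_lit 53040) (nat_lit 0) (nat_lit 12008) (XT.nd (nat_lit 234) (nat_lit 304) (nat_lit 0) (XT.nd (nat_lit 78) (nat_lit 0) (nat_lit 0) (XT.lf (nat_lit 0) (nat_lit 6121285408) (nat_lit 76) (nat_lit 10453776363) (nat_lit 152) (nat_lit 8000186284) (nat_lit 17) (nat_lit 5) (nat_lit 18) (nat_lit 5) (nat_lit 19) (nat_lit 4) (nat_lit 525) (nat_lit 347) (nat_lit 268)) (XT.nd (nat_lit 78) (nat_lit 0) (nat_lit 0) (XT.lf (nat_lit 0) (nat_lit 14166727108) (nat_lit 76) (nat_lit 6461489523) (nat_lit 152) (nat_lit 4349572218) (nat_lit 17) (nat_lit 5) (nat_lit 18) (nat_lit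 5) (nat_lit 19) (nat_lit 4) (nat_lit 526) (nat_lit 347) (nat_lit 267)) (XT.lf (nat_lit 0) (nat_lit 22327593483) (nat_lit 76) (nat_lit 2409541232) (nat_lit 152) (nat_lit 651757274) (nat_lit 17) (nat_lit 5) (nat_lit 18) (nat_lit 5) (nat_lit 19) (nat_lit 4) (nat_lit 527) (nat_lit 347) (nat_lit 266)))) (XT.nd (nat_lit 156) (nat_lit 76) (nat_lit 0) (XT.nd (nat_lit 78) (nat_lit 0) (nat_lit 0) (XT.lf (nat_lit 0) (nat_lit 3096959544) (nat_lit 228) (nat_lit 20977316623) (nat_lit 76) (nat_lit 1733183894) (nat_lit 14) (nat_lit 5) (nat_lit 17) (nat_lit 5) (nat_lit 15) (nat_lit 4) (nat_lit 528) (nat_lit 347) (nat_lit 265)) (XT.lf (nat_lit 0) (nat_lit 6923665546) (nat_lit 228) (nat_lit 13378492913) (nat_lit 76) (nat_lit 5931925248) (nat_lit 14) (nat_lit 5) (nat_lit 17) (nat_lit 5) (nat_lit 15) (nat_lit 4) (nat_lit 529) (nat_lit 347) (nat_lit 264))) (XT.nd (nat_lit 78) (nat_lit 76) (nat_lit 0) (XT.lf (nat_lit 0) (nat_lit 10802491473)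 (nat_lit 228) (nat_lit 5671815926) (nat_lit 76) (nat_lit 10195425820) (nat_lit 14) (nat_lit 5) (nat_lit 17) (nat_lit 5) (nat_lit 15) (nat_lit 4) (nat_lit 530) (nat_lit 347) (nat_lit 263)) (XT.lf (nat_lit 0) (nat_lit 2174252274) (nat_lit 76) (nat_lit 12574822848) (nat_lit 152) (nat_lit 12365221986) (nat_lit 13) (nat_lit 5) (nat_lit 14) (nat_lit 5) (nat_lit 15) (nat_lit 4) (nat_lit 531) (nat_lit 347) (nat_lit 262))))) (XT.nd (nat_lit 234) (nat_lit 1064) (nat_lit 0) (XT.nd (nat_lit 78) (nat_lit 1064) (nat_lit 0) (XT.lf (nat_lit 0) (nat_lit 1227354345) (nat_lit 608) (nat_lit 1868945374) (nat_lit 0) (nat_lit 1227354345) (nat_lit 199) (nat_lit 5) (nat_lit 207) (nat_lit 4) (nat_lit 199) (nat_lit 4) (nat_lit 444) (nat_lit 348) (nat_lit 348)) (XT.nd (nat_lit 78) (nat_lit 532) (nat_lit 0) (XT.lf (nat_lit 0) (nat_lit 2554411169) (nat_lit 532) (nat_lit 3608436168) (nat_lit 532) (nat_lit 2559630635) (nat_lit 192) (nat_lit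 4) (nat_lit 199) (nat_lit 5) (nat_lit 199) (nat_lit 4) (nat_lit 445) (nat_lit 348) (nat_lit 347)) (XT.lf (nat_lit 0) (nat_lit 134245732) (nat_lit 456) (nat_lit 960453269) (nat_lit 532) (nat_lit 7705069643) (nat_lit 185) (nat_lit 5) (nat_lit 191) (nat_lit 5) (nat_lit 192) (nat_lit 4) (nat_lit 446) (nat_lit 348) (nat_lit 346)))) (XT.nd (nat_lit 156) (nat_lit 532) (nat_lit 0) (XT.nd (nat_lit 78) (nat_lit 532) (nat_lit 0) (XT.lf (nat_lit 0) (nat_lit 4778983928) (nat_lit 532) (nat_lit 2345148851) (nat_lit 0) (nat_lit 1754351196) (nat_lit 185) (nat_lit 5) (nat_lit 192) (nat_lit 4) (nat_lit 185) (nat_lit 4) (nat_lit 447) (nat_lit 348) (nat_lit 345)) (XT.lf (nat_lit 0) (nat_lit 4065195581) (nat_lit 532) (nat_lit 4443871002) (nat_lit 532) (nat_lit 450304074) (nat_lit 178) (nat_lit 4) (nat_lit 185) (nat_lit 5) (nat_lit 185) (nat_lit 4) (nat_lit 448) (nat_lit 348) (nat_lit 344))) (XT.nd (nat_lit 78) (nat_lit 0) (nat_lit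 0) (XT.lf (nat_lit 0) (nat_lit 1508731126) (nat_lit 456) (nat_lit 1685443892) (nat_lit 532) (nat_lit 5848008742) (nat_lit 171) (nat_lit 5) (nat_lit 177) (nat_lit 5) (nat_lit 178) (nat_lit 4) (nat_lit 449) (nat_lit 348) (nat_lit 343)) (XT.lf (nat_lit 0) (nat_lit 6885971272) (nat_lit 532) (nat_lit 1114698251) (nat_lit 0) (nat_lit 1126351948) (nat_lit 171) (nat_lit 5) (nat_lit 178) (nat_lit 4) (nat_lit 171) (nat_lit 4) (nat_lit 450) (nat_lit 348) (nat_lit 342)))))) (XT.nd (nat_lit 546) (nat_lit 1900) (nat_lit 0) (XT.nd (nat_lit 234) (nat_lit 1444) (nat_lit 0) (XT.nd (nat_lit 78) (nat_lit 456) (nat_lit 0) (XT.lf (nat_lit 0) (nat_lit 1406595758) (nat_lit 532) (nat_lit 3813441316) (nat_lit 76) (nat_lit 3993619541) (nat_lit 164) (nat_lit 5) (nat_lit 171) (nat_lit 5) (nat_lit 165) (nat_lit 4) (nat_lit 451) (nat_lit 348) (nat_lit 341)) (XT.nd (nat_lit 78) (nat_lit 0) (nat_lit 0) (XT.lf (nat_lit 0) (nat_lit 2696300279)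 (nat_lit 456) (nat_lit 2367392087) (nat_lit 532) (nat_lit 4238740604) (nat_lit 158) (nat_lit 5) (nat_lit 164) (nat_lit 5) (nat_lit 165) (nat_lit 4) (nat_lit 452) (nat_lit 348) (nat_lit 340)) (XT.lf (nat_lit 0) (nat_lit 8765108885) (nat_lit 532) (nat_lit 91558246) (nat_lit 0) (nat_lit 536928360) (nat_lit 158) (nat_lit 5) (nat_lit 165) (nat_lit 4) (nat_lit 158) (nat_lit 4) (nat_lit 453) (nat_lit 348) (nat_lit 339)))) (XT.nd (nat_lit 156) (nat_lit 532) (nat_lit 0) (XT.nd (nat_lit 78) (nat_lit 380) (nat_lit 0) (XT.lf (nat_lit 0) (nat_lit 3015081800) (nat_lit 532) (nat_lit 2964691294) (nat_lit 76) (nat_lit 3506421220) (nat_lit 151) (nat_lit 5) (nat_lit 158) (nat_lit 5) (nat_lit 152) (nat_lit 4) (nat_lit 454) (nat_lit 348) (nat_lit 338)) (XT.lf (nat_lit 0) (nat_lit 3649188122) (nat_lit 380) (nat_lit 3041458136) (nat_lit 456) (nat_lit 2890597193) (nat_lit 146) (nat_lit 5) (nat_lit 151) (nat_lit 5) (nat_lit 152) (nat_lit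 4) (nat_lit 455) (nat_lit 348) (nat_lit 337))) (XT.nd (nat_lit 78) (nat_lit 0) (nat_lit 0) (XT.lf (nat_lit 0) (nat_lit 679387563) (nat_lit 456) (nat_lit 39993027) (nat_lit 532) (nat_lit 8959388276) (nat_lit 139) (nat_lit 5) (nat_lit 145) (nat_lit 5) (nat_lit 146) (nat_lit 5) (nat_lit 456) (nat_lit 348) (nat_lit 336)) (XT.lf (nat_lit 0) (nat_lit 4366393067) (nat_lit 532) (nat_lit 2395629925) (nat_lit 76) (nat_lit 3015799225) (nat_lit 139) (nat_lit 5) (nat_lit 146) (nat_lit 5) (nat_lit 140) (nat_lit 4) (nat_lit 457) (nat_lit 348) (nat_lit 335))))) (XT.nd (nat_lit 234) (nat_lit 1064) (nat_lit 0) (XT.nd (nat_lit 78) (nat_lit 456) (nat_lit 0) (XT.lf (nat_lit 0) (nat_lit 4315523708) (nat_lit 380) (nat_lit 3744023457) (nat_lit 456) (nat_lit 1819875214) (nat_lit 134) (nat_lit 5) (nat_lit 139) (nat_lit 5) (nat_lit 140) (nat_lit 4) (nat_lit 458) (nat_lit 348) (nat_lit 334)) (XT.nd (nat_lit 78) (nat_lit 0) (nat_lit 0) (XT.lf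 (nat_lit 0) (nat_lit 1132181537) (nat_lit 380) (nat_lit 655768515) (nat_lit 456) (nat_lit 8195521362) (nat_lit 128) (nat_lit 5) (nat_lit 133) (nat_lit 5) (nat_lit 134) (nat_lit 5) (nat_lit 459) (nat_lit 348) (nat_lit 333)) (XT.lf (nat_lit 0) (nat_lit 5442831536) (nat_lit 456) (nat_lit 2161387132) (nat_lit 76) (nat_lit 2485184872) (nat_lit 128) (nat_lit 5) (nat_lit 134) (nat_lit 5) (nat_lit 129) (nat_lit 4) (nat_lit 460) (nat_lit 348) (nat_lit 332)))) (XT.nd (nat_lit 156) (nat_lit 304) (nat_lit 0) (XT.nd (nat_lit 78) (nat_lit 456) (nat_lit 0) (XT.lf (nat_lit 0) (nat_lit 4638767784) (nat_lit 304) (nat_lit 4513039714) (nat_lit 380) (nat_lit 1046054379) (nat_lit 124) (nat_lit 5) (nat_lit 128) (nat_lit 5) (nat_lit 129) (nat_lit 4) (nat_lit 461) (nat_lit 348) (nat_lit 331)) (XT.lf (nat_lit 0) (nat_lit 1214555297) (nat_lit 380) (nat_lit 1346648371) (nat_lit 456) (nat_lit 7747587560) (nat_lit 118) (nat_lit 5) (nat_lit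 123) (nat_lit 5) (nat_lit 124) (nat_lit 5) (nat_lit 462) (nat_lit 348) (nat_lit 330))) (XT.nd (nat_lit 78) (nat_lit 304) (nat_lit 0) (XT.lf (nat_lit 0) (nat_lit 6223434649) (nat_lit 456) (nat_lit 2322189418) (nat_lit 76) (nat_lit 1876266041) (nat_lit 118) (nat_lit 5) (nat_lit 124) (nat_lit 5) (nat_lit 119) (nat_lit 4) (nat_lit 463) (nat_lit 348) (nat_lit 329)) (XT.lf (nat_lit 0) (nat_lit 4557099657) (nat_lit 304) (nat_lit 5388398568) (nat_lit 380) (nat_lit 592046393) (nat_lit 114) (nat_lit 5) (nat_lit 118) (nat_lit 5) (nat_lit 119) (nat_lit 4) (nat_lit 464) (nat_lit 348) (nat_lit 328))))))))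
noncomputable def xc35 : XT := (XT.nd (nat_lit 2184) (nat_lit 2204) (nat_lit 0) (XT.nd (nat_lit 1092) (nat_lit 1824) (nat_lit 0) (XT.nd (nat_lit 546) (nat_lit 1520) (nat_lit 0) (XT.nd (nat_lit 234) (nat_lit 760) (nat_lit 0) (XT.nd (nat_lit 78) (nat_lit 304) (nat_lit 0) (XT.lf (nat_lit 0) (nat_lit 862176923) (nat_lit 380) (nat_lit 2153343348) (nat_lit 456) (nat_lit 7640225395) (nat_lit 108) (nat_lit 5) (nat_lit 113) (nat_lit 5) (nat_lit 114) (nat_lit 5) (nat_lit 465) (nat_lit 348) (nat_lit 327)) (XT.nd (nat_lit 78) (nat_lit 304) (nat_lit 0) (XT.lf (nat_lit 0) (nat_lit 6683710214) (nat_lit 456) (nat_lit 2944009851) (nat_lit 76) (nat_lit 1148608358) (nat_lit 108) (nat_lit 5) (nat_lit 114) (nat_lit 5) (nat_lit 109) (nat_lit 4) (nat_lit 466) (nat_lit 348) (nat_lit 326)) (XT.lf (nat_lit 0) (nat_lit 4002747378) (nat_lit 304) (nat_lit 6412325475) (nat_lit 380) (nat_lit 484477279) (nat_lit 104) (nat_lit 5) (nat_lit 108)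 (nat_lit 5) (nat_lit 109) (nat_lit 4) (nat_lit 467) (nat_lit 348) (nat_lit 325)))) (XT.nd (nat_lit 156) (nat_lit 380) (nat_lit 0) (XT.nd (nat_lit 78) (nat_lit 0) (nat_lit 0) (XT.lf (nat_lit 0) (nat_lit 4477058) (nat_lit 304) (nat_lit 3119043387) (nat_lit 380) (nat_lit 7901931251) (nat_lit 99) (nat_lit 5) (nat_lit 103) (nat_lit 5) (nat_lit 104) (nat_lit 5) (nat_lit 468) (nat_lit 348) (nat_lit 324)) (XT.lf (nat_lit 0) (nat_lit 6795336759) (nat_lit 380) (nat_lit 4099279115) (nat_lit 76) (nat_lit 259250575) (nat_lit 99) (nat_lit 5) (nat_lit 104) (nat_lit 5) (nat_lit 100) (nat_lit 4) (nat_lit 469) (nat_lit 348) (nat_lit 323))) (XT.nd (nat_lit 78) (nat_lit 76) (nat_lit 0) (XT.lf (nat_lit 0) (nat_lit 2901254665) (nat_lit 304) (nat_lit 7629801178) (nat_lit 380) (nat_lit 754006013) (nat_lit 95) (nat_lit 5) (nat_lit 99) (nat_lit 5) (nat_lit 100) (nat_lit 4) (nat_lit 470) (nat_lit 348) (nat_lit 322)) (XT.lf (nat_lit 0)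 (nat_lit 2863063891) (nat_lit 380) (nat_lit 1417277218) (nat_lit 76) (nat_lit 7138605674) (nat_lit 94) (nat_lit 5) (nat_lit 99) (nat_lit 5) (nat_lit 95) (nat_lit 5) (nat_lit 471) (nat_lit 348) (nat_lit 321))))) (XT.nd (nat_lit 234) (nat_lit 912) (nat_lit 0) (XT.nd (nat_lit 78) (nat_lit 304) (nat_lit 0) (XT.lf (nat_lit 0) (nat_lit 5682474996) (nat_lit 304) (nat_lit 848862589) (nat_lit 380) (nat_lit 5024313409) (nat_lit 90) (nat_lit 5) (nat_lit 94) (nat_lit 5) (nat_lit 95) (nat_lit 5) (nat_lit 472) (nat_lit 348) (nat_lit 320)) (XT.nd (nat_lit 78) (nat_lit 76) (nat_lit 0) (XT.lf (nat_lit 0) (nat_lit 1170677407) (nat_lit 228) (nat_lit 9089014854) (nat_lit 304) (nat_lit 1435682755) (nat_lit 87) (nat_lit 5) (nat_lit 90) (nat_lit 5) (nat_lit 91) (nat_lit 4) (nat_lit 473) (nat_lit 348) (nat_lit 319)) (XT.lf (nat_lit 0) (nat_lit 2193277840) (nat_lit 304) (nat_lit 3498498010) (nat_lit 76) (nat_lit 6145893342) (nat_lit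 86) (nat_lit 5) (nat_lit 90) (nat_lit 5) (nat_lit 87) (nat_lit 5) (nat_lit 474) (nat_lit 348) (nat_lit 318)))) (XT.nd (nat_lit 156) (nat_lit 608) (nat_lit 0) (XT.nd (nat_lit 78) (nat_lit 0) (nat_lit 0) (XT.lf (nat_lit 0) (nat_lit 3631754662) (nat_lit 304) (nat_lit 2220809689) (nat_lit 380) (nat_lit 6130534574) (nat_lit 82) (nat_lit 5) (nat_lit 86) (nat_lit 5) (nat_lit 87) (nat_lit 5) (nat_lit 475) (nat_lit 348) (nat_lit 317)) (XT.lf (nat_lit 0) (nat_lit 9570861083) (nat_lit 380) (nat_lit 1262519942) (nat_lit 76) (nat_lit 1298358247) (nat_lit 82) (nat_lit 5) (nat_lit 87) (nat_lit 5) (nat_lit 83) (nat_lit 4) (nat_lit 476) (nat_lit 348) (nat_lit 316))) (XT.nd (nat_lit 78) (nat_lit 304) (nat_lit 0) (XT.lf (nat_lit 0) (nat_lit 1073964674) (nat_lit 304) (nat_lit 6332159015) (nat_lit 76) (nat_lit 4876947066) (nat_lit 78) (nat_lit 5) (nat_lit 82) (nat_lit 5) (nat_lit 79) (nat_lit 5) (nat_lit 477) (nat_lit 348) (nat_lit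 315)) (XT.lf (nat_lit 0) (nat_lit 808520616) (nat_lit 304) (nat_lit 3907139613) (nat_lit 380) (nat_lit 7722078614) (nat_lit 74) (nat_lit 5) (nat_lit 78) (nat_lit 5) (nat_lit 79) (nat_lit 5) (nat_lit 478) (nat_lit 348) (nat_lit 314)))))) (XT.nd (nat_lit 546) (nat_lit 988) (nat_lit 0) (XT.nd (nat_lit 234) (nat_lit 532) (nat_lit 0) (XT.nd (nat_lit 78) (nat_lit 304) (nat_lit 0) (XT.lf (nat_lit 0) (nat_lit 8104797566) (nat_lit 304) (nat_lit 322935652) (nat_lit 380) (nat_lit 4167833306) (nat_lit 74) (nat_lit 5) (nat_lit 78) (nat_lit 5) (nat_lit 79) (nat_lit 5) (nat_lit 479) (nat_lit 348) (nat_lit 313)) (XT.nd (nat_lit 78) (nat_lit 76) (nat_lit 0) (XT.lf (nat_lit 0) (nat_lit 2732307025) (nat_lit 228) (nat_lit 9476874197) (nat_lit 304) (nat_lit 547483630) (nat_lit 71) (nat_lit 5) (nat_lit 74) (nat_lit 5) (nat_lit 75) (nat_lit 4) (nat_lit 480) (nat_lit 348) (nat_lit 312)) (XT.lf (nat_lit 0) (nat_lit 3092344140) (nat_lit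 304) (nat_lit 2854887968) (nat_lit 76) (nat_lit 6973594291) (nat_lit 70) (nat_lit 5) (nat_lit 74) (nat_lit 5) (nat_lit 71) (nat_lit 5) (nat_lit 481) (nat_lit 348) (nat_lit 311)))) (XT.nd (nat_lit 156) (nat_lit 304) (nat_lit 0) (XT.nd (nat_lit 78) (nat_lit 0) (nat_lit 0) (XT.lf (nat_lit 0) (nat_lit 4441554020) (nat_lit 228) (nat_lit 2341642011) (nat_lit 304) (nat_lit 6305307401) (nat_lit 67) (nat_lit 5) (nat_lit 70) (nat_lit 5) (nat_lit 71) (nat_lit 5) (nat_lit 482) (nat_lit 348) (nat_lit 310)) (XT.lf (nat_lit 0) (nat_lit 10532749022) (nat_lit 304) (nat_lit 1416598321) (nat_lit 76) (nat_lit 1310504470) (nat_lit 67) (nat_lit 5) (nat_lit 71) (nat_lit 5) (nat_lit 68) (nat_lit 4) (nat_lit 483) (nat_lit 348) (nat_lit 309))) (XT.nd (nat_lit 78) (nat_lit 0) (nat_lit 0) (XT.lf (nat_lit 0) (nat_lit 922543905) (nat_lit 304) (nat_lit 7489444544) (nat_lit 76) (nat_lit 5022294209) (nat_lit 63) (nat_lit 5) (nat_lit 67) (nat_lit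 5) (nat_lit 64) (nat_lit 5) (nat_lit 484) (nat_lit 348) (nat_lit 308)) (XT.lf (nat_lit 0) (nat_lit 4576125765) (nat_lit 304) (nat_lit 227416764) (nat_lit 76) (nat_lit 8808964503) (nat_lit 63) (nat_lit 5) (nat_lit 67) (nat_lit 5) (nat_lit 64) (nat_lit 5) (nat_lit 485) (nat_lit 348) (nat_lit 307))))) (XT.nd (nat_lit 234) (nat_lit 456) (nat_lit 0) (XT.nd (nat_lit 78) (nat_lit 304) (nat_lit 0) (XT.lf (nat_lit 0) (nat_lit 7205741292) (nat_lit 228) (nat_lit 1102503721) (nat_lit 304) (nat_lit 5485955873) (nat_lit 60) (nat_lit 5) (nat_lit 63) (nat_lit 5) (nat_lit 64) (nat_lit 5) (nat_lit 486) (nat_lit 348) (nat_lit 306)) (XT.nd (nat_lit 78) (nat_lit 76) (nat_lit 0) (XT.lf (nat_lit 0) (nat_lit 734599572) (nat_lit 228) (nat_lit 11362937009) (nat_lit 304) (nat_lit 1882355467) (nat_lit 57) (nat_lit 5) (nat_lit 60) (nat_lit 5) (nat_lit 61) (nat_lit 4) (nat_lit 487) (nat_lit 348) (nat_lit 305)) (XT.lf (nat_lit 0) (nat_lit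 1780554675) (nat_lit 304) (nat_lit 5963148181) (nat_lit 76) (nat_lit 6425159645) (nat_lit 56) (nat_lit 5) (nat_lit 60) (nat_lit 5) (nat_lit 57) (nat_lit 5) (nat_lit 488) (nat_lit 348) (nat_lit 304)))) (XT.nd (nat_lit 156) (nat_lit 228) (nat_lit 0) (XT.nd (nat_lit 78) (nat_lit 0) (nat_lit 0) (XT.lf (nat_lit 0) (nat_lit 1402999080) (nat_lit 228) (nat_lit 4057408070) (nat_lit 304) (nat_lit 8901591809) (nat_lit 53) (nat_lit 5) (nat_lit 56) (nat_lit 5) (nat_lit 57) (nat_lit 5) (nat_lit 489) (nat_lit 348) (nat_lit 303)) (XT.lf (nat_lit 0) (nat_lit 8930171323) (nat_lit 228) (nat_lit 283810562) (nat_lit 304) (nat_lit 5345026715) (nat_lit 53) (nat_lit 5) (nat_lit 56) (nat_lit 5) (nat_lit 57) (nat_lit 5) (nat_lit 490) (nat_lit 348) (nat_lit 302))) (XT.nd (nat_lit 78) (nat_lit 76) (nat_lit 0) (XT.lf (nat_lit 0) (nat_lit 1781712814) (nat_lit 152) (nat_lit 11256349520) (nat_lit 228) (nat_lit 1722000123) (nat_lit 51) (nat_lit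 5) (nat_lit 53) (nat_lit 5) (nat_lit 54) (nat_lit 4) (nat_lit 491) (nat_lit 348) (nat_lit 301)) (XT.lf (nat_lit 0) (nat_lit 1948296198) (nat_lit 228) (nat_lit 5629081981) (nat_lit 76) (nat_lit 7387501325) (nat_lit 50) (nat_lit 5) (nat_lit 53) (nat_lit 5) (nat_lit 51) (nat_lit 5) (nat_lit 492) (nat_lit 348) (nat_lit 300))))))) (XT.nd (nat_lit 1092) (nat_lit 760) (nat_lit 0) (XT.nd (nat_lit 546) (nat_lit 760) (nat_lit 0) (XT.nd (nat_lit 234) (nat_lit 304) (nat_lit 0) (XT.nd (nat_lit 78) (nat_lit 152) (nat_lit 0) (XT.lf (nat_lit 0) (nat_lit 1814335491) (nat_lit 228) (nat_lit 3827965309) (nat_lit 304) (nat_lit 9531809217) (nat_lit 47) (nat_lit 5) (nat_lit 50) (nat_lit 5) (nat_lit 51) (nat_lit 5) (nat_lit 493) (nat_lit 348) (nat_lit 299)) (XT.nd (nat_lit 78) (nat_lit 152) (nat_lit 0) (XT.lf (nat_lit 0) (nat_lit 9409904892) (nat_lit 304) (nat_lit 5969470081) (nat_lit 76) (nat_lit 8167521) (nat_lit 47) (nat_lit 5) (nat_lit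 51) (nat_lit 5) (nat_lit 48) (nat_lit 4) (nat_lit 494) (nat_lit 348) (nat_lit 298)) (XT.lf (nat_lit 0) (nat_lit 1498831048) (nat_lit 152) (nat_lit 11751581080) (nat_lit 228) (nat_lit 2354891976) (nat_lit 45) (nat_lit 5) (nat_lit 47) (nat_lit 5) (nat_lit 48) (nat_lit 4) (nat_lit 495) (nat_lit 348) (nat_lit 297)))) (XT.nd (nat_lit 156) (nat_lit 0) (nat_lit 0) (XT.nd (nat_lit 78) (nat_lit 228) (nat_lit 0) (XT.lf (nat_lit 0) (nat_lit 1325587450) (nat_lit 228) (nat_lit 6702374538) (nat_lit 76) (nat_lit 7799238833) (nat_lit 44) (nat_lit 5) (nat_lit 47) (nat_lit 5) (nat_lit 45) (nat_lit 5) (nat_lit 496) (nat_lit 348) (nat_lit 296)) (XT.lf (nat_lit 0) (nat_lit 781516017) (nat_lit 228) (nat_lit 4235000379) (nat_lit 304) (nat_lit 11037351166) (nat_lit 41) (nat_lit 5) (nat_lit 44) (nat_lit 5) (nat_lit 45) (nat_lit 5) (nat_lit 497) (nat_lit 348) (nat_lit 295))) (XT.nd (nat_lit 78) (nat_lit 0) (nat_lit 0) (XT.lf (nat_lit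 0) (nat_lit 8443406594) (nat_lit 228) (nat_lit 346416364) (nat_lit 304) (nat_lit 7495084129) (nat_lit 41) (nat_lit 5) (nat_lit 44) (nat_lit 5) (nat_lit 45) (nat_lit 5) (nat_lit 498) (nat_lit 348) (nat_lit 294)) (XT.lf (nat_lit 0) (nat_lit 12626229129) (nat_lit 304) (nat_lit 347397898) (nat_lit 76) (nat_lit 3547198131) (nat_lit 41) (nat_lit 5) (nat_lit 45) (nat_lit 5) (nat_lit 42) (nat_lit 4) (nat_lit 499) (nat_lit 348) (nat_lit 293))))) (XT.nd (nat_lit 234) (nat_lit 380) (nat_lit 0) (XT.nd (nat_lit 78) (nat_lit 228) (nat_lit 0) (XT.lf (nat_lit 0) (nat_lit 7329774470) (nat_lit 152) (nat_lit 9224306610) (nat_lit 228) (nat_lit 207096376) (nat_lit 39) (nat_lit 5) (nat_lit 41) (nat_lit 5) (nat_lit 42) (nat_lit 4) (nat_lit 500) (nat_lit 348) (nat_lit 292)) (XT.nd (nat_lit 78) (nat_lit 152) (nat_lit 0) (XT.lf (nat_lit 0) (nat_lit 3474777872) (nat_lit 228) (nat_lit 1924909009) (nat_lit 76) (nat_lit 11606853465) (nat_lit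 38) (nat_lit 5) (nat_lit 41) (nat_lit 5) (nat_lit 39) (nat_lit 5) (nat_lit 501) (nat_lit 348) (nat_lit 291)) (XT.lf (nat_lit 0) (nat_lit 5746169285) (nat_lit 152) (nat_lit 1484237542) (nat_lit 228) (nat_lit 10026328113) (nat_lit 36) (nat_lit 5) (nat_lit 38) (nat_lit 5) (nat_lit 39) (nat_lit 5) (nat_lit 502) (nat_lit 348) (nat_lit 290)))) (XT.nd (nat_lit 156) (nat_lit 228) (nat_lit 0) (XT.nd (nat_lit 78) (nat_lit 152) (nat_lit 0) (XT.lf (nat_lit 0) (nat_lit 11056152727) (nat_lit 228) (nat_lit 3990966344) (nat_lit 76) (nat_lit 2464923708) (nat_lit 36) (nat_lit 5) (nat_lit 39) (nat_lit 5) (nat_lit 37) (nat_lit 4) (nat_lit 503) (nat_lit 348) (nat_lit 289)) (XT.lf (nat_lit 0) (nat_lit 3658675798) (nat_lit 152) (nat_lit 11299702268) (nat_lit 228) (nat_lit 2814088675) (nat_lit 34) (nat_lit 5) (nat_lit 36) (nat_lit 5) (nat_lit 37) (nat_lit 4) (nat_lit 504) (nat_lit 348) (nat_lit 288))) (XT.nd (nat_lit 78) (nat_lit 152)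 (nat_lit 0) (XT.lf (nat_lit 0) (nat_lit 882129422) (nat_lit 228) (nat_lit 6586752542) (nat_lit 76) (nat_lit 10569241344) (nat_lit 33) (nat_lit 5) (nat_lit 36) (nat_lit 5) (nat_lit 34) (nat_lit 5) (nat_lit 505) (nat_lit 348) (nat_lit 287)) (XT.lf (nat_lit 0) (nat_lit 1028250427) (nat_lit 152) (nat_lit 3560143004) (nat_lit 228) (nat_lit 13720860231) (nat_lit 31) (nat_lit 5) (nat_lit 33) (nat_lit 5) (nat_lit 34) (nat_lit 5) (nat_lit 506) (nat_lit 348) (nat_lit 286)))))) (XT.nd (nat_lit 546) (nat_lit 380) (nat_lit 0) (XT.nd (nat_lit 234) (nat_lit 228) (nat_lit 0) (XT.nd (nat_lit 78) (nat_lit 152) (nat_lit 0) (XT.lf (nat_lit 0) (nat_lit 8383254159) (nat_lit 228) (nat_lit 9760698057) (nat_lit 76) (nat_lit 441573529) (nat_lit 31) (nat_lit 5) (nat_lit 34) (nat_lit 5) (nat_lit 32) (nat_lit 4) (nat_lit 507) (nat_lit 348) (nat_lit 285)) (XT.nd (nat_lit 78) (nat_lit 152) (nat_lit 0) (XT.lf (nat_lit 0) (nat_lit 12245439467)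 (nat_lit 228) (nat_lit 2169985910) (nat_lit 76) (nat_lit 4452077729) (nat_lit 31) (nat_lit 5) (nat_lit 34) (nat_lit 5) (nat_lit 32) (nat_lit 4) (nat_lit 508) (nat_lit 348) (nat_lit 284)) (XT.lf (nat_lit 0) (nat_lit 5590545780) (nat_lit 152) (nat_lit 10599100878) (nat_lit 228) (nat_lit 2965386011) (nat_lit 29) (nat_lit 5) (nat_lit 31) (nat_lit 5) (nat_lit 32) (nat_lit 4) (nat_lit 509) (nat_lit 348) (nat_lit 283)))) (XT.nd (nat_lit 156) (nat_lit 0) (nat_lit 0) (XT.nd (nat_lit 78) (nat_lit 152) (nat_lit 0) (XT.lf (nat_lit 0) (nat_lit 737584710) (nat_lit 228) (nat_lit 5972756299) (nat_lit 76) (nat_lit 12738216749) (nat_lit 28) (nat_lit 5) (nat_lit 31) (nat_lit 5) (nat_lit 29) (nat_lit 5) (nat_lit 510) (nat_lit 348) (nat_lit 282)) (XT.lf (nat_lit 0) (nat_lit 1719429093) (nat_lit 152) (nat_lit 2735824073) (nat_lit 228) (nat_lit 15292709007) (nat_lit 26) (nat_lit 5) (nat_lit 28) (nat_lit 5) (nat_lit 29) (nat_lit 5)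 (nat_lit 511) (nat_lit 348) (nat_lit 281))) (XT.nd (nat_lit 78) (nat_lit 0) (nat_lit 0) (XT.lf (nat_lit 0) (nat_lit 8265426672) (nat_lit 228) (nat_lit 10469359588) (nat_lit 76) (nat_lit 1318212976) (nat_lit 26) (nat_lit 5) (nat_lit 29) (nat_lit 5) (nat_lit 27) (nat_lit 4) (nat_lit 512) (nat_lit 348) (nat_lit 280)) (XT.lf (nat_lit 0) (nat_lit 12139772067) (nat_lit 228) (nat_lit 2830456984) (nat_lit 76) (nat_lit 5394156064) (nat_lit 26) (nat_lit 5) (nat_lit 29) (nat_lit 5) (nat_lit 27) (nat_lit 4) (nat_lit 513) (nat_lit 348) (nat_lit 279))))) (XT.nd (nat_lit 312) (nat_lit 76) (nat_lit 0) (XT.nd (nat_lit 156) (nat_lit 228) (nat_lit 0) (XT.nd (nat_lit 78) (nat_lit 0) (nat_lit 0) (XT.lf (nat_lit 0) (nat_lit 4974170302) (nat_lit 76) (nat_lit 11120171231) (nat_lit 152) (nat_lit 4587609735) (nat_lit 25) (nat_lit 5) (nat_lit 26) (nat_lit 5) (nat_lit 27) (nat_lit 4) (nat_lit 514) (nat_lit 348) (nat_lit 278)) (XT.lf (nat_lit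 0) (nat_lit 12921311234) (nat_lit 76) (nat_lit 7196368867) (nat_lit 152) (nat_lit 888402243) (nat_lit 25) (nat_lit 5) (nat_lit 26) (nat_lit 5) (nat_lit 27) (nat_lit 4) (nat_lit 515) (nat_lit 348) (nat_lit 277))) (XT.nd (nat_lit 78) (nat_lit 152) (nat_lit 0) (XT.lf (nat_lit 0) (nat_lit 2818016285) (nat_lit 152) (nat_lit 379350413) (nat_lit 76) (nat_lit 18139540394) (nat_lit 24) (nat_lit 5) (nat_lit 26) (nat_lit 5) (nat_lit 25) (nat_lit 5) (nat_lit 516) (nat_lit 348) (nat_lit 276)) (XT.lf (nat_lit 0) (nat_lit 6613093419) (nat_lit 228) (nat_lit 14157129052) (nat_lit 76) (nat_lit 903486639) (nat_lit 22) (nat_lit 5) (nat_lit 25) (nat_lit 5) (nat_lit 23) (nat_lit 4) (nat_lit 517) (nat_lit 348) (nat_lit 275)))) (XT.nd (nat_lit 156) (nat_lit 0) (nat_lit 0) (XT.nd (nat_lit 78) (nat_lit 76) (nat_lit 0) (XT.lf (nat_lit 0) (nat_lit 10479528015) (nat_lit 228) (nat_lit 6513226093) (nat_lit 76) (nat_lit 5024590553) (nat_lit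 22) (nat_lit 5) (nat_lit 25) (nat_lit 5) (nat_lit 23) (nat_lit 4) (nat_lit 518) (nat_lit 348) (nat_lit 274)) (XT.lf (nat_lit 0) (nat_lit 1250534638) (nat_lit 76) (nat_lit 13153149304) (nat_lit 152) (nat_lit 7964567609) (nat_lit 21) (nat_lit 5) (nat_lit 22) (nat_lit 5) (nat_lit 23) (nat_lit 4) (nat_lit 519) (nat_lit 348) (nat_lit 273))) (XT.nd (nat_lit 78) (nat_lit 0) (nat_lit 0) (XT.lf (nat_lit 0) (nat_lit 9208762946) (nat_lit 76) (nat_lit 9213765451) (nat_lit 152) (nat_lit 4303330427) (nat_lit 21) (nat_lit 5) (nat_lit 22) (nat_lit 5) (nat_lit 23) (nat_lit 4) (nat_lit 520) (nat_lit 348) (nat_lit 272)) (XT.lf (nat_lit 0) (nat_lit 17278022356) (nat_lit 76) (nat_lit 5216764868) (nat_lit 152) (nat_lit 596376497) (nat_lit 21) (nat_lit 5) (nat_lit 22) (nat_lit 5) (nat_lit 23) (nat_lit 4) (nat_lit 521) (nat_lit 348) (nat_lit 271))))))))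
noncomputable def xc36 : XT := (XT.nd (nat_lit 54522) (nat_lit 0) (nat_lit 3496) (XT.nd (nat_lit 53430) (nat_lit 0) (nat_lit 8664) (XT.nd (nat_lit 546) (nat_lit 0) (nat_lit 0) (XT.nd (nat_lit 234) (nat_lit 304) (nat_lit 0) (XT.nd (nat_lit 78) (nat_lit 0) (nat_lit 0) (XT.lf (nat_lit 0) (nat_lit 2002934434) (nat_lit 152) (nat_lit 1126403401) (nat_lit 228) (nat_lit 20334301534) (nat_lit 18) (nat_lit 5) (nat_lit 20) (nat_lit 5) (nat_lit 21) (nat_lit 5) (nat_lit 522) (nat_lit 348) (nat_lit 270)) (XT.nd (nat_lit 78) (nat_lit 0) (nat_lit 0) (XT.lf (nat_lit 0) (nat_lit 6954096105) (nat_lit 228) (nat_lit 13860272025) (nat_lit 76) (nat_lit 3028473126) (nat_lit 18) (nat_lit 5) (nat_lit 21) (nat_lit 5) (nat_lit 19) (nat_lit 4) (nat_lit 523) (nat_lit 348) (nat_lit 269)) (XT.lf (nat_lit 0) (nat_lit 10836794420) (nat_lit 228) (nat_lit 6161991169) (nat_lit 76) (nat_lit 7231218449) (nat_lit 18) (nat_lit 5) (nat_lit 21) (nat_lit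 5) (nat_lit 19) (nat_lit 4) (nat_lit 524) (nat_lit 348) (nat_lit 268)))) (XT.nd (nat_lit 156) (nat_lit 228) (nat_lit 0) (XT.nd (nat_lit 78) (nat_lit 0) (nat_lit 0) (XT.lf (nat_lit 0) (nat_lit 1666324064) (nat_lit 76) (nat_lit 13116136866) (nat_lit 152) (nat_lit 9842748503) (nat_lit 17) (nat_lit 5) (nat_lit 18) (nat_lit 5) (nat_lit 19) (nat_lit 4) (nat_lit 525) (nat_lit 348) (nat_lit 267)) (XT.lf (nat_lit 0) (nat_lit 9689248853) (nat_lit 76) (nat_lit 9133842247) (nat_lit 152) (nat_lit 6204912359) (nat_lit 17) (nat_lit 5) (nat_lit 18) (nat_lit 5) (nat_lit 19) (nat_lit 4) (nat_lit 526) (nat_lit 348) (nat_lit 266))) (XT.nd (nat_lit 78) (nat_lit 228) (nat_lit 0) (XT.lf (nat_lit 0) (nat_lit 17828039824) (nat_lit 76) (nat_lit 5091690251) (nat_lit 152) (nat_lit 2519624790) (nat_lit 17) (nat_lit 5) (nat_lit 18) (nat_lit 5) (nat_lit 19) (nat_lit 4) (nat_lit 527) (nat_lit 348) (nat_lit 265)) (XT.lf (nat_lit 0) (nat_lit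 221482755) (nat_lit 152) (nat_lit 978585508) (nat_lit 228) (nat_lit 24659170227) (nat_lit 14) (nat_lit 5) (nat_lit 16) (nat_lit 5) (nat_lit 17) (nat_lit 5) (nat_lit 528) (nat_lit 348) (nat_lit 264))))) (XT.nd (nat_lit 52572) (nat_lit 0) (nat_lit 13528) (XT.nd (nat_lit 78) (nat_lit 0) (nat_lit 0) (XT.lf (nat_lit 0) (nat_lit 5008334404) (nat_lit 228) (nat_lit 18054421565) (nat_lit 76) (nat_lit 3223477492) (nat_lit 14) (nat_lit 5) (nat_lit 17) (nat_lit 5) (nat_lit 15) (nat_lit 4) (nat_lit 529) (nat_lit 348) (nat_lit 263)) (XT.nd (nat_lit 78) (nat_lit 0) (nat_lit 0) (XT.lf (nat_lit 0) (nat_lit 8875311082) (nat_lit 228) (nat_lit 10369159448) (nat_lit 76) (nat_lit 7477651910) (nat_lit 14) (nat_lit 5) (nat_lit 17) (nat_lit 5) (nat_lit 15) (nat_lit 4) (nat_lit 530) (nat_lit 348) (nat_lit 262)) (XT.lf (nat_lit 0) (nat_lit 12796161131) (nat_lit 228) (nat_lit 2572601927) (nat_lit 76) (nat_lit 11798440373) (nat_lit 14) (nat_lit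 5) (nat_lit 17) (nat_lit 5) (nat_lit 15) (nat_lit 4) (nat_lit 531) (nat_lit 348) (nat_lit 261)))) (XT.nd (nat_lit 156) (nat_lit 1140) (nat_lit 0) (XT.nd (nat_lit 78) (nat_lit 0) (nat_lit 0) (XT.lf (nat_lit 0) (nat_lit 480443025) (nat_lit 532) (nat_lit 1885252144) (nat_lit 532) (nat_lit 1885252144) (nat_lit 207) (nat_lit 4) (nat_lit 214) (nat_lit 5) (nat_lit 214) (nat_lit 4) (nat_lit 442) (nat_lit 349) (nat_lit 349)) (XT.lf (nat_lit 0) (nat_lit 7201355969) (nat_lit 532) (nat_lit 1232008905) (nat_lit 532) (nat_lit 140831628) (nat_lit 207) (nat_lit 4) (nat_lit 214) (nat_lit 5) (nat_lit 214) (nat_lit 4) (nat_lit 443) (nat_lit 349) (nat_lit 348))) (XT.nd (nat_lit 78) (nat_lit 532) (nat_lit 0) (XT.lf (nat_lit 0) (nat_lit 3493488747) (nat_lit 608) (nat_lit 3779558894) (nat_lit 0) (nat_lit 1374901570) (nat_lit 199) (nat_lit 5) (nat_lit 207) (nat_lit 4) (nat_lit 199) (nat_lit 4) (nat_lit 444) (nat_lit 349) (nat_lit 347))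 (XT.lf (nat_lit 0) (nat_lit 2470795262) (nat_lit 532) (nat_lit 4699895529) (nat_lit 532) (nat_lit 1553067634) (nat_lit 192) (nat_lit 4) (nat_lit 199) (nat_lit 5) (nat_lit 199) (nat_lit 4) (nat_lit 445) (nat_lit 349) (nat_lit 346)))))) (XT.nd (nat_lit 546) (nat_lit 2280) (nat_lit 0) (XT.nd (nat_lit 234) (nat_lit 1444) (nat_lit 0) (XT.nd (nat_lit 78) (nat_lit 608) (nat_lit 0) (XT.lf (nat_lit 0) (nat_lit 49477) (nat_lit 456) (nat_lit 2056859685) (nat_lit 532) (nat_lit 6744652099) (nat_lit 185) (nat_lit 5) (nat_lit 191) (nat_lit 5) (nat_lit 192) (nat_lit 4) (nat_lit 446) (nat_lit 349) (nat_lit 345)) (XT.nd (nat_lit 78) (nat_lit 608) (nat_lit 0) (XT.lf (nat_lit 0) (nat_lit 5704054435) (nat_lit 532) (nat_lit 2515302424) (nat_lit 0) (nat_lit 661681974) (nat_lit 185) (nat_lit 5) (nat_lit 192) (nat_lit 4) (nat_lit 185) (nat_lit 4) (nat_lit 447) (nat_lit 349) (nat_lit 344)) (XT.lf (nat_lit 0) (nat_lit 434977408) (nat_lit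 608) (nat_lit 5113653580) (nat_lit 76) (nat_lit 3413872723) (nat_lit 177) (nat_lit 5) (nat_lit 185) (nat_lit 5) (nat_lit 178) (nat_lit 4) (nat_lit 448) (nat_lit 349) (nat_lit 343)))) (XT.nd (nat_lit 156) (nat_lit 988) (nat_lit 0) (XT.nd (nat_lit 78) (nat_lit 0) (nat_lit 0) (XT.lf (nat_lit 0) (nat_lit 1242217960) (nat_lit 456) (nat_lit 2800274714) (nat_lit 532) (nat_lit 5003405152) (nat_lit 171) (nat_lit 5) (nat_lit 177) (nat_lit 5) (nat_lit 178) (nat_lit 4) (nat_lit 449) (nat_lit 349) (nat_lit 342)) (XT.lf (nat_lit 0) (nat_lit 7697962576) (nat_lit 532) (nat_lit 1418560347) (nat_lit 0) (nat_lit 14957109) (nat_lit 171) (nat_lit 5) (nat_lit 178) (nat_lit 4) (nat_lit 171) (nat_lit 4) (nat_lit 450) (nat_lit 349) (nat_lit 341))) (XT.nd (nat_lit 78) (nat_lit 456) (nat_lit 0) (XT.lf (nat_lit 0) (nat_lit 2172535837) (nat_lit 532) (nat_lit 4172076628) (nat_lit 76) (nat_lit 2874035154) (nat_lit 164) (nat_lit 5) (nat_lit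 171) (nat_lit 5) (nat_lit 165) (nat_lit 4) (nat_lit 451) (nat_lit 349) (nat_lit 340)) (XT.lf (nat_lit 0) (nat_lit 2292161967) (nat_lit 456) (nat_lit 3506425568) (nat_lit 532) (nat_lit 3509474267) (nat_lit 158) (nat_lit 5) (nat_lit 164) (nat_lit 5) (nat_lit 165) (nat_lit 4) (nat_lit 452) (nat_lit 349) (nat_lit 339))))) (XT.nd (nat_lit 234) (nat_lit 1368) (nat_lit 0) (XT.nd (nat_lit 78) (nat_lit 836) (nat_lit 0) (XT.lf (nat_lit 0) (nat_lit 67576536) (nat_lit 532) (nat_lit 538754770) (nat_lit 76) (nat_lit 8793533833) (nat_lit 157) (nat_lit 5) (nat_lit 164) (nat_lit 5) (nat_lit 158) (nat_lit 5) (nat_lit 453) (nat_lit 349) (nat_lit 338)) (XT.nd (nat_lit 78) (nat_lit 380) (nat_lit 0) (XT.lf (nat_lit 0) (nat_lit 3667895457) (nat_lit 532) (nat_lit 3464847632) (nat_lit 76) (nat_lit 2360355352) (nat_lit 151) (nat_lit 5) (nat_lit 158) (nat_lit 5) (nat_lit 152) (nat_lit 4) (nat_lit 454) (nat_lit 349) (nat_lit 337)) (XT.lf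 (nat_lit 0) (nat_lit 3102087883) (nat_lit 380) (nat_lit 4210262541) (nat_lit 456) (nat_lit 2276434985) (nat_lit 146) (nat_lit 5) (nat_lit 151) (nat_lit 5) (nat_lit 152) (nat_lit 4) (nat_lit 455) (nat_lit 349) (nat_lit 336)))) (XT.nd (nat_lit 156) (nat_lit 836) (nat_lit 0) (XT.nd (nat_lit 78) (nat_lit 0) (nat_lit 0) (XT.lf (nat_lit 0) (nat_lit 72916810) (nat_lit 456) (nat_lit 1221164258) (nat_lit 532) (nat_lit 8392793177) (nat_lit 139) (nat_lit 5) (nat_lit 145) (nat_lit 5) (nat_lit 146) (nat_lit 5) (nat_lit 456) (nat_lit 349) (nat_lit 335)) (XT.lf (nat_lit 0) (nat_lit 4906155923) (nat_lit 532) (nat_lit 3042639480) (nat_lit 76) (nat_lit 1837845684) (nat_lit 139) (nat_lit 5) (nat_lit 146) (nat_lit 5) (nat_lit 140) (nat_lit 4) (nat_lit 457) (nat_lit 349) (nat_lit 334))) (XT.nd (nat_lit 78) (nat_lit 456) (nat_lit 0) (XT.lf (nat_lit 0) (nat_lit 3620077199) (nat_lit 380) (nat_lit 4947983529) (nat_lit 456) (nat_lit 1320819959)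 (nat_lit 134) (nat_lit 5) (nat_lit 139) (nat_lit 5) (nat_lit 140) (nat_lit 4) (nat_lit 458) (nat_lit 349) (nat_lit 333)) (XT.lf (nat_lit 0) (nat_lit 374676226) (nat_lit 380) (nat_lit 1874213035) (nat_lit 456) (nat_lit 7744620962) (nat_lit 128) (nat_lit 5) (nat_lit 133) (nat_lit 5) (nat_lit 134) (nat_lit 5) (nat_lit 459) (nat_lit 349) (nat_lit 332))))))) (XT.nd (nat_lit 1092) (nat_lit 2280) (nat_lit 0) (XT.nd (nat_lit 546) (nat_lit 1368) (nat_lit 0) (XT.nd (nat_lit 234) (nat_lit 760) (nat_lit 0) (XT.nd (nat_lit 78) (nat_lit 760) (nat_lit 0) (XT.lf (nat_lit 0) (nat_lit 5869392494) (nat_lit 456) (nat_lit 2960644718) (nat_lit 76) (nat_lit 1270106318) (nat_lit 128) (nat_lit 5) (nat_lit 134) (nat_lit 5) (nat_lit 129) (nat_lit 4) (nat_lit 460) (nat_lit 349) (nat_lit 331)) (XT.nd (nat_lit 78) (nat_lit 456) (nat_lit 0) (XT.lf (nat_lit 0) (nat_lit 3789524756) (nat_lit 304) (nat_lit 5757381518) (nat_lit 380) (nat_lit 662338188)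 (nat_lit 124) (nat_lit 5) (nat_lit 128) (nat_lit 5) (nat_lit 129) (nat_lit 4) (nat_lit 461) (nat_lit 349) (nat_lit 330)) (XT.lf (nat_lit 0) (nat_lit 300501806) (nat_lit 380) (nat_lit 2607577749) (nat_lit 456) (nat_lit 7412693418) (nat_lit 118) (nat_lit 5) (nat_lit 123) (nat_lit 5) (nat_lit 124) (nat_lit 5) (nat_lit 462) (nat_lit 349) (nat_lit 329)))) (XT.nd (nat_lit 156) (nat_lit 456) (nat_lit 0) (XT.nd (nat_lit 78) (nat_lit 304) (nat_lit 0) (XT.lf (nat_lit 0) (nat_lit 6536421796) (nat_lit 456) (nat_lit 3279170215) (nat_lit 76) (nat_lit 618970197) (nat_lit 118) (nat_lit 5) (nat_lit 124) (nat_lit 5) (nat_lit 119) (nat_lit 4) (nat_lit 463) (nat_lit 349) (nat_lit 328)) (XT.lf (nat_lit 0) (nat_lit 3548526189) (nat_lit 304) (nat_lit 6678212867) (nat_lit 380) (nat_lit 324124921) (nat_lit 114) (nat_lit 5) (nat_lit 118) (nat_lit 5) (nat_lit 119) (nat_lit 4) (nat_lit 464) (nat_lit 349) (nat_lit 327))) (XT.nd (nat_lit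 78) (nat_lit 380) (nat_lit 0) (XT.lf (nat_lit 0) (nat_lit 3249201543) (nat_lit 380) (nat_lit 211221479) (nat_lit 76) (nat_lit 7209233594) (nat_lit 113) (nat_lit 5) (nat_lit 118) (nat_lit 5) (nat_lit 114) (nat_lit 5) (nat_lit 465) (nat_lit 349) (nat_lit 326)) (XT.lf (nat_lit 0) (nat_lit 6725615482) (nat_lit 380) (nat_lit 157945877) (nat_lit 456) (nat_lit 3907366237) (nat_lit 108) (nat_lit 5) (nat_lit 113) (nat_lit 5) (nat_lit 114) (nat_lit 5) (nat_lit 466) (nat_lit 349) (nat_lit 325))))) (XT.nd (nat_lit 234) (nat_lit 684) (nat_lit 0) (XT.nd (nat_lit 78) (nat_lit 380) (nat_lit 0) (XT.lf (nat_lit 0) (nat_lit 2829208610) (nat_lit 304) (nat_lit 7752589755) (nat_lit 380) (nat_lit 333024848) (nat_lit 104) (nat_lit 5) (nat_lit 108) (nat_lit 5) (nat_lit 109) (nat_lit 4) (nat_lit 467) (nat_lit 349) (nat_lit 324)) (XT.nd (nat_lit 78) (nat_lit 304) (nat_lit 0) (XT.lf (nat_lit 0) (nat_lit 3248540892) (nat_lit 380) (nat_lit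 1223333944) (nat_lit 76) (nat_lit 6569330139) (nat_lit 103) (nat_lit 5) (nat_lit 108) (nat_lit 5) (nat_lit 104) (nat_lit 5) (nat_lit 468) (nat_lit 349) (nat_lit 323)) (XT.lf (nat_lit 0) (nat_lit 5774551187) (nat_lit 304) (nat_lit 1111869518) (nat_lit 380) (nat_lit 4283888490) (nat_lit 99) (nat_lit 5) (nat_lit 103) (nat_lit 5) (nat_lit 104) (nat_lit 5) (nat_lit 469) (nat_lit 349) (nat_lit 322)))) (XT.nd (nat_lit 156) (nat_lit 304) (nat_lit 0) (XT.nd (nat_lit 78) (nat_lit 76) (nat_lit 0) (XT.lf (nat_lit 0) (nat_lit 1556997964) (nat_lit 304) (nat_lit 9025400450) (nat_lit 380) (nat_lit 719911542) (nat_lit 95) (nat_lit 5) (nat_lit 99) (nat_lit 5) (nat_lit 100) (nat_lit 4) (nat_lit 470) (nat_lit 349) (nat_lit 321)) (XT.lf (nat_lit 0) (nat_lit 2872975909) (nat_lit 380) (nat_lit 2816449730) (nat_lit 76) (nat_lit 5747249639) (nat_lit 94) (nat_lit 5) (nat_lit 99) (nat_lit 5) (nat_lit 95) (nat_lit 5) (nat_lit 471) (nat_lit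 349) (nat_lit 320))) (XT.nd (nat_lit 78) (nat_lit 0) (nat_lit 0) (XT.lf (nat_lit 0) (nat_lit 4227508227) (nat_lit 304) (nat_lit 2281024866) (nat_lit 380) (nat_lit 5065510646) (nat_lit 90) (nat_lit 5) (nat_lit 94) (nat_lit 5) (nat_lit 95) (nat_lit 5) (nat_lit 472) (nat_lit 349) (nat_lit 319)) (XT.lf (nat_lit 0) (nat_lit 10196850857) (nat_lit 380) (nat_lit 345591382) (nat_lit 76) (nat_lit 1172135984) (nat_lit 90) (nat_lit 5) (nat_lit 95) (nat_lit 5) (nat_lit 91) (nat_lit 4) (nat_lit 473) (nat_lit 349) (nat_lit 318)))))) (XT.nd (nat_lit 546) (nat_lit 836) (nat_lit 0) (XT.nd (nat_lit 234) (nat_lit 836) (nat_lit 0) (XT.nd (nat_lit 78) (nat_lit 304) (nat_lit 0) (XT.lf (nat_lit 0) (nat_lit 2086937783) (nat_lit 304) (nat_lit 5074988286) (nat_lit 76) (nat_lit 4695473760) (nat_lit 86) (nat_lit 5) (nat_lit 90) (nat_lit 5) (nat_lit 87) (nat_lit 5) (nat_lit 474) (nat_lit 349) (nat_lit 317)) (XT.nd (nat_lit 78) (nat_lit 0)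 (nat_lit 0) (XT.lf (nat_lit 0) (nat_lit 1997628783) (nat_lit 304) (nat_lit 3715355497) (nat_lit 380) (nat_lit 6290519246) (nat_lit 82) (nat_lit 5) (nat_lit 86) (nat_lit 5) (nat_lit 87) (nat_lit 5) (nat_lit 475) (nat_lit 349) (nat_lit 316)) (XT.lf (nat_lit 0) (nat_lit 9207840554) (nat_lit 304) (nat_lit 192478659) (nat_lit 380) (nat_lit 2752452881) (nat_lit 82) (nat_lit 5) (nat_lit 86) (nat_lit 5) (nat_lit 87) (nat_lit 5) (nat_lit 476) (nat_lit 349) (nat_lit 315)))) (XT.nd (nat_lit 156) (nat_lit 532) (nat_lit 0) (XT.nd (nat_lit 78) (nat_lit 0) (nat_lit 0) (XT.lf (nat_lit 0) (nat_lit 850053698) (nat_lit 304) (nat_lit 8092019377) (nat_lit 76) (nat_lit 3362760991) (nat_lit 78) (nat_lit 5) (nat_lit 82) (nat_lit 5) (nat_lit 79) (nat_lit 5) (nat_lit 477) (nat_lit 349) (nat_lit 314)) (XT.lf (nat_lit 0) (nat_lit 4464482818) (nat_lit 304) (nat_lit 997632890) (nat_lit 76) (nat_lit 6997940240) (nat_lit 78) (nat_lit 5) (nat_lit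 82) (nat_lit 5) (nat_lit 79) (nat_lit 5) (nat_lit 478) (nat_lit 349) (nat_lit 313))) (XT.nd (nat_lit 78) (nat_lit 228) (nat_lit 0) (XT.lf (nat_lit 0) (nat_lit 6249931588) (nat_lit 304) (nat_lit 1898245371) (nat_lit 380) (nat_lit 4470282546) (nat_lit 74) (nat_lit 5) (nat_lit 78) (nat_lit 5) (nat_lit 79) (nat_lit 5) (nat_lit 479) (nat_lit 349) (nat_lit 312)) (XT.lf (nat_lit 0) (nat_lit 804382603) (nat_lit 228) (nat_lit 11081022506) (nat_lit 304) (nat_lit 895045259) (nat_lit 71) (nat_lit 5) (nat_lit 74) (nat_lit 5) (nat_lit 75) (nat_lit 4) (nat_lit 480) (nat_lit 349) (nat_lit 311))))) (XT.nd (nat_lit 234) (nat_lit 532) (nat_lit 0) (XT.nd (nat_lit 78) (nat_lit 228) (nat_lit 0) (XT.lf (nat_lit 0) (nat_lit 2727912133) (nat_lit 304) (nat_lit 4839511270) (nat_lit 76) (nat_lit 5377670040) (nat_lit 70) (nat_lit 5) (nat_lit 74) (nat_lit 5) (nat_lit 71) (nat_lit 5) (nat_lit 481) (nat_lit 349) (nat_lit 310)) (XT.nd (nat_lit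 78) (nat_lit 0) (nat_lit 0) (XT.lf (nat_lit 0) (nat_lit 2395617535) (nat_lit 228) (nat_lit 3988854371) (nat_lit 304) (nat_lit 6728992079) (nat_lit 67) (nat_lit 5) (nat_lit 70) (nat_lit 5) (nat_lit 71) (nat_lit 5) (nat_lit 482) (nat_lit 349) (nat_lit 309)) (XT.lf (nat_lit 0) (nat_lit 9771857670) (nat_lit 228) (nat_lit 332726482) (nat_lit 304) (nat_lit 3180824547) (nat_lit 67) (nat_lit 5) (nat_lit 70) (nat_lit 5) (nat_lit 71) (nat_lit 5) (nat_lit 483) (nat_lit 349) (nat_lit 308)))) (XT.nd (nat_lit 156) (nat_lit 228) (nat_lit 0) (XT.nd (nat_lit 78) (nat_lit 0) (nat_lit 0) (XT.lf (nat_lit 0) (nat_lit 437861509) (nat_lit 304) (nat_lit 9669547059) (nat_lit 76) (nat_lit 3353235345) (nat_lit 63) (nat_lit 5) (nat_lit 67) (nat_lit 5) (nat_lit 64) (nat_lit 5) (nat_lit 484) (nat_lit 349) (nat_lit 307)) (XT.lf (nat_lit 0) (nat_lit 4070988567) (nat_lit 304) (nat_lit 2441487037) (nat_lit 76) (nat_lit 7126808862) (nat_lit 63)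 (nat_lit 5) (nat_lit 67) (nat_lit 5) (nat_lit 64) (nat_lit 5) (nat_lit 485) (nat_lit 349) (nat_lit 306))) (XT.nd (nat_lit 78) (nat_lit 0) (nat_lit 0) (XT.lf (nat_lit 0) (nat_lit 4928502904) (nat_lit 228) (nat_lit 2839765841) (nat_lit 304) (nat_lit 6053413301) (nat_lit 60) (nat_lit 5) (nat_lit 63) (nat_lit 5) (nat_lit 64) (nat_lit 5) (nat_lit 486) (nat_lit 349) (nat_lit 305)) (XT.lf (nat_lit 0) (nat_lit 11521550286) (nat_lit 304) (nat_lit 1601876121) (nat_lit 76) (nat_lit 884673811) (nat_lit 60) (nat_lit 5) (nat_lit 64) (nat_lit 5) (nat_lit 61) (nat_lit 4) (nat_lit 487) (nat_lit 349) (nat_lit 304))))))))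
noncomputable def xc37 : XT := (XT.nd (nat_lit 2184) (nat_lit 836) (nat_lit 0) (XT.nd (nat_lit 1092) (nat_lit 988) (nat_lit 0) (XT.nd (nat_lit 546) (nat_lit 684) (nat_lit 0) (XT.nd (nat_lit 234) (nat_lit 456) (nat_lit 0) (XT.nd (nat_lit 78) (nat_lit 228) (nat_lit 0) (XT.lf (nat_lit 0) (nat_lit 1153753159) (nat_lit 304) (nat_lit 8378791044) (nat_lit 76) (nat_lit 4665222092) (nat_lit 56) (nat_lit 5) (nat_lit 60) (nat_lit 5) (nat_lit 57) (nat_lit 5) (nat_lit 488) (nat_lit 349) (nat_lit 303)) (XT.nd (nat_lit 78) (nat_lit 228) (nat_lit 0) (XT.lf (nat_lit 0) (nat_lit 4804964354) (nat_lit 304) (nat_lit 1063841192) (nat_lit 76) (nat_lit 8522676448) (nat_lit 56) (nat_lit 5) (nat_lit 60) (nat_lit 5) (nat_lit 57) (nat_lit 5) (nat_lit 489) (nat_lit 349) (nat_lit 302)) (XT.lf (nat_lit 0) (nat_lit 6416612106) (nat_lit 228) (nat_lit 2115567394) (nat_lit 304) (nat_lit 6056845617) (nat_lit 53) (nat_lit 5) (nat_lit 56) (nat_lit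 5) (nat_lit 57) (nat_lit 5) (nat_lit 490) (nat_lit 349) (nat_lit 301)))) (XT.nd (nat_lit 156) (nat_lit 228) (nat_lit 0) (XT.nd (nat_lit 78) (nat_lit 228) (nat_lit 0) (XT.lf (nat_lit 0) (nat_lit 12313733742) (nat_lit 304) (nat_lit 805581268) (nat_lit 76) (nat_lit 1671620656) (nat_lit 53) (nat_lit 5) (nat_lit 57) (nat_lit 5) (nat_lit 54) (nat_lit 4) (nat_lit 491) (nat_lit 349) (nat_lit 300)) (XT.lf (nat_lit 0) (nat_lit 1178633590) (nat_lit 228) (nat_lit 8285413199) (nat_lit 76) (nat_lit 5532297225) (nat_lit 50) (nat_lit 5) (nat_lit 53) (nat_lit 5) (nat_lit 51) (nat_lit 5) (nat_lit 492) (nat_lit 349) (nat_lit 299))) (XT.nd (nat_lit 78) (nat_lit 228) (nat_lit 0) (XT.lf (nat_lit 0) (nat_lit 4842201031) (nat_lit 228) (nat_lit 897448461) (nat_lit 76) (nat_lit 9466539590) (nat_lit 50) (nat_lit 5) (nat_lit 53) (nat_lit 5) (nat_lit 51) (nat_lit 5) (nat_lit 493) (nat_lit 349) (nat_lit 298)) (XT.lf (nat_lit 0) (nat_lit 6662967523)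 (nat_lit 228) (nat_lit 1922383946) (nat_lit 304) (nat_lit 6834764858) (nat_lit 47) (nat_lit 5) (nat_lit 50) (nat_lit 5) (nat_lit 51) (nat_lit 5) (nat_lit 494) (nat_lit 349) (nat_lit 297))))) (XT.nd (nat_lit 234) (nat_lit 456) (nat_lit 0) (XT.nd (nat_lit 78) (nat_lit 228) (nat_lit 0) (XT.lf (nat_lit 0) (nat_lit 12385430465) (nat_lit 304) (nat_lit 1327141991) (nat_lit 76) (nat_lit 1926119634) (nat_lit 47) (nat_lit 5) (nat_lit 51) (nat_lit 5) (nat_lit 48) (nat_lit 4) (nat_lit 495) (nat_lit 349) (nat_lit 296)) (XT.nd (nat_lit 78) (nat_lit 0) (nat_lit 0) (XT.lf (nat_lit 0) (nat_lit 412027069) (nat_lit 228) (nat_lit 9604817139) (nat_lit 76) (nat_lit 5844406083) (nat_lit 44) (nat_lit 5) (nat_lit 47) (nat_lit 5) (nat_lit 45) (nat_lit 5) (nat_lit 496) (nat_lit 349) (nat_lit 295)) (XT.lf (nat_lit 0) (nat_lit 4080054452) (nat_lit 228) (nat_lit 2161725883) (nat_lit 76) (nat_lit 9846599992) (nat_lit 44) (nat_lit 5) (nat_lit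 47) (nat_lit 5) (nat_lit 45) (nat_lit 5) (nat_lit 497) (nat_lit 349) (nat_lit 294)))) (XT.nd (nat_lit 156) (nat_lit 228) (nat_lit 0) (XT.nd (nat_lit 78) (nat_lit 0) (nat_lit 0) (XT.lf (nat_lit 0) (nat_lit 5441087902) (nat_lit 228) (nat_lit 2380376303) (nat_lit 304) (nat_lit 8498598743) (nat_lit 41) (nat_lit 5) (nat_lit 44) (nat_lit 5) (nat_lit 45) (nat_lit 5) (nat_lit 498) (nat_lit 349) (nat_lit 293)) (XT.lf (nat_lit 0) (nat_lit 11627255526) (nat_lit 304) (nat_lit 3401691110) (nat_lit 76) (nat_lit 1527651740) (nat_lit 41) (nat_lit 5) (nat_lit 45) (nat_lit 5) (nat_lit 42) (nat_lit 4) (nat_lit 499) (nat_lit 349) (nat_lit 292))) (XT.nd (nat_lit 78) (nat_lit 76) (nat_lit 0) (XT.lf (nat_lit 0) (nat_lit 4205064363) (nat_lit 152) (nat_lit 11312687744) (nat_lit 228) (nat_lit 1279950634) (nat_lit 39) (nat_lit 5) (nat_lit 41) (nat_lit 5) (nat_lit 42) (nat_lit 4) (nat_lit 500) (nat_lit 349) (nat_lit 291)) (XT.lf (nat_lit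 0) (nat_lit 2398954541) (nat_lit 228) (nat_lit 5108652040) (nat_lit 76) (nat_lit 9535943925) (nat_lit 38) (nat_lit 5) (nat_lit 41) (nat_lit 5) (nat_lit 39) (nat_lit 5) (nat_lit 501) (nat_lit 349) (nat_lit 290)))))) (XT.nd (nat_lit 546) (nat_lit 456) (nat_lit 0) (XT.nd (nat_lit 234) (nat_lit 228) (nat_lit 0) (XT.nd (nat_lit 78) (nat_lit 152) (nat_lit 0) (XT.lf (nat_lit 0) (nat_lit 2490836567) (nat_lit 152) (nat_lit 3625905513) (nat_lit 228) (nat_lit 11177764522) (nat_lit 36) (nat_lit 5) (nat_lit 38) (nat_lit 5) (nat_lit 39) (nat_lit 5) (nat_lit 502) (nat_lit 349) (nat_lit 289)) (XT.nd (nat_lit 78) (nat_lit 152) (nat_lit 0) (XT.lf (nat_lit 0) (nat_lit 9911939576) (nat_lit 228) (nat_lit 7299127950) (nat_lit 76) (nat_lit 339362465) (nat_lit 36) (nat_lit 5) (nat_lit 39) (nat_lit 5) (nat_lit 37) (nat_lit 4) (nat_lit 503) (nat_lit 349) (nat_lit 288)) (XT.lf (nat_lit 0) (nat_lit 277778651) (nat_lit 152) (nat_lit 13498118300)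 (nat_lit 228) (nat_lit 4035726854) (nat_lit 34) (nat_lit 5) (nat_lit 36) (nat_lit 5) (nat_lit 37) (nat_lit 4) (nat_lit 504) (nat_lit 349) (nat_lit 287)))) (XT.nd (nat_lit 156) (nat_lit 152) (nat_lit 0) (XT.nd (nat_lit 78) (nat_lit 76) (nat_lit 0) (XT.lf (nat_lit 0) (nat_lit 8048185512) (nat_lit 152) (nat_lit 9685245070) (nat_lit 228) (nat_lit 344293866) (nat_lit 34) (nat_lit 5) (nat_lit 36) (nat_lit 5) (nat_lit 37) (nat_lit 4) (nat_lit 505) (nat_lit 349) (nat_lit 286)) (XT.lf (nat_lit 0) (nat_lit 3343837339) (nat_lit 228) (nat_lit 2453657336) (nat_lit 76) (nat_lit 12551862034) (nat_lit 33) (nat_lit 5) (nat_lit 36) (nat_lit 5) (nat_lit 34) (nat_lit 5) (nat_lit 506) (nat_lit 349) (nat_lit 285))) (XT.nd (nat_lit 78) (nat_lit 0) (nat_lit 0) (XT.lf (nat_lit 0) (nat_lit 5285587598) (nat_lit 152) (nat_lit 1818224115) (nat_lit 228) (nat_lit 11522518957) (nat_lit 31) (nat_lit 5) (nat_lit 33) (nat_lit 5) (nat_lit 34) (nat_lit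 5) (nat_lit 507) (nat_lit 349) (nat_lit 284)) (XT.lf (nat_lit 0) (nat_lit 10938588264) (nat_lit 228) (nat_lit 5765609824) (nat_lit 76) (nat_lit 2204662186) (nat_lit 31) (nat_lit 5) (nat_lit 34) (nat_lit 5) (nat_lit 32) (nat_lit 4) (nat_lit 508) (nat_lit 349) (nat_lit 283))))) (XT.nd (nat_lit 234) (nat_lit 228) (nat_lit 0) (XT.nd (nat_lit 78) (nat_lit 76) (nat_lit 0) (XT.lf (nat_lit 0) (nat_lit 1919934058) (nat_lit 152) (nat_lit 12923731665) (nat_lit 228) (nat_lit 4353510698) (nat_lit 29) (nat_lit 5) (nat_lit 31) (nat_lit 5) (nat_lit 32) (nat_lit 4) (nat_lit 509) (nat_lit 349) (nat_lit 282)) (XT.nd (nat_lit 78) (nat_lit 76) (nat_lit 0) (XT.lf (nat_lit 0) (nat_lit 9783468870) (nat_lit 152) (nat_lit 9051420933) (nat_lit 228) (nat_lit 656216087) (nat_lit 29) (nat_lit 5) (nat_lit 31) (nat_lit 5) (nat_lit 32) (nat_lit 4) (nat_lit 510) (nat_lit 349) (nat_lit 281)) (XT.lf (nat_lit 0) (nat_lit 3043919378) (nat_lit 228)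 (nat_lit 2060091936) (nat_lit 76) (nat_lit 14687110748) (nat_lit 28) (nat_lit 5) (nat_lit 31) (nat_lit 5) (nat_lit 29) (nat_lit 5) (nat_lit 511) (nat_lit 349) (nat_lit 280)))) (XT.nd (nat_lit 156) (nat_lit 76) (nat_lit 0) (XT.nd (nat_lit 78) (nat_lit 0) (nat_lit 0) (XT.lf (nat_lit 0) (nat_lit 5759410062) (nat_lit 152) (nat_lit 1057605104) (nat_lit 228) (nat_lit 13279889198) (nat_lit 26) (nat_lit 5) (nat_lit 28) (nat_lit 5) (nat_lit 29) (nat_lit 5) (nat_lit 512) (nat_lit 349) (nat_lit 279)) (XT.lf (nat_lit 0) (nat_lit 10669860993) (nat_lit 228) (nat_lit 6717611415) (nat_lit 76) (nat_lit 3021251441) (nat_lit 26) (nat_lit 5) (nat_lit 29) (nat_lit 5) (nat_lit 27) (nat_lit 4) (nat_lit 513) (nat_lit 349) (nat_lit 278))) (XT.nd (nat_lit 78) (nat_lit 0) (nat_lit 0) (XT.lf (nat_lit 0) (nat_lit 1009641550) (nat_lit 76) (nat_lit 13574702581) (nat_lit 152) (nat_lit 6142751138) (nat_lit 25) (nat_lit 5) (nat_lit 26) (nat_lit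 5) (nat_lit 27) (nat_lit 4) (nat_lit 514) (nat_lit 349) (nat_lit 277)) (XT.lf (nat_lit 0) (nat_lit 8931570634) (nat_lit 76) (nat_lit 9661883690) (nat_lit 152) (nat_lit 2458060062) (nat_lit 25) (nat_lit 5) (nat_lit 26) (nat_lit 5) (nat_lit 27) (nat_lit 4) (nat_lit 515) (nat_lit 349) (nat_lit 276))))))) (XT.nd (nat_lit 1092) (nat_lit 0) (nat_lit 0) (XT.nd (nat_lit 546) (nat_lit 456) (nat_lit 0) (XT.nd (nat_lit 234) (nat_lit 152) (nat_lit 0) (XT.nd (nat_lit 78) (nat_lit 152) (nat_lit 0) (XT.lf (nat_lit 0) (nat_lit 1254899683) (nat_lit 152) (nat_lit 4429239283) (nat_lit 76) (nat_lit 15698688233) (nat_lit 24) (nat_lit 5) (nat_lit 26) (nat_lit 5) (nat_lit 25) (nat_lit 5) (nat_lit 516) (nat_lit 349) (nat_lit 275)) (XT.nd (nat_lit 78) (nat_lit 0) (nat_lit 0) (XT.lf (nat_lit 0) (nat_lit 3394189544) (nat_lit 152) (nat_lit 1609268891) (nat_lit 228) (nat_lit 16717104422) (nat_lit 22) (nat_lit 5) (nat_lit 24) (nat_lit 5)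 (nat_lit 25) (nat_lit 5) (nat_lit 517) (nat_lit 349) (nat_lit 274)) (XT.lf (nat_lit 0) (nat_lit 8845718521) (nat_lit 228) (nat_lit 10696487890) (nat_lit 76) (nat_lit 2522478696) (nat_lit 22) (nat_lit 5) (nat_lit 25) (nat_lit 5) (nat_lit 23) (nat_lit 4) (nat_lit 518) (nat_lit 349) (nat_lit 273)))) (XT.nd (nat_lit 156) (nat_lit 76) (nat_lit 0) (XT.nd (nat_lit 78) (nat_lit 76) (nat_lit 0) (XT.lf (nat_lit 0) (nat_lit 12748298216) (nat_lit 228) (nat_lit 2973114397) (nat_lit 76) (nat_lit 6694614054) (nat_lit 22) (nat_lit 5) (nat_lit 25) (nat_lit 5) (nat_lit 23) (nat_lit 4) (nat_lit 519) (nat_lit 349) (nat_lit 272)) (XT.lf (nat_lit 0) (nat_lit 4921774337) (nat_lit 76) (nat_lit 11812460590) (nat_lit 152) (nat_lit 6040060252) (nat_lit 21) (nat_lit 5) (nat_lit 22) (nat_lit 5) (nat_lit 23) (nat_lit 4) (nat_lit 520) (nat_lit 349) (nat_lit 271))) (XT.nd (nat_lit 78) (nat_lit 76) (nat_lit 0) (XT.lf (nat_lit 0) (nat_lit 12967672524)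 (nat_lit 76) (nat_lit 7825735172) (nat_lit 152) (nat_lit 2346457125) (nat_lit 21) (nat_lit 5) (nat_lit 22) (nat_lit 5) (nat_lit 23) (nat_lit 4) (nat_lit 521) (nat_lit 349) (nat_lit 270)) (XT.lf (nat_lit 0) (nat_lit 1376288093) (nat_lit 152) (nat_lit 2394100388) (nat_lit 76) (nat_lit 19742700582) (nat_lit 20) (nat_lit 5) (nat_lit 22) (nat_lit 5) (nat_lit 21) (nat_lit 5) (nat_lit 522) (nat_lit 349) (nat_lit 269))))) (XT.nd (nat_lit 234) (nat_lit 304) (nat_lit 0) (XT.nd (nat_lit 78) (nat_lit 0) (nat_lit 0) (XT.lf (nat_lit 0) (nat_lit 5155146302) (nat_lit 228) (nat_lit 18344736425) (nat_lit 76) (nat_lit 393329073) (nat_lit 18) (nat_lit 5) (nat_lit 21) (nat_lit 5) (nat_lit 19) (nat_lit 4) (nat_lit 523) (nat_lit 349) (nat_lit 268)) (XT.nd (nat_lit 78) (nat_lit 0) (nat_lit 0) (XT.lf (nat_lit 0) (nat_lit 9025218551) (nat_lit 228) (nat_lit 10669121598) (nat_lit 76) (nat_lit 4586289746) (nat_lit 18) (nat_lit 5) (nat_lit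 21) (nat_lit 5) (nat_lit 19) (nat_lit 4) (nat_lit 524) (nat_lit 349) (nat_lit 267)) (XT.lf (nat_lit 0) (nat_lit 12947687685) (nat_lit 228) (nat_lit 2884882102) (nat_lit 76) (nat_lit 8843732188) (nat_lit 18) (nat_lit 5) (nat_lit 21) (nat_lit 5) (nat_lit 19) (nat_lit 4) (nat_lit 525) (nat_lit 349) (nat_lit 266)))) (XT.nd (nat_lit 156) (nat_lit 228) (nat_lit 0) (XT.nd (nat_lit 78) (nat_lit 0) (nat_lit 0) (XT.lf (nat_lit 0) (nat_lit 5077628718) (nat_lit 76) (nat_lit 11879430541) (nat_lit 152) (nat_lit 8122664600) (nat_lit 17) (nat_lit 5) (nat_lit 18) (nat_lit 5) (nat_lit 19) (nat_lit 4) (nat_lit 526) (nat_lit 349) (nat_lit 265)) (XT.lf (nat_lit 0) (nat_lit 13194777137) (nat_lit 76) (nat_lit 7846882756) (nat_lit 152) (nat_lit 4449658770) (nat_lit 17) (nat_lit 5) (nat_lit 18) (nat_lit 5) (nat_lit 19) (nat_lit 4) (nat_lit 527) (nat_lit 349) (nat_lit 264))) (XT.nd (nat_lit 78) (nat_lit 228) (nat_lit 0) (XT.lf (nat_lit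 0) (nat_lit 21431407785) (nat_lit 76) (nat_lit 3752704119) (nat_lit 152) (nat_lit 727515485) (nat_lit 17) (nat_lit 5) (nat_lit 18) (nat_lit 5) (nat_lit 19) (nat_lit 4) (nat_lit 528) (nat_lit 349) (nat_lit 263)) (XT.lf (nat_lit 0) (nat_lit 3030761155) (nat_lit 228) (nat_lit 22867126827) (nat_lit 76) (nat_lit 442021950) (nat_lit 14) (nat_lit 5) (nat_lit 17) (nat_lit 5) (nat_lit 15) (nat_lit 4) (nat_lit 529) (nat_lit 349) (nat_lit 262)))))) (XT.nd (nat_lit 52728) (nat_lit 0) (nat_lit 11400) (XT.nd (nat_lit 52416) (nat_lit 0) (nat_lit 14060) (XT.nd (nat_lit 78) (nat_lit 0) (nat_lit 0) (XT.lf (nat_lit 0) (nat_lit 6886120920) (nat_lit 228) (nat_lit 15202859679) (nat_lit 76) (nat_lit 4687053079) (nat_lit 14) (nat_lit 5) (nat_lit 17) (nat_lit 5) (nat_lit 15) (nat_lit 4) (nat_lit 530) (nat_lit 349) (nat_lit 261)) (XT.nd (nat_lit 52260) (nat_lit 0) (nat_lit 15808) (XT.lf (nat_lit 0) (nat_lit 10795581841) (nat_lit 228)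 (nat_lit 7426885462) (nat_lit 76) (nat_lit 8998877534) (nat_lit 14) (nat_lit 5) (nat_lit 17) (nat_lit 5) (nat_lit 15) (nat_lit 4) (nat_lit 531) (nat_lit 349) (nat_lit 260)) (XT.lf (nat_lit 0) (nat_lit 2768257104) (nat_lit 608) (nat_lit 706487692) (nat_lit 608) (nat_lit 706487692) (nat_lit 222) (nat_lit 4) (nat_lit 230) (nat_lit 5) (nat_lit 230) (nat_lit 4) (nat_lit 440) (nat_lit 350) (nat_lit 350)))) (XT.nd (nat_lit 156) (nat_lit 608) (nat_lit 0) (XT.nd (nat_lit 78) (nat_lit 532) (nat_lit 0) (XT.lf (nat_lit 0) (nat_lit 2187513822) (nat_lit 608) (nat_lit 5169576804) (nat_lit 0) (nat_lit 1074513000) (nat_lit 214) (nat_lit 5) (nat_lit 222) (nat_lit 4) (nat_lit 214) (nat_lit 4) (nat_lit 441) (nat_lit 350) (nat_lit 349)) (XT.lf (nat_lit 0) (nat_lit 919956760) (nat_lit 532) (nat_lit 4893379484) (nat_lit 532) (nat_lit 2689201385) (nat_lit 207) (nat_lit 4) (nat_lit 214) (nat_lit 5) (nat_lit 214) (nat_lit 4) (nat_lit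 442) (nat_lit 350) (nat_lit 348))) (XT.nd (nat_lit 78) (nat_lit 532) (nat_lit 0) (XT.lf (nat_lit 0) (nat_lit 897468007) (nat_lit 608) (nat_lit 1461074367) (nat_lit 76) (nat_lit 6216809433) (nat_lit 206) (nat_lit 5) (nat_lit 214) (nat_lit 5) (nat_lit 207) (nat_lit 4) (nat_lit 443) (nat_lit 350) (nat_lit 347)) (XT.lf (nat_lit 0) (nat_lit 4491649105) (nat_lit 608) (nat_lit 3904579672) (nat_lit 0) (nat_lit 253643934) (nat_lit 199) (nat_lit 5) (nat_lit 207) (nat_lit 4) (nat_lit 199) (nat_lit 4) (nat_lit 444) (nat_lit 350) (nat_lit 346))))) (XT.nd (nat_lit 234) (nat_lit 1596) (nat_lit 0) (XT.nd (nat_lit 78) (nat_lit 532) (nat_lit 0) (XT.lf (nat_lit 0) (nat_lit 2303530657) (nat_lit 532) (nat_lit 5834436742) (nat_lit 532) (nat_lit 588352434) (nat_lit 192) (nat_lit 4) (nat_lit 199) (nat_lit 5) (nat_lit 199) (nat_lit 4) (nat_lit 445) (nat_lit 350) (nat_lit 345)) (XT.nd (nat_lit 78) (nat_lit 456) (nat_lit 0) (XT.lf (nat_lit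 0) (nat_lit 2979285064) (nat_lit 608) (nat_lit 216241356) (nat_lit 76) (nat_lit 5609084165) (nat_lit 191) (nat_lit 5) (nat_lit 199) (nat_lit 5) (nat_lit 192) (nat_lit 4) (nat_lit 446) (nat_lit 350) (nat_lit 344)) (XT.lf (nat_lit 0) (nat_lit 6111075954) (nat_lit 456) (nat_lit 480214805) (nat_lit 532) (nat_lit 2293519257) (nat_lit 185) (nat_lit 5) (nat_lit 191) (nat_lit 5) (nat_lit 192) (nat_lit 4) (nat_lit 447) (nat_lit 350) (nat_lit 343)))) (XT.nd (nat_lit 156) (nat_lit 532) (nat_lit 0) (XT.nd (nat_lit 78) (nat_lit 456) (nat_lit 0) (XT.lf (nat_lit 0) (nat_lit 1272698777) (nat_lit 608) (nat_lit 5422547356) (nat_lit 76) (nat_lit 2271615505) (nat_lit 177) (nat_lit 5) (nat_lit 185) (nat_lit 5) (nat_lit 178) (nat_lit 4) (nat_lit 448) (nat_lit 350) (nat_lit 342)) (XT.lf (nat_lit 0) (nat_lit 888870735) (nat_lit 456) (nat_lit 3960296569) (nat_lit 532) (nat_lit 4201727353) (nat_lit 171) (nat_lit 5) (nat_lit 177) (nat_lit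 5) (nat_lit 178) (nat_lit 4) (nat_lit 449) (nat_lit 350) (nat_lit 341))) (XT.nd (nat_lit 78) (nat_lit 532) (nat_lit 0) (XT.lf (nat_lit 0) (nat_lit 7320115561) (nat_lit 456) (nat_lit 1155977608) (nat_lit 532) (nat_lit 660972187) (nat_lit 171) (nat_lit 5) (nat_lit 177) (nat_lit 5) (nat_lit 178) (nat_lit 4) (nat_lit 450) (nat_lit 350) (nat_lit 340)) (XT.lf (nat_lit 0) (nat_lit 2896384347) (nat_lit 532) (nat_lit 4619094005) (nat_lit 76) (nat_lit 1709442497) (nat_lit 164) (nat_lit 5) (nat_lit 171) (nat_lit 5) (nat_lit 165) (nat_lit 4) (nat_lit 451) (nat_lit 350) (nat_lit 339))))))))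
noncomputable def xc38 : XT := (XT.nd (nat_lit 2184) (nat_lit 3268) (nat_lit 0) (XT.nd (nat_lit 1092) (nat_lit 2964) (nat_lit 0) (XT.nd (nat_lit 546) (nat_lit 1596) (nat_lit 0) (XT.nd (nat_lit 234) (nat_lit 1292) (nat_lit 0) (XT.nd (nat_lit 78) (nat_lit 532) (nat_lit 0) (XT.lf (nat_lit 0) (nat_lit 1799265802) (nat_lit 456) (nat_lit 4692106333) (nat_lit 532) (nat_lit 2823600775) (nat_lit 158) (nat_lit 5) (nat_lit 164) (nat_lit 5) (nat_lit 165) (nat_lit 4) (nat_lit 452) (nat_lit 350) (nat_lit 338)) (XT.nd (nat_lit 78) (nat_lit 456) (nat_lit 0) (XT.lf (nat_lit 0) (nat_lit 716684446) (nat_lit 532) (nat_lit 1082555256) (nat_lit 76) (nat_lit 7608018841) (nat_lit 157) (nat_lit 5) (nat_lit 164) (nat_lit 5) (nat_lit 158) (nat_lit 5) (nat_lit 453) (nat_lit 350) (nat_lit 337)) (XT.lf (nat_lit 0) (nat_lit 4278099534) (nat_lit 532) (nat_lit 4055339635) (nat_lit 76) (nat_lit 1167846395) (nat_lit 151) (nat_lit 5) (nat_lit 158)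 (nat_lit 5) (nat_lit 152) (nat_lit 4) (nat_lit 454) (nat_lit 350) (nat_lit 336)))) (XT.nd (nat_lit 156) (nat_lit 836) (nat_lit 0) (XT.nd (nat_lit 78) (nat_lit 76) (nat_lit 0) (XT.lf (nat_lit 0) (nat_lit 2464241605) (nat_lit 380) (nat_lit 5427154562) (nat_lit 456) (nat_lit 1706214866) (nat_lit 146) (nat_lit 5) (nat_lit 151) (nat_lit 5) (nat_lit 152) (nat_lit 4) (nat_lit 455) (nat_lit 350) (nat_lit 335)) (XT.lf (nat_lit 0) (nat_lit 1829418566) (nat_lit 456) (nat_lit 617518590) (nat_lit 76) (nat_lit 7249251489) (nat_lit 145) (nat_lit 5) (nat_lit 151) (nat_lit 5) (nat_lit 146) (nat_lit 5) (nat_lit 456) (nat_lit 350) (nat_lit 334))) (XT.nd (nat_lit 78) (nat_lit 380) (nat_lit 0) (XT.lf (nat_lit 0) (nat_lit 5402711368) (nat_lit 532) (nat_lit 3782007643) (nat_lit 76) (nat_lit 612026567) (nat_lit 139) (nat_lit 5) (nat_lit 146) (nat_lit 5) (nat_lit 140) (nat_lit 4) (nat_lit 457) (nat_lit 350) (nat_lit 333)) (XT.lf (nat_lit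 0) (nat_lit 2831825831) (nat_lit 380) (nat_lit 6201462692) (nat_lit 456) (nat_lit 866337374) (nat_lit 134) (nat_lit 5) (nat_lit 139) (nat_lit 5) (nat_lit 140) (nat_lit 4) (nat_lit 458) (nat_lit 350) (nat_lit 332))))) (XT.nd (nat_lit 234) (nat_lit 836) (nat_lit 0) (XT.nd (nat_lit 78) (nat_lit 684) (nat_lit 0) (XT.lf (nat_lit 0) (nat_lit 2668848558) (nat_lit 456) (nat_lit 470837531) (nat_lit 76) (nat_lit 6865095199) (nat_lit 133) (nat_lit 5) (nat_lit 139) (nat_lit 5) (nat_lit 134) (nat_lit 5) (nat_lit 459) (nat_lit 350) (nat_lit 331)) (XT.nd (nat_lit 78) (nat_lit 304) (nat_lit 0) (XT.lf (nat_lit 0) (nat_lit 6252069038) (nat_lit 456) (nat_lit 3854359338) (nat_lit 76) (nat_lit 5745224) (nat_lit 128) (nat_lit 5) (nat_lit 134) (nat_lit 5) (nat_lit 129) (nat_lit 4) (nat_lit 460) (nat_lit 350) (nat_lit 330)) (XT.lf (nat_lit 0) (nat_lit 2845341248) (nat_lit 304) (nat_lit 7052671761) (nat_lit 380) (nat_lit 323906007) (nat_lit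 124) (nat_lit 5) (nat_lit 128) (nat_lit 5) (nat_lit 129) (nat_lit 4) (nat_lit 461) (nat_lit 350) (nat_lit 329)))) (XT.nd (nat_lit 156) (nat_lit 380) (nat_lit 0) (XT.nd (nat_lit 78) (nat_lit 380) (nat_lit 0) (XT.lf (nat_lit 0) (nat_lit 3214756241) (nat_lit 380) (nat_lit 700679583) (nat_lit 76) (nat_lit 6418526675) (nat_lit 123) (nat_lit 5) (nat_lit 128) (nat_lit 5) (nat_lit 124) (nat_lit 5) (nat_lit 462) (nat_lit 350) (nat_lit 328)) (XT.lf (nat_lit 0) (nat_lit 6111118908) (nat_lit 380) (nat_lit 698182907) (nat_lit 456) (nat_lit 3639138186) (nat_lit 118) (nat_lit 5) (nat_lit 123) (nat_lit 5) (nat_lit 124) (nat_lit 5) (nat_lit 463) (nat_lit 350) (nat_lit 327))) (XT.nd (nat_lit 78) (nat_lit 76) (nat_lit 0) (XT.lf (nat_lit 0) (nat_lit 2442793704) (nat_lit 304) (nat_lit 8020409244) (nat_lit 380) (nat_lit 102279235) (nat_lit 114) (nat_lit 5) (nat_lit 118) (nat_lit 5) (nat_lit 119) (nat_lit 4) (nat_lit 464) (nat_lit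 350) (nat_lit 326)) (XT.lf (nat_lit 0) (nat_lit 3443501862) (nat_lit 380) (nat_lit 1370716900) (nat_lit 76) (nat_lit 5870531591) (nat_lit 113) (nat_lit 5) (nat_lit 118) (nat_lit 5) (nat_lit 114) (nat_lit 5) (nat_lit 465) (nat_lit 350) (nat_lit 325)))))) (XT.nd (nat_lit 546) (nat_lit 1216) (nat_lit 0) (XT.nd (nat_lit 234) (nat_lit 988) (nat_lit 0) (XT.nd (nat_lit 78) (nat_lit 380) (nat_lit 0) (XT.lf (nat_lit 0) (nat_lit 5513254674) (nat_lit 380) (nat_lit 1532582790) (nat_lit 456) (nat_lit 3760835748) (nat_lit 108) (nat_lit 5) (nat_lit 113) (nat_lit 5) (nat_lit 114) (nat_lit 5) (nat_lit 466) (nat_lit 350) (nat_lit 324)) (XT.nd (nat_lit 78) (nat_lit 76) (nat_lit 0) (XT.lf (nat_lit 0) (nat_lit 1556203291) (nat_lit 304) (nat_lit 9146680189) (nat_lit 380) (nat_lit 228520337) (nat_lit 104) (nat_lit 5) (nat_lit 108) (nat_lit 5) (nat_lit 109) (nat_lit 4) (nat_lit 467) (nat_lit 350) (nat_lit 323)) (XT.lf (nat_lit 0) (nat_lit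 3327736973) (nat_lit 380) (nat_lit 2550811230) (nat_lit 76) (nat_lit 5179713300) (nat_lit 103) (nat_lit 5) (nat_lit 108) (nat_lit 5) (nat_lit 104) (nat_lit 5) (nat_lit 468) (nat_lit 350) (nat_lit 322)))) (XT.nd (nat_lit 156) (nat_lit 380) (nat_lit 0) (XT.nd (nat_lit 78) (nat_lit 304) (nat_lit 0) (XT.lf (nat_lit 0) (nat_lit 4392464399) (nat_lit 304) (nat_lit 2540710499) (nat_lit 380) (nat_lit 4254850189) (nat_lit 99) (nat_lit 5) (nat_lit 103) (nat_lit 5) (nat_lit 104) (nat_lit 5) (nat_lit 469) (nat_lit 350) (nat_lit 321)) (XT.lf (nat_lit 0) (nat_lit 110872111) (nat_lit 304) (nat_lit 10476286290) (nat_lit 380) (nat_lit 733717651) (nat_lit 95) (nat_lit 5) (nat_lit 99) (nat_lit 5) (nat_lit 100) (nat_lit 4) (nat_lit 470) (nat_lit 350) (nat_lit 320))) (XT.nd (nat_lit 78) (nat_lit 304) (nat_lit 0) (XT.lf (nat_lit 0) (nat_lit 2836080969) (nat_lit 380) (nat_lit 4317764147) (nat_lit 76) (nat_lit 4301873369) (nat_lit 94)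 (nat_lit 5) (nat_lit 99) (nat_lit 5) (nat_lit 95) (nat_lit 5) (nat_lit 471) (nat_lit 350) (nat_lit 319)) (XT.lf (nat_lit 0) (nat_lit 2669771553) (nat_lit 304) (nat_lit 3768939113) (nat_lit 380) (nat_lit 5155044554) (nat_lit 90) (nat_lit 5) (nat_lit 94) (nat_lit 5) (nat_lit 95) (nat_lit 5) (nat_lit 472) (nat_lit 350) (nat_lit 318))))) (XT.nd (nat_lit 234) (nat_lit 608) (nat_lit 0) (XT.nd (nat_lit 78) (nat_lit 608) (nat_lit 0) (XT.lf (nat_lit 0) (nat_lit 9783360348) (nat_lit 304) (nat_lit 313358211) (nat_lit 380) (nat_lit 1638186878) (nat_lit 90) (nat_lit 5) (nat_lit 94) (nat_lit 5) (nat_lit 95) (nat_lit 5) (nat_lit 473) (nat_lit 350) (nat_lit 317)) (XT.nd (nat_lit 78) (nat_lit 304) (nat_lit 0) (XT.lf (nat_lit 0) (nat_lit 1932757952) (nat_lit 304) (nat_lit 6756139939) (nat_lit 76) (nat_lit 3189559960) (nat_lit 86) (nat_lit 5) (nat_lit 90) (nat_lit 5) (nat_lit 87) (nat_lit 5) (nat_lit 474) (nat_lit 350) (nat_lit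 316)) (XT.lf (nat_lit 0) (nat_lit 258169944) (nat_lit 304) (nat_lit 5267154327) (nat_lit 380) (nat_lit 6499915863) (nat_lit 82) (nat_lit 5) (nat_lit 86) (nat_lit 5) (nat_lit 87) (nat_lit 5) (nat_lit 475) (nat_lit 350) (nat_lit 315)))) (XT.nd (nat_lit 156) (nat_lit 304) (nat_lit 0) (XT.nd (nat_lit 78) (nat_lit 304) (nat_lit 0) (XT.lf (nat_lit 0) (nat_lit 7433121357) (nat_lit 304) (nat_lit 1757557486) (nat_lit 380) (nat_lit 2984278275) (nat_lit 82) (nat_lit 5) (nat_lit 86) (nat_lit 5) (nat_lit 87) (nat_lit 5) (nat_lit 476) (nat_lit 350) (nat_lit 314)) (XT.lf (nat_lit 0) (nat_lit 577190195) (nat_lit 304) (nat_lit 9959169235) (nat_lit 76) (nat_lit 1791579799) (nat_lit 78) (nat_lit 5) (nat_lit 82) (nat_lit 5) (nat_lit 79) (nat_lit 5) (nat_lit 477) (nat_lit 350) (nat_lit 313))) (XT.nd (nat_lit 78) (nat_lit 304) (nat_lit 0) (XT.lf (nat_lit 0) (nat_lit 4170034037) (nat_lit 304) (nat_lit 2899772211) (nat_lit 76) (nat_lit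 5413794870) (nat_lit 78) (nat_lit 5) (nat_lit 82) (nat_lit 5) (nat_lit 79) (nat_lit 5) (nat_lit 478) (nat_lit 350) (nat_lit 312)) (XT.lf (nat_lit 0) (nat_lit 4287754569) (nat_lit 304) (nat_lit 3532071817) (nat_lit 380) (nat_lit 4822864461) (nat_lit 74) (nat_lit 5) (nat_lit 78) (nat_lit 5) (nat_lit 79) (nat_lit 5) (nat_lit 479) (nat_lit 350) (nat_lit 311))))))) (XT.nd (nat_lit 1092) (nat_lit 1444) (nat_lit 0) (XT.nd (nat_lit 546) (nat_lit 760) (nat_lit 0) (XT.nd (nat_lit 234) (nat_lit 532) (nat_lit 0) (XT.nd (nat_lit 78) (nat_lit 532) (nat_lit 0) (XT.lf (nat_lit 0) (nat_lit 11520170600) (nat_lit 380) (nat_lit 1216387440) (nat_lit 76) (nat_lit 68869326) (nat_lit 74) (nat_lit 5) (nat_lit 79) (nat_lit 5) (nat_lit 75) (nat_lit 4) (nat_lit 480) (nat_lit 350) (nat_lit 310)) (XT.nd (nat_lit 78) (nat_lit 228) (nat_lit 0) (XT.lf (nat_lit 0) (nat_lit 2313754233) (nat_lit 304) (nat_lit 6933477360) (nat_lit 76) (nat_lit 3723478468)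 (nat_lit 70) (nat_lit 5) (nat_lit 74) (nat_lit 5) (nat_lit 71) (nat_lit 5) (nat_lit 481) (nat_lit 350) (nat_lit 309)) (XT.lf (nat_lit 0) (nat_lit 239570224) (nat_lit 228) (nat_lit 5696148683) (nat_lit 304) (nat_lit 7204061115) (nat_lit 67) (nat_lit 5) (nat_lit 70) (nat_lit 5) (nat_lit 71) (nat_lit 5) (nat_lit 482) (nat_lit 350) (nat_lit 308)))) (XT.nd (nat_lit 156) (nat_lit 304) (nat_lit 0) (XT.nd (nat_lit 78) (nat_lit 228) (nat_lit 0) (XT.lf (nat_lit 0) (nat_lit 7582228483) (nat_lit 228) (nat_lit 2053191880) (nat_lit 304) (nat_lit 3676719958) (nat_lit 67) (nat_lit 5) (nat_lit 70) (nat_lit 5) (nat_lit 71) (nat_lit 5) (nat_lit 483) (nat_lit 350) (nat_lit 307)) (XT.lf (nat_lit 0) (nat_lit 1525850068) (nat_lit 228) (nat_lit 11863376748) (nat_lit 304) (nat_lit 99133387) (nat_lit 64) (nat_lit 5) (nat_lit 67) (nat_lit 5) (nat_lit 68) (nat_lit 4) (nat_lit 484) (nat_lit 350) (nat_lit 306))) (XT.nd (nat_lit 78) (nat_lit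 228) (nat_lit 0) (XT.lf (nat_lit 0) (nat_lit 3515240095) (nat_lit 304) (nat_lit 4767108197) (nat_lit 76) (nat_lit 5385073355) (nat_lit 63) (nat_lit 5) (nat_lit 67) (nat_lit 5) (nat_lit 64) (nat_lit 5) (nat_lit 485) (nat_lit 350) (nat_lit 305)) (XT.lf (nat_lit 0) (nat_lit 2538892829) (nat_lit 228) (nat_lit 4638451995) (nat_lit 304) (nat_lit 6673184723) (nat_lit 60) (nat_lit 5) (nat_lit 63) (nat_lit 5) (nat_lit 64) (nat_lit 5) (nat_lit 486) (nat_lit 350) (nat_lit 304))))) (XT.nd (nat_lit 234) (nat_lit 456) (nat_lit 0) (XT.nd (nat_lit 78) (nat_lit 304) (nat_lit 0) (XT.lf (nat_lit 0) (nat_lit 9990116694) (nat_lit 228) (nat_lit 915203847) (nat_lit 304) (nat_lit 3132139968) (nat_lit 60) (nat_lit 5) (nat_lit 63) (nat_lit 5) (nat_lit 64) (nat_lit 5) (nat_lit 487) (nat_lit 350) (nat_lit 303)) (XT.nd (nat_lit 78) (nat_lit 0) (nat_lit 0) (XT.lf (nat_lit 0) (nat_lit 474960814) (nat_lit 304) (nat_lit 10908996349) (nat_lit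 76) (nat_lit 2844093059) (nat_lit 56) (nat_lit 5) (nat_lit 60) (nat_lit 5) (nat_lit 57) (nat_lit 5) (nat_lit 488) (nat_lit 350) (nat_lit 302)) (XT.lf (nat_lit 0) (nat_lit 4107022913) (nat_lit 304) (nat_lit 3626200245) (nat_lit 76) (nat_lit 6688932034) (nat_lit 56) (nat_lit 5) (nat_lit 60) (nat_lit 5) (nat_lit 57) (nat_lit 5) (nat_lit 489) (nat_lit 350) (nat_lit 301)))) (XT.nd (nat_lit 156) (nat_lit 228) (nat_lit 0) (XT.nd (nat_lit 78) (nat_lit 0) (nat_lit 0) (XT.lf (nat_lit 0) (nat_lit 3788258439) (nat_lit 228) (nat_lit 4010140982) (nat_lit 304) (nat_lit 6822021836) (nat_lit 53) (nat_lit 5) (nat_lit 56) (nat_lit 5) (nat_lit 57) (nat_lit 5) (nat_lit 490) (nat_lit 350) (nat_lit 300)) (XT.lf (nat_lit 0) (nat_lit 11336902292) (nat_lit 228) (nat_lit 213445028) (nat_lit 304) (nat_lit 3272582657) (nat_lit 53) (nat_lit 5) (nat_lit 56) (nat_lit 5) (nat_lit 57) (nat_lit 5) (nat_lit 491) (nat_lit 350) (nat_lit 299))) (XT.nd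 (nat_lit 78) (nat_lit 0) (nat_lit 0) (XT.lf (nat_lit 0) (nat_lit 355889998) (nat_lit 228) (nat_lit 11058818988) (nat_lit 76) (nat_lit 3614494321) (nat_lit 50) (nat_lit 5) (nat_lit 53) (nat_lit 5) (nat_lit 51) (nat_lit 5) (nat_lit 492) (nat_lit 350) (nat_lit 298)) (XT.lf (nat_lit 0) (nat_lit 4001165976) (nat_lit 228) (nat_lit 3701890915) (nat_lit 76) (nat_lit 7536363011) (nat_lit 50) (nat_lit 5) (nat_lit 53) (nat_lit 5) (nat_lit 51) (nat_lit 5) (nat_lit 493) (nat_lit 350) (nat_lit 297)))))) (XT.nd (nat_lit 546) (nat_lit 608) (nat_lit 0) (XT.nd (nat_lit 234) (nat_lit 456) (nat_lit 0) (XT.nd (nat_lit 78) (nat_lit 152) (nat_lit 0) (XT.lf (nat_lit 0) (nat_lit 3790423029) (nat_lit 228) (nat_lit 3917310115) (nat_lit 304) (nat_lit 7746351255) (nat_lit 47) (nat_lit 5) (nat_lit 50) (nat_lit 5) (nat_lit 51) (nat_lit 5) (nat_lit 494) (nat_lit 350) (nat_lit 296)) (XT.nd (nat_lit 78) (nat_lit 152) (nat_lit 0) (XT.lf (nat_lit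 0) (nat_lit 11421702962) (nat_lit 228) (nat_lit 55659893) (nat_lit 304) (nat_lit 4195911767) (nat_lit 47) (nat_lit 5) (nat_lit 50) (nat_lit 5) (nat_lit 51) (nat_lit 5) (nat_lit 495) (nat_lit 350) (nat_lit 295)) (XT.lf (nat_lit 0) (nat_lit 3265963059) (nat_lit 152) (nat_lit 12067472965) (nat_lit 228) (nat_lit 563202454) (nat_lit 45) (nat_lit 5) (nat_lit 47) (nat_lit 5) (nat_lit 48) (nat_lit 4) (nat_lit 496) (nat_lit 350) (nat_lit 294)))) (XT.nd (nat_lit 156) (nat_lit 152) (nat_lit 0) (XT.nd (nat_lit 78) (nat_lit 228) (nat_lit 0) (XT.lf (nat_lit 0) (nat_lit 3094733544) (nat_lit 228) (nat_lit 5213878045) (nat_lit 76) (nat_lit 7815584775) (nat_lit 44) (nat_lit 5) (nat_lit 47) (nat_lit 5) (nat_lit 45) (nat_lit 5) (nat_lit 497) (nat_lit 350) (nat_lit 293)) (XT.lf (nat_lit 0) (nat_lit 2318620723) (nat_lit 228) (nat_lit 4480114266) (nat_lit 304) (nat_lit 9557897223) (nat_lit 41) (nat_lit 5) (nat_lit 44) (nat_lit 5) (nat_lit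 45) (nat_lit 5) (nat_lit 498) (nat_lit 350) (nat_lit 292))) (XT.nd (nat_lit 78) (nat_lit 152) (nat_lit 0) (XT.lf (nat_lit 0) (nat_lit 10013521315) (nat_lit 228) (nat_lit 563966064) (nat_lit 304) (nat_lit 6016225999) (nat_lit 41) (nat_lit 5) (nat_lit 44) (nat_lit 5) (nat_lit 45) (nat_lit 5) (nat_lit 499) (nat_lit 350) (nat_lit 291)) (XT.lf (nat_lit 0) (nat_lit 958791004) (nat_lit 152) (nat_lit 13467721336) (nat_lit 228) (nat_lit 2409139698) (nat_lit 39) (nat_lit 5) (nat_lit 41) (nat_lit 5) (nat_lit 42) (nat_lit 4) (nat_lit 500) (nat_lit 350) (nat_lit 290))))) (XT.nd (nat_lit 234) (nat_lit 380) (nat_lit 0) (XT.nd (nat_lit 78) (nat_lit 152) (nat_lit 0) (XT.lf (nat_lit 0) (nat_lit 1267869359) (nat_lit 228) (nat_lit 8414438664) (nat_lit 76) (nat_lit 7399677196) (nat_lit 38) (nat_lit 5) (nat_lit 41) (nat_lit 5) (nat_lit 39) (nat_lit 5) (nat_lit 501) (nat_lit 350) (nat_lit 289)) (XT.nd (nat_lit 78) (nat_lit 152) (nat_lit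 0) (XT.lf (nat_lit 0) (nat_lit 4953106660) (nat_lit 228) (nat_lit 875946661) (nat_lit 76) (nat_lit 11504543581) (nat_lit 38) (nat_lit 5) (nat_lit 41) (nat_lit 5) (nat_lit 39) (nat_lit 5) (nat_lit 502) (nat_lit 350) (nat_lit 288)) (XT.lf (nat_lit 0) (nat_lit 6847012782) (nat_lit 152) (nat_lit 1877056263) (nat_lit 228) (nat_lit 8865940441) (nat_lit 36) (nat_lit 5) (nat_lit 38) (nat_lit 5) (nat_lit 39) (nat_lit 5) (nat_lit 503) (nat_lit 350) (nat_lit 287)))) (XT.nd (nat_lit 156) (nat_lit 228) (nat_lit 0) (XT.nd (nat_lit 78) (nat_lit 152) (nat_lit 0) (XT.lf (nat_lit 0) (nat_lit 12558038806) (nat_lit 228) (nat_lit 3185383836) (nat_lit 76) (nat_lit 2108384813) (nat_lit 36) (nat_lit 5) (nat_lit 39) (nat_lit 5) (nat_lit 37) (nat_lit 4) (nat_lit 504) (nat_lit 350) (nat_lit 286)) (XT.lf (nat_lit 0) (nat_lit 4515036380) (nat_lit 152) (nat_lit 11963716702) (nat_lit 228) (nat_lit 1639895721) (nat_lit 34) (nat_lit 5) (nat_lit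 36) (nat_lit 5) (nat_lit 37) (nat_lit 4) (nat_lit 505) (nat_lit 350) (nat_lit 285))) (XT.nd (nat_lit 78) (nat_lit 152) (nat_lit 0) (XT.lf (nat_lit 0) (nat_lit 2049568520) (nat_lit 228) (nat_lit 6046643490) (nat_lit 76) (nat_lit 10294554623) (nat_lit 33) (nat_lit 5) (nat_lit 36) (nat_lit 5) (nat_lit 34) (nat_lit 5) (nat_lit 506) (nat_lit 350) (nat_lit 284)) (XT.lf (nat_lit 0) (nat_lit 1617707743) (nat_lit 152) (nat_lit 4152668866) (nat_lit 228) (nat_lit 12898151378) (nat_lit 31) (nat_lit 5) (nat_lit 33) (nat_lit 5) (nat_lit 34) (nat_lit 5) (nat_lit 507) (nat_lit 350) (nat_lit 283))))))))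
noncomputable def xc39 : XT := (XT.nd (nat_lit 54210) (nat_lit 0) (nat_lit 6460) (XT.nd (nat_lit 1092) (nat_lit 532) (nat_lit 0) (XT.nd (nat_lit 546) (nat_lit 380) (nat_lit 0) (XT.nd (nat_lit 234) (nat_lit 228) (nat_lit 0) (XT.nd (nat_lit 78) (nat_lit 152) (nat_lit 0) (XT.lf (nat_lit 0) (nat_lit 9463552485) (nat_lit 152) (nat_lit 111872576) (nat_lit 228) (nat_lit 9376231082) (nat_lit 31) (nat_lit 5) (nat_lit 33) (nat_lit 5) (nat_lit 34) (nat_lit 5) (nat_lit 508) (nat_lit 350) (nat_lit 282)) (XT.nd (nat_lit 78) (nat_lit 152) (nat_lit 0) (XT.lf (nat_lit 0) (nat_lit 13452312953) (nat_lit 228) (nat_lit 1853334367) (nat_lit 76) (nat_lit 3934892673) (nat_lit 31) (nat_lit 5) (nat_lit 34) (nat_lit 5) (nat_lit 32) (nat_lit 4) (nat_lit 509) (nat_lit 350) (nat_lit 281)) (XT.lf (nat_lit 0) (nat_lit 5959423106) (nat_lit 152) (nat_lit 11457047511) (nat_lit 228) (nat_lit 2118544006) (nat_lit 29) (nat_lit 5) (nat_lit 31) (nat_lit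 5) (nat_lit 32) (nat_lit 4) (nat_lit 510) (nat_lit 350) (nat_lit 280)))) (XT.nd (nat_lit 156) (nat_lit 0) (nat_lit 0) (XT.nd (nat_lit 78) (nat_lit 152) (nat_lit 0) (XT.lf (nat_lit 0) (nat_lit 1586088085) (nat_lit 228) (nat_lit 5944385636) (nat_lit 76) (nat_lit 12305044290) (nat_lit 28) (nat_lit 5) (nat_lit 31) (nat_lit 5) (nat_lit 29) (nat_lit 5) (nat_lit 511) (nat_lit 350) (nat_lit 279)) (XT.lf (nat_lit 0) (nat_lit 1797832496) (nat_lit 152) (nat_lit 3521236005) (nat_lit 228) (nat_lit 14823037733) (nat_lit 26) (nat_lit 5) (nat_lit 28) (nat_lit 5) (nat_lit 29) (nat_lit 5) (nat_lit 512) (nat_lit 350) (nat_lit 278))) (XT.nd (nat_lit 78) (nat_lit 0) (nat_lit 0) (XT.lf (nat_lit 0) (nat_lit 9141572824) (nat_lit 228) (nat_lit 10733774138) (nat_lit 76) (nat_lit 579189128) (nat_lit 26) (nat_lit 5) (nat_lit 29) (nat_lit 5) (nat_lit 27) (nat_lit 4) (nat_lit 513) (nat_lit 350) (nat_lit 277)) (XT.lf (nat_lit 0) (nat_lit 13035436017)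 (nat_lit 228) (nat_lit 3044643992) (nat_lit 76) (nat_lit 4693243373) (nat_lit 26) (nat_lit 5) (nat_lit 29) (nat_lit 5) (nat_lit 27) (nat_lit 4) (nat_lit 514) (nat_lit 350) (nat_lit 276))))) (XT.nd (nat_lit 234) (nat_lit 228) (nat_lit 0) (XT.nd (nat_lit 78) (nat_lit 76) (nat_lit 0) (XT.lf (nat_lit 0) (nat_lit 4812105877) (nat_lit 76) (nat_lit 12198460393) (nat_lit 152) (nat_lit 4087859233) (nat_lit 25) (nat_lit 5) (nat_lit 26) (nat_lit 5) (nat_lit 27) (nat_lit 4) (nat_lit 515) (nat_lit 350) (nat_lit 275)) (XT.nd (nat_lit 78) (nat_lit 76) (nat_lit 0) (XT.lf (nat_lit 0) (nat_lit 12818311356) (nat_lit 76) (nat_lit 8239693677) (nat_lit 152) (nat_lit 372175255) (nat_lit 25) (nat_lit 5) (nat_lit 26) (nat_lit 5) (nat_lit 27) (nat_lit 4) (nat_lit 516) (nat_lit 350) (nat_lit 274)) (XT.lf (nat_lit 0) (nat_lit 3345727575) (nat_lit 152) (nat_lit 854479402) (nat_lit 76) (nat_lit 17568471248) (nat_lit 24) (nat_lit 5) (nat_lit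 26) (nat_lit 5) (nat_lit 25) (nat_lit 5) (nat_lit 517) (nat_lit 350) (nat_lit 273)))) (XT.nd (nat_lit 156) (nat_lit 76) (nat_lit 0) (XT.nd (nat_lit 78) (nat_lit 0) (nat_lit 0) (XT.lf (nat_lit 0) (nat_lit 7101317050) (nat_lit 152) (nat_lit 51064328) (nat_lit 228) (nat_lit 14961134367) (nat_lit 22) (nat_lit 5) (nat_lit 24) (nat_lit 5) (nat_lit 25) (nat_lit 5) (nat_lit 518) (nat_lit 350) (nat_lit 272)) (XT.lf (nat_lit 0) (nat_lit 11041436461) (nat_lit 228) (nat_lit 7312009591) (nat_lit 76) (nat_lit 4111684829) (nat_lit 22) (nat_lit 5) (nat_lit 25) (nat_lit 5) (nat_lit 23) (nat_lit 4) (nat_lit 519) (nat_lit 350) (nat_lit 271))) (XT.nd (nat_lit 78) (nat_lit 0) (nat_lit 0) (XT.lf (nat_lit 0) (nat_lit 501856286) (nat_lit 76) (nat_lit 14483885464) (nat_lit 152) (nat_lit 7838493295) (nat_lit 21) (nat_lit 5) (nat_lit 22) (nat_lit 5) (nat_lit 23) (nat_lit 4) (nat_lit 520) (nat_lit 350) (nat_lit 270)) (XT.lf (nat_lit 0)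 (nat_lit 8524851314) (nat_lit 76) (nat_lit 10507233735) (nat_lit 152) (nat_lit 4157979191) (nat_lit 21) (nat_lit 5) (nat_lit 22) (nat_lit 5) (nat_lit 23) (nat_lit 4) (nat_lit 521) (nat_lit 350) (nat_lit 269)))))) (XT.nd (nat_lit 546) (nat_lit 228) (nat_lit 0) (XT.nd (nat_lit 234) (nat_lit 76) (nat_lit 0) (XT.nd (nat_lit 78) (nat_lit 228) (nat_lit 0) (XT.lf (nat_lit 0) (nat_lit 16662949004) (nat_lit 76) (nat_lit 6470998830) (nat_lit 152) (nat_lit 429776203) (nat_lit 21) (nat_lit 5) (nat_lit 22) (nat_lit 5) (nat_lit 23) (nat_lit 4) (nat_lit 522) (nat_lit 350) (nat_lit 268)) (XT.nd (nat_lit 78) (nat_lit 0) (nat_lit 0) (XT.lf (nat_lit 0) (nat_lit 964899941) (nat_lit 152) (nat_lit 2345038454) (nat_lit 228) (nat_lit 20634862583) (nat_lit 18) (nat_lit 5) (nat_lit 20) (nat_lit 5) (nat_lit 21) (nat_lit 5) (nat_lit 523) (nat_lit 350) (nat_lit 267)) (XT.lf (nat_lit 0) (nat_lit 7152406605) (nat_lit 228) (nat_lit 15311282263)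 (nat_lit 76) (nat_lit 1869085025) (nat_lit 18) (nat_lit 5) (nat_lit 21) (nat_lit 5) (nat_lit 19) (nat_lit 4) (nat_lit 524) (nat_lit 350) (nat_lit 266)))) (XT.nd (nat_lit 156) (nat_lit 0) (nat_lit 0) (XT.nd (nat_lit 78) (nat_lit 76) (nat_lit 0) (XT.lf (nat_lit 0) (nat_lit 11062739959) (nat_lit 228) (nat_lit 7548828648) (nat_lit 76) (nat_lit 6117122767) (nat_lit 18) (nat_lit 5) (nat_lit 21) (nat_lit 5) (nat_lit 19) (nat_lit 4) (nat_lit 525) (nat_lit 350) (nat_lit 265)) (XT.lf (nat_lit 0) (nat_lit 330058226) (nat_lit 76) (nat_lit 14699331107) (nat_lit 152) (nat_lit 10103580999) (nat_lit 17) (nat_lit 5) (nat_lit 18) (nat_lit 5) (nat_lit 19) (nat_lit 4) (nat_lit 526) (nat_lit 350) (nat_lit 264))) (XT.nd (nat_lit 78) (nat_lit 0) (nat_lit 0) (XT.lf (nat_lit 0) (nat_lit 8425988457) (nat_lit 76) (nat_lit 10676199215) (nat_lit 152) (nat_lit 6442616091) (nat_lit 17) (nat_lit 5) (nat_lit 18) (nat_lit 5) (nat_lit 19) (nat_lit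 4) (nat_lit 527) (nat_lit 350) (nat_lit 263)) (XT.lf (nat_lit 0) (nat_lit 16641816959) (nat_lit 76) (nat_lit 6591251845) (nat_lit 152) (nat_lit 2732277631) (nat_lit 17) (nat_lit 5) (nat_lit 18) (nat_lit 5) (nat_lit 19) (nat_lit 4) (nat_lit 528) (nat_lit 350) (nat_lit 262))))) (XT.nd (nat_lit 52260) (nat_lit 0) (nat_lit 15200) (XT.nd (nat_lit 78) (nat_lit 152) (nat_lit 0) (XT.lf (nat_lit 0) (nat_lit 1015395344) (nat_lit 152) (nat_lit 1420677877) (nat_lit 76) (nat_lit 23958556443) (nat_lit 16) (nat_lit 5) (nat_lit 18) (nat_lit 5) (nat_lit 17) (nat_lit 5) (nat_lit 529) (nat_lit 350) (nat_lit 261)) (XT.nd (nat_lit 78) (nat_lit 0) (nat_lit 0) (XT.lf (nat_lit 0) (nat_lit 4834140915) (nat_lit 228) (nat_lit 20174812190) (nat_lit 76) (nat_lit 1822534974) (nat_lit 14) (nat_lit 5) (nat_lit 17) (nat_lit 5) (nat_lit 15) (nat_lit 4) (nat_lit 530) (nat_lit 350) (nat_lit 260)) (XT.lf (nat_lit 0) (nat_lit 8732436022) (nat_lit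 228) (nat_lit 12419017683) (nat_lit 76) (nat_lit 6125571185) (nat_lit 14) (nat_lit 5) (nat_lit 17) (nat_lit 5) (nat_lit 15) (nat_lit 4) (nat_lit 531) (nat_lit 350) (nat_lit 259)))) (XT.nd (nat_lit 156) (nat_lit 1216) (nat_lit 0) (XT.nd (nat_lit 78) (nat_lit 0) (nat_lit 0) (XT.lf (nat_lit 0) (nat_lit 435518069) (nat_lit 684) (nat_lit 3243400672) (nat_lit 0) (nat_lit 435518069) (nat_lit 230) (nat_lit 5) (nat_lit 239) (nat_lit 4) (nat_lit 230) (nat_lit 4) (nat_lit 438) (nat_lit 351) (nat_lit 351)) (XT.lf (nat_lit 0) (nat_lit 4451076552) (nat_lit 684) (nat_lit 550856310) (nat_lit 0) (nat_lit 3293110497) (nat_lit 230) (nat_lit 5) (nat_lit 239) (nat_lit 4) (nat_lit 230) (nat_lit 4) (nat_lit 439) (nat_lit 351) (nat_lit 350))) (XT.nd (nat_lit 78) (nat_lit 608) (nat_lit 0) (XT.lf (nat_lit 0) (nat_lit 5496870949) (nat_lit 608) (nat_lit 2579730396) (nat_lit 608) (nat_lit 286503503) (nat_lit 222) (nat_lit 4) (nat_lit 230)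 (nat_lit 5) (nat_lit 230) (nat_lit 4) (nat_lit 440) (nat_lit 351) (nat_lit 349)) (XT.lf (nat_lit 0) (nat_lit 3181192923) (nat_lit 532) (nat_lit 79906402) (nat_lit 608) (nat_lit 5171782048) (nat_lit 214) (nat_lit 5) (nat_lit 221) (nat_lit 5) (nat_lit 222) (nat_lit 4) (nat_lit 441) (nat_lit 351) (nat_lit 348))))))) (XT.nd (nat_lit 1092) (nat_lit 3572) (nat_lit 0) (XT.nd (nat_lit 546) (nat_lit 2356) (nat_lit 0) (XT.nd (nat_lit 234) (nat_lit 1672) (nat_lit 0) (XT.nd (nat_lit 78) (nat_lit 608) (nat_lit 0) (XT.lf (nat_lit 0) (nat_lit 797152837) (nat_lit 532) (nat_lit 6058267313) (nat_lit 532) (nat_lit 1649046732) (nat_lit 207) (nat_lit 4) (nat_lit 214) (nat_lit 5) (nat_lit 214) (nat_lit 4) (nat_lit 442) (nat_lit 351) (nat_lit 347)) (XT.nd (nat_lit 78) (nat_lit 532) (nat_lit 0) (XT.lf (nat_lit 0) (nat_lit 1893913376) (nat_lit 608) (nat_lit 1632321092) (nat_lit 76) (nat_lit 5051533511) (nat_lit 206) (nat_lit 5) (nat_lit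 214) (nat_lit 5) (nat_lit 207) (nat_lit 4) (nat_lit 443) (nat_lit 351) (nat_lit 346)) (XT.lf (nat_lit 0) (nat_lit 4533974024) (nat_lit 532) (nat_lit 921590756) (nat_lit 608) (nat_lit 3197394932) (nat_lit 199) (nat_lit 5) (nat_lit 206) (nat_lit 5) (nat_lit 207) (nat_lit 4) (nat_lit 444) (nat_lit 351) (nat_lit 345)))) (XT.nd (nat_lit 156) (nat_lit 1064) (nat_lit 0) (XT.nd (nat_lit 78) (nat_lit 0) (nat_lit 0) (XT.lf (nat_lit 0) (nat_lit 330501096) (nat_lit 608) (nat_lit 6679785792) (nat_lit 76) (nat_lit 1719832828) (nat_lit 191) (nat_lit 5) (nat_lit 199) (nat_lit 5) (nat_lit 192) (nat_lit 4) (nat_lit 445) (nat_lit 351) (nat_lit 344)) (XT.lf (nat_lit 0) (nat_lit 3861317774) (nat_lit 608) (nat_lit 516470298) (nat_lit 76) (nat_lit 4431147152) (nat_lit 191) (nat_lit 5) (nat_lit 199) (nat_lit 5) (nat_lit 192) (nat_lit 4) (nat_lit 446) (nat_lit 351) (nat_lit 343))) (XT.nd (nat_lit 78) (nat_lit 608) (nat_lit 0) (XT.lf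 (nat_lit 0) (nat_lit 5767704065) (nat_lit 456) (nat_lit 1674856207) (nat_lit 532) (nat_lit 1447208339) (nat_lit 185) (nat_lit 5) (nat_lit 191) (nat_lit 5) (nat_lit 192) (nat_lit 4) (nat_lit 447) (nat_lit 351) (nat_lit 342)) (XT.lf (nat_lit 0) (nat_lit 2069094370) (nat_lit 608) (nat_lit 5818053866) (nat_lit 76) (nat_lit 1085356384) (nat_lit 177) (nat_lit 5) (nat_lit 185) (nat_lit 5) (nat_lit 178) (nat_lit 4) (nat_lit 448) (nat_lit 351) (nat_lit 341))))) (XT.nd (nat_lit 234) (nat_lit 1368) (nat_lit 0) (XT.nd (nat_lit 78) (nat_lit 532) (nat_lit 0) (XT.lf (nat_lit 0) (nat_lit 448550882) (nat_lit 456) (nat_lit 5165964366) (nat_lit 532) (nat_lit 3442660959) (nat_lit 171) (nat_lit 5) (nat_lit 177) (nat_lit 5) (nat_lit 178) (nat_lit 4) (nat_lit 449) (nat_lit 351) (nat_lit 340)) (XT.nd (nat_lit 78) (nat_lit 456) (nat_lit 0) (XT.lf (nat_lit 0) (nat_lit 68718077) (nat_lit 532) (nat_lit 2303359955) (nat_lit 76) (nat_lit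 6771834861) (nat_lit 170) (nat_lit 5) (nat_lit 177) (nat_lit 5) (nat_lit 171) (nat_lit 5) (nat_lit 450) (nat_lit 351) (nat_lit 339)) (XT.lf (nat_lit 0) (nat_lit 3578425152) (nat_lit 532) (nat_lit 5154668749) (nat_lit 76) (nat_lit 499384868) (nat_lit 164) (nat_lit 5) (nat_lit 171) (nat_lit 5) (nat_lit 165) (nat_lit 4) (nat_lit 451) (nat_lit 351) (nat_lit 338)))) (XT.nd (nat_lit 156) (nat_lit 836) (nat_lit 0) (XT.nd (nat_lit 78) (nat_lit 76) (nat_lit 0) (XT.lf (nat_lit 0) (nat_lit 1217418491) (nat_lit 456) (nat_lit 5924899356) (nat_lit 532) (nat_lit 2180851157) (nat_lit 158) (nat_lit 5) (nat_lit 164) (nat_lit 5) (nat_lit 165) (nat_lit 4) (nat_lit 452) (nat_lit 351) (nat_lit 337)) (XT.lf (nat_lit 0) (nat_lit 1323778573) (nat_lit 532) (nat_lit 1715536590) (nat_lit 76) (nat_lit 6376616168) (nat_lit 157) (nat_lit 5) (nat_lit 164) (nat_lit 5) (nat_lit 158) (nat_lit 5) (nat_lit 453) (nat_lit 351) (nat_lit 336))) (XT.nd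 (nat_lit 78) (nat_lit 380) (nat_lit 0) (XT.lf (nat_lit 0) (nat_lit 4773879730) (nat_lit 456) (nat_lit 72524472) (nat_lit 532) (nat_lit 4664345271) (nat_lit 151) (nat_lit 5) (nat_lit 157) (nat_lit 5) (nat_lit 158) (nat_lit 5) (nat_lit 454) (nat_lit 351) (nat_lit 335)) (XT.lf (nat_lit 0) (nat_lit 1735399152) (nat_lit 380) (nat_lit 6692611411) (nat_lit 456) (nat_lit 1179713221) (nat_lit 146) (nat_lit 5) (nat_lit 151) (nat_lit 5) (nat_lit 152) (nat_lit 4) (nat_lit 455) (nat_lit 351) (nat_lit 334)))))) (XT.nd (nat_lit 546) (nat_lit 1824) (nat_lit 0) (XT.nd (nat_lit 234) (nat_lit 836) (nat_lit 0) (XT.nd (nat_lit 78) (nat_lit 836) (nat_lit 0) (XT.lf (nat_lit 0) (nat_lit 2322612443) (nat_lit 456) (nat_lit 1398230363) (nat_lit 76) (nat_lit 5985932725) (nat_lit 145) (nat_lit 5) (nat_lit 151) (nat_lit 5) (nat_lit 146) (nat_lit 5) (nat_lit 456) (nat_lit 351) (nat_lit 333)) (XT.nd (nat_lit 78) (nat_lit 380) (nat_lit 0) (XT.lf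 (nat_lit 0) (nat_lit 5189671988) (nat_lit 456) (nat_lit 670938317) (nat_lit 532) (nat_lit 3947442224) (nat_lit 139) (nat_lit 5) (nat_lit 145) (nat_lit 5) (nat_lit 146) (nat_lit 5) (nat_lit 457) (nat_lit 351) (nat_lit 332)) (XT.lf (nat_lit 0) (nat_lit 1950460486) (nat_lit 380) (nat_lit 7504952508) (nat_lit 456) (nat_lit 456249232) (nat_lit 134) (nat_lit 5) (nat_lit 139) (nat_lit 5) (nat_lit 140) (nat_lit 4) (nat_lit 458) (nat_lit 351) (nat_lit 331)))) (XT.nd (nat_lit 156) (nat_lit 380) (nat_lit 0) (XT.nd (nat_lit 78) (nat_lit 380) (nat_lit 0) (XT.lf (nat_lit 0) (nat_lit 3047940654) (nat_lit 456) (nat_lit 1404796309) (nat_lit 76) (nat_lit 5564553106) (nat_lit 133) (nat_lit 5) (nat_lit 139) (nat_lit 5) (nat_lit 134) (nat_lit 5) (nat_lit 459) (nat_lit 351) (nat_lit 330)) (XT.lf (nat_lit 0) (nat_lit 5273836985) (nat_lit 380) (nat_lit 1325782108) (nat_lit 456) (nat_lit 3525707217) (nat_lit 128) (nat_lit 5) (nat_lit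 133) (nat_lit 5) (nat_lit 134) (nat_lit 5) (nat_lit 460) (nat_lit 351) (nat_lit 329))) (XT.nd (nat_lit 78) (nat_lit 76) (nat_lit 0) (XT.lf (nat_lit 0) (nat_lit 1805846991) (nat_lit 304) (nat_lit 8399418402) (nat_lit 380) (nat_lit 30625117) (nat_lit 124) (nat_lit 5) (nat_lit 128) (nat_lit 5) (nat_lit 129) (nat_lit 4) (nat_lit 461) (nat_lit 351) (nat_lit 328)) (XT.lf (nat_lit 0) (nat_lit 3479322229) (nat_lit 380) (nat_lit 1793485651) (nat_lit 76) (nat_lit 5075597733) (nat_lit 123) (nat_lit 5) (nat_lit 128) (nat_lit 5) (nat_lit 124) (nat_lit 5) (nat_lit 462) (nat_lit 351) (nat_lit 327))))) (XT.nd (nat_lit 312) (nat_lit 684) (nat_lit 0) (XT.nd (nat_lit 156) (nat_lit 380) (nat_lit 0) (XT.nd (nat_lit 78) (nat_lit 380) (nat_lit 0) (XT.lf (nat_lit 0) (nat_lit 4966600169) (nat_lit 380) (nat_lit 2075455805) (nat_lit 456) (nat_lit 3421475467) (nat_lit 118) (nat_lit 5) (nat_lit 123) (nat_lit 5) (nat_lit 124) (nat_lit 5)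 (nat_lit 463) (nat_lit 351) (nat_lit 326)) (XT.lf (nat_lit 0) (nat_lit 72612680) (nat_lit 380) (nat_lit 9342414103) (nat_lit 76) (nat_lit 1166368631) (nat_lit 113) (nat_lit 5) (nat_lit 118) (nat_lit 5) (nat_lit 114) (nat_lit 5) (nat_lit 464) (nat_lit 351) (nat_lit 325))) (XT.nd (nat_lit 78) (nat_lit 380) (nat_lit 0) (XT.lf (nat_lit 0) (nat_lit 3592899602) (nat_lit 380) (nat_lit 2628071647) (nat_lit 76) (nat_lit 4480173503) (nat_lit 113) (nat_lit 5) (nat_lit 118) (nat_lit 5) (nat_lit 114) (nat_lit 5) (nat_lit 465) (nat_lit 351) (nat_lit 324)) (XT.lf (nat_lit 0) (nat_lit 4202468476) (nat_lit 380) (nat_lit 2960577051) (nat_lit 456) (nat_lit 3660677047) (nat_lit 108) (nat_lit 5) (nat_lit 113) (nat_lit 5) (nat_lit 114) (nat_lit 5) (nat_lit 466) (nat_lit 351) (nat_lit 323)))) (XT.nd (nat_lit 156) (nat_lit 304) (nat_lit 0) (XT.nd (nat_lit 78) (nat_lit 76) (nat_lit 0) (XT.lf (nat_lit 0) (nat_lit 183232203) (nat_lit 304)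 (nat_lit 10595143481) (nat_lit 380) (nat_lit 170922765) (nat_lit 104) (nat_lit 5) (nat_lit 108) (nat_lit 5) (nat_lit 109) (nat_lit 4) (nat_lit 467) (nat_lit 351) (nat_lit 322)) (XT.lf (nat_lit 0) (nat_lit 3361110679) (nat_lit 380) (nat_lit 3978534096) (nat_lit 76) (nat_lit 3736983776) (nat_lit 103) (nat_lit 5) (nat_lit 108) (nat_lit 5) (nat_lit 104) (nat_lit 5) (nat_lit 468) (nat_lit 351) (nat_lit 321))) (XT.nd (nat_lit 78) (nat_lit 0) (nat_lit 0) (XT.lf (nat_lit 0) (nat_lit 2909524682) (nat_lit 304) (nat_lit 4024387395) (nat_lit 380) (nat_lit 4273143108) (nat_lit 99) (nat_lit 5) (nat_lit 103) (nat_lit 5) (nat_lit 104) (nat_lit 5) (nat_lit 469) (nat_lit 351) (nat_lit 320)) (XT.lf (nat_lit 0) (nat_lit 9917499035) (nat_lit 304) (nat_lit 641337058) (nat_lit 380) (nat_lit 781661365) (nat_lit 99) (nat_lit 5) (nat_lit 103) (nat_lit 5) (nat_lit 104) (nat_lit 5) (nat_lit 470) (nat_lit 351) (nat_lit 319))))))))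
noncomputable def xc40 : XT := (XT.nd (nat_lit 2184) (nat_lit 1976) (nat_lit 0) (XT.nd (nat_lit 1092) (nat_lit 1748) (nat_lit 0) (XT.nd (nat_lit 546) (nat_lit 836) (nat_lit 0) (XT.nd (nat_lit 234) (nat_lit 912) (nat_lit 0) (XT.nd (nat_lit 78) (nat_lit 304) (nat_lit 0) (XT.lf (nat_lit 0) (nat_lit 2752364602) (nat_lit 380) (nat_lit 5921809219) (nat_lit 76) (nat_lit 2801910048) (nat_lit 94) (nat_lit 5) (nat_lit 99) (nat_lit 5) (nat_lit 95) (nat_lit 5) (nat_lit 471) (nat_lit 351) (nat_lit 318)) (XT.nd (nat_lit 78) (nat_lit 0) (nat_lit 0) (XT.lf (nat_lit 0) (nat_lit 1008654096) (nat_lit 304) (nat_lit 5313188825) (nat_lit 380) (nat_lit 5292950245) (nat_lit 90) (nat_lit 5) (nat_lit 94) (nat_lit 5) (nat_lit 95) (nat_lit 5) (nat_lit 472) (nat_lit 351) (nat_lit 317)) (XT.lf (nat_lit 0) (nat_lit 8087188510) (nat_lit 304) (nat_lit 1870506961) (nat_lit 380) (nat_lit 1798700365) (nat_lit 90) (nat_lit 5) (nat_lit 94) (nat_lit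 5) (nat_lit 95) (nat_lit 5) (nat_lit 473) (nat_lit 351) (nat_lit 316)))) (XT.nd (nat_lit 156) (nat_lit 608) (nat_lit 0) (XT.nd (nat_lit 78) (nat_lit 0) (nat_lit 0) (XT.lf (nat_lit 0) (nat_lit 1730677882) (nat_lit 304) (nat_lit 8542612243) (nat_lit 76) (nat_lit 1627561388) (nat_lit 86) (nat_lit 5) (nat_lit 90) (nat_lit 5) (nat_lit 87) (nat_lit 5) (nat_lit 474) (nat_lit 351) (nat_lit 315)) (XT.lf (nat_lit 0) (nat_lit 5299816564) (nat_lit 304) (nat_lit 1566486216) (nat_lit 76) (nat_lit 5181808377) (nat_lit 86) (nat_lit 5) (nat_lit 90) (nat_lit 5) (nat_lit 87) (nat_lit 5) (nat_lit 475) (nat_lit 351) (nat_lit 314))) (XT.nd (nat_lit 78) (nat_lit 304) (nat_lit 0) (XT.lf (nat_lit 0) (nat_lit 5553078440) (nat_lit 304) (nat_lit 3380237492) (nat_lit 380) (nat_lit 3265157948) (nat_lit 82) (nat_lit 5) (nat_lit 86) (nat_lit 5) (nat_lit 87) (nat_lit 5) (nat_lit 476) (nat_lit 351) (nat_lit 313)) (XT.lf (nat_lit 0) (nat_lit 255267160)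 (nat_lit 304) (nat_lit 11934340805) (nat_lit 76) (nat_lit 162787343) (nat_lit 78) (nat_lit 5) (nat_lit 82) (nat_lit 5) (nat_lit 79) (nat_lit 5) (nat_lit 477) (nat_lit 351) (nat_lit 312))))) (XT.nd (nat_lit 234) (nat_lit 532) (nat_lit 0) (XT.nd (nat_lit 78) (nat_lit 304) (nat_lit 0) (XT.lf (nat_lit 0) (nat_lit 3826948964) (nat_lit 304) (nat_lit 4909247175) (nat_lit 76) (nat_lit 3772292434) (nat_lit 78) (nat_lit 5) (nat_lit 82) (nat_lit 5) (nat_lit 79) (nat_lit 5) (nat_lit 478) (nat_lit 351) (nat_lit 311)) (XT.nd (nat_lit 78) (nat_lit 0) (nat_lit 0) (XT.lf (nat_lit 0) (nat_lit 2217497025) (nat_lit 304) (nat_lit 5225055707) (nat_lit 380) (nat_lit 5225717319) (nat_lit 74) (nat_lit 5) (nat_lit 78) (nat_lit 5) (nat_lit 79) (nat_lit 5) (nat_lit 479) (nat_lit 351) (nat_lit 310)) (XT.lf (nat_lit 0) (nat_lit 9485835010) (nat_lit 304) (nat_lit 1636051643) (nat_lit 380) (nat_lit 1709547946) (nat_lit 74) (nat_lit 5) (nat_lit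 78) (nat_lit 5) (nat_lit 79) (nat_lit 5) (nat_lit 480) (nat_lit 351) (nat_lit 309)))) (XT.nd (nat_lit 156) (nat_lit 228) (nat_lit 0) (XT.nd (nat_lit 78) (nat_lit 0) (nat_lit 0) (XT.lf (nat_lit 0) (nat_lit 1849708025) (nat_lit 304) (nat_lit 9137607402) (nat_lit 76) (nat_lit 2010370873) (nat_lit 70) (nat_lit 5) (nat_lit 74) (nat_lit 5) (nat_lit 71) (nat_lit 5) (nat_lit 481) (nat_lit 351) (nat_lit 308)) (XT.lf (nat_lit 0) (nat_lit 5449924497) (nat_lit 304) (nat_lit 2000843266) (nat_lit 76) (nat_lit 5716430832) (nat_lit 70) (nat_lit 5) (nat_lit 74) (nat_lit 5) (nat_lit 71) (nat_lit 5) (nat_lit 482) (nat_lit 351) (nat_lit 307))) (XT.nd (nat_lit 78) (nat_lit 0) (nat_lit 0) (XT.lf (nat_lit 0) (nat_lit 5282301431) (nat_lit 228) (nat_lit 3834150502) (nat_lit 304) (nat_lit 4223777668) (nat_lit 67) (nat_lit 5) (nat_lit 70) (nat_lit 5) (nat_lit 71) (nat_lit 5) (nat_lit 483) (nat_lit 351) (nat_lit 306)) (XT.lf (nat_lit 0)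 (nat_lit 12673029721) (nat_lit 228) (nat_lit 157078115) (nat_lit 304) (nat_lit 687151740) (nat_lit 67) (nat_lit 5) (nat_lit 70) (nat_lit 5) (nat_lit 71) (nat_lit 5) (nat_lit 484) (nat_lit 351) (nat_lit 305)))))) (XT.nd (nat_lit 546) (nat_lit 684) (nat_lit 0) (XT.nd (nat_lit 234) (nat_lit 532) (nat_lit 0) (XT.nd (nat_lit 78) (nat_lit 228) (nat_lit 0) (XT.lf (nat_lit 0) (nat_lit 2908662410) (nat_lit 304) (nat_lit 7205192254) (nat_lit 76) (nat_lit 3583074948) (nat_lit 63) (nat_lit 5) (nat_lit 67) (nat_lit 5) (nat_lit 64) (nat_lit 5) (nat_lit 485) (nat_lit 351) (nat_lit 304)) (XT.nd (nat_lit 78) (nat_lit 0) (nat_lit 0) (XT.lf (nat_lit 0) (nat_lit 35973963) (nat_lit 228) (nat_lit 6499267549) (nat_lit 304) (nat_lit 7345513186) (nat_lit 60) (nat_lit 5) (nat_lit 63) (nat_lit 5) (nat_lit 64) (nat_lit 5) (nat_lit 486) (nat_lit 351) (nat_lit 303)) (XT.lf (nat_lit 0) (nat_lit 7455399834) (nat_lit 228) (nat_lit 2788713867)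 (nat_lit 304) (nat_lit 3823960575) (nat_lit 60) (nat_lit 5) (nat_lit 63) (nat_lit 5) (nat_lit 64) (nat_lit 5) (nat_lit 487) (nat_lit 351) (nat_lit 302)))) (XT.nd (nat_lit 156) (nat_lit 228) (nat_lit 0) (XT.nd (nat_lit 78) (nat_lit 76) (nat_lit 0) (XT.lf (nat_lit 0) (nat_lit 703251336) (nat_lit 228) (nat_lit 13296949291) (nat_lit 304) (nat_lit 259491834) (nat_lit 57) (nat_lit 5) (nat_lit 60) (nat_lit 5) (nat_lit 61) (nat_lit 4) (nat_lit 488) (nat_lit 351) (nat_lit 301)) (XT.lf (nat_lit 0) (nat_lit 3357199923) (nat_lit 304) (nat_lit 6303483511) (nat_lit 76) (nat_lit 4793529332) (nat_lit 56) (nat_lit 5) (nat_lit 60) (nat_lit 5) (nat_lit 57) (nat_lit 5) (nat_lit 489) (nat_lit 351) (nat_lit 300))) (XT.nd (nat_lit 78) (nat_lit 0) (nat_lit 0) (XT.lf (nat_lit 0) (nat_lit 1044079595) (nat_lit 228) (nat_lit 5968274294) (nat_lit 304) (nat_lit 7640855439) (nat_lit 53) (nat_lit 5) (nat_lit 56) (nat_lit 5) (nat_lit 57) (nat_lit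 5) (nat_lit 490) (nat_lit 351) (nat_lit 299)) (XT.lf (nat_lit 0) (nat_lit 8562021592) (nat_lit 228) (nat_lit 2184036238) (nat_lit 304) (nat_lit 4110031025) (nat_lit 53) (nat_lit 5) (nat_lit 56) (nat_lit 5) (nat_lit 57) (nat_lit 5) (nat_lit 491) (nat_lit 351) (nat_lit 298))))) (XT.nd (nat_lit 234) (nat_lit 228) (nat_lit 0) (XT.nd (nat_lit 78) (nat_lit 304) (nat_lit 0) (XT.lf (nat_lit 0) (nat_lit 1109592115) (nat_lit 152) (nat_lit 13426638536) (nat_lit 228) (nat_lit 527171164) (nat_lit 51) (nat_lit 5) (nat_lit 53) (nat_lit 5) (nat_lit 54) (nat_lit 4) (nat_lit 492) (nat_lit 351) (nat_lit 297)) (XT.nd (nat_lit 78) (nat_lit 228) (nat_lit 0) (XT.lf (nat_lit 0) (nat_lit 3107085950) (nat_lit 228) (nat_lit 6623886987) (nat_lit 76) (nat_lit 5543078170) (nat_lit 50) (nat_lit 5) (nat_lit 53) (nat_lit 5) (nat_lit 51) (nat_lit 5) (nat_lit 493) (nat_lit 351) (nat_lit 296)) (XT.lf (nat_lit 0) (nat_lit 799367248) (nat_lit 228)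 (nat_lit 5977284767) (nat_lit 304) (nat_lit 8712809085) (nat_lit 47) (nat_lit 5) (nat_lit 50) (nat_lit 5) (nat_lit 51) (nat_lit 5) (nat_lit 494) (nat_lit 351) (nat_lit 295)))) (XT.nd (nat_lit 156) (nat_lit 76) (nat_lit 0) (XT.nd (nat_lit 78) (nat_lit 152) (nat_lit 0) (XT.lf (nat_lit 0) (nat_lit 8401011968) (nat_lit 228) (nat_lit 2127840894) (nat_lit 304) (nat_lit 5180152409) (nat_lit 47) (nat_lit 5) (nat_lit 50) (nat_lit 5) (nat_lit 51) (nat_lit 5) (nat_lit 495) (nat_lit 351) (nat_lit 294)) (XT.lf (nat_lit 0) (nat_lit 152842818) (nat_lit 152) (nat_lit 14181251977) (nat_lit 228) (nat_lit 1599296220) (nat_lit 45) (nat_lit 5) (nat_lit 47) (nat_lit 5) (nat_lit 48) (nat_lit 4) (nat_lit 496) (nat_lit 351) (nat_lit 293))) (XT.nd (nat_lit 78) (nat_lit 0) (nat_lit 0) (XT.lf (nat_lit 0) (nat_lit 2055093153) (nat_lit 228) (nat_lit 8386387114) (nat_lit 76) (nat_lit 5719950938) (nat_lit 44) (nat_lit 5) (nat_lit 47) (nat_lit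 5) (nat_lit 45) (nat_lit 5) (nat_lit 497) (nat_lit 351) (nat_lit 292)) (XT.lf (nat_lit 0) (nat_lit 5727241377) (nat_lit 228) (nat_lit 913085021) (nat_lit 76) (nat_lit 9754182679) (nat_lit 44) (nat_lit 5) (nat_lit 47) (nat_lit 5) (nat_lit 45) (nat_lit 5) (nat_lit 498) (nat_lit 351) (nat_lit 291))))))) (XT.nd (nat_lit 1092) (nat_lit 760) (nat_lit 0) (XT.nd (nat_lit 546) (nat_lit 456) (nat_lit 0) (XT.nd (nat_lit 234) (nat_lit 304) (nat_lit 0) (XT.nd (nat_lit 78) (nat_lit 228) (nat_lit 0) (XT.lf (nat_lit 0) (nat_lit 6741082995) (nat_lit 228) (nat_lit 2742248154) (nat_lit 304) (nat_lit 7148717208) (nat_lit 41) (nat_lit 5) (nat_lit 44) (nat_lit 5) (nat_lit 45) (nat_lit 5) (nat_lit 499) (nat_lit 351) (nat_lit 290)) (XT.nd (nat_lit 78) (nat_lit 228) (nat_lit 0) (XT.lf (nat_lit 0) (nat_lit 13295583230) (nat_lit 304) (nat_lit 2378706892) (nat_lit 76) (nat_lit 1200437120) (nat_lit 41) (nat_lit 5) (nat_lit 45) (nat_lit 5)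 (nat_lit 42) (nat_lit 4) (nat_lit 500) (nat_lit 351) (nat_lit 289)) (XT.lf (nat_lit 0) (nat_lit 81078761) (nat_lit 228) (nat_lit 11843565268) (nat_lit 76) (nat_lit 5197215526) (nat_lit 38) (nat_lit 5) (nat_lit 41) (nat_lit 5) (nat_lit 39) (nat_lit 5) (nat_lit 501) (nat_lit 351) (nat_lit 288)))) (XT.nd (nat_lit 156) (nat_lit 152) (nat_lit 0) (XT.nd (nat_lit 78) (nat_lit 152) (nat_lit 0) (XT.lf (nat_lit 0) (nat_lit 3750259126) (nat_lit 228) (nat_lit 4332846633) (nat_lit 76) (nat_lit 9290691110) (nat_lit 38) (nat_lit 5) (nat_lit 41) (nat_lit 5) (nat_lit 39) (nat_lit 5) (nat_lit 502) (nat_lit 351) (nat_lit 287)) (XT.lf (nat_lit 0) (nat_lit 3316581779) (nat_lit 152) (nat_lit 4165975737) (nat_lit 228) (nat_lit 10148429621) (nat_lit 36) (nat_lit 5) (nat_lit 38) (nat_lit 5) (nat_lit 39) (nat_lit 5) (nat_lit 503) (nat_lit 351) (nat_lit 286))) (XT.nd (nat_lit 78) (nat_lit 152) (nat_lit 0) (XT.lf (nat_lit 0) (nat_lit 11123091333)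 (nat_lit 152) (nat_lit 163955942) (nat_lit 228) (nat_lit 6606331750) (nat_lit 36) (nat_lit 5) (nat_lit 38) (nat_lit 5) (nat_lit 39) (nat_lit 5) (nat_lit 504) (nat_lit 351) (nat_lit 285)) (XT.lf (nat_lit 0) (nat_lit 856457374) (nat_lit 152) (nat_lit 14311109932) (nat_lit 228) (nat_lit 2993461186) (nat_lit 34) (nat_lit 5) (nat_lit 36) (nat_lit 5) (nat_lit 37) (nat_lit 4) (nat_lit 505) (nat_lit 351) (nat_lit 284))))) (XT.nd (nat_lit 234) (nat_lit 228) (nat_lit 0) (XT.nd (nat_lit 78) (nat_lit 152) (nat_lit 0) (XT.lf (nat_lit 0) (nat_lit 698403334) (nat_lit 228) (nat_lit 9765602736) (nat_lit 76) (nat_lit 7969627123) (nat_lit 33) (nat_lit 5) (nat_lit 36) (nat_lit 5) (nat_lit 34) (nat_lit 5) (nat_lit 506) (nat_lit 351) (nat_lit 283)) (XT.nd (nat_lit 78) (nat_lit 152) (nat_lit 0) (XT.lf (nat_lit 0) (nat_lit 4393657236) (nat_lit 228) (nat_lit 2148731557) (nat_lit 76) (nat_lit 12169520829) (nat_lit 33) (nat_lit 5) (nat_lit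 36) (nat_lit 5) (nat_lit 34) (nat_lit 5) (nat_lit 507) (nat_lit 351) (nat_lit 282)) (XT.lf (nat_lit 0) (nat_lit 5642466933) (nat_lit 152) (nat_lit 2527177124) (nat_lit 228) (nat_lit 10825978863) (nat_lit 31) (nat_lit 5) (nat_lit 33) (nat_lit 5) (nat_lit 34) (nat_lit 5) (nat_lit 508) (nat_lit 351) (nat_lit 281)))) (XT.nd (nat_lit 156) (nat_lit 76) (nat_lit 0) (XT.nd (nat_lit 78) (nat_lit 152) (nat_lit 0) (XT.lf (nat_lit 0) (nat_lit 12016146531) (nat_lit 228) (nat_lit 5728509507) (nat_lit 76) (nat_lit 1540462273) (nat_lit 31) (nat_lit 5) (nat_lit 34) (nat_lit 5) (nat_lit 32) (nat_lit 4) (nat_lit 509) (nat_lit 351) (nat_lit 280)) (XT.lf (nat_lit 0) (nat_lit 2007114124) (nat_lit 152) (nat_lit 13933113708) (nat_lit 228) (nat_lit 3640170396) (nat_lit 29) (nat_lit 5) (nat_lit 31) (nat_lit 5) (nat_lit 32) (nat_lit 4) (nat_lit 510) (nat_lit 351) (nat_lit 279))) (XT.nd (nat_lit 78) (nat_lit 0) (nat_lit 0) (XT.lf (nat_lit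 0) (nat_lit 70023915) (nat_lit 228) (nat_lit 9957525880) (nat_lit 76) (nat_lit 9853840907) (nat_lit 28) (nat_lit 5) (nat_lit 31) (nat_lit 5) (nat_lit 29) (nat_lit 5) (nat_lit 511) (nat_lit 351) (nat_lit 278)) (XT.lf (nat_lit 0) (nat_lit 3777219665) (nat_lit 228) (nat_lit 2263717099) (nat_lit 76) (nat_lit 14147561396) (nat_lit 28) (nat_lit 5) (nat_lit 31) (nat_lit 5) (nat_lit 29) (nat_lit 5) (nat_lit 512) (nat_lit 351) (nat_lit 277)))))) (XT.nd (nat_lit 546) (nat_lit 304) (nat_lit 0) (XT.nd (nat_lit 234) (nat_lit 228) (nat_lit 0) (XT.nd (nat_lit 78) (nat_lit 76) (nat_lit 0) (XT.lf (nat_lit 0) (nat_lit 5608348315) (nat_lit 152) (nat_lit 1958676946) (nat_lit 228) (nat_lit 12934560202) (nat_lit 26) (nat_lit 5) (nat_lit 28) (nat_lit 5) (nat_lit 29) (nat_lit 5) (nat_lit 513) (nat_lit 351) (nat_lit 276)) (XT.nd (nat_lit 78) (nat_lit 76) (nat_lit 0) (XT.lf (nat_lit 0) (nat_lit 11434382520) (nat_lit 228) (nat_lit 7215783296)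 (nat_lit 76) (nat_lit 2170740462) (nat_lit 26) (nat_lit 5) (nat_lit 29) (nat_lit 5) (nat_lit 27) (nat_lit 4) (nat_lit 514) (nat_lit 351) (nat_lit 275)) (XT.lf (nat_lit 0) (nat_lit 561301486) (nat_lit 76) (nat_lit 14807093711) (nat_lit 152) (nat_lit 5778438891) (nat_lit 25) (nat_lit 5) (nat_lit 26) (nat_lit 5) (nat_lit 27) (nat_lit 4) (nat_lit 515) (nat_lit 351) (nat_lit 274)))) (XT.nd (nat_lit 156) (nat_lit 152) (nat_lit 0) (XT.nd (nat_lit 78) (nat_lit 76) (nat_lit 0) (XT.lf (nat_lit 0) (nat_lit 8543749278) (nat_lit 76) (nat_lit 10858676967) (nat_lit 152) (nat_lit 2076434056) (nat_lit 25) (nat_lit 5) (nat_lit 26) (nat_lit 5) (nat_lit 27) (nat_lit 4) (nat_lit 516) (nat_lit 351) (nat_lit 273)) (XT.lf (nat_lit 0) (nat_lit 1650585397) (nat_lit 152) (nat_lit 5190127196) (nat_lit 76) (nat_lit 14977134794) (nat_lit 24) (nat_lit 5) (nat_lit 26) (nat_lit 5) (nat_lit 25) (nat_lit 5) (nat_lit 517) (nat_lit 351) (nat_lit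 272))) (XT.nd (nat_lit 78) (nat_lit 0) (nat_lit 0) (XT.lf (nat_lit 0) (nat_lit 2684734311) (nat_lit 152) (nat_lit 2730853979) (nat_lit 228) (nat_lit 16747932720) (nat_lit 22) (nat_lit 5) (nat_lit 24) (nat_lit 5) (nat_lit 25) (nat_lit 5) (nat_lit 518) (nat_lit 351) (nat_lit 271)) (XT.lf (nat_lit 0) (nat_lit 9274310018) (nat_lit 228) (nat_lit 11784253459) (nat_lit 76) (nat_lit 1457182358) (nat_lit 22) (nat_lit 5) (nat_lit 25) (nat_lit 5) (nat_lit 23) (nat_lit 4) (nat_lit 519) (nat_lit 351) (nat_lit 270))))) (XT.nd (nat_lit 234) (nat_lit 228) (nat_lit 0) (XT.nd (nat_lit 78) (nat_lit 76) (nat_lit 0) (XT.lf (nat_lit 0) (nat_lit 13202676156) (nat_lit 228) (nat_lit 3999572297) (nat_lit 76) (nat_lit 5672923292) (nat_lit 22) (nat_lit 5) (nat_lit 25) (nat_lit 5) (nat_lit 23) (nat_lit 4) (nat_lit 520) (nat_lit 351) (nat_lit 269)) (XT.nd (nat_lit 78) (nat_lit 0) (nat_lit 0) (XT.lf (nat_lit 0) (nat_lit 3947816441) (nat_lit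 76) (nat_lit 13262312127) (nat_lit 152) (nat_lit 6031653096) (nat_lit 21) (nat_lit 5) (nat_lit 22) (nat_lit 5) (nat_lit 23) (nat_lit 4) (nat_lit 521) (nat_lit 351) (nat_lit 268)) (XT.lf (nat_lit 0) (nat_lit 12063900329) (nat_lit 76) (nat_lit 9235759738) (nat_lit 152) (nat_lit 2316030868) (nat_lit 21) (nat_lit 5) (nat_lit 22) (nat_lit 5) (nat_lit 23) (nat_lit 4) (nat_lit 522) (nat_lit 351) (nat_lit 267)))) (XT.nd (nat_lit 156) (nat_lit 0) (nat_lit 0) (XT.nd (nat_lit 78) (nat_lit 152) (nat_lit 0) (XT.lf (nat_lit 0) (nat_lit 1429985214) (nat_lit 152) (nat_lit 3708270312) (nat_lit 76) (nat_lit 18859128767) (nat_lit 20) (nat_lit 5) (nat_lit 22) (nat_lit 5) (nat_lit 21) (nat_lit 5) (nat_lit 523) (nat_lit 351) (nat_lit 266)) (XT.lf (nat_lit 0) (nat_lit 4289979368) (nat_lit 152) (nat_lit 933707020) (nat_lit 228) (nat_lit 19162648845) (nat_lit 18) (nat_lit 5) (nat_lit 20) (nat_lit 5) (nat_lit 21) (nat_lit 5) (nat_lit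 524) (nat_lit 351) (nat_lit 265))) (XT.nd (nat_lit 78) (nat_lit 0) (nat_lit 0) (XT.lf (nat_lit 0) (nat_lit 9116059674) (nat_lit 228) (nat_lit 12349198710) (nat_lit 76) (nat_lit 3317356162) (nat_lit 18) (nat_lit 5) (nat_lit 21) (nat_lit 5) (nat_lit 19) (nat_lit 4) (nat_lit 525) (nat_lit 351) (nat_lit 264)) (XT.lf (nat_lit 0) (nat_lit 13068901559) (nat_lit 228) (nat_lit 4495580516) (nat_lit 76) (nat_lit 7622690160) (nat_lit 18) (nat_lit 5) (nat_lit 21) (nat_lit 5) (nat_lit 19) (nat_lit 4) (nat_lit 526) (nat_lit 351) (nat_lit 263))))))))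
noncomputable def xc41 : XT := (XT.nd (nat_lit 54054) (nat_lit 0) (nat_lit 3724) (XT.nd (nat_lit 52962) (nat_lit 0) (nat_lit 9120) (XT.nd (nat_lit 52416) (nat_lit 0) (nat_lit 14060) (XT.nd (nat_lit 234) (nat_lit 228) (nat_lit 0) (XT.nd (nat_lit 78) (nat_lit 0) (nat_lit 0) (XT.lf (nat_lit 0) (nat_lit 3519803669) (nat_lit 76) (nat_lit 13580749163) (nat_lit 152) (nat_lit 8499278305) (nat_lit 17) (nat_lit 5) (nat_lit 18) (nat_lit 5) (nat_lit 19) (nat_lit 4) (nat_lit 527) (nat_lit 351) (nat_lit 262)) (XT.nd (nat_lit 78) (nat_lit 0) (nat_lit 0) (XT.lf (nat_lit 0) (nat_lit 11715237911) (nat_lit 76) (nat_lit 9504852056) (nat_lit 152) (nat_lit 4800513203) (nat_lit 17) (nat_lit 5) (nat_lit 18) (nat_lit 5) (nat_lit 19) (nat_lit 4) (nat_lit 528) (nat_lit 351) (nat_lit 261)) (XT.lf (nat_lit 0) (nat_lit 20034192205) (nat_lit 76) (nat_lit 5365360075) (nat_lit 152) (nat_lit 1050692586) (nat_lit 17) (nat_lit 5) (nat_lit 18) (nat_lit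 5) (nat_lit 19) (nat_lit 4) (nat_lit 529) (nat_lit 351) (nat_lit 260)))) (XT.nd (nat_lit 52026) (nat_lit 0) (nat_lit 17100) (XT.nd (nat_lit 78) (nat_lit 0) (nat_lit 0) (XT.lf (nat_lit 0) (nat_lit 1594044792) (nat_lit 152) (nat_lit 1131870429) (nat_lit 228) (nat_lit 24162445189) (nat_lit 14) (nat_lit 5) (nat_lit 16) (nat_lit 5) (nat_lit 17) (nat_lit 5) (nat_lit 530) (nat_lit 351) (nat_lit 259)) (XT.lf (nat_lit 0) (nat_lit 6605914600) (nat_lit 228) (nat_lit 17550956286) (nat_lit 76) (nat_lit 3177394541) (nat_lit 14) (nat_lit 5) (nat_lit 17) (nat_lit 5) (nat_lit 15) (nat_lit 4) (nat_lit 531) (nat_lit 351) (nat_lit 258))) (XT.nd (nat_lit 78) (nat_lit 608) (nat_lit 0) (XT.lf (nat_lit 0) (nat_lit 1547228715) (nat_lit 684) (nat_lit 955894079) (nat_lit 0) (nat_lit 1547228715) (nat_lit 247) (nat_lit 5) (nat_lit 256) (nat_lit 4) (nat_lit 247) (nat_lit 4) (nat_lit 436) (nat_lit 352) (nat_lit 352)) (XT.lf (nat_lit 0) (nat_lit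 3971846682) (nat_lit 608) (nat_lit 2698542506) (nat_lit 608) (nat_lit 1493794622) (nat_lit 239) (nat_lit 4) (nat_lit 247) (nat_lit 5) (nat_lit 247) (nat_lit 4) (nat_lit 437) (nat_lit 352) (nat_lit 351))))) (XT.nd (nat_lit 234) (nat_lit 1672) (nat_lit 0) (XT.nd (nat_lit 78) (nat_lit 684) (nat_lit 0) (XT.lf (nat_lit 0) (nat_lit 1700679022) (nat_lit 608) (nat_lit 322366661) (nat_lit 684) (nat_lit 6206433498) (nat_lit 230) (nat_lit 5) (nat_lit 238) (nat_lit 5) (nat_lit 239) (nat_lit 4) (nat_lit 438) (nat_lit 352) (nat_lit 350)) (XT.nd (nat_lit 78) (nat_lit 684) (nat_lit 0) (XT.lf (nat_lit 0) (nat_lit 5570396169) (nat_lit 684) (nat_lit 629885436) (nat_lit 0) (nat_lit 2096043898) (nat_lit 230) (nat_lit 5) (nat_lit 239) (nat_lit 4) (nat_lit 230) (nat_lit 4) (nat_lit 439) (nat_lit 352) (nat_lit 349)) (XT.lf (nat_lit 0) (nat_lit 789633191) (nat_lit 684) (nat_lit 2992294045) (nat_lit 76) (nat_lit 4582993582) (nat_lit 221)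 (nat_lit 5) (nat_lit 230) (nat_lit 5) (nat_lit 222) (nat_lit 4) (nat_lit 440) (nat_lit 352) (nat_lit 348)))) (XT.nd (nat_lit 156) (nat_lit 608) (nat_lit 0) (XT.nd (nat_lit 78) (nat_lit 532) (nat_lit 0) (XT.lf (nat_lit 0) (nat_lit 3012538325) (nat_lit 532) (nat_lit 1289970929) (nat_lit 608) (nat_lit 4132791743) (nat_lit 214) (nat_lit 5) (nat_lit 221) (nat_lit 5) (nat_lit 222) (nat_lit 4) (nat_lit 441) (nat_lit 352) (nat_lit 347)) (XT.lf (nat_lit 0) (nat_lit 592426123) (nat_lit 532) (nat_lit 7265624595) (nat_lit 532) (nat_lit 649632426) (nat_lit 207) (nat_lit 4) (nat_lit 214) (nat_lit 5) (nat_lit 214) (nat_lit 4) (nat_lit 442) (nat_lit 352) (nat_lit 346))) (XT.nd (nat_lit 78) (nat_lit 532) (nat_lit 0) (XT.lf (nat_lit 0) (nat_lit 2850742274) (nat_lit 608) (nat_lit 1885733493) (nat_lit 76) (nat_lit 3844988490) (nat_lit 206) (nat_lit 5) (nat_lit 214) (nat_lit 5) (nat_lit 207) (nat_lit 4) (nat_lit 443) (nat_lit 352)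 (nat_lit 345)) (XT.lf (nat_lit 0) (nat_lit 4238469792) (nat_lit 532) (nat_lit 2143105363) (nat_lit 608) (nat_lit 2275717040) (nat_lit 199) (nat_lit 5) (nat_lit 206) (nat_lit 5) (nat_lit 207) (nat_lit 4) (nat_lit 444) (nat_lit 352) (nat_lit 344)))))) (XT.nd (nat_lit 546) (nat_lit 2280) (nat_lit 0) (XT.nd (nat_lit 234) (nat_lit 1596) (nat_lit 0) (XT.nd (nat_lit 78) (nat_lit 456) (nat_lit 0) (XT.lf (nat_lit 0) (nat_lit 1201069987) (nat_lit 608) (nat_lit 7025431666) (nat_lit 76) (nat_lit 508630352) (nat_lit 191) (nat_lit 5) (nat_lit 199) (nat_lit 5) (nat_lit 192) (nat_lit 4) (nat_lit 445) (nat_lit 352) (nat_lit 343)) (XT.nd (nat_lit 78) (nat_lit 456) (nat_lit 0) (XT.lf (nat_lit 0) (nat_lit 4703352866) (nat_lit 608) (nat_lit 900755734) (nat_lit 76) (nat_lit 3210428281) (nat_lit 191) (nat_lit 5) (nat_lit 199) (nat_lit 5) (nat_lit 192) (nat_lit 4) (nat_lit 446) (nat_lit 352) (nat_lit 342)) (XT.lf (nat_lit 0) (nat_lit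 5339926324) (nat_lit 456) (nat_lit 2913917313) (nat_lit 532) (nat_lit 642159993) (nat_lit 185) (nat_lit 5) (nat_lit 191) (nat_lit 5) (nat_lit 192) (nat_lit 4) (nat_lit 447) (nat_lit 352) (nat_lit 341)))) (XT.nd (nat_lit 156) (nat_lit 988) (nat_lit 0) (XT.nd (nat_lit 78) (nat_lit 0) (nat_lit 0) (XT.lf (nat_lit 0) (nat_lit 2678131153) (nat_lit 532) (nat_lit 147301726) (nat_lit 608) (nat_lit 6153982867) (nat_lit 177) (nat_lit 5) (nat_lit 184) (nat_lit 5) (nat_lit 185) (nat_lit 5) (nat_lit 448) (nat_lit 352) (nat_lit 340)) (XT.lf (nat_lit 0) (nat_lit 6339349008) (nat_lit 608) (nat_lit 77879296) (nat_lit 76) (nat_lit 2647506391) (nat_lit 177) (nat_lit 5) (nat_lit 185) (nat_lit 5) (nat_lit 178) (nat_lit 4) (nat_lit 449) (nat_lit 352) (nat_lit 339))) (XT.nd (nat_lit 78) (nat_lit 456) (nat_lit 0) (XT.lf (nat_lit 0) (nat_lit 748531568) (nat_lit 532) (nat_lit 2881451266) (nat_lit 76) (nat_lit 5521973098) (nat_lit 170)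 (nat_lit 5) (nat_lit 177) (nat_lit 5) (nat_lit 171) (nat_lit 5) (nat_lit 450) (nat_lit 352) (nat_lit 338)) (XT.lf (nat_lit 0) (nat_lit 3457236185) (nat_lit 456) (nat_lit 766667244) (nat_lit 532) (nat_lit 5017321356) (nat_lit 164) (nat_lit 5) (nat_lit 170) (nat_lit 5) (nat_lit 171) (nat_lit 5) (nat_lit 451) (nat_lit 352) (nat_lit 337))))) (XT.nd (nat_lit 234) (nat_lit 1292) (nat_lit 0) (XT.nd (nat_lit 78) (nat_lit 532) (nat_lit 0) (XT.lf (nat_lit 0) (nat_lit 546391858) (nat_lit 456) (nat_lit 7205288085) (nat_lit 532) (nat_lit 1580973356) (nat_lit 158) (nat_lit 5) (nat_lit 164) (nat_lit 5) (nat_lit 165) (nat_lit 4) (nat_lit 452) (nat_lit 352) (nat_lit 336)) (XT.nd (nat_lit 78) (nat_lit 456) (nat_lit 0) (XT.lf (nat_lit 0) (nat_lit 1889096993) (nat_lit 532) (nat_lit 2437947000) (nat_lit 76) (nat_lit 5098842909) (nat_lit 157) (nat_lit 5) (nat_lit 164) (nat_lit 5) (nat_lit 158) (nat_lit 5) (nat_lit 453) (nat_lit 352)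 (nat_lit 335)) (XT.lf (nat_lit 0) (nat_lit 4004114219) (nat_lit 456) (nat_lit 1376442069) (nat_lit 532) (nat_lit 4140787117) (nat_lit 151) (nat_lit 5) (nat_lit 157) (nat_lit 5) (nat_lit 158) (nat_lit 5) (nat_lit 454) (nat_lit 352) (nat_lit 334)))) (XT.nd (nat_lit 156) (nat_lit 836) (nat_lit 0) (XT.nd (nat_lit 78) (nat_lit 76) (nat_lit 0) (XT.lf (nat_lit 0) (nat_lit 915274704) (nat_lit 380) (nat_lit 8007129345) (nat_lit 456) (nat_lit 696723577) (nat_lit 146) (nat_lit 5) (nat_lit 151) (nat_lit 5) (nat_lit 152) (nat_lit 4) (nat_lit 455) (nat_lit 352) (nat_lit 333)) (XT.lf (nat_lit 0) (nat_lit 2773382683) (nat_lit 456) (nat_lit 2270480985) (nat_lit 76) (nat_lit 4674784852) (nat_lit 145) (nat_lit 5) (nat_lit 151) (nat_lit 5) (nat_lit 146) (nat_lit 5) (nat_lit 456) (nat_lit 352) (nat_lit 332))) (XT.nd (nat_lit 78) (nat_lit 380) (nat_lit 0) (XT.lf (nat_lit 0) (nat_lit 4268490451) (nat_lit 456) (nat_lit 2011531812) (nat_lit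 532) (nat_lit 3540544311) (nat_lit 139) (nat_lit 5) (nat_lit 145) (nat_lit 5) (nat_lit 146) (nat_lit 5) (nat_lit 457) (nat_lit 352) (nat_lit 331)) (XT.lf (nat_lit 0) (nat_lit 975635531) (nat_lit 380) (nat_lit 8858964149) (nat_lit 456) (nat_lit 90394714) (nat_lit 134) (nat_lit 5) (nat_lit 139) (nat_lit 5) (nat_lit 140) (nat_lit 4) (nat_lit 458) (nat_lit 352) (nat_lit 330))))))) (XT.nd (nat_lit 1092) (nat_lit 2356) (nat_lit 0) (XT.nd (nat_lit 546) (nat_lit 1444) (nat_lit 0) (XT.nd (nat_lit 234) (nat_lit 760) (nat_lit 0) (XT.nd (nat_lit 78) (nat_lit 760) (nat_lit 0) (XT.lf (nat_lit 0) (nat_lit 3383881565) (nat_lit 456) (nat_lit 2432480310) (nat_lit 76) (nat_lit 4214728248) (nat_lit 133) (nat_lit 5) (nat_lit 139) (nat_lit 5) (nat_lit 134) (nat_lit 5) (nat_lit 459) (nat_lit 352) (nat_lit 329)) (XT.nd (nat_lit 78) (nat_lit 380) (nat_lit 0) (XT.lf (nat_lit 0) (nat_lit 4195588513) (nat_lit 380) (nat_lit 2708347886) (nat_lit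 456) (nat_lit 3235835270) (nat_lit 128) (nat_lit 5) (nat_lit 133) (nat_lit 5) (nat_lit 134) (nat_lit 5) (nat_lit 460) (nat_lit 352) (nat_lit 328)) (XT.lf (nat_lit 0) (nat_lit 214765373) (nat_lit 380) (nat_lit 9581943014) (nat_lit 76) (nat_lit 454427779) (nat_lit 123) (nat_lit 5) (nat_lit 128) (nat_lit 5) (nat_lit 124) (nat_lit 5) (nat_lit 461) (nat_lit 352) (nat_lit 327)))) (XT.nd (nat_lit 156) (nat_lit 380) (nat_lit 0) (XT.nd (nat_lit 78) (nat_lit 380) (nat_lit 0) (XT.lf (nat_lit 0) (nat_lit 3699930213) (nat_lit 380) (nat_lit 2982286085) (nat_lit 76) (nat_lit 3681930702) (nat_lit 123) (nat_lit 5) (nat_lit 128) (nat_lit 5) (nat_lit 124) (nat_lit 5) (nat_lit 462) (nat_lit 352) (nat_lit 326)) (XT.lf (nat_lit 0) (nat_lit 3725540564) (nat_lit 380) (nat_lit 3505162815) (nat_lit 456) (nat_lit 3249220515) (nat_lit 118) (nat_lit 5) (nat_lit 123) (nat_lit 5) (nat_lit 124) (nat_lit 5) (nat_lit 463) (nat_lit 352) (nat_lit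 325))) (XT.nd (nat_lit 78) (nat_lit 304) (nat_lit 0) (XT.lf (nat_lit 0) (nat_lit 203005494) (nat_lit 456) (nat_lit 64188172) (nat_lit 76) (nat_lit 10331375286) (nat_lit 117) (nat_lit 5) (nat_lit 123) (nat_lit 5) (nat_lit 118) (nat_lit 5) (nat_lit 464) (nat_lit 352) (nat_lit 324)) (XT.lf (nat_lit 0) (nat_lit 3697453349) (nat_lit 380) (nat_lit 3983778800) (nat_lit 76) (nat_lit 3037614092) (nat_lit 113) (nat_lit 5) (nat_lit 118) (nat_lit 5) (nat_lit 114) (nat_lit 5) (nat_lit 465) (nat_lit 352) (nat_lit 323))))) (XT.nd (nat_lit 234) (nat_lit 684) (nat_lit 0) (XT.nd (nat_lit 78) (nat_lit 380) (nat_lit 0) (XT.lf (nat_lit 0) (nat_lit 2792742857) (nat_lit 380) (nat_lit 4442488659) (nat_lit 456) (nat_lit 3606850855) (nat_lit 108) (nat_lit 5) (nat_lit 113) (nat_lit 5) (nat_lit 114) (nat_lit 5) (nat_lit 466) (nat_lit 352) (nat_lit 322)) (XT.nd (nat_lit 78) (nat_lit 380) (nat_lit 0) (XT.lf (nat_lit 0) (nat_lit 9687498376)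 (nat_lit 380) (nat_lit 1136562637) (nat_lit 456) (nat_lit 144137983) (nat_lit 108) (nat_lit 5) (nat_lit 113) (nat_lit 5) (nat_lit 114) (nat_lit 5) (nat_lit 467) (nat_lit 352) (nat_lit 321)) (XT.lf (nat_lit 0) (nat_lit 3348675095) (nat_lit 380) (nat_lit 5507062435) (nat_lit 76) (nat_lit 2240575790) (nat_lit 103) (nat_lit 5) (nat_lit 108) (nat_lit 5) (nat_lit 104) (nat_lit 5) (nat_lit 468) (nat_lit 352) (nat_lit 320)))) (XT.nd (nat_lit 156) (nat_lit 380) (nat_lit 0) (XT.nd (nat_lit 78) (nat_lit 0) (nat_lit 0) (XT.lf (nat_lit 0) (nat_lit 1325150492) (nat_lit 304) (nat_lit 5563482039) (nat_lit 380) (nat_lit 4338774421) (nat_lit 99) (nat_lit 5) (nat_lit 103) (nat_lit 5) (nat_lit 104) (nat_lit 5) (nat_lit 469) (nat_lit 352) (nat_lit 319)) (XT.lf (nat_lit 0) (nat_lit 8298289046) (nat_lit 304) (nat_lit 2192926465) (nat_lit 380) (nat_lit 870090453) (nat_lit 99) (nat_lit 5) (nat_lit 103) (nat_lit 5) (nat_lit 104) (nat_lit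 5) (nat_lit 470) (nat_lit 352) (nat_lit 318))) (XT.nd (nat_lit 78) (nat_lit 0) (nat_lit 0) (XT.lf (nat_lit 0) (nat_lit 2621793978) (nat_lit 380) (nat_lit 7629213983) (nat_lit 76) (nat_lit 1246771457) (nat_lit 94) (nat_lit 5) (nat_lit 99) (nat_lit 5) (nat_lit 95) (nat_lit 5) (nat_lit 471) (nat_lit 352) (nat_lit 317)) (XT.lf (nat_lit 0) (nat_lit 6162795700) (nat_lit 380) (nat_lit 746573984) (nat_lit 76) (nat_lit 4727697910) (nat_lit 94) (nat_lit 5) (nat_lit 99) (nat_lit 5) (nat_lit 95) (nat_lit 5) (nat_lit 472) (nat_lit 352) (nat_lit 316)))))) (XT.nd (nat_lit 546) (nat_lit 836) (nat_lit 0) (XT.nd (nat_lit 234) (nat_lit 912) (nat_lit 0) (XT.nd (nat_lit 78) (nat_lit 304) (nat_lit 0) (XT.lf (nat_lit 0) (nat_lit 6287671812) (nat_lit 304) (nat_lit 3484343842) (nat_lit 380) (nat_lit 2007196427) (nat_lit 90) (nat_lit 5) (nat_lit 94) (nat_lit 5) (nat_lit 95) (nat_lit 5) (nat_lit 473) (nat_lit 352) (nat_lit 315)) (XT.nd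 (nat_lit 78) (nat_lit 0) (nat_lit 0) (XT.lf (nat_lit 0) (nat_lit 1480618327) (nat_lit 304) (nat_lit 10435105775) (nat_lit 76) (nat_lit 8865495) (nat_lit 86) (nat_lit 5) (nat_lit 90) (nat_lit 5) (nat_lit 87) (nat_lit 5) (nat_lit 474) (nat_lit 352) (nat_lit 314)) (XT.lf (nat_lit 0) (nat_lit 5028432080) (nat_lit 304) (nat_lit 3493095349) (nat_lit 76) (nat_lit 3550756947) (nat_lit 86) (nat_lit 5) (nat_lit 90) (nat_lit 5) (nat_lit 87) (nat_lit 5) (nat_lit 475) (nat_lit 352) (nat_lit 313)))) (XT.nd (nat_lit 156) (nat_lit 608) (nat_lit 0) (XT.nd (nat_lit 78) (nat_lit 0) (nat_lit 0) (XT.lf (nat_lit 0) (nat_lit 3566974530) (nat_lit 304) (nat_lit 5061155020) (nat_lit 380) (nat_lit 3595202052) (nat_lit 82) (nat_lit 5) (nat_lit 86) (nat_lit 5) (nat_lit 87) (nat_lit 5) (nat_lit 476) (nat_lit 352) (nat_lit 312)) (XT.lf (nat_lit 0) (nat_lit 10748477856) (nat_lit 304) (nat_lit 1532944200) (nat_lit 380) (nat_lit 96362461) (nat_lit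 82) (nat_lit 5) (nat_lit 86) (nat_lit 5) (nat_lit 87) (nat_lit 5) (nat_lit 477) (nat_lit 352) (nat_lit 311))) (XT.nd (nat_lit 78) (nat_lit 304) (nat_lit 0) (XT.lf (nat_lit 0) (nat_lit 3435093057) (nat_lit 304) (nat_lit 7026845812) (nat_lit 76) (nat_lit 2072789206) (nat_lit 78) (nat_lit 5) (nat_lit 82) (nat_lit 5) (nat_lit 79) (nat_lit 5) (nat_lit 478) (nat_lit 352) (nat_lit 310)) (XT.lf (nat_lit 0) (nat_lit 38347093) (nat_lit 304) (nat_lit 6977860956) (nat_lit 380) (nat_lit 5678999102) (nat_lit 74) (nat_lit 5) (nat_lit 78) (nat_lit 5) (nat_lit 79) (nat_lit 5) (nat_lit 479) (nat_lit 352) (nat_lit 309))))) (XT.nd (nat_lit 234) (nat_lit 532) (nat_lit 0) (XT.nd (nat_lit 78) (nat_lit 304) (nat_lit 0) (XT.lf (nat_lit 0) (nat_lit 7273930642) (nat_lit 304) (nat_lit 3401457203) (nat_lit 380) (nat_lit 2183394602) (nat_lit 74) (nat_lit 5) (nat_lit 78) (nat_lit 5) (nat_lit 79) (nat_lit 5) (nat_lit 480) (nat_lit 352) (nat_lit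 308)) (XT.nd (nat_lit 78) (nat_lit 0) (nat_lit 0) (XT.lf (nat_lit 0) (nat_lit 1335591530) (nat_lit 304) (nat_lit 11452765760) (nat_lit 76) (nat_lit 237675448) (nat_lit 70) (nat_lit 5) (nat_lit 74) (nat_lit 5) (nat_lit 71) (nat_lit 5) (nat_lit 481) (nat_lit 352) (nat_lit 307)) (XT.lf (nat_lit 0) (nat_lit 4916011185) (nat_lit 304) (nat_lit 4348493235) (nat_lit 76) (nat_lit 3931443775) (nat_lit 70) (nat_lit 5) (nat_lit 74) (nat_lit 5) (nat_lit 71) (nat_lit 5) (nat_lit 482) (nat_lit 352) (nat_lit 306)))) (XT.nd (nat_lit 156) (nat_lit 304) (nat_lit 0) (XT.nd (nat_lit 78) (nat_lit 0) (nat_lit 0) (XT.lf (nat_lit 0) (nat_lit 2871174579) (nat_lit 228) (nat_lit 5676300762) (nat_lit 304) (nat_lit 4822212209) (nat_lit 67) (nat_lit 5) (nat_lit 70) (nat_lit 5) (nat_lit 71) (nat_lit 5) (nat_lit 483) (nat_lit 352) (nat_lit 305)) (XT.lf (nat_lit 0) (nat_lit 10230257918) (nat_lit 228) (nat_lit 2011639783) (nat_lit 304) (nat_lit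 1305211440) (nat_lit 67) (nat_lit 5) (nat_lit 70) (nat_lit 5) (nat_lit 71) (nat_lit 5) (nat_lit 484) (nat_lit 352) (nat_lit 304))) (XT.nd (nat_lit 78) (nat_lit 0) (nat_lit 0) (XT.lf (nat_lit 0) (nat_lit 2251017637) (nat_lit 304) (nat_lit 9756695319) (nat_lit 76) (nat_lit 1720106974) (nat_lit 63) (nat_lit 5) (nat_lit 67) (nat_lit 5) (nat_lit 64) (nat_lit 5) (nat_lit 485) (nat_lit 352) (nat_lit 303)) (XT.lf (nat_lit 0) (nat_lit 5858466098) (nat_lit 304) (nat_lit 2547381864) (nat_lit 76) (nat_lit 5506186212) (nat_lit 63) (nat_lit 5) (nat_lit 67) (nat_lit 5) (nat_lit 64) (nat_lit 5) (nat_lit 486) (nat_lit 352) (nat_lit 302))))))))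
noncomputable def xc42 : XT := (XT.nd (nat_lit 2184) (nat_lit 912) (nat_lit 0) (XT.nd (nat_lit 1092) (nat_lit 1140) (nat_lit 0) (XT.nd (nat_lit 546) (nat_lit 684) (nat_lit 0) (XT.nd (nat_lit 234) (nat_lit 456) (nat_lit 0) (XT.nd (nat_lit 78) (nat_lit 304) (nat_lit 0) (XT.lf (nat_lit 0) (nat_lit 4807016137) (nat_lit 228) (nat_lit 4724834108) (nat_lit 304) (nat_lit 4568219683) (nat_lit 60) (nat_lit 5) (nat_lit 63) (nat_lit 5) (nat_lit 64) (nat_lit 5) (nat_lit 487) (nat_lit 352) (nat_lit 301)) (XT.nd (nat_lit 78) (nat_lit 304) (nat_lit 0) (XT.lf (nat_lit 0) (nat_lit 12281294786) (nat_lit 228) (nat_lit 977410898) (nat_lit 304) (nat_lit 1033573349) (nat_lit 60) (nat_lit 5) (nat_lit 63) (nat_lit 5) (nat_lit 64) (nat_lit 5) (nat_lit 488) (nat_lit 352) (nat_lit 300)) (XT.lf (nat_lit 0) (nat_lit 2555201337) (nat_lit 304) (nat_lit 9096740905) (nat_lit 76) (nat_lit 2835725046) (nat_lit 56) (nat_lit 5) (nat_lit 60) (nat_lit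 5) (nat_lit 57) (nat_lit 5) (nat_lit 489) (nat_lit 352) (nat_lit 299)))) (XT.nd (nat_lit 156) (nat_lit 228) (nat_lit 0) (XT.nd (nat_lit 78) (nat_lit 228) (nat_lit 0) (XT.lf (nat_lit 0) (nat_lit 6185531824) (nat_lit 304) (nat_lit 1793170285) (nat_lit 76) (nat_lit 6708464136) (nat_lit 56) (nat_lit 5) (nat_lit 60) (nat_lit 5) (nat_lit 57) (nat_lit 5) (nat_lit 490) (nat_lit 352) (nat_lit 298)) (XT.lf (nat_lit 0) (nat_lit 5670841563) (nat_lit 228) (nat_lit 4218710796) (nat_lit 304) (nat_lit 5001092893) (nat_lit 53) (nat_lit 5) (nat_lit 56) (nat_lit 5) (nat_lit 57) (nat_lit 5) (nat_lit 491) (nat_lit 352) (nat_lit 297))) (XT.nd (nat_lit 78) (nat_lit 228) (nat_lit 0) (XT.lf (nat_lit 0) (nat_lit 13248831021) (nat_lit 228) (nat_lit 395433646) (nat_lit 304) (nat_lit 1454408454) (nat_lit 53) (nat_lit 5) (nat_lit 56) (nat_lit 5) (nat_lit 57) (nat_lit 5) (nat_lit 492) (nat_lit 352) (nat_lit 296)) (XT.lf (nat_lit 0) (nat_lit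 2159610333) (nat_lit 228) (nat_lit 9664582557) (nat_lit 76) (nat_lit 3485903387) (nat_lit 50) (nat_lit 5) (nat_lit 53) (nat_lit 5) (nat_lit 51) (nat_lit 5) (nat_lit 493) (nat_lit 352) (nat_lit 295))))) (XT.nd (nat_lit 234) (nat_lit 456) (nat_lit 0) (XT.nd (nat_lit 78) (nat_lit 228) (nat_lit 0) (XT.lf (nat_lit 0) (nat_lit 5806749922) (nat_lit 228) (nat_lit 2281058709) (nat_lit 76) (nat_lit 7438151538) (nat_lit 50) (nat_lit 5) (nat_lit 53) (nat_lit 5) (nat_lit 51) (nat_lit 5) (nat_lit 494) (nat_lit 352) (nat_lit 294)) (XT.nd (nat_lit 78) (nat_lit 0) (nat_lit 0) (XT.lf (nat_lit 0) (nat_lit 5261217808) (nat_lit 228) (nat_lit 4265638871) (nat_lit 304) (nat_lit 6219294805) (nat_lit 47) (nat_lit 5) (nat_lit 50) (nat_lit 5) (nat_lit 51) (nat_lit 5) (nat_lit 495) (nat_lit 352) (nat_lit 293)) (XT.lf (nat_lit 0) (nat_lit 12927721634) (nat_lit 228) (nat_lit 375111838) (nat_lit 304) (nat_lit 2668294220) (nat_lit 47) (nat_lit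 5) (nat_lit 50) (nat_lit 5) (nat_lit 51) (nat_lit 5) (nat_lit 496) (nat_lit 352) (nat_lit 292)))) (XT.nd (nat_lit 156) (nat_lit 228) (nat_lit 0) (XT.nd (nat_lit 78) (nat_lit 0) (nat_lit 0) (XT.lf (nat_lit 0) (nat_lit 960725575) (nat_lit 228) (nat_lit 11680497211) (nat_lit 76) (nat_lit 3558876662) (nat_lit 44) (nat_lit 5) (nat_lit 47) (nat_lit 5) (nat_lit 45) (nat_lit 5) (nat_lit 497) (nat_lit 352) (nat_lit 291)) (XT.lf (nat_lit 0) (nat_lit 4616403998) (nat_lit 228) (nat_lit 4235418204) (nat_lit 76) (nat_lit 7581689376) (nat_lit 44) (nat_lit 5) (nat_lit 47) (nat_lit 5) (nat_lit 45) (nat_lit 5) (nat_lit 498) (nat_lit 352) (nat_lit 290))) (XT.nd (nat_lit 78) (nat_lit 0) (nat_lit 0) (XT.lf (nat_lit 0) (nat_lit 3346560344) (nat_lit 228) (nat_lit 4987747069) (nat_lit 304) (nat_lit 8337511939) (nat_lit 41) (nat_lit 5) (nat_lit 44) (nat_lit 5) (nat_lit 45) (nat_lit 5) (nat_lit 499) (nat_lit 352) (nat_lit 289)) (XT.lf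 (nat_lit 0) (nat_lit 11082065610) (nat_lit 228) (nat_lit 1040587545) (nat_lit 304) (nat_lit 4792327884) (nat_lit 41) (nat_lit 5) (nat_lit 44) (nat_lit 5) (nat_lit 45) (nat_lit 5) (nat_lit 500) (nat_lit 352) (nat_lit 288)))))) (XT.nd (nat_lit 546) (nat_lit 532) (nat_lit 0) (XT.nd (nat_lit 234) (nat_lit 380) (nat_lit 0) (XT.nd (nat_lit 78) (nat_lit 76) (nat_lit 0) (XT.lf (nat_lit 0) (nat_lit 1758015701) (nat_lit 152) (nat_lit 14227697105) (nat_lit 228) (nat_lit 1177323468) (nat_lit 39) (nat_lit 5) (nat_lit 41) (nat_lit 5) (nat_lit 42) (nat_lit 4) (nat_lit 501) (nat_lit 352) (nat_lit 287)) (XT.nd (nat_lit 78) (nat_lit 0) (nat_lit 0) (XT.lf (nat_lit 0) (nat_lit 2491555611) (nat_lit 228) (nat_lit 7913886766) (nat_lit 76) (nat_lit 7010003336) (nat_lit 38) (nat_lit 5) (nat_lit 41) (nat_lit 5) (nat_lit 39) (nat_lit 5) (nat_lit 502) (nat_lit 352) (nat_lit 286)) (XT.lf (nat_lit 0) (nat_lit 6186887127) (nat_lit 228) (nat_lit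 334650814) (nat_lit 76) (nat_lit 11151841696) (nat_lit 38) (nat_lit 5) (nat_lit 41) (nat_lit 5) (nat_lit 39) (nat_lit 5) (nat_lit 503) (nat_lit 352) (nat_lit 285)))) (XT.nd (nat_lit 156) (nat_lit 228) (nat_lit 0) (XT.nd (nat_lit 78) (nat_lit 0) (nat_lit 0) (XT.lf (nat_lit 0) (nat_lit 7440892136) (nat_lit 152) (nat_lit 2532980109) (nat_lit 228) (nat_lit 7962253605) (nat_lit 36) (nat_lit 5) (nat_lit 38) (nat_lit 5) (nat_lit 39) (nat_lit 5) (nat_lit 504) (nat_lit 352) (nat_lit 284)) (XT.lf (nat_lit 0) (nat_lit 13818375983) (nat_lit 228) (nat_lit 2890572062) (nat_lit 76) (nat_lit 1495551748) (nat_lit 36) (nat_lit 5) (nat_lit 39) (nat_lit 5) (nat_lit 37) (nat_lit 4) (nat_lit 505) (nat_lit 352) (nat_lit 283))) (XT.nd (nat_lit 78) (nat_lit 76) (nat_lit 0) (XT.lf (nat_lit 0) (nat_lit 4861213976) (nat_lit 152) (nat_lit 12897039668) (nat_lit 228) (nat_lit 719626112) (nat_lit 34) (nat_lit 5) (nat_lit 36) (nat_lit 5) (nat_lit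 37) (nat_lit 4) (nat_lit 506) (nat_lit 352) (nat_lit 282)) (XT.lf (nat_lit 0) (nat_lit 2970309975) (nat_lit 228) (nat_lit 6020870866) (nat_lit 76) (nat_lit 9765367816) (nat_lit 33) (nat_lit 5) (nat_lit 36) (nat_lit 5) (nat_lit 34) (nat_lit 5) (nat_lit 507) (nat_lit 352) (nat_lit 281))))) (XT.nd (nat_lit 234) (nat_lit 380) (nat_lit 0) (XT.nd (nat_lit 78) (nat_lit 0) (nat_lit 0) (XT.lf (nat_lit 0) (nat_lit 1693289773) (nat_lit 152) (nat_lit 5012899836) (nat_lit 228) (nat_lit 12334878325) (nat_lit 31) (nat_lit 5) (nat_lit 33) (nat_lit 5) (nat_lit 34) (nat_lit 5) (nat_lit 508) (nat_lit 352) (nat_lit 280)) (XT.nd (nat_lit 78) (nat_lit 0) (nat_lit 0) (XT.lf (nat_lit 0) (nat_lit 9592691353) (nat_lit 152) (nat_lit 935520437) (nat_lit 228) (nat_lit 8802844901) (nat_lit 31) (nat_lit 5) (nat_lit 33) (nat_lit 5) (nat_lit 34) (nat_lit 5) (nat_lit 509) (nat_lit 352) (nat_lit 279)) (XT.lf (nat_lit 0) (nat_lit 14419054859) (nat_lit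 228) (nat_lit 2047793897) (nat_lit 76) (nat_lit 3160156302) (nat_lit 31) (nat_lit 5) (nat_lit 34) (nat_lit 5) (nat_lit 32) (nat_lit 4) (nat_lit 510) (nat_lit 352) (nat_lit 278)))) (XT.nd (nat_lit 156) (nat_lit 152) (nat_lit 0) (XT.nd (nat_lit 78) (nat_lit 76) (nat_lit 0) (XT.lf (nat_lit 0) (nat_lit 5817573221) (nat_lit 152) (nat_lit 12586120327) (nat_lit 228) (nat_lit 1524866566) (nat_lit 29) (nat_lit 5) (nat_lit 31) (nat_lit 5) (nat_lit 32) (nat_lit 4) (nat_lit 511) (nat_lit 352) (nat_lit 277)) (XT.lf (nat_lit 0) (nat_lit 2188492842) (nat_lit 228) (nat_lit 6431621251) (nat_lit 76) (nat_lit 11616031666) (nat_lit 28) (nat_lit 5) (nat_lit 31) (nat_lit 5) (nat_lit 29) (nat_lit 5) (nat_lit 512) (nat_lit 352) (nat_lit 276))) (XT.nd (nat_lit 78) (nat_lit 0) (nat_lit 0) (XT.lf (nat_lit 0) (nat_lit 1360871483) (nat_lit 152) (nat_lit 4576285558) (nat_lit 228) (nat_lit 14612902254) (nat_lit 26) (nat_lit 5) (nat_lit 28)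 (nat_lit 5) (nat_lit 29) (nat_lit 5) (nat_lit 513) (nat_lit 352) (nat_lit 275)) (XT.lf (nat_lit 0) (nat_lit 9348503718) (nat_lit 152) (nat_lit 428277457) (nat_lit 228) (nat_lit 11093156936) (nat_lit 26) (nat_lit 5) (nat_lit 28) (nat_lit 5) (nat_lit 29) (nat_lit 5) (nat_lit 514) (nat_lit 352) (nat_lit 274))))))) (XT.nd (nat_lit 1092) (nat_lit 228) (nat_lit 0) (XT.nd (nat_lit 546) (nat_lit 380) (nat_lit 0) (XT.nd (nat_lit 234) (nat_lit 228) (nat_lit 0) (XT.nd (nat_lit 78) (nat_lit 76) (nat_lit 0) (XT.lf (nat_lit 0) (nat_lit 13691115384) (nat_lit 228) (nat_lit 3772376620) (nat_lit 76) (nat_lit 3732770758) (nat_lit 26) (nat_lit 5) (nat_lit 29) (nat_lit 5) (nat_lit 27) (nat_lit 4) (nat_lit 515) (nat_lit 352) (nat_lit 273)) (XT.nd (nat_lit 78) (nat_lit 0) (nat_lit 0) (XT.lf (nat_lit 0) (nat_lit 4136646421) (nat_lit 76) (nat_lit 13550536924) (nat_lit 152) (nat_lit 3841868100) (nat_lit 25) (nat_lit 5) (nat_lit 26) (nat_lit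 5) (nat_lit 27) (nat_lit 4) (nat_lit 516) (nat_lit 352) (nat_lit 272)) (XT.lf (nat_lit 0) (nat_lit 12208858484) (nat_lit 76) (nat_lit 9553596917) (nat_lit 152) (nat_lit 106061199) (nat_lit 25) (nat_lit 5) (nat_lit 26) (nat_lit 5) (nat_lit 27) (nat_lit 4) (nat_lit 517) (nat_lit 352) (nat_lit 271)))) (XT.nd (nat_lit 156) (nat_lit 0) (nat_lit 0) (XT.nd (nat_lit 78) (nat_lit 152) (nat_lit 0) (XT.lf (nat_lit 0) (nat_lit 3630180525) (nat_lit 152) (nat_lit 1841878242) (nat_lit 76) (nat_lit 16742751295) (nat_lit 24) (nat_lit 5) (nat_lit 26) (nat_lit 5) (nat_lit 25) (nat_lit 5) (nat_lit 518) (nat_lit 352) (nat_lit 270)) (XT.lf (nat_lit 0) (nat_lit 6167769630) (nat_lit 152) (nat_lit 1286811097) (nat_lit 228) (nat_lit 15113143555) (nat_lit 22) (nat_lit 5) (nat_lit 24) (nat_lit 5) (nat_lit 25) (nat_lit 5) (nat_lit 519) (nat_lit 352) (nat_lit 269))) (XT.nd (nat_lit 78) (nat_lit 0) (nat_lit 0) (XT.lf (nat_lit 0) (nat_lit 11362159911)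 (nat_lit 228) (nat_lit 8629078248) (nat_lit 76) (nat_lit 2936330679) (nat_lit 22) (nat_lit 5) (nat_lit 25) (nat_lit 5) (nat_lit 23) (nat_lit 4) (nat_lit 520) (nat_lit 352) (nat_lit 268)) (XT.lf (nat_lit 0) (nat_lit 15331792123) (nat_lit 228) (nat_lit 755190918) (nat_lit 76) (nat_lit 7207954967) (nat_lit 22) (nat_lit 5) (nat_lit 25) (nat_lit 5) (nat_lit 23) (nat_lit 4) (nat_lit 521) (nat_lit 352) (nat_lit 267))))) (XT.nd (nat_lit 234) (nat_lit 228) (nat_lit 0) (XT.nd (nat_lit 78) (nat_lit 76) (nat_lit 0) (XT.lf (nat_lit 0) (nat_lit 7329274720) (nat_lit 76) (nat_lit 12074991044) (nat_lit 152) (nat_lit 4264925465) (nat_lit 21) (nat_lit 5) (nat_lit 22) (nat_lit 5) (nat_lit 23) (nat_lit 4) (nat_lit 522) (nat_lit 352) (nat_lit 266)) (XT.nd (nat_lit 78) (nat_lit 76) (nat_lit 0) (XT.lf (nat_lit 0) (nat_lit 15542925346) (nat_lit 76) (nat_lit 7996389319) (nat_lit 152) (nat_lit 511997865) (nat_lit 21) (nat_lit 5) (nat_lit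 22) (nat_lit 5) (nat_lit 23) (nat_lit 4) (nat_lit 523) (nat_lit 352) (nat_lit 265)) (XT.lf (nat_lit 0) (nat_lit 3248865212) (nat_lit 152) (nat_lit 583979336) (nat_lit 76) (nat_lit 20608279100) (nat_lit 20) (nat_lit 5) (nat_lit 22) (nat_lit 5) (nat_lit 21) (nat_lit 5) (nat_lit 524) (nat_lit 352) (nat_lit 264)))) (XT.nd (nat_lit 156) (nat_lit 76) (nat_lit 0) (XT.nd (nat_lit 78) (nat_lit 0) (nat_lit 0) (XT.lf (nat_lit 0) (nat_lit 7106883428) (nat_lit 228) (nat_lit 17287874788) (nat_lit 76) (nat_lit 443334427) (nat_lit 18) (nat_lit 5) (nat_lit 21) (nat_lit 5) (nat_lit 19) (nat_lit 4) (nat_lit 525) (nat_lit 352) (nat_lit 263)) (XT.lf (nat_lit 0) (nat_lit 11048289497) (nat_lit 228) (nat_lit 9454785916) (nat_lit 76) (nat_lit 4739806166) (nat_lit 18) (nat_lit 5) (nat_lit 21) (nat_lit 5) (nat_lit 19) (nat_lit 4) (nat_lit 526) (nat_lit 352) (nat_lit 262))) (XT.nd (nat_lit 78) (nat_lit 76) (nat_lit 0) (XT.lf (nat_lit 0)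 (nat_lit 15045876285) (nat_lit 228) (nat_lit 1505691373) (nat_lit 76) (nat_lit 9104656591) (nat_lit 18) (nat_lit 5) (nat_lit 21) (nat_lit 5) (nat_lit 19) (nat_lit 4) (nat_lit 527) (nat_lit 352) (nat_lit 261)) (XT.lf (nat_lit 0) (nat_lit 6649738649) (nat_lit 76) (nat_lit 12494647340) (nat_lit 152) (nat_lit 6933033273) (nat_lit 17) (nat_lit 5) (nat_lit 18) (nat_lit 5) (nat_lit 19) (nat_lit 4) (nat_lit 528) (nat_lit 352) (nat_lit 260)))))) (XT.nd (nat_lit 52260) (nat_lit 0) (nat_lit 14060) (XT.nd (nat_lit 51948) (nat_lit 0) (nat_lit 17100) (XT.nd (nat_lit 78) (nat_lit 228) (nat_lit 0) (XT.lf (nat_lit 0) (nat_lit 14949090617) (nat_lit 76) (nat_lit 8363854189) (nat_lit 152) (nat_lit 3194336606) (nat_lit 17) (nat_lit 5) (nat_lit 18) (nat_lit 5) (nat_lit 19) (nat_lit 4) (nat_lit 529) (nat_lit 352) (nat_lit 259)) (XT.nd (nat_lit 78) (nat_lit 152) (nat_lit 0) (XT.lf (nat_lit 0) (nat_lit 589273080) (nat_lit 152) (nat_lit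 3574444856) (nat_lit 76) (nat_lit 22782381918) (nat_lit 16) (nat_lit 5) (nat_lit 18) (nat_lit 5) (nat_lit 17) (nat_lit 5) (nat_lit 530) (nat_lit 352) (nat_lit 258)) (XT.lf (nat_lit 0) (nat_lit 4415183642) (nat_lit 228) (nat_lit 22824713798) (nat_lit 76) (nat_lit 153191453) (nat_lit 14) (nat_lit 5) (nat_lit 17) (nat_lit 5) (nat_lit 15) (nat_lit 4) (nat_lit 531) (nat_lit 352) (nat_lit 257)))) (XT.nd (nat_lit 156) (nat_lit 608) (nat_lit 0) (XT.nd (nat_lit 78) (nat_lit 684) (nat_lit 0) (XT.lf (nat_lit 0) (nat_lit 1284746108) (nat_lit 684) (nat_lit 1352178203) (nat_lit 684) (nat_lit 1352178203) (nat_lit 256) (nat_lit 4) (nat_lit 265) (nat_lit 5) (nat_lit 265) (nat_lit 4) (nat_lit 434) (nat_lit 353) (nat_lit 353)) (XT.lf (nat_lit 0) (nat_lit 330770905) (nat_lit 608) (nat_lit 453481868) (nat_lit 684) (nat_lit 7254926706) (nat_lit 247) (nat_lit 5) (nat_lit 255) (nat_lit 5) (nat_lit 256) (nat_lit 4) (nat_lit 435) (nat_lit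 353) (nat_lit 352))) (XT.nd (nat_lit 78) (nat_lit 608) (nat_lit 0) (XT.lf (nat_lit 0) (nat_lit 4292266735) (nat_lit 684) (nat_lit 1950405127) (nat_lit 0) (nat_lit 1858676010) (nat_lit 247) (nat_lit 5) (nat_lit 256) (nat_lit 4) (nat_lit 247) (nat_lit 4) (nat_lit 436) (nat_lit 353) (nat_lit 351)) (XT.lf (nat_lit 0) (nat_lit 3894353606) (nat_lit 608) (nat_lit 3942916714) (nat_lit 608) (nat_lit 328200612) (nat_lit 239) (nat_lit 4) (nat_lit 247) (nat_lit 5) (nat_lit 247) (nat_lit 4) (nat_lit 437) (nat_lit 353) (nat_lit 350))))) (XT.nd (nat_lit 234) (nat_lit 1672) (nat_lit 0) (XT.nd (nat_lit 78) (nat_lit 684) (nat_lit 0) (XT.lf (nat_lit 0) (nat_lit 1574641932) (nat_lit 608) (nat_lit 1567597715) (nat_lit 684) (nat_lit 5089020348) (nat_lit 230) (nat_lit 5) (nat_lit 238) (nat_lit 5) (nat_lit 239) (nat_lit 4) (nat_lit 438) (nat_lit 353) (nat_lit 349)) (XT.nd (nat_lit 78) (nat_lit 684) (nat_lit 0) (XT.lf (nat_lit 0) (nat_lit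 6651508295) (nat_lit 684) (nat_lit 787974681) (nat_lit 0) (nat_lit 859407319) (nat_lit 230) (nat_lit 5) (nat_lit 239) (nat_lit 4) (nat_lit 230) (nat_lit 4) (nat_lit 439) (nat_lit 353) (nat_lit 348)) (XT.lf (nat_lit 0) (nat_lit 1823114031) (nat_lit 684) (nat_lit 3200587908) (nat_lit 76) (nat_lit 3344283512) (nat_lit 221) (nat_lit 5) (nat_lit 230) (nat_lit 5) (nat_lit 222) (nat_lit 4) (nat_lit 440) (nat_lit 353) (nat_lit 347)))) (XT.nd (nat_lit 156) (nat_lit 532) (nat_lit 0) (XT.nd (nat_lit 78) (nat_lit 608) (nat_lit 0) (XT.lf (nat_lit 0) (nat_lit 2763207435) (nat_lit 532) (nat_lit 2541875402) (nat_lit 608) (nat_lit 3133921990) (nat_lit 214) (nat_lit 5) (nat_lit 221) (nat_lit 5) (nat_lit 222) (nat_lit 4) (nat_lit 441) (nat_lit 353) (nat_lit 346)) (XT.lf (nat_lit 0) (nat_lit 303635509) (nat_lit 532) (nat_lit 1751044) (nat_lit 608) (nat_lit 8206760714) (nat_lit 206) (nat_lit 5) (nat_lit 213) (nat_lit 5) (nat_lit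 214) (nat_lit 5) (nat_lit 442) (nat_lit 353) (nat_lit 345))) (XT.nd (nat_lit 78) (nat_lit 532) (nat_lit 0) (XT.lf (nat_lit 0) (nat_lit 3768329927) (nat_lit 608) (nat_lit 2221410946) (nat_lit 76) (nat_lit 2596701213) (nat_lit 206) (nat_lit 5) (nat_lit 214) (nat_lit 5) (nat_lit 207) (nat_lit 4) (nat_lit 443) (nat_lit 353) (nat_lit 344)) (XT.lf (nat_lit 0) (nat_lit 3860366546) (nat_lit 532) (nat_lit 3408008119) (nat_lit 608) (nat_lit 1394530571) (nat_lit 199) (nat_lit 5) (nat_lit 206) (nat_lit 5) (nat_lit 207) (nat_lit 4) (nat_lit 444) (nat_lit 353) (nat_lit 343))))))))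
noncomputable def xc43 : XT := (XT.nd (nat_lit 2184) (nat_lit 4028) (nat_lit 0) (XT.nd (nat_lit 1092) (nat_lit 3344) (nat_lit 0) (XT.nd (nat_lit 546) (nat_lit 1976) (nat_lit 0) (XT.nd (nat_lit 234) (nat_lit 1520) (nat_lit 0) (XT.nd (nat_lit 78) (nat_lit 532) (nat_lit 0) (XT.lf (nat_lit 0) (nat_lit 1280386510) (nat_lit 532) (nat_lit 755933495) (nat_lit 608) (nat_lit 6705016899) (nat_lit 191) (nat_lit 5) (nat_lit 198) (nat_lit 5) (nat_lit 199) (nat_lit 5) (nat_lit 445) (nat_lit 353) (nat_lit 342)) (XT.nd (nat_lit 78) (nat_lit 532) (nat_lit 0) (XT.lf (nat_lit 0) (nat_lit 5505720551) (nat_lit 608) (nat_lit 1369248365) (nat_lit 76) (nat_lit 1946448837) (nat_lit 191) (nat_lit 5) (nat_lit 199) (nat_lit 5) (nat_lit 192) (nat_lit 4) (nat_lit 446) (nat_lit 353) (nat_lit 341)) (XT.lf (nat_lit 0) (nat_lit 120342201) (nat_lit 532) (nat_lit 4076734268) (nat_lit 76) (nat_lit 4706425212) (nat_lit 184) (nat_lit 5) (nat_lit 191)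 (nat_lit 5) (nat_lit 185) (nat_lit 5) (nat_lit 447) (nat_lit 353) (nat_lit 340)))) (XT.nd (nat_lit 156) (nat_lit 988) (nat_lit 0) (XT.nd (nat_lit 78) (nat_lit 0) (nat_lit 0) (XT.lf (nat_lit 0) (nat_lit 2108559626) (nat_lit 532) (nat_lit 1439930750) (nat_lit 608) (nat_lit 5438977756) (nat_lit 177) (nat_lit 5) (nat_lit 184) (nat_lit 5) (nat_lit 185) (nat_lit 5) (nat_lit 448) (nat_lit 353) (nat_lit 339)) (XT.lf (nat_lit 0) (nat_lit 7026919706) (nat_lit 608) (nat_lit 684633162) (nat_lit 76) (nat_lit 1361960882) (nat_lit 177) (nat_lit 5) (nat_lit 185) (nat_lit 5) (nat_lit 178) (nat_lit 4) (nat_lit 449) (nat_lit 353) (nat_lit 338))) (XT.nd (nat_lit 78) (nat_lit 456) (nat_lit 0) (XT.lf (nat_lit 0) (nat_lit 1387403648) (nat_lit 532) (nat_lit 3547158962) (nat_lit 76) (nat_lit 4226720848) (nat_lit 170) (nat_lit 5) (nat_lit 177) (nat_lit 5) (nat_lit 171) (nat_lit 5) (nat_lit 450) (nat_lit 353) (nat_lit 337)) (XT.lf (nat_lit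 0) (nat_lit 2745278515) (nat_lit 456) (nat_lit 2086405030) (nat_lit 532) (nat_lit 4419506559) (nat_lit 164) (nat_lit 5) (nat_lit 170) (nat_lit 5) (nat_lit 171) (nat_lit 5) (nat_lit 451) (nat_lit 353) (nat_lit 336))))) (XT.nd (nat_lit 234) (nat_lit 988) (nat_lit 0) (XT.nd (nat_lit 78) (nat_lit 988) (nat_lit 0) (XT.lf (nat_lit 0) (nat_lit 8321087320) (nat_lit 532) (nat_lit 211269582) (nat_lit 76) (nat_lit 811044813) (nat_lit 164) (nat_lit 5) (nat_lit 171) (nat_lit 5) (nat_lit 165) (nat_lit 4) (nat_lit 452) (nat_lit 353) (nat_lit 335)) (XT.nd (nat_lit 78) (nat_lit 456) (nat_lit 0) (XT.lf (nat_lit 0) (nat_lit 2412861399) (nat_lit 532) (nat_lit 3250069784) (nat_lit 76) (nat_lit 3774197977) (nat_lit 157) (nat_lit 5) (nat_lit 164) (nat_lit 5) (nat_lit 158) (nat_lit 5) (nat_lit 453) (nat_lit 353) (nat_lit 334)) (XT.lf (nat_lit 0) (nat_lit 3144184391) (nat_lit 456) (nat_lit 2728897670) (nat_lit 532) (nat_lit 3660143114)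 (nat_lit 151) (nat_lit 5) (nat_lit 157) (nat_lit 5) (nat_lit 158) (nat_lit 5) (nat_lit 454) (nat_lit 353) (nat_lit 333)))) (XT.nd (nat_lit 156) (nat_lit 532) (nat_lit 0) (XT.nd (nat_lit 78) (nat_lit 76) (nat_lit 0) (XT.lf (nat_lit 0) (nat_lit 3546644) (nat_lit 380) (nat_lit 9371223862) (nat_lit 456) (nat_lit 257056527) (nat_lit 146) (nat_lit 5) (nat_lit 151) (nat_lit 5) (nat_lit 152) (nat_lit 4) (nat_lit 455) (nat_lit 353) (nat_lit 332)) (XT.lf (nat_lit 0) (nat_lit 3181906060) (nat_lit 456) (nat_lit 3234612516) (nat_lit 76) (nat_lit 3315293695) (nat_lit 145) (nat_lit 5) (nat_lit 151) (nat_lit 5) (nat_lit 146) (nat_lit 5) (nat_lit 456) (nat_lit 353) (nat_lit 331))) (XT.nd (nat_lit 78) (nat_lit 76) (nat_lit 0) (XT.lf (nat_lit 0) (nat_lit 3254939096) (nat_lit 456) (nat_lit 3402146131) (nat_lit 532) (nat_lit 3177287923) (nat_lit 139) (nat_lit 5) (nat_lit 145) (nat_lit 5) (nat_lit 146) (nat_lit 5) (nat_lit 457) (nat_lit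 353) (nat_lit 330)) (XT.lf (nat_lit 0) (nat_lit 231087570) (nat_lit 532) (nat_lit 95461752) (nat_lit 76) (nat_lit 9612993214) (nat_lit 138) (nat_lit 5) (nat_lit 145) (nat_lit 5) (nat_lit 139) (nat_lit 5) (nat_lit 458) (nat_lit 353) (nat_lit 329)))))) (XT.nd (nat_lit 546) (nat_lit 1444) (nat_lit 0) (XT.nd (nat_lit 234) (nat_lit 1064) (nat_lit 0) (XT.nd (nat_lit 78) (nat_lit 456) (nat_lit 0) (XT.lf (nat_lit 0) (nat_lit 3676803033) (nat_lit 456) (nat_lit 3554292550) (nat_lit 76) (nat_lit 2815091281) (nat_lit 133) (nat_lit 5) (nat_lit 139) (nat_lit 5) (nat_lit 134) (nat_lit 5) (nat_lit 459) (nat_lit 353) (nat_lit 328)) (XT.nd (nat_lit 78) (nat_lit 76) (nat_lit 0) (XT.lf (nat_lit 0) (nat_lit 3022684556) (nat_lit 380) (nat_lit 4142417941) (nat_lit 456) (nat_lit 2990413599) (nat_lit 128) (nat_lit 5) (nat_lit 133) (nat_lit 5) (nat_lit 134) (nat_lit 5) (nat_lit 460) (nat_lit 353) (nat_lit 327)) (XT.lf (nat_lit 0) (nat_lit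 425546478) (nat_lit 456) (nat_lit 562621685) (nat_lit 76) (nat_lit 9279321089) (nat_lit 127) (nat_lit 5) (nat_lit 133) (nat_lit 5) (nat_lit 128) (nat_lit 5) (nat_lit 461) (nat_lit 353) (nat_lit 326)))) (XT.nd (nat_lit 156) (nat_lit 380) (nat_lit 0) (XT.nd (nat_lit 78) (nat_lit 380) (nat_lit 0) (XT.lf (nat_lit 0) (nat_lit 3876666706) (nat_lit 380) (nat_lit 4267547080) (nat_lit 76) (nat_lit 2236979046) (nat_lit 123) (nat_lit 5) (nat_lit 128) (nat_lit 5) (nat_lit 124) (nat_lit 5) (nat_lit 462) (nat_lit 353) (nat_lit 325)) (XT.lf (nat_lit 0) (nat_lit 2387453401) (nat_lit 380) (nat_lit 4987864607) (nat_lit 456) (nat_lit 3122305778) (nat_lit 118) (nat_lit 5) (nat_lit 123) (nat_lit 5) (nat_lit 124) (nat_lit 5) (nat_lit 463) (nat_lit 353) (nat_lit 324))) (XT.nd (nat_lit 78) (nat_lit 304) (nat_lit 0) (XT.lf (nat_lit 0) (nat_lit 304888664) (nat_lit 456) (nat_lit 1456165777) (nat_lit 76) (nat_lit 8855676435) (nat_lit 117)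 (nat_lit 5) (nat_lit 123) (nat_lit 5) (nat_lit 118) (nat_lit 5) (nat_lit 464) (nat_lit 353) (nat_lit 323)) (XT.lf (nat_lit 0) (nat_lit 3757204104) (nat_lit 380) (nat_lit 5438370011) (nat_lit 76) (nat_lit 1542287649) (nat_lit 113) (nat_lit 5) (nat_lit 118) (nat_lit 5) (nat_lit 114) (nat_lit 5) (nat_lit 465) (nat_lit 353) (nat_lit 322))))) (XT.nd (nat_lit 234) (nat_lit 684) (nat_lit 0) (XT.nd (nat_lit 78) (nat_lit 380) (nat_lit 0) (XT.lf (nat_lit 0) (nat_lit 1283524982) (nat_lit 380) (nat_lit 5978898755) (nat_lit 456) (nat_lit 3599336064) (nat_lit 108) (nat_lit 5) (nat_lit 113) (nat_lit 5) (nat_lit 114) (nat_lit 5) (nat_lit 466) (nat_lit 353) (nat_lit 321)) (XT.nd (nat_lit 78) (nat_lit 380) (nat_lit 0) (XT.lf (nat_lit 0) (nat_lit 8143676665) (nat_lit 380) (nat_lit 2685038476) (nat_lit 456) (nat_lit 159622574) (nat_lit 108) (nat_lit 5) (nat_lit 113) (nat_lit 5) (nat_lit 114) (nat_lit 5) (nat_lit 467) (nat_lit 353)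 (nat_lit 320)) (XT.lf (nat_lit 0) (nat_lit 3290425347) (nat_lit 380) (nat_lit 7136995669) (nat_lit 76) (nat_lit 689902517) (nat_lit 103) (nat_lit 5) (nat_lit 108) (nat_lit 5) (nat_lit 104) (nat_lit 5) (nat_lit 468) (nat_lit 353) (nat_lit 319)))) (XT.nd (nat_lit 156) (nat_lit 380) (nat_lit 0) (XT.nd (nat_lit 78) (nat_lit 304) (nat_lit 0) (XT.lf (nat_lit 0) (nat_lit 6799664169) (nat_lit 380) (nat_lit 356541248) (nat_lit 76) (nat_lit 4092836038) (nat_lit 103) (nat_lit 5) (nat_lit 108) (nat_lit 5) (nat_lit 104) (nat_lit 5) (nat_lit 469) (nat_lit 353) (nat_lit 318)) (XT.lf (nat_lit 0) (nat_lit 6577706316) (nat_lit 304) (nat_lit 3800292192) (nat_lit 380) (nat_lit 1005436657) (nat_lit 99) (nat_lit 5) (nat_lit 103) (nat_lit 5) (nat_lit 104) (nat_lit 5) (nat_lit 470) (nat_lit 353) (nat_lit 317))) (XT.nd (nat_lit 78) (nat_lit 0) (nat_lit 0) (XT.lf (nat_lit 0) (nat_lit 2077721977) (nat_lit 304) (nat_lit 368991655) (nat_lit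 380) (nat_lit 9074052094) (nat_lit 94) (nat_lit 5) (nat_lit 98) (nat_lit 5) (nat_lit 99) (nat_lit 5) (nat_lit 471) (nat_lit 353) (nat_lit 316)) (XT.lf (nat_lit 0) (nat_lit 5963821824) (nat_lit 380) (nat_lit 2591924323) (nat_lit 76) (nat_lit 3104794789) (nat_lit 94) (nat_lit 5) (nat_lit 99) (nat_lit 5) (nat_lit 95) (nat_lit 5) (nat_lit 472) (nat_lit 353) (nat_lit 315))))))) (XT.nd (nat_lit 1092) (nat_lit 1672) (nat_lit 0) (XT.nd (nat_lit 546) (nat_lit 1140) (nat_lit 0) (XT.nd (nat_lit 234) (nat_lit 608) (nat_lit 0) (XT.nd (nat_lit 78) (nat_lit 304) (nat_lit 0) (XT.lf (nat_lit 0) (nat_lit 4384104561) (nat_lit 304) (nat_lit 5155501730) (nat_lit 380) (nat_lit 2263756824) (nat_lit 90) (nat_lit 5) (nat_lit 94) (nat_lit 5) (nat_lit 95) (nat_lit 5) (nat_lit 473) (nat_lit 353) (nat_lit 314)) (XT.nd (nat_lit 78) (nat_lit 228) (nat_lit 0) (XT.lf (nat_lit 0) (nat_lit 1196668908) (nat_lit 380) (nat_lit 489365405) (nat_lit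 76) (nat_lit 10263363348) (nat_lit 89) (nat_lit 5) (nat_lit 94) (nat_lit 5) (nat_lit 90) (nat_lit 5) (nat_lit 474) (nat_lit 353) (nat_lit 313)) (XT.lf (nat_lit 0) (nat_lit 4709388184) (nat_lit 304) (nat_lit 5525798932) (nat_lit 76) (nat_lit 1862615679) (nat_lit 86) (nat_lit 5) (nat_lit 90) (nat_lit 5) (nat_lit 87) (nat_lit 5) (nat_lit 475) (nat_lit 353) (nat_lit 312)))) (XT.nd (nat_lit 156) (nat_lit 304) (nat_lit 0) (XT.nd (nat_lit 78) (nat_lit 0) (nat_lit 0) (XT.lf (nat_lit 0) (nat_lit 1474030764) (nat_lit 304) (nat_lit 6800969255) (nat_lit 380) (nat_lit 3974540014) (nat_lit 82) (nat_lit 5) (nat_lit 86) (nat_lit 5) (nat_lit 87) (nat_lit 5) (nat_lit 476) (nat_lit 353) (nat_lit 311)) (XT.lf (nat_lit 0) (nat_lit 8622958969) (nat_lit 304) (nat_lit 3285027099) (nat_lit 380) (nat_lit 496421145) (nat_lit 82) (nat_lit 5) (nat_lit 86) (nat_lit 5) (nat_lit 87) (nat_lit 5) (nat_lit 477) (nat_lit 353) (nat_lit 310))) (XT.nd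 (nat_lit 78) (nat_lit 0) (nat_lit 0) (XT.lf (nat_lit 0) (nat_lit 2994312647) (nat_lit 304) (nat_lit 9253398553) (nat_lit 76) (nat_lit 314618714) (nat_lit 78) (nat_lit 5) (nat_lit 82) (nat_lit 5) (nat_lit 79) (nat_lit 5) (nat_lit 478) (nat_lit 353) (nat_lit 309)) (XT.lf (nat_lit 0) (nat_lit 6555237205) (nat_lit 304) (nat_lit 2221033431) (nat_lit 76) (nat_lit 3946949831) (nat_lit 78) (nat_lit 5) (nat_lit 82) (nat_lit 5) (nat_lit 79) (nat_lit 5) (nat_lit 479) (nat_lit 353) (nat_lit 308))))) (XT.nd (nat_lit 234) (nat_lit 532) (nat_lit 0) (XT.nd (nat_lit 78) (nat_lit 304) (nat_lit 0) (XT.lf (nat_lit 0) (nat_lit 4952921560) (nat_lit 304) (nat_lit 5227124432) (nat_lit 380) (nat_lit 2707444708) (nat_lit 74) (nat_lit 5) (nat_lit 78) (nat_lit 5) (nat_lit 79) (nat_lit 5) (nat_lit 480) (nat_lit 353) (nat_lit 307)) (XT.nd (nat_lit 78) (nat_lit 228) (nat_lit 0) (XT.lf (nat_lit 0) (nat_lit 787118657) (nat_lit 380) (nat_lit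 823856549) (nat_lit 76) (nat_lit 11444466975) (nat_lit 73) (nat_lit 5) (nat_lit 78) (nat_lit 5) (nat_lit 74) (nat_lit 5) (nat_lit 481) (nat_lit 353) (nat_lit 306)) (XT.lf (nat_lit 0) (nat_lit 4332214145) (nat_lit 304) (nat_lit 6807442335) (nat_lit 76) (nat_lit 2086414727) (nat_lit 70) (nat_lit 5) (nat_lit 74) (nat_lit 5) (nat_lit 71) (nat_lit 5) (nat_lit 482) (nat_lit 353) (nat_lit 305)))) (XT.nd (nat_lit 156) (nat_lit 304) (nat_lit 0) (XT.nd (nat_lit 78) (nat_lit 0) (nat_lit 0) (XT.lf (nat_lit 0) (nat_lit 347902388) (nat_lit 228) (nat_lit 7580365072) (nat_lit 304) (nat_lit 5472258261) (nat_lit 67) (nat_lit 5) (nat_lit 70) (nat_lit 5) (nat_lit 71) (nat_lit 5) (nat_lit 483) (nat_lit 353) (nat_lit 304)) (XT.lf (nat_lit 0) (nat_lit 7675961266) (nat_lit 228) (nat_lit 3927872141) (nat_lit 304) (nat_lit 1974497844) (nat_lit 67) (nat_lit 5) (nat_lit 70) (nat_lit 5) (nat_lit 71) (nat_lit 5) (nat_lit 484) (nat_lit 353)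 (nat_lit 303))) (XT.nd (nat_lit 78) (nat_lit 0) (nat_lit 0) (XT.lf (nat_lit 0) (nat_lit 1336114024) (nat_lit 228) (nat_lit 207279650) (nat_lit 304) (nat_lit 12216684127) (nat_lit 63) (nat_lit 5) (nat_lit 66) (nat_lit 5) (nat_lit 67) (nat_lit 5) (nat_lit 485) (nat_lit 353) (nat_lit 302)) (XT.lf (nat_lit 0) (nat_lit 5130969794) (nat_lit 304) (nat_lit 5244070170) (nat_lit 76) (nat_lit 3569655943) (nat_lit 63) (nat_lit 5) (nat_lit 67) (nat_lit 5) (nat_lit 64) (nat_lit 5) (nat_lit 486) (nat_lit 353) (nat_lit 301)))))) (XT.nd (nat_lit 546) (nat_lit 684) (nat_lit 0) (XT.nd (nat_lit 234) (nat_lit 456) (nat_lit 0) (XT.nd (nat_lit 78) (nat_lit 304) (nat_lit 0) (XT.lf (nat_lit 0) (nat_lit 2043927022) (nat_lit 228) (nat_lit 6724323833) (nat_lit 304) (nat_lit 5365209159) (nat_lit 60) (nat_lit 5) (nat_lit 63) (nat_lit 5) (nat_lit 64) (nat_lit 5) (nat_lit 487) (nat_lit 353) (nat_lit 300)) (XT.nd (nat_lit 78) (nat_lit 304) (nat_lit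 0) (XT.lf (nat_lit 0) (nat_lit 9488241711) (nat_lit 228) (nat_lit 2988862901) (nat_lit 304) (nat_lit 1848930706) (nat_lit 60) (nat_lit 5) (nat_lit 63) (nat_lit 5) (nat_lit 64) (nat_lit 5) (nat_lit 488) (nat_lit 353) (nat_lit 299)) (XT.lf (nat_lit 0) (nat_lit 1700712644) (nat_lit 304) (nat_lit 12007067821) (nat_lit 76) (nat_lit 814751410) (nat_lit 56) (nat_lit 5) (nat_lit 60) (nat_lit 5) (nat_lit 57) (nat_lit 5) (nat_lit 489) (nat_lit 353) (nat_lit 298)))) (XT.nd (nat_lit 156) (nat_lit 228) (nat_lit 0) (XT.nd (nat_lit 78) (nat_lit 228) (nat_lit 0) (XT.lf (nat_lit 0) (nat_lit 5313352326) (nat_lit 304) (nat_lit 4733202295) (nat_lit 76) (nat_lit 4675835839) (nat_lit 56) (nat_lit 5) (nat_lit 60) (nat_lit 5) (nat_lit 57) (nat_lit 5) (nat_lit 490) (nat_lit 353) (nat_lit 297)) (XT.lf (nat_lit 0) (nat_lit 2662228410) (nat_lit 228) (nat_lit 6318266613) (nat_lit 304) (nat_lit 5946117698) (nat_lit 53) (nat_lit 5) (nat_lit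 56) (nat_lit 5) (nat_lit 57) (nat_lit 5) (nat_lit 491) (nat_lit 353) (nat_lit 296))) (XT.nd (nat_lit 78) (nat_lit 228) (nat_lit 0) (XT.lf (nat_lit 0) (nat_lit 10211286823) (nat_lit 228) (nat_lit 2506728819) (nat_lit 304) (nat_lit 2416974368) (nat_lit 53) (nat_lit 5) (nat_lit 56) (nat_lit 5) (nat_lit 57) (nat_lit 5) (nat_lit 492) (nat_lit 353) (nat_lit 295)) (XT.lf (nat_lit 0) (nat_lit 1158367566) (nat_lit 228) (nat_lit 12825170056) (nat_lit 76) (nat_lit 1364031926) (nat_lit 50) (nat_lit 5) (nat_lit 53) (nat_lit 5) (nat_lit 51) (nat_lit 5) (nat_lit 493) (nat_lit 353) (nat_lit 294))))) (XT.nd (nat_lit 312) (nat_lit 304) (nat_lit 0) (XT.nd (nat_lit 156) (nat_lit 152) (nat_lit 0) (XT.nd (nat_lit 78) (nat_lit 228) (nat_lit 0) (XT.lf (nat_lit 0) (nat_lit 4788608670) (nat_lit 228) (nat_lit 5470319289) (nat_lit 76) (nat_lit 5304848714) (nat_lit 50) (nat_lit 5) (nat_lit 53) (nat_lit 5) (nat_lit 51) (nat_lit 5) (nat_lit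 494) (nat_lit 353) (nat_lit 293)) (XT.lf (nat_lit 0) (nat_lit 2001089191) (nat_lit 228) (nat_lit 6469892177) (nat_lit 304) (nat_lit 7313746462) (nat_lit 47) (nat_lit 5) (nat_lit 50) (nat_lit 5) (nat_lit 51) (nat_lit 5) (nat_lit 495) (nat_lit 353) (nat_lit 292))) (XT.nd (nat_lit 78) (nat_lit 152) (nat_lit 0) (XT.lf (nat_lit 0) (nat_lit 9639667092) (nat_lit 228) (nat_lit 2590867459) (nat_lit 304) (nat_lit 3779503018) (nat_lit 47) (nat_lit 5) (nat_lit 50) (nat_lit 5) (nat_lit 51) (nat_lit 5) (nat_lit 496) (nat_lit 353) (nat_lit 291)) (XT.lf (nat_lit 0) (nat_lit 1141449177) (nat_lit 152) (nat_lit 14907434855) (nat_lit 228) (nat_lit 191307383) (nat_lit 45) (nat_lit 5) (nat_lit 47) (nat_lit 5) (nat_lit 48) (nat_lit 4) (nat_lit 497) (nat_lit 353) (nat_lit 290)))) (XT.nd (nat_lit 156) (nat_lit 228) (nat_lit 0) (XT.nd (nat_lit 78) (nat_lit 0) (nat_lit 0) (XT.lf (nat_lit 0) (nat_lit 3450733206) (nat_lit 228) (nat_lit 7680090830)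 (nat_lit 76) (nat_lit 5343132057) (nat_lit 44) (nat_lit 5) (nat_lit 47) (nat_lit 5) (nat_lit 45) (nat_lit 5) (nat_lit 498) (nat_lit 353) (nat_lit 289)) (XT.lf (nat_lit 0) (nat_lit 7131078274) (nat_lit 228) (nat_lit 169130171) (nat_lit 76) (nat_lit 9412811263) (nat_lit 44) (nat_lit 5) (nat_lit 47) (nat_lit 5) (nat_lit 45) (nat_lit 5) (nat_lit 499) (nat_lit 353) (nat_lit 288))) (XT.nd (nat_lit 78) (nat_lit 0) (nat_lit 0) (XT.lf (nat_lit 0) (nat_lit 7537178762) (nat_lit 228) (nat_lit 3365437724) (nat_lit 304) (nat_lit 6053905641) (nat_lit 41) (nat_lit 5) (nat_lit 44) (nat_lit 5) (nat_lit 45) (nat_lit 5) (nat_lit 500) (nat_lit 353) (nat_lit 287)) (XT.lf (nat_lit 0) (nat_lit 14723708741) (nat_lit 304) (nat_lit 1863035332) (nat_lit 76) (nat_lit 618677130) (nat_lit 41) (nat_lit 5) (nat_lit 45) (nat_lit 5) (nat_lit 42) (nat_lit 4) (nat_lit 501) (nat_lit 353) (nat_lit 286))))))))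
noncomputable def xc44 : XT := (XT.nd (nat_lit 2184) (nat_lit 76) (nat_lit 0) (XT.nd (nat_lit 1092) (nat_lit 684) (nat_lit 0) (XT.nd (nat_lit 546) (nat_lit 532) (nat_lit 0) (XT.nd (nat_lit 234) (nat_lit 228) (nat_lit 0) (XT.nd (nat_lit 78) (nat_lit 152) (nat_lit 0) (XT.lf (nat_lit 0) (nat_lit 1176502505) (nat_lit 228) (nat_lit 11620471388) (nat_lit 76) (nat_lit 4661585873) (nat_lit 38) (nat_lit 5) (nat_lit 41) (nat_lit 5) (nat_lit 39) (nat_lit 5) (nat_lit 502) (nat_lit 353) (nat_lit 285)) (XT.nd (nat_lit 78) (nat_lit 152) (nat_lit 0) (XT.lf (nat_lit 0) (nat_lit 4856703212) (nat_lit 228) (nat_lit 4067406901) (nat_lit 76) (nat_lit 8792690427) (nat_lit 38) (nat_lit 5) (nat_lit 41) (nat_lit 5) (nat_lit 39) (nat_lit 5) (nat_lit 503) (nat_lit 353) (nat_lit 284)) (XT.lf (nat_lit 0) (nat_lit 3632530400) (nat_lit 152) (nat_lit 4971597391) (nat_lit 228) (nat_lit 9376214322) (nat_lit 36) (nat_lit 5) (nat_lit 38) (nat_lit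 5) (nat_lit 39) (nat_lit 5) (nat_lit 504) (nat_lit 353) (nat_lit 283)))) (XT.nd (nat_lit 156) (nat_lit 76) (nat_lit 0) (XT.nd (nat_lit 78) (nat_lit 152) (nat_lit 0) (XT.lf (nat_lit 0) (nat_lit 11490112441) (nat_lit 152) (nat_lit 933971176) (nat_lit 228) (nat_lit 5825127466) (nat_lit 36) (nat_lit 5) (nat_lit 38) (nat_lit 5) (nat_lit 39) (nat_lit 5) (nat_lit 505) (nat_lit 353) (nat_lit 282)) (XT.lf (nat_lit 0) (nat_lit 921872712) (nat_lit 152) (nat_lit 15395958817) (nat_lit 228) (nat_lit 2205686102) (nat_lit 34) (nat_lit 5) (nat_lit 36) (nat_lit 5) (nat_lit 37) (nat_lit 4) (nat_lit 506) (nat_lit 353) (nat_lit 281))) (XT.nd (nat_lit 78) (nat_lit 0) (nat_lit 0) (XT.lf (nat_lit 0) (nat_lit 1489273420) (nat_lit 228) (nat_lit 10021445199) (nat_lit 76) (nat_lit 7291954047) (nat_lit 33) (nat_lit 5) (nat_lit 36) (nat_lit 5) (nat_lit 34) (nat_lit 5) (nat_lit 507) (nat_lit 353) (nat_lit 280)) (XT.lf (nat_lit 0) (nat_lit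 5199976242) (nat_lit 228) (nat_lit 2354241066) (nat_lit 76) (nat_lit 11533481930) (nat_lit 33) (nat_lit 5) (nat_lit 36) (nat_lit 5) (nat_lit 34) (nat_lit 5) (nat_lit 508) (nat_lit 353) (nat_lit 279))))) (XT.nd (nat_lit 234) (nat_lit 228) (nat_lit 0) (XT.nd (nat_lit 78) (nat_lit 152) (nat_lit 0) (XT.lf (nat_lit 0) (nat_lit 5489288001) (nat_lit 152) (nat_lit 3503157608) (nat_lit 228) (nat_lit 10385837127) (nat_lit 31) (nat_lit 5) (nat_lit 33) (nat_lit 5) (nat_lit 34) (nat_lit 5) (nat_lit 509) (nat_lit 353) (nat_lit 278)) (XT.nd (nat_lit 78) (nat_lit 152) (nat_lit 0) (XT.lf (nat_lit 0) (nat_lit 12852762288) (nat_lit 228) (nat_lit 6206068713) (nat_lit 76) (nat_lit 616014242) (nat_lit 31) (nat_lit 5) (nat_lit 34) (nat_lit 5) (nat_lit 32) (nat_lit 4) (nat_lit 510) (nat_lit 353) (nat_lit 277)) (XT.lf (nat_lit 0) (nat_lit 1579880873) (nat_lit 152) (nat_lit 15216422287) (nat_lit 228) (nat_lit 3180922639) (nat_lit 29)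 (nat_lit 5) (nat_lit 31) (nat_lit 5) (nat_lit 32) (nat_lit 4) (nat_lit 511) (nat_lit 353) (nat_lit 276)))) (XT.nd (nat_lit 156) (nat_lit 152) (nat_lit 0) (XT.nd (nat_lit 78) (nat_lit 0) (nat_lit 0) (XT.lf (nat_lit 0) (nat_lit 540592282) (nat_lit 228) (nat_lit 10731093327) (nat_lit 76) (nat_lit 9013615563) (nat_lit 28) (nat_lit 5) (nat_lit 31) (nat_lit 5) (nat_lit 29) (nat_lit 5) (nat_lit 512) (nat_lit 353) (nat_lit 275)) (XT.lf (nat_lit 0) (nat_lit 4267122800) (nat_lit 228) (nat_lit 2979846960) (nat_lit 76) (nat_lit 13352690959) (nat_lit 28) (nat_lit 5) (nat_lit 31) (nat_lit 5) (nat_lit 29) (nat_lit 5) (nat_lit 513) (nat_lit 353) (nat_lit 274))) (XT.nd (nat_lit 78) (nat_lit 0) (nat_lit 0) (XT.lf (nat_lit 0) (nat_lit 4944940321) (nat_lit 152) (nat_lit 3129014183) (nat_lit 228) (nat_lit 12846244152) (nat_lit 26) (nat_lit 5) (nat_lit 28) (nat_lit 5) (nat_lit 29) (nat_lit 5) (nat_lit 514) (nat_lit 353) (nat_lit 273))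 (XT.lf (nat_lit 0) (nat_lit 11957760145) (nat_lit 228) (nat_lit 8231651962) (nat_lit 76) (nat_lit 1057724979) (nat_lit 26) (nat_lit 5) (nat_lit 29) (nat_lit 5) (nat_lit 27) (nat_lit 4) (nat_lit 515) (nat_lit 353) (nat_lit 272)))))) (XT.nd (nat_lit 546) (nat_lit 304) (nat_lit 0) (XT.nd (nat_lit 234) (nat_lit 228) (nat_lit 0) (XT.nd (nat_lit 78) (nat_lit 152) (nat_lit 0) (XT.lf (nat_lit 0) (nat_lit 15914231438) (nat_lit 228) (nat_lit 399417442) (nat_lit 76) (nat_lit 5267071969) (nat_lit 26) (nat_lit 5) (nat_lit 29) (nat_lit 5) (nat_lit 27) (nat_lit 4) (nat_lit 516) (nat_lit 353) (nat_lit 271)) (XT.nd (nat_lit 78) (nat_lit 76) (nat_lit 0) (XT.lf (nat_lit 0) (nat_lit 7645099174) (nat_lit 76) (nat_lit 12329142184) (nat_lit 152) (nat_lit 1946252972) (nat_lit 25) (nat_lit 5) (nat_lit 26) (nat_lit 5) (nat_lit 27) (nat_lit 4) (nat_lit 517) (nat_lit 353) (nat_lit 270)) (XT.lf (nat_lit 0) (nat_lit 1801651526) (nat_lit 152)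 (nat_lit 6467784672) (nat_lit 76) (nat_lit 13997842945) (nat_lit 24) (nat_lit 5) (nat_lit 26) (nat_lit 5) (nat_lit 25) (nat_lit 5) (nat_lit 518) (nat_lit 353) (nat_lit 269)))) (XT.nd (nat_lit 156) (nat_lit 76) (nat_lit 0) (XT.nd (nat_lit 78) (nat_lit 0) (nat_lit 0) (XT.lf (nat_lit 0) (nat_lit 1458415709) (nat_lit 152) (nat_lit 4124832642) (nat_lit 228) (nat_lit 17037803987) (nat_lit 22) (nat_lit 5) (nat_lit 24) (nat_lit 5) (nat_lit 25) (nat_lit 5) (nat_lit 519) (nat_lit 353) (nat_lit 268)) (XT.lf (nat_lit 0) (nat_lit 9460212858) (nat_lit 228) (nat_lit 13395058993) (nat_lit 76) (nat_lit 126240183) (nat_lit 22) (nat_lit 5) (nat_lit 25) (nat_lit 5) (nat_lit 23) (nat_lit 4) (nat_lit 520) (nat_lit 353) (nat_lit 267))) (XT.nd (nat_lit 78) (nat_lit 76) (nat_lit 0) (XT.lf (nat_lit 0) (nat_lit 13417895700) (nat_lit 228) (nat_lit 5542470769) (nat_lit 76) (nat_lit 4388756517) (nat_lit 22) (nat_lit 5) (nat_lit 25) (nat_lit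 5) (nat_lit 23) (nat_lit 4) (nat_lit 521) (nat_lit 353) (nat_lit 266)) (XT.lf (nat_lit 0) (nat_lit 2457215461) (nat_lit 76) (nat_lit 14989806172) (nat_lit 152) (nat_lit 6277224267) (nat_lit 21) (nat_lit 5) (nat_lit 22) (nat_lit 5) (nat_lit 23) (nat_lit 4) (nat_lit 522) (nat_lit 353) (nat_lit 265))))) (XT.nd (nat_lit 234) (nat_lit 76) (nat_lit 0) (XT.nd (nat_lit 78) (nat_lit 228) (nat_lit 0) (XT.lf (nat_lit 0) (nat_lit 10650121990) (nat_lit 76) (nat_lit 10920328499) (nat_lit 152) (nat_lit 2536151798) (nat_lit 21) (nat_lit 5) (nat_lit 22) (nat_lit 5) (nat_lit 23) (nat_lit 4) (nat_lit 523) (nat_lit 353) (nat_lit 264)) (XT.nd (nat_lit 78) (nat_lit 152) (nat_lit 0) (XT.lf (nat_lit 0) (nat_lit 1239788178) (nat_lit 152) (nat_lit 5539422662) (nat_lit 76) (nat_lit 17717697391) (nat_lit 20) (nat_lit 5) (nat_lit 22) (nat_lit 5) (nat_lit 21) (nat_lit 5) (nat_lit 524) (nat_lit 353) (nat_lit 263)) (XT.lf (nat_lit 0) (nat_lit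 2511536756) (nat_lit 152) (nat_lit 2539373850) (nat_lit 228) (nat_lit 19843907065) (nat_lit 18) (nat_lit 5) (nat_lit 20) (nat_lit 5) (nat_lit 21) (nat_lit 5) (nat_lit 525) (nat_lit 353) (nat_lit 262)))) (XT.nd (nat_lit 156) (nat_lit 76) (nat_lit 0) (XT.nd (nat_lit 78) (nat_lit 0) (nat_lit 0) (XT.lf (nat_lit 0) (nat_lit 8964617792) (nat_lit 228) (nat_lit 14553831530) (nat_lit 76) (nat_lit 1781713743) (nat_lit 18) (nat_lit 5) (nat_lit 21) (nat_lit 5) (nat_lit 19) (nat_lit 4) (nat_lit 526) (nat_lit 353) (nat_lit 261)) (XT.lf (nat_lit 0) (nat_lit 12951212831) (nat_lit 228) (nat_lit 6624469130) (nat_lit 76) (nat_lit 6138046042) (nat_lit 18) (nat_lit 5) (nat_lit 21) (nat_lit 5) (nat_lit 19) (nat_lit 4) (nat_lit 527) (nat_lit 353) (nat_lit 260))) (XT.nd (nat_lit 78) (nat_lit 0) (nat_lit 0) (XT.lf (nat_lit 0) (nat_lit 1443332703) (nat_lit 76) (nat_lit 15561810165) (nat_lit 152) (nat_lit 9130674124) (nat_lit 17) (nat_lit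 5) (nat_lit 18) (nat_lit 5) (nat_lit 19) (nat_lit 4) (nat_lit 528) (nat_lit 353) (nat_lit 259)) (XT.lf (nat_lit 0) (nat_lit 9723466704) (nat_lit 76) (nat_lit 11439545278) (nat_lit 152) (nat_lit 5402883291) (nat_lit 17) (nat_lit 5) (nat_lit 18) (nat_lit 5) (nat_lit 19) (nat_lit 4) (nat_lit 529) (nat_lit 353) (nat_lit 258))))))) (XT.nd (nat_lit 52650) (nat_lit 0) (nat_lit 9348) (XT.nd (nat_lit 52104) (nat_lit 0) (nat_lit 14440) (XT.nd (nat_lit 51792) (nat_lit 0) (nat_lit 17556) (XT.nd (nat_lit 78) (nat_lit 76) (nat_lit 0) (XT.lf (nat_lit 0) (nat_lit 18131144274) (nat_lit 76) (nat_lit 7251724401) (nat_lit 152) (nat_lit 1622134468) (nat_lit 17) (nat_lit 5) (nat_lit 18) (nat_lit 5) (nat_lit 19) (nat_lit 4) (nat_lit 530) (nat_lit 353) (nat_lit 257)) (XT.nd (nat_lit 51636) (nat_lit 0) (nat_lit 19684) (XT.lf (nat_lit 0) (nat_lit 2184030375) (nat_lit 152) (nat_lit 798018883) (nat_lit 76) (nat_lit 24470976173) (nat_lit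 16) (nat_lit 5) (nat_lit 18) (nat_lit 5) (nat_lit 17) (nat_lit 5) (nat_lit 531) (nat_lit 353) (nat_lit 256)) (XT.lf (nat_lit 0) (nat_lit 3482409242) (nat_lit 760) (nat_lit 224129287) (nat_lit 760) (nat_lit 224129287) (nat_lit 275) (nat_lit 4) (nat_lit 285) (nat_lit 5) (nat_lit 285) (nat_lit 4) (nat_lit 432) (nat_lit 354) (nat_lit 354)))) (XT.nd (nat_lit 156) (nat_lit 684) (nat_lit 0) (XT.nd (nat_lit 78) (nat_lit 684) (nat_lit 0) (XT.lf (nat_lit 0) (nat_lit 3023217345) (nat_lit 760) (nat_lit 3151204538) (nat_lit 0) (nat_lit 1744729252) (nat_lit 265) (nat_lit 5) (nat_lit 275) (nat_lit 4) (nat_lit 265) (nat_lit 4) (nat_lit 433) (nat_lit 354) (nat_lit 353)) (XT.lf (nat_lit 0) (nat_lit 2531663128) (nat_lit 684) (nat_lit 3989548674) (nat_lit 684) (nat_lit 1457640883) (nat_lit 256) (nat_lit 4) (nat_lit 265) (nat_lit 5) (nat_lit 265) (nat_lit 4) (nat_lit 434) (nat_lit 354) (nat_lit 352))) (XT.nd (nat_lit 78) (nat_lit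 0) (nat_lit 0) (XT.lf (nat_lit 0) (nat_lit 245562071) (nat_lit 608) (nat_lit 1737761049) (nat_lit 684) (nat_lit 6056992193) (nat_lit 247) (nat_lit 5) (nat_lit 255) (nat_lit 5) (nat_lit 256) (nat_lit 4) (nat_lit 435) (nat_lit 354) (nat_lit 351)) (XT.lf (nat_lit 0) (nat_lit 5452573653) (nat_lit 684) (nat_lit 2066271174) (nat_lit 0) (nat_lit 584437853) (nat_lit 247) (nat_lit 5) (nat_lit 256) (nat_lit 4) (nat_lit 247) (nat_lit 4) (nat_lit 436) (nat_lit 354) (nat_lit 350))))) (XT.nd (nat_lit 234) (nat_lit 1824) (nat_lit 0) (XT.nd (nat_lit 78) (nat_lit 608) (nat_lit 0) (XT.lf (nat_lit 0) (nat_lit 788221568) (nat_lit 684) (nat_lit 4433894287) (nat_lit 76) (nat_lit 2945826115) (nat_lit 238) (nat_lit 5) (nat_lit 247) (nat_lit 5) (nat_lit 239) (nat_lit 4) (nat_lit 437) (nat_lit 354) (nat_lit 349)) (XT.nd (nat_lit 78) (nat_lit 0) (nat_lit 0) (XT.lf (nat_lit 0) (nat_lit 1369756692) (nat_lit 608) (nat_lit 2853569736) (nat_lit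 684) (nat_lit 4011004946) (nat_lit 230) (nat_lit 5) (nat_lit 238) (nat_lit 5) (nat_lit 239) (nat_lit 4) (nat_lit 438) (nat_lit 354) (nat_lit 348)) (XT.lf (nat_lit 0) (nat_lit 7274752503) (nat_lit 608) (nat_lit 422829684) (nat_lit 684) (nat_lit 605101646) (nat_lit 230) (nat_lit 5) (nat_lit 238) (nat_lit 5) (nat_lit 239) (nat_lit 4) (nat_lit 439) (nat_lit 354) (nat_lit 347)))) (XT.nd (nat_lit 156) (nat_lit 608) (nat_lit 0) (XT.nd (nat_lit 78) (nat_lit 532) (nat_lit 0) (XT.lf (nat_lit 0) (nat_lit 2818101848) (nat_lit 684) (nat_lit 3489337003) (nat_lit 76) (nat_lit 2064898303) (nat_lit 221) (nat_lit 5) (nat_lit 230) (nat_lit 5) (nat_lit 222) (nat_lit 4) (nat_lit 440) (nat_lit 354) (nat_lit 346)) (XT.lf (nat_lit 0) (nat_lit 2433102477) (nat_lit 532) (nat_lit 3836110764) (nat_lit 608) (nat_lit 2174781075) (nat_lit 214) (nat_lit 5) (nat_lit 221) (nat_lit 5) (nat_lit 222) (nat_lit 4) (nat_lit 441) (nat_lit 354) (nat_lit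 345))) (XT.nd (nat_lit 78) (nat_lit 532) (nat_lit 0) (XT.lf (nat_lit 0) (nat_lit 1221378830) (nat_lit 608) (nat_lit 78851321) (nat_lit 76) (nat_lit 7217413282) (nat_lit 213) (nat_lit 5) (nat_lit 221) (nat_lit 5) (nat_lit 214) (nat_lit 5) (nat_lit 442) (nat_lit 354) (nat_lit 344)) (XT.lf (nat_lit 0) (nat_lit 4647036174) (nat_lit 608) (nat_lit 2639485089) (nat_lit 76) (nat_lit 1306182157) (nat_lit 206) (nat_lit 5) (nat_lit 214) (nat_lit 5) (nat_lit 207) (nat_lit 4) (nat_lit 443) (nat_lit 354) (nat_lit 343)))))) (XT.nd (nat_lit 546) (nat_lit 2356) (nat_lit 0) (XT.nd (nat_lit 234) (nat_lit 1596) (nat_lit 0) (XT.nd (nat_lit 78) (nat_lit 608) (nat_lit 0) (XT.lf (nat_lit 0) (nat_lit 3399516008) (nat_lit 532) (nat_lit 4716795063) (nat_lit 608) (nat_lit 553489963) (nat_lit 199) (nat_lit 5) (nat_lit 206) (nat_lit 5) (nat_lit 207) (nat_lit 4) (nat_lit 444) (nat_lit 354) (nat_lit 342)) (XT.nd (nat_lit 78) (nat_lit 0) (nat_lit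 0) (XT.lf (nat_lit 0) (nat_lit 763524191) (nat_lit 532) (nat_lit 2071779888) (nat_lit 608) (nat_lit 5913458260) (nat_lit 191) (nat_lit 5) (nat_lit 198) (nat_lit 5) (nat_lit 199) (nat_lit 5) (nat_lit 445) (nat_lit 354) (nat_lit 341)) (XT.lf (nat_lit 0) (nat_lit 6268735483) (nat_lit 608) (nat_lit 1922131912) (nat_lit 76) (nat_lit 638713144) (nat_lit 191) (nat_lit 5) (nat_lit 199) (nat_lit 5) (nat_lit 192) (nat_lit 4) (nat_lit 446) (nat_lit 354) (nat_lit 340)))) (XT.nd (nat_lit 156) (nat_lit 532) (nat_lit 0) (XT.nd (nat_lit 78) (nat_lit 532) (nat_lit 0) (XT.lf (nat_lit 0) (nat_lit 834308228) (nat_lit 532) (nat_lit 4687352995) (nat_lit 76) (nat_lit 3390542214) (nat_lit 184) (nat_lit 5) (nat_lit 191) (nat_lit 5) (nat_lit 185) (nat_lit 5) (nat_lit 447) (nat_lit 354) (nat_lit 339)) (XT.lf (nat_lit 0) (nat_lit 1452796126) (nat_lit 532) (nat_lit 2778613785) (nat_lit 608) (nat_lit 4765397838) (nat_lit 177) (nat_lit 5)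 (nat_lit 184) (nat_lit 5) (nat_lit 185) (nat_lit 5) (nat_lit 448) (nat_lit 354) (nat_lit 338))) (XT.nd (nat_lit 78) (nat_lit 532) (nat_lit 0) (XT.lf (nat_lit 0) (nat_lit 7674584686) (nat_lit 608) (nat_lit 1377831481) (nat_lit 76) (nat_lit 31158889) (nat_lit 177) (nat_lit 5) (nat_lit 185) (nat_lit 5) (nat_lit 178) (nat_lit 4) (nat_lit 449) (nat_lit 354) (nat_lit 337)) (XT.lf (nat_lit 0) (nat_lit 1985584855) (nat_lit 532) (nat_lit 4300744104) (nat_lit 76) (nat_lit 2885570168) (nat_lit 170) (nat_lit 5) (nat_lit 177) (nat_lit 5) (nat_lit 171) (nat_lit 5) (nat_lit 450) (nat_lit 354) (nat_lit 336))))) (XT.nd (nat_lit 234) (nat_lit 1368) (nat_lit 0) (XT.nd (nat_lit 78) (nat_lit 532) (nat_lit 0) (XT.lf (nat_lit 0) (nat_lit 1945008947) (nat_lit 456) (nat_lit 3453709470) (nat_lit 532) (nat_lit 3863725925) (nat_lit 164) (nat_lit 5) (nat_lit 170) (nat_lit 5) (nat_lit 171) (nat_lit 5) (nat_lit 451) (nat_lit 354) (nat_lit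 335)) (XT.nd (nat_lit 78) (nat_lit 532) (nat_lit 0) (XT.lf (nat_lit 0) (nat_lit 8301354440) (nat_lit 456) (nat_lit 555756894) (nat_lit 532) (nat_lit 498180170) (nat_lit 164) (nat_lit 5) (nat_lit 170) (nat_lit 5) (nat_lit 171) (nat_lit 5) (nat_lit 452) (nat_lit 354) (nat_lit 334)) (XT.lf (nat_lit 0) (nat_lit 2895277190) (nat_lit 532) (nat_lit 4152223421) (nat_lit 76) (nat_lit 2402161904) (nat_lit 157) (nat_lit 5) (nat_lit 164) (nat_lit 5) (nat_lit 158) (nat_lit 5) (nat_lit 453) (nat_lit 354) (nat_lit 333)))) (XT.nd (nat_lit 156) (nat_lit 836) (nat_lit 0) (XT.nd (nat_lit 78) (nat_lit 76) (nat_lit 0) (XT.lf (nat_lit 0) (nat_lit 2193753019) (nat_lit 456) (nat_lit 4130421651) (nat_lit 532) (nat_lit 3222224774) (nat_lit 151) (nat_lit 5) (nat_lit 157) (nat_lit 5) (nat_lit 158) (nat_lit 5) (nat_lit 454) (nat_lit 354) (nat_lit 332)) (XT.lf (nat_lit 0) (nat_lit 151671927) (nat_lit 532) (nat_lit 995478027) (nat_lit 76)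 (nat_lit 8498378109) (nat_lit 150) (nat_lit 5) (nat_lit 157) (nat_lit 5) (nat_lit 151) (nat_lit 5) (nat_lit 455) (nat_lit 354) (nat_lit 331))) (XT.nd (nat_lit 78) (nat_lit 456) (nat_lit 0) (XT.lf (nat_lit 0) (nat_lit 3548342778) (nat_lit 456) (nat_lit 4291003047) (nat_lit 76) (nat_lit 1906926120) (nat_lit 145) (nat_lit 5) (nat_lit 151) (nat_lit 5) (nat_lit 146) (nat_lit 5) (nat_lit 456) (nat_lit 354) (nat_lit 330)) (XT.lf (nat_lit 0) (nat_lit 2148620452) (nat_lit 456) (nat_lit 4843326612) (nat_lit 532) (nat_lit 2857530607) (nat_lit 139) (nat_lit 5) (nat_lit 145) (nat_lit 5) (nat_lit 146) (nat_lit 5) (nat_lit 457) (nat_lit 354) (nat_lit 329))))))))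
noncomputable def xc45 : XT := (XT.nd (nat_lit 2184) (nat_lit 2888) (nat_lit 0) (XT.nd (nat_lit 1092) (nat_lit 2128) (nat_lit 0) (XT.nd (nat_lit 546) (nat_lit 1748) (nat_lit 0) (XT.nd (nat_lit 234) (nat_lit 836) (nat_lit 0) (XT.nd (nat_lit 78) (nat_lit 760) (nat_lit 0) (XT.lf (nat_lit 0) (nat_lit 522336312) (nat_lit 532) (nat_lit 1254482485) (nat_lit 76) (nat_lit 8178285868) (nat_lit 138) (nat_lit 5) (nat_lit 145) (nat_lit 5) (nat_lit 139) (nat_lit 5) (nat_lit 458) (nat_lit 354) (nat_lit 328)) (XT.nd (nat_lit 78) (nat_lit 380) (nat_lit 0) (XT.lf (nat_lit 0) (nat_lit 3926819930) (nat_lit 456) (nat_lit 4770672953) (nat_lit 76) (nat_lit 1365093327) (nat_lit 133) (nat_lit 5) (nat_lit 139) (nat_lit 5) (nat_lit 134) (nat_lit 5) (nat_lit 459) (nat_lit 354) (nat_lit 327)) (XT.lf (nat_lit 0) (nat_lit 1754665153) (nat_lit 380) (nat_lit 5628554653) (nat_lit 456) (nat_lit 2789345961) (nat_lit 128) (nat_lit 5) (nat_lit 133)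 (nat_lit 5) (nat_lit 134) (nat_lit 5) (nat_lit 460) (nat_lit 354) (nat_lit 326)))) (XT.nd (nat_lit 156) (nat_lit 456) (nat_lit 0) (XT.nd (nat_lit 78) (nat_lit 304) (nat_lit 0) (XT.lf (nat_lit 0) (nat_lit 600381475) (nat_lit 456) (nat_lit 1884100027) (nat_lit 76) (nat_lit 7800515078) (nat_lit 127) (nat_lit 5) (nat_lit 133) (nat_lit 5) (nat_lit 128) (nat_lit 5) (nat_lit 461) (nat_lit 354) (nat_lit 325)) (XT.lf (nat_lit 0) (nat_lit 4009601017) (nat_lit 380) (nat_lit 5649772661) (nat_lit 76) (nat_lit 740176118) (nat_lit 123) (nat_lit 5) (nat_lit 128) (nat_lit 5) (nat_lit 124) (nat_lit 5) (nat_lit 462) (nat_lit 354) (nat_lit 324))) (XT.nd (nat_lit 78) (nat_lit 76) (nat_lit 0) (XT.lf (nat_lit 0) (nat_lit 951813941) (nat_lit 380) (nat_lit 6524142632) (nat_lit 456) (nat_lit 3040681486) (nat_lit 118) (nat_lit 5) (nat_lit 123) (nat_lit 5) (nat_lit 124) (nat_lit 5) (nat_lit 463) (nat_lit 354) (nat_lit 323)) (XT.lf (nat_lit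 0) (nat_lit 362533559) (nat_lit 456) (nat_lit 2946022542) (nat_lit 76) (nat_lit 7327647577) (nat_lit 117) (nat_lit 5) (nat_lit 123) (nat_lit 5) (nat_lit 118) (nat_lit 5) (nat_lit 464) (nat_lit 354) (nat_lit 322))))) (XT.nd (nat_lit 234) (nat_lit 1064) (nat_lit 0) (XT.nd (nat_lit 78) (nat_lit 380) (nat_lit 0) (XT.lf (nat_lit 0) (nat_lit 3765740177) (nat_lit 304) (nat_lit 6477177) (nat_lit 380) (nat_lit 6985980583) (nat_lit 113) (nat_lit 5) (nat_lit 117) (nat_lit 5) (nat_lit 118) (nat_lit 5) (nat_lit 465) (nat_lit 354) (nat_lit 321)) (XT.nd (nat_lit 78) (nat_lit 380) (nat_lit 0) (XT.lf (nat_lit 0) (nat_lit 7246748017) (nat_lit 380) (nat_lit 321504373) (nat_lit 76) (nat_lit 3314467890) (nat_lit 113) (nat_lit 5) (nat_lit 118) (nat_lit 5) (nat_lit 114) (nat_lit 5) (nat_lit 466) (nat_lit 354) (nat_lit 320)) (XT.lf (nat_lit 0) (nat_lit 6500449356) (nat_lit 380) (nat_lit 4288378735) (nat_lit 456) (nat_lit 220964649)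 (nat_lit 108) (nat_lit 5) (nat_lit 113) (nat_lit 5) (nat_lit 114) (nat_lit 5) (nat_lit 467) (nat_lit 354) (nat_lit 319)))) (XT.nd (nat_lit 156) (nat_lit 684) (nat_lit 0) (XT.nd (nat_lit 78) (nat_lit 0) (nat_lit 0) (XT.lf (nat_lit 0) (nat_lit 2264549986) (nat_lit 304) (nat_lit 927812580) (nat_lit 380) (nat_lit 7947184381) (nat_lit 103) (nat_lit 5) (nat_lit 107) (nat_lit 5) (nat_lit 108) (nat_lit 5) (nat_lit 468) (nat_lit 354) (nat_lit 318)) (XT.lf (nat_lit 0) (nat_lit 6673896179) (nat_lit 380) (nat_lit 2122223390) (nat_lit 76) (nat_lit 2475709128) (nat_lit 103) (nat_lit 5) (nat_lit 108) (nat_lit 5) (nat_lit 104) (nat_lit 5) (nat_lit 469) (nat_lit 354) (nat_lit 317))) (XT.nd (nat_lit 78) (nat_lit 380) (nat_lit 0) (XT.lf (nat_lit 0) (nat_lit 4755076106) (nat_lit 304) (nat_lit 5464064577) (nat_lit 380) (nat_lit 1187753055) (nat_lit 99) (nat_lit 5) (nat_lit 103) (nat_lit 5) (nat_lit 104) (nat_lit 5) (nat_lit 470)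 (nat_lit 354) (nat_lit 316)) (XT.lf (nat_lit 0) (nat_lit 174741516) (nat_lit 304) (nat_lit 2058490318) (nat_lit 380) (nat_lit 9311696433) (nat_lit 94) (nat_lit 5) (nat_lit 98) (nat_lit 5) (nat_lit 99) (nat_lit 5) (nat_lit 471) (nat_lit 354) (nat_lit 315)))))) (XT.nd (nat_lit 546) (nat_lit 912) (nat_lit 0) (XT.nd (nat_lit 234) (nat_lit 836) (nat_lit 0) (XT.nd (nat_lit 78) (nat_lit 380) (nat_lit 0) (XT.lf (nat_lit 0) (nat_lit 5718294415) (nat_lit 380) (nat_lit 4541349265) (nat_lit 76) (nat_lit 1425709694) (nat_lit 94) (nat_lit 5) (nat_lit 99) (nat_lit 5) (nat_lit 95) (nat_lit 5) (nat_lit 472) (nat_lit 354) (nat_lit 314)) (XT.nd (nat_lit 78) (nat_lit 76) (nat_lit 0) (XT.lf (nat_lit 0) (nat_lit 2375740260) (nat_lit 304) (nat_lit 6884635983) (nat_lit 380) (nat_lit 2568482170) (nat_lit 90) (nat_lit 5) (nat_lit 94) (nat_lit 5) (nat_lit 95) (nat_lit 5) (nat_lit 473) (nat_lit 354) (nat_lit 313)) (XT.lf (nat_lit 0) (nat_lit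 875327905) (nat_lit 380) (nat_lit 2553913745) (nat_lit 76) (nat_lit 8546111588) (nat_lit 89) (nat_lit 5) (nat_lit 94) (nat_lit 5) (nat_lit 90) (nat_lit 5) (nat_lit 474) (nat_lit 354) (nat_lit 312)))) (XT.nd (nat_lit 156) (nat_lit 608) (nat_lit 0) (XT.nd (nat_lit 78) (nat_lit 0) (nat_lit 0) (XT.lf (nat_lit 0) (nat_lit 4342559761) (nat_lit 304) (nat_lit 7665394102) (nat_lit 76) (nat_lit 116722556) (nat_lit 86) (nat_lit 5) (nat_lit 90) (nat_lit 5) (nat_lit 87) (nat_lit 5) (nat_lit 475) (nat_lit 354) (nat_lit 311)) (XT.lf (nat_lit 0) (nat_lit 7878506254) (nat_lit 304) (nat_lit 717044476) (nat_lit 76) (nat_lit 3681464372) (nat_lit 86) (nat_lit 5) (nat_lit 90) (nat_lit 5) (nat_lit 87) (nat_lit 5) (nat_lit 476) (nat_lit 354) (nat_lit 310))) (XT.nd (nat_lit 78) (nat_lit 304) (nat_lit 0) (XT.lf (nat_lit 0) (nat_lit 6390418192) (nat_lit 304) (nat_lit 5096448423) (nat_lit 380) (nat_lit 945516160) (nat_lit 82) (nat_lit 5)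 (nat_lit 86) (nat_lit 5) (nat_lit 87) (nat_lit 5) (nat_lit 477) (nat_lit 354) (nat_lit 309)) (XT.lf (nat_lit 0) (nat_lit 991441051) (nat_lit 228) (nat_lit 1522881383) (nat_lit 304) (nat_lit 10076784728) (nat_lit 78) (nat_lit 5) (nat_lit 81) (nat_lit 5) (nat_lit 82) (nat_lit 5) (nat_lit 478) (nat_lit 354) (nat_lit 308))))) (XT.nd (nat_lit 234) (nat_lit 532) (nat_lit 0) (XT.nd (nat_lit 78) (nat_lit 380) (nat_lit 0) (XT.lf (nat_lit 0) (nat_lit 6045808984) (nat_lit 304) (nat_lit 4589104468) (nat_lit 76) (nat_lit 2117680540) (nat_lit 78) (nat_lit 5) (nat_lit 82) (nat_lit 5) (nat_lit 79) (nat_lit 5) (nat_lit 479) (nat_lit 354) (nat_lit 307)) (XT.nd (nat_lit 78) (nat_lit 76) (nat_lit 0) (XT.lf (nat_lit 0) (nat_lit 2521897565) (nat_lit 304) (nat_lit 7113769278) (nat_lit 380) (nat_lit 3281903772) (nat_lit 74) (nat_lit 5) (nat_lit 78) (nat_lit 5) (nat_lit 79) (nat_lit 5) (nat_lit 480) (nat_lit 354) (nat_lit 306)) (XT.lf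 (nat_lit 0) (nat_lit 201069142) (nat_lit 380) (nat_lit 3312357164) (nat_lit 76) (nat_lit 9572559960) (nat_lit 73) (nat_lit 5) (nat_lit 78) (nat_lit 5) (nat_lit 74) (nat_lit 5) (nat_lit 481) (nat_lit 354) (nat_lit 305)))) (XT.nd (nat_lit 156) (nat_lit 304) (nat_lit 0) (XT.nd (nat_lit 78) (nat_lit 0) (nat_lit 0) (XT.lf (nat_lit 0) (nat_lit 3698304436) (nat_lit 304) (nat_lit 9378654859) (nat_lit 76) (nat_lit 180620145) (nat_lit 70) (nat_lit 5) (nat_lit 74) (nat_lit 5) (nat_lit 71) (nat_lit 5) (nat_lit 482) (nat_lit 354) (nat_lit 304)) (XT.lf (nat_lit 0) (nat_lit 7273443956) (nat_lit 304) (nat_lit 2258490508) (nat_lit 76) (nat_lit 3900524576) (nat_lit 70) (nat_lit 5) (nat_lit 74) (nat_lit 5) (nat_lit 71) (nat_lit 5) (nat_lit 483) (nat_lit 354) (nat_lit 303))) (XT.nd (nat_lit 78) (nat_lit 76) (nat_lit 0) (XT.lf (nat_lit 0) (nat_lit 5009138078) (nat_lit 228) (nat_lit 5906526652) (nat_lit 304) (nat_lit 2695273417) (nat_lit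 67) (nat_lit 5) (nat_lit 70) (nat_lit 5) (nat_lit 71) (nat_lit 5) (nat_lit 484) (nat_lit 354) (nat_lit 302)) (XT.lf (nat_lit 0) (nat_lit 805145580) (nat_lit 304) (nat_lit 1406228385) (nat_lit 76) (nat_lit 11581949256) (nat_lit 66) (nat_lit 5) (nat_lit 70) (nat_lit 5) (nat_lit 67) (nat_lit 5) (nat_lit 485) (nat_lit 354) (nat_lit 301))))))) (XT.nd (nat_lit 1092) (nat_lit 1216) (nat_lit 0) (XT.nd (nat_lit 546) (nat_lit 684) (nat_lit 0) (XT.nd (nat_lit 234) (nat_lit 532) (nat_lit 0) (XT.nd (nat_lit 78) (nat_lit 228) (nat_lit 0) (XT.lf (nat_lit 0) (nat_lit 4352233740) (nat_lit 304) (nat_lit 8055620286) (nat_lit 76) (nat_lit 1570903351) (nat_lit 63) (nat_lit 5) (nat_lit 67) (nat_lit 5) (nat_lit 64) (nat_lit 5) (nat_lit 486) (nat_lit 354) (nat_lit 300)) (XT.nd (nat_lit 78) (nat_lit 228) (nat_lit 0) (XT.lf (nat_lit 0) (nat_lit 7958437137) (nat_lit 304) (nat_lit 824000541) (nat_lit 76) (nat_lit 5385711527) (nat_lit 63)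 (nat_lit 5) (nat_lit 67) (nat_lit 5) (nat_lit 64) (nat_lit 5) (nat_lit 487) (nat_lit 354) (nat_lit 299)) (XT.lf (nat_lit 0) (nat_lit 6579987181) (nat_lit 228) (nat_lit 5064233948) (nat_lit 304) (nat_lit 2716970822) (nat_lit 60) (nat_lit 5) (nat_lit 63) (nat_lit 5) (nat_lit 64) (nat_lit 5) (nat_lit 488) (nat_lit 354) (nat_lit 298)))) (XT.nd (nat_lit 156) (nat_lit 228) (nat_lit 0) (XT.nd (nat_lit 78) (nat_lit 228) (nat_lit 0) (XT.lf (nat_lit 0) (nat_lit 804906174) (nat_lit 304) (nat_lit 478944051) (nat_lit 76) (nat_lit 13274739829) (nat_lit 59) (nat_lit 5) (nat_lit 63) (nat_lit 5) (nat_lit 60) (nat_lit 5) (nat_lit 489) (nat_lit 354) (nat_lit 297)) (XT.lf (nat_lit 0) (nat_lit 4388694508) (nat_lit 304) (nat_lit 7790862680) (nat_lit 76) (nat_lit 2579474175) (nat_lit 56) (nat_lit 5) (nat_lit 60) (nat_lit 5) (nat_lit 57) (nat_lit 5) (nat_lit 490) (nat_lit 354) (nat_lit 296))) (XT.nd (nat_lit 78) (nat_lit 228) (nat_lit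 0) (XT.lf (nat_lit 0) (nat_lit 8021548403) (nat_lit 304) (nat_lit 458899187) (nat_lit 76) (nat_lit 6483497396) (nat_lit 56) (nat_lit 5) (nat_lit 60) (nat_lit 5) (nat_lit 57) (nat_lit 5) (nat_lit 491) (nat_lit 354) (nat_lit 295)) (XT.lf (nat_lit 0) (nat_lit 7055696927) (nat_lit 228) (nat_lit 4683498423) (nat_lit 304) (nat_lit 3433529873) (nat_lit 53) (nat_lit 5) (nat_lit 56) (nat_lit 5) (nat_lit 57) (nat_lit 5) (nat_lit 492) (nat_lit 354) (nat_lit 294))))) (XT.nd (nat_lit 234) (nat_lit 456) (nat_lit 0) (XT.nd (nat_lit 78) (nat_lit 152) (nat_lit 0) (XT.lf (nat_lit 0) (nat_lit 113095110) (nat_lit 304) (nat_lit 716407864) (nat_lit 76) (nat_lit 14556780040) (nat_lit 52) (nat_lit 5) (nat_lit 56) (nat_lit 5) (nat_lit 53) (nat_lit 5) (nat_lit 493) (nat_lit 354) (nat_lit 293)) (XT.nd (nat_lit 78) (nat_lit 0) (nat_lit 0) (XT.lf (nat_lit 0) (nat_lit 3716638966) (nat_lit 228) (nat_lit 8780149027) (nat_lit 76) (nat_lit 3106241251)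 (nat_lit 50) (nat_lit 5) (nat_lit 53) (nat_lit 5) (nat_lit 51) (nat_lit 5) (nat_lit 494) (nat_lit 354) (nat_lit 292)) (XT.lf (nat_lit 0) (nat_lit 7369776970) (nat_lit 228) (nat_lit 1362544861) (nat_lit 76) (nat_lit 7092248322) (nat_lit 50) (nat_lit 5) (nat_lit 53) (nat_lit 5) (nat_lit 51) (nat_lit 5) (nat_lit 495) (nat_lit 354) (nat_lit 291)))) (XT.nd (nat_lit 156) (nat_lit 228) (nat_lit 0) (XT.nd (nat_lit 78) (nat_lit 0) (nat_lit 0) (XT.lf (nat_lit 0) (nat_lit 6230547178) (nat_lit 228) (nat_lit 4873717285) (nat_lit 304) (nat_lit 4946121702) (nat_lit 47) (nat_lit 5) (nat_lit 50) (nat_lit 5) (nat_lit 51) (nat_lit 5) (nat_lit 496) (nat_lit 354) (nat_lit 290)) (XT.lf (nat_lit 0) (nat_lit 13939750829) (nat_lit 228) (nat_lit 950946832) (nat_lit 304) (nat_lit 1390485539) (nat_lit 47) (nat_lit 5) (nat_lit 50) (nat_lit 5) (nat_lit 51) (nat_lit 5) (nat_lit 497) (nat_lit 354) (nat_lit 289))) (XT.nd (nat_lit 78) (nat_lit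 0) (nat_lit 0) (XT.lf (nat_lit 0) (nat_lit 2229771876) (nat_lit 228) (nat_lit 11248453749) (nat_lit 76) (nat_lit 3037632856) (nat_lit 44) (nat_lit 5) (nat_lit 47) (nat_lit 5) (nat_lit 45) (nat_lit 5) (nat_lit 498) (nat_lit 354) (nat_lit 288)) (XT.lf (nat_lit 0) (nat_lit 5894597082) (nat_lit 228) (nat_lit 3764088335) (nat_lit 76) (nat_lit 7096551659) (nat_lit 44) (nat_lit 5) (nat_lit 47) (nat_lit 5) (nat_lit 45) (nat_lit 5) (nat_lit 499) (nat_lit 354) (nat_lit 287)))))) (XT.nd (nat_lit 546) (nat_lit 608) (nat_lit 0) (XT.nd (nat_lit 234) (nat_lit 228) (nat_lit 0) (XT.nd (nat_lit 78) (nat_lit 152) (nat_lit 0) (XT.lf (nat_lit 0) (nat_lit 3868025220) (nat_lit 228) (nat_lit 5759071945) (nat_lit 304) (nat_lit 7372427584) (nat_lit 41) (nat_lit 5) (nat_lit 44) (nat_lit 5) (nat_lit 45) (nat_lit 5) (nat_lit 500) (nat_lit 354) (nat_lit 286)) (XT.nd (nat_lit 78) (nat_lit 152) (nat_lit 0) (XT.lf (nat_lit 0) (nat_lit 11651481747)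 (nat_lit 228) (nat_lit 1777552047) (nat_lit 304) (nat_lit 3819777547) (nat_lit 41) (nat_lit 5) (nat_lit 44) (nat_lit 5) (nat_lit 45) (nat_lit 5) (nat_lit 501) (nat_lit 354) (nat_lit 285)) (XT.lf (nat_lit 0) (nat_lit 2047790531) (nat_lit 152) (nat_lit 15257326822) (nat_lit 228) (nat_lit 198012871) (nat_lit 39) (nat_lit 5) (nat_lit 41) (nat_lit 5) (nat_lit 42) (nat_lit 4) (nat_lit 502) (nat_lit 354) (nat_lit 284)))) (XT.nd (nat_lit 156) (nat_lit 152) (nat_lit 0) (XT.nd (nat_lit 78) (nat_lit 0) (nat_lit 0) (XT.lf (nat_lit 0) (nat_lit 3469950682) (nat_lit 228) (nat_lit 7926647874) (nat_lit 76) (nat_lit 6365098986) (nat_lit 38) (nat_lit 5) (nat_lit 41) (nat_lit 5) (nat_lit 39) (nat_lit 5) (nat_lit 503) (nat_lit 354) (nat_lit 283)) (XT.lf (nat_lit 0) (nat_lit 7179247204) (nat_lit 228) (nat_lit 299507057) (nat_lit 76) (nat_lit 10547251486) (nat_lit 38) (nat_lit 5) (nat_lit 41) (nat_lit 5) (nat_lit 39) (nat_lit 5) (nat_lit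 504) (nat_lit 354) (nat_lit 282))) (XT.nd (nat_lit 78) (nat_lit 0) (nat_lit 0) (XT.lf (nat_lit 0) (nat_lit 7529104991) (nat_lit 152) (nat_lit 3453707247) (nat_lit 228) (nat_lit 7312394284) (nat_lit 36) (nat_lit 5) (nat_lit 38) (nat_lit 5) (nat_lit 39) (nat_lit 5) (nat_lit 505) (nat_lit 354) (nat_lit 281)) (XT.lf (nat_lit 0) (nat_lit 14840010067) (nat_lit 228) (nat_lit 3105579995) (nat_lit 76) (nat_lit 624657919) (nat_lit 36) (nat_lit 5) (nat_lit 39) (nat_lit 5) (nat_lit 37) (nat_lit 4) (nat_lit 506) (nat_lit 354) (nat_lit 280))))) (XT.nd (nat_lit 234) (nat_lit 228) (nat_lit 0) (XT.nd (nat_lit 78) (nat_lit 228) (nat_lit 0) (XT.lf (nat_lit 0) (nat_lit 4697940578) (nat_lit 152) (nat_lit 14101654430) (nat_lit 228) (nat_lit 50698143) (nat_lit 34) (nat_lit 5) (nat_lit 36) (nat_lit 5) (nat_lit 37) (nat_lit 4) (nat_lit 507) (nat_lit 354) (nat_lit 279)) (XT.nd (nat_lit 78) (nat_lit 152) (nat_lit 0) (XT.lf (nat_lit 0)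 (nat_lit 3646764836) (nat_lit 228) (nat_lit 6509082714) (nat_lit 76) (nat_lit 8979760537) (nat_lit 33) (nat_lit 5) (nat_lit 36) (nat_lit 5) (nat_lit 34) (nat_lit 5) (nat_lit 508) (nat_lit 354) (nat_lit 278)) (XT.lf (nat_lit 0) (nat_lit 1255126884) (nat_lit 152) (nat_lit 6142984222) (nat_lit 228) (nat_lit 12028906554) (nat_lit 31) (nat_lit 5) (nat_lit 33) (nat_lit 5) (nat_lit 34) (nat_lit 5) (nat_lit 509) (nat_lit 354) (nat_lit 277)))) (XT.nd (nat_lit 156) (nat_lit 228) (nat_lit 0) (XT.nd (nat_lit 78) (nat_lit 0) (nat_lit 0) (XT.lf (nat_lit 0) (nat_lit 9215118007) (nat_lit 152) (nat_lit 2025738806) (nat_lit 228) (nat_lit 8483078318) (nat_lit 31) (nat_lit 5) (nat_lit 33) (nat_lit 5) (nat_lit 34) (nat_lit 5) (nat_lit 510) (nat_lit 354) (nat_lit 276)) (XT.lf (nat_lit 0) (nat_lit 15147670054) (nat_lit 228) (nat_lit 2753807512) (nat_lit 76) (nat_lit 2125576145) (nat_lit 31) (nat_lit 5) (nat_lit 34) (nat_lit 5) (nat_lit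 32) (nat_lit 4) (nat_lit 511) (nat_lit 354) (nat_lit 275))) (XT.nd (nat_lit 78) (nat_lit 76) (nat_lit 0) (XT.lf (nat_lit 0) (nat_lit 5164332234) (nat_lit 152) (nat_lit 13988859100) (nat_lit 228) (nat_lit 1182638771) (nat_lit 29) (nat_lit 5) (nat_lit 31) (nat_lit 5) (nat_lit 32) (nat_lit 4) (nat_lit 512) (nat_lit 354) (nat_lit 274)) (XT.lf (nat_lit 0) (nat_lit 2546365011) (nat_lit 228) (nat_lit 7435512531) (nat_lit 76) (nat_lit 10668729697) (nat_lit 28) (nat_lit 5) (nat_lit 31) (nat_lit 5) (nat_lit 29) (nat_lit 5) (nat_lit 513) (nat_lit 354) (nat_lit 273))))))))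
noncomputable def xc46 : XT := (XT.nd (nat_lit 53586) (nat_lit 0) (nat_lit 6916) (XT.nd (nat_lit 1092) (nat_lit 76) (nat_lit 0) (XT.nd (nat_lit 546) (nat_lit 304) (nat_lit 0) (XT.nd (nat_lit 234) (nat_lit 304) (nat_lit 0) (XT.nd (nat_lit 78) (nat_lit 0) (nat_lit 0) (XT.lf (nat_lit 0) (nat_lit 407272714) (nat_lit 152) (nat_lit 5903680829) (nat_lit 228) (nat_lit 14661039705) (nat_lit 26) (nat_lit 5) (nat_lit 28) (nat_lit 5) (nat_lit 29) (nat_lit 5) (nat_lit 514) (nat_lit 354) (nat_lit 272)) (XT.nd (nat_lit 78) (nat_lit 0) (nat_lit 0) (XT.lf (nat_lit 0) (nat_lit 8462573660) (nat_lit 152) (nat_lit 1712550746) (nat_lit 228) (nat_lit 11124203112) (nat_lit 26) (nat_lit 5) (nat_lit 28) (nat_lit 5) (nat_lit 29) (nat_lit 5) (nat_lit 515) (nat_lit 354) (nat_lit 271)) (XT.lf (nat_lit 0) (nat_lit 14107987648) (nat_lit 228) (nat_lit 5015494108) (nat_lit 76) (nat_lit 2509904769) (nat_lit 26) (nat_lit 5) (nat_lit 29) (nat_lit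 5) (nat_lit 27) (nat_lit 4) (nat_lit 516) (nat_lit 354) (nat_lit 270)))) (XT.nd (nat_lit 156) (nat_lit 228) (nat_lit 0) (XT.nd (nat_lit 78) (nat_lit 0) (nat_lit 0) (XT.lf (nat_lit 0) (nat_lit 2945728848) (nat_lit 76) (nat_lit 15179513138) (nat_lit 152) (nat_lit 3848776156) (nat_lit 25) (nat_lit 5) (nat_lit 26) (nat_lit 5) (nat_lit 27) (nat_lit 4) (nat_lit 517) (nat_lit 354) (nat_lit 269)) (XT.lf (nat_lit 0) (nat_lit 11090696106) (nat_lit 76) (nat_lit 11141271472) (nat_lit 152) (nat_lit 89318277) (nat_lit 25) (nat_lit 5) (nat_lit 26) (nat_lit 5) (nat_lit 27) (nat_lit 4) (nat_lit 518) (nat_lit 354) (nat_lit 268))) (XT.nd (nat_lit 78) (nat_lit 152) (nat_lit 0) (XT.lf (nat_lit 0) (nat_lit 3671993589) (nat_lit 152) (nat_lit 3344195139) (nat_lit 76) (nat_lit 15659313895) (nat_lit 24) (nat_lit 5) (nat_lit 26) (nat_lit 5) (nat_lit 25) (nat_lit 5) (nat_lit 519) (nat_lit 354) (nat_lit 267)) (XT.lf (nat_lit 0) (nat_lit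 4719128294) (nat_lit 152) (nat_lit 2795108541) (nat_lit 228) (nat_lit 15522422703) (nat_lit 22) (nat_lit 5) (nat_lit 24) (nat_lit 5) (nat_lit 25) (nat_lit 5) (nat_lit 520) (nat_lit 354) (nat_lit 266))))) (XT.nd (nat_lit 234) (nat_lit 228) (nat_lit 0) (XT.nd (nat_lit 78) (nat_lit 76) (nat_lit 0) (XT.lf (nat_lit 0) (nat_lit 11442056911) (nat_lit 228) (nat_lit 10467676797) (nat_lit 76) (nat_lit 1495136776) (nat_lit 22) (nat_lit 5) (nat_lit 25) (nat_lit 5) (nat_lit 23) (nat_lit 4) (nat_lit 521) (nat_lit 354) (nat_lit 265)) (XT.nd (nat_lit 78) (nat_lit 76) (nat_lit 0) (XT.lf (nat_lit 0) (nat_lit 15443743610) (nat_lit 228) (nat_lit 2520689424) (nat_lit 76) (nat_lit 5816111833) (nat_lit 22) (nat_lit 5) (nat_lit 25) (nat_lit 5) (nat_lit 23) (nat_lit 4) (nat_lit 522) (nat_lit 354) (nat_lit 264)) (XT.lf (nat_lit 0) (nat_lit 5618381118) (nat_lit 76) (nat_lit 13920815662) (nat_lit 152) (nat_lit 4624266618) (nat_lit 21) (nat_lit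 5) (nat_lit 22) (nat_lit 5) (nat_lit 23) (nat_lit 4) (nat_lit 523) (nat_lit 354) (nat_lit 263)))) (XT.nd (nat_lit 156) (nat_lit 152) (nat_lit 0) (XT.nd (nat_lit 78) (nat_lit 76) (nat_lit 0) (XT.lf (nat_lit 0) (nat_lit 13914125751) (nat_lit 76) (nat_lit 9796787389) (nat_lit 152) (nat_lit 843245291) (nat_lit 21) (nat_lit 5) (nat_lit 22) (nat_lit 5) (nat_lit 23) (nat_lit 4) (nat_lit 524) (nat_lit 354) (nat_lit 262)) (XT.lf (nat_lit 0) (nat_lit 2951605048) (nat_lit 152) (nat_lit 2636234230) (nat_lit 76) (nat_lit 19364887199) (nat_lit 20) (nat_lit 5) (nat_lit 22) (nat_lit 5) (nat_lit 21) (nat_lit 5) (nat_lit 525) (nat_lit 354) (nat_lit 261))) (XT.nd (nat_lit 78) (nat_lit 0) (nat_lit 0) (XT.lf (nat_lit 0) (nat_lit 5555915582) (nat_lit 152) (nat_lit 1269395493) (nat_lit 228) (nat_lit 18533563249) (nat_lit 18) (nat_lit 5) (nat_lit 20) (nat_lit 5) (nat_lit 21) (nat_lit 5) (nat_lit 526) (nat_lit 354) (nat_lit 260)) (XT.lf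 (nat_lit 0) (nat_lit 10792888132) (nat_lit 228) (nat_lit 11884699824) (nat_lit 76) (nat_lit 3095234050) (nat_lit 18) (nat_lit 5) (nat_lit 21) (nat_lit 5) (nat_lit 19) (nat_lit 4) (nat_lit 527) (nat_lit 354) (nat_lit 259)))))) (XT.nd (nat_lit 51948) (nat_lit 0) (nat_lit 16112) (XT.nd (nat_lit 234) (nat_lit 0) (nat_lit 0) (XT.nd (nat_lit 78) (nat_lit 76) (nat_lit 0) (XT.lf (nat_lit 0) (nat_lit 14826882170) (nat_lit 228) (nat_lit 3854793477) (nat_lit 76) (nat_lit 7513636406) (nat_lit 18) (nat_lit 5) (nat_lit 21) (nat_lit 5) (nat_lit 19) (nat_lit 4) (nat_lit 528) (nat_lit 354) (nat_lit 258)) (XT.nd (nat_lit 78) (nat_lit 0) (nat_lit 0) (XT.lf (nat_lit 0) (nat_lit 4355271203) (nat_lit 76) (nat_lit 14593639497) (nat_lit 152) (nat_lit 7677198737) (nat_lit 17) (nat_lit 5) (nat_lit 18) (nat_lit 5) (nat_lit 19) (nat_lit 4) (nat_lit 529) (nat_lit 354) (nat_lit 257)) (XT.lf (nat_lit 0) (nat_lit 12744477063) (nat_lit 76) (nat_lit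 10414015722) (nat_lit 152) (nat_lit 3906932260) (nat_lit 17) (nat_lit 5) (nat_lit 18) (nat_lit 5) (nat_lit 19) (nat_lit 4) (nat_lit 530) (nat_lit 354) (nat_lit 256)))) (XT.nd (nat_lit 51558) (nat_lit 0) (nat_lit 19532) (XT.nd (nat_lit 51480) (nat_lit 0) (nat_lit 20368) (XT.lf (nat_lit 0) (nat_lit 21264885812) (nat_lit 76) (nat_lit 6167032947) (nat_lit 152) (nat_lit 82019612) (nat_lit 17) (nat_lit 5) (nat_lit 18) (nat_lit 5) (nat_lit 19) (nat_lit 4) (nat_lit 531) (nat_lit 354) (nat_lit 255)) (XT.lf (nat_lit 0) (nat_lit 884650154) (nat_lit 760) (nat_lit 2105347624) (nat_lit 0) (nat_lit 884650154) (nat_lit 285) (nat_lit 5) (nat_lit 295) (nat_lit 4) (nat_lit 285) (nat_lit 4) (nat_lit 430) (nat_lit 355) (nat_lit 355))) (XT.nd (nat_lit 78) (nat_lit 76) (nat_lit 0) (XT.lf (nat_lit 0) (nat_lit 1311928139) (nat_lit 760) (nat_lit 3911462805) (nat_lit 760) (nat_lit 2581323793) (nat_lit 275) (nat_lit 4) (nat_lit 285) (nat_lit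 5) (nat_lit 285) (nat_lit 4) (nat_lit 431) (nat_lit 355) (nat_lit 354)) (XT.lf (nat_lit 0) (nat_lit 839099762) (nat_lit 836) (nat_lit 939215345) (nat_lit 76) (nat_lit 6083555965) (nat_lit 274) (nat_lit 5) (nat_lit 285) (nat_lit 5) (nat_lit 275) (nat_lit 4) (nat_lit 432) (nat_lit 355) (nat_lit 353))))) (XT.nd (nat_lit 234) (nat_lit 1368) (nat_lit 0) (XT.nd (nat_lit 78) (nat_lit 1368) (nat_lit 0) (XT.lf (nat_lit 0) (nat_lit 4264899010) (nat_lit 760) (nat_lit 3226617104) (nat_lit 0) (nat_lit 428933365) (nat_lit 265) (nat_lit 5) (nat_lit 275) (nat_lit 4) (nat_lit 265) (nat_lit 4) (nat_lit 433) (nat_lit 355) (nat_lit 352)) (XT.nd (nat_lit 78) (nat_lit 684) (nat_lit 0) (XT.lf (nat_lit 0) (nat_lit 2418161026) (nat_lit 684) (nat_lit 5313721684) (nat_lit 684) (nat_lit 248913198) (nat_lit 256) (nat_lit 4) (nat_lit 265) (nat_lit 5) (nat_lit 265) (nat_lit 4) (nat_lit 434) (nat_lit 355) (nat_lit 351)) (XT.lf (nat_lit 0) (nat_lit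 83357169) (nat_lit 608) (nat_lit 3061649533) (nat_lit 684) (nat_lit 4897742412) (nat_lit 247) (nat_lit 5) (nat_lit 255) (nat_lit 5) (nat_lit 256) (nat_lit 4) (nat_lit 435) (nat_lit 355) (nat_lit 350)))) (XT.nd (nat_lit 156) (nat_lit 684) (nat_lit 0) (XT.nd (nat_lit 78) (nat_lit 684) (nat_lit 0) (XT.lf (nat_lit 0) (nat_lit 5842186125) (nat_lit 608) (nat_lit 738441534) (nat_lit 684) (nat_lit 1525784657) (nat_lit 247) (nat_lit 5) (nat_lit 255) (nat_lit 5) (nat_lit 256) (nat_lit 4) (nat_lit 436) (nat_lit 355) (nat_lit 349)) (XT.lf (nat_lit 0) (nat_lit 1862586200) (nat_lit 684) (nat_lit 4677426660) (nat_lit 76) (nat_lit 1631651132) (nat_lit 238) (nat_lit 5) (nat_lit 247) (nat_lit 5) (nat_lit 239) (nat_lit 4) (nat_lit 437) (nat_lit 355) (nat_lit 348))) (XT.nd (nat_lit 78) (nat_lit 76) (nat_lit 0) (XT.lf (nat_lit 0) (nat_lit 1085942955) (nat_lit 608) (nat_lit 4180787026) (nat_lit 684) (nat_lit 2971964540) (nat_lit 230)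 (nat_lit 5) (nat_lit 238) (nat_lit 5) (nat_lit 239) (nat_lit 4) (nat_lit 438) (nat_lit 355) (nat_lit 347)) (XT.lf (nat_lit 0) (nat_lit 399252539) (nat_lit 684) (nat_lit 1355650587) (nat_lit 76) (nat_lit 6552688457) (nat_lit 229) (nat_lit 5) (nat_lit 238) (nat_lit 5) (nat_lit 230) (nat_lit 5) (nat_lit 439) (nat_lit 355) (nat_lit 346))))))) (XT.nd (nat_lit 1092) (nat_lit 3724) (nat_lit 0) (XT.nd (nat_lit 546) (nat_lit 2584) (nat_lit 0) (XT.nd (nat_lit 234) (nat_lit 1672) (nat_lit 0) (XT.nd (nat_lit 78) (nat_lit 608) (nat_lit 0) (XT.lf (nat_lit 0) (nat_lit 3774986833) (nat_lit 684) (nat_lit 3858654564) (nat_lit 76) (nat_lit 744336235) (nat_lit 221) (nat_lit 5) (nat_lit 230) (nat_lit 5) (nat_lit 222) (nat_lit 4) (nat_lit 440) (nat_lit 355) (nat_lit 345)) (XT.nd (nat_lit 78) (nat_lit 76) (nat_lit 0) (XT.lf (nat_lit 0) (nat_lit 2022093998) (nat_lit 532) (nat_lit 5173184559) (nat_lit 608) (nat_lit 1254992865) (nat_lit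 214) (nat_lit 5) (nat_lit 221) (nat_lit 5) (nat_lit 222) (nat_lit 4) (nat_lit 441) (nat_lit 355) (nat_lit 344)) (XT.lf (nat_lit 0) (nat_lit 2101066666) (nat_lit 608) (nat_lit 538562478) (nat_lit 76) (nat_lit 5884752149) (nat_lit 213) (nat_lit 5) (nat_lit 221) (nat_lit 5) (nat_lit 214) (nat_lit 5) (nat_lit 442) (nat_lit 355) (nat_lit 343)))) (XT.nd (nat_lit 156) (nat_lit 532) (nat_lit 0) (XT.nd (nat_lit 78) (nat_lit 608) (nat_lit 0) (XT.lf (nat_lit 0) (nat_lit 5459949155) (nat_lit 532) (nat_lit 27434573) (nat_lit 608) (nat_lit 3112863424) (nat_lit 206) (nat_lit 5) (nat_lit 213) (nat_lit 5) (nat_lit 214) (nat_lit 5) (nat_lit 443) (nat_lit 355) (nat_lit 342)) (XT.lf (nat_lit 0) (nat_lit 244485520) (nat_lit 608) (nat_lit 5823853298) (nat_lit 76) (nat_lit 2609611307) (nat_lit 198) (nat_lit 5) (nat_lit 206) (nat_lit 5) (nat_lit 199) (nat_lit 5) (nat_lit 444) (nat_lit 355) (nat_lit 341))) (XT.nd (nat_lit 78) (nat_lit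 0) (nat_lit 0) (XT.lf (nat_lit 0) (nat_lit 162323869) (nat_lit 532) (nat_lit 3432665416) (nat_lit 608) (nat_lit 5162488862) (nat_lit 191) (nat_lit 5) (nat_lit 198) (nat_lit 5) (nat_lit 199) (nat_lit 5) (nat_lit 445) (nat_lit 355) (nat_lit 340)) (XT.lf (nat_lit 0) (nat_lit 6274618683) (nat_lit 532) (nat_lit 722770906) (nat_lit 608) (nat_lit 1841544994) (nat_lit 191) (nat_lit 5) (nat_lit 198) (nat_lit 5) (nat_lit 199) (nat_lit 5) (nat_lit 446) (nat_lit 355) (nat_lit 339))))) (XT.nd (nat_lit 234) (nat_lit 1520) (nat_lit 0) (XT.nd (nat_lit 78) (nat_lit 532) (nat_lit 0) (XT.lf (nat_lit 0) (nat_lit 1508440118) (nat_lit 532) (nat_lit 5384003617) (nat_lit 76) (nat_lit 2029751963) (nat_lit 184) (nat_lit 5) (nat_lit 191) (nat_lit 5) (nat_lit 185) (nat_lit 5) (nat_lit 447) (nat_lit 355) (nat_lit 338)) (XT.nd (nat_lit 78) (nat_lit 0) (nat_lit 0) (XT.lf (nat_lit 0) (nat_lit 710583490) (nat_lit 532) (nat_lit 4163875806) (nat_lit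 608) (nat_lit 4132978964) (nat_lit 177) (nat_lit 5) (nat_lit 184) (nat_lit 5) (nat_lit 185) (nat_lit 5) (nat_lit 448) (nat_lit 355) (nat_lit 337)) (XT.lf (nat_lit 0) (nat_lit 6928147979) (nat_lit 532) (nat_lit 1363301414) (nat_lit 608) (nat_lit 803296140) (nat_lit 177) (nat_lit 5) (nat_lit 184) (nat_lit 5) (nat_lit 185) (nat_lit 5) (nat_lit 449) (nat_lit 355) (nat_lit 336)))) (XT.nd (nat_lit 156) (nat_lit 532) (nat_lit 0) (XT.nd (nat_lit 78) (nat_lit 456) (nat_lit 0) (XT.lf (nat_lit 0) (nat_lit 2543309769) (nat_lit 532) (nat_lit 5142502217) (nat_lit 76) (nat_lit 1497995118) (nat_lit 170) (nat_lit 5) (nat_lit 177) (nat_lit 5) (nat_lit 171) (nat_lit 5) (nat_lit 450) (nat_lit 355) (nat_lit 335)) (XT.lf (nat_lit 0) (nat_lit 1056113649) (nat_lit 456) (nat_lit 4869116764) (nat_lit 532) (nat_lit 3349761499) (nat_lit 164) (nat_lit 5) (nat_lit 170) (nat_lit 5) (nat_lit 171) (nat_lit 5) (nat_lit 451) (nat_lit 355) (nat_lit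 334))) (XT.nd (nat_lit 78) (nat_lit 532) (nat_lit 0) (XT.lf (nat_lit 0) (nat_lit 7377213395) (nat_lit 456) (nat_lit 1981238330) (nat_lit 532) (nat_lit 9905815) (nat_lit 164) (nat_lit 5) (nat_lit 170) (nat_lit 5) (nat_lit 171) (nat_lit 5) (nat_lit 452) (nat_lit 355) (nat_lit 333)) (XT.lf (nat_lit 0) (nat_lit 3336533547) (nat_lit 532) (nat_lit 5144761698) (nat_lit 76) (nat_lit 982196637) (nat_lit 157) (nat_lit 5) (nat_lit 164) (nat_lit 5) (nat_lit 158) (nat_lit 5) (nat_lit 453) (nat_lit 355) (nat_lit 332)))))) (XT.nd (nat_lit 546) (nat_lit 1520) (nat_lit 0) (XT.nd (nat_lit 234) (nat_lit 1292) (nat_lit 0) (XT.nd (nat_lit 78) (nat_lit 456) (nat_lit 0) (XT.lf (nat_lit 0) (nat_lit 1152447383) (nat_lit 456) (nat_lit 5581563629) (nat_lit 532) (nat_lit 2826860365) (nat_lit 151) (nat_lit 5) (nat_lit 157) (nat_lit 5) (nat_lit 158) (nat_lit 5) (nat_lit 454) (nat_lit 355) (nat_lit 331)) (XT.nd (nat_lit 78) (nat_lit 380) (nat_lit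 0) (XT.lf (nat_lit 0) (nat_lit 517273635) (nat_lit 532) (nat_lit 2089042260) (nat_lit 76) (nat_lit 7054137927) (nat_lit 150) (nat_lit 5) (nat_lit 157) (nat_lit 5) (nat_lit 151) (nat_lit 5) (nat_lit 455) (nat_lit 355) (nat_lit 330)) (XT.lf (nat_lit 0) (nat_lit 3872836539) (nat_lit 456) (nat_lit 5440066848) (nat_lit 76) (nat_lit 449129826) (nat_lit 145) (nat_lit 5) (nat_lit 151) (nat_lit 5) (nat_lit 146) (nat_lit 5) (nat_lit 456) (nat_lit 355) (nat_lit 329)))) (XT.nd (nat_lit 156) (nat_lit 760) (nat_lit 0) (XT.nd (nat_lit 78) (nat_lit 76) (nat_lit 0) (XT.lf (nat_lit 0) (nat_lit 949100670) (nat_lit 456) (nat_lit 6335638424) (nat_lit 532) (nat_lit 2581146969) (nat_lit 139) (nat_lit 5) (nat_lit 145) (nat_lit 5) (nat_lit 146) (nat_lit 5) (nat_lit 457) (nat_lit 355) (nat_lit 328)) (XT.lf (nat_lit 0) (nat_lit 771256993) (nat_lit 532) (nat_lit 2507030116) (nat_lit 76) (nat_lit 6693679401) (nat_lit 138) (nat_lit 5) (nat_lit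 145) (nat_lit 5) (nat_lit 139) (nat_lit 5) (nat_lit 458) (nat_lit 355) (nat_lit 327))) (XT.nd (nat_lit 78) (nat_lit 380) (nat_lit 0) (XT.lf (nat_lit 0) (nat_lit 3997284543) (nat_lit 380) (nat_lit 137639404) (nat_lit 456) (nat_lit 5945352774) (nat_lit 133) (nat_lit 5) (nat_lit 138) (nat_lit 5) (nat_lit 139) (nat_lit 5) (nat_lit 459) (nat_lit 355) (nat_lit 326)) (XT.lf (nat_lit 0) (nat_lit 391033042) (nat_lit 380) (nat_lit 7167340821) (nat_lit 456) (nat_lit 2632553506) (nat_lit 128) (nat_lit 5) (nat_lit 133) (nat_lit 5) (nat_lit 134) (nat_lit 5) (nat_lit 460) (nat_lit 355) (nat_lit 325))))) (XT.nd (nat_lit 234) (nat_lit 1140) (nat_lit 0) (XT.nd (nat_lit 78) (nat_lit 304) (nat_lit 0) (XT.lf (nat_lit 0) (nat_lit 731984625) (nat_lit 456) (nat_lit 3301527235) (nat_lit 76) (nat_lit 6270300242) (nat_lit 127) (nat_lit 5) (nat_lit 133) (nat_lit 5) (nat_lit 128) (nat_lit 5) (nat_lit 461) (nat_lit 355) (nat_lit 324)) (XT.nd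 (nat_lit 78) (nat_lit 0) (nat_lit 0) (XT.lf (nat_lit 0) (nat_lit 3284290962) (nat_lit 304) (nat_lit 819817112) (nat_lit 380) (nat_lit 6315010560) (nat_lit 123) (nat_lit 5) (nat_lit 127) (nat_lit 5) (nat_lit 128) (nat_lit 5) (nat_lit 462) (nat_lit 355) (nat_lit 323)) (XT.lf (nat_lit 0) (nat_lit 7536436887) (nat_lit 380) (nat_lit 574308552) (nat_lit 76) (nat_lit 2426153163) (nat_lit 123) (nat_lit 5) (nat_lit 128) (nat_lit 5) (nat_lit 124) (nat_lit 5) (nat_lit 463) (nat_lit 355) (nat_lit 322)))) (XT.nd (nat_lit 156) (nat_lit 380) (nat_lit 0) (XT.nd (nat_lit 78) (nat_lit 304) (nat_lit 0) (XT.lf (nat_lit 0) (nat_lit 375962784) (nat_lit 456) (nat_lit 4534342726) (nat_lit 76) (nat_lit 5746689486) (nat_lit 117) (nat_lit 5) (nat_lit 123) (nat_lit 5) (nat_lit 118) (nat_lit 5) (nat_lit 464) (nat_lit 355) (nat_lit 321)) (XT.lf (nat_lit 0) (nat_lit 2122542484) (nat_lit 304) (nat_lit 1630416066) (nat_lit 380) (nat_lit 7026694992)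 (nat_lit 113) (nat_lit 5) (nat_lit 117) (nat_lit 5) (nat_lit 118) (nat_lit 5) (nat_lit 465) (nat_lit 355) (nat_lit 320))) (XT.nd (nat_lit 78) (nat_lit 380) (nat_lit 0) (XT.lf (nat_lit 0) (nat_lit 7195069621) (nat_lit 380) (nat_lit 2009094375) (nat_lit 76) (nat_lit 1700670601) (nat_lit 113) (nat_lit 5) (nat_lit 118) (nat_lit 5) (nat_lit 114) (nat_lit 5) (nat_lit 466) (nat_lit 355) (nat_lit 319)) (XT.lf (nat_lit 0) (nat_lit 4757172044) (nat_lit 380) (nat_lit 5947212173) (nat_lit 456) (nat_lit 328188267) (nat_lit 108) (nat_lit 5) (nat_lit 113) (nat_lit 5) (nat_lit 114) (nat_lit 5) (nat_lit 467) (nat_lit 355) (nat_lit 318))))))))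
noncomputable def xc47 : XT := (XT.nd (nat_lit 2184) (nat_lit 2204) (nat_lit 0) (XT.nd (nat_lit 1092) (nat_lit 1824) (nat_lit 0) (XT.nd (nat_lit 546) (nat_lit 1140) (nat_lit 0) (XT.nd (nat_lit 234) (nat_lit 760) (nat_lit 0) (XT.nd (nat_lit 78) (nat_lit 304) (nat_lit 0) (XT.lf (nat_lit 0) (nat_lit 442389195) (nat_lit 304) (nat_lit 2610936746) (nat_lit 380) (nat_lit 8109688782) (nat_lit 103) (nat_lit 5) (nat_lit 107) (nat_lit 5) (nat_lit 108) (nat_lit 5) (nat_lit 468) (nat_lit 355) (nat_lit 317)) (XT.nd (nat_lit 78) (nat_lit 304) (nat_lit 0) (XT.lf (nat_lit 0) (nat_lit 6502675485) (nat_lit 380) (nat_lit 3989967945) (nat_lit 76) (nat_lit 803306260) (nat_lit 103) (nat_lit 5) (nat_lit 108) (nat_lit 5) (nat_lit 104) (nat_lit 5) (nat_lit 469) (nat_lit 355) (nat_lit 316)) (XT.lf (nat_lit 0) (nat_lit 2829683658) (nat_lit 304) (nat_lit 7184896081) (nat_lit 380) (nat_lit 1417111143) (nat_lit 99) (nat_lit 5) (nat_lit 103)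 (nat_lit 5) (nat_lit 104) (nat_lit 5) (nat_lit 470) (nat_lit 355) (nat_lit 315)))) (XT.nd (nat_lit 156) (nat_lit 380) (nat_lit 0) (XT.nd (nat_lit 78) (nat_lit 304) (nat_lit 0) (XT.lf (nat_lit 0) (nat_lit 1984961888) (nat_lit 380) (nat_lit 1808718800) (nat_lit 76) (nat_lit 7776521888) (nat_lit 98) (nat_lit 5) (nat_lit 103) (nat_lit 5) (nat_lit 99) (nat_lit 5) (nat_lit 471) (nat_lit 355) (nat_lit 314)) (XT.lf (nat_lit 0) (nat_lit 5113819635) (nat_lit 304) (nat_lit 314338444) (nat_lit 380) (nat_lit 6283315739) (nat_lit 94) (nat_lit 5) (nat_lit 98) (nat_lit 5) (nat_lit 99) (nat_lit 5) (nat_lit 472) (nat_lit 355) (nat_lit 313))) (XT.nd (nat_lit 78) (nat_lit 76) (nat_lit 0) (XT.lf (nat_lit 0) (nat_lit 261791317) (nat_lit 304) (nat_lit 8672424690) (nat_lit 380) (nat_lit 2921491965) (nat_lit 90) (nat_lit 5) (nat_lit 94) (nat_lit 5) (nat_lit 95) (nat_lit 5) (nat_lit 473) (nat_lit 355) (nat_lit 312)) (XT.lf (nat_lit 0)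 (nat_lit 506739872) (nat_lit 380) (nat_lit 4724446962) (nat_lit 76) (nat_lit 6771474262) (nat_lit 89) (nat_lit 5) (nat_lit 94) (nat_lit 5) (nat_lit 90) (nat_lit 5) (nat_lit 474) (nat_lit 355) (nat_lit 311))))) (XT.nd (nat_lit 234) (nat_lit 608) (nat_lit 0) (XT.nd (nat_lit 78) (nat_lit 304) (nat_lit 0) (XT.lf (nat_lit 0) (nat_lit 2228871141) (nat_lit 228) (nat_lit 1710034493) (nat_lit 304) (nat_lit 8213788103) (nat_lit 86) (nat_lit 5) (nat_lit 89) (nat_lit 5) (nat_lit 90) (nat_lit 5) (nat_lit 475) (nat_lit 355) (nat_lit 310)) (XT.nd (nat_lit 78) (nat_lit 304) (nat_lit 0) (XT.lf (nat_lit 0) (nat_lit 7444048512) (nat_lit 304) (nat_lit 2995887834) (nat_lit 76) (nat_lit 1865720125) (nat_lit 86) (nat_lit 5) (nat_lit 90) (nat_lit 5) (nat_lit 87) (nat_lit 5) (nat_lit 476) (nat_lit 355) (nat_lit 309)) (XT.lf (nat_lit 0) (nat_lit 4049980017) (nat_lit 304) (nat_lit 6967918534) (nat_lit 380) (nat_lit 1443823620) (nat_lit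 82) (nat_lit 5) (nat_lit 86) (nat_lit 5) (nat_lit 87) (nat_lit 5) (nat_lit 477) (nat_lit 355) (nat_lit 308)))) (XT.nd (nat_lit 156) (nat_lit 304) (nat_lit 0) (XT.nd (nat_lit 78) (nat_lit 228) (nat_lit 0) (XT.lf (nat_lit 0) (nat_lit 1996843756) (nat_lit 380) (nat_lit 1419063966) (nat_lit 76) (nat_lit 9205125192) (nat_lit 81) (nat_lit 5) (nat_lit 86) (nat_lit 5) (nat_lit 82) (nat_lit 5) (nat_lit 478) (nat_lit 355) (nat_lit 307)) (XT.lf (nat_lit 0) (nat_lit 5487474639) (nat_lit 304) (nat_lit 7067297601) (nat_lit 76) (nat_lit 228571987) (nat_lit 78) (nat_lit 5) (nat_lit 82) (nat_lit 5) (nat_lit 79) (nat_lit 5) (nat_lit 479) (nat_lit 355) (nat_lit 306))) (XT.nd (nat_lit 78) (nat_lit 304) (nat_lit 0) (XT.lf (nat_lit 0) (nat_lit 9042167383) (nat_lit 304) (nat_lit 19831140) (nat_lit 76) (nat_lit 3887032855) (nat_lit 78) (nat_lit 5) (nat_lit 82) (nat_lit 5) (nat_lit 79) (nat_lit 5) (nat_lit 480) (nat_lit 355) (nat_lit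 305)) (XT.lf (nat_lit 0) (nat_lit 7202726096) (nat_lit 304) (nat_lit 5474778650) (nat_lit 380) (nat_lit 440350819) (nat_lit 74) (nat_lit 5) (nat_lit 78) (nat_lit 5) (nat_lit 79) (nat_lit 5) (nat_lit 481) (nat_lit 355) (nat_lit 304)))))) (XT.nd (nat_lit 546) (nat_lit 760) (nat_lit 0) (XT.nd (nat_lit 234) (nat_lit 532) (nat_lit 0) (XT.nd (nat_lit 78) (nat_lit 228) (nat_lit 0) (XT.lf (nat_lit 0) (nat_lit 1215356515) (nat_lit 228) (nat_lit 1810431474) (nat_lit 304) (nat_lit 10264462175) (nat_lit 70) (nat_lit 5) (nat_lit 73) (nat_lit 5) (nat_lit 74) (nat_lit 5) (nat_lit 482) (nat_lit 355) (nat_lit 303)) (XT.nd (nat_lit 78) (nat_lit 228) (nat_lit 0) (XT.lf (nat_lit 0) (nat_lit 6570883788) (nat_lit 304) (nat_lit 4972992002) (nat_lit 76) (nat_lit 1921861523) (nat_lit 70) (nat_lit 5) (nat_lit 74) (nat_lit 5) (nat_lit 71) (nat_lit 5) (nat_lit 483) (nat_lit 355) (nat_lit 302)) (XT.lf (nat_lit 0) (nat_lit 2228742544) (nat_lit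 228) (nat_lit 7948379260) (nat_lit 304) (nat_lit 3467820818) (nat_lit 67) (nat_lit 5) (nat_lit 70) (nat_lit 5) (nat_lit 71) (nat_lit 5) (nat_lit 484) (nat_lit 355) (nat_lit 301)))) (XT.nd (nat_lit 156) (nat_lit 228) (nat_lit 0) (XT.nd (nat_lit 78) (nat_lit 228) (nat_lit 0) (XT.lf (nat_lit 0) (nat_lit 24837451) (nat_lit 304) (nat_lit 4245091623) (nat_lit 76) (nat_lit 9557863085) (nat_lit 66) (nat_lit 5) (nat_lit 70) (nat_lit 5) (nat_lit 67) (nat_lit 5) (nat_lit 485) (nat_lit 355) (nat_lit 300)) (XT.lf (nat_lit 0) (nat_lit 3027803266) (nat_lit 228) (nat_lit 497378597) (nat_lit 304) (nat_lit 10488985494) (nat_lit 63) (nat_lit 5) (nat_lit 66) (nat_lit 5) (nat_lit 67) (nat_lit 5) (nat_lit 486) (nat_lit 355) (nat_lit 299))) (XT.nd (nat_lit 78) (nat_lit 228) (nat_lit 0) (XT.lf (nat_lit 0) (nat_lit 7110697971) (nat_lit 304) (nat_lit 3780506189) (nat_lit 76) (nat_lit 3312774815) (nat_lit 63) (nat_lit 5) (nat_lit 67) (nat_lit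 5) (nat_lit 64) (nat_lit 5) (nat_lit 487) (nat_lit 355) (nat_lit 298)) (XT.lf (nat_lit 0) (nat_lit 3555390705) (nat_lit 228) (nat_lit 7204337908) (nat_lit 304) (nat_lit 3638034102) (nat_lit 60) (nat_lit 5) (nat_lit 63) (nat_lit 5) (nat_lit 64) (nat_lit 5) (nat_lit 488) (nat_lit 355) (nat_lit 297))))) (XT.nd (nat_lit 234) (nat_lit 456) (nat_lit 0) (XT.nd (nat_lit 78) (nat_lit 304) (nat_lit 0) (XT.lf (nat_lit 0) (nat_lit 11032215162) (nat_lit 228) (nat_lit 3440627852) (nat_lit 304) (nat_lit 122768792) (nat_lit 60) (nat_lit 5) (nat_lit 63) (nat_lit 5) (nat_lit 64) (nat_lit 5) (nat_lit 489) (nat_lit 355) (nat_lit 296)) (XT.nd (nat_lit 78) (nat_lit 0) (nat_lit 0) (XT.lf (nat_lit 0) (nat_lit 3411195757) (nat_lit 304) (nat_lit 10967350522) (nat_lit 76) (nat_lit 418557043) (nat_lit 56) (nat_lit 5) (nat_lit 60) (nat_lit 5) (nat_lit 57) (nat_lit 5) (nat_lit 490) (nat_lit 355) (nat_lit 295)) (XT.lf (nat_lit 0) (nat_lit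 7027379211) (nat_lit 304) (nat_lit 3663378802) (nat_lit 76) (nat_lit 4311597816) (nat_lit 56) (nat_lit 5) (nat_lit 60) (nat_lit 5) (nat_lit 57) (nat_lit 5) (nat_lit 491) (nat_lit 355) (nat_lit 294)))) (XT.nd (nat_lit 156) (nat_lit 228) (nat_lit 0) (XT.nd (nat_lit 78) (nat_lit 0) (nat_lit 0) (XT.lf (nat_lit 0) (nat_lit 3780823848) (nat_lit 228) (nat_lit 6926596093) (nat_lit 304) (nat_lit 4504473618) (nat_lit 53) (nat_lit 5) (nat_lit 56) (nat_lit 5) (nat_lit 57) (nat_lit 5) (nat_lit 492) (nat_lit 355) (nat_lit 293)) (XT.lf (nat_lit 0) (nat_lit 11368498629) (nat_lit 228) (nat_lit 3084421830) (nat_lit 304) (nat_lit 972875038) (nat_lit 53) (nat_lit 5) (nat_lit 56) (nat_lit 5) (nat_lit 57) (nat_lit 5) (nat_lit 493) (nat_lit 355) (nat_lit 292))) (XT.nd (nat_lit 78) (nat_lit 0) (nat_lit 0) (XT.lf (nat_lit 0) (nat_lit 2590420431) (nat_lit 228) (nat_lit 12211845894) (nat_lit 76) (nat_lit 841466950) (nat_lit 50) (nat_lit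 5) (nat_lit 53) (nat_lit 5) (nat_lit 51) (nat_lit 5) (nat_lit 494) (nat_lit 355) (nat_lit 291)) (XT.lf (nat_lit 0) (nat_lit 6227634615) (nat_lit 228) (nat_lit 4821261013) (nat_lit 76) (nat_lit 4816701991) (nat_lit 50) (nat_lit 5) (nat_lit 53) (nat_lit 5) (nat_lit 51) (nat_lit 5) (nat_lit 495) (nat_lit 355) (nat_lit 290))))))) (XT.nd (nat_lit 1092) (nat_lit 912) (nat_lit 0) (XT.nd (nat_lit 546) (nat_lit 608) (nat_lit 0) (XT.nd (nat_lit 234) (nat_lit 228) (nat_lit 0) (XT.nd (nat_lit 78) (nat_lit 228) (nat_lit 0) (XT.lf (nat_lit 0) (nat_lit 2699024982) (nat_lit 228) (nat_lit 7224556554) (nat_lit 304) (nat_lit 6168607769) (nat_lit 47) (nat_lit 5) (nat_lit 50) (nat_lit 5) (nat_lit 51) (nat_lit 5) (nat_lit 496) (nat_lit 355) (nat_lit 289)) (XT.nd (nat_lit 78) (nat_lit 228) (nat_lit 0) (XT.lf (nat_lit 0) (nat_lit 10381913412) (nat_lit 228) (nat_lit 3312624988) (nat_lit 304) (nat_lit 2628762235) (nat_lit 47) (nat_lit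 5) (nat_lit 50) (nat_lit 5) (nat_lit 51) (nat_lit 5) (nat_lit 497) (nat_lit 355) (nat_lit 288)) (XT.lf (nat_lit 0) (nat_lit 953041199) (nat_lit 228) (nat_lit 14941906321) (nat_lit 76) (nat_lit 664287655) (nat_lit 44) (nat_lit 5) (nat_lit 47) (nat_lit 5) (nat_lit 45) (nat_lit 5) (nat_lit 498) (nat_lit 355) (nat_lit 287)))) (XT.nd (nat_lit 156) (nat_lit 0) (nat_lit 0) (XT.nd (nat_lit 78) (nat_lit 228) (nat_lit 0) (XT.lf (nat_lit 0) (nat_lit 4602650854) (nat_lit 228) (nat_lit 7483614676) (nat_lit 76) (nat_lit 4712657043) (nat_lit 44) (nat_lit 5) (nat_lit 47) (nat_lit 5) (nat_lit 45) (nat_lit 5) (nat_lit 499) (nat_lit 355) (nat_lit 286)) (XT.lf (nat_lit 0) (nat_lit 73166100) (nat_lit 228) (nat_lit 8222428888) (nat_lit 304) (nat_lit 8748410782) (nat_lit 41) (nat_lit 5) (nat_lit 44) (nat_lit 5) (nat_lit 45) (nat_lit 5) (nat_lit 500) (nat_lit 355) (nat_lit 285))) (XT.nd (nat_lit 78) (nat_lit 0) (nat_lit 0) (XT.lf (nat_lit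 0) (nat_lit 7831228283) (nat_lit 228) (nat_lit 4251513746) (nat_lit 304) (nat_lit 5210850443) (nat_lit 41) (nat_lit 5) (nat_lit 44) (nat_lit 5) (nat_lit 45) (nat_lit 5) (nat_lit 501) (nat_lit 355) (nat_lit 284)) (XT.lf (nat_lit 0) (nat_lit 15694160950) (nat_lit 228) (nat_lit 222181874) (nat_lit 304) (nat_lit 1632422419) (nat_lit 41) (nat_lit 5) (nat_lit 44) (nat_lit 5) (nat_lit 45) (nat_lit 5) (nat_lit 502) (nat_lit 355) (nat_lit 283))))) (XT.nd (nat_lit 234) (nat_lit 228) (nat_lit 0) (XT.nd (nat_lit 78) (nat_lit 152) (nat_lit 0) (XT.lf (nat_lit 0) (nat_lit 2026085712) (nat_lit 228) (nat_lit 11913887162) (nat_lit 76) (nat_lit 3868115378) (nat_lit 38) (nat_lit 5) (nat_lit 41) (nat_lit 5) (nat_lit 39) (nat_lit 5) (nat_lit 503) (nat_lit 355) (nat_lit 282)) (XT.nd (nat_lit 78) (nat_lit 152) (nat_lit 0) (XT.lf (nat_lit 0) (nat_lit 5721124134) (nat_lit 228) (nat_lit 4311408300) (nat_lit 76) (nat_lit 8040153173) (nat_lit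 38) (nat_lit 5) (nat_lit 41) (nat_lit 5) (nat_lit 39) (nat_lit 5) (nat_lit 504) (nat_lit 355) (nat_lit 281)) (XT.lf (nat_lit 0) (nat_lit 3439387985) (nat_lit 152) (nat_lit 6044769498) (nat_lit 228) (nat_lit 8858543443) (nat_lit 36) (nat_lit 5) (nat_lit 38) (nat_lit 5) (nat_lit 39) (nat_lit 5) (nat_lit 505) (nat_lit 355) (nat_lit 280)))) (XT.nd (nat_lit 156) (nat_lit 76) (nat_lit 0) (XT.nd (nat_lit 78) (nat_lit 152) (nat_lit 0) (XT.lf (nat_lit 0) (nat_lit 11355123444) (nat_lit 152) (nat_lit 1968261887) (nat_lit 228) (nat_lit 5294720289) (nat_lit 36) (nat_lit 5) (nat_lit 38) (nat_lit 5) (nat_lit 39) (nat_lit 5) (nat_lit 506) (nat_lit 355) (nat_lit 279)) (XT.lf (nat_lit 0) (nat_lit 474162835) (nat_lit 152) (nat_lit 16754951327) (nat_lit 228) (nat_lit 1670117510) (nat_lit 34) (nat_lit 5) (nat_lit 36) (nat_lit 5) (nat_lit 37) (nat_lit 4) (nat_lit 507) (nat_lit 355) (nat_lit 278))) (XT.nd (nat_lit 78) (nat_lit 0) (nat_lit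 0) (XT.lf (nat_lit 0) (nat_lit 2034952331) (nat_lit 228) (nat_lit 10795072318) (nat_lit 76) (nat_lit 6355008501) (nat_lit 33) (nat_lit 5) (nat_lit 36) (nat_lit 5) (nat_lit 34) (nat_lit 5) (nat_lit 508) (nat_lit 355) (nat_lit 277)) (XT.lf (nat_lit 0) (nat_lit 5764784666) (nat_lit 228) (nat_lit 3070645193) (nat_lit 76) (nat_lit 10641446684) (nat_lit 33) (nat_lit 5) (nat_lit 36) (nat_lit 5) (nat_lit 34) (nat_lit 5) (nat_lit 509) (nat_lit 355) (nat_lit 276)))))) (XT.nd (nat_lit 546) (nat_lit 380) (nat_lit 0) (XT.nd (nat_lit 234) (nat_lit 228) (nat_lit 0) (XT.nd (nat_lit 78) (nat_lit 152) (nat_lit 0) (XT.lf (nat_lit 0) (nat_lit 4825370839) (nat_lit 152) (nat_lit 4748704735) (nat_lit 228) (nat_lit 10200391007) (nat_lit 31) (nat_lit 5) (nat_lit 33) (nat_lit 5) (nat_lit 34) (nat_lit 5) (nat_lit 510) (nat_lit 355) (nat_lit 275)) (XT.nd (nat_lit 78) (nat_lit 152) (nat_lit 0) (XT.lf (nat_lit 0) (nat_lit 12875049207) (nat_lit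 152) (nat_lit 578862238) (nat_lit 228) (nat_lit 6624216670) (nat_lit 31) (nat_lit 5) (nat_lit 33) (nat_lit 5) (nat_lit 34) (nat_lit 5) (nat_lit 511) (nat_lit 355) (nat_lit 274)) (XT.lf (nat_lit 0) (nat_lit 636977695) (nat_lit 152) (nat_lit 16776501664) (nat_lit 228) (nat_lit 2974347554) (nat_lit 29) (nat_lit 5) (nat_lit 31) (nat_lit 5) (nat_lit 32) (nat_lit 4) (nat_lit 512) (nat_lit 355) (nat_lit 273)))) (XT.nd (nat_lit 156) (nat_lit 152) (nat_lit 0) (XT.nd (nat_lit 78) (nat_lit 0) (nat_lit 0) (XT.lf (nat_lit 0) (nat_lit 765373187) (nat_lit 228) (nat_lit 12025720625) (nat_lit 76) (nat_lit 7912001736) (nat_lit 28) (nat_lit 5) (nat_lit 31) (nat_lit 5) (nat_lit 29) (nat_lit 5) (nat_lit 513) (nat_lit 355) (nat_lit 272)) (XT.lf (nat_lit 0) (nat_lit 4514786432) (nat_lit 228) (nat_lit 4210325567) (nat_lit 76) (nat_lit 12299676209) (nat_lit 28) (nat_lit 5) (nat_lit 31) (nat_lit 5) (nat_lit 29) (nat_lit 5) (nat_lit 514)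 (nat_lit 355) (nat_lit 271))) (XT.nd (nat_lit 78) (nat_lit 0) (nat_lit 0) (XT.lf (nat_lit 0) (nat_lit 3767118691) (nat_lit 152) (nat_lit 4571711583) (nat_lit 228) (nat_lit 13014097829) (nat_lit 26) (nat_lit 5) (nat_lit 28) (nat_lit 5) (nat_lit 29) (nat_lit 5) (nat_lit 515) (nat_lit 355) (nat_lit 270)) (XT.lf (nat_lit 0) (nat_lit 11917806038) (nat_lit 152) (nat_lit 325191111) (nat_lit 228) (nat_lit 9444566910) (nat_lit 26) (nat_lit 5) (nat_lit 28) (nat_lit 5) (nat_lit 29) (nat_lit 5) (nat_lit 516) (nat_lit 355) (nat_lit 269))))) (XT.nd (nat_lit 312) (nat_lit 228) (nat_lit 0) (XT.nd (nat_lit 156) (nat_lit 76) (nat_lit 0) (XT.nd (nat_lit 78) (nat_lit 76) (nat_lit 0) (XT.lf (nat_lit 0) (nat_lit 16227010435) (nat_lit 228) (nat_lit 1866293328) (nat_lit 76) (nat_lit 3935559698) (nat_lit 26) (nat_lit 5) (nat_lit 29) (nat_lit 5) (nat_lit 27) (nat_lit 4) (nat_lit 517) (nat_lit 355) (nat_lit 268)) (XT.lf (nat_lit 0) (nat_lit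 6232775727) (nat_lit 76) (nat_lit 14076776386) (nat_lit 152) (nat_lit 2067065645) (nat_lit 25) (nat_lit 5) (nat_lit 26) (nat_lit 5) (nat_lit 27) (nat_lit 4) (nat_lit 518) (nat_lit 355) (nat_lit 267))) (XT.nd (nat_lit 78) (nat_lit 0) (nat_lit 0) (XT.lf (nat_lit 0) (nat_lit 1708432399) (nat_lit 152) (nat_lit 8265448045) (nat_lit 76) (nat_lit 12757448739) (nat_lit 24) (nat_lit 5) (nat_lit 26) (nat_lit 5) (nat_lit 25) (nat_lit 5) (nat_lit 519) (nat_lit 355) (nat_lit 266)) (XT.lf (nat_lit 0) (nat_lit 5508514038) (nat_lit 152) (nat_lit 284449642) (nat_lit 76) (nat_lit 17300368388) (nat_lit 24) (nat_lit 5) (nat_lit 26) (nat_lit 5) (nat_lit 25) (nat_lit 5) (nat_lit 520) (nat_lit 355) (nat_lit 265)))) (XT.nd (nat_lit 156) (nat_lit 76) (nat_lit 0) (XT.nd (nat_lit 78) (nat_lit 0) (nat_lit 0) (XT.lf (nat_lit 0) (nat_lit 7919570329) (nat_lit 152) (nat_lit 1493628211) (nat_lit 228) (nat_lit 14048809870) (nat_lit 22) (nat_lit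 5) (nat_lit 24) (nat_lit 5) (nat_lit 25) (nat_lit 5) (nat_lit 521) (nat_lit 355) (nat_lit 264)) (XT.lf (nat_lit 0) (nat_lit 13393927457) (nat_lit 228) (nat_lit 7605823705) (nat_lit 76) (nat_lit 2838353418) (nat_lit 22) (nat_lit 5) (nat_lit 25) (nat_lit 5) (nat_lit 23) (nat_lit 4) (nat_lit 522) (nat_lit 355) (nat_lit 263))) (XT.nd (nat_lit 78) (nat_lit 0) (nat_lit 0) (XT.lf (nat_lit 0) (nat_lit 445729500) (nat_lit 76) (nat_lit 16999027471) (nat_lit 152) (nat_lit 6777161195) (nat_lit 21) (nat_lit 5) (nat_lit 22) (nat_lit 5) (nat_lit 23) (nat_lit 4) (nat_lit 523) (nat_lit 355) (nat_lit 262)) (XT.lf (nat_lit 0) (nat_lit 8721926506) (nat_lit 76) (nat_lit 12883596995) (nat_lit 152) (nat_lit 3007311222) (nat_lit 21) (nat_lit 5) (nat_lit 22) (nat_lit 5) (nat_lit 23) (nat_lit 4) (nat_lit 524) (nat_lit 355) (nat_lit 261))))))))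
noncomputable def xc48 : XT := (XT.nd (nat_lit 53430) (nat_lit 0) (nat_lit 5244) (XT.nd (nat_lit 52338) (nat_lit 0) (nat_lit 12692) (XT.nd (nat_lit 51792) (nat_lit 0) (nat_lit 18088) (XT.nd (nat_lit 234) (nat_lit 76) (nat_lit 0) (XT.nd (nat_lit 78) (nat_lit 152) (nat_lit 0) (XT.lf (nat_lit 0) (nat_lit 805112563) (nat_lit 152) (nat_lit 7892369628) (nat_lit 76) (nat_lit 16314420195) (nat_lit 20) (nat_lit 5) (nat_lit 22) (nat_lit 5) (nat_lit 21) (nat_lit 5) (nat_lit 525) (nat_lit 355) (nat_lit 260)) (XT.nd (nat_lit 78) (nat_lit 0) (nat_lit 0) (XT.lf (nat_lit 0) (nat_lit 210745540) (nat_lit 152) (nat_lit 4422771928) (nat_lit 228) (nat_lit 20785441171) (nat_lit 18) (nat_lit 5) (nat_lit 20) (nat_lit 5) (nat_lit 21) (nat_lit 5) (nat_lit 526) (nat_lit 355) (nat_lit 259)) (XT.lf (nat_lit 0) (nat_lit 8544915565) (nat_lit 152) (nat_lit 25304516) (nat_lit 228) (nat_lit 17263306066) (nat_lit 18) (nat_lit 5) (nat_lit 20) (nat_lit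 5) (nat_lit 21) (nat_lit 5) (nat_lit 527) (nat_lit 355) (nat_lit 258)))) (XT.nd (nat_lit 156) (nat_lit 76) (nat_lit 0) (XT.nd (nat_lit 78) (nat_lit 0) (nat_lit 0) (XT.lf (nat_lit 0) (nat_lit 12593692054) (nat_lit 228) (nat_lit 9277133981) (nat_lit 76) (nat_lit 4385402891) (nat_lit 18) (nat_lit 5) (nat_lit 21) (nat_lit 5) (nat_lit 19) (nat_lit 4) (nat_lit 528) (nat_lit 355) (nat_lit 257)) (XT.lf (nat_lit 0) (nat_lit 16677288597) (nat_lit 228) (nat_lit 1142418915) (nat_lit 76) (nat_lit 8868089683) (nat_lit 18) (nat_lit 5) (nat_lit 21) (nat_lit 5) (nat_lit 19) (nat_lit 4) (nat_lit 529) (nat_lit 355) (nat_lit 256))) (XT.nd (nat_lit 78) (nat_lit 0) (nat_lit 0) (XT.lf (nat_lit 0) (nat_lit 7213495278) (nat_lit 76) (nat_lit 13655786344) (nat_lit 152) (nat_lit 6258185166) (nat_lit 17) (nat_lit 5) (nat_lit 18) (nat_lit 5) (nat_lit 19) (nat_lit 4) (nat_lit 530) (nat_lit 355) (nat_lit 255)) (XT.lf (nat_lit 0) (nat_lit 15716149596)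 (nat_lit 76) (nat_lit 9416682367) (nat_lit 152) (nat_lit 2443347822) (nat_lit 17) (nat_lit 5) (nat_lit 18) (nat_lit 5) (nat_lit 19) (nat_lit 4) (nat_lit 531) (nat_lit 355) (nat_lit 254))))) (XT.nd (nat_lit 234) (nat_lit 2280) (nat_lit 0) (XT.nd (nat_lit 78) (nat_lit 760) (nat_lit 0) (XT.lf (nat_lit 0) (nat_lit 127678137) (nat_lit 760) (nat_lit 1846822647) (nat_lit 760) (nat_lit 1846822647) (nat_lit 295) (nat_lit 4) (nat_lit 305) (nat_lit 5) (nat_lit 305) (nat_lit 4) (nat_lit 428) (nat_lit 356) (nat_lit 356)) (XT.nd (nat_lit 78) (nat_lit 760) (nat_lit 0) (XT.lf (nat_lit 0) (nat_lit 5723734787) (nat_lit 760) (nat_lit 1677858134) (nat_lit 760) (nat_lit 293981506) (nat_lit 295) (nat_lit 4) (nat_lit 305) (nat_lit 5) (nat_lit 305) (nat_lit 4) (nat_lit 429) (nat_lit 356) (nat_lit 355)) (XT.lf (nat_lit 0) (nat_lit 3094680727) (nat_lit 760) (nat_lit 4247469138) (nat_lit 0) (nat_lit 407799925) (nat_lit 285) (nat_lit 5)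 (nat_lit 295) (nat_lit 4) (nat_lit 285) (nat_lit 4) (nat_lit 430) (nat_lit 356) (nat_lit 354)))) (XT.nd (nat_lit 156) (nat_lit 1444) (nat_lit 0) (XT.nd (nat_lit 78) (nat_lit 76) (nat_lit 0) (XT.lf (nat_lit 0) (nat_lit 1238133589) (nat_lit 760) (nat_lit 5279412208) (nat_lit 760) (nat_lit 1288473551) (nat_lit 275) (nat_lit 4) (nat_lit 285) (nat_lit 5) (nat_lit 285) (nat_lit 4) (nat_lit 431) (nat_lit 356) (nat_lit 353)) (XT.lf (nat_lit 0) (nat_lit 2084391439) (nat_lit 836) (nat_lit 1058956041) (nat_lit 76) (nat_lit 4720297533) (nat_lit 274) (nat_lit 5) (nat_lit 285) (nat_lit 5) (nat_lit 275) (nat_lit 4) (nat_lit 432) (nat_lit 356) (nat_lit 352))) (XT.nd (nat_lit 78) (nat_lit 760) (nat_lit 0) (XT.lf (nat_lit 0) (nat_lit 4539369734) (nat_lit 684) (nat_lit 936974910) (nat_lit 760) (nat_lit 2446580362) (nat_lit 265) (nat_lit 5) (nat_lit 274) (nat_lit 5) (nat_lit 275) (nat_lit 4) (nat_lit 433) (nat_lit 356) (nat_lit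 351)) (XT.lf (nat_lit 0) (nat_lit 910204521) (nat_lit 760) (nat_lit 5761082247) (nat_lit 76) (nat_lit 1312628929) (nat_lit 255) (nat_lit 5) (nat_lit 265) (nat_lit 5) (nat_lit 256) (nat_lit 4) (nat_lit 434) (nat_lit 356) (nat_lit 350)))))) (XT.nd (nat_lit 546) (nat_lit 2280) (nat_lit 0) (XT.nd (nat_lit 234) (nat_lit 1824) (nat_lit 0) (XT.nd (nat_lit 78) (nat_lit 1292) (nat_lit 0) (XT.lf (nat_lit 0) (nat_lit 4270771338) (nat_lit 760) (nat_lit 153862654) (nat_lit 76) (nat_lit 3621827602) (nat_lit 255) (nat_lit 5) (nat_lit 265) (nat_lit 5) (nat_lit 256) (nat_lit 4) (nat_lit 435) (nat_lit 356) (nat_lit 349)) (XT.nd (nat_lit 78) (nat_lit 684) (nat_lit 0) (XT.lf (nat_lit 0) (nat_lit 5567095698) (nat_lit 608) (nat_lit 2109083762) (nat_lit 684) (nat_lit 434572379) (nat_lit 247) (nat_lit 5) (nat_lit 255) (nat_lit 5) (nat_lit 256) (nat_lit 4) (nat_lit 436) (nat_lit 356) (nat_lit 348)) (XT.lf (nat_lit 0) (nat_lit 2899619013)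 (nat_lit 684) (nat_lit 4999679054) (nat_lit 76) (nat_lit 277383013) (nat_lit 238) (nat_lit 5) (nat_lit 247) (nat_lit 5) (nat_lit 239) (nat_lit 4) (nat_lit 437) (nat_lit 356) (nat_lit 347)))) (XT.nd (nat_lit 156) (nat_lit 1140) (nat_lit 0) (XT.nd (nat_lit 78) (nat_lit 76) (nat_lit 0) (XT.lf (nat_lit 0) (nat_lit 723089422) (nat_lit 608) (nat_lit 5549770063) (nat_lit 684) (nat_lit 1971491663) (nat_lit 230) (nat_lit 5) (nat_lit 238) (nat_lit 5) (nat_lit 239) (nat_lit 4) (nat_lit 438) (nat_lit 356) (nat_lit 346)) (XT.lf (nat_lit 0) (nat_lit 1358177528) (nat_lit 684) (nat_lit 1766661338) (nat_lit 76) (nat_lit 5188868596) (nat_lit 229) (nat_lit 5) (nat_lit 238) (nat_lit 5) (nat_lit 230) (nat_lit 5) (nat_lit 439) (nat_lit 356) (nat_lit 345))) (XT.nd (nat_lit 78) (nat_lit 532) (nat_lit 0) (XT.lf (nat_lit 0) (nat_lit 4072077105) (nat_lit 608) (nat_lit 626132397) (nat_lit 684) (nat_lit 3686618291) (nat_lit 221) (nat_lit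 5) (nat_lit 229) (nat_lit 5) (nat_lit 230) (nat_lit 5) (nat_lit 440) (nat_lit 356) (nat_lit 344)) (XT.lf (nat_lit 0) (nat_lit 1530020818) (nat_lit 532) (nat_lit 6553621129) (nat_lit 608) (nat_lit 374196658) (nat_lit 214) (nat_lit 5) (nat_lit 221) (nat_lit 5) (nat_lit 222) (nat_lit 4) (nat_lit 441) (nat_lit 356) (nat_lit 343))))) (XT.nd (nat_lit 234) (nat_lit 1064) (nat_lit 0) (XT.nd (nat_lit 78) (nat_lit 1140) (nat_lit 0) (XT.lf (nat_lit 0) (nat_lit 2942823634) (nat_lit 608) (nat_lit 1079660472) (nat_lit 76) (nat_lit 4509918810) (nat_lit 213) (nat_lit 5) (nat_lit 221) (nat_lit 5) (nat_lit 214) (nat_lit 5) (nat_lit 442) (nat_lit 356) (nat_lit 342)) (XT.nd (nat_lit 78) (nat_lit 608) (nat_lit 0) (XT.lf (nat_lit 0) (nat_lit 4876156459) (nat_lit 532) (nat_lit 1422245400) (nat_lit 608) (nat_lit 2310500387) (nat_lit 206) (nat_lit 5) (nat_lit 213) (nat_lit 5) (nat_lit 214) (nat_lit 5) (nat_lit 443) (nat_lit 356) (nat_lit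 341)) (XT.lf (nat_lit 0) (nat_lit 996218122) (nat_lit 608) (nat_lit 6465188655) (nat_lit 76) (nat_lit 1225914365) (nat_lit 198) (nat_lit 5) (nat_lit 206) (nat_lit 5) (nat_lit 199) (nat_lit 5) (nat_lit 444) (nat_lit 356) (nat_lit 340)))) (XT.nd (nat_lit 156) (nat_lit 532) (nat_lit 0) (XT.nd (nat_lit 78) (nat_lit 532) (nat_lit 0) (XT.lf (nat_lit 0) (nat_lit 4319072124) (nat_lit 608) (nat_lit 516585076) (nat_lit 76) (nat_lit 3931762575) (nat_lit 198) (nat_lit 5) (nat_lit 206) (nat_lit 5) (nat_lit 199) (nat_lit 5) (nat_lit 445) (nat_lit 356) (nat_lit 339)) (XT.lf (nat_lit 0) (nat_lit 5553633100) (nat_lit 532) (nat_lit 2138137764) (nat_lit 608) (nat_lit 1157716649) (nat_lit 191) (nat_lit 5) (nat_lit 198) (nat_lit 5) (nat_lit 199) (nat_lit 5) (nat_lit 446) (nat_lit 356) (nat_lit 338))) (XT.nd (nat_lit 78) (nat_lit 0) (nat_lit 0) (XT.lf (nat_lit 0) (nat_lit 2143002236) (nat_lit 532) (nat_lit 6166959331) (nat_lit 76)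 (nat_lit 623520815) (nat_lit 184) (nat_lit 5) (nat_lit 191) (nat_lit 5) (nat_lit 185) (nat_lit 5) (nat_lit 447) (nat_lit 356) (nat_lit 337)) (XT.lf (nat_lit 0) (nat_lit 5478659238) (nat_lit 532) (nat_lit 116816909) (nat_lit 76) (nat_lit 3423872313) (nat_lit 184) (nat_lit 5) (nat_lit 191) (nat_lit 5) (nat_lit 185) (nat_lit 5) (nat_lit 448) (nat_lit 356) (nat_lit 336))))))) (XT.nd (nat_lit 1092) (nat_lit 2812) (nat_lit 0) (XT.nd (nat_lit 546) (nat_lit 2052) (nat_lit 0) (XT.nd (nat_lit 234) (nat_lit 1064) (nat_lit 0) (XT.nd (nat_lit 78) (nat_lit 988) (nat_lit 0) (XT.lf (nat_lit 0) (nat_lit 6064300974) (nat_lit 532) (nat_lit 2805109550) (nat_lit 608) (nat_lit 237785940) (nat_lit 177) (nat_lit 5) (nat_lit 184) (nat_lit 5) (nat_lit 185) (nat_lit 5) (nat_lit 449) (nat_lit 356) (nat_lit 335)) (XT.nd (nat_lit 78) (nat_lit 456) (nat_lit 0) (XT.lf (nat_lit 0) (nat_lit 3060797108) (nat_lit 532) (nat_lit 6072763401) (nat_lit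 76) (nat_lit 63451550) (nat_lit 170) (nat_lit 5) (nat_lit 177) (nat_lit 5) (nat_lit 171) (nat_lit 5) (nat_lit 450) (nat_lit 356) (nat_lit 334)) (XT.lf (nat_lit 0) (nat_lit 78244036) (nat_lit 456) (nat_lit 6333181971) (nat_lit 532) (nat_lit 2877411728) (nat_lit 164) (nat_lit 5) (nat_lit 170) (nat_lit 5) (nat_lit 171) (nat_lit 5) (nat_lit 451) (nat_lit 356) (nat_lit 333)))) (XT.nd (nat_lit 156) (nat_lit 532) (nat_lit 0) (XT.nd (nat_lit 78) (nat_lit 456) (nat_lit 0) (XT.lf (nat_lit 0) (nat_lit 431522899) (nat_lit 532) (nat_lit 3020761503) (nat_lit 76) (nat_lit 5930370483) (nat_lit 163) (nat_lit 5) (nat_lit 170) (nat_lit 5) (nat_lit 164) (nat_lit 5) (nat_lit 452) (nat_lit 356) (nat_lit 332)) (XT.lf (nat_lit 0) (nat_lit 3247285814) (nat_lit 456) (nat_lit 492716742) (nat_lit 532) (nat_lit 5738556146) (nat_lit 157) (nat_lit 5) (nat_lit 163) (nat_lit 5) (nat_lit 164) (nat_lit 5) (nat_lit 453) (nat_lit 356) (nat_lit 331)))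 (XT.nd (nat_lit 78) (nat_lit 76) (nat_lit 0) (XT.lf (nat_lit 0) (nat_lit 19859130) (nat_lit 456) (nat_lit 7082892680) (nat_lit 532) (nat_lit 2473894842) (nat_lit 151) (nat_lit 5) (nat_lit 157) (nat_lit 5) (nat_lit 158) (nat_lit 5) (nat_lit 454) (nat_lit 356) (nat_lit 330)) (XT.lf (nat_lit 0) (nat_lit 841514437) (nat_lit 532) (nat_lit 3274226587) (nat_lit 76) (nat_lit 5560937499) (nat_lit 150) (nat_lit 5) (nat_lit 157) (nat_lit 5) (nat_lit 151) (nat_lit 5) (nat_lit 455) (nat_lit 356) (nat_lit 329))))) (XT.nd (nat_lit 234) (nat_lit 1140) (nat_lit 0) (XT.nd (nat_lit 78) (nat_lit 532) (nat_lit 0) (XT.lf (nat_lit 0) (nat_lit 3089743512) (nat_lit 380) (nat_lit 1072735997) (nat_lit 456) (nat_lit 5616483450) (nat_lit 145) (nat_lit 5) (nat_lit 150) (nat_lit 5) (nat_lit 151) (nat_lit 5) (nat_lit 456) (nat_lit 356) (nat_lit 328)) (XT.nd (nat_lit 78) (nat_lit 532) (nat_lit 0) (XT.lf (nat_lit 0) (nat_lit 7537810201) (nat_lit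 456) (nat_lit 339577839) (nat_lit 76) (nat_lit 2006172036) (nat_lit 145) (nat_lit 5) (nat_lit 151) (nat_lit 5) (nat_lit 146) (nat_lit 5) (nat_lit 457) (nat_lit 356) (nat_lit 327)) (XT.lf (nat_lit 0) (nat_lit 977947228) (nat_lit 532) (nat_lit 3853595839) (nat_lit 76) (nat_lit 5158591613) (nat_lit 138) (nat_lit 5) (nat_lit 145) (nat_lit 5) (nat_lit 139) (nat_lit 5) (nat_lit 458) (nat_lit 356) (nat_lit 326)))) (XT.nd (nat_lit 156) (nat_lit 760) (nat_lit 0) (XT.nd (nat_lit 78) (nat_lit 0) (nat_lit 0) (XT.lf (nat_lit 0) (nat_lit 2598906141) (nat_lit 380) (nat_lit 1710716369) (nat_lit 456) (nat_lit 5789474307) (nat_lit 133) (nat_lit 5) (nat_lit 138) (nat_lit 5) (nat_lit 139) (nat_lit 5) (nat_lit 459) (nat_lit 356) (nat_lit 325)) (XT.lf (nat_lit 0) (nat_lit 7697572367) (nat_lit 456) (nat_lit 1054729732) (nat_lit 76) (nat_lit 1458167222) (nat_lit 133) (nat_lit 5) (nat_lit 139) (nat_lit 5) (nat_lit 134) (nat_lit 5) (nat_lit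 460) (nat_lit 356) (nat_lit 324))) (XT.nd (nat_lit 78) (nat_lit 304) (nat_lit 0) (XT.lf (nat_lit 0) (nat_lit 820407538) (nat_lit 456) (nat_lit 4815459161) (nat_lit 76) (nat_lit 4688076497) (nat_lit 127) (nat_lit 5) (nat_lit 133) (nat_lit 5) (nat_lit 128) (nat_lit 5) (nat_lit 461) (nat_lit 356) (nat_lit 323)) (XT.lf (nat_lit 0) (nat_lit 1716720975) (nat_lit 304) (nat_lit 2443397644) (nat_lit 380) (nat_lit 6279790527) (nat_lit 123) (nat_lit 5) (nat_lit 127) (nat_lit 5) (nat_lit 128) (nat_lit 5) (nat_lit 462) (nat_lit 356) (nat_lit 322)))))) (XT.nd (nat_lit 546) (nat_lit 1292) (nat_lit 0) (XT.nd (nat_lit 234) (nat_lit 760) (nat_lit 0) (XT.nd (nat_lit 78) (nat_lit 760) (nat_lit 0) (XT.lf (nat_lit 0) (nat_lit 7559823580) (nat_lit 380) (nat_lit 2185369913) (nat_lit 76) (nat_lit 813159049) (nat_lit 123) (nat_lit 5) (nat_lit 128) (nat_lit 5) (nat_lit 124) (nat_lit 5) (nat_lit 463) (nat_lit 356) (nat_lit 321)) (XT.nd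 (nat_lit 78) (nat_lit 304) (nat_lit 0) (XT.lf (nat_lit 0) (nat_lit 345181608) (nat_lit 456) (nat_lit 6221749199) (nat_lit 76) (nat_lit 4112182177) (nat_lit 117) (nat_lit 5) (nat_lit 123) (nat_lit 5) (nat_lit 118) (nat_lit 5) (nat_lit 464) (nat_lit 356) (nat_lit 320)) (XT.lf (nat_lit 0) (nat_lit 379603845) (nat_lit 304) (nat_lit 3309669665) (nat_lit 380) (nat_lit 7113166417) (nat_lit 113) (nat_lit 5) (nat_lit 117) (nat_lit 5) (nat_lit 118) (nat_lit 5) (nat_lit 465) (nat_lit 356) (nat_lit 319)))) (XT.nd (nat_lit 156) (nat_lit 380) (nat_lit 0) (XT.nd (nat_lit 78) (nat_lit 380) (nat_lit 0) (XT.lf (nat_lit 0) (nat_lit 7099034788) (nat_lit 380) (nat_lit 3796740484) (nat_lit 76) (nat_lit 32502823) (nat_lit 113) (nat_lit 5) (nat_lit 118) (nat_lit 5) (nat_lit 114) (nat_lit 5) (nat_lit 466) (nat_lit 356) (nat_lit 318)) (XT.lf (nat_lit 0) (nat_lit 2913161092) (nat_lit 380) (nat_lit 7662189314) (nat_lit 456) (nat_lit 481335474)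 (nat_lit 108) (nat_lit 5) (nat_lit 113) (nat_lit 5) (nat_lit 114) (nat_lit 5) (nat_lit 467) (nat_lit 356) (nat_lit 317))) (XT.nd (nat_lit 78) (nat_lit 304) (nat_lit 0) (XT.lf (nat_lit 0) (nat_lit 2878345800) (nat_lit 456) (nat_lit 1462799632) (nat_lit 76) (nat_lit 6846488938) (nat_lit 107) (nat_lit 5) (nat_lit 113) (nat_lit 5) (nat_lit 108) (nat_lit 5) (nat_lit 468) (nat_lit 356) (nat_lit 316)) (XT.lf (nat_lit 0) (nat_lit 5354699105) (nat_lit 304) (nat_lit 937321550) (nat_lit 380) (nat_lit 5029271523) (nat_lit 103) (nat_lit 5) (nat_lit 107) (nat_lit 5) (nat_lit 108) (nat_lit 5) (nat_lit 469) (nat_lit 356) (nat_lit 315))))) (XT.nd (nat_lit 234) (nat_lit 608) (nat_lit 0) (XT.nd (nat_lit 78) (nat_lit 380) (nat_lit 0) (XT.lf (nat_lit 0) (nat_lit 800773918) (nat_lit 304) (nat_lit 8963461539) (nat_lit 380) (nat_lit 1693600865) (nat_lit 99) (nat_lit 5) (nat_lit 103) (nat_lit 5) (nat_lit 104) (nat_lit 5) (nat_lit 470)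 (nat_lit 356) (nat_lit 314)) (XT.nd (nat_lit 78) (nat_lit 304) (nat_lit 0) (XT.lf (nat_lit 0) (nat_lit 1691720542) (nat_lit 380) (nat_lit 3893810300) (nat_lit 76) (nat_lit 6011269442) (nat_lit 98) (nat_lit 5) (nat_lit 103) (nat_lit 5) (nat_lit 99) (nat_lit 5) (nat_lit 471) (nat_lit 356) (nat_lit 313)) (XT.lf (nat_lit 0) (nat_lit 2969396309) (nat_lit 304) (nat_lit 2131619134) (nat_lit 380) (nat_lit 6637742744) (nat_lit 94) (nat_lit 5) (nat_lit 98) (nat_lit 5) (nat_lit 99) (nat_lit 5) (nat_lit 472) (nat_lit 356) (nat_lit 312)))) (XT.nd (nat_lit 156) (nat_lit 228) (nat_lit 0) (XT.nd (nat_lit 78) (nat_lit 380) (nat_lit 0) (XT.lf (nat_lit 0) (nat_lit 8573714022) (nat_lit 380) (nat_lit 1932884255) (nat_lit 76) (nat_lit 1377069718) (nat_lit 94) (nat_lit 5) (nat_lit 99) (nat_lit 5) (nat_lit 95) (nat_lit 5) (nat_lit 473) (nat_lit 356) (nat_lit 311)) (XT.lf (nat_lit 0) (nat_lit 90760267) (nat_lit 380) (nat_lit 7001816244)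 (nat_lit 76) (nat_lit 4938755435) (nat_lit 89) (nat_lit 5) (nat_lit 94) (nat_lit 5) (nat_lit 90) (nat_lit 5) (nat_lit 474) (nat_lit 356) (nat_lit 310))) (XT.nd (nat_lit 78) (nat_lit 228) (nat_lit 0) (XT.lf (nat_lit 0) (nat_lit 3489031398) (nat_lit 380) (nat_lit 108513238) (nat_lit 76) (nat_lit 8584505821) (nat_lit 89) (nat_lit 5) (nat_lit 94) (nat_lit 5) (nat_lit 90) (nat_lit 5) (nat_lit 475) (nat_lit 356) (nat_lit 309)) (XT.lf (nat_lit 0) (nat_lit 6952881605) (nat_lit 228) (nat_lit 9063270) (nat_lit 304) (nat_lit 5373720723) (nat_lit 86) (nat_lit 5) (nat_lit 89) (nat_lit 5) (nat_lit 90) (nat_lit 5) (nat_lit 476) (nat_lit 356) (nat_lit 308))))))))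
noncomputable def xc49 : XT := (XT.nd (nat_lit 2184) (nat_lit 1596) (nat_lit 0) (XT.nd (nat_lit 1092) (nat_lit 1368) (nat_lit 0) (XT.nd (nat_lit 546) (nat_lit 1064) (nat_lit 0) (XT.nd (nat_lit 234) (nat_lit 608) (nat_lit 0) (XT.nd (nat_lit 78) (nat_lit 304) (nat_lit 0) (XT.lf (nat_lit 0) (nat_lit 1600726626) (nat_lit 304) (nat_lit 8900171339) (nat_lit 380) (nat_lit 1991538940) (nat_lit 82) (nat_lit 5) (nat_lit 86) (nat_lit 5) (nat_lit 87) (nat_lit 5) (nat_lit 477) (nat_lit 356) (nat_lit 307)) (XT.nd (nat_lit 78) (nat_lit 228) (nat_lit 0) (XT.lf (nat_lit 0) (nat_lit 1437420136) (nat_lit 380) (nat_lit 3925828768) (nat_lit 76) (nat_lit 7288955071) (nat_lit 81) (nat_lit 5) (nat_lit 86) (nat_lit 5) (nat_lit 82) (nat_lit 5) (nat_lit 478) (nat_lit 356) (nat_lit 306)) (XT.lf (nat_lit 0) (nat_lit 3147348961) (nat_lit 228) (nat_lit 1743989388) (nat_lit 304) (nat_lit 7923918418) (nat_lit 78) (nat_lit 5) (nat_lit 81) (nat_lit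 5) (nat_lit 82) (nat_lit 5) (nat_lit 479) (nat_lit 356) (nat_lit 305)))) (XT.nd (nat_lit 156) (nat_lit 304) (nat_lit 0) (XT.nd (nat_lit 78) (nat_lit 304) (nat_lit 0) (XT.lf (nat_lit 0) (nat_lit 8416285131) (nat_lit 304) (nat_lit 2638981379) (nat_lit 76) (nat_lit 1926279411) (nat_lit 78) (nat_lit 5) (nat_lit 82) (nat_lit 5) (nat_lit 79) (nat_lit 5) (nat_lit 480) (nat_lit 356) (nat_lit 304)) (XT.lf (nat_lit 0) (nat_lit 4519102027) (nat_lit 304) (nat_lit 7497035004) (nat_lit 380) (nat_lit 1134949732) (nat_lit 74) (nat_lit 5) (nat_lit 78) (nat_lit 5) (nat_lit 79) (nat_lit 5) (nat_lit 481) (nat_lit 356) (nat_lit 303))) (XT.nd (nat_lit 78) (nat_lit 228) (nat_lit 0) (XT.lf (nat_lit 0) (nat_lit 2314386442) (nat_lit 380) (nat_lit 1542259746) (nat_lit 76) (nat_lit 9467450293) (nat_lit 73) (nat_lit 5) (nat_lit 78) (nat_lit 5) (nat_lit 74) (nat_lit 5) (nat_lit 482) (nat_lit 356) (nat_lit 302)) (XT.lf (nat_lit 0) (nat_lit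 5698391728) (nat_lit 228) (nat_lit 120442897) (nat_lit 304) (nat_lit 7681568503) (nat_lit 70) (nat_lit 5) (nat_lit 73) (nat_lit 5) (nat_lit 74) (nat_lit 5) (nat_lit 483) (nat_lit 356) (nat_lit 301))))) (XT.nd (nat_lit 234) (nat_lit 532) (nat_lit 0) (XT.nd (nat_lit 78) (nat_lit 532) (nat_lit 0) (XT.lf (nat_lit 0) (nat_lit 9392241164) (nat_lit 304) (nat_lit 657576839) (nat_lit 76) (nat_lit 3630453479) (nat_lit 70) (nat_lit 5) (nat_lit 74) (nat_lit 5) (nat_lit 71) (nat_lit 5) (nat_lit 484) (nat_lit 356) (nat_lit 300)) (XT.nd (nat_lit 78) (nat_lit 304) (nat_lit 0) (XT.lf (nat_lit 0) (nat_lit 6659147168) (nat_lit 228) (nat_lit 6387188571) (nat_lit 304) (nat_lit 817229769) (nat_lit 67) (nat_lit 5) (nat_lit 70) (nat_lit 5) (nat_lit 71) (nat_lit 5) (nat_lit 485) (nat_lit 356) (nat_lit 299)) (XT.lf (nat_lit 0) (nat_lit 5814206) (nat_lit 228) (nat_lit 2651199768) (nat_lit 304) (nat_lit 11393775275) (nat_lit 63) (nat_lit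 5) (nat_lit 66) (nat_lit 5) (nat_lit 67) (nat_lit 5) (nat_lit 486) (nat_lit 356) (nat_lit 298)))) (XT.nd (nat_lit 156) (nat_lit 304) (nat_lit 0) (XT.nd (nat_lit 78) (nat_lit 228) (nat_lit 0) (XT.lf (nat_lit 0) (nat_lit 6211430383) (nat_lit 304) (nat_lit 6853555806) (nat_lit 76) (nat_lit 1176242600) (nat_lit 63) (nat_lit 5) (nat_lit 67) (nat_lit 5) (nat_lit 64) (nat_lit 5) (nat_lit 487) (nat_lit 356) (nat_lit 297)) (XT.lf (nat_lit 0) (nat_lit 413266167) (nat_lit 228) (nat_lit 9410014039) (nat_lit 304) (nat_lit 4612481749) (nat_lit 60) (nat_lit 5) (nat_lit 63) (nat_lit 5) (nat_lit 64) (nat_lit 5) (nat_lit 488) (nat_lit 356) (nat_lit 296))) (XT.nd (nat_lit 78) (nat_lit 304) (nat_lit 0) (XT.lf (nat_lit 0) (nat_lit 7862408556) (nat_lit 228) (nat_lit 5657355280) (nat_lit 304) (nat_lit 1114185524) (nat_lit 60) (nat_lit 5) (nat_lit 63) (nat_lit 5) (nat_lit 64) (nat_lit 5) (nat_lit 489) (nat_lit 356) (nat_lit 295)) (XT.lf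 (nat_lit 0) (nat_lit 560578725) (nat_lit 228) (nat_lit 1831787193) (nat_lit 304) (nat_lit 12444017486) (nat_lit 56) (nat_lit 5) (nat_lit 59) (nat_lit 5) (nat_lit 60) (nat_lit 5) (nat_lit 490) (nat_lit 356) (nat_lit 294)))))) (XT.nd (nat_lit 546) (nat_lit 684) (nat_lit 0) (XT.nd (nat_lit 234) (nat_lit 456) (nat_lit 0) (XT.nd (nat_lit 78) (nat_lit 228) (nat_lit 0) (XT.lf (nat_lit 0) (nat_lit 5980312627) (nat_lit 304) (nat_lit 6987382697) (nat_lit 76) (nat_lit 2074510691) (nat_lit 56) (nat_lit 5) (nat_lit 60) (nat_lit 5) (nat_lit 57) (nat_lit 5) (nat_lit 491) (nat_lit 356) (nat_lit 293)) (XT.nd (nat_lit 78) (nat_lit 0) (nat_lit 0) (XT.lf (nat_lit 0) (nat_lit 385383321) (nat_lit 228) (nat_lit 9236901476) (nat_lit 304) (nat_lit 5630225582) (nat_lit 53) (nat_lit 5) (nat_lit 56) (nat_lit 5) (nat_lit 57) (nat_lit 5) (nat_lit 492) (nat_lit 356) (nat_lit 292)) (XT.lf (nat_lit 0) (nat_lit 7946330289) (nat_lit 228) (nat_lit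 5405572563) (nat_lit 304) (nat_lit 2114832275) (nat_lit 53) (nat_lit 5) (nat_lit 56) (nat_lit 5) (nat_lit 57) (nat_lit 5) (nat_lit 493) (nat_lit 356) (nat_lit 291)))) (XT.nd (nat_lit 156) (nat_lit 228) (nat_lit 0) (XT.nd (nat_lit 78) (nat_lit 152) (nat_lit 0) (XT.lf (nat_lit 0) (nat_lit 1419906296) (nat_lit 304) (nat_lit 89660501) (nat_lit 76) (nat_lit 14176130031) (nat_lit 52) (nat_lit 5) (nat_lit 56) (nat_lit 5) (nat_lit 53) (nat_lit 5) (nat_lit 494) (nat_lit 356) (nat_lit 290)) (XT.lf (nat_lit 0) (nat_lit 5031114006) (nat_lit 228) (nat_lit 8402660268) (nat_lit 76) (nat_lit 2474311892) (nat_lit 50) (nat_lit 5) (nat_lit 53) (nat_lit 5) (nat_lit 51) (nat_lit 5) (nat_lit 495) (nat_lit 356) (nat_lit 289))) (XT.nd (nat_lit 78) (nat_lit 228) (nat_lit 0) (XT.lf (nat_lit 0) (nat_lit 8694231588) (nat_lit 228) (nat_lit 943742563) (nat_lit 76) (nat_lit 6497365054) (nat_lit 50) (nat_lit 5) (nat_lit 53) (nat_lit 5) (nat_lit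 51) (nat_lit 5) (nat_lit 496) (nat_lit 356) (nat_lit 288)) (XT.lf (nat_lit 0) (nat_lit 6700804786) (nat_lit 228) (nat_lit 5743001956) (nat_lit 304) (nat_lit 3923076100) (nat_lit 47) (nat_lit 5) (nat_lit 50) (nat_lit 5) (nat_lit 51) (nat_lit 5) (nat_lit 497) (nat_lit 356) (nat_lit 287))))) (XT.nd (nat_lit 234) (nat_lit 456) (nat_lit 0) (XT.nd (nat_lit 78) (nat_lit 228) (nat_lit 0) (XT.lf (nat_lit 0) (nat_lit 14459943154) (nat_lit 228) (nat_lit 1784715009) (nat_lit 304) (nat_lit 358882750) (nat_lit 47) (nat_lit 5) (nat_lit 50) (nat_lit 5) (nat_lit 51) (nat_lit 5) (nat_lit 498) (nat_lit 356) (nat_lit 286)) (XT.nd (nat_lit 78) (nat_lit 0) (nat_lit 0) (XT.lf (nat_lit 0) (nat_lit 3254732945) (nat_lit 228) (nat_lit 11329167832) (nat_lit 76) (nat_lit 2260192556) (nat_lit 44) (nat_lit 5) (nat_lit 47) (nat_lit 5) (nat_lit 45) (nat_lit 5) (nat_lit 499) (nat_lit 356) (nat_lit 285)) (XT.lf (nat_lit 0) (nat_lit 6932577325)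 (nat_lit 228) (nat_lit 3798407934) (nat_lit 76) (nat_lit 6358497583) (nat_lit 44) (nat_lit 5) (nat_lit 47) (nat_lit 5) (nat_lit 45) (nat_lit 5) (nat_lit 500) (nat_lit 356) (nat_lit 284)))) (XT.nd (nat_lit 156) (nat_lit 228) (nat_lit 0) (XT.nd (nat_lit 78) (nat_lit 0) (nat_lit 0) (XT.lf (nat_lit 0) (nat_lit 3884278990) (nat_lit 228) (nat_lit 6795956252) (nat_lit 304) (nat_lit 6659628318) (nat_lit 41) (nat_lit 5) (nat_lit 44) (nat_lit 5) (nat_lit 45) (nat_lit 5) (nat_lit 501) (nat_lit 356) (nat_lit 283)) (XT.lf (nat_lit 0) (nat_lit 11722803406) (nat_lit 228) (nat_lit 2776817340) (nat_lit 304) (nat_lit 3095704041) (nat_lit 41) (nat_lit 5) (nat_lit 44) (nat_lit 5) (nat_lit 45) (nat_lit 5) (nat_lit 502) (nat_lit 356) (nat_lit 282))) (XT.nd (nat_lit 78) (nat_lit 0) (nat_lit 0) (XT.lf (nat_lit 0) (nat_lit 524542081) (nat_lit 228) (nat_lit 16030688386) (nat_lit 76) (nat_lit 1300760393) (nat_lit 38) (nat_lit 5) (nat_lit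 41) (nat_lit 5) (nat_lit 39) (nat_lit 5) (nat_lit 503) (nat_lit 356) (nat_lit 281)) (XT.lf (nat_lit 0) (nat_lit 4205601974) (nat_lit 228) (nat_lit 8452387913) (nat_lit 76) (nat_lit 5462881810) (nat_lit 38) (nat_lit 5) (nat_lit 41) (nat_lit 5) (nat_lit 39) (nat_lit 5) (nat_lit 504) (nat_lit 356) (nat_lit 280))))))) (XT.nd (nat_lit 1092) (nat_lit 608) (nat_lit 0) (XT.nd (nat_lit 546) (nat_lit 456) (nat_lit 0) (XT.nd (nat_lit 234) (nat_lit 380) (nat_lit 0) (XT.nd (nat_lit 78) (nat_lit 152) (nat_lit 0) (XT.lf (nat_lit 0) (nat_lit 7932600095) (nat_lit 228) (nat_lit 770404122) (nat_lit 76) (nat_lit 9688607338) (nat_lit 38) (nat_lit 5) (nat_lit 41) (nat_lit 5) (nat_lit 39) (nat_lit 5) (nat_lit 505) (nat_lit 356) (nat_lit 279)) (XT.nd (nat_lit 78) (nat_lit 0) (nat_lit 0) (XT.lf (nat_lit 0) (nat_lit 7111544718) (nat_lit 152) (nat_lit 4641626158) (nat_lit 228) (nat_lit 6914222272) (nat_lit 36) (nat_lit 5) (nat_lit 38)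 (nat_lit 5) (nat_lit 39) (nat_lit 5) (nat_lit 506) (nat_lit 356) (nat_lit 278)) (XT.lf (nat_lit 0) (nat_lit 15114940593) (nat_lit 152) (nat_lit 513471507) (nat_lit 228) (nat_lit 3320720538) (nat_lit 36) (nat_lit 5) (nat_lit 38) (nat_lit 5) (nat_lit 39) (nat_lit 5) (nat_lit 507) (nat_lit 356) (nat_lit 277)))) (XT.nd (nat_lit 156) (nat_lit 152) (nat_lit 0) (XT.nd (nat_lit 78) (nat_lit 0) (nat_lit 0) (XT.lf (nat_lit 0) (nat_lit 363906642) (nat_lit 228) (nat_lit 15213890658) (nat_lit 76) (nat_lit 3658196506) (nat_lit 33) (nat_lit 5) (nat_lit 36) (nat_lit 5) (nat_lit 34) (nat_lit 5) (nat_lit 508) (nat_lit 356) (nat_lit 276)) (XT.lf (nat_lit 0) (nat_lit 4080636214) (nat_lit 228) (nat_lit 7512327514) (nat_lit 76) (nat_lit 7935139000) (nat_lit 33) (nat_lit 5) (nat_lit 36) (nat_lit 5) (nat_lit 34) (nat_lit 5) (nat_lit 509) (nat_lit 356) (nat_lit 275))) (XT.nd (nat_lit 78) (nat_lit 0) (nat_lit 0) (XT.lf (nat_lit 0) (nat_lit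 301947338) (nat_lit 152) (nat_lit 7545764872) (nat_lit 228) (nat_lit 11978828259) (nat_lit 31) (nat_lit 5) (nat_lit 33) (nat_lit 5) (nat_lit 34) (nat_lit 5) (nat_lit 510) (nat_lit 356) (nat_lit 274)) (XT.lf (nat_lit 0) (nat_lit 8329357511) (nat_lit 152) (nat_lit 3385452022) (nat_lit 228) (nat_lit 8415650578) (nat_lit 31) (nat_lit 5) (nat_lit 33) (nat_lit 5) (nat_lit 34) (nat_lit 5) (nat_lit 511) (nat_lit 356) (nat_lit 273))))) (XT.nd (nat_lit 234) (nat_lit 228) (nat_lit 0) (XT.nd (nat_lit 78) (nat_lit 228) (nat_lit 0) (XT.lf (nat_lit 0) (nat_lit 15639470093) (nat_lit 228) (nat_lit 3973201783) (nat_lit 76) (nat_lit 828188453) (nat_lit 31) (nat_lit 5) (nat_lit 34) (nat_lit 5) (nat_lit 32) (nat_lit 4) (nat_lit 512) (nat_lit 356) (nat_lit 272)) (XT.nd (nat_lit 78) (nat_lit 76) (nat_lit 0) (XT.lf (nat_lit 0) (nat_lit 3997650683) (nat_lit 152) (nat_lit 15668495998) (nat_lit 228) (nat_lit 1090857897) (nat_lit 29) (nat_lit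 5) (nat_lit 31) (nat_lit 5) (nat_lit 32) (nat_lit 4) (nat_lit 513) (nat_lit 356) (nat_lit 271)) (XT.lf (nat_lit 0) (nat_lit 2660576847) (nat_lit 228) (nat_lit 8958492670) (nat_lit 76) (nat_lit 9460018161) (nat_lit 28) (nat_lit 5) (nat_lit 31) (nat_lit 5) (nat_lit 29) (nat_lit 5) (nat_lit 514) (nat_lit 356) (nat_lit 270)))) (XT.nd (nat_lit 156) (nat_lit 76) (nat_lit 0) (XT.nd (nat_lit 78) (nat_lit 152) (nat_lit 0) (XT.lf (nat_lit 0) (nat_lit 6448117648) (nat_lit 228) (nat_lit 1051647404) (nat_lit 76) (nat_lit 13908195606) (nat_lit 28) (nat_lit 5) (nat_lit 31) (nat_lit 5) (nat_lit 29) (nat_lit 5) (nat_lit 515) (nat_lit 356) (nat_lit 269)) (XT.lf (nat_lit 0) (nat_lit 7064010972) (nat_lit 152) (nat_lit 3269409883) (nat_lit 228) (nat_lit 11409555996) (nat_lit 26) (nat_lit 5) (nat_lit 28) (nat_lit 5) (nat_lit 29) (nat_lit 5) (nat_lit 516) (nat_lit 356) (nat_lit 268))) (XT.nd (nat_lit 78) (nat_lit 76) (nat_lit 0) (XT.lf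 (nat_lit 0) (nat_lit 14286549621) (nat_lit 228) (nat_lit 6777204832) (nat_lit 76) (nat_lit 1021142396) (nat_lit 26) (nat_lit 5) (nat_lit 29) (nat_lit 5) (nat_lit 27) (nat_lit 4) (nat_lit 517) (nat_lit 356) (nat_lit 267)) (XT.lf (nat_lit 0) (nat_lit 1235918298) (nat_lit 76) (nat_lit 17089192149) (nat_lit 152) (nat_lit 4108423164) (nat_lit 25) (nat_lit 5) (nat_lit 26) (nat_lit 5) (nat_lit 27) (nat_lit 4) (nat_lit 518) (nat_lit 356) (nat_lit 266)))))) (XT.nd (nat_lit 546) (nat_lit 304) (nat_lit 0) (XT.nd (nat_lit 234) (nat_lit 76) (nat_lit 0) (XT.nd (nat_lit 78) (nat_lit 228) (nat_lit 0) (XT.lf (nat_lit 0) (nat_lit 9460211233) (nat_lit 76) (nat_lit 13006594290) (nat_lit 152) (nat_lit 321895968) (nat_lit 25) (nat_lit 5) (nat_lit 26) (nat_lit 5) (nat_lit 27) (nat_lit 4) (nat_lit 519) (nat_lit 356) (nat_lit 265)) (XT.nd (nat_lit 78) (nat_lit 152) (nat_lit 0) (XT.lf (nat_lit 0) (nat_lit 3471111417) (nat_lit 152) (nat_lit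 5365434065) (nat_lit 76) (nat_lit 14314429297) (nat_lit 24) (nat_lit 5) (nat_lit 26) (nat_lit 5) (nat_lit 25) (nat_lit 5) (nat_lit 520) (nat_lit 356) (nat_lit 264)) (XT.lf (nat_lit 0) (nat_lit 2751161916) (nat_lit 152) (nat_lit 4580002780) (nat_lit 228) (nat_lit 16189381680) (nat_lit 22) (nat_lit 5) (nat_lit 24) (nat_lit 5) (nat_lit 25) (nat_lit 5) (nat_lit 521) (nat_lit 356) (nat_lit 263)))) (XT.nd (nat_lit 156) (nat_lit 76) (nat_lit 0) (XT.nd (nat_lit 78) (nat_lit 0) (nat_lit 0) (XT.lf (nat_lit 0) (nat_lit 11063409130) (nat_lit 152) (nat_lit 218827091) (nat_lit 228) (nat_lit 12615002054) (nat_lit 22) (nat_lit 5) (nat_lit 24) (nat_lit 5) (nat_lit 25) (nat_lit 5) (nat_lit 522) (nat_lit 356) (nat_lit 262)) (XT.lf (nat_lit 0) (nat_lit 15317928082) (nat_lit 228) (nat_lit 4805992247) (nat_lit 76) (nat_lit 4157436814) (nat_lit 22) (nat_lit 5) (nat_lit 25) (nat_lit 5) (nat_lit 23) (nat_lit 4) (nat_lit 523) (nat_lit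 356) (nat_lit 261))) (XT.nd (nat_lit 78) (nat_lit 0) (nat_lit 0) (XT.lf (nat_lit 0) (nat_lit 3387171311) (nat_lit 76) (nat_lit 16049169805) (nat_lit 152) (nat_lit 5236782136) (nat_lit 21) (nat_lit 5) (nat_lit 22) (nat_lit 5) (nat_lit 23) (nat_lit 4) (nat_lit 524) (nat_lit 356) (nat_lit 260)) (XT.lf (nat_lit 0) (nat_lit 11771391724) (nat_lit 76) (nat_lit 11876721665) (nat_lit 152) (nat_lit 1424396385) (nat_lit 21) (nat_lit 5) (nat_lit 22) (nat_lit 5) (nat_lit 23) (nat_lit 4) (nat_lit 525) (nat_lit 356) (nat_lit 259))))) (XT.nd (nat_lit 234) (nat_lit 76) (nat_lit 0) (XT.nd (nat_lit 78) (nat_lit 152) (nat_lit 0) (XT.lf (nat_lit 0) (nat_lit 2410932482) (nat_lit 152) (nat_lit 5210079286) (nat_lit 76) (nat_lit 17858976705) (nat_lit 20) (nat_lit 5) (nat_lit 22) (nat_lit 5) (nat_lit 21) (nat_lit 5) (nat_lit 526) (nat_lit 356) (nat_lit 258)) (XT.nd (nat_lit 78) (nat_lit 0) (nat_lit 0) (XT.lf (nat_lit 0) (nat_lit 3036413070)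 (nat_lit 152) (nat_lit 3266640223) (nat_lit 228) (nat_lit 19592396614) (nat_lit 18) (nat_lit 5) (nat_lit 20) (nat_lit 5) (nat_lit 21) (nat_lit 5) (nat_lit 527) (nat_lit 356) (nat_lit 257)) (XT.lf (nat_lit 0) (nat_lit 10295325687) (nat_lit 228) (nat_lit 14844744784) (nat_lit 76) (nat_lit 1178708453) (nat_lit 18) (nat_lit 5) (nat_lit 21) (nat_lit 5) (nat_lit 19) (nat_lit 4) (nat_lit 528) (nat_lit 356) (nat_lit 256)))) (XT.nd (nat_lit 51324) (nat_lit 0) (nat_lit 21888) (XT.nd (nat_lit 78) (nat_lit 76) (nat_lit 0) (XT.lf (nat_lit 0) (nat_lit 14368966663) (nat_lit 228) (nat_lit 6727901728) (nat_lit 76) (nat_lit 5653680115) (nat_lit 18) (nat_lit 5) (nat_lit 21) (nat_lit 5) (nat_lit 19) (nat_lit 4) (nat_lit 529) (nat_lit 356) (nat_lit 255)) (XT.lf (nat_lit 0) (nat_lit 1536029908) (nat_lit 76) (nat_lit 16978307551) (nat_lit 152) (nat_lit 8676815244) (nat_lit 17) (nat_lit 5) (nat_lit 18) (nat_lit 5) (nat_lit 19) (nat_lit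 4) (nat_lit 530) (nat_lit 356) (nat_lit 254))) (XT.nd (nat_lit 78) (nat_lit 836) (nat_lit 0) (XT.lf (nat_lit 0) (nat_lit 2350521373) (nat_lit 836) (nat_lit 709991078) (nat_lit 836) (nat_lit 709991078) (nat_lit 316) (nat_lit 4) (nat_lit 327) (nat_lit 5) (nat_lit 327) (nat_lit 4) (nat_lit 426) (nat_lit 357) (nat_lit 357)) (XT.lf (nat_lit 0) (nat_lit 1946929209) (nat_lit 836) (nat_lit 5109082506) (nat_lit 0) (nat_lit 535375049) (nat_lit 305) (nat_lit 5) (nat_lit 316) (nat_lit 4) (nat_lit 305) (nat_lit 4) (nat_lit 427) (nat_lit 357) (nat_lit 356))))))))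
noncomputable def xc50 : XT := (XT.nd (nat_lit 2184) (nat_lit 6080) (nat_lit 0) (XT.nd (nat_lit 1092) (nat_lit 4788) (nat_lit 0) (XT.nd (nat_lit 546) (nat_lit 3192) (nat_lit 0) (XT.nd (nat_lit 234) (nat_lit 2280) (nat_lit 0) (XT.nd (nat_lit 78) (nat_lit 760) (nat_lit 0) (XT.lf (nat_lit 0) (nat_lit 219413699) (nat_lit 760) (nat_lit 5109660678) (nat_lit 760) (nat_lit 2314229890) (nat_lit 295) (nat_lit 4) (nat_lit 305) (nat_lit 5) (nat_lit 305) (nat_lit 4) (nat_lit 428) (nat_lit 357) (nat_lit 355)) (XT.nd (nat_lit 78) (nat_lit 684) (nat_lit 0) (XT.lf (nat_lit 0) (nat_lit 1040102893) (nat_lit 836) (nat_lit 2051164733) (nat_lit 76) (nat_lit 4605471862) (nat_lit 294) (nat_lit 5) (nat_lit 305) (nat_lit 5) (nat_lit 295) (nat_lit 4) (nat_lit 429) (nat_lit 357) (nat_lit 354)) (XT.lf (nat_lit 0) (nat_lit 3387460799) (nat_lit 684) (nat_lit 1003515631) (nat_lit 760) (nat_lit 3360805084) (nat_lit 285) (nat_lit 5) (nat_lit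 294) (nat_lit 5) (nat_lit 295) (nat_lit 4) (nat_lit 430) (nat_lit 357) (nat_lit 353)))) (XT.nd (nat_lit 156) (nat_lit 1444) (nat_lit 0) (XT.nd (nat_lit 78) (nat_lit 76) (nat_lit 0) (XT.lf (nat_lit 0) (nat_lit 1090515550) (nat_lit 760) (nat_lit 6685708455) (nat_lit 760) (nat_lit 32405078) (nat_lit 275) (nat_lit 4) (nat_lit 285) (nat_lit 5) (nat_lit 285) (nat_lit 4) (nat_lit 431) (nat_lit 357) (nat_lit 352)) (XT.lf (nat_lit 0) (nat_lit 3293983798) (nat_lit 836) (nat_lit 1252875802) (nat_lit 76) (nat_lit 3319856759) (nat_lit 274) (nat_lit 5) (nat_lit 285) (nat_lit 5) (nat_lit 275) (nat_lit 4) (nat_lit 432) (nat_lit 357) (nat_lit 351))) (XT.nd (nat_lit 78) (nat_lit 760) (nat_lit 0) (XT.lf (nat_lit 0) (nat_lit 4307569917) (nat_lit 684) (nat_lit 2347447822) (nat_lit 760) (nat_lit 1271621180) (nat_lit 265) (nat_lit 5) (nat_lit 274) (nat_lit 5) (nat_lit 275) (nat_lit 4) (nat_lit 433) (nat_lit 357) (nat_lit 350)) (XT.lf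 (nat_lit 0) (nat_lit 1949779784) (nat_lit 684) (nat_lit 80230274) (nat_lit 760) (nat_lit 5958285099) (nat_lit 255) (nat_lit 5) (nat_lit 264) (nat_lit 5) (nat_lit 265) (nat_lit 5) (nat_lit 434) (nat_lit 357) (nat_lit 349))))) (XT.nd (nat_lit 234) (nat_lit 1900) (nat_lit 0) (XT.nd (nat_lit 78) (nat_lit 1292) (nat_lit 0) (XT.lf (nat_lit 0) (nat_lit 5361087992) (nat_lit 760) (nat_lit 466130859) (nat_lit 76) (nat_lit 2224234767) (nat_lit 255) (nat_lit 5) (nat_lit 265) (nat_lit 5) (nat_lit 256) (nat_lit 4) (nat_lit 435) (nat_lit 357) (nat_lit 348)) (XT.nd (nat_lit 78) (nat_lit 608) (nat_lit 0) (XT.lf (nat_lit 0) (nat_lit 611309862) (nat_lit 684) (nat_lit 2904847395) (nat_lit 76) (nat_lit 4600142159) (nat_lit 246) (nat_lit 5) (nat_lit 255) (nat_lit 5) (nat_lit 247) (nat_lit 5) (nat_lit 436) (nat_lit 357) (nat_lit 347)) (XT.lf (nat_lit 0) (nat_lit 2774718284) (nat_lit 608) (nat_lit 1132360438) (nat_lit 684) (nat_lit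 4275769438) (nat_lit 238) (nat_lit 5) (nat_lit 246) (nat_lit 5) (nat_lit 247) (nat_lit 5) (nat_lit 437) (nat_lit 357) (nat_lit 346)))) (XT.nd (nat_lit 156) (nat_lit 1216) (nat_lit 0) (XT.nd (nat_lit 78) (nat_lit 76) (nat_lit 0) (XT.lf (nat_lit 0) (nat_lit 281053796) (nat_lit 608) (nat_lit 6961055703) (nat_lit 684) (nat_lit 1009193972) (nat_lit 230) (nat_lit 5) (nat_lit 238) (nat_lit 5) (nat_lit 239) (nat_lit 4) (nat_lit 438) (nat_lit 357) (nat_lit 345)) (XT.lf (nat_lit 0) (nat_lit 2279985388) (nat_lit 684) (nat_lit 2257196043) (nat_lit 76) (nat_lit 3783931015) (nat_lit 229) (nat_lit 5) (nat_lit 238) (nat_lit 5) (nat_lit 230) (nat_lit 5) (nat_lit 439) (nat_lit 357) (nat_lit 344))) (XT.nd (nat_lit 78) (nat_lit 608) (nat_lit 0) (XT.lf (nat_lit 0) (nat_lit 3539956801) (nat_lit 608) (nat_lit 2049283013) (nat_lit 684) (nat_lit 2803628350) (nat_lit 221) (nat_lit 5) (nat_lit 229) (nat_lit 5) (nat_lit 230) (nat_lit 5)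 (nat_lit 440) (nat_lit 357) (nat_lit 343)) (XT.lf (nat_lit 0) (nat_lit 461815668) (nat_lit 608) (nat_lit 7513047127) (nat_lit 76) (nat_lit 491775272) (nat_lit 213) (nat_lit 5) (nat_lit 221) (nat_lit 5) (nat_lit 214) (nat_lit 5) (nat_lit 441) (nat_lit 357) (nat_lit 342)))))) (XT.nd (nat_lit 546) (nat_lit 2584) (nat_lit 0) (XT.nd (nat_lit 234) (nat_lit 1064) (nat_lit 0) (XT.nd (nat_lit 78) (nat_lit 1140) (nat_lit 0) (XT.lf (nat_lit 0) (nat_lit 3746979837) (nat_lit 608) (nat_lit 1702357501) (nat_lit 76) (nat_lit 3092374114) (nat_lit 213) (nat_lit 5) (nat_lit 221) (nat_lit 5) (nat_lit 214) (nat_lit 5) (nat_lit 442) (nat_lit 357) (nat_lit 341)) (XT.nd (nat_lit 78) (nat_lit 608) (nat_lit 0) (XT.lf (nat_lit 0) (nat_lit 4210376474) (nat_lit 532) (nat_lit 2861438835) (nat_lit 608) (nat_lit 1547028653) (nat_lit 206) (nat_lit 5) (nat_lit 213) (nat_lit 5) (nat_lit 214) (nat_lit 5) (nat_lit 443) (nat_lit 357) (nat_lit 340))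 (XT.lf (nat_lit 0) (nat_lit 1505683648) (nat_lit 532) (nat_lit 204908515) (nat_lit 608) (nat_lit 6987370864) (nat_lit 198) (nat_lit 5) (nat_lit 205) (nat_lit 5) (nat_lit 206) (nat_lit 5) (nat_lit 444) (nat_lit 357) (nat_lit 339)))) (XT.nd (nat_lit 156) (nat_lit 532) (nat_lit 0) (XT.nd (nat_lit 78) (nat_lit 532) (nat_lit 0) (XT.lf (nat_lit 0) (nat_lit 5006041400) (nat_lit 608) (nat_lit 1277095087) (nat_lit 76) (nat_lit 2495490537) (nat_lit 198) (nat_lit 5) (nat_lit 206) (nat_lit 5) (nat_lit 199) (nat_lit 5) (nat_lit 445) (nat_lit 357) (nat_lit 338)) (XT.lf (nat_lit 0) (nat_lit 4748495239) (nat_lit 532) (nat_lit 3599454312) (nat_lit 608) (nat_lit 513377953) (nat_lit 191) (nat_lit 5) (nat_lit 198) (nat_lit 5) (nat_lit 199) (nat_lit 5) (nat_lit 446) (nat_lit 357) (nat_lit 337))) (XT.nd (nat_lit 78) (nat_lit 0) (nat_lit 0) (XT.lf (nat_lit 0) (nat_lit 1903979707) (nat_lit 456) (nat_lit 839715714) (nat_lit 532) (nat_lit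 6202263453) (nat_lit 184) (nat_lit 5) (nat_lit 190) (nat_lit 5) (nat_lit 191) (nat_lit 5) (nat_lit 447) (nat_lit 357) (nat_lit 336)) (XT.lf (nat_lit 0) (nat_lit 6048656710) (nat_lit 532) (nat_lit 1020821282) (nat_lit 76) (nat_lit 1962976830) (nat_lit 184) (nat_lit 5) (nat_lit 191) (nat_lit 5) (nat_lit 185) (nat_lit 5) (nat_lit 448) (nat_lit 357) (nat_lit 335))))) (XT.nd (nat_lit 234) (nat_lit 1520) (nat_lit 0) (XT.nd (nat_lit 78) (nat_lit 456) (nat_lit 0) (XT.lf (nat_lit 0) (nat_lit 283781596) (nat_lit 608) (nat_lit 4008730928) (nat_lit 76) (nat_lit 4828386969) (nat_lit 176) (nat_lit 5) (nat_lit 184) (nat_lit 5) (nat_lit 177) (nat_lit 5) (nat_lit 449) (nat_lit 357) (nat_lit 334)) (XT.nd (nat_lit 78) (nat_lit 0) (nat_lit 0) (XT.lf (nat_lit 0) (nat_lit 2110106997) (nat_lit 456) (nat_lit 1437475856) (nat_lit 532) (nat_lit 5663749656) (nat_lit 170) (nat_lit 5) (nat_lit 176) (nat_lit 5) (nat_lit 177) (nat_lit 5) (nat_lit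 450) (nat_lit 357) (nat_lit 333)) (XT.lf (nat_lit 0) (nat_lit 6863917002) (nat_lit 532) (nat_lit 976012675) (nat_lit 76) (nat_lit 1463929142) (nat_lit 170) (nat_lit 5) (nat_lit 177) (nat_lit 5) (nat_lit 171) (nat_lit 5) (nat_lit 451) (nat_lit 357) (nat_lit 332)))) (XT.nd (nat_lit 156) (nat_lit 532) (nat_lit 0) (XT.nd (nat_lit 78) (nat_lit 456) (nat_lit 0) (XT.lf (nat_lit 0) (nat_lit 832423005) (nat_lit 532) (nat_lit 4140151363) (nat_lit 76) (nat_lit 4425675607) (nat_lit 163) (nat_lit 5) (nat_lit 170) (nat_lit 5) (nat_lit 164) (nat_lit 5) (nat_lit 452) (nat_lit 357) (nat_lit 331)) (XT.lf (nat_lit 0) (nat_lit 2079029826) (nat_lit 456) (nat_lit 2030396913) (nat_lit 532) (nat_lit 5385370460) (nat_lit 157) (nat_lit 5) (nat_lit 163) (nat_lit 5) (nat_lit 164) (nat_lit 5) (nat_lit 453) (nat_lit 357) (nat_lit 330))) (XT.nd (nat_lit 78) (nat_lit 532) (nat_lit 0) (XT.lf (nat_lit 0) (nat_lit 7438361793) (nat_lit 532) (nat_lit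 1188659236) (nat_lit 76) (nat_lit 966554021) (nat_lit 157) (nat_lit 5) (nat_lit 164) (nat_lit 5) (nat_lit 158) (nat_lit 5) (nat_lit 454) (nat_lit 357) (nat_lit 329)) (XT.lf (nat_lit 0) (nat_lit 1124521485) (nat_lit 532) (nat_lit 4551495786) (nat_lit 76) (nat_lit 4018191255) (nat_lit 150) (nat_lit 5) (nat_lit 157) (nat_lit 5) (nat_lit 151) (nat_lit 5) (nat_lit 455) (nat_lit 357) (nat_lit 328))))))) (XT.nd (nat_lit 1092) (nat_lit 2508) (nat_lit 0) (XT.nd (nat_lit 546) (nat_lit 1520) (nat_lit 0) (XT.nd (nat_lit 234) (nat_lit 1140) (nat_lit 0) (XT.nd (nat_lit 78) (nat_lit 532) (nat_lit 0) (XT.lf (nat_lit 0) (nat_lit 1761870716) (nat_lit 380) (nat_lit 2651834553) (nat_lit 456) (nat_lit 5383436150) (nat_lit 145) (nat_lit 5) (nat_lit 150) (nat_lit 5) (nat_lit 151) (nat_lit 5) (nat_lit 456) (nat_lit 357) (nat_lit 327)) (XT.nd (nat_lit 78) (nat_lit 532) (nat_lit 0) (XT.lf (nat_lit 0) (nat_lit 7755798349) (nat_lit 456)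 (nat_lit 1708752226) (nat_lit 76) (nat_lit 437865294) (nat_lit 145) (nat_lit 5) (nat_lit 151) (nat_lit 5) (nat_lit 146) (nat_lit 5) (nat_lit 457) (nat_lit 357) (nat_lit 326)) (XT.lf (nat_lit 0) (nat_lit 1142488074) (nat_lit 532) (nat_lit 5294707721) (nat_lit 76) (nat_lit 3572420509) (nat_lit 138) (nat_lit 5) (nat_lit 145) (nat_lit 5) (nat_lit 139) (nat_lit 5) (nat_lit 458) (nat_lit 357) (nat_lit 325)))) (XT.nd (nat_lit 156) (nat_lit 760) (nat_lit 0) (XT.nd (nat_lit 78) (nat_lit 0) (nat_lit 0) (XT.lf (nat_lit 0) (nat_lit 1105390161) (nat_lit 380) (nat_lit 3336613090) (nat_lit 456) (nat_lit 5677230246) (nat_lit 133) (nat_lit 5) (nat_lit 138) (nat_lit 5) (nat_lit 139) (nat_lit 5) (nat_lit 459) (nat_lit 357) (nat_lit 324)) (XT.lf (nat_lit 0) (nat_lit 7639408209) (nat_lit 380) (nat_lit 158717276) (nat_lit 456) (nat_lit 2433128689) (nat_lit 133) (nat_lit 5) (nat_lit 138) (nat_lit 5) (nat_lit 139) (nat_lit 5) (nat_lit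 460) (nat_lit 357) (nat_lit 323))) (XT.nd (nat_lit 78) (nat_lit 304) (nat_lit 0) (XT.lf (nat_lit 0) (nat_lit 865684889) (nat_lit 456) (nat_lit 6426489505) (nat_lit 76) (nat_lit 3053223364) (nat_lit 127) (nat_lit 5) (nat_lit 133) (nat_lit 5) (nat_lit 128) (nat_lit 5) (nat_lit 461) (nat_lit 357) (nat_lit 322)) (XT.lf (nat_lit 0) (nat_lit 51419413) (nat_lit 304) (nat_lit 4121365624) (nat_lit 380) (nat_lit 6289241840) (nat_lit 123) (nat_lit 5) (nat_lit 127) (nat_lit 5) (nat_lit 128) (nat_lit 5) (nat_lit 462) (nat_lit 357) (nat_lit 321))))) (XT.nd (nat_lit 234) (nat_lit 1064) (nat_lit 0) (XT.nd (nat_lit 78) (nat_lit 456) (nat_lit 0) (XT.lf (nat_lit 0) (nat_lit 6680920663) (nat_lit 304) (nat_lit 864639165) (nat_lit 380) (nat_lit 3035459786) (nat_lit 123) (nat_lit 5) (nat_lit 127) (nat_lit 5) (nat_lit 128) (nat_lit 5) (nat_lit 463) (nat_lit 357) (nat_lit 320)) (XT.nd (nat_lit 78) (nat_lit 0) (nat_lit 0) (XT.lf (nat_lit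 0) (nat_lit 270177958) (nat_lit 456) (nat_lit 8008903689) (nat_lit 76) (nat_lit 2423484668) (nat_lit 117) (nat_lit 5) (nat_lit 123) (nat_lit 5) (nat_lit 118) (nat_lit 5) (nat_lit 464) (nat_lit 357) (nat_lit 319)) (XT.lf (nat_lit 0) (nat_lit 3590640956) (nat_lit 456) (nat_lit 1444561777) (nat_lit 76) (nat_lit 5791173220) (nat_lit 117) (nat_lit 5) (nat_lit 123) (nat_lit 5) (nat_lit 118) (nat_lit 5) (nat_lit 465) (nat_lit 357) (nat_lit 318)))) (XT.nd (nat_lit 156) (nat_lit 380) (nat_lit 0) (XT.nd (nat_lit 78) (nat_lit 380) (nat_lit 0) (XT.lf (nat_lit 0) (nat_lit 5256570813) (nat_lit 304) (nat_lit 1713158003) (nat_lit 380) (nat_lit 3983108692) (nat_lit 113) (nat_lit 5) (nat_lit 117) (nat_lit 5) (nat_lit 118) (nat_lit 5) (nat_lit 466) (nat_lit 357) (nat_lit 317)) (XT.lf (nat_lit 0) (nat_lit 967693358) (nat_lit 380) (nat_lit 9433982699) (nat_lit 456) (nat_lit 680466329) (nat_lit 108) (nat_lit 5) (nat_lit 113) (nat_lit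 5) (nat_lit 114) (nat_lit 5) (nat_lit 467) (nat_lit 357) (nat_lit 316))) (XT.nd (nat_lit 78) (nat_lit 304) (nat_lit 0) (XT.lf (nat_lit 0) (nat_lit 2661268539) (nat_lit 456) (nat_lit 3464055295) (nat_lit 76) (nat_lit 5088213408) (nat_lit 107) (nat_lit 5) (nat_lit 113) (nat_lit 5) (nat_lit 108) (nat_lit 5) (nat_lit 468) (nat_lit 357) (nat_lit 315)) (XT.lf (nat_lit 0) (nat_lit 3295431550) (nat_lit 304) (nat_lit 2745986770) (nat_lit 380) (nat_lit 5306456394) (nat_lit 103) (nat_lit 5) (nat_lit 107) (nat_lit 5) (nat_lit 108) (nat_lit 5) (nat_lit 469) (nat_lit 357) (nat_lit 314)))))) (XT.nd (nat_lit 546) (nat_lit 1216) (nat_lit 0) (XT.nd (nat_lit 234) (nat_lit 608) (nat_lit 0) (XT.nd (nat_lit 78) (nat_lit 684) (nat_lit 0) (XT.lf (nat_lit 0) (nat_lit 9476660805) (nat_lit 380) (nat_lit 1314973459) (nat_lit 76) (nat_lit 693533025) (nat_lit 103) (nat_lit 5) (nat_lit 108) (nat_lit 5) (nat_lit 104) (nat_lit 5) (nat_lit 470)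 (nat_lit 357) (nat_lit 313)) (XT.nd (nat_lit 78) (nat_lit 304) (nat_lit 0) (XT.lf (nat_lit 0) (nat_lit 1352258262) (nat_lit 380) (nat_lit 6083642433) (nat_lit 76) (nat_lit 4188853818) (nat_lit 98) (nat_lit 5) (nat_lit 103) (nat_lit 5) (nat_lit 99) (nat_lit 5) (nat_lit 471) (nat_lit 357) (nat_lit 312)) (XT.lf (nat_lit 0) (nat_lit 719460444) (nat_lit 304) (nat_lit 4007898103) (nat_lit 380) (nat_lit 7040046227) (nat_lit 94) (nat_lit 5) (nat_lit 98) (nat_lit 5) (nat_lit 99) (nat_lit 5) (nat_lit 472) (nat_lit 357) (nat_lit 311)))) (XT.nd (nat_lit 156) (nat_lit 304) (nat_lit 0) (XT.nd (nat_lit 78) (nat_lit 304) (nat_lit 0) (XT.lf (nat_lit 0) (nat_lit 7679694603) (nat_lit 304) (nat_lit 491903023) (nat_lit 380) (nat_lit 3741294444) (nat_lit 94) (nat_lit 5) (nat_lit 98) (nat_lit 5) (nat_lit 99) (nat_lit 5) (nat_lit 473) (nat_lit 357) (nat_lit 310)) (XT.lf (nat_lit 0) (nat_lit 2671960842) (nat_lit 304) (nat_lit 9011639127)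 (nat_lit 380) (nat_lit 377728010) (nat_lit 90) (nat_lit 5) (nat_lit 94) (nat_lit 5) (nat_lit 95) (nat_lit 5) (nat_lit 474) (nat_lit 357) (nat_lit 309))) (XT.nd (nat_lit 78) (nat_lit 228) (nat_lit 0) (XT.lf (nat_lit 0) (nat_lit 3006454617) (nat_lit 380) (nat_lit 2523791134) (nat_lit 76) (nat_lit 6682238459) (nat_lit 89) (nat_lit 5) (nat_lit 94) (nat_lit 5) (nat_lit 90) (nat_lit 5) (nat_lit 475) (nat_lit 357) (nat_lit 308)) (XT.lf (nat_lit 0) (nat_lit 4475525023) (nat_lit 228) (nat_lit 1969089339) (nat_lit 304) (nat_lit 5922187732) (nat_lit 86) (nat_lit 5) (nat_lit 89) (nat_lit 5) (nat_lit 90) (nat_lit 5) (nat_lit 476) (nat_lit 357) (nat_lit 307))))) (XT.nd (nat_lit 234) (nat_lit 608) (nat_lit 0) (XT.nd (nat_lit 78) (nat_lit 608) (nat_lit 0) (XT.lf (nat_lit 0) (nat_lit 9941884050) (nat_lit 304) (nat_lit 945734163) (nat_lit 76) (nat_lit 1636796374) (nat_lit 86) (nat_lit 5) (nat_lit 90) (nat_lit 5) (nat_lit 87) (nat_lit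 5) (nat_lit 477) (nat_lit 357) (nat_lit 306)) (XT.nd (nat_lit 78) (nat_lit 228) (nat_lit 0) (XT.lf (nat_lit 0) (nat_lit 829395101) (nat_lit 380) (nat_lit 6542839326) (nat_lit 76) (nat_lit 5312526885) (nat_lit 81) (nat_lit 5) (nat_lit 86) (nat_lit 5) (nat_lit 82) (nat_lit 5) (nat_lit 478) (nat_lit 357) (nat_lit 305)) (XT.lf (nat_lit 0) (nat_lit 465997830) (nat_lit 228) (nat_lit 3781748277) (nat_lit 304) (nat_lit 8600786425) (nat_lit 78) (nat_lit 5) (nat_lit 81) (nat_lit 5) (nat_lit 82) (nat_lit 5) (nat_lit 479) (nat_lit 357) (nat_lit 304)))) (XT.nd (nat_lit 156) (nat_lit 304) (nat_lit 0) (XT.nd (nat_lit 78) (nat_lit 304) (nat_lit 0) (XT.lf (nat_lit 0) (nat_lit 7645157525) (nat_lit 228) (nat_lit 96872244) (nat_lit 304) (nat_lit 5273412124) (nat_lit 78) (nat_lit 5) (nat_lit 81) (nat_lit 5) (nat_lit 82) (nat_lit 5) (nat_lit 480) (nat_lit 357) (nat_lit 303)) (XT.lf (nat_lit 0) (nat_lit 1723053775) (nat_lit 304) (nat_lit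 9582337690) (nat_lit 380) (nat_lit 1880327883) (nat_lit 74) (nat_lit 5) (nat_lit 78) (nat_lit 5) (nat_lit 79) (nat_lit 5) (nat_lit 481) (nat_lit 357) (nat_lit 302))) (XT.nd (nat_lit 78) (nat_lit 228) (nat_lit 0) (XT.lf (nat_lit 0) (nat_lit 1561115900) (nat_lit 380) (nat_lit 4396857146) (nat_lit 76) (nat_lit 7401212718) (nat_lit 73) (nat_lit 5) (nat_lit 78) (nat_lit 5) (nat_lit 74) (nat_lit 5) (nat_lit 482) (nat_lit 357) (nat_lit 301)) (XT.lf (nat_lit 0) (nat_lit 2777291363) (nat_lit 228) (nat_lit 2251985272) (nat_lit 304) (nat_lit 8506947940) (nat_lit 70) (nat_lit 5) (nat_lit 73) (nat_lit 5) (nat_lit 74) (nat_lit 5) (nat_lit 483) (nat_lit 357) (nat_lit 300))))))))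
noncomputable def xc51 : XT := (XT.nd (nat_lit 2184) (nat_lit 988) (nat_lit 0) (XT.nd (nat_lit 1092) (nat_lit 1216) (nat_lit 0) (XT.nd (nat_lit 546) (nat_lit 912) (nat_lit 0) (XT.nd (nat_lit 234) (nat_lit 532) (nat_lit 0) (XT.nd (nat_lit 78) (nat_lit 304) (nat_lit 0) (XT.lf (nat_lit 0) (nat_lit 8571609467) (nat_lit 304) (nat_lit 3628945167) (nat_lit 76) (nat_lit 1516166060) (nat_lit 70) (nat_lit 5) (nat_lit 74) (nat_lit 5) (nat_lit 71) (nat_lit 5) (nat_lit 484) (nat_lit 357) (nat_lit 299)) (XT.nd (nat_lit 78) (nat_lit 76) (nat_lit 0) (XT.lf (nat_lit 0) (nat_lit 3620191108) (nat_lit 228) (nat_lit 8568885623) (nat_lit 304) (nat_lit 1711676703) (nat_lit 67) (nat_lit 5) (nat_lit 70) (nat_lit 5) (nat_lit 71) (nat_lit 5) (nat_lit 485) (nat_lit 357) (nat_lit 298)) (XT.lf (nat_lit 0) (nat_lit 1757399312) (nat_lit 304) (nat_lit 3092377524) (nat_lit 76) (nat_lit 9238660383) (nat_lit 66) (nat_lit 5) (nat_lit 70) (nat_lit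 5) (nat_lit 67) (nat_lit 5) (nat_lit 486) (nat_lit 357) (nat_lit 297)))) (XT.nd (nat_lit 156) (nat_lit 304) (nat_lit 0) (XT.nd (nat_lit 78) (nat_lit 0) (nat_lit 0) (XT.lf (nat_lit 0) (nat_lit 4228682312) (nat_lit 228) (nat_lit 1038341004) (nat_lit 304) (nat_lit 9012755103) (nat_lit 63) (nat_lit 5) (nat_lit 66) (nat_lit 5) (nat_lit 67) (nat_lit 5) (nat_lit 487) (nat_lit 357) (nat_lit 296)) (XT.lf (nat_lit 0) (nat_lit 8852997303) (nat_lit 304) (nat_lit 2810271607) (nat_lit 76) (nat_lit 2811565890) (nat_lit 63) (nat_lit 5) (nat_lit 67) (nat_lit 5) (nat_lit 64) (nat_lit 5) (nat_lit 488) (nat_lit 357) (nat_lit 295))) (XT.nd (nat_lit 78) (nat_lit 76) (nat_lit 0) (XT.lf (nat_lit 0) (nat_lit 4574384468) (nat_lit 228) (nat_lit 7940303157) (nat_lit 304) (nat_lit 2159036031) (nat_lit 60) (nat_lit 5) (nat_lit 63) (nat_lit 5) (nat_lit 64) (nat_lit 5) (nat_lit 489) (nat_lit 357) (nat_lit 294)) (XT.lf (nat_lit 0) (nat_lit 1341482921)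 (nat_lit 304) (nat_lit 2794614306) (nat_lit 76) (nat_lit 10740596237) (nat_lit 59) (nat_lit 5) (nat_lit 63) (nat_lit 5) (nat_lit 60) (nat_lit 5) (nat_lit 490) (nat_lit 357) (nat_lit 293))))) (XT.nd (nat_lit 234) (nat_lit 456) (nat_lit 0) (XT.nd (nat_lit 78) (nat_lit 228) (nat_lit 0) (XT.lf (nat_lit 0) (nat_lit 4649762463) (nat_lit 228) (nat_lit 231679789) (nat_lit 304) (nat_lit 10202038833) (nat_lit 56) (nat_lit 5) (nat_lit 59) (nat_lit 5) (nat_lit 60) (nat_lit 5) (nat_lit 491) (nat_lit 357) (nat_lit 292)) (XT.nd (nat_lit 78) (nat_lit 228) (nat_lit 0) (XT.lf (nat_lit 0) (nat_lit 8503699112) (nat_lit 304) (nat_lit 3090880029) (nat_lit 76) (nat_lit 3699605775) (nat_lit 56) (nat_lit 5) (nat_lit 60) (nat_lit 5) (nat_lit 57) (nat_lit 5) (nat_lit 492) (nat_lit 357) (nat_lit 291)) (XT.lf (nat_lit 0) (nat_lit 4402787031) (nat_lit 228) (nat_lit 7794624356) (nat_lit 304) (nat_lit 3311721451) (nat_lit 53) (nat_lit 5) (nat_lit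 56) (nat_lit 5) (nat_lit 57) (nat_lit 5) (nat_lit 493) (nat_lit 357) (nat_lit 290)))) (XT.nd (nat_lit 156) (nat_lit 228) (nat_lit 0) (XT.nd (nat_lit 78) (nat_lit 152) (nat_lit 0) (XT.lf (nat_lit 0) (nat_lit 223342816) (nat_lit 304) (nat_lit 3693729557) (nat_lit 76) (nat_lit 11811489883) (nat_lit 52) (nat_lit 5) (nat_lit 56) (nat_lit 5) (nat_lit 53) (nat_lit 5) (nat_lit 494) (nat_lit 357) (nat_lit 289)) (XT.lf (nat_lit 0) (nat_lit 3779745918) (nat_lit 228) (nat_lit 12108147097) (nat_lit 76) (nat_lit 64159439) (nat_lit 50) (nat_lit 5) (nat_lit 53) (nat_lit 5) (nat_lit 51) (nat_lit 5) (nat_lit 495) (nat_lit 357) (nat_lit 288))) (XT.nd (nat_lit 78) (nat_lit 228) (nat_lit 0) (XT.lf (nat_lit 0) (nat_lit 7427858129) (nat_lit 228) (nat_lit 4674690268) (nat_lit 76) (nat_lit 4077061877) (nat_lit 50) (nat_lit 5) (nat_lit 53) (nat_lit 5) (nat_lit 51) (nat_lit 5) (nat_lit 496) (nat_lit 357) (nat_lit 287)) (XT.lf (nat_lit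 0) (nat_lit 2894981380) (nat_lit 228) (nat_lit 8243030825) (nat_lit 304) (nat_lit 5273934710) (nat_lit 47) (nat_lit 5) (nat_lit 50) (nat_lit 5) (nat_lit 51) (nat_lit 5) (nat_lit 497) (nat_lit 357) (nat_lit 286)))))) (XT.nd (nat_lit 546) (nat_lit 532) (nat_lit 0) (XT.nd (nat_lit 234) (nat_lit 456) (nat_lit 0) (XT.nd (nat_lit 78) (nat_lit 228) (nat_lit 0) (XT.lf (nat_lit 0) (nat_lit 10629322327) (nat_lit 228) (nat_lit 4294957604) (nat_lit 304) (nat_lit 1724621221) (nat_lit 47) (nat_lit 5) (nat_lit 50) (nat_lit 5) (nat_lit 51) (nat_lit 5) (nat_lit 498) (nat_lit 357) (nat_lit 285)) (XT.nd (nat_lit 78) (nat_lit 0) (nat_lit 0) (XT.lf (nat_lit 0) (nat_lit 1586754366) (nat_lit 152) (nat_lit 265282785) (nat_lit 228) (nat_lit 15038695469) (nat_lit 44) (nat_lit 5) (nat_lit 46) (nat_lit 5) (nat_lit 47) (nat_lit 5) (nat_lit 499) (nat_lit 357) (nat_lit 284)) (XT.lf (nat_lit 0) (nat_lit 5513821186) (nat_lit 228) (nat_lit 7796065860)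 (nat_lit 76) (nat_lit 3826560524) (nat_lit 44) (nat_lit 5) (nat_lit 47) (nat_lit 5) (nat_lit 45) (nat_lit 5) (nat_lit 500) (nat_lit 357) (nat_lit 283)))) (XT.nd (nat_lit 156) (nat_lit 228) (nat_lit 0) (XT.nd (nat_lit 78) (nat_lit 228) (nat_lit 0) (XT.lf (nat_lit 0) (nat_lit 9222202971) (nat_lit 228) (nat_lit 188410084) (nat_lit 76) (nat_lit 7977004904) (nat_lit 44) (nat_lit 5) (nat_lit 47) (nat_lit 5) (nat_lit 45) (nat_lit 5) (nat_lit 501) (nat_lit 357) (nat_lit 282)) (XT.lf (nat_lit 0) (nat_lit 7623680802) (nat_lit 228) (nat_lit 5402731572) (nat_lit 304) (nat_lit 4616974403) (nat_lit 41) (nat_lit 5) (nat_lit 44) (nat_lit 5) (nat_lit 45) (nat_lit 5) (nat_lit 502) (nat_lit 357) (nat_lit 281))) (XT.nd (nat_lit 78) (nat_lit 228) (nat_lit 0) (XT.lf (nat_lit 0) (nat_lit 15547177349) (nat_lit 228) (nat_lit 1333193094) (nat_lit 304) (nat_lit 1024435297) (nat_lit 41) (nat_lit 5) (nat_lit 44) (nat_lit 5) (nat_lit 45)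 (nat_lit 5) (nat_lit 503) (nat_lit 357) (nat_lit 280)) (XT.lf (nat_lit 0) (nat_lit 2632086401) (nat_lit 228) (nat_lit 12724069809) (nat_lit 76) (nat_lit 2814426704) (nat_lit 38) (nat_lit 5) (nat_lit 41) (nat_lit 5) (nat_lit 39) (nat_lit 5) (nat_lit 504) (nat_lit 357) (nat_lit 279))))) (XT.nd (nat_lit 234) (nat_lit 380) (nat_lit 0) (XT.nd (nat_lit 78) (nat_lit 152) (nat_lit 0) (XT.lf (nat_lit 0) (nat_lit 6345648796) (nat_lit 228) (nat_lit 5065325530) (nat_lit 76) (nat_lit 7030620919) (nat_lit 38) (nat_lit 5) (nat_lit 41) (nat_lit 5) (nat_lit 39) (nat_lit 5) (nat_lit 505) (nat_lit 357) (nat_lit 278)) (XT.nd (nat_lit 78) (nat_lit 0) (nat_lit 0) (XT.lf (nat_lit 0) (nat_lit 2736459445) (nat_lit 152) (nat_lit 7388181897) (nat_lit 228) (nat_lit 8593570747) (nat_lit 36) (nat_lit 5) (nat_lit 38) (nat_lit 5) (nat_lit 39) (nat_lit 5) (nat_lit 506) (nat_lit 357) (nat_lit 277)) (XT.lf (nat_lit 0) (nat_lit 10717221378) (nat_lit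 152) (nat_lit 3269600233) (nat_lit 228) (nat_lit 5013394799) (nat_lit 36) (nat_lit 5) (nat_lit 38) (nat_lit 5) (nat_lit 39) (nat_lit 5) (nat_lit 507) (nat_lit 357) (nat_lit 276)))) (XT.nd (nat_lit 156) (nat_lit 152) (nat_lit 0) (XT.nd (nat_lit 78) (nat_lit 228) (nat_lit 0) (XT.lf (nat_lit 0) (nat_lit 17906303545) (nat_lit 228) (nat_lit 481534693) (nat_lit 76) (nat_lit 900428574) (nat_lit 36) (nat_lit 5) (nat_lit 39) (nat_lit 5) (nat_lit 37) (nat_lit 4) (nat_lit 508) (nat_lit 357) (nat_lit 275)) (XT.lf (nat_lit 0) (nat_lit 2336856183) (nat_lit 228) (nat_lit 12088123129) (nat_lit 76) (nat_lit 5155899975) (nat_lit 33) (nat_lit 5) (nat_lit 36) (nat_lit 5) (nat_lit 34) (nat_lit 5) (nat_lit 509) (nat_lit 357) (nat_lit 274))) (XT.nd (nat_lit 78) (nat_lit 152) (nat_lit 0) (XT.lf (nat_lit 0) (nat_lit 6089377770) (nat_lit 228) (nat_lit 4299784513) (nat_lit 76) (nat_lit 9490449170) (nat_lit 33) (nat_lit 5) (nat_lit 36)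 (nat_lit 5) (nat_lit 34) (nat_lit 5) (nat_lit 510) (nat_lit 357) (nat_lit 273)) (XT.lf (nat_lit 0) (nat_lit 3648652222) (nat_lit 152) (nat_lit 6267046044) (nat_lit 228) (nat_lit 10268651639) (nat_lit 31) (nat_lit 5) (nat_lit 33) (nat_lit 5) (nat_lit 34) (nat_lit 5) (nat_lit 511) (nat_lit 357) (nat_lit 272))))))) (XT.nd (nat_lit 1092) (nat_lit 228) (nat_lit 0) (XT.nd (nat_lit 546) (nat_lit 380) (nat_lit 0) (XT.nd (nat_lit 234) (nat_lit 152) (nat_lit 0) (XT.nd (nat_lit 78) (nat_lit 228) (nat_lit 0) (XT.lf (nat_lit 0) (nat_lit 11771107344) (nat_lit 152) (nat_lit 2051558979) (nat_lit 228) (nat_lit 6672440858) (nat_lit 31) (nat_lit 5) (nat_lit 33) (nat_lit 5) (nat_lit 34) (nat_lit 5) (nat_lit 512) (nat_lit 357) (nat_lit 271)) (XT.nd (nat_lit 78) (nat_lit 228) (nat_lit 0) (XT.lf (nat_lit 0) (nat_lit 17798005308) (nat_lit 228) (nat_lit 813425932) (nat_lit 76) (nat_lit 2200850086) (nat_lit 31) (nat_lit 5) (nat_lit 34)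 (nat_lit 5) (nat_lit 32) (nat_lit 4) (nat_lit 513) (nat_lit 357) (nat_lit 270)) (XT.lf (nat_lit 0) (nat_lit 744953365) (nat_lit 228) (nat_lit 13844432074) (nat_lit 76) (nat_lit 6545580400) (nat_lit 28) (nat_lit 5) (nat_lit 31) (nat_lit 5) (nat_lit 29) (nat_lit 5) (nat_lit 514) (nat_lit 357) (nat_lit 269)))) (XT.nd (nat_lit 156) (nat_lit 0) (nat_lit 0) (XT.nd (nat_lit 78) (nat_lit 152) (nat_lit 0) (XT.lf (nat_lit 0) (nat_lit 4520685921) (nat_lit 228) (nat_lit 5958363823) (nat_lit 76) (nat_lit 10985028203) (nat_lit 28) (nat_lit 5) (nat_lit 31) (nat_lit 5) (nat_lit 29) (nat_lit 5) (nat_lit 515) (nat_lit 357) (nat_lit 268)) (XT.lf (nat_lit 0) (nat_lit 2071446551) (nat_lit 152) (nat_lit 6290550827) (nat_lit 228) (nat_lit 13437979503) (nat_lit 26) (nat_lit 5) (nat_lit 28) (nat_lit 5) (nat_lit 29) (nat_lit 5) (nat_lit 516) (nat_lit 357) (nat_lit 267))) (XT.nd (nat_lit 78) (nat_lit 0) (nat_lit 0) (XT.lf (nat_lit 0) (nat_lit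 10301744389) (nat_lit 152) (nat_lit 1995182614) (nat_lit 228) (nat_lit 9845336708) (nat_lit 26) (nat_lit 5) (nat_lit 28) (nat_lit 5) (nat_lit 29) (nat_lit 5) (nat_lit 517) (nat_lit 357) (nat_lit 266)) (XT.lf (nat_lit 0) (nat_lit 16303197675) (nat_lit 228) (nat_lit 3850662455) (nat_lit 76) (nat_lit 2337688939) (nat_lit 26) (nat_lit 5) (nat_lit 29) (nat_lit 5) (nat_lit 27) (nat_lit 4) (nat_lit 518) (nat_lit 357) (nat_lit 265))))) (XT.nd (nat_lit 234) (nat_lit 228) (nat_lit 0) (XT.nd (nat_lit 78) (nat_lit 76) (nat_lit 0) (XT.lf (nat_lit 0) (nat_lit 4302577831) (nat_lit 76) (nat_lit 16105762636) (nat_lit 152) (nat_lit 2439110264) (nat_lit 25) (nat_lit 5) (nat_lit 26) (nat_lit 5) (nat_lit 27) (nat_lit 4) (nat_lit 519) (nat_lit 357) (nat_lit 264)) (XT.nd (nat_lit 78) (nat_lit 0) (nat_lit 0) (XT.lf (nat_lit 0) (nat_lit 1370590280) (nat_lit 152) (nat_lit 10587709733) (nat_lit 76) (nat_lit 11251923057) (nat_lit 24) (nat_lit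 5) (nat_lit 26) (nat_lit 5) (nat_lit 25) (nat_lit 5) (nat_lit 520) (nat_lit 357) (nat_lit 263)) (XT.lf (nat_lit 0) (nat_lit 5201923851) (nat_lit 152) (nat_lit 2526450032) (nat_lit 76) (nat_lit 15851997759) (nat_lit 24) (nat_lit 5) (nat_lit 26) (nat_lit 5) (nat_lit 25) (nat_lit 5) (nat_lit 521) (nat_lit 357) (nat_lit 262)))) (XT.nd (nat_lit 156) (nat_lit 76) (nat_lit 0) (XT.nd (nat_lit 78) (nat_lit 0) (nat_lit 0) (XT.lf (nat_lit 0) (nat_lit 5733094365) (nat_lit 152) (nat_lit 3392510989) (nat_lit 228) (nat_lit 14832008517) (nat_lit 22) (nat_lit 5) (nat_lit 24) (nat_lit 5) (nat_lit 25) (nat_lit 5) (nat_lit 522) (nat_lit 357) (nat_lit 261)) (XT.lf (nat_lit 0) (nat_lit 13130080854) (nat_lit 228) (nat_lit 10194989943) (nat_lit 76) (nat_lit 1017288749) (nat_lit 22) (nat_lit 5) (nat_lit 25) (nat_lit 5) (nat_lit 23) (nat_lit 4) (nat_lit 523) (nat_lit 357) (nat_lit 260))) (XT.nd (nat_lit 78) (nat_lit 76) (nat_lit 0) (XT.lf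 (nat_lit 0) (nat_lit 17216099481) (nat_lit 228) (nat_lit 2064791897) (nat_lit 76) (nat_lit 5453884596) (nat_lit 22) (nat_lit 5) (nat_lit 25) (nat_lit 5) (nat_lit 23) (nat_lit 4) (nat_lit 524) (nat_lit 357) (nat_lit 259)) (XT.lf (nat_lit 0) (nat_lit 6273568353) (nat_lit 76) (nat_lit 15130400975) (nat_lit 152) (nat_lit 3730673600) (nat_lit 21) (nat_lit 5) (nat_lit 22) (nat_lit 5) (nat_lit 23) (nat_lit 4) (nat_lit 525) (nat_lit 357) (nat_lit 258)))))) (XT.nd (nat_lit 51558) (nat_lit 0) (nat_lit 18772) (XT.nd (nat_lit 234) (nat_lit 0) (nat_lit 0) (XT.nd (nat_lit 78) (nat_lit 152) (nat_lit 0) (XT.lf (nat_lit 0) (nat_lit 124717258) (nat_lit 152) (nat_lit 10773258562) (nat_lit 76) (nat_lit 14644651279) (nat_lit 20) (nat_lit 5) (nat_lit 22) (nat_lit 5) (nat_lit 21) (nat_lit 5) (nat_lit 526) (nat_lit 357) (nat_lit 257)) (XT.nd (nat_lit 78) (nat_lit 152) (nat_lit 0) (XT.lf (nat_lit 0) (nat_lit 3987138124) (nat_lit 152)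 (nat_lit 2584429146) (nat_lit 76) (nat_lit 19387117510) (nat_lit 20) (nat_lit 5) (nat_lit 22) (nat_lit 5) (nat_lit 21) (nat_lit 5) (nat_lit 527) (nat_lit 357) (nat_lit 256)) (XT.lf (nat_lit 0) (nat_lit 5809033506) (nat_lit 152) (nat_lit 2135714718) (nat_lit 228) (nat_lit 18437961020) (nat_lit 18) (nat_lit 5) (nat_lit 20) (nat_lit 5) (nat_lit 21) (nat_lit 5) (nat_lit 528) (nat_lit 357) (nat_lit 255)))) (XT.nd (nat_lit 51168) (nat_lit 0) (nat_lit 23484) (XT.nd (nat_lit 78) (nat_lit 0) (nat_lit 0) (XT.lf (nat_lit 0) (nat_lit 11994762366) (nat_lit 228) (nat_lit 12460487785) (nat_lit 76) (nat_lit 2359703373) (nat_lit 18) (nat_lit 5) (nat_lit 21) (nat_lit 5) (nat_lit 19) (nat_lit 4) (nat_lit 529) (nat_lit 357) (nat_lit 254)) (XT.lf (nat_lit 0) (nat_lit 16120591257) (nat_lit 228) (nat_lit 4233879474) (nat_lit 76) (nat_lit 6901479943) (nat_lit 18) (nat_lit 5) (nat_lit 21) (nat_lit 5) (nat_lit 19) (nat_lit 4) (nat_lit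 530) (nat_lit 357) (nat_lit 253))) (XT.nd (nat_lit 78) (nat_lit 0) (nat_lit 0) (XT.lf (nat_lit 0) (nat_lit 412786021) (nat_lit 912) (nat_lit 2896630508) (nat_lit 0) (nat_lit 412786021) (nat_lit 327) (nat_lit 5) (nat_lit 339) (nat_lit 4) (nat_lit 327) (nat_lit 4) (nat_lit 424) (nat_lit 358) (nat_lit 358)) (XT.lf (nat_lit 0) (nat_lit 4174726376) (nat_lit 912) (nat_lit 611329001) (nat_lit 0) (nat_lit 2706145428) (nat_lit 327) (nat_lit 5) (nat_lit 339) (nat_lit 4) (nat_lit 327) (nat_lit 4) (nat_lit 425) (nat_lit 358) (nat_lit 357))))) (XT.nd (nat_lit 312) (nat_lit 2204) (nat_lit 0) (XT.nd (nat_lit 156) (nat_lit 836) (nat_lit 0) (XT.nd (nat_lit 78) (nat_lit 760) (nat_lit 0) (XT.lf (nat_lit 0) (nat_lit 16343164) (nat_lit 912) (nat_lit 2875352999) (nat_lit 76) (nat_lit 4649965284) (nat_lit 315) (nat_lit 5) (nat_lit 327) (nat_lit 5) (nat_lit 316) (nat_lit 4) (nat_lit 426) (nat_lit 358) (nat_lit 356)) (XT.lf (nat_lit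 0) (nat_lit 2405853532) (nat_lit 760) (nat_lit 923737498) (nat_lit 836) (nat_lit 4262994311) (nat_lit 305) (nat_lit 5) (nat_lit 315) (nat_lit 5) (nat_lit 316) (nat_lit 4) (nat_lit 427) (nat_lit 358) (nat_lit 355))) (XT.nd (nat_lit 78) (nat_lit 76) (nat_lit 0) (XT.lf (nat_lit 0) (nat_lit 111571879) (nat_lit 760) (nat_lit 6562831339) (nat_lit 760) (nat_lit 970873517) (nat_lit 295) (nat_lit 4) (nat_lit 305) (nat_lit 5) (nat_lit 305) (nat_lit 4) (nat_lit 428) (nat_lit 358) (nat_lit 354)) (XT.lf (nat_lit 0) (nat_lit 2335355275) (nat_lit 836) (nat_lit 2204679176) (nat_lit 76) (nat_lit 3159138954) (nat_lit 294) (nat_lit 5) (nat_lit 305) (nat_lit 5) (nat_lit 295) (nat_lit 4) (nat_lit 429) (nat_lit 358) (nat_lit 353)))) (XT.nd (nat_lit 156) (nat_lit 684) (nat_lit 0) (XT.nd (nat_lit 78) (nat_lit 836) (nat_lit 0) (XT.lf (nat_lit 0) (nat_lit 3197158155) (nat_lit 684) (nat_lit 2457947212) (nat_lit 760) (nat_lit 2099758194)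 (nat_lit 285) (nat_lit 5) (nat_lit 294) (nat_lit 5) (nat_lit 295) (nat_lit 4) (nat_lit 430) (nat_lit 358) (nat_lit 352)) (XT.lf (nat_lit 0) (nat_lit 859068110) (nat_lit 760) (nat_lit 314777206) (nat_lit 836) (nat_lit 6638504590) (nat_lit 274) (nat_lit 5) (nat_lit 284) (nat_lit 5) (nat_lit 285) (nat_lit 5) (nat_lit 431) (nat_lit 358) (nat_lit 351))) (XT.nd (nat_lit 78) (nat_lit 684) (nat_lit 0) (XT.lf (nat_lit 0) (nat_lit 4468351187) (nat_lit 836) (nat_lit 1521050677) (nat_lit 76) (nat_lit 1881684451) (nat_lit 274) (nat_lit 5) (nat_lit 285) (nat_lit 5) (nat_lit 275) (nat_lit 4) (nat_lit 432) (nat_lit 358) (nat_lit 350)) (XT.lf (nat_lit 0) (nat_lit 4001220391) (nat_lit 684) (nat_lit 3797338198) (nat_lit 760) (nat_lit 133090523) (nat_lit 265) (nat_lit 5) (nat_lit 274) (nat_lit 5) (nat_lit 275) (nat_lit 4) (nat_lit 433) (nat_lit 358) (nat_lit 349))))))))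
noncomputable def xc52 : XT := (XT.nd (nat_lit 2184) (nat_lit 5092) (nat_lit 0) (XT.nd (nat_lit 1092) (nat_lit 4332) (nat_lit 0) (XT.nd (nat_lit 546) (nat_lit 2812) (nat_lit 0) (XT.nd (nat_lit 234) (nat_lit 1900) (nat_lit 0) (XT.nd (nat_lit 78) (nat_lit 684) (nat_lit 0) (XT.lf (nat_lit 0) (nat_lit 1591999258) (nat_lit 684) (nat_lit 1530582462) (nat_lit 760) (nat_lit 4871219114) (nat_lit 255) (nat_lit 5) (nat_lit 264) (nat_lit 5) (nat_lit 265) (nat_lit 5) (nat_lit 434) (nat_lit 358) (nat_lit 348)) (XT.nd (nat_lit 78) (nat_lit 684) (nat_lit 0) (XT.lf (nat_lit 0) (nat_lit 6415843032) (nat_lit 760) (nat_lit 854663145) (nat_lit 76) (nat_lit 787231791) (nat_lit 255) (nat_lit 5) (nat_lit 265) (nat_lit 5) (nat_lit 256) (nat_lit 4) (nat_lit 435) (nat_lit 358) (nat_lit 347)) (XT.lf (nat_lit 0) (nat_lit 1615182437) (nat_lit 684) (nat_lit 3346500891) (nat_lit 76) (nat_lit 3161402708) (nat_lit 246) (nat_lit 5) (nat_lit 255)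 (nat_lit 5) (nat_lit 247) (nat_lit 5) (nat_lit 436) (nat_lit 358) (nat_lit 346)))) (XT.nd (nat_lit 156) (nat_lit 1292) (nat_lit 0) (XT.nd (nat_lit 78) (nat_lit 0) (nat_lit 0) (XT.lf (nat_lit 0) (nat_lit 2292592694) (nat_lit 608) (nat_lit 2587508547) (nat_lit 684) (nat_lit 3310171590) (nat_lit 238) (nat_lit 5) (nat_lit 246) (nat_lit 5) (nat_lit 247) (nat_lit 5) (nat_lit 437) (nat_lit 358) (nat_lit 345)) (XT.lf (nat_lit 0) (nat_lit 8021303834) (nat_lit 608) (nat_lit 156130420) (nat_lit 684) (nat_lit 82068483) (nat_lit 238) (nat_lit 5) (nat_lit 246) (nat_lit 5) (nat_lit 247) (nat_lit 5) (nat_lit 438) (nat_lit 358) (nat_lit 344))) (XT.nd (nat_lit 78) (nat_lit 608) (nat_lit 0) (XT.lf (nat_lit 0) (nat_lit 3165037611) (nat_lit 684) (nat_lit 2827447068) (nat_lit 76) (nat_lit 2337324756) (nat_lit 229) (nat_lit 5) (nat_lit 238) (nat_lit 5) (nat_lit 230) (nat_lit 5) (nat_lit 439) (nat_lit 358) (nat_lit 343)) (XT.lf (nat_lit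 0) (nat_lit 2927748371) (nat_lit 608) (nat_lit 3515781871) (nat_lit 684) (nat_lit 1958669595) (nat_lit 221) (nat_lit 5) (nat_lit 229) (nat_lit 5) (nat_lit 230) (nat_lit 5) (nat_lit 440) (nat_lit 358) (nat_lit 342))))) (XT.nd (nat_lit 234) (nat_lit 1672) (nat_lit 0) (XT.nd (nat_lit 78) (nat_lit 532) (nat_lit 0) (XT.lf (nat_lit 0) (nat_lit 287000991) (nat_lit 532) (nat_lit 974432195) (nat_lit 608) (nat_lit 7215130716) (nat_lit 213) (nat_lit 5) (nat_lit 220) (nat_lit 5) (nat_lit 221) (nat_lit 5) (nat_lit 441) (nat_lit 358) (nat_lit 341)) (XT.nd (nat_lit 78) (nat_lit 532) (nat_lit 0) (XT.lf (nat_lit 0) (nat_lit 4513850628) (nat_lit 608) (nat_lit 2406897757) (nat_lit 76) (nat_lit 1631562162) (nat_lit 213) (nat_lit 5) (nat_lit 221) (nat_lit 5) (nat_lit 214) (nat_lit 5) (nat_lit 442) (nat_lit 358) (nat_lit 340)) (XT.lf (nat_lit 0) (nat_lit 3462348110) (nat_lit 532) (nat_lit 4345579267) (nat_lit 608) (nat_lit 822148822)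 (nat_lit 206) (nat_lit 5) (nat_lit 213) (nat_lit 5) (nat_lit 214) (nat_lit 5) (nat_lit 443) (nat_lit 358) (nat_lit 339)))) (XT.nd (nat_lit 156) (nat_lit 1064) (nat_lit 0) (XT.nd (nat_lit 78) (nat_lit 0) (nat_lit 0) (XT.lf (nat_lit 0) (nat_lit 697298394) (nat_lit 532) (nat_lit 1697619739) (nat_lit 608) (nat_lit 6314821210) (nat_lit 198) (nat_lit 5) (nat_lit 205) (nat_lit 5) (nat_lit 206) (nat_lit 5) (nat_lit 444) (nat_lit 358) (nat_lit 338)) (XT.lf (nat_lit 0) (nat_lit 5655112600) (nat_lit 608) (nat_lit 2121633309) (nat_lit 76) (nat_lit 1014379459) (nat_lit 198) (nat_lit 5) (nat_lit 206) (nat_lit 5) (nat_lit 199) (nat_lit 5) (nat_lit 445) (nat_lit 358) (nat_lit 337))) (XT.nd (nat_lit 78) (nat_lit 456) (nat_lit 0) (XT.lf (nat_lit 0) (nat_lit 90520799) (nat_lit 608) (nat_lit 5016165373) (nat_lit 76) (nat_lit 3767761118) (nat_lit 190) (nat_lit 5) (nat_lit 198) (nat_lit 5) (nat_lit 191) (nat_lit 5) (nat_lit 446) (nat_lit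 358) (nat_lit 336)) (XT.lf (nat_lit 0) (nat_lit 951290400) (nat_lit 456) (nat_lit 2358419150) (nat_lit 532) (nat_lit 5649941433) (nat_lit 184) (nat_lit 5) (nat_lit 190) (nat_lit 5) (nat_lit 191) (nat_lit 5) (nat_lit 447) (nat_lit 358) (nat_lit 335)))))) (XT.nd (nat_lit 546) (nat_lit 2280) (nat_lit 0) (XT.nd (nat_lit 234) (nat_lit 988) (nat_lit 0) (XT.nd (nat_lit 78) (nat_lit 1064) (nat_lit 0) (XT.lf (nat_lit 0) (nat_lit 6580061662) (nat_lit 532) (nat_lit 2011103568) (nat_lit 76) (nat_lit 455689526) (nat_lit 184) (nat_lit 5) (nat_lit 191) (nat_lit 5) (nat_lit 185) (nat_lit 5) (nat_lit 448) (nat_lit 358) (nat_lit 334)) (XT.nd (nat_lit 78) (nat_lit 456) (nat_lit 0) (XT.lf (nat_lit 0) (nat_lit 762789341) (nat_lit 608) (nat_lit 5063899291) (nat_lit 76) (nat_lit 3309183027) (nat_lit 176) (nat_lit 5) (nat_lit 184) (nat_lit 5) (nat_lit 177) (nat_lit 5) (nat_lit 449) (nat_lit 358) (nat_lit 333)) (XT.lf (nat_lit 0) (nat_lit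 1007256989) (nat_lit 456) (nat_lit 2987998176) (nat_lit 532) (nat_lit 5231690957) (nat_lit 170) (nat_lit 5) (nat_lit 176) (nat_lit 5) (nat_lit 177) (nat_lit 5) (nat_lit 450) (nat_lit 358) (nat_lit 332)))) (XT.nd (nat_lit 156) (nat_lit 456) (nat_lit 0) (XT.nd (nat_lit 78) (nat_lit 532) (nat_lit 0) (XT.lf (nat_lit 0) (nat_lit 7201820842) (nat_lit 456) (nat_lit 76222131) (nat_lit 532) (nat_lit 2042114838) (nat_lit 170) (nat_lit 5) (nat_lit 176) (nat_lit 5) (nat_lit 177) (nat_lit 5) (nat_lit 451) (nat_lit 358) (nat_lit 331)) (XT.lf (nat_lit 0) (nat_lit 1193081635) (nat_lit 532) (nat_lit 5349688386) (nat_lit 76) (nat_lit 2872380191) (nat_lit 163) (nat_lit 5) (nat_lit 170) (nat_lit 5) (nat_lit 164) (nat_lit 5) (nat_lit 452) (nat_lit 358) (nat_lit 330))) (XT.nd (nat_lit 78) (nat_lit 0) (nat_lit 0) (XT.lf (nat_lit 0) (nat_lit 820095138) (nat_lit 456) (nat_lit 3618394009) (nat_lit 532) (nat_lit 5073853831) (nat_lit 157)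 (nat_lit 5) (nat_lit 163) (nat_lit 5) (nat_lit 164) (nat_lit 5) (nat_lit 453) (nat_lit 358) (nat_lit 329)) (XT.lf (nat_lit 0) (nat_lit 7119797060) (nat_lit 456) (nat_lit 618092995) (nat_lit 532) (nat_lit 1873834806) (nat_lit 157) (nat_lit 5) (nat_lit 163) (nat_lit 5) (nat_lit 164) (nat_lit 5) (nat_lit 454) (nat_lit 358) (nat_lit 328))))) (XT.nd (nat_lit 234) (nat_lit 1368) (nat_lit 0) (XT.nd (nat_lit 78) (nat_lit 380) (nat_lit 0) (XT.lf (nat_lit 0) (nat_lit 1366405763) (nat_lit 532) (nat_lit 5921350748) (nat_lit 76) (nat_lit 2425294197) (nat_lit 150) (nat_lit 5) (nat_lit 157) (nat_lit 5) (nat_lit 151) (nat_lit 5) (nat_lit 455) (nat_lit 358) (nat_lit 327)) (XT.nd (nat_lit 78) (nat_lit 0) (nat_lit 0) (XT.lf (nat_lit 0) (nat_lit 340841142) (nat_lit 380) (nat_lit 4282816397) (nat_lit 456) (nat_lit 5192977282) (nat_lit 145) (nat_lit 5) (nat_lit 150) (nat_lit 5) (nat_lit 151) (nat_lit 5) (nat_lit 456) (nat_lit 358)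 (nat_lit 326)) (XT.lf (nat_lit 0) (nat_lit 6743248884) (nat_lit 380) (nat_lit 1197150645) (nat_lit 456) (nat_lit 1982029097) (nat_lit 145) (nat_lit 5) (nat_lit 150) (nat_lit 5) (nat_lit 151) (nat_lit 5) (nat_lit 457) (nat_lit 358) (nat_lit 325)))) (XT.nd (nat_lit 156) (nat_lit 836) (nat_lit 0) (XT.nd (nat_lit 78) (nat_lit 0) (nat_lit 0) (XT.lf (nat_lit 0) (nat_lit 1264944056) (nat_lit 532) (nat_lit 6830930902) (nat_lit 76) (nat_lit 1934544061) (nat_lit 138) (nat_lit 5) (nat_lit 145) (nat_lit 5) (nat_lit 139) (nat_lit 5) (nat_lit 458) (nat_lit 358) (nat_lit 324)) (XT.lf (nat_lit 0) (nat_lit 4535259554) (nat_lit 532) (nat_lit 477503318) (nat_lit 76) (nat_lit 5127868954) (nat_lit 138) (nat_lit 5) (nat_lit 145) (nat_lit 5) (nat_lit 139) (nat_lit 5) (nat_lit 459) (nat_lit 358) (nat_lit 323))) (XT.nd (nat_lit 78) (nat_lit 456) (nat_lit 0) (XT.lf (nat_lit 0) (nat_lit 6018207715) (nat_lit 380) (nat_lit 1848234155) (nat_lit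 456) (nat_lit 2386720827) (nat_lit 133) (nat_lit 5) (nat_lit 138) (nat_lit 5) (nat_lit 139) (nat_lit 5) (nat_lit 460) (nat_lit 358) (nat_lit 322)) (XT.lf (nat_lit 0) (nat_lit 867834433) (nat_lit 456) (nat_lit 8135250042) (nat_lit 76) (nat_lit 1365099723) (nat_lit 127) (nat_lit 5) (nat_lit 133) (nat_lit 5) (nat_lit 128) (nat_lit 5) (nat_lit 461) (nat_lit 358) (nat_lit 321))))))) (XT.nd (nat_lit 1092) (nat_lit 2204) (nat_lit 0) (XT.nd (nat_lit 546) (nat_lit 1368) (nat_lit 0) (XT.nd (nat_lit 234) (nat_lit 760) (nat_lit 0) (XT.nd (nat_lit 78) (nat_lit 760) (nat_lit 0) (XT.lf (nat_lit 0) (nat_lit 4153229469) (nat_lit 456) (nat_lit 1689810096) (nat_lit 76) (nat_lit 4642218593) (nat_lit 127) (nat_lit 5) (nat_lit 133) (nat_lit 5) (nat_lit 128) (nat_lit 5) (nat_lit 462) (nat_lit 358) (nat_lit 320)) (XT.nd (nat_lit 78) (nat_lit 456) (nat_lit 0) (XT.lf (nat_lit 0) (nat_lit 4885649045) (nat_lit 304) (nat_lit 2608080749)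 (nat_lit 380) (nat_lit 3111177116) (nat_lit 123) (nat_lit 5) (nat_lit 127) (nat_lit 5) (nat_lit 128) (nat_lit 5) (nat_lit 463) (nat_lit 358) (nat_lit 319)) (XT.lf (nat_lit 0) (nat_lit 150922420) (nat_lit 456) (nat_lit 9896507041) (nat_lit 76) (nat_lit 679934723) (nat_lit 117) (nat_lit 5) (nat_lit 123) (nat_lit 5) (nat_lit 118) (nat_lit 5) (nat_lit 464) (nat_lit 358) (nat_lit 318)))) (XT.nd (nat_lit 156) (nat_lit 456) (nat_lit 0) (XT.nd (nat_lit 78) (nat_lit 304) (nat_lit 0) (XT.lf (nat_lit 0) (nat_lit 3450636140) (nat_lit 456) (nat_lit 3363569600) (nat_lit 76) (nat_lit 4037392988) (nat_lit 117) (nat_lit 5) (nat_lit 123) (nat_lit 5) (nat_lit 118) (nat_lit 5) (nat_lit 465) (nat_lit 358) (nat_lit 317)) (XT.lf (nat_lit 0) (nat_lit 3280862523) (nat_lit 304) (nat_lit 3515691438) (nat_lit 380) (nat_lit 4182179447) (nat_lit 113) (nat_lit 5) (nat_lit 117) (nat_lit 5) (nat_lit 118) (nat_lit 5) (nat_lit 466) (nat_lit 358)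 (nat_lit 316))) (XT.nd (nat_lit 78) (nat_lit 456) (nat_lit 0) (XT.lf (nat_lit 0) (nat_lit 10041993358) (nat_lit 304) (nat_lit 149280971) (nat_lit 380) (nat_lit 917518028) (nat_lit 113) (nat_lit 5) (nat_lit 117) (nat_lit 5) (nat_lit 118) (nat_lit 5) (nat_lit 467) (nat_lit 358) (nat_lit 315)) (XT.lf (nat_lit 0) (nat_lit 2399136747) (nat_lit 456) (nat_lit 5567964611) (nat_lit 76) (nat_lit 3273689582) (nat_lit 107) (nat_lit 5) (nat_lit 113) (nat_lit 5) (nat_lit 108) (nat_lit 5) (nat_lit 468) (nat_lit 358) (nat_lit 314))))) (XT.nd (nat_lit 234) (nat_lit 684) (nat_lit 0) (XT.nd (nat_lit 78) (nat_lit 380) (nat_lit 0) (XT.lf (nat_lit 0) (nat_lit 1132762133) (nat_lit 304) (nat_lit 4612723162) (nat_lit 380) (nat_lit 5630328127) (nat_lit 103) (nat_lit 5) (nat_lit 107) (nat_lit 5) (nat_lit 108) (nat_lit 5) (nat_lit 469) (nat_lit 358) (nat_lit 313)) (XT.nd (nat_lit 78) (nat_lit 380) (nat_lit 0) (XT.lf (nat_lit 0) (nat_lit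 7981982059) (nat_lit 304) (nat_lit 1174614646) (nat_lit 380) (nat_lit 2357000721) (nat_lit 103) (nat_lit 5) (nat_lit 107) (nat_lit 5) (nat_lit 108) (nat_lit 5) (nat_lit 470) (nat_lit 358) (nat_lit 312)) (XT.lf (nat_lit 0) (nat_lit 966441924) (nat_lit 380) (nat_lit 8379073956) (nat_lit 76) (nat_lit 2308560341) (nat_lit 98) (nat_lit 5) (nat_lit 103) (nat_lit 5) (nat_lit 99) (nat_lit 5) (nat_lit 471) (nat_lit 358) (nat_lit 311)))) (XT.nd (nat_lit 156) (nat_lit 380) (nat_lit 0) (XT.nd (nat_lit 78) (nat_lit 304) (nat_lit 0) (XT.lf (nat_lit 0) (nat_lit 4317668505) (nat_lit 380) (nat_lit 1615402441) (nat_lit 76) (nat_lit 5864141311) (nat_lit 98) (nat_lit 5) (nat_lit 103) (nat_lit 5) (nat_lit 99) (nat_lit 5) (nat_lit 472) (nat_lit 358) (nat_lit 310)) (XT.lf (nat_lit 0) (nat_lit 5293565699) (nat_lit 304) (nat_lit 2438694797) (nat_lit 380) (nat_lit 4211040136) (nat_lit 94) (nat_lit 5) (nat_lit 98) (nat_lit 5) (nat_lit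 99) (nat_lit 5) (nat_lit 473) (nat_lit 358) (nat_lit 309))) (XT.nd (nat_lit 78) (nat_lit 76) (nat_lit 0) (XT.lf (nat_lit 0) (nat_lit 206198128) (nat_lit 304) (nat_lit 10990700359) (nat_lit 380) (nat_lit 895793318) (nat_lit 90) (nat_lit 5) (nat_lit 94) (nat_lit 5) (nat_lit 95) (nat_lit 5) (nat_lit 474) (nat_lit 358) (nat_lit 308)) (XT.lf (nat_lit 0) (nat_lit 2476514738) (nat_lit 380) (nat_lit 5047141760) (nat_lit 76) (nat_lit 4720639861) (nat_lit 89) (nat_lit 5) (nat_lit 94) (nat_lit 5) (nat_lit 90) (nat_lit 5) (nat_lit 475) (nat_lit 358) (nat_lit 307)))))) (XT.nd (nat_lit 546) (nat_lit 988) (nat_lit 0) (XT.nd (nat_lit 234) (nat_lit 608) (nat_lit 0) (XT.nd (nat_lit 78) (nat_lit 380) (nat_lit 0) (XT.lf (nat_lit 0) (nat_lit 1889247342) (nat_lit 228) (nat_lit 3990332281) (nat_lit 304) (nat_lit 6519744035) (nat_lit 86) (nat_lit 5) (nat_lit 89) (nat_lit 5) (nat_lit 90) (nat_lit 5) (nat_lit 476) (nat_lit 358) (nat_lit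 306)) (XT.nd (nat_lit 78) (nat_lit 380) (nat_lit 0) (XT.lf (nat_lit 0) (nat_lit 8974569790) (nat_lit 228) (nat_lit 373379878) (nat_lit 304) (nat_lit 3209571844) (nat_lit 86) (nat_lit 5) (nat_lit 89) (nat_lit 5) (nat_lit 90) (nat_lit 5) (nat_lit 477) (nat_lit 358) (nat_lit 305)) (XT.lf (nat_lit 0) (nat_lit 172530210) (nat_lit 380) (nat_lit 9271121919) (nat_lit 76) (nat_lit 3275065564) (nat_lit 81) (nat_lit 5) (nat_lit 86) (nat_lit 5) (nat_lit 82) (nat_lit 5) (nat_lit 478) (nat_lit 358) (nat_lit 304)))) (XT.nd (nat_lit 156) (nat_lit 380) (nat_lit 0) (XT.nd (nat_lit 78) (nat_lit 228) (nat_lit 0) (XT.lf (nat_lit 0) (nat_lit 3570053594) (nat_lit 380) (nat_lit 2296998535) (nat_lit 76) (nat_lit 7015860282) (nat_lit 81) (nat_lit 5) (nat_lit 86) (nat_lit 5) (nat_lit 82) (nat_lit 5) (nat_lit 479) (nat_lit 358) (nat_lit 303)) (XT.lf (nat_lit 0) (nat_lit 4823221302) (nat_lit 228) (nat_lit 2208366643) (nat_lit 304) (nat_lit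 6018895622) (nat_lit 78) (nat_lit 5) (nat_lit 81) (nat_lit 5) (nat_lit 82) (nat_lit 5) (nat_lit 480) (nat_lit 358) (nat_lit 302))) (XT.nd (nat_lit 78) (nat_lit 380) (nat_lit 0) (XT.lf (nat_lit 0) (nat_lit 10552692969) (nat_lit 304) (nat_lit 1170953790) (nat_lit 76) (nat_lit 1497966070) (nat_lit 78) (nat_lit 5) (nat_lit 82) (nat_lit 5) (nat_lit 79) (nat_lit 5) (nat_lit 481) (nat_lit 358) (nat_lit 301)) (XT.lf (nat_lit 0) (nat_lit 757790061) (nat_lit 380) (nat_lit 7365494754) (nat_lit 76) (nat_lit 5272404776) (nat_lit 73) (nat_lit 5) (nat_lit 78) (nat_lit 5) (nat_lit 74) (nat_lit 5) (nat_lit 482) (nat_lit 358) (nat_lit 300))))) (XT.nd (nat_lit 234) (nat_lit 532) (nat_lit 0) (XT.nd (nat_lit 78) (nat_lit 456) (nat_lit 0) (XT.lf (nat_lit 0) (nat_lit 4190936696) (nat_lit 380) (nat_lit 255410339) (nat_lit 76) (nat_lit 9127087940) (nat_lit 73) (nat_lit 5) (nat_lit 78) (nat_lit 5) (nat_lit 74) (nat_lit 5) (nat_lit 483)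 (nat_lit 358) (nat_lit 299)) (XT.nd (nat_lit 78) (nat_lit 228) (nat_lit 0) (XT.lf (nat_lit 0) (nat_lit 7034396246) (nat_lit 228) (nat_lit 670390797) (nat_lit 304) (nat_lit 6049719865) (nat_lit 70) (nat_lit 5) (nat_lit 73) (nat_lit 5) (nat_lit 74) (nat_lit 5) (nat_lit 484) (nat_lit 358) (nat_lit 298)) (XT.lf (nat_lit 0) (nat_lit 464807281) (nat_lit 228) (nat_lit 10816042470) (nat_lit 304) (nat_lit 2658524036) (nat_lit 67) (nat_lit 5) (nat_lit 70) (nat_lit 5) (nat_lit 71) (nat_lit 5) (nat_lit 485) (nat_lit 358) (nat_lit 297)))) (XT.nd (nat_lit 156) (nat_lit 228) (nat_lit 0) (XT.nd (nat_lit 78) (nat_lit 228) (nat_lit 0) (XT.lf (nat_lit 0) (nat_lit 806439846) (nat_lit 304) (nat_lit 6307468293) (nat_lit 76) (nat_lit 7013608799) (nat_lit 66) (nat_lit 5) (nat_lit 70) (nat_lit 5) (nat_lit 67) (nat_lit 5) (nat_lit 486) (nat_lit 358) (nat_lit 296)) (XT.lf (nat_lit 0) (nat_lit 943809700) (nat_lit 228) (nat_lit 3334720492)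 (nat_lit 304) (nat_lit 10041084315) (nat_lit 63) (nat_lit 5) (nat_lit 66) (nat_lit 5) (nat_lit 67) (nat_lit 5) (nat_lit 487) (nat_lit 358) (nat_lit 295))) (XT.nd (nat_lit 78) (nat_lit 228) (nat_lit 0) (XT.lf (nat_lit 0) (nat_lit 7833466089) (nat_lit 304) (nat_lit 6146854035) (nat_lit 76) (nat_lit 534977113) (nat_lit 63) (nat_lit 5) (nat_lit 67) (nat_lit 5) (nat_lit 64) (nat_lit 5) (nat_lit 488) (nat_lit 358) (nat_lit 294)) (XT.lf (nat_lit 0) (nat_lit 1166853476) (nat_lit 228) (nat_lit 10290366757) (nat_lit 304) (nat_lit 3257730059) (nat_lit 60) (nat_lit 5) (nat_lit 63) (nat_lit 5) (nat_lit 64) (nat_lit 5) (nat_lit 489) (nat_lit 358) (nat_lit 293))))))))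
noncomputable def xc53 : XT := (XT.nd (nat_lit 2184) (nat_lit 608) (nat_lit 0) (XT.nd (nat_lit 1092) (nat_lit 1140) (nat_lit 0) (XT.nd (nat_lit 546) (nat_lit 684) (nat_lit 0) (XT.nd (nat_lit 234) (nat_lit 456) (nat_lit 0) (XT.nd (nat_lit 78) (nat_lit 228) (nat_lit 0) (XT.lf (nat_lit 0) (nat_lit 241417832) (nat_lit 304) (nat_lit 6262538894) (nat_lit 76) (nat_lit 8414426919) (nat_lit 59) (nat_lit 5) (nat_lit 63) (nat_lit 5) (nat_lit 60) (nat_lit 5) (nat_lit 490) (nat_lit 358) (nat_lit 292)) (XT.nd (nat_lit 78) (nat_lit 0) (nat_lit 0) (XT.lf (nat_lit 0) (nat_lit 1109623600) (nat_lit 228) (nat_lit 2633297426) (nat_lit 304) (nat_lit 11383024523) (nat_lit 56) (nat_lit 5) (nat_lit 59) (nat_lit 5) (nat_lit 60) (nat_lit 5) (nat_lit 491) (nat_lit 358) (nat_lit 291)) (XT.lf (nat_lit 0) (nat_lit 7334184082) (nat_lit 304) (nat_lit 6683750533) (nat_lit 76) (nat_lit 1319339701) (nat_lit 56) (nat_lit 5) (nat_lit 60) (nat_lit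 5) (nat_lit 57) (nat_lit 5) (nat_lit 492) (nat_lit 358) (nat_lit 290)))) (XT.nd (nat_lit 156) (nat_lit 228) (nat_lit 0) (XT.nd (nat_lit 78) (nat_lit 0) (nat_lit 0) (XT.lf (nat_lit 0) (nat_lit 736479229) (nat_lit 228) (nat_lit 10252514094) (nat_lit 304) (nat_lit 4564011935) (nat_lit 53) (nat_lit 5) (nat_lit 56) (nat_lit 5) (nat_lit 57) (nat_lit 5) (nat_lit 493) (nat_lit 358) (nat_lit 289)) (XT.lf (nat_lit 0) (nat_lit 8344837431) (nat_lit 228) (nat_lit 6386680675) (nat_lit 304) (nat_lit 1041250149) (nat_lit 53) (nat_lit 5) (nat_lit 56) (nat_lit 5) (nat_lit 57) (nat_lit 5) (nat_lit 494) (nat_lit 358) (nat_lit 288))) (XT.nd (nat_lit 78) (nat_lit 0) (nat_lit 0) (XT.lf (nat_lit 0) (nat_lit 42135183) (nat_lit 152) (nat_lit 2446790623) (nat_lit 228) (nat_lit 13508270195) (nat_lit 50) (nat_lit 5) (nat_lit 52) (nat_lit 5) (nat_lit 53) (nat_lit 5) (nat_lit 495) (nat_lit 358) (nat_lit 287)) (XT.lf (nat_lit 0) (nat_lit 6106440683)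 (nat_lit 228) (nat_lit 8530679445) (nat_lit 76) (nat_lit 1588250224) (nat_lit 50) (nat_lit 5) (nat_lit 53) (nat_lit 5) (nat_lit 51) (nat_lit 5) (nat_lit 496) (nat_lit 358) (nat_lit 286))))) (XT.nd (nat_lit 234) (nat_lit 380) (nat_lit 0) (XT.nd (nat_lit 78) (nat_lit 304) (nat_lit 0) (XT.lf (nat_lit 0) (nat_lit 9783375926) (nat_lit 228) (nat_lit 1023448197) (nat_lit 76) (nat_lit 5651551738) (nat_lit 50) (nat_lit 5) (nat_lit 53) (nat_lit 5) (nat_lit 51) (nat_lit 5) (nat_lit 497) (nat_lit 358) (nat_lit 285)) (XT.nd (nat_lit 78) (nat_lit 76) (nat_lit 0) (XT.lf (nat_lit 0) (nat_lit 6672980464) (nat_lit 228) (nat_lit 6875632235) (nat_lit 304) (nat_lit 3147142422) (nat_lit 47) (nat_lit 5) (nat_lit 50) (nat_lit 5) (nat_lit 51) (nat_lit 5) (nat_lit 498) (nat_lit 358) (nat_lit 284)) (XT.lf (nat_lit 0) (nat_lit 423755825) (nat_lit 304) (nat_lit 2452042398) (nat_lit 76) (nat_lit 14062465653) (nat_lit 46) (nat_lit 5) (nat_lit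 50) (nat_lit 5) (nat_lit 47) (nat_lit 5) (nat_lit 499) (nat_lit 358) (nat_lit 283)))) (XT.nd (nat_lit 156) (nat_lit 228) (nat_lit 0) (XT.nd (nat_lit 78) (nat_lit 0) (nat_lit 0) (XT.lf (nat_lit 0) (nat_lit 4038295154) (nat_lit 228) (nat_lit 11922334971) (nat_lit 76) (nat_lit 1224297744) (nat_lit 44) (nat_lit 5) (nat_lit 47) (nat_lit 5) (nat_lit 45) (nat_lit 5) (nat_lit 500) (nat_lit 358) (nat_lit 282)) (XT.lf (nat_lit 0) (nat_lit 7732895746) (nat_lit 228) (nat_lit 4338295012) (nat_lit 76) (nat_lit 5365187195) (nat_lit 44) (nat_lit 5) (nat_lit 47) (nat_lit 5) (nat_lit 45) (nat_lit 5) (nat_lit 501) (nat_lit 358) (nat_lit 281))) (XT.nd (nat_lit 78) (nat_lit 0) (nat_lit 0) (XT.lf (nat_lit 0) (nat_lit 3395185639) (nat_lit 228) (nat_lit 8100954342) (nat_lit 304) (nat_lit 6196830082) (nat_lit 41) (nat_lit 5) (nat_lit 44) (nat_lit 5) (nat_lit 45) (nat_lit 5) (nat_lit 502) (nat_lit 358) (nat_lit 280)) (XT.lf (nat_lit 0)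 (nat_lit 11295681746) (nat_lit 228) (nat_lit 4041020917) (nat_lit 304) (nat_lit 2617958181) (nat_lit 41) (nat_lit 5) (nat_lit 44) (nat_lit 5) (nat_lit 45) (nat_lit 5) (nat_lit 503) (nat_lit 358) (nat_lit 279)))))) (XT.nd (nat_lit 546) (nat_lit 532) (nat_lit 0) (XT.nd (nat_lit 234) (nat_lit 380) (nat_lit 0) (XT.nd (nat_lit 78) (nat_lit 0) (nat_lit 0) (XT.lf (nat_lit 0) (nat_lit 999960350) (nat_lit 228) (nat_lit 17128129158) (nat_lit 76) (nat_lit 93749243) (nat_lit 38) (nat_lit 5) (nat_lit 41) (nat_lit 5) (nat_lit 39) (nat_lit 5) (nat_lit 504) (nat_lit 358) (nat_lit 278)) (XT.nd (nat_lit 78) (nat_lit 0) (nat_lit 0) (XT.lf (nat_lit 0) (nat_lit 4700350465) (nat_lit 228) (nat_lit 9492168714) (nat_lit 76) (nat_lit 4300599034) (nat_lit 38) (nat_lit 5) (nat_lit 41) (nat_lit 5) (nat_lit 39) (nat_lit 5) (nat_lit 505) (nat_lit 358) (nat_lit 277)) (XT.lf (nat_lit 0) (nat_lit 8448662101) (nat_lit 228) (nat_lit 1748609989)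 (nat_lit 76) (nat_lit 8573080197) (nat_lit 38) (nat_lit 5) (nat_lit 41) (nat_lit 5) (nat_lit 39) (nat_lit 5) (nat_lit 506) (nat_lit 358) (nat_lit 276)))) (XT.nd (nat_lit 156) (nat_lit 228) (nat_lit 0) (XT.nd (nat_lit 78) (nat_lit 0) (nat_lit 0) (XT.lf (nat_lit 0) (nat_lit 6186723697) (nat_lit 152) (nat_lit 6099809801) (nat_lit 228) (nat_lit 6766312830) (nat_lit 36) (nat_lit 5) (nat_lit 38) (nat_lit 5) (nat_lit 39) (nat_lit 5) (nat_lit 507) (nat_lit 358) (nat_lit 275)) (XT.lf (nat_lit 0) (nat_lit 14260521750) (nat_lit 152) (nat_lit 1927016028) (nat_lit 228) (nat_lit 3153731978) (nat_lit 36) (nat_lit 5) (nat_lit 38) (nat_lit 5) (nat_lit 39) (nat_lit 5) (nat_lit 508) (nat_lit 358) (nat_lit 274))) (XT.nd (nat_lit 78) (nat_lit 0) (nat_lit 0) (XT.lf (nat_lit 0) (nat_lit 532760738) (nat_lit 228) (nat_lit 16799826466) (nat_lit 76) (nat_lit 2302639710) (nat_lit 33) (nat_lit 5) (nat_lit 36) (nat_lit 5) (nat_lit 34) (nat_lit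 5) (nat_lit 509) (nat_lit 358) (nat_lit 273)) (XT.lf (nat_lit 0) (nat_lit 4272935299) (nat_lit 228) (nat_lit 9033033089) (nat_lit 76) (nat_lit 6628240906) (nat_lit 33) (nat_lit 5) (nat_lit 36) (nat_lit 5) (nat_lit 34) (nat_lit 5) (nat_lit 510) (nat_lit 358) (nat_lit 272))))) (XT.nd (nat_lit 234) (nat_lit 380) (nat_lit 0) (XT.nd (nat_lit 78) (nat_lit 152) (nat_lit 0) (XT.lf (nat_lit 0) (nat_lit 8063461396) (nat_lit 228) (nat_lit 1153571868) (nat_lit 76) (nat_lit 11022633577) (nat_lit 33) (nat_lit 5) (nat_lit 36) (nat_lit 5) (nat_lit 34) (nat_lit 5) (nat_lit 511) (nat_lit 358) (nat_lit 271)) (XT.nd (nat_lit 78) (nat_lit 0) (nat_lit 0) (XT.lf (nat_lit 0) (nat_lit 6932569073) (nat_lit 152) (nat_lit 5018267275) (nat_lit 228) (nat_lit 8599982778) (nat_lit 31) (nat_lit 5) (nat_lit 33) (nat_lit 5) (nat_lit 34) (nat_lit 5) (nat_lit 512) (nat_lit 358) (nat_lit 270)) (XT.lf (nat_lit 0) (nat_lit 15154513615) (nat_lit 152)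 (nat_lit 745413992) (nat_lit 228) (nat_lit 4968593702) (nat_lit 31) (nat_lit 5) (nat_lit 33) (nat_lit 5) (nat_lit 34) (nat_lit 5) (nat_lit 513) (nat_lit 358) (nat_lit 269)))) (XT.nd (nat_lit 156) (nat_lit 152) (nat_lit 0) (XT.nd (nat_lit 78) (nat_lit 76) (nat_lit 0) (XT.lf (nat_lit 0) (nat_lit 2314111794) (nat_lit 152) (nat_lit 17628951622) (nat_lit 228) (nat_lit 1249218972) (nat_lit 29) (nat_lit 5) (nat_lit 31) (nat_lit 5) (nat_lit 32) (nat_lit 4) (nat_lit 514) (nat_lit 358) (nat_lit 268)) (XT.lf (nat_lit 0) (nat_lit 2531320605) (nat_lit 228) (nat_lit 11004361206) (nat_lit 76) (nat_lit 7986109340) (nat_lit 28) (nat_lit 5) (nat_lit 31) (nat_lit 5) (nat_lit 29) (nat_lit 5) (nat_lit 515) (nat_lit 358) (nat_lit 267))) (XT.nd (nat_lit 78) (nat_lit 152) (nat_lit 0) (XT.lf (nat_lit 0) (nat_lit 6347833142) (nat_lit 228) (nat_lit 3021688442) (nat_lit 76) (nat_lit 12488667328) (nat_lit 28) (nat_lit 5) (nat_lit 31) (nat_lit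 5) (nat_lit 29) (nat_lit 5) (nat_lit 516) (nat_lit 358) (nat_lit 266)) (XT.lf (nat_lit 0) (nat_lit 5148613911) (nat_lit 152) (nat_lit 5103013347) (nat_lit 228) (nat_lit 11949473987) (nat_lit 26) (nat_lit 5) (nat_lit 28) (nat_lit 5) (nat_lit 29) (nat_lit 5) (nat_lit 517) (nat_lit 358) (nat_lit 265))))))) (XT.nd (nat_lit 51948) (nat_lit 0) (nat_lit 17328) (XT.nd (nat_lit 546) (nat_lit 304) (nat_lit 0) (XT.nd (nat_lit 234) (nat_lit 228) (nat_lit 0) (XT.nd (nat_lit 78) (nat_lit 76) (nat_lit 0) (XT.lf (nat_lit 0) (nat_lit 13483993423) (nat_lit 152) (nat_lit 747489701) (nat_lit 228) (nat_lit 8319434514) (nat_lit 26) (nat_lit 5) (nat_lit 28) (nat_lit 5) (nat_lit 29) (nat_lit 5) (nat_lit 518) (nat_lit 358) (nat_lit 264)) (XT.nd (nat_lit 78) (nat_lit 76) (nat_lit 0) (XT.lf (nat_lit 0) (nat_lit 18292965071) (nat_lit 228) (nat_lit 984493780) (nat_lit 76) (nat_lit 3630236350) (nat_lit 26) (nat_lit 5) (nat_lit 29) (nat_lit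 5) (nat_lit 27) (nat_lit 4) (nat_lit 519) (nat_lit 358) (nat_lit 263)) (XT.lf (nat_lit 0) (nat_lit 7312448273) (nat_lit 76) (nat_lit 15154124182) (nat_lit 152) (nat_lit 804423262) (nat_lit 25) (nat_lit 5) (nat_lit 26) (nat_lit 5) (nat_lit 27) (nat_lit 4) (nat_lit 520) (nat_lit 358) (nat_lit 262)))) (XT.nd (nat_lit 156) (nat_lit 0) (nat_lit 0) (XT.nd (nat_lit 78) (nat_lit 152) (nat_lit 0) (XT.lf (nat_lit 0) (nat_lit 3026816013) (nat_lit 152) (nat_lit 7910941658) (nat_lit 76) (nat_lit 12703706495) (nat_lit 24) (nat_lit 5) (nat_lit 26) (nat_lit 5) (nat_lit 25) (nat_lit 5) (nat_lit 521) (nat_lit 358) (nat_lit 261)) (XT.lf (nat_lit 0) (nat_lit 258293105) (nat_lit 152) (nat_lit 6646222632) (nat_lit 228) (nat_lit 17115112772) (nat_lit 22) (nat_lit 5) (nat_lit 24) (nat_lit 5) (nat_lit 25) (nat_lit 5) (nat_lit 522) (nat_lit 358) (nat_lit 260))) (XT.nd (nat_lit 78) (nat_lit 0) (nat_lit 0) (XT.lf (nat_lit 0) (nat_lit 8661010010)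 (nat_lit 152) (nat_lit 2230938057) (nat_lit 228) (nat_lit 13512769412) (nat_lit 22) (nat_lit 5) (nat_lit 24) (nat_lit 5) (nat_lit 25) (nat_lit 5) (nat_lit 523) (nat_lit 358) (nat_lit 259)) (XT.lf (nat_lit 0) (nat_lit 14953283292) (nat_lit 228) (nat_lit 7617203275) (nat_lit 76) (nat_lit 2227143392) (nat_lit 22) (nat_lit 5) (nat_lit 25) (nat_lit 5) (nat_lit 23) (nat_lit 4) (nat_lit 524) (nat_lit 358) (nat_lit 258))))) (XT.nd (nat_lit 234) (nat_lit 152) (nat_lit 0) (XT.nd (nat_lit 78) (nat_lit 76) (nat_lit 0) (XT.lf (nat_lit 0) (nat_lit 629309365) (nat_lit 76) (nat_lit 18465198803) (nat_lit 152) (nat_lit 6103923982) (nat_lit 21) (nat_lit 5) (nat_lit 22) (nat_lit 5) (nat_lit 23) (nat_lit 4) (nat_lit 525) (nat_lit 358) (nat_lit 257)) (XT.nd (nat_lit 78) (nat_lit 76) (nat_lit 0) (XT.lf (nat_lit 0) (nat_lit 9108241581) (nat_lit 76) (nat_lit 14241397858) (nat_lit 152) (nat_lit 2256993937) (nat_lit 21) (nat_lit 5) (nat_lit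 22) (nat_lit 5) (nat_lit 23) (nat_lit 4) (nat_lit 526) (nat_lit 358) (nat_lit 256)) (XT.lf (nat_lit 0) (nat_lit 1625238067) (nat_lit 152) (nat_lit 8312398512) (nat_lit 76) (nat_lit 16085545551) (nat_lit 20) (nat_lit 5) (nat_lit 22) (nat_lit 5) (nat_lit 21) (nat_lit 5) (nat_lit 527) (nat_lit 358) (nat_lit 255)))) (XT.nd (nat_lit 156) (nat_lit 0) (nat_lit 0) (XT.nd (nat_lit 78) (nat_lit 152) (nat_lit 0) (XT.lf (nat_lit 0) (nat_lit 5535534282) (nat_lit 152) (nat_lit 12269473) (nat_lit 76) (nat_lit 20900351278) (nat_lit 20) (nat_lit 5) (nat_lit 22) (nat_lit 5) (nat_lit 21) (nat_lit 5) (nat_lit 528) (nat_lit 358) (nat_lit 254)) (XT.lf (nat_lit 0) (nat_lit 8531800272) (nat_lit 152) (nat_lit 1028622872) (nat_lit 228) (nat_lit 17320480789) (nat_lit 18) (nat_lit 5) (nat_lit 20) (nat_lit 5) (nat_lit 21) (nat_lit 5) (nat_lit 529) (nat_lit 358) (nat_lit 253))) (XT.nd (nat_lit 50934) (nat_lit 0) (nat_lit 25232) (XT.lf (nat_lit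 0) (nat_lit 13670192182) (nat_lit 228) (nat_lit 10132658042) (nat_lit 76) (nat_lit 3519374132) (nat_lit 18) (nat_lit 5) (nat_lit 21) (nat_lit 5) (nat_lit 19) (nat_lit 4) (nat_lit 530) (nat_lit 358) (nat_lit 252)) (XT.lf (nat_lit 0) (nat_lit 1526924770) (nat_lit 912) (nat_lit 622379000) (nat_lit 0) (nat_lit 1526924770) (nat_lit 350) (nat_lit 5) (nat_lit 362) (nat_lit 4) (nat_lit 350) (nat_lit 4) (nat_lit 422) (nat_lit 359) (nat_lit 359)))))) (XT.nd (nat_lit 546) (nat_lit 3648) (nat_lit 0) (XT.nd (nat_lit 234) (nat_lit 2508) (nat_lit 0) (XT.nd (nat_lit 78) (nat_lit 912) (nat_lit 0) (XT.lf (nat_lit 0) (nat_lit 3877507113) (nat_lit 836) (nat_lit 2524172386) (nat_lit 836) (nat_lit 996260767) (nat_lit 339) (nat_lit 4) (nat_lit 350) (nat_lit 5) (nat_lit 350) (nat_lit 4) (nat_lit 423) (nat_lit 359) (nat_lit 358)) (XT.nd (nat_lit 78) (nat_lit 0) (nat_lit 0) (XT.lf (nat_lit 0) (nat_lit 1612427046) (nat_lit 836) (nat_lit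 683756731) (nat_lit 912) (nat_lit 5148797616) (nat_lit 327) (nat_lit 5) (nat_lit 338) (nat_lit 5) (nat_lit 339) (nat_lit 4) (nat_lit 424) (nat_lit 359) (nat_lit 357)) (XT.lf (nat_lit 0) (nat_lit 5609741618) (nat_lit 912) (nat_lit 680353449) (nat_lit 0) (nat_lit 1203422860) (nat_lit 327) (nat_lit 5) (nat_lit 339) (nat_lit 4) (nat_lit 327) (nat_lit 4) (nat_lit 425) (nat_lit 359) (nat_lit 356)))) (XT.nd (nat_lit 156) (nat_lit 836) (nat_lit 0) (XT.nd (nat_lit 78) (nat_lit 760) (nat_lit 0) (XT.lf (nat_lit 0) (nat_lit 1399782680) (nat_lit 912) (nat_lit 2990311902) (nat_lit 76) (nat_lit 3153354701) (nat_lit 315) (nat_lit 5) (nat_lit 327) (nat_lit 5) (nat_lit 316) (nat_lit 4) (nat_lit 426) (nat_lit 359) (nat_lit 355)) (XT.lf (nat_lit 0) (nat_lit 2255207665) (nat_lit 760) (nat_lit 2426454319) (nat_lit 836) (nat_lit 2913365797) (nat_lit 305) (nat_lit 5) (nat_lit 315) (nat_lit 5) (nat_lit 316) (nat_lit 4) (nat_lit 427)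 (nat_lit 359) (nat_lit 354))) (XT.nd (nat_lit 78) (nat_lit 760) (nat_lit 0) (XT.lf (nat_lit 0) (nat_lit 335657528) (nat_lit 836) (nat_lit 72187770) (nat_lit 76) (nat_lit 7240613471) (nat_lit 304) (nat_lit 5) (nat_lit 315) (nat_lit 5) (nat_lit 305) (nat_lit 5) (nat_lit 428) (nat_lit 359) (nat_lit 353)) (XT.lf (nat_lit 0) (nat_lit 3596139201) (nat_lit 836) (nat_lit 2430534449) (nat_lit 76) (nat_lit 1676241658) (nat_lit 294) (nat_lit 5) (nat_lit 305) (nat_lit 5) (nat_lit 295) (nat_lit 4) (nat_lit 429) (nat_lit 359) (nat_lit 352))))) (XT.nd (nat_lit 234) (nat_lit 2128) (nat_lit 0) (XT.nd (nat_lit 78) (nat_lit 836) (nat_lit 0) (XT.lf (nat_lit 0) (nat_lit 2934234646) (nat_lit 684) (nat_lit 3950645736) (nat_lit 760) (nat_lit 874370417) (nat_lit 285) (nat_lit 5) (nat_lit 294) (nat_lit 5) (nat_lit 295) (nat_lit 4) (nat_lit 430) (nat_lit 359) (nat_lit 351)) (XT.nd (nat_lit 78) (nat_lit 0) (nat_lit 0) (XT.lf (nat_lit 0)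 (nat_lit 545883390) (nat_lit 760) (nat_lit 1806084957) (nat_lit 836) (nat_lit 5465257729) (nat_lit 274) (nat_lit 5) (nat_lit 284) (nat_lit 5) (nat_lit 285) (nat_lit 5) (nat_lit 431) (nat_lit 359) (nat_lit 350)) (XT.lf (nat_lit 0) (nat_lit 5607954145) (nat_lit 836) (nat_lit 1863585830) (nat_lit 76) (nat_lit 405216619) (nat_lit 274) (nat_lit 5) (nat_lit 285) (nat_lit 5) (nat_lit 275) (nat_lit 4) (nat_lit 432) (nat_lit 359) (nat_lit 349)))) (XT.nd (nat_lit 156) (nat_lit 684) (nat_lit 0) (XT.nd (nat_lit 78) (nat_lit 684) (nat_lit 0) (XT.lf (nat_lit 0) (nat_lit 956743473) (nat_lit 760) (nat_lit 4324050897) (nat_lit 76) (nat_lit 2657037294) (nat_lit 264) (nat_lit 5) (nat_lit 274) (nat_lit 5) (nat_lit 265) (nat_lit 5) (nat_lit 433) (nat_lit 359) (nat_lit 348)) (XT.lf (nat_lit 0) (nat_lit 1158159998) (nat_lit 684) (nat_lit 3021552252) (nat_lit 760) (nat_lit 3820895352) (nat_lit 255) (nat_lit 5) (nat_lit 264) (nat_lit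 5) (nat_lit 265) (nat_lit 5) (nat_lit 434) (nat_lit 359) (nat_lit 347))) (XT.nd (nat_lit 78) (nat_lit 684) (nat_lit 0) (XT.lf (nat_lit 0) (nat_lit 6741076678) (nat_lit 684) (nat_lit 698911202) (nat_lit 760) (nat_lit 625238472) (nat_lit 255) (nat_lit 5) (nat_lit 264) (nat_lit 5) (nat_lit 265) (nat_lit 5) (nat_lit 435) (nat_lit 359) (nat_lit 346)) (XT.lf (nat_lit 0) (nat_lit 2583138515) (nat_lit 684) (nat_lit 3865968295) (nat_lit 76) (nat_lit 1682063979) (nat_lit 246) (nat_lit 5) (nat_lit 255) (nat_lit 5) (nat_lit 247) (nat_lit 5) (nat_lit 436) (nat_lit 359) (nat_lit 345))))))))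
noncomputable def xc54 : XT := (XT.nd (nat_lit 2184) (nat_lit 5016) (nat_lit 0) (XT.nd (nat_lit 1092) (nat_lit 4104) (nat_lit 0) (XT.nd (nat_lit 546) (nat_lit 2280) (nat_lit 0) (XT.nd (nat_lit 234) (nat_lit 1748) (nat_lit 0) (XT.nd (nat_lit 78) (nat_lit 684) (nat_lit 0) (XT.lf (nat_lit 0) (nat_lit 1732297575) (nat_lit 608) (nat_lit 4084945686) (nat_lit 684) (nat_lit 2381751244) (nat_lit 238) (nat_lit 5) (nat_lit 246) (nat_lit 5) (nat_lit 247) (nat_lit 5) (nat_lit 437) (nat_lit 359) (nat_lit 344)) (XT.nd (nat_lit 78) (nat_lit 608) (nat_lit 0) (XT.lf (nat_lit 0) (nat_lit 808194637) (nat_lit 684) (nat_lit 846349271) (nat_lit 76) (nat_lit 6614131581) (nat_lit 237) (nat_lit 5) (nat_lit 246) (nat_lit 5) (nat_lit 238) (nat_lit 5) (nat_lit 438) (nat_lit 359) (nat_lit 343)) (XT.lf (nat_lit 0) (nat_lit 4013681277) (nat_lit 684) (nat_lit 3477638041) (nat_lit 76) (nat_lit 848482524) (nat_lit 229) (nat_lit 5) (nat_lit 238)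 (nat_lit 5) (nat_lit 230) (nat_lit 5) (nat_lit 439) (nat_lit 359) (nat_lit 342)))) (XT.nd (nat_lit 156) (nat_lit 1064) (nat_lit 0) (XT.nd (nat_lit 78) (nat_lit 76) (nat_lit 0) (XT.lf (nat_lit 0) (nat_lit 2235211732) (nat_lit 608) (nat_lit 5026204071) (nat_lit 684) (nat_lit 1151410669) (nat_lit 221) (nat_lit 5) (nat_lit 229) (nat_lit 5) (nat_lit 230) (nat_lit 5) (nat_lit 440) (nat_lit 359) (nat_lit 341)) (XT.lf (nat_lit 0) (nat_lit 2030089682) (nat_lit 684) (nat_lit 458577569) (nat_lit 76) (nat_lit 5998997089) (nat_lit 220) (nat_lit 5) (nat_lit 229) (nat_lit 5) (nat_lit 221) (nat_lit 5) (nat_lit 441) (nat_lit 359) (nat_lit 340))) (XT.nd (nat_lit 78) (nat_lit 532) (nat_lit 0) (XT.lf (nat_lit 0) (nat_lit 5243736741) (nat_lit 608) (nat_lit 3193557533) (nat_lit 76) (nat_lit 126910087) (nat_lit 213) (nat_lit 5) (nat_lit 221) (nat_lit 5) (nat_lit 214) (nat_lit 5) (nat_lit 442) (nat_lit 359) (nat_lit 339)) (XT.lf (nat_lit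 0) (nat_lit 2631778022) (nat_lit 532) (nat_lit 5875248713) (nat_lit 608) (nat_lit 135576627) (nat_lit 206) (nat_lit 5) (nat_lit 213) (nat_lit 5) (nat_lit 214) (nat_lit 5) (nat_lit 443) (nat_lit 359) (nat_lit 338))))) (XT.nd (nat_lit 234) (nat_lit 1064) (nat_lit 0) (XT.nd (nat_lit 78) (nat_lit 1140) (nat_lit 0) (XT.lf (nat_lit 0) (nat_lit 3042665980) (nat_lit 608) (nat_lit 192554804) (nat_lit 76) (nat_lit 5487569896) (nat_lit 205) (nat_lit 5) (nat_lit 213) (nat_lit 5) (nat_lit 206) (nat_lit 5) (nat_lit 444) (nat_lit 359) (nat_lit 337)) (XT.nd (nat_lit 78) (nat_lit 608) (nat_lit 0) (XT.lf (nat_lit 0) (nat_lit 5750951968) (nat_lit 532) (nat_lit 518957708) (nat_lit 608) (nat_lit 2534942642) (nat_lit 198) (nat_lit 5) (nat_lit 205) (nat_lit 5) (nat_lit 206) (nat_lit 5) (nat_lit 445) (nat_lit 359) (nat_lit 336)) (XT.lf (nat_lit 0) (nat_lit 649198322) (nat_lit 608) (nat_lit 6008692198) (nat_lit 76) (nat_lit 2230911813)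 (nat_lit 190) (nat_lit 5) (nat_lit 198) (nat_lit 5) (nat_lit 191) (nat_lit 5) (nat_lit 446) (nat_lit 359) (nat_lit 335)))) (XT.nd (nat_lit 156) (nat_lit 608) (nat_lit 0) (XT.nd (nat_lit 78) (nat_lit 456) (nat_lit 0) (XT.lf (nat_lit 0) (nat_lit 3837734108) (nat_lit 608) (nat_lit 86583668) (nat_lit 76) (nat_lit 5050316952) (nat_lit 190) (nat_lit 5) (nat_lit 198) (nat_lit 5) (nat_lit 191) (nat_lit 5) (nat_lit 447) (nat_lit 359) (nat_lit 334)) (XT.lf (nat_lit 0) (nat_lit 5967129741) (nat_lit 456) (nat_lit 1113180249) (nat_lit 532) (nat_lit 1982099368) (nat_lit 184) (nat_lit 5) (nat_lit 190) (nat_lit 5) (nat_lit 191) (nat_lit 5) (nat_lit 448) (nat_lit 359) (nat_lit 333))) (XT.nd (nat_lit 78) (nat_lit 0) (nat_lit 0) (XT.lf (nat_lit 0) (nat_lit 1202543746) (nat_lit 608) (nat_lit 6207270508) (nat_lit 76) (nat_lit 1742335458) (nat_lit 176) (nat_lit 5) (nat_lit 184) (nat_lit 5) (nat_lit 177) (nat_lit 5) (nat_lit 449) (nat_lit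 359) (nat_lit 332)) (XT.lf (nat_lit 0) (nat_lit 4404768812) (nat_lit 608) (nat_lit 181890826) (nat_lit 76) (nat_lit 4657183803) (nat_lit 176) (nat_lit 5) (nat_lit 184) (nat_lit 5) (nat_lit 177) (nat_lit 5) (nat_lit 450) (nat_lit 359) (nat_lit 331)))))) (XT.nd (nat_lit 546) (nat_lit 1748) (nat_lit 0) (XT.nd (nat_lit 234) (nat_lit 1368) (nat_lit 0) (XT.nd (nat_lit 78) (nat_lit 532) (nat_lit 0) (XT.lf (nat_lit 0) (nat_lit 5977903801) (nat_lit 456) (nat_lit 1685009863) (nat_lit 532) (nat_lit 1674648491) (nat_lit 170) (nat_lit 5) (nat_lit 176) (nat_lit 5) (nat_lit 177) (nat_lit 5) (nat_lit 451) (nat_lit 359) (nat_lit 330)) (XT.nd (nat_lit 78) (nat_lit 0) (nat_lit 0) (XT.lf (nat_lit 0) (nat_lit 1513640224) (nat_lit 532) (nat_lit 6649846900) (nat_lit 76) (nat_lit 1269875100) (nat_lit 163) (nat_lit 5) (nat_lit 170) (nat_lit 5) (nat_lit 164) (nat_lit 5) (nat_lit 452) (nat_lit 359) (nat_lit 329)) (XT.lf (nat_lit 0) (nat_lit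 4730760014) (nat_lit 532) (nat_lit 523060748) (nat_lit 76) (nat_lit 4277313333) (nat_lit 163) (nat_lit 5) (nat_lit 170) (nat_lit 5) (nat_lit 164) (nat_lit 5) (nat_lit 453) (nat_lit 359) (nat_lit 328)))) (XT.nd (nat_lit 156) (nat_lit 380) (nat_lit 0) (XT.nd (nat_lit 78) (nat_lit 532) (nat_lit 0) (XT.lf (nat_lit 0) (nat_lit 5737660411) (nat_lit 456) (nat_lit 2266338501) (nat_lit 532) (nat_lit 1627053394) (nat_lit 157) (nat_lit 5) (nat_lit 163) (nat_lit 5) (nat_lit 164) (nat_lit 5) (nat_lit 454) (nat_lit 359) (nat_lit 327)) (XT.lf (nat_lit 0) (nat_lit 1567262128) (nat_lit 532) (nat_lit 7384328669) (nat_lit 76) (nat_lit 781621658) (nat_lit 150) (nat_lit 5) (nat_lit 157) (nat_lit 5) (nat_lit 151) (nat_lit 5) (nat_lit 455) (nat_lit 359) (nat_lit 326))) (XT.nd (nat_lit 78) (nat_lit 380) (nat_lit 0) (XT.lf (nat_lit 0) (nat_lit 4800040406) (nat_lit 532) (nat_lit 1158506535) (nat_lit 76) (nat_lit 3878751431) (nat_lit 150)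 (nat_lit 5) (nat_lit 157) (nat_lit 5) (nat_lit 151) (nat_lit 5) (nat_lit 456) (nat_lit 359) (nat_lit 325)) (XT.lf (nat_lit 0) (nat_lit 5196815566) (nat_lit 380) (nat_lit 2890315275) (nat_lit 456) (nat_lit 1856566458) (nat_lit 145) (nat_lit 5) (nat_lit 150) (nat_lit 5) (nat_lit 151) (nat_lit 5) (nat_lit 457) (nat_lit 359) (nat_lit 324))))) (XT.nd (nat_lit 234) (nat_lit 836) (nat_lit 0) (XT.nd (nat_lit 78) (nat_lit 380) (nat_lit 0) (XT.lf (nat_lit 0) (nat_lit 1345363196) (nat_lit 532) (nat_lit 8462867823) (nat_lit 76) (nat_lit 244319965) (nat_lit 138) (nat_lit 5) (nat_lit 145) (nat_lit 5) (nat_lit 139) (nat_lit 5) (nat_lit 458) (nat_lit 359) (nat_lit 323)) (XT.nd (nat_lit 78) (nat_lit 380) (nat_lit 0) (XT.lf (nat_lit 0) (nat_lit 4594087759) (nat_lit 532) (nat_lit 2140982307) (nat_lit 76) (nat_lit 3428136938) (nat_lit 138) (nat_lit 5) (nat_lit 145) (nat_lit 5) (nat_lit 139) (nat_lit 5) (nat_lit 459) (nat_lit 359)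 (nat_lit 322)) (XT.lf (nat_lit 0) (nat_lit 4301287412) (nat_lit 380) (nat_lit 3591667695) (nat_lit 456) (nat_lit 2383440237) (nat_lit 133) (nat_lit 5) (nat_lit 138) (nat_lit 5) (nat_lit 139) (nat_lit 5) (nat_lit 460) (nat_lit 359) (nat_lit 321)))) (XT.nd (nat_lit 156) (nat_lit 380) (nat_lit 0) (XT.nd (nat_lit 78) (nat_lit 0) (nat_lit 0) (XT.lf (nat_lit 0) (nat_lit 447371004) (nat_lit 380) (nat_lit 381965986) (nat_lit 456) (nat_lit 9562924866) (nat_lit 127) (nat_lit 5) (nat_lit 132) (nat_lit 5) (nat_lit 133) (nat_lit 5) (nat_lit 461) (nat_lit 359) (nat_lit 320)) (XT.lf (nat_lit 0) (nat_lit 4091299830) (nat_lit 456) (nat_lit 3528142103) (nat_lit 76) (nat_lit 2890373053) (nat_lit 127) (nat_lit 5) (nat_lit 133) (nat_lit 5) (nat_lit 128) (nat_lit 5) (nat_lit 462) (nat_lit 359) (nat_lit 319))) (XT.nd (nat_lit 78) (nat_lit 76) (nat_lit 0) (XT.lf (nat_lit 0) (nat_lit 2991920473) (nat_lit 304) (nat_lit 4407042948) (nat_lit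 380) (nat_lit 3231167371) (nat_lit 123) (nat_lit 5) (nat_lit 127) (nat_lit 5) (nat_lit 128) (nat_lit 5) (nat_lit 463) (nat_lit 359) (nat_lit 318)) (XT.lf (nat_lit 0) (nat_lit 2128115) (nat_lit 380) (nat_lit 1124351229) (nat_lit 76) (nat_lit 9626741779) (nat_lit 122) (nat_lit 5) (nat_lit 127) (nat_lit 5) (nat_lit 123) (nat_lit 5) (nat_lit 464) (nat_lit 359) (nat_lit 317))))))) (XT.nd (nat_lit 1092) (nat_lit 1976) (nat_lit 0) (XT.nd (nat_lit 546) (nat_lit 1216) (nat_lit 0) (XT.nd (nat_lit 234) (nat_lit 1140) (nat_lit 0) (XT.nd (nat_lit 78) (nat_lit 304) (nat_lit 0) (XT.lf (nat_lit 0) (nat_lit 3266739520) (nat_lit 456) (nat_lit 5383150748) (nat_lit 76) (nat_lit 2228277169) (nat_lit 117) (nat_lit 5) (nat_lit 123) (nat_lit 5) (nat_lit 118) (nat_lit 5) (nat_lit 465) (nat_lit 359) (nat_lit 316)) (XT.nd (nat_lit 78) (nat_lit 0) (nat_lit 0) (XT.lf (nat_lit 0) (nat_lit 1203856065) (nat_lit 304) (nat_lit 5375372413) (nat_lit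 380) (nat_lit 4426751750) (nat_lit 113) (nat_lit 5) (nat_lit 117) (nat_lit 5) (nat_lit 118) (nat_lit 5) (nat_lit 466) (nat_lit 359) (nat_lit 315)) (XT.lf (nat_lit 0) (nat_lit 7935000489) (nat_lit 304) (nat_lit 2019201157) (nat_lit 380) (nat_lit 1182241823) (nat_lit 113) (nat_lit 5) (nat_lit 117) (nat_lit 5) (nat_lit 118) (nat_lit 5) (nat_lit 467) (nat_lit 359) (nat_lit 314)))) (XT.nd (nat_lit 156) (nat_lit 684) (nat_lit 0) (XT.nd (nat_lit 78) (nat_lit 0) (nat_lit 0) (XT.lf (nat_lit 0) (nat_lit 2091847627) (nat_lit 456) (nat_lit 7775352644) (nat_lit 76) (nat_lit 1402205883) (nat_lit 107) (nat_lit 5) (nat_lit 113) (nat_lit 5) (nat_lit 108) (nat_lit 5) (nat_lit 468) (nat_lit 359) (nat_lit 313)) (XT.lf (nat_lit 0) (nat_lit 5411469229) (nat_lit 456) (nat_lit 1119282575) (nat_lit 76) (nat_lit 4874220179) (nat_lit 107) (nat_lit 5) (nat_lit 113) (nat_lit 5) (nat_lit 108) (nat_lit 5) (nat_lit 469) (nat_lit 359) (nat_lit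 312))) (XT.nd (nat_lit 78) (nat_lit 380) (nat_lit 0) (XT.lf (nat_lit 0) (nat_lit 5685458432) (nat_lit 304) (nat_lit 3110573842) (nat_lit 380) (nat_lit 2747263316) (nat_lit 103) (nat_lit 5) (nat_lit 107) (nat_lit 5) (nat_lit 108) (nat_lit 5) (nat_lit 470) (nat_lit 359) (nat_lit 311)) (XT.lf (nat_lit 0) (nat_lit 534120230) (nat_lit 380) (nat_lit 10781005038) (nat_lit 76) (nat_lit 369651643) (nat_lit 98) (nat_lit 5) (nat_lit 103) (nat_lit 5) (nat_lit 99) (nat_lit 5) (nat_lit 471) (nat_lit 359) (nat_lit 310))))) (XT.nd (nat_lit 234) (nat_lit 912) (nat_lit 0) (XT.nd (nat_lit 78) (nat_lit 304) (nat_lit 0) (XT.lf (nat_lit 0) (nat_lit 3866520840) (nat_lit 380) (nat_lit 4046740885) (nat_lit 76) (nat_lit 3915035878) (nat_lit 98) (nat_lit 5) (nat_lit 103) (nat_lit 5) (nat_lit 99) (nat_lit 5) (nat_lit 472) (nat_lit 359) (nat_lit 309)) (XT.nd (nat_lit 78) (nat_lit 0) (nat_lit 0) (XT.lf (nat_lit 0) (nat_lit 2800702154) (nat_lit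 304) (nat_lit 4445768519) (nat_lit 380) (nat_lit 4728616126) (nat_lit 94) (nat_lit 5) (nat_lit 98) (nat_lit 5) (nat_lit 99) (nat_lit 5) (nat_lit 473) (nat_lit 359) (nat_lit 308)) (XT.lf (nat_lit 0) (nat_lit 9782093728) (nat_lit 304) (nat_lit 902154133) (nat_lit 380) (nat_lit 1440775149) (nat_lit 94) (nat_lit 5) (nat_lit 98) (nat_lit 5) (nat_lit 99) (nat_lit 5) (nat_lit 474) (nat_lit 359) (nat_lit 307)))) (XT.nd (nat_lit 156) (nat_lit 532) (nat_lit 0) (XT.nd (nat_lit 78) (nat_lit 0) (nat_lit 0) (XT.lf (nat_lit 0) (nat_lit 1899003941) (nat_lit 380) (nat_lit 7679554665) (nat_lit 76) (nat_lit 2698940773) (nat_lit 89) (nat_lit 5) (nat_lit 94) (nat_lit 5) (nat_lit 90) (nat_lit 5) (nat_lit 475) (nat_lit 359) (nat_lit 306)) (XT.lf (nat_lit 0) (nat_lit 5271858432) (nat_lit 380) (nat_lit 796382163) (nat_lit 76) (nat_lit 6364897661) (nat_lit 89) (nat_lit 5) (nat_lit 94) (nat_lit 5) (nat_lit 90) (nat_lit 5) (nat_lit 476)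 (nat_lit 359) (nat_lit 305))) (XT.nd (nat_lit 78) (nat_lit 304) (nat_lit 0) (XT.lf (nat_lit 0) (nat_lit 6250105100) (nat_lit 228) (nat_lit 2467108291) (nat_lit 304) (nat_lit 3874590246) (nat_lit 86) (nat_lit 5) (nat_lit 89) (nat_lit 5) (nat_lit 90) (nat_lit 5) (nat_lit 477) (nat_lit 359) (nat_lit 304)) (XT.lf (nat_lit 0) (nat_lit 638760361) (nat_lit 304) (nat_lit 11574734720) (nat_lit 380) (nat_lit 540521164) (nat_lit 82) (nat_lit 5) (nat_lit 86) (nat_lit 5) (nat_lit 87) (nat_lit 5) (nat_lit 478) (nat_lit 359) (nat_lit 303)))))) (XT.nd (nat_lit 546) (nat_lit 1064) (nat_lit 0) (XT.nd (nat_lit 234) (nat_lit 608) (nat_lit 0) (XT.nd (nat_lit 78) (nat_lit 228) (nat_lit 0) (XT.lf (nat_lit 0) (nat_lit 2846638255) (nat_lit 380) (nat_lit 5165664379) (nat_lit 76) (nat_lit 4906334384) (nat_lit 81) (nat_lit 5) (nat_lit 86) (nat_lit 5) (nat_lit 82) (nat_lit 5) (nat_lit 479) (nat_lit 359) (nat_lit 302)) (XT.nd (nat_lit 78)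 (nat_lit 0) (nat_lit 0) (XT.lf (nat_lit 0) (nat_lit 1888575579) (nat_lit 228) (nat_lit 4383432581) (nat_lit 304) (nat_lit 6814929979) (nat_lit 78) (nat_lit 5) (nat_lit 81) (nat_lit 5) (nat_lit 82) (nat_lit 5) (nat_lit 480) (nat_lit 359) (nat_lit 301)) (XT.lf (nat_lit 0) (nat_lit 9098754850) (nat_lit 228) (nat_lit 667550700) (nat_lit 304) (nat_lit 3492304549) (nat_lit 78) (nat_lit 5) (nat_lit 81) (nat_lit 5) (nat_lit 82) (nat_lit 5) (nat_lit 481) (nat_lit 359) (nat_lit 300)))) (XT.nd (nat_lit 156) (nat_lit 228) (nat_lit 0) (XT.nd (nat_lit 78) (nat_lit 76) (nat_lit 0) (XT.lf (nat_lit 0) (nat_lit 2983641955) (nat_lit 304) (nat_lit 10352787056) (nat_lit 380) (nat_lit 97180645) (nat_lit 74) (nat_lit 5) (nat_lit 78) (nat_lit 5) (nat_lit 79) (nat_lit 5) (nat_lit 482) (nat_lit 359) (nat_lit 299)) (XT.lf (nat_lit 0) (nat_lit 3320591429) (nat_lit 380) (nat_lit 3366349796) (nat_lit 76) (nat_lit 6924765585) (nat_lit 73)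 (nat_lit 5) (nat_lit 78) (nat_lit 5) (nat_lit 74) (nat_lit 5) (nat_lit 483) (nat_lit 359) (nat_lit 298))) (XT.nd (nat_lit 78) (nat_lit 0) (nat_lit 0) (XT.lf (nat_lit 0) (nat_lit 3855194844) (nat_lit 228) (nat_lit 2942282799) (nat_lit 304) (nat_lit 6996046428) (nat_lit 70) (nat_lit 5) (nat_lit 73) (nat_lit 5) (nat_lit 74) (nat_lit 5) (nat_lit 484) (nat_lit 359) (nat_lit 297)) (XT.lf (nat_lit 0) (nat_lit 10339531598) (nat_lit 304) (nat_lit 2771411123) (nat_lit 76) (nat_lit 868134331) (nat_lit 70) (nat_lit 5) (nat_lit 74) (nat_lit 5) (nat_lit 71) (nat_lit 5) (nat_lit 485) (nat_lit 359) (nat_lit 296))))) (XT.nd (nat_lit 234) (nat_lit 532) (nat_lit 0) (XT.nd (nat_lit 78) (nat_lit 304) (nat_lit 0) (XT.lf (nat_lit 0) (nat_lit 4525932202) (nat_lit 228) (nat_lit 9443202966) (nat_lit 304) (nat_lit 198883492) (nat_lit 67) (nat_lit 5) (nat_lit 70) (nat_lit 5) (nat_lit 71) (nat_lit 5) (nat_lit 486) (nat_lit 359) (nat_lit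 295)) (XT.nd (nat_lit 78) (nat_lit 228) (nat_lit 0) (XT.lf (nat_lit 0) (nat_lit 3253799090) (nat_lit 304) (nat_lit 2428072030) (nat_lit 76) (nat_lit 8678716845) (nat_lit 66) (nat_lit 5) (nat_lit 70) (nat_lit 5) (nat_lit 67) (nat_lit 5) (nat_lit 487) (nat_lit 359) (nat_lit 294)) (XT.lf (nat_lit 0) (nat_lit 4941879250) (nat_lit 228) (nat_lit 1831616371) (nat_lit 304) (nat_lit 7783485336) (nat_lit 63) (nat_lit 5) (nat_lit 66) (nat_lit 5) (nat_lit 67) (nat_lit 5) (nat_lit 488) (nat_lit 359) (nat_lit 293)))) (XT.nd (nat_lit 156) (nat_lit 304) (nat_lit 0) (XT.nd (nat_lit 78) (nat_lit 228) (nat_lit 0) (XT.lf (nat_lit 0) (nat_lit 10362279527) (nat_lit 304) (nat_lit 2330548936) (nat_lit 76) (nat_lit 2064510322) (nat_lit 63) (nat_lit 5) (nat_lit 67) (nat_lit 5) (nat_lit 64) (nat_lit 5) (nat_lit 489) (nat_lit 359) (nat_lit 292)) (XT.lf (nat_lit 0) (nat_lit 5103516658) (nat_lit 228) (nat_lit 8933887374) (nat_lit 304) (nat_lit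 924019072) (nat_lit 60) (nat_lit 5) (nat_lit 63) (nat_lit 5) (nat_lit 64) (nat_lit 5) (nat_lit 490) (nat_lit 359) (nat_lit 291))) (XT.nd (nat_lit 78) (nat_lit 228) (nat_lit 0) (XT.lf (nat_lit 0) (nat_lit 2567230537) (nat_lit 304) (nat_lit 2519576652) (nat_lit 76) (nat_lit 10082750311) (nat_lit 59) (nat_lit 5) (nat_lit 63) (nat_lit 5) (nat_lit 60) (nat_lit 5) (nat_lit 491) (nat_lit 359) (nat_lit 290)) (XT.lf (nat_lit 0) (nat_lit 4974580322) (nat_lit 228) (nat_lit 1143623750) (nat_lit 304) (nat_lit 9263492944) (nat_lit 56) (nat_lit 5) (nat_lit 59) (nat_lit 5) (nat_lit 60) (nat_lit 5) (nat_lit 492) (nat_lit 359) (nat_lit 289))))))))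
noncomputable def xc55 : XT := (XT.nd (nat_lit 2184) (nat_lit 532) (nat_lit 0) (XT.nd (nat_lit 1092) (nat_lit 988) (nat_lit 0) (XT.nd (nat_lit 546) (nat_lit 684) (nat_lit 0) (XT.nd (nat_lit 234) (nat_lit 380) (nat_lit 0) (XT.nd (nat_lit 78) (nat_lit 304) (nat_lit 0) (XT.lf (nat_lit 0) (nat_lit 9746003565) (nat_lit 304) (nat_lit 3013976718) (nat_lit 76) (nat_lit 2837992733) (nat_lit 56) (nat_lit 5) (nat_lit 60) (nat_lit 5) (nat_lit 57) (nat_lit 5) (nat_lit 493) (nat_lit 359) (nat_lit 288)) (XT.nd (nat_lit 78) (nat_lit 76) (nat_lit 0) (XT.lf (nat_lit 0) (nat_lit 4529634950) (nat_lit 228) (nat_lit 8924391661) (nat_lit 304) (nat_lit 2364404202) (nat_lit 53) (nat_lit 5) (nat_lit 56) (nat_lit 5) (nat_lit 57) (nat_lit 5) (nat_lit 494) (nat_lit 359) (nat_lit 287)) (XT.lf (nat_lit 0) (nat_lit 1168366472) (nat_lit 304) (nat_lit 3835096958) (nat_lit 76) (nat_lit 11039866703) (nat_lit 52) (nat_lit 5) (nat_lit 56) (nat_lit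 5) (nat_lit 53) (nat_lit 5) (nat_lit 495) (nat_lit 359) (nat_lit 286)))) (XT.nd (nat_lit 156) (nat_lit 228) (nat_lit 0) (XT.nd (nat_lit 78) (nat_lit 0) (nat_lit 0) (XT.lf (nat_lit 0) (nat_lit 3752905615) (nat_lit 152) (nat_lit 982937311) (nat_lit 228) (nat_lit 11536666817) (nat_lit 50) (nat_lit 5) (nat_lit 52) (nat_lit 5) (nat_lit 53) (nat_lit 5) (nat_lit 496) (nat_lit 359) (nat_lit 285)) (XT.lf (nat_lit 0) (nat_lit 8392256392) (nat_lit 228) (nat_lit 5029983351) (nat_lit 76) (nat_lit 3083690349) (nat_lit 50) (nat_lit 5) (nat_lit 53) (nat_lit 5) (nat_lit 51) (nat_lit 5) (nat_lit 497) (nat_lit 359) (nat_lit 284))) (XT.nd (nat_lit 78) (nat_lit 0) (nat_lit 0) (XT.lf (nat_lit 0) (nat_lit 2589366059) (nat_lit 228) (nat_lit 9527750930) (nat_lit 304) (nat_lit 4627004205) (nat_lit 47) (nat_lit 5) (nat_lit 50) (nat_lit 5) (nat_lit 51) (nat_lit 5) (nat_lit 498) (nat_lit 359) (nat_lit 283)) (XT.lf (nat_lit 0) (nat_lit 10382083534)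 (nat_lit 228) (nat_lit 5540385165) (nat_lit 304) (nat_lit 1064496091) (nat_lit 47) (nat_lit 5) (nat_lit 50) (nat_lit 5) (nat_lit 51) (nat_lit 5) (nat_lit 499) (nat_lit 359) (nat_lit 282))))) (XT.nd (nat_lit 234) (nat_lit 456) (nat_lit 0) (XT.nd (nat_lit 78) (nat_lit 0) (nat_lit 0) (XT.lf (nat_lit 0) (nat_lit 1046383701) (nat_lit 152) (nat_lit 1468571833) (nat_lit 228) (nat_lit 14719796522) (nat_lit 44) (nat_lit 5) (nat_lit 46) (nat_lit 5) (nat_lit 47) (nat_lit 5) (nat_lit 500) (nat_lit 359) (nat_lit 281)) (XT.nd (nat_lit 78) (nat_lit 0) (nat_lit 0) (XT.lf (nat_lit 0) (nat_lit 6186510211) (nat_lit 228) (nat_lit 8617946214) (nat_lit 76) (nat_lit 2682210621) (nat_lit 44) (nat_lit 5) (nat_lit 47) (nat_lit 5) (nat_lit 45) (nat_lit 5) (nat_lit 501) (nat_lit 359) (nat_lit 280)) (XT.lf (nat_lit 0) (nat_lit 9914464596) (nat_lit 228) (nat_lit 951692818) (nat_lit 76) (nat_lit 6877811450) (nat_lit 44) (nat_lit 5) (nat_lit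 47) (nat_lit 5) (nat_lit 45) (nat_lit 5) (nat_lit 502) (nat_lit 359) (nat_lit 279)))) (XT.nd (nat_lit 156) (nat_lit 228) (nat_lit 0) (XT.nd (nat_lit 78) (nat_lit 0) (nat_lit 0) (XT.lf (nat_lit 0) (nat_lit 6913606340) (nat_lit 228) (nat_lit 6822027069) (nat_lit 304) (nat_lit 4270417948) (nat_lit 41) (nat_lit 5) (nat_lit 44) (nat_lit 5) (nat_lit 45) (nat_lit 5) (nat_lit 503) (nat_lit 359) (nat_lit 278)) (XT.lf (nat_lit 0) (nat_lit 14904455174) (nat_lit 228) (nat_lit 2709148825) (nat_lit 304) (nat_lit 660171525) (nat_lit 41) (nat_lit 5) (nat_lit 44) (nat_lit 5) (nat_lit 45) (nat_lit 5) (nat_lit 504) (nat_lit 359) (nat_lit 277))) (XT.nd (nat_lit 78) (nat_lit 0) (nat_lit 0) (XT.lf (nat_lit 0) (nat_lit 2996059886) (nat_lit 228) (nat_lit 14052669690) (nat_lit 76) (nat_lit 1497471088) (nat_lit 38) (nat_lit 5) (nat_lit 41) (nat_lit 5) (nat_lit 39) (nat_lit 5) (nat_lit 505) (nat_lit 359) (nat_lit 276)) (XT.lf (nat_lit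 0) (nat_lit 6731710738) (nat_lit 228) (nat_lit 6331010077) (nat_lit 76) (nat_lit 5760970681) (nat_lit 38) (nat_lit 5) (nat_lit 41) (nat_lit 5) (nat_lit 39) (nat_lit 5) (nat_lit 506) (nat_lit 359) (nat_lit 275)))))) (XT.nd (nat_lit 546) (nat_lit 456) (nat_lit 0) (XT.nd (nat_lit 234) (nat_lit 380) (nat_lit 0) (XT.nd (nat_lit 78) (nat_lit 0) (nat_lit 0) (XT.lf (nat_lit 0) (nat_lit 1521670886) (nat_lit 152) (nat_lit 9005210098) (nat_lit 228) (nat_lit 8580162049) (nat_lit 36) (nat_lit 5) (nat_lit 38) (nat_lit 5) (nat_lit 39) (nat_lit 5) (nat_lit 507) (nat_lit 359) (nat_lit 274)) (XT.nd (nat_lit 78) (nat_lit 0) (nat_lit 0) (XT.lf (nat_lit 0) (nat_lit 9574140470) (nat_lit 152) (nat_lit 4841437164) (nat_lit 228) (nat_lit 4980138383) (nat_lit 36) (nat_lit 5) (nat_lit 38) (nat_lit 5) (nat_lit 39) (nat_lit 5) (nat_lit 508) (nat_lit 359) (nat_lit 273)) (XT.lf (nat_lit 0) (nat_lit 17745420714) (nat_lit 152) (nat_lit 612253571)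 (nat_lit 228) (nat_lit 1332982399) (nat_lit 36) (nat_lit 5) (nat_lit 38) (nat_lit 5) (nat_lit 39) (nat_lit 5) (nat_lit 509) (nat_lit 359) (nat_lit 272)))) (XT.nd (nat_lit 156) (nat_lit 152) (nat_lit 0) (XT.nd (nat_lit 78) (nat_lit 0) (nat_lit 0) (XT.lf (nat_lit 0) (nat_lit 2395712023) (nat_lit 228) (nat_lit 13903614660) (nat_lit 76) (nat_lit 3691067928) (nat_lit 33) (nat_lit 5) (nat_lit 36) (nat_lit 5) (nat_lit 34) (nat_lit 5) (nat_lit 510) (nat_lit 359) (nat_lit 271)) (XT.lf (nat_lit 0) (nat_lit 6174370544) (nat_lit 228) (nat_lit 6044862050) (nat_lit 76) (nat_lit 8076860061) (nat_lit 33) (nat_lit 5) (nat_lit 36) (nat_lit 5) (nat_lit 34) (nat_lit 5) (nat_lit 511) (nat_lit 359) (nat_lit 270))) (XT.nd (nat_lit 78) (nat_lit 0) (nat_lit 0) (XT.lf (nat_lit 0) (nat_lit 1955703848) (nat_lit 152) (nat_lit 8062093659) (nat_lit 228) (nat_lit 10590329477) (nat_lit 31) (nat_lit 5) (nat_lit 33) (nat_lit 5) (nat_lit 34) (nat_lit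 5) (nat_lit 512) (nat_lit 359) (nat_lit 269)) (XT.lf (nat_lit 0) (nat_lit 10157479399) (nat_lit 152) (nat_lit 3797871672) (nat_lit 228) (nat_lit 6970711872) (nat_lit 31) (nat_lit 5) (nat_lit 33) (nat_lit 5) (nat_lit 34) (nat_lit 5) (nat_lit 513) (nat_lit 359) (nat_lit 268))))) (XT.nd (nat_lit 234) (nat_lit 228) (nat_lit 0) (XT.nd (nat_lit 78) (nat_lit 228) (nat_lit 0) (XT.lf (nat_lit 0) (nat_lit 17952277147) (nat_lit 228) (nat_lit 2770943240) (nat_lit 76) (nat_lit 527530795) (nat_lit 31) (nat_lit 5) (nat_lit 34) (nat_lit 5) (nat_lit 32) (nat_lit 4) (nat_lit 514) (nat_lit 359) (nat_lit 267)) (XT.nd (nat_lit 78) (nat_lit 0) (nat_lit 0) (XT.lf (nat_lit 0) (nat_lit 479241557) (nat_lit 228) (nat_lit 16191618375) (nat_lit 76) (nat_lit 4910262969) (nat_lit 28) (nat_lit 5) (nat_lit 31) (nat_lit 5) (nat_lit 29) (nat_lit 5) (nat_lit 515) (nat_lit 359) (nat_lit 266)) (XT.lf (nat_lit 0) (nat_lit 4284626922) (nat_lit 228)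 (nat_lit 8228524256) (nat_lit 76) (nat_lit 9404594822) (nat_lit 28) (nat_lit 5) (nat_lit 31) (nat_lit 5) (nat_lit 29) (nat_lit 5) (nat_lit 516) (nat_lit 359) (nat_lit 265)))) (XT.nd (nat_lit 156) (nat_lit 76) (nat_lit 0) (XT.nd (nat_lit 78) (nat_lit 152) (nat_lit 0) (XT.lf (nat_lit 0) (nat_lit 8144083829) (nat_lit 228) (nat_lit 144941649) (nat_lit 76) (nat_lit 13972522337) (nat_lit 28) (nat_lit 5) (nat_lit 31) (nat_lit 5) (nat_lit 29) (nat_lit 5) (nat_lit 517) (nat_lit 359) (nat_lit 264)) (XT.lf (nat_lit 0) (nat_lit 8169443195) (nat_lit 152) (nat_lit 3942724040) (nat_lit 228) (nat_lit 10499435106) (nat_lit 26) (nat_lit 5) (nat_lit 28) (nat_lit 5) (nat_lit 29) (nat_lit 5) (nat_lit 518) (nat_lit 359) (nat_lit 263))) (XT.nd (nat_lit 78) (nat_lit 76) (nat_lit 0) (XT.lf (nat_lit 0) (nat_lit 16142244330) (nat_lit 228) (nat_lit 6357839963) (nat_lit 76) (nat_lit 468926341) (nat_lit 26) (nat_lit 5) (nat_lit 29) (nat_lit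 5) (nat_lit 27) (nat_lit 4) (nat_lit 519) (nat_lit 359) (nat_lit 262)) (XT.lf (nat_lit 0) (nat_lit 1848960373) (nat_lit 76) (nat_lit 18420968487) (nat_lit 152) (nat_lit 3063303328) (nat_lit 25) (nat_lit 5) (nat_lit 26) (nat_lit 5) (nat_lit 27) (nat_lit 4) (nat_lit 520) (nat_lit 359) (nat_lit 261))))))) (XT.nd (nat_lit 51792) (nat_lit 0) (nat_lit 16644) (XT.nd (nat_lit 546) (nat_lit 228) (nat_lit 0) (XT.nd (nat_lit 234) (nat_lit 76) (nat_lit 0) (XT.nd (nat_lit 78) (nat_lit 152) (nat_lit 0) (XT.lf (nat_lit 0) (nat_lit 787125829) (nat_lit 152) (nat_lit 13440506510) (nat_lit 76) (nat_lit 9476572814) (nat_lit 24) (nat_lit 5) (nat_lit 26) (nat_lit 5) (nat_lit 25) (nat_lit 5) (nat_lit 521) (nat_lit 359) (nat_lit 260)) (XT.nd (nat_lit 78) (nat_lit 152) (nat_lit 0) (XT.lf (nat_lit 0) (nat_lit 4652917430) (nat_lit 152) (nat_lit 5292803062) (nat_lit 76) (nat_lit 14136889599) (nat_lit 24) (nat_lit 5) (nat_lit 26) (nat_lit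 5) (nat_lit 25) (nat_lit 5) (nat_lit 522) (nat_lit 359) (nat_lit 259)) (XT.lf (nat_lit 0) (nat_lit 3021550887) (nat_lit 152) (nat_lit 5573830269) (nat_lit 228) (nat_lit 15873219660) (nat_lit 22) (nat_lit 5) (nat_lit 24) (nat_lit 5) (nat_lit 25) (nat_lit 5) (nat_lit 523) (nat_lit 359) (nat_lit 258)))) (XT.nd (nat_lit 156) (nat_lit 76) (nat_lit 0) (XT.nd (nat_lit 78) (nat_lit 0) (nat_lit 0) (XT.lf (nat_lit 0) (nat_lit 11538241897) (nat_lit 152) (nat_lit 1093873666) (nat_lit 228) (nat_lit 12229892087) (nat_lit 22) (nat_lit 5) (nat_lit 24) (nat_lit 5) (nat_lit 25) (nat_lit 5) (nat_lit 524) (nat_lit 359) (nat_lit 257)) (XT.lf (nat_lit 0) (nat_lit 16752349747) (nat_lit 228) (nat_lit 5095877150) (nat_lit 76) (nat_lit 3415005049) (nat_lit 22) (nat_lit 5) (nat_lit 25) (nat_lit 5) (nat_lit 23) (nat_lit 4) (nat_lit 525) (nat_lit 359) (nat_lit 256))) (XT.nd (nat_lit 78) (nat_lit 0) (nat_lit 0) (XT.lf (nat_lit 0) (nat_lit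 3297975807) (nat_lit 76) (nat_lit 17666256568) (nat_lit 152) (nat_lit 4708068015) (nat_lit 21) (nat_lit 5) (nat_lit 22) (nat_lit 5) (nat_lit 23) (nat_lit 4) (nat_lit 526) (nat_lit 359) (nat_lit 255)) (XT.lf (nat_lit 0) (nat_lit 11894406663) (nat_lit 76) (nat_lit 13380886392) (nat_lit 152) (nat_lit 813962789) (nat_lit 21) (nat_lit 5) (nat_lit 22) (nat_lit 5) (nat_lit 23) (nat_lit 4) (nat_lit 527) (nat_lit 359) (nat_lit 254))))) (XT.nd (nat_lit 50934) (nat_lit 0) (nat_lit 24320) (XT.nd (nat_lit 78) (nat_lit 152) (nat_lit 0) (XT.lf (nat_lit 0) (nat_lit 3097599098) (nat_lit 152) (nat_lit 5906246232) (nat_lit 76) (nat_lit 17510679421) (nat_lit 20) (nat_lit 5) (nat_lit 22) (nat_lit 5) (nat_lit 21) (nat_lit 5) (nat_lit 528) (nat_lit 359) (nat_lit 253)) (XT.nd (nat_lit 78) (nat_lit 0) (nat_lit 0) (XT.lf (nat_lit 0) (nat_lit 2542795386) (nat_lit 152) (nat_lit 4531582889) (nat_lit 228) (nat_lit 19873859645) (nat_lit 18)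 (nat_lit 5) (nat_lit 20) (nat_lit 5) (nat_lit 21) (nat_lit 5) (nat_lit 529) (nat_lit 359) (nat_lit 252)) (XT.lf (nat_lit 0) (nat_lit 11152206368) (nat_lit 228) (nat_lit 16182764350) (nat_lit 76) (nat_lit 55228479) (nat_lit 18) (nat_lit 5) (nat_lit 21) (nat_lit 5) (nat_lit 19) (nat_lit 4) (nat_lit 530) (nat_lit 359) (nat_lit 251)))) (XT.nd (nat_lit 156) (nat_lit 912) (nat_lit 0) (XT.nd (nat_lit 78) (nat_lit 912) (nat_lit 0) (XT.lf (nat_lit 0) (nat_lit 1650930042) (nat_lit 1292) (nat_lit 990885977) (nat_lit 1292) (nat_lit 990885977) (nat_lit 362) (nat_lit 4) (nat_lit 379) (nat_lit 5) (nat_lit 379) (nat_lit 4) (nat_lit 420) (nat_lit 360) (nat_lit 360)) (XT.lf (nat_lit 0) (nat_lit 1023772046) (nat_lit 836) (nat_lit 269995920) (nat_lit 912) (nat_lit 6014885793) (nat_lit 350) (nat_lit 5) (nat_lit 361) (nat_lit 5) (nat_lit 362) (nat_lit 4) (nat_lit 421) (nat_lit 360) (nat_lit 359))) (XT.nd (nat_lit 78) (nat_lit 912)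 (nat_lit 0) (XT.lf (nat_lit 0) (nat_lit 4580608552) (nat_lit 912) (nat_lit 1278286329) (nat_lit 0) (nat_lit 1494227083) (nat_lit 350) (nat_lit 5) (nat_lit 362) (nat_lit 4) (nat_lit 350) (nat_lit 4) (nat_lit 422) (nat_lit 360) (nat_lit 358)) (XT.lf (nat_lit 0) (nat_lit 491120152) (nat_lit 912) (nat_lit 3592271327) (nat_lit 76) (nat_lit 3315809634) (nat_lit 338) (nat_lit 5) (nat_lit 350) (nat_lit 5) (nat_lit 339) (nat_lit 4) (nat_lit 423) (nat_lit 360) (nat_lit 357)))))) (XT.nd (nat_lit 546) (nat_lit 3572) (nat_lit 0) (XT.nd (nat_lit 234) (nat_lit 2356) (nat_lit 0) (XT.nd (nat_lit 78) (nat_lit 912) (nat_lit 0) (XT.lf (nat_lit 0) (nat_lit 1499545509) (nat_lit 836) (nat_lit 2239296318) (nat_lit 912) (nat_lit 3707933080) (nat_lit 327) (nat_lit 5) (nat_lit 338) (nat_lit 5) (nat_lit 339) (nat_lit 4) (nat_lit 424) (nat_lit 360) (nat_lit 356)) (XT.nd (nat_lit 78) (nat_lit 912) (nat_lit 0) (XT.lf (nat_lit 0) (nat_lit 6675481755)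 (nat_lit 836) (nat_lit 338469721) (nat_lit 912) (nat_lit 482157262) (nat_lit 327) (nat_lit 5) (nat_lit 338) (nat_lit 5) (nat_lit 339) (nat_lit 4) (nat_lit 425) (nat_lit 360) (nat_lit 355)) (XT.lf (nat_lit 0) (nat_lit 2749502239) (nat_lit 912) (nat_lit 3175666639) (nat_lit 76) (nat_lit 1621386782) (nat_lit 315) (nat_lit 5) (nat_lit 327) (nat_lit 5) (nat_lit 316) (nat_lit 4) (nat_lit 426) (nat_lit 360) (nat_lit 354)))) (XT.nd (nat_lit 156) (nat_lit 1520) (nat_lit 0) (XT.nd (nat_lit 78) (nat_lit 76) (nat_lit 0) (XT.lf (nat_lit 0) (nat_lit 2033900229) (nat_lit 760) (nat_lit 3966249861) (nat_lit 836) (nat_lit 1598635395) (nat_lit 305) (nat_lit 5) (nat_lit 315) (nat_lit 5) (nat_lit 316) (nat_lit 4) (nat_lit 427) (nat_lit 360) (nat_lit 353)) (XT.lf (nat_lit 0) (nat_lit 1603500772) (nat_lit 836) (nat_lit 339041406) (nat_lit 76) (nat_lit 5710122119) (nat_lit 304) (nat_lit 5) (nat_lit 315) (nat_lit 5) (nat_lit 305) (nat_lit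 5) (nat_lit 428) (nat_lit 360) (nat_lit 352))) (XT.nd (nat_lit 78) (nat_lit 760) (nat_lit 0) (XT.lf (nat_lit 0) (nat_lit 4822949095) (nat_lit 836) (nat_lit 2728819120) (nat_lit 76) (nat_lit 156198445) (nat_lit 294) (nat_lit 5) (nat_lit 305) (nat_lit 5) (nat_lit 295) (nat_lit 4) (nat_lit 429) (nat_lit 360) (nat_lit 351)) (XT.lf (nat_lit 0) (nat_lit 311696509) (nat_lit 760) (nat_lit 5168408419) (nat_lit 76) (nat_lit 2284799008) (nat_lit 284) (nat_lit 5) (nat_lit 294) (nat_lit 5) (nat_lit 285) (nat_lit 5) (nat_lit 430) (nat_lit 360) (nat_lit 350))))) (XT.nd (nat_lit 312) (nat_lit 1368) (nat_lit 0) (XT.nd (nat_lit 156) (nat_lit 1444) (nat_lit 0) (XT.nd (nat_lit 78) (nat_lit 0) (nat_lit 0) (XT.lf (nat_lit 0) (nat_lit 158587154) (nat_lit 760) (nat_lit 3336877616) (nat_lit 836) (nat_lit 4327946669) (nat_lit 274) (nat_lit 5) (nat_lit 284) (nat_lit 5) (nat_lit 285) (nat_lit 5) (nat_lit 431) (nat_lit 360) (nat_lit 349))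 (XT.lf (nat_lit 0) (nat_lit 5595664302) (nat_lit 760) (nat_lit 1124878729) (nat_lit 836) (nat_lit 1163040319) (nat_lit 274) (nat_lit 5) (nat_lit 284) (nat_lit 5) (nat_lit 285) (nat_lit 5) (nat_lit 432) (nat_lit 360) (nat_lit 348))) (XT.nd (nat_lit 78) (nat_lit 684) (nat_lit 0) (XT.lf (nat_lit 0) (nat_lit 2009748534) (nat_lit 760) (nat_lit 4794426358) (nat_lit 76) (nat_lit 1141127378) (nat_lit 264) (nat_lit 5) (nat_lit 274) (nat_lit 5) (nat_lit 265) (nat_lit 5) (nat_lit 433) (nat_lit 360) (nat_lit 347)) (XT.lf (nat_lit 0) (nat_lit 648091870) (nat_lit 684) (nat_lit 4553724339) (nat_lit 760) (nat_lit 2806901922) (nat_lit 255) (nat_lit 5) (nat_lit 264) (nat_lit 5) (nat_lit 265) (nat_lit 5) (nat_lit 434) (nat_lit 360) (nat_lit 346)))) (XT.nd (nat_lit 156) (nat_lit 684) (nat_lit 0) (XT.nd (nat_lit 78) (nat_lit 608) (nat_lit 0) (XT.lf (nat_lit 0) (nat_lit 356193338) (nat_lit 760) (nat_lit 1878024313) (nat_lit 76) (nat_lit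 5839639061) (nat_lit 254) (nat_lit 5) (nat_lit 264) (nat_lit 5) (nat_lit 255) (nat_lit 5) (nat_lit 435) (nat_lit 360) (nat_lit 345)) (XT.lf (nat_lit 0) (nat_lit 3515557688) (nat_lit 684) (nat_lit 4463453321) (nat_lit 76) (nat_lit 161545840) (nat_lit 246) (nat_lit 5) (nat_lit 255) (nat_lit 5) (nat_lit 247) (nat_lit 5) (nat_lit 436) (nat_lit 360) (nat_lit 344))) (XT.nd (nat_lit 78) (nat_lit 76) (nat_lit 0) (XT.lf (nat_lit 0) (nat_lit 1093613203) (nat_lit 608) (nat_lit 5625259084) (nat_lit 684) (nat_lit 1490144314) (nat_lit 238) (nat_lit 5) (nat_lit 246) (nat_lit 5) (nat_lit 247) (nat_lit 5) (nat_lit 437) (nat_lit 360) (nat_lit 343)) (XT.lf (nat_lit 0) (nat_lit 1661581346) (nat_lit 684) (nat_lit 1533823561) (nat_lit 76) (nat_lit 5083726881) (nat_lit 237) (nat_lit 5) (nat_lit 246) (nat_lit 5) (nat_lit 238) (nat_lit 5) (nat_lit 438) (nat_lit 360) (nat_lit 342))))))))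
noncomputable def xc56 : XT := (XT.nd (nat_lit 2184) (nat_lit 4864) (nat_lit 0) (XT.nd (nat_lit 1092) (nat_lit 3496) (nat_lit 0) (XT.nd (nat_lit 546) (nat_lit 2660) (nat_lit 0) (XT.nd (nat_lit 234) (nat_lit 1672) (nat_lit 0) (XT.nd (nat_lit 78) (nat_lit 684) (nat_lit 0) (XT.lf (nat_lit 0) (nat_lit 4138485152) (nat_lit 608) (nat_lit 692258637) (nat_lit 684) (nat_lit 3520259902) (nat_lit 229) (nat_lit 5) (nat_lit 237) (nat_lit 5) (nat_lit 238) (nat_lit 5) (nat_lit 439) (nat_lit 360) (nat_lit 341)) (XT.nd (nat_lit 78) (nat_lit 76) (nat_lit 0) (XT.lf (nat_lit 0) (nat_lit 1462075303) (nat_lit 608) (nat_lit 6581141934) (nat_lit 684) (nat_lit 381535000) (nat_lit 221) (nat_lit 5) (nat_lit 229) (nat_lit 5) (nat_lit 230) (nat_lit 5) (nat_lit 440) (nat_lit 360) (nat_lit 340)) (XT.lf (nat_lit 0) (nat_lit 2764229388) (nat_lit 684) (nat_lit 1281393166) (nat_lit 76) (nat_lit 4454398325) (nat_lit 220) (nat_lit 5) (nat_lit 229)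 (nat_lit 5) (nat_lit 221) (nat_lit 5) (nat_lit 441) (nat_lit 360) (nat_lit 339)))) (XT.nd (nat_lit 156) (nat_lit 532) (nat_lit 0) (XT.nd (nat_lit 78) (nat_lit 608) (nat_lit 0) (XT.lf (nat_lit 0) (nat_lit 4505208710) (nat_lit 532) (nat_lit 1441072092) (nat_lit 608) (nat_lit 2630929625) (nat_lit 213) (nat_lit 5) (nat_lit 220) (nat_lit 5) (nat_lit 221) (nat_lit 5) (nat_lit 442) (nat_lit 360) (nat_lit 338)) (XT.lf (nat_lit 0) (nat_lit 506229649) (nat_lit 608) (nat_lit 6941420325) (nat_lit 76) (nat_lit 1208713780) (nat_lit 205) (nat_lit 5) (nat_lit 213) (nat_lit 5) (nat_lit 206) (nat_lit 5) (nat_lit 443) (nat_lit 360) (nat_lit 337))) (XT.nd (nat_lit 78) (nat_lit 532) (nat_lit 0) (XT.lf (nat_lit 0) (nat_lit 3657897569) (nat_lit 608) (nat_lit 1156533054) (nat_lit 76) (nat_lit 3922615374) (nat_lit 205) (nat_lit 5) (nat_lit 213) (nat_lit 5) (nat_lit 206) (nat_lit 5) (nat_lit 444) (nat_lit 360) (nat_lit 336)) (XT.lf (nat_lit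 0) (nat_lit 4741873778) (nat_lit 532) (nat_lit 2112405515) (nat_lit 608) (nat_lit 1965461855) (nat_lit 198) (nat_lit 5) (nat_lit 205) (nat_lit 5) (nat_lit 206) (nat_lit 5) (nat_lit 445) (nat_lit 360) (nat_lit 335))))) (XT.nd (nat_lit 234) (nat_lit 1596) (nat_lit 0) (XT.nd (nat_lit 78) (nat_lit 456) (nat_lit 0) (XT.lf (nat_lit 0) (nat_lit 1169606749) (nat_lit 608) (nat_lit 7087468776) (nat_lit 76) (nat_lit 647389401) (nat_lit 190) (nat_lit 5) (nat_lit 198) (nat_lit 5) (nat_lit 191) (nat_lit 5) (nat_lit 446) (nat_lit 360) (nat_lit 334)) (XT.nd (nat_lit 78) (nat_lit 456) (nat_lit 0) (XT.lf (nat_lit 0) (nat_lit 4334145910) (nat_lit 608) (nat_lit 1197586618) (nat_lit 76) (nat_lit 3459060061) (nat_lit 190) (nat_lit 5) (nat_lit 198) (nat_lit 5) (nat_lit 191) (nat_lit 5) (nat_lit 447) (nat_lit 360) (nat_lit 333)) (XT.lf (nat_lit 0) (nat_lit 4809347790) (nat_lit 456) (nat_lit 2736330810) (nat_lit 532) (nat_lit 1533524517)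 (nat_lit 184) (nat_lit 5) (nat_lit 190) (nat_lit 5) (nat_lit 191) (nat_lit 5) (nat_lit 448) (nat_lit 360) (nat_lit 332)))) (XT.nd (nat_lit 156) (nat_lit 988) (nat_lit 0) (XT.nd (nat_lit 78) (nat_lit 0) (nat_lit 0) (XT.lf (nat_lit 0) (nat_lit 1603217263) (nat_lit 608) (nat_lit 7439292960) (nat_lit 76) (nat_lit 127229813) (nat_lit 176) (nat_lit 5) (nat_lit 184) (nat_lit 5) (nat_lit 177) (nat_lit 5) (nat_lit 449) (nat_lit 360) (nat_lit 331)) (XT.lf (nat_lit 0) (nat_lit 4782206076) (nat_lit 608) (nat_lit 1445840966) (nat_lit 76) (nat_lit 3033865614) (nat_lit 176) (nat_lit 5) (nat_lit 184) (nat_lit 5) (nat_lit 177) (nat_lit 5) (nat_lit 450) (nat_lit 360) (nat_lit 330))) (XT.nd (nat_lit 78) (nat_lit 532) (nat_lit 0) (XT.lf (nat_lit 0) (nat_lit 4665438790) (nat_lit 456) (nat_lit 3343610104) (nat_lit 532) (nat_lit 1347222406) (nat_lit 170) (nat_lit 5) (nat_lit 176) (nat_lit 5) (nat_lit 177) (nat_lit 5) (nat_lit 451)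 (nat_lit 360) (nat_lit 329)) (XT.lf (nat_lit 0) (nat_lit 1409189818) (nat_lit 456) (nat_lit 387550899) (nat_lit 532) (nat_lit 7656102110) (nat_lit 163) (nat_lit 5) (nat_lit 169) (nat_lit 5) (nat_lit 170) (nat_lit 5) (nat_lit 452) (nat_lit 360) (nat_lit 328)))))) (XT.nd (nat_lit 546) (nat_lit 1596) (nat_lit 0) (XT.nd (nat_lit 234) (nat_lit 912) (nat_lit 0) (XT.nd (nat_lit 78) (nat_lit 988) (nat_lit 0) (XT.lf (nat_lit 0) (nat_lit 4988831406) (nat_lit 532) (nat_lit 1945960107) (nat_lit 76) (nat_lit 2616336855) (nat_lit 163) (nat_lit 5) (nat_lit 170) (nat_lit 5) (nat_lit 164) (nat_lit 5) (nat_lit 453) (nat_lit 360) (nat_lit 327)) (XT.nd (nat_lit 78) (nat_lit 532) (nat_lit 0) (XT.lf (nat_lit 0) (nat_lit 4264449938) (nat_lit 456) (nat_lit 3965983872) (nat_lit 532) (nat_lit 1421258331) (nat_lit 157) (nat_lit 5) (nat_lit 163) (nat_lit 5) (nat_lit 164) (nat_lit 5) (nat_lit 454) (nat_lit 360) (nat_lit 326)) (XT.lf (nat_lit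 0) (nat_lit 807568540) (nat_lit 456) (nat_lit 925610484) (nat_lit 532) (nat_lit 8021402460) (nat_lit 150) (nat_lit 5) (nat_lit 156) (nat_lit 5) (nat_lit 157) (nat_lit 5) (nat_lit 455) (nat_lit 360) (nat_lit 325)))) (XT.nd (nat_lit 156) (nat_lit 532) (nat_lit 0) (XT.nd (nat_lit 78) (nat_lit 380) (nat_lit 0) (XT.lf (nat_lit 0) (nat_lit 4938123575) (nat_lit 532) (nat_lit 2746455216) (nat_lit 76) (nat_lit 2174657376) (nat_lit 150) (nat_lit 5) (nat_lit 157) (nat_lit 5) (nat_lit 151) (nat_lit 5) (nat_lit 456) (nat_lit 360) (nat_lit 324)) (XT.lf (nat_lit 0) (nat_lit 3556695552) (nat_lit 380) (nat_lit 4636473583) (nat_lit 456) (nat_lit 1773118711) (nat_lit 145) (nat_lit 5) (nat_lit 150) (nat_lit 5) (nat_lit 151) (nat_lit 5) (nat_lit 457) (nat_lit 360) (nat_lit 323))) (XT.nd (nat_lit 78) (nat_lit 456) (nat_lit 0) (XT.lf (nat_lit 0) (nat_lit 1394451167) (nat_lit 456) (nat_lit 123554117) (nat_lit 76) (nat_lit 8557802110)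 (nat_lit 144) (nat_lit 5) (nat_lit 150) (nat_lit 5) (nat_lit 145) (nat_lit 5) (nat_lit 458) (nat_lit 360) (nat_lit 322)) (XT.lf (nat_lit 0) (nat_lit 4611334011) (nat_lit 532) (nat_lit 3900196539) (nat_lit 76) (nat_lit 1675580869) (nat_lit 138) (nat_lit 5) (nat_lit 145) (nat_lit 5) (nat_lit 139) (nat_lit 5) (nat_lit 459) (nat_lit 360) (nat_lit 321))))) (XT.nd (nat_lit 234) (nat_lit 760) (nat_lit 0) (XT.nd (nat_lit 78) (nat_lit 456) (nat_lit 0) (XT.lf (nat_lit 0) (nat_lit 2487973997) (nat_lit 380) (nat_lit 5389701595) (nat_lit 456) (nat_lit 2423285634) (nat_lit 133) (nat_lit 5) (nat_lit 138) (nat_lit 5) (nat_lit 139) (nat_lit 5) (nat_lit 460) (nat_lit 360) (nat_lit 320)) (XT.nd (nat_lit 78) (nat_lit 380) (nat_lit 0) (XT.lf (nat_lit 0) (nat_lit 766421750) (nat_lit 456) (nat_lit 1426520192) (nat_lit 76) (nat_lit 8224373346) (nat_lit 132) (nat_lit 5) (nat_lit 138) (nat_lit 5) (nat_lit 133) (nat_lit 5) (nat_lit 461)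 (nat_lit 360) (nat_lit 319)) (XT.lf (nat_lit 0) (nat_lit 3986637986) (nat_lit 456) (nat_lit 5464971897) (nat_lit 76) (nat_lit 1084103785) (nat_lit 127) (nat_lit 5) (nat_lit 133) (nat_lit 5) (nat_lit 128) (nat_lit 5) (nat_lit 462) (nat_lit 360) (nat_lit 318)))) (XT.nd (nat_lit 156) (nat_lit 456) (nat_lit 0) (XT.nd (nat_lit 78) (nat_lit 0) (nat_lit 0) (XT.lf (nat_lit 0) (nat_lit 998992309) (nat_lit 304) (nat_lit 6262231237) (nat_lit 380) (nat_lit 3395477607) (nat_lit 123) (nat_lit 5) (nat_lit 127) (nat_lit 5) (nat_lit 128) (nat_lit 5) (nat_lit 463) (nat_lit 360) (nat_lit 317)) (XT.lf (nat_lit 0) (nat_lit 7606192362) (nat_lit 304) (nat_lit 2991508573) (nat_lit 380) (nat_lit 182499487) (nat_lit 123) (nat_lit 5) (nat_lit 127) (nat_lit 5) (nat_lit 128) (nat_lit 5) (nat_lit 464) (nat_lit 360) (nat_lit 316))) (XT.nd (nat_lit 78) (nat_lit 0) (nat_lit 0) (XT.lf (nat_lit 0) (nat_lit 3038878977) (nat_lit 456) (nat_lit 7504097213)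 (nat_lit 76) (nat_lit 363116307) (nat_lit 117) (nat_lit 5) (nat_lit 123) (nat_lit 5) (nat_lit 118) (nat_lit 5) (nat_lit 465) (nat_lit 360) (nat_lit 315)) (XT.lf (nat_lit 0) (nat_lit 6323999195) (nat_lit 456) (nat_lit 962472322) (nat_lit 76) (nat_lit 3747990494) (nat_lit 117) (nat_lit 5) (nat_lit 123) (nat_lit 5) (nat_lit 118) (nat_lit 5) (nat_lit 466) (nat_lit 360) (nat_lit 314))))))) (XT.nd (nat_lit 1092) (nat_lit 2128) (nat_lit 0) (XT.nd (nat_lit 546) (nat_lit 988) (nat_lit 0) (XT.nd (nat_lit 234) (nat_lit 988) (nat_lit 0) (XT.nd (nat_lit 78) (nat_lit 456) (nat_lit 0) (XT.lf (nat_lit 0) (nat_lit 5726482907) (nat_lit 304) (nat_lit 3946797401) (nat_lit 380) (nat_lit 1492167948) (nat_lit 113) (nat_lit 5) (nat_lit 117) (nat_lit 5) (nat_lit 118) (nat_lit 5) (nat_lit 467) (nat_lit 360) (nat_lit 313)) (XT.nd (nat_lit 78) (nat_lit 0) (nat_lit 0) (XT.lf (nat_lit 0) (nat_lit 1208772813) (nat_lit 380) (nat_lit 533974778)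 (nat_lit 456) (nat_lit 9556577177) (nat_lit 107) (nat_lit 5) (nat_lit 112) (nat_lit 5) (nat_lit 113) (nat_lit 5) (nat_lit 468) (nat_lit 360) (nat_lit 312)) (XT.lf (nat_lit 0) (nat_lit 5039909822) (nat_lit 456) (nat_lit 3460230944) (nat_lit 76) (nat_lit 2935207653) (nat_lit 107) (nat_lit 5) (nat_lit 113) (nat_lit 5) (nat_lit 108) (nat_lit 5) (nat_lit 469) (nat_lit 360) (nat_lit 311)))) (XT.nd (nat_lit 156) (nat_lit 608) (nat_lit 0) (XT.nd (nat_lit 78) (nat_lit 76) (nat_lit 0) (XT.lf (nat_lit 0) (nat_lit 3284376325) (nat_lit 304) (nat_lit 5105887071) (nat_lit 380) (nat_lit 3184101285) (nat_lit 103) (nat_lit 5) (nat_lit 107) (nat_lit 5) (nat_lit 108) (nat_lit 5) (nat_lit 470) (nat_lit 360) (nat_lit 310)) (XT.lf (nat_lit 0) (nat_lit 76125551) (nat_lit 380) (nat_lit 1563657784) (nat_lit 76) (nat_lit 10076665248) (nat_lit 102) (nat_lit 5) (nat_lit 107) (nat_lit 5) (nat_lit 103) (nat_lit 5) (nat_lit 471) (nat_lit 360)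 (nat_lit 309))) (XT.nd (nat_lit 78) (nat_lit 304) (nat_lit 0) (XT.lf (nat_lit 0) (nat_lit 3369067416) (nat_lit 380) (nat_lit 6584944207) (nat_lit 76) (nat_lit 1906754804) (nat_lit 98) (nat_lit 5) (nat_lit 103) (nat_lit 5) (nat_lit 99) (nat_lit 5) (nat_lit 472) (nat_lit 360) (nat_lit 308)) (XT.lf (nat_lit 0) (nat_lit 200126374) (nat_lit 304) (nat_lit 6513911276) (nat_lit 380) (nat_lit 5294225386) (nat_lit 94) (nat_lit 5) (nat_lit 98) (nat_lit 5) (nat_lit 99) (nat_lit 5) (nat_lit 473) (nat_lit 360) (nat_lit 307))))) (XT.nd (nat_lit 234) (nat_lit 608) (nat_lit 0) (XT.nd (nat_lit 78) (nat_lit 380) (nat_lit 0) (XT.lf (nat_lit 0) (nat_lit 7153438466) (nat_lit 304) (nat_lit 2980453928) (nat_lit 380) (nat_lit 2024672969) (nat_lit 94) (nat_lit 5) (nat_lit 98) (nat_lit 5) (nat_lit 99) (nat_lit 5) (nat_lit 474) (nat_lit 360) (nat_lit 306)) (XT.nd (nat_lit 78) (nat_lit 0) (nat_lit 0) (XT.lf (nat_lit 0) (nat_lit 1273695750)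 (nat_lit 380) (nat_lit 10422062168) (nat_lit 76) (nat_lit 616348371) (nat_lit 89) (nat_lit 5) (nat_lit 94) (nat_lit 5) (nat_lit 90) (nat_lit 5) (nat_lit 475) (nat_lit 360) (nat_lit 305)) (XT.lf (nat_lit 0) (nat_lit 4628957940) (nat_lit 380) (nat_lit 3566770825) (nat_lit 76) (nat_lit 4272375473) (nat_lit 89) (nat_lit 5) (nat_lit 94) (nat_lit 5) (nat_lit 90) (nat_lit 5) (nat_lit 476) (nat_lit 360) (nat_lit 304)))) (XT.nd (nat_lit 156) (nat_lit 380) (nat_lit 0) (XT.nd (nat_lit 78) (nat_lit 0) (nat_lit 0) (XT.lf (nat_lit 0) (nat_lit 3415201701) (nat_lit 228) (nat_lit 4623457772) (nat_lit 304) (nat_lit 4588830300) (nat_lit 86) (nat_lit 5) (nat_lit 89) (nat_lit 5) (nat_lit 90) (nat_lit 5) (nat_lit 477) (nat_lit 360) (nat_lit 303)) (XT.lf (nat_lit 0) (nat_lit 10530309827) (nat_lit 228) (nat_lit 975667456) (nat_lit 304) (nat_lit 1284311319) (nat_lit 86) (nat_lit 5) (nat_lit 89) (nat_lit 5) (nat_lit 90) (nat_lit 5) (nat_lit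 478) (nat_lit 360) (nat_lit 302))) (XT.nd (nat_lit 78) (nat_lit 0) (nat_lit 0) (XT.lf (nat_lit 0) (nat_lit 2074190834) (nat_lit 380) (nat_lit 8147236315) (nat_lit 76) (nat_lit 2734353730) (nat_lit 81) (nat_lit 5) (nat_lit 86) (nat_lit 5) (nat_lit 82) (nat_lit 5) (nat_lit 479) (nat_lit 360) (nat_lit 301)) (XT.lf (nat_lit 0) (nat_lit 5470523578) (nat_lit 380) (nat_lit 1144717788) (nat_lit 76) (nat_lit 6509427920) (nat_lit 81) (nat_lit 5) (nat_lit 86) (nat_lit 5) (nat_lit 82) (nat_lit 5) (nat_lit 480) (nat_lit 360) (nat_lit 300)))))) (XT.nd (nat_lit 546) (nat_lit 988) (nat_lit 0) (XT.nd (nat_lit 234) (nat_lit 532) (nat_lit 0) (XT.nd (nat_lit 78) (nat_lit 380) (nat_lit 0) (XT.lf (nat_lit 0) (nat_lit 6023473681) (nat_lit 228) (nat_lit 2917196060) (nat_lit 304) (nat_lit 4356160947) (nat_lit 78) (nat_lit 5) (nat_lit 81) (nat_lit 5) (nat_lit 82) (nat_lit 5) (nat_lit 481) (nat_lit 360) (nat_lit 299)) (XT.nd (nat_lit 78)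 (nat_lit 380) (nat_lit 0) (XT.lf (nat_lit 0) (nat_lit 12460456287) (nat_lit 304) (nat_lit 180902252) (nat_lit 76) (nat_lit 831484734) (nat_lit 78) (nat_lit 5) (nat_lit 82) (nat_lit 5) (nat_lit 79) (nat_lit 5) (nat_lit 482) (nat_lit 360) (nat_lit 298)) (XT.lf (nat_lit 0) (nat_lit 2399867505) (nat_lit 380) (nat_lit 6593171659) (nat_lit 76) (nat_lit 4658376564) (nat_lit 73) (nat_lit 5) (nat_lit 78) (nat_lit 5) (nat_lit 74) (nat_lit 5) (nat_lit 483) (nat_lit 360) (nat_lit 297)))) (XT.nd (nat_lit 156) (nat_lit 304) (nat_lit 0) (XT.nd (nat_lit 78) (nat_lit 0) (nat_lit 0) (XT.lf (nat_lit 0) (nat_lit 559098847) (nat_lit 228) (nat_lit 5280251834) (nat_lit 304) (nat_lit 7994636297) (nat_lit 70) (nat_lit 5) (nat_lit 73) (nat_lit 5) (nat_lit 74) (nat_lit 5) (nat_lit 484) (nat_lit 360) (nat_lit 296)) (XT.lf (nat_lit 0) (nat_lit 7891521679) (nat_lit 228) (nat_lit 1468314736) (nat_lit 304) (nat_lit 4660140720) (nat_lit 70)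 (nat_lit 5) (nat_lit 73) (nat_lit 5) (nat_lit 74) (nat_lit 5) (nat_lit 485) (nat_lit 360) (nat_lit 295))) (XT.nd (nat_lit 78) (nat_lit 76) (nat_lit 0) (XT.lf (nat_lit 0) (nat_lit 1107974599) (nat_lit 228) (nat_lit 11834130809) (nat_lit 304) (nat_lit 1267765723) (nat_lit 67) (nat_lit 5) (nat_lit 70) (nat_lit 5) (nat_lit 71) (nat_lit 5) (nat_lit 486) (nat_lit 360) (nat_lit 294)) (XT.lf (nat_lit 0) (nat_lit 2183358659) (nat_lit 304) (nat_lit 5906605560) (nat_lit 76) (nat_lit 6312932027) (nat_lit 66) (nat_lit 5) (nat_lit 70) (nat_lit 5) (nat_lit 67) (nat_lit 5) (nat_lit 487) (nat_lit 360) (nat_lit 293))))) (XT.nd (nat_lit 234) (nat_lit 532) (nat_lit 0) (XT.nd (nat_lit 78) (nat_lit 228) (nat_lit 0) (XT.lf (nat_lit 0) (nat_lit 1391623330) (nat_lit 228) (nat_lit 4273109889) (nat_lit 304) (nat_lit 8935327828) (nat_lit 63) (nat_lit 5) (nat_lit 66) (nat_lit 5) (nat_lit 67) (nat_lit 5) (nat_lit 488) (nat_lit 360) (nat_lit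 292)) (XT.nd (nat_lit 78) (nat_lit 228) (nat_lit 0) (XT.lf (nat_lit 0) (nat_lit 8865393262) (nat_lit 228) (nat_lit 359407358) (nat_lit 304) (nat_lit 5576197848) (nat_lit 63) (nat_lit 5) (nat_lit 66) (nat_lit 5) (nat_lit 67) (nat_lit 5) (nat_lit 489) (nat_lit 360) (nat_lit 291)) (XT.lf (nat_lit 0) (nat_lit 1427843108) (nat_lit 228) (nat_lit 11430983381) (nat_lit 304) (nat_lit 2147083430) (nat_lit 60) (nat_lit 5) (nat_lit 63) (nat_lit 5) (nat_lit 64) (nat_lit 5) (nat_lit 490) (nat_lit 360) (nat_lit 290)))) (XT.nd (nat_lit 156) (nat_lit 228) (nat_lit 0) (XT.nd (nat_lit 78) (nat_lit 228) (nat_lit 0) (XT.lf (nat_lit 0) (nat_lit 1345336447) (nat_lit 304) (nat_lit 6256579538) (nat_lit 76) (nat_lit 7612589519) (nat_lit 59) (nat_lit 5) (nat_lit 63) (nat_lit 5) (nat_lit 60) (nat_lit 5) (nat_lit 491) (nat_lit 360) (nat_lit 289)) (XT.lf (nat_lit 0) (nat_lit 1163294220) (nat_lit 228) (nat_lit 3693691501) (nat_lit 304) (nat_lit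 10570450646) (nat_lit 56) (nat_lit 5) (nat_lit 59) (nat_lit 5) (nat_lit 60) (nat_lit 5) (nat_lit 492) (nat_lit 360) (nat_lit 288))) (XT.nd (nat_lit 78) (nat_lit 228) (nat_lit 0) (XT.lf (nat_lit 0) (nat_lit 8453715861) (nat_lit 304) (nat_lit 6878813963) (nat_lit 76) (nat_lit 311808698) (nat_lit 56) (nat_lit 5) (nat_lit 60) (nat_lit 5) (nat_lit 57) (nat_lit 5) (nat_lit 493) (nat_lit 360) (nat_lit 287)) (XT.lf (nat_lit 0) (nat_lit 589227849) (nat_lit 228) (nat_lit 11532699262) (nat_lit 304) (nat_lit 3743670118) (nat_lit 53) (nat_lit 5) (nat_lit 56) (nat_lit 5) (nat_lit 57) (nat_lit 5) (nat_lit 494) (nat_lit 360) (nat_lit 286))))))))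
noncomputable def xc57 : XT := (XT.nd (nat_lit 2184) (nat_lit 456) (nat_lit 0) (XT.nd (nat_lit 1092) (nat_lit 912) (nat_lit 0) (XT.nd (nat_lit 546) (nat_lit 608) (nat_lit 0) (XT.nd (nat_lit 234) (nat_lit 456) (nat_lit 0) (XT.nd (nat_lit 78) (nat_lit 228) (nat_lit 0) (XT.lf (nat_lit 0) (nat_lit 8251932894) (nat_lit 228) (nat_lit 7629241746) (nat_lit 304) (nat_lit 209762286) (nat_lit 53) (nat_lit 5) (nat_lit 56) (nat_lit 5) (nat_lit 57) (nat_lit 5) (nat_lit 495) (nat_lit 360) (nat_lit 285)) (XT.nd (nat_lit 78) (nat_lit 152) (nat_lit 0) (XT.lf (nat_lit 0) (nat_lit 3322176244) (nat_lit 304) (nat_lit 322317173) (nat_lit 76) (nat_lit 12676420541) (nat_lit 52) (nat_lit 5) (nat_lit 56) (nat_lit 5) (nat_lit 53) (nat_lit 5) (nat_lit 496) (nat_lit 360) (nat_lit 284)) (XT.lf (nat_lit 0) (nat_lit 6945311929) (nat_lit 228) (nat_lit 9164163474) (nat_lit 76) (nat_lit 445528778) (nat_lit 50) (nat_lit 5) (nat_lit 53) (nat_lit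 5) (nat_lit 51) (nat_lit 5) (nat_lit 497) (nat_lit 360) (nat_lit 283)))) (XT.nd (nat_lit 156) (nat_lit 228) (nat_lit 0) (XT.nd (nat_lit 78) (nat_lit 228) (nat_lit 0) (XT.lf (nat_lit 0) (nat_lit 10639769817) (nat_lit 228) (nat_lit 1601834765) (nat_lit 76) (nat_lit 4552202988) (nat_lit 50) (nat_lit 5) (nat_lit 53) (nat_lit 5) (nat_lit 51) (nat_lit 5) (nat_lit 498) (nat_lit 360) (nat_lit 282)) (XT.lf (nat_lit 0) (nat_lit 6146686184) (nat_lit 228) (nat_lit 8274423876) (nat_lit 304) (nat_lit 2616025486) (nat_lit 47) (nat_lit 5) (nat_lit 50) (nat_lit 5) (nat_lit 51) (nat_lit 5) (nat_lit 499) (nat_lit 360) (nat_lit 281))) (XT.nd (nat_lit 78) (nat_lit 152) (nat_lit 0) (XT.lf (nat_lit 0) (nat_lit 963680516) (nat_lit 304) (nat_lit 3265474889) (nat_lit 76) (nat_lit 13056374751) (nat_lit 46) (nat_lit 5) (nat_lit 50) (nat_lit 5) (nat_lit 47) (nat_lit 5) (nat_lit 500) (nat_lit 360) (nat_lit 280)) (XT.lf (nat_lit 0) (nat_lit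 4508973262) (nat_lit 152) (nat_lit 73946788) (nat_lit 228) (nat_lit 12955575310) (nat_lit 44) (nat_lit 5) (nat_lit 46) (nat_lit 5) (nat_lit 47) (nat_lit 5) (nat_lit 501) (nat_lit 360) (nat_lit 279))))) (XT.nd (nat_lit 234) (nat_lit 380) (nat_lit 0) (XT.nd (nat_lit 78) (nat_lit 228) (nat_lit 0) (XT.lf (nat_lit 0) (nat_lit 8297407999) (nat_lit 228) (nat_lit 5385042301) (nat_lit 76) (nat_lit 4113620041) (nat_lit 44) (nat_lit 5) (nat_lit 47) (nat_lit 5) (nat_lit 45) (nat_lit 5) (nat_lit 502) (nat_lit 360) (nat_lit 278)) (XT.nd (nat_lit 78) (nat_lit 0) (nat_lit 0) (XT.lf (nat_lit 0) (nat_lit 2399232671) (nat_lit 228) (nat_lit 9677302140) (nat_lit 304) (nat_lit 5982462621) (nat_lit 41) (nat_lit 5) (nat_lit 44) (nat_lit 5) (nat_lit 45) (nat_lit 5) (nat_lit 503) (nat_lit 360) (nat_lit 277)) (XT.lf (nat_lit 0) (nat_lit 10368407676) (nat_lit 228) (nat_lit 5573474953) (nat_lit 304) (nat_lit 2385095111) (nat_lit 41) (nat_lit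 5) (nat_lit 44) (nat_lit 5) (nat_lit 45) (nat_lit 5) (nat_lit 504) (nat_lit 360) (nat_lit 276)))) (XT.nd (nat_lit 156) (nat_lit 152) (nat_lit 0) (XT.nd (nat_lit 78) (nat_lit 152) (nat_lit 0) (XT.lf (nat_lit 0) (nat_lit 1242206185) (nat_lit 304) (nat_lit 154953822) (nat_lit 76) (nat_lit 17203501458) (nat_lit 40) (nat_lit 5) (nat_lit 44) (nat_lit 5) (nat_lit 41) (nat_lit 5) (nat_lit 505) (nat_lit 360) (nat_lit 275)) (XT.lf (nat_lit 0) (nat_lit 4955347029) (nat_lit 228) (nat_lit 11048426995) (nat_lit 76) (nat_lit 2874831947) (nat_lit 38) (nat_lit 5) (nat_lit 41) (nat_lit 5) (nat_lit 39) (nat_lit 5) (nat_lit 506) (nat_lit 360) (nat_lit 274))) (XT.nd (nat_lit 78) (nat_lit 152) (nat_lit 0) (XT.lf (nat_lit 0) (nat_lit 8728468428) (nat_lit 228) (nat_lit 3236751760) (nat_lit 76) (nat_lit 7197181700) (nat_lit 38) (nat_lit 5) (nat_lit 41) (nat_lit 5) (nat_lit 39) (nat_lit 5) (nat_lit 507) (nat_lit 360) (nat_lit 273)) (XT.lf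 (nat_lit 0) (nat_lit 4751792832) (nat_lit 152) (nat_lit 7832011522) (nat_lit 228) (nat_lit 6867941071) (nat_lit 36) (nat_lit 5) (nat_lit 38) (nat_lit 5) (nat_lit 39) (nat_lit 5) (nat_lit 508) (nat_lit 360) (nat_lit 272)))))) (XT.nd (nat_lit 546) (nat_lit 380) (nat_lit 0) (XT.nd (nat_lit 234) (nat_lit 304) (nat_lit 0) (XT.nd (nat_lit 78) (nat_lit 228) (nat_lit 0) (XT.lf (nat_lit 0) (nat_lit 12902572817) (nat_lit 152) (nat_lit 3611498478) (nat_lit 228) (nat_lit 3232854662) (nat_lit 36) (nat_lit 5) (nat_lit 38) (nat_lit 5) (nat_lit 39) (nat_lit 5) (nat_lit 509) (nat_lit 360) (nat_lit 271)) (XT.nd (nat_lit 78) (nat_lit 0) (nat_lit 0) (XT.lf (nat_lit 0) (nat_lit 456971778) (nat_lit 228) (nat_lit 18913439258) (nat_lit 76) (nat_lit 677778403) (nat_lit 33) (nat_lit 5) (nat_lit 36) (nat_lit 5) (nat_lit 34) (nat_lit 5) (nat_lit 510) (nat_lit 360) (nat_lit 270)) (XT.lf (nat_lit 0) (nat_lit 4223995420) (nat_lit 228) (nat_lit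 11074989208) (nat_lit 76) (nat_lit 5055138636) (nat_lit 33) (nat_lit 5) (nat_lit 36) (nat_lit 5) (nat_lit 34) (nat_lit 5) (nat_lit 511) (nat_lit 360) (nat_lit 269)))) (XT.nd (nat_lit 156) (nat_lit 152) (nat_lit 0) (XT.nd (nat_lit 78) (nat_lit 152) (nat_lit 0) (XT.lf (nat_lit 0) (nat_lit 8043317913) (nat_lit 228) (nat_lit 3119977187) (nat_lit 76) (nat_lit 9503347605) (nat_lit 33) (nat_lit 5) (nat_lit 36) (nat_lit 5) (nat_lit 34) (nat_lit 5) (nat_lit 512) (nat_lit 360) (nat_lit 268)) (XT.lf (nat_lit 0) (nat_lit 5020561989) (nat_lit 152) (nat_lit 6928471858) (nat_lit 228) (nat_lit 9036184535) (nat_lit 31) (nat_lit 5) (nat_lit 33) (nat_lit 5) (nat_lit 34) (nat_lit 5) (nat_lit 513) (nat_lit 360) (nat_lit 267))) (XT.nd (nat_lit 78) (nat_lit 152) (nat_lit 0) (XT.lf (nat_lit 0) (nat_lit 13327044736) (nat_lit 152) (nat_lit 2604354915) (nat_lit 228) (nat_lit 5378801078) (nat_lit 31) (nat_lit 5) (nat_lit 33) (nat_lit 5)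 (nat_lit 34) (nat_lit 5) (nat_lit 514) (nat_lit 360) (nat_lit 266)) (XT.lf (nat_lit 0) (nat_lit 108946108) (nat_lit 152) (nat_lit 19874832781) (nat_lit 228) (nat_lit 1658102268) (nat_lit 29) (nat_lit 5) (nat_lit 31) (nat_lit 5) (nat_lit 32) (nat_lit 4) (nat_lit 515) (nat_lit 360) (nat_lit 265))))) (XT.nd (nat_lit 234) (nat_lit 152) (nat_lit 0) (XT.nd (nat_lit 78) (nat_lit 152) (nat_lit 0) (XT.lf (nat_lit 0) (nat_lit 2158120413) (nat_lit 228) (nat_lit 13578270181) (nat_lit 76) (nat_lit 6242549891) (nat_lit 28) (nat_lit 5) (nat_lit 31) (nat_lit 5) (nat_lit 29) (nat_lit 5) (nat_lit 516) (nat_lit 360) (nat_lit 264)) (XT.nd (nat_lit 78) (nat_lit 152) (nat_lit 0) (XT.lf (nat_lit 0) (nat_lit 6006882229) (nat_lit 228) (nat_lit 5513505955) (nat_lit 76) (nat_lit 10802570701) (nat_lit 28) (nat_lit 5) (nat_lit 31) (nat_lit 5) (nat_lit 29) (nat_lit 5) (nat_lit 517) (nat_lit 360) (nat_lit 263)) (XT.lf (nat_lit 0) (nat_lit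 2710838918) (nat_lit 152) (nat_lit 7218200454) (nat_lit 228) (nat_lit 12744895196) (nat_lit 26) (nat_lit 5) (nat_lit 28) (nat_lit 5) (nat_lit 29) (nat_lit 5) (nat_lit 518) (nat_lit 360) (nat_lit 262)))) (XT.nd (nat_lit 156) (nat_lit 152) (nat_lit 0) (XT.nd (nat_lit 78) (nat_lit 0) (nat_lit 0) (XT.lf (nat_lit 0) (nat_lit 11137385121) (nat_lit 152) (nat_lit 2808247520) (nat_lit 228) (nat_lit 9085982478) (nat_lit 26) (nat_lit 5) (nat_lit 28) (nat_lit 5) (nat_lit 29) (nat_lit 5) (nat_lit 519) (nat_lit 360) (nat_lit 261)) (XT.lf (nat_lit 0) (nat_lit 18032834129) (nat_lit 228) (nat_lit 3711570701) (nat_lit 76) (nat_lit 1652244032) (nat_lit 26) (nat_lit 5) (nat_lit 29) (nat_lit 5) (nat_lit 27) (nat_lit 4) (nat_lit 520) (nat_lit 360) (nat_lit 260))) (XT.nd (nat_lit 78) (nat_lit 76) (nat_lit 0) (XT.lf (nat_lit 0) (nat_lit 4641119418) (nat_lit 76) (nat_lit 17589101290) (nat_lit 152) (nat_lit 1538198761) (nat_lit 25) (nat_lit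 5) (nat_lit 26) (nat_lit 5) (nat_lit 27) (nat_lit 4) (nat_lit 521) (nat_lit 360) (nat_lit 259)) (XT.lf (nat_lit 0) (nat_lit 2337736088) (nat_lit 152) (nat_lit 10987397592) (nat_lit 76) (nat_lit 10822093460) (nat_lit 24) (nat_lit 5) (nat_lit 26) (nat_lit 5) (nat_lit 25) (nat_lit 5) (nat_lit 522) (nat_lit 360) (nat_lit 258))))))) (XT.nd (nat_lit 51636) (nat_lit 0) (nat_lit 16720) (XT.nd (nat_lit 546) (nat_lit 152) (nat_lit 0) (XT.nd (nat_lit 234) (nat_lit 152) (nat_lit 0) (XT.nd (nat_lit 78) (nat_lit 152) (nat_lit 0) (XT.lf (nat_lit 0) (nat_lit 6250748075) (nat_lit 152) (nat_lit 2730111037) (nat_lit 76) (nat_lit 15552950127) (nat_lit 24) (nat_lit 5) (nat_lit 26) (nat_lit 5) (nat_lit 25) (nat_lit 5) (nat_lit 523) (nat_lit 360) (nat_lit 257)) (XT.nd (nat_lit 78) (nat_lit 0) (nat_lit 0) (XT.lf (nat_lit 0) (nat_lit 5732973754) (nat_lit 152) (nat_lit 4526793980) (nat_lit 228) (nat_lit 14668004923) (nat_lit 22) (nat_lit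 5) (nat_lit 24) (nat_lit 5) (nat_lit 25) (nat_lit 5) (nat_lit 524) (nat_lit 360) (nat_lit 256)) (XT.lf (nat_lit 0) (nat_lit 14348102686) (nat_lit 228) (nat_lit 10961751587) (nat_lit 76) (nat_lit 19782911) (nat_lit 22) (nat_lit 5) (nat_lit 25) (nat_lit 5) (nat_lit 23) (nat_lit 4) (nat_lit 525) (nat_lit 360) (nat_lit 255)))) (XT.nd (nat_lit 156) (nat_lit 76) (nat_lit 0) (XT.nd (nat_lit 78) (nat_lit 76) (nat_lit 0) (XT.lf (nat_lit 0) (nat_lit 18529150672) (nat_lit 228) (nat_lit 2627946374) (nat_lit 76) (nat_lit 4582227478) (nat_lit 22) (nat_lit 5) (nat_lit 25) (nat_lit 5) (nat_lit 23) (nat_lit 4) (nat_lit 526) (nat_lit 360) (nat_lit 254)) (XT.lf (nat_lit 0) (nat_lit 5916876745) (nat_lit 76) (nat_lit 16896699911) (nat_lit 152) (nat_lit 3343238174) (nat_lit 21) (nat_lit 5) (nat_lit 22) (nat_lit 5) (nat_lit 23) (nat_lit 4) (nat_lit 527) (nat_lit 360) (nat_lit 253))) (XT.nd (nat_lit 78) (nat_lit 0) (nat_lit 0) (XT.lf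 (nat_lit 0) (nat_lit 592270522) (nat_lit 152) (nat_lit 11951394653) (nat_lit 76) (nat_lit 14038933574) (nat_lit 20) (nat_lit 5) (nat_lit 22) (nat_lit 5) (nat_lit 21) (nat_lit 5) (nat_lit 528) (nat_lit 360) (nat_lit 252)) (XT.lf (nat_lit 0) (nat_lit 4543495976) (nat_lit 152) (nat_lit 3551860342) (nat_lit 76) (nat_lit 18921468709) (nat_lit 20) (nat_lit 5) (nat_lit 22) (nat_lit 5) (nat_lit 21) (nat_lit 5) (nat_lit 529) (nat_lit 360) (nat_lit 251))))) (XT.nd (nat_lit 50778) (nat_lit 0) (nat_lit 24320) (XT.nd (nat_lit 50622) (nat_lit 0) (nat_lit 27436) (XT.lf (nat_lit 0) (nat_lit 5049895589) (nat_lit 152) (nat_lit 3538726540) (nat_lit 228) (nat_lit 18870820208) (nat_lit 18) (nat_lit 5) (nat_lit 20) (nat_lit 5) (nat_lit 21) (nat_lit 5) (nat_lit 530) (nat_lit 360) (nat_lit 250)) (XT.nd (nat_lit 78) (nat_lit 0) (nat_lit 0) (XT.lf (nat_lit 0) (nat_lit 163301657) (nat_lit 1748) (nat_lit 3265037071) (nat_lit 0) (nat_lit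 163301657) (nat_lit 379) (nat_lit 5) (nat_lit 402) (nat_lit 4) (nat_lit 379) (nat_lit 4) (nat_lit 418) (nat_lit 361) (nat_lit 361)) (XT.lf (nat_lit 0) (nat_lit 3588643598) (nat_lit 1748) (nat_lit 1667957027) (nat_lit 0) (nat_lit 1967211565) (nat_lit 379) (nat_lit 5) (nat_lit 402) (nat_lit 4) (nat_lit 379) (nat_lit 4) (nat_lit 419) (nat_lit 361) (nat_lit 360)))) (XT.nd (nat_lit 156) (nat_lit 912) (nat_lit 0) (XT.nd (nat_lit 78) (nat_lit 912) (nat_lit 0) (XT.lf (nat_lit 0) (nat_lit 3269229350) (nat_lit 1292) (nat_lit 3603957685) (nat_lit 1292) (nat_lit 392886405) (nat_lit 362) (nat_lit 4) (nat_lit 379) (nat_lit 5) (nat_lit 379) (nat_lit 4) (nat_lit 420) (nat_lit 361) (nat_lit 359)) (XT.lf (nat_lit 0) (nat_lit 946704948) (nat_lit 836) (nat_lit 1883119843) (nat_lit 912) (nat_lit 4479962566) (nat_lit 350) (nat_lit 5) (nat_lit 361) (nat_lit 5) (nat_lit 362) (nat_lit 4) (nat_lit 421) (nat_lit 361) (nat_lit 358))) (XT.nd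 (nat_lit 78) (nat_lit 912) (nat_lit 0) (XT.lf (nat_lit 0) (nat_lit 5975568941) (nat_lit 836) (nat_lit 100184370) (nat_lit 912) (nat_lit 1279350558) (nat_lit 350) (nat_lit 5) (nat_lit 361) (nat_lit 5) (nat_lit 362) (nat_lit 4) (nat_lit 422) (nat_lit 361) (nat_lit 357)) (XT.lf (nat_lit 0) (nat_lit 1932455094) (nat_lit 912) (nat_lit 3738994940) (nat_lit 76) (nat_lit 1730212888) (nat_lit 338) (nat_lit 5) (nat_lit 350) (nat_lit 5) (nat_lit 339) (nat_lit 4) (nat_lit 423) (nat_lit 361) (nat_lit 356)))))) (XT.nd (nat_lit 546) (nat_lit 3496) (nat_lit 0) (XT.nd (nat_lit 234) (nat_lit 2356) (nat_lit 0) (XT.nd (nat_lit 78) (nat_lit 912) (nat_lit 0) (XT.lf (nat_lit 0) (nat_lit 1317995229) (nat_lit 836) (nat_lit 3830685316) (nat_lit 912) (nat_lit 2301214426) (nat_lit 327) (nat_lit 5) (nat_lit 338) (nat_lit 5) (nat_lit 339) (nat_lit 4) (nat_lit 424) (nat_lit 361) (nat_lit 355)) (XT.nd (nat_lit 78) (nat_lit 836) (nat_lit 0)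 (XT.lf (nat_lit 0) (nat_lit 882277670) (nat_lit 912) (nat_lit 1043960355) (nat_lit 76) (nat_lit 5573501110) (nat_lit 326) (nat_lit 5) (nat_lit 338) (nat_lit 5) (nat_lit 327) (nat_lit 5) (nat_lit 425) (nat_lit 361) (nat_lit 354)) (XT.lf (nat_lit 0) (nat_lit 4066031141) (nat_lit 912) (nat_lit 3431489900) (nat_lit 76) (nat_lit 53460755) (nat_lit 315) (nat_lit 5) (nat_lit 327) (nat_lit 5) (nat_lit 316) (nat_lit 4) (nat_lit 426) (nat_lit 361) (nat_lit 353)))) (XT.nd (nat_lit 156) (nat_lit 1520) (nat_lit 0) (XT.nd (nat_lit 78) (nat_lit 76) (nat_lit 0) (XT.lf (nat_lit 0) (nat_lit 1741844437) (nat_lit 760) (nat_lit 5543727965) (nat_lit 836) (nat_lit 318287526) (nat_lit 305) (nat_lit 5) (nat_lit 315) (nat_lit 5) (nat_lit 316) (nat_lit 4) (nat_lit 427) (nat_lit 361) (nat_lit 352)) (XT.lf (nat_lit 0) (nat_lit 2837993676) (nat_lit 836) (nat_lit 677084894) (nat_lit 76) (nat_lit 4143100329) (nat_lit 304) (nat_lit 5) (nat_lit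 315) (nat_lit 5) (nat_lit 305) (nat_lit 5) (nat_lit 428) (nat_lit 361) (nat_lit 351))) (XT.nd (nat_lit 78) (nat_lit 760) (nat_lit 0) (XT.lf (nat_lit 0) (nat_lit 4605273896) (nat_lit 760) (nat_lit 1420213130) (nat_lit 836) (nat_lit 1688658002) (nat_lit 294) (nat_lit 5) (nat_lit 304) (nat_lit 5) (nat_lit 305) (nat_lit 5) (nat_lit 429) (nat_lit 361) (nat_lit 350)) (XT.lf (nat_lit 0) (nat_lit 1452039342) (nat_lit 760) (nat_lit 5591417050) (nat_lit 76) (nat_lit 728300792) (nat_lit 284) (nat_lit 5) (nat_lit 294) (nat_lit 5) (nat_lit 285) (nat_lit 5) (nat_lit 430) (nat_lit 361) (nat_lit 349))))) (XT.nd (nat_lit 234) (nat_lit 1976) (nat_lit 0) (XT.nd (nat_lit 78) (nat_lit 1520) (nat_lit 0) (XT.lf (nat_lit 0) (nat_lit 4606750113) (nat_lit 760) (nat_lit 298998941) (nat_lit 76) (nat_lit 2925120025) (nat_lit 284) (nat_lit 5) (nat_lit 294) (nat_lit 5) (nat_lit 285) (nat_lit 5) (nat_lit 431) (nat_lit 361) (nat_lit 348)) (XT.nd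 (nat_lit 78) (nat_lit 760) (nat_lit 0) (XT.lf (nat_lit 0) (nat_lit 5101820901) (nat_lit 760) (nat_lit 2700352495) (nat_lit 836) (nat_lit 89483480) (nat_lit 274) (nat_lit 5) (nat_lit 284) (nat_lit 5) (nat_lit 285) (nat_lit 5) (nat_lit 432) (nat_lit 361) (nat_lit 347)) (XT.lf (nat_lit 0) (nat_lit 2610421643) (nat_lit 684) (nat_lit 420390920) (nat_lit 760) (nat_lit 4923213988) (nat_lit 264) (nat_lit 5) (nat_lit 273) (nat_lit 5) (nat_lit 274) (nat_lit 5) (nat_lit 433) (nat_lit 361) (nat_lit 346)))) (XT.nd (nat_lit 156) (nat_lit 1216) (nat_lit 0) (XT.nd (nat_lit 78) (nat_lit 76) (nat_lit 0) (XT.lf (nat_lit 0) (nat_lit 61594849) (nat_lit 684) (nat_lit 6127699575) (nat_lit 760) (nat_lit 1828841178) (nat_lit 255) (nat_lit 5) (nat_lit 264) (nat_lit 5) (nat_lit 265) (nat_lit 5) (nat_lit 434) (nat_lit 361) (nat_lit 345)) (XT.lf (nat_lit 0) (nat_lit 1294502101) (nat_lit 760) (nat_lit 2512810522) (nat_lit 76) (nat_lit 4276393684)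 (nat_lit 254) (nat_lit 5) (nat_lit 264) (nat_lit 5) (nat_lit 255) (nat_lit 5) (nat_lit 435) (nat_lit 361) (nat_lit 344))) (XT.nd (nat_lit 78) (nat_lit 608) (nat_lit 0) (XT.lf (nat_lit 0) (nat_lit 3002657862) (nat_lit 608) (nat_lit 1419363193) (nat_lit 684) (nat_lit 3729042530) (nat_lit 246) (nat_lit 5) (nat_lit 254) (nat_lit 5) (nat_lit 255) (nat_lit 5) (nat_lit 436) (nat_lit 361) (nat_lit 343)) (XT.lf (nat_lit 0) (nat_lit 376289114) (nat_lit 608) (nat_lit 7209052787) (nat_lit 684) (nat_lit 635001150) (nat_lit 238) (nat_lit 5) (nat_lit 246) (nat_lit 5) (nat_lit 247) (nat_lit 5) (nat_lit 437) (nat_lit 361) (nat_lit 342))))))))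
noncomputable def xc58 : XT := (XT.nd (nat_lit 2184) (nat_lit 4636) (nat_lit 0) (XT.nd (nat_lit 1092) (nat_lit 4028) (nat_lit 0) (XT.nd (nat_lit 546) (nat_lit 2660) (nat_lit 0) (XT.nd (nat_lit 234) (nat_lit 1140) (nat_lit 0) (XT.nd (nat_lit 78) (nat_lit 1292) (nat_lit 0) (XT.lf (nat_lit 0) (nat_lit 2479502649) (nat_lit 684) (nat_lit 2300358529) (nat_lit 76) (nat_lit 3511025214) (nat_lit 237) (nat_lit 5) (nat_lit 246) (nat_lit 5) (nat_lit 238) (nat_lit 5) (nat_lit 438) (nat_lit 361) (nat_lit 341)) (XT.nd (nat_lit 78) (nat_lit 684) (nat_lit 0) (XT.lf (nat_lit 0) (nat_lit 3329643777) (nat_lit 608) (nat_lit 2288273206) (nat_lit 684) (nat_lit 2745474967) (nat_lit 229) (nat_lit 5) (nat_lit 237) (nat_lit 5) (nat_lit 238) (nat_lit 5) (nat_lit 439) (nat_lit 361) (nat_lit 340)) (XT.lf (nat_lit 0) (nat_lit 346652494) (nat_lit 684) (nat_lit 7832226526) (nat_lit 76) (nat_lit 259057176) (nat_lit 220) (nat_lit 5) (nat_lit 229)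 (nat_lit 5) (nat_lit 221) (nat_lit 5) (nat_lit 440) (nat_lit 361) (nat_lit 339)))) (XT.nd (nat_lit 156) (nat_lit 608) (nat_lit 0) (XT.nd (nat_lit 78) (nat_lit 532) (nat_lit 0) (XT.lf (nat_lit 0) (nat_lit 3462276800) (nat_lit 684) (nat_lit 2185532543) (nat_lit 76) (nat_lit 2865866289) (nat_lit 220) (nat_lit 5) (nat_lit 229) (nat_lit 5) (nat_lit 221) (nat_lit 5) (nat_lit 441) (nat_lit 361) (nat_lit 338)) (XT.lf (nat_lit 0) (nat_lit 3557152457) (nat_lit 532) (nat_lit 3056377033) (nat_lit 608) (nat_lit 1977968934) (nat_lit 213) (nat_lit 5) (nat_lit 220) (nat_lit 5) (nat_lit 221) (nat_lit 5) (nat_lit 442) (nat_lit 361) (nat_lit 337))) (XT.nd (nat_lit 78) (nat_lit 0) (nat_lit 0) (XT.lf (nat_lit 0) (nat_lit 711586685) (nat_lit 532) (nat_lit 399979542) (nat_lit 608) (nat_lit 7559798543) (nat_lit 205) (nat_lit 5) (nat_lit 212) (nat_lit 5) (nat_lit 213) (nat_lit 5) (nat_lit 443) (nat_lit 361) (nat_lit 336)) (XT.lf (nat_lit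 0) (nat_lit 4236326846) (nat_lit 608) (nat_lit 2204159580) (nat_lit 76) (nat_lit 2312115006) (nat_lit 205) (nat_lit 5) (nat_lit 213) (nat_lit 5) (nat_lit 206) (nat_lit 5) (nat_lit 444) (nat_lit 361) (nat_lit 335))))) (XT.nd (nat_lit 234) (nat_lit 1520) (nat_lit 0) (XT.nd (nat_lit 78) (nat_lit 608) (nat_lit 0) (XT.lf (nat_lit 0) (nat_lit 3648668792) (nat_lit 532) (nat_lit 3753108271) (nat_lit 608) (nat_lit 1434154104) (nat_lit 198) (nat_lit 5) (nat_lit 205) (nat_lit 5) (nat_lit 206) (nat_lit 5) (nat_lit 445) (nat_lit 361) (nat_lit 334)) (XT.nd (nat_lit 78) (nat_lit 0) (nat_lit 0) (XT.lf (nat_lit 0) (nat_lit 661923741) (nat_lit 532) (nat_lit 996496335) (nat_lit 608) (nat_lit 7262891737) (nat_lit 190) (nat_lit 5) (nat_lit 197) (nat_lit 5) (nat_lit 198) (nat_lit 5) (nat_lit 446) (nat_lit 361) (nat_lit 333)) (XT.lf (nat_lit 0) (nat_lit 4792963218) (nat_lit 608) (nat_lit 2394630481) (nat_lit 76) (nat_lit 1820660729)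 (nat_lit 190) (nat_lit 5) (nat_lit 198) (nat_lit 5) (nat_lit 191) (nat_lit 5) (nat_lit 447) (nat_lit 361) (nat_lit 332)))) (XT.nd (nat_lit 156) (nat_lit 456) (nat_lit 0) (XT.nd (nat_lit 78) (nat_lit 608) (nat_lit 0) (XT.lf (nat_lit 0) (nat_lit 3565009221) (nat_lit 456) (nat_lit 4408342810) (nat_lit 532) (nat_lit 1123950544) (nat_lit 184) (nat_lit 5) (nat_lit 190) (nat_lit 5) (nat_lit 191) (nat_lit 5) (nat_lit 448) (nat_lit 361) (nat_lit 331)) (XT.lf (nat_lit 0) (nat_lit 417887218) (nat_lit 532) (nat_lit 1557190111) (nat_lit 608) (nat_lit 7213369992) (nat_lit 176) (nat_lit 5) (nat_lit 183) (nat_lit 5) (nat_lit 184) (nat_lit 5) (nat_lit 449) (nat_lit 361) (nat_lit 330))) (XT.nd (nat_lit 78) (nat_lit 456) (nat_lit 0) (XT.lf (nat_lit 0) (nat_lit 5121175191) (nat_lit 608) (nat_lit 2798299454) (nat_lit 76) (nat_lit 1361817004) (nat_lit 176) (nat_lit 5) (nat_lit 184) (nat_lit 5) (nat_lit 177) (nat_lit 5) (nat_lit 450)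 (nat_lit 361) (nat_lit 329)) (XT.lf (nat_lit 0) (nat_lit 3263911117) (nat_lit 456) (nat_lit 5052673284) (nat_lit 532) (nat_lit 1059708181) (nat_lit 170) (nat_lit 5) (nat_lit 176) (nat_lit 5) (nat_lit 177) (nat_lit 5) (nat_lit 451) (nat_lit 361) (nat_lit 328)))))) (XT.nd (nat_lit 546) (nat_lit 2052) (nat_lit 0) (XT.nd (nat_lit 234) (nat_lit 988) (nat_lit 0) (XT.nd (nat_lit 78) (nat_lit 912) (nat_lit 0) (XT.lf (nat_lit 0) (nat_lit 2049081278) (nat_lit 532) (nat_lit 63502476) (nat_lit 76) (nat_lit 7360884166) (nat_lit 169) (nat_lit 5) (nat_lit 176) (nat_lit 5) (nat_lit 170) (nat_lit 5) (nat_lit 452) (nat_lit 361) (nat_lit 327)) (XT.nd (nat_lit 78) (nat_lit 456) (nat_lit 0) (XT.lf (nat_lit 0) (nat_lit 5207479929) (nat_lit 532) (nat_lit 3459916634) (nat_lit 76) (nat_lit 905043570) (nat_lit 163) (nat_lit 5) (nat_lit 170) (nat_lit 5) (nat_lit 164) (nat_lit 5) (nat_lit 453) (nat_lit 361) (nat_lit 326)) (XT.lf (nat_lit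 0) (nat_lit 2699587912) (nat_lit 456) (nat_lit 5717695637) (nat_lit 532) (nat_lit 1256368913) (nat_lit 157) (nat_lit 5) (nat_lit 163) (nat_lit 5) (nat_lit 164) (nat_lit 5) (nat_lit 454) (nat_lit 361) (nat_lit 325)))) (XT.nd (nat_lit 156) (nat_lit 456) (nat_lit 0) (XT.nd (nat_lit 78) (nat_lit 456) (nat_lit 0) (XT.lf (nat_lit 0) (nat_lit 1869098319) (nat_lit 532) (nat_lit 821396624) (nat_lit 76) (nat_lit 7086573693) (nat_lit 156) (nat_lit 5) (nat_lit 163) (nat_lit 5) (nat_lit 157) (nat_lit 5) (nat_lit 455) (nat_lit 361) (nat_lit 324)) (XT.lf (nat_lit 0) (nat_lit 5035748228) (nat_lit 532) (nat_lit 4428097816) (nat_lit 76) (nat_lit 418655021) (nat_lit 150) (nat_lit 5) (nat_lit 157) (nat_lit 5) (nat_lit 151) (nat_lit 5) (nat_lit 456) (nat_lit 361) (nat_lit 323))) (XT.nd (nat_lit 78) (nat_lit 76) (nat_lit 0) (XT.lf (nat_lit 0) (nat_lit 1822245657) (nat_lit 380) (nat_lit 6436310335) (nat_lit 456) (nat_lit 1731653129)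 (nat_lit 145) (nat_lit 5) (nat_lit 150) (nat_lit 5) (nat_lit 151) (nat_lit 5) (nat_lit 457) (nat_lit 361) (nat_lit 322)) (XT.lf (nat_lit 0) (nat_lit 1414465024) (nat_lit 456) (nat_lit 1912345446) (nat_lit 76) (nat_lit 6773342145) (nat_lit 144) (nat_lit 5) (nat_lit 150) (nat_lit 5) (nat_lit 145) (nat_lit 5) (nat_lit 458) (nat_lit 361) (nat_lit 321))))) (XT.nd (nat_lit 234) (nat_lit 1140) (nat_lit 0) (XT.nd (nat_lit 78) (nat_lit 456) (nat_lit 0) (XT.lf (nat_lit 0) (nat_lit 4455642912) (nat_lit 456) (nat_lit 132220624) (nat_lit 532) (nat_lit 5624473743) (nat_lit 138) (nat_lit 5) (nat_lit 144) (nat_lit 5) (nat_lit 145) (nat_lit 5) (nat_lit 459) (nat_lit 361) (nat_lit 320)) (XT.nd (nat_lit 78) (nat_lit 76) (nat_lit 0) (XT.lf (nat_lit 0) (nat_lit 577556368) (nat_lit 380) (nat_lit 7243040967) (nat_lit 456) (nat_lit 2506272642) (nat_lit 133) (nat_lit 5) (nat_lit 138) (nat_lit 5) (nat_lit 139) (nat_lit 5) (nat_lit 460)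 (nat_lit 361) (nat_lit 319)) (XT.lf (nat_lit 0) (nat_lit 664240979) (nat_lit 456) (nat_lit 3392114875) (nat_lit 76) (nat_lit 6387294924) (nat_lit 132) (nat_lit 5) (nat_lit 138) (nat_lit 5) (nat_lit 133) (nat_lit 5) (nat_lit 461) (nat_lit 361) (nat_lit 318)))) (XT.nd (nat_lit 156) (nat_lit 760) (nat_lit 0) (XT.nd (nat_lit 78) (nat_lit 0) (nat_lit 0) (XT.lf (nat_lit 0) (nat_lit 3056689266) (nat_lit 380) (nat_lit 787627426) (nat_lit 456) (nat_lit 6718545394) (nat_lit 127) (nat_lit 5) (nat_lit 132) (nat_lit 5) (nat_lit 133) (nat_lit 5) (nat_lit 462) (nat_lit 361) (nat_lit 317)) (XT.lf (nat_lit 0) (nat_lit 7087558588) (nat_lit 456) (nat_lit 1079570070) (nat_lit 76) (nat_lit 2517357706) (nat_lit 127) (nat_lit 5) (nat_lit 133) (nat_lit 5) (nat_lit 128) (nat_lit 5) (nat_lit 463) (nat_lit 361) (nat_lit 316))) (XT.nd (nat_lit 78) (nat_lit 456) (nat_lit 0) (XT.lf (nat_lit 0) (nat_lit 5484103017) (nat_lit 304) (nat_lit 4913284456)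 (nat_lit 380) (nat_lit 411140854) (nat_lit 123) (nat_lit 5) (nat_lit 127) (nat_lit 5) (nat_lit 128) (nat_lit 5) (nat_lit 464) (nat_lit 361) (nat_lit 315)) (XT.lf (nat_lit 0) (nat_lit 1197683614) (nat_lit 380) (nat_lit 1579536943) (nat_lit 456) (nat_lit 8157959196) (nat_lit 117) (nat_lit 5) (nat_lit 122) (nat_lit 5) (nat_lit 123) (nat_lit 5) (nat_lit 465) (nat_lit 361) (nat_lit 314))))))) (XT.nd (nat_lit 1092) (nat_lit 1900) (nat_lit 0) (XT.nd (nat_lit 546) (nat_lit 1292) (nat_lit 0) (XT.nd (nat_lit 234) (nat_lit 1064) (nat_lit 0) (XT.nd (nat_lit 78) (nat_lit 380) (nat_lit 0) (XT.lf (nat_lit 0) (nat_lit 6032916248) (nat_lit 456) (nat_lit 3214628725) (nat_lit 76) (nat_lit 1816601948) (nat_lit 117) (nat_lit 5) (nat_lit 123) (nat_lit 5) (nat_lit 118) (nat_lit 5) (nat_lit 466) (nat_lit 361) (nat_lit 313)) (XT.nd (nat_lit 78) (nat_lit 76) (nat_lit 0) (XT.lf (nat_lit 0) (nat_lit 3415574528) (nat_lit 304) (nat_lit 5932825622)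 (nat_lit 380) (nat_lit 1847417945) (nat_lit 113) (nat_lit 5) (nat_lit 117) (nat_lit 5) (nat_lit 118) (nat_lit 5) (nat_lit 467) (nat_lit 361) (nat_lit 312)) (XT.lf (nat_lit 0) (nat_lit 1365568454) (nat_lit 380) (nat_lit 1174566705) (nat_lit 76) (nat_lit 8790145980) (nat_lit 112) (nat_lit 5) (nat_lit 117) (nat_lit 5) (nat_lit 113) (nat_lit 5) (nat_lit 468) (nat_lit 361) (nat_lit 311)))) (XT.nd (nat_lit 156) (nat_lit 380) (nat_lit 0) (XT.nd (nat_lit 78) (nat_lit 304) (nat_lit 0) (XT.lf (nat_lit 0) (nat_lit 4623306720) (nat_lit 456) (nat_lit 5905857371) (nat_lit 76) (nat_lit 937937643) (nat_lit 107) (nat_lit 5) (nat_lit 113) (nat_lit 5) (nat_lit 108) (nat_lit 5) (nat_lit 469) (nat_lit 361) (nat_lit 310)) (XT.lf (nat_lit 0) (nat_lit 777794137) (nat_lit 304) (nat_lit 7161336811) (nat_lit 380) (nat_lit 3667685937) (nat_lit 103) (nat_lit 5) (nat_lit 107) (nat_lit 5) (nat_lit 108) (nat_lit 5) (nat_lit 470) (nat_lit 361)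 (nat_lit 309))) (XT.nd (nat_lit 78) (nat_lit 380) (nat_lit 0) (XT.lf (nat_lit 0) (nat_lit 7618822716) (nat_lit 304) (nat_lit 3705562518) (nat_lit 380) (nat_lit 424895269) (nat_lit 103) (nat_lit 5) (nat_lit 107) (nat_lit 5) (nat_lit 108) (nat_lit 5) (nat_lit 471) (nat_lit 361) (nat_lit 308)) (XT.lf (nat_lit 0) (nat_lit 2662540001) (nat_lit 304) (nat_lit 163635583) (nat_lit 380) (nat_lit 9068434629) (nat_lit 98) (nat_lit 5) (nat_lit 102) (nat_lit 5) (nat_lit 103) (nat_lit 5) (nat_lit 472) (nat_lit 361) (nat_lit 307))))) (XT.nd (nat_lit 234) (nat_lit 912) (nat_lit 0) (XT.nd (nat_lit 78) (nat_lit 380) (nat_lit 0) (XT.lf (nat_lit 0) (nat_lit 6151043902) (nat_lit 380) (nat_lit 2476273107) (nat_lit 76) (nat_lit 3415199519) (nat_lit 98) (nat_lit 5) (nat_lit 103) (nat_lit 5) (nat_lit 99) (nat_lit 5) (nat_lit 473) (nat_lit 361) (nat_lit 306)) (XT.nd (nat_lit 78) (nat_lit 76) (nat_lit 0) (XT.lf (nat_lit 0) (nat_lit 4416601714)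 (nat_lit 304) (nat_lit 5120434638) (nat_lit 380) (nat_lit 2656467267) (nat_lit 94) (nat_lit 5) (nat_lit 98) (nat_lit 5) (nat_lit 99) (nat_lit 5) (nat_lit 474) (nat_lit 361) (nat_lit 305)) (XT.lf (nat_lit 0) (nat_lit 616486502) (nat_lit 380) (nat_lit 925562239) (nat_lit 76) (nat_lit 10805759091) (nat_lit 93) (nat_lit 5) (nat_lit 98) (nat_lit 5) (nat_lit 94) (nat_lit 5) (nat_lit 475) (nat_lit 361) (nat_lit 304)))) (XT.nd (nat_lit 156) (nat_lit 380) (nat_lit 0) (XT.nd (nat_lit 78) (nat_lit 228) (nat_lit 0) (XT.lf (nat_lit 0) (nat_lit 3938359783) (nat_lit 380) (nat_lit 6447782888) (nat_lit 76) (nat_lit 2118337971) (nat_lit 89) (nat_lit 5) (nat_lit 94) (nat_lit 5) (nat_lit 90) (nat_lit 5) (nat_lit 476) (nat_lit 361) (nat_lit 303)) (XT.lf (nat_lit 0) (nat_lit 468747866) (nat_lit 228) (nat_lit 6843273946) (nat_lit 304) (nat_lit 5352572100) (nat_lit 86) (nat_lit 5) (nat_lit 89) (nat_lit 5) (nat_lit 90) (nat_lit 5) (nat_lit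 477) (nat_lit 361) (nat_lit 302))) (XT.nd (nat_lit 78) (nat_lit 380) (nat_lit 0) (XT.lf (nat_lit 0) (nat_lit 7557233798) (nat_lit 228) (nat_lit 3205355357) (nat_lit 304) (nat_lit 2065145404) (nat_lit 86) (nat_lit 5) (nat_lit 89) (nat_lit 5) (nat_lit 90) (nat_lit 5) (nat_lit 478) (nat_lit 361) (nat_lit 301)) (XT.lf (nat_lit 0) (nat_lit 1252408409) (nat_lit 380) (nat_lit 11242883585) (nat_lit 76) (nat_lit 499066563) (nat_lit 81) (nat_lit 5) (nat_lit 86) (nat_lit 5) (nat_lit 82) (nat_lit 5) (nat_lit 479) (nat_lit 361) (nat_lit 300)))))) (XT.nd (nat_lit 546) (nat_lit 1064) (nat_lit 0) (XT.nd (nat_lit 234) (nat_lit 608) (nat_lit 0) (XT.nd (nat_lit 78) (nat_lit 228) (nat_lit 0) (XT.lf (nat_lit 0) (nat_lit 4632294806) (nat_lit 380) (nat_lit 4266789003) (nat_lit 76) (nat_lit 4264498500) (nat_lit 81) (nat_lit 5) (nat_lit 86) (nat_lit 5) (nat_lit 82) (nat_lit 5) (nat_lit 480) (nat_lit 361) (nat_lit 299)) (XT.nd (nat_lit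 78) (nat_lit 0) (nat_lit 0) (XT.lf (nat_lit 0) (nat_lit 2833661679) (nat_lit 228) (nat_lit 5231945043) (nat_lit 304) (nat_lit 5270879962) (nat_lit 78) (nat_lit 5) (nat_lit 81) (nat_lit 5) (nat_lit 82) (nat_lit 5) (nat_lit 481) (nat_lit 361) (nat_lit 298)) (XT.lf (nat_lit 0) (nat_lit 10081973326) (nat_lit 228) (nat_lit 1481974841) (nat_lit 304) (nat_lit 1948986172) (nat_lit 78) (nat_lit 5) (nat_lit 81) (nat_lit 5) (nat_lit 82) (nat_lit 5) (nat_lit 482) (nat_lit 361) (nat_lit 297)))) (XT.nd (nat_lit 156) (nat_lit 228) (nat_lit 0) (XT.nd (nat_lit 78) (nat_lit 0) (nat_lit 0) (XT.lf (nat_lit 0) (nat_lit 1428403858) (nat_lit 380) (nat_lit 9937141348) (nat_lit 76) (nat_lit 2327032098) (nat_lit 73) (nat_lit 5) (nat_lit 78) (nat_lit 5) (nat_lit 74) (nat_lit 5) (nat_lit 483) (nat_lit 361) (nat_lit 296)) (XT.lf (nat_lit 0) (nat_lit 4848568173) (nat_lit 380) (nat_lit 2817738075) (nat_lit 76) (nat_lit 6209234495) (nat_lit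 73) (nat_lit 5) (nat_lit 78) (nat_lit 5) (nat_lit 74) (nat_lit 5) (nat_lit 484) (nat_lit 361) (nat_lit 295))) (XT.nd (nat_lit 78) (nat_lit 0) (nat_lit 0) (XT.lf (nat_lit 0) (nat_lit 4451871939) (nat_lit 228) (nat_lit 3883098323) (nat_lit 304) (nat_lit 5727248007) (nat_lit 70) (nat_lit 5) (nat_lit 73) (nat_lit 5) (nat_lit 74) (nat_lit 5) (nat_lit 485) (nat_lit 361) (nat_lit 294)) (XT.lf (nat_lit 0) (nat_lit 11854833598) (nat_lit 228) (nat_lit 24388337) (nat_lit 304) (nat_lit 2373656263) (nat_lit 70) (nat_lit 5) (nat_lit 73) (nat_lit 5) (nat_lit 74) (nat_lit 5) (nat_lit 486) (nat_lit 361) (nat_lit 293))))) (XT.nd (nat_lit 234) (nat_lit 532) (nat_lit 0) (XT.nd (nat_lit 78) (nat_lit 228) (nat_lit 0) (XT.lf (nat_lit 0) (nat_lit 1060661282) (nat_lit 304) (nat_lit 9505533254) (nat_lit 76) (nat_lit 3880483964) (nat_lit 66) (nat_lit 5) (nat_lit 70) (nat_lit 5) (nat_lit 67) (nat_lit 5) (nat_lit 487) (nat_lit 361) (nat_lit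 292)) (XT.nd (nat_lit 78) (nat_lit 228) (nat_lit 0) (XT.lf (nat_lit 0) (nat_lit 4518028583) (nat_lit 304) (nat_lit 2250222563) (nat_lit 76) (nat_lit 7876077564) (nat_lit 66) (nat_lit 5) (nat_lit 70) (nat_lit 5) (nat_lit 67) (nat_lit 5) (nat_lit 488) (nat_lit 361) (nat_lit 291)) (XT.lf (nat_lit 0) (nat_lit 5169138568) (nat_lit 228) (nat_lit 2879315870) (nat_lit 304) (nat_lit 6797409684) (nat_lit 63) (nat_lit 5) (nat_lit 66) (nat_lit 5) (nat_lit 67) (nat_lit 5) (nat_lit 489) (nat_lit 361) (nat_lit 290)))) (XT.nd (nat_lit 156) (nat_lit 228) (nat_lit 0) (XT.nd (nat_lit 78) (nat_lit 304) (nat_lit 0) (XT.lf (nat_lit 0) (nat_lit 11642240833) (nat_lit 304) (nat_lit 2339901242) (nat_lit 76) (nat_lit 1069443347) (nat_lit 63) (nat_lit 5) (nat_lit 67) (nat_lit 5) (nat_lit 64) (nat_lit 5) (nat_lit 490) (nat_lit 361) (nat_lit 289)) (XT.lf (nat_lit 0) (nat_lit 69555170) (nat_lit 304) (nat_lit 10117403459) (nat_lit 76) (nat_lit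 5073992646) (nat_lit 59) (nat_lit 5) (nat_lit 63) (nat_lit 5) (nat_lit 60) (nat_lit 5) (nat_lit 491) (nat_lit 361) (nat_lit 288))) (XT.nd (nat_lit 78) (nat_lit 228) (nat_lit 0) (XT.lf (nat_lit 0) (nat_lit 3559358565) (nat_lit 304) (nat_lit 2736607605) (nat_lit 76) (nat_lit 9178357654) (nat_lit 59) (nat_lit 5) (nat_lit 63) (nat_lit 5) (nat_lit 60) (nat_lit 5) (nat_lit 492) (nat_lit 361) (nat_lit 287)) (XT.lf (nat_lit 0) (nat_lit 4807682684) (nat_lit 228) (nat_lit 2314184256) (nat_lit 304) (nat_lit 8570048148) (nat_lit 56) (nat_lit 5) (nat_lit 59) (nat_lit 5) (nat_lit 60) (nat_lit 5) (nat_lit 493) (nat_lit 361) (nat_lit 286))))))))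
noncomputable def xc59 : XT := (XT.nd (nat_lit 2184) (nat_lit 456) (nat_lit 0) (XT.nd (nat_lit 1092) (nat_lit 912) (nat_lit 0) (XT.nd (nat_lit 546) (nat_lit 684) (nat_lit 0) (XT.nd (nat_lit 234) (nat_lit 380) (nat_lit 0) (XT.nd (nat_lit 78) (nat_lit 304) (nat_lit 0) (XT.lf (nat_lit 0) (nat_lit 10757278234) (nat_lit 304) (nat_lit 3432315465) (nat_lit 76) (nat_lit 1724240677) (nat_lit 56) (nat_lit 5) (nat_lit 60) (nat_lit 5) (nat_lit 57) (nat_lit 5) (nat_lit 494) (nat_lit 361) (nat_lit 285)) (XT.nd (nat_lit 78) (nat_lit 76) (nat_lit 0) (XT.lf (nat_lit 0) (nat_lit 4161507744) (nat_lit 228) (nat_lit 10318610356) (nat_lit 304) (nat_lit 1659788619) (nat_lit 53) (nat_lit 5) (nat_lit 56) (nat_lit 5) (nat_lit 57) (nat_lit 5) (nat_lit 495) (nat_lit 361) (nat_lit 284)) (XT.lf (nat_lit 0) (nat_lit 1877517621) (nat_lit 304) (nat_lit 4475295229) (nat_lit 76) (nat_lit 10017536503) (nat_lit 52) (nat_lit 5) (nat_lit 56) (nat_lit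 5) (nat_lit 53) (nat_lit 5) (nat_lit 496) (nat_lit 361) (nat_lit 283)))) (XT.nd (nat_lit 156) (nat_lit 228) (nat_lit 0) (XT.nd (nat_lit 78) (nat_lit 0) (nat_lit 0) (XT.lf (nat_lit 0) (nat_lit 3162815147) (nat_lit 152) (nat_lit 2294054482) (nat_lit 228) (nat_lit 11148449853) (nat_lit 50) (nat_lit 5) (nat_lit 52) (nat_lit 5) (nat_lit 53) (nat_lit 5) (nat_lit 497) (nat_lit 361) (nat_lit 282)) (XT.lf (nat_lit 0) (nat_lit 9123108655) (nat_lit 228) (nat_lit 5887889632) (nat_lit 76) (nat_lit 1833693111) (nat_lit 50) (nat_lit 5) (nat_lit 53) (nat_lit 5) (nat_lit 51) (nat_lit 5) (nat_lit 498) (nat_lit 361) (nat_lit 281))) (XT.nd (nat_lit 78) (nat_lit 0) (nat_lit 0) (XT.lf (nat_lit 0) (nat_lit 1781212114) (nat_lit 228) (nat_lit 11081830151) (nat_lit 304) (nat_lit 4225809309) (nat_lit 47) (nat_lit 5) (nat_lit 50) (nat_lit 5) (nat_lit 51) (nat_lit 5) (nat_lit 499) (nat_lit 361) (nat_lit 280)) (XT.lf (nat_lit 0) (nat_lit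 9639028601) (nat_lit 228) (nat_lit 7052097981) (nat_lit 304) (nat_lit 646509391) (nat_lit 47) (nat_lit 5) (nat_lit 50) (nat_lit 5) (nat_lit 51) (nat_lit 5) (nat_lit 500) (nat_lit 361) (nat_lit 279))))) (XT.nd (nat_lit 234) (nat_lit 456) (nat_lit 0) (XT.nd (nat_lit 78) (nat_lit 152) (nat_lit 0) (XT.lf (nat_lit 0) (nat_lit 2939150061) (nat_lit 304) (nat_lit 859021) (nat_lit 76) (nat_lit 14651521063) (nat_lit 46) (nat_lit 5) (nat_lit 50) (nat_lit 5) (nat_lit 47) (nat_lit 5) (nat_lit 501) (nat_lit 361) (nat_lit 278)) (XT.nd (nat_lit 78) (nat_lit 0) (nat_lit 0) (XT.lf (nat_lit 0) (nat_lit 6622292251) (nat_lit 228) (nat_lit 9951129849) (nat_lit 76) (nat_lit 1276313701) (nat_lit 44) (nat_lit 5) (nat_lit 47) (nat_lit 5) (nat_lit 45) (nat_lit 5) (nat_lit 502) (nat_lit 361) (nat_lit 277)) (XT.lf (nat_lit 0) (nat_lit 10373359603) (nat_lit 228) (nat_lit 2219710816) (nat_lit 76) (nat_lit 5520157347) (nat_lit 44) (nat_lit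 5) (nat_lit 47) (nat_lit 5) (nat_lit 45) (nat_lit 5) (nat_lit 503) (nat_lit 361) (nat_lit 276)))) (XT.nd (nat_lit 156) (nat_lit 228) (nat_lit 0) (XT.nd (nat_lit 78) (nat_lit 0) (nat_lit 0) (XT.lf (nat_lit 0) (nat_lit 5698716548) (nat_lit 228) (nat_lit 8513012245) (nat_lit 304) (nat_lit 4170022466) (nat_lit 41) (nat_lit 5) (nat_lit 44) (nat_lit 5) (nat_lit 45) (nat_lit 5) (nat_lit 504) (nat_lit 361) (nat_lit 275)) (XT.lf (nat_lit 0) (nat_lit 13763520166) (nat_lit 228) (nat_lit 4353732749) (nat_lit 304) (nat_lit 538591712) (nat_lit 41) (nat_lit 5) (nat_lit 44) (nat_lit 5) (nat_lit 45) (nat_lit 5) (nat_lit 505) (nat_lit 361) (nat_lit 274))) (XT.nd (nat_lit 78) (nat_lit 0) (nat_lit 0) (XT.lf (nat_lit 0) (nat_lit 3031826291) (nat_lit 152) (nat_lit 87616937) (nat_lit 228) (nat_lit 15815662640) (nat_lit 38) (nat_lit 5) (nat_lit 40) (nat_lit 5) (nat_lit 41) (nat_lit 5) (nat_lit 506) (nat_lit 361) (nat_lit 273)) (XT.lf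 (nat_lit 0) (nat_lit 6880065220) (nat_lit 228) (nat_lit 8111671497) (nat_lit 76) (nat_lit 4227418395) (nat_lit 38) (nat_lit 5) (nat_lit 41) (nat_lit 5) (nat_lit 39) (nat_lit 5) (nat_lit 507) (nat_lit 361) (nat_lit 272)))))) (XT.nd (nat_lit 546) (nat_lit 380) (nat_lit 0) (XT.nd (nat_lit 234) (nat_lit 380) (nat_lit 0) (XT.nd (nat_lit 78) (nat_lit 152) (nat_lit 0) (XT.lf (nat_lit 0) (nat_lit 10692852748) (nat_lit 228) (nat_lit 205678915) (nat_lit 76) (nat_lit 8610821226) (nat_lit 38) (nat_lit 5) (nat_lit 41) (nat_lit 5) (nat_lit 39) (nat_lit 5) (nat_lit 508) (nat_lit 361) (nat_lit 271)) (XT.nd (nat_lit 78) (nat_lit 0) (nat_lit 0) (XT.lf (nat_lit 0) (nat_lit 7922269412) (nat_lit 152) (nat_lit 6687899371) (nat_lit 228) (nat_lit 5194626864) (nat_lit 36) (nat_lit 5) (nat_lit 38) (nat_lit 5) (nat_lit 39) (nat_lit 5) (nat_lit 509) (nat_lit 361) (nat_lit 270)) (XT.lf (nat_lit 0) (nat_lit 16175762238) (nat_lit 152) (nat_lit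 2408481015) (nat_lit 228) (nat_lit 1522342119) (nat_lit 36) (nat_lit 5) (nat_lit 38) (nat_lit 5) (nat_lit 39) (nat_lit 5) (nat_lit 510) (nat_lit 361) (nat_lit 269)))) (XT.nd (nat_lit 156) (nat_lit 152) (nat_lit 0) (XT.nd (nat_lit 78) (nat_lit 0) (nat_lit 0) (XT.lf (nat_lit 0) (nat_lit 2211571171) (nat_lit 228) (nat_lit 16245925939) (nat_lit 76) (nat_lit 1956284314) (nat_lit 33) (nat_lit 5) (nat_lit 36) (nat_lit 5) (nat_lit 34) (nat_lit 5) (nat_lit 511) (nat_lit 361) (nat_lit 268)) (XT.lf (nat_lit 0) (nat_lit 6019710581) (nat_lit 228) (nat_lit 8310428105) (nat_lit 76) (nat_lit 6396388803) (nat_lit 33) (nat_lit 5) (nat_lit 36) (nat_lit 5) (nat_lit 34) (nat_lit 5) (nat_lit 512) (nat_lit 361) (nat_lit 267))) (XT.nd (nat_lit 78) (nat_lit 152) (nat_lit 0) (XT.lf (nat_lit 0) (nat_lit 9881865891) (nat_lit 228) (nat_lit 254866058) (nat_lit 76) (nat_lit 10909245336) (nat_lit 33) (nat_lit 5) (nat_lit 36) (nat_lit 5) (nat_lit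 34) (nat_lit 5) (nat_lit 513) (nat_lit 361) (nat_lit 266)) (XT.lf (nat_lit 0) (nat_lit 8029223963) (nat_lit 152) (nat_lit 5822458755) (nat_lit 228) (nat_lit 7519530744) (nat_lit 31) (nat_lit 5) (nat_lit 33) (nat_lit 5) (nat_lit 34) (nat_lit 5) (nat_lit 514) (nat_lit 361) (nat_lit 265))))) (XT.nd (nat_lit 234) (nat_lit 152) (nat_lit 0) (XT.nd (nat_lit 78) (nat_lit 228) (nat_lit 0) (XT.lf (nat_lit 0) (nat_lit 16444811841) (nat_lit 152) (nat_lit 1436263053) (nat_lit 228) (nat_lit 3822281529) (nat_lit 31) (nat_lit 5) (nat_lit 33) (nat_lit 5) (nat_lit 34) (nat_lit 5) (nat_lit 515) (nat_lit 361) (nat_lit 264)) (XT.nd (nat_lit 78) (nat_lit 76) (nat_lit 0) (XT.lf (nat_lit 0) (nat_lit 2968553979) (nat_lit 152) (nat_lit 19040285617) (nat_lit 228) (nat_lit 32952487) (nat_lit 29) (nat_lit 5) (nat_lit 31) (nat_lit 5) (nat_lit 32) (nat_lit 4) (nat_lit 516) (nat_lit 361) (nat_lit 263)) (XT.lf (nat_lit 0) (nat_lit 3805756124)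 (nat_lit 228) (nat_lit 11026709323) (nat_lit 76) (nat_lit 7553561655) (nat_lit 28) (nat_lit 5) (nat_lit 31) (nat_lit 5) (nat_lit 29) (nat_lit 5) (nat_lit 517) (nat_lit 361) (nat_lit 262)))) (XT.nd (nat_lit 156) (nat_lit 0) (nat_lit 0) (XT.nd (nat_lit 78) (nat_lit 152) (nat_lit 0) (XT.lf (nat_lit 0) (nat_lit 7700032916) (nat_lit 228) (nat_lit 2856005230) (nat_lit 76) (nat_lit 12181524827) (nat_lit 28) (nat_lit 5) (nat_lit 31) (nat_lit 5) (nat_lit 29) (nat_lit 5) (nat_lit 518) (nat_lit 361) (nat_lit 261)) (XT.lf (nat_lit 0) (nat_lit 5514617522) (nat_lit 152) (nat_lit 6173024266) (nat_lit 228) (nat_lit 11408183952) (nat_lit 26) (nat_lit 5) (nat_lit 28) (nat_lit 5) (nat_lit 29) (nat_lit 5) (nat_lit 519) (nat_lit 361) (nat_lit 260))) (XT.nd (nat_lit 78) (nat_lit 0) (nat_lit 0) (XT.lf (nat_lit 0) (nat_lit 14055781672) (nat_lit 152) (nat_lit 1698196590) (nat_lit 228) (nat_lit 7707301002) (nat_lit 26) (nat_lit 5) (nat_lit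 28) (nat_lit 5) (nat_lit 29) (nat_lit 5) (nat_lit 520) (nat_lit 361) (nat_lit 259)) (XT.lf (nat_lit 0) (nat_lit 19900358278) (nat_lit 228) (nat_lit 1120071568) (nat_lit 76) (nat_lit 2813642588) (nat_lit 26) (nat_lit 5) (nat_lit 29) (nat_lit 5) (nat_lit 27) (nat_lit 4) (nat_lit 521) (nat_lit 361) (nat_lit 258))))))) (XT.nd (nat_lit 51480) (nat_lit 0) (nat_lit 17784) (XT.nd (nat_lit 546) (nat_lit 76) (nat_lit 0) (XT.nd (nat_lit 234) (nat_lit 228) (nat_lit 0) (XT.nd (nat_lit 78) (nat_lit 76) (nat_lit 0) (XT.lf (nat_lit 0) (nat_lit 7382134652) (nat_lit 76) (nat_lit 16787205340) (nat_lit 152) (nat_lit 44192808) (nat_lit 25) (nat_lit 5) (nat_lit 26) (nat_lit 5) (nat_lit 27) (nat_lit 4) (nat_lit 522) (nat_lit 361) (nat_lit 257)) (XT.nd (nat_lit 78) (nat_lit 0) (nat_lit 0) (XT.lf (nat_lit 0) (nat_lit 3859757767) (nat_lit 152) (nat_lit 8590921930) (nat_lit 76) (nat_lit 12149636051) (nat_lit 24) (nat_lit 5) (nat_lit 26)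 (nat_lit 5) (nat_lit 25) (nat_lit 5) (nat_lit 523) (nat_lit 361) (nat_lit 256)) (XT.lf (nat_lit 0) (nat_lit 7822103191) (nat_lit 152) (nat_lit 219788145) (nat_lit 76) (nat_lit 16953323562) (nat_lit 24) (nat_lit 5) (nat_lit 26) (nat_lit 5) (nat_lit 25) (nat_lit 5) (nat_lit 524) (nat_lit 361) (nat_lit 255)))) (XT.nd (nat_lit 156) (nat_lit 76) (nat_lit 0) (XT.nd (nat_lit 78) (nat_lit 0) (nat_lit 0) (XT.lf (nat_lit 0) (nat_lit 8395683834) (nat_lit 152) (nat_lit 3503803433) (nat_lit 228) (nat_lit 13497813378) (nat_lit 22) (nat_lit 5) (nat_lit 24) (nat_lit 5) (nat_lit 25) (nat_lit 5) (nat_lit 525) (nat_lit 361) (nat_lit 254)) (XT.lf (nat_lit 0) (nat_lit 16048548985) (nat_lit 228) (nat_lit 8661527483) (nat_lit 76) (nat_lit 1097553400) (nat_lit 22) (nat_lit 5) (nat_lit 25) (nat_lit 5) (nat_lit 23) (nat_lit 4) (nat_lit 526) (nat_lit 361) (nat_lit 253))) (XT.nd (nat_lit 78) (nat_lit 76) (nat_lit 0) (XT.lf (nat_lit 0) (nat_lit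 20285502553) (nat_lit 228) (nat_lit 210447325) (nat_lit 76) (nat_lit 5730121862) (nat_lit 22) (nat_lit 5) (nat_lit 25) (nat_lit 5) (nat_lit 23) (nat_lit 4) (nat_lit 527) (nat_lit 361) (nat_lit 252)) (XT.lf (nat_lit 0) (nat_lit 8489021875) (nat_lit 76) (nat_lit 16155354990) (nat_lit 152) (nat_lit 2007766142) (nat_lit 21) (nat_lit 5) (nat_lit 22) (nat_lit 5) (nat_lit 23) (nat_lit 4) (nat_lit 528) (nat_lit 361) (nat_lit 251))))) (XT.nd (nat_lit 50622) (nat_lit 0) (nat_lit 25916) (XT.nd (nat_lit 78) (nat_lit 0) (nat_lit 0) (XT.lf (nat_lit 0) (nat_lit 1960924654) (nat_lit 152) (nat_lit 9766392336) (nat_lit 76) (nat_lit 15359492343) (nat_lit 20) (nat_lit 5) (nat_lit 22) (nat_lit 5) (nat_lit 21) (nat_lit 5) (nat_lit 529) (nat_lit 361) (nat_lit 250)) (XT.nd (nat_lit 50466) (nat_lit 0) (nat_lit 30628) (XT.lf (nat_lit 0) (nat_lit 5964570525) (nat_lit 152) (nat_lit 1246397343) (nat_lit 76) (nat_lit 20319290337) (nat_lit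 20) (nat_lit 5) (nat_lit 22) (nat_lit 5) (nat_lit 21) (nat_lit 5) (nat_lit 530) (nat_lit 361) (nat_lit 249)) (XT.lf (nat_lit 0) (nat_lit 1317685376) (nat_lit 1596) (nat_lit 917295921) (nat_lit 0) (nat_lit 1317685376) (nat_lit 423) (nat_lit 5) (nat_lit 444) (nat_lit 4) (nat_lit 423) (nat_lit 4) (nat_lit 416) (nat_lit 362) (nat_lit 362)))) (XT.nd (nat_lit 156) (nat_lit 1368) (nat_lit 0) (XT.nd (nat_lit 78) (nat_lit 1748) (nat_lit 0) (XT.lf (nat_lit 0) (nat_lit 2954515066) (nat_lit 1596) (nat_lit 2938105887) (nat_lit 1596) (nat_lit 1251168000) (nat_lit 402) (nat_lit 4) (nat_lit 423) (nat_lit 5) (nat_lit 423) (nat_lit 4) (nat_lit 417) (nat_lit 362) (nat_lit 361)) (XT.lf (nat_lit 0) (nat_lit 612132590) (nat_lit 1672) (nat_lit 1344764018) (nat_lit 1748) (nat_lit 5226888057) (nat_lit 379) (nat_lit 5) (nat_lit 401) (nat_lit 5) (nat_lit 402) (nat_lit 4) (nat_lit 418) (nat_lit 362) (nat_lit 360))) (XT.nd (nat_lit 78) (nat_lit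 1368) (nat_lit 0) (XT.lf (nat_lit 0) (nat_lit 5178540615) (nat_lit 1748) (nat_lit 1733006638) (nat_lit 0) (nat_lit 313608662) (nat_lit 379) (nat_lit 5) (nat_lit 402) (nat_lit 4) (nat_lit 379) (nat_lit 4) (nat_lit 419) (nat_lit 362) (nat_lit 359)) (XT.lf (nat_lit 0) (nat_lit 1148064874) (nat_lit 1368) (nat_lit 4104310756) (nat_lit 76) (nat_lit 2015555353) (nat_lit 361) (nat_lit 5) (nat_lit 379) (nat_lit 5) (nat_lit 362) (nat_lit 4) (nat_lit 420) (nat_lit 362) (nat_lit 358)))))) (XT.nd (nat_lit 546) (nat_lit 3800) (nat_lit 0) (XT.nd (nat_lit 234) (nat_lit 2584) (nat_lit 0) (XT.nd (nat_lit 78) (nat_lit 912) (nat_lit 0) (XT.lf (nat_lit 0) (nat_lit 802998681) (nat_lit 836) (nat_lit 3530819191) (nat_lit 912) (nat_lit 2978442185) (nat_lit 350) (nat_lit 5) (nat_lit 361) (nat_lit 5) (nat_lit 362) (nat_lit 4) (nat_lit 421) (nat_lit 362) (nat_lit 357)) (XT.nd (nat_lit 78) (nat_lit 836) (nat_lit 0) (XT.lf (nat_lit 0) (nat_lit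 188552952) (nat_lit 912) (nat_lit 1559188049) (nat_lit 76) (nat_lit 5610449681) (nat_lit 349) (nat_lit 5) (nat_lit 361) (nat_lit 5) (nat_lit 350) (nat_lit 5) (nat_lit 422) (nat_lit 362) (nat_lit 356)) (XT.lf (nat_lit 0) (nat_lit 3341375427) (nat_lit 912) (nat_lit 3954193143) (nat_lit 76) (nat_lit 109887453) (nat_lit 338) (nat_lit 5) (nat_lit 350) (nat_lit 5) (nat_lit 339) (nat_lit 4) (nat_lit 423) (nat_lit 362) (nat_lit 355)))) (XT.nd (nat_lit 156) (nat_lit 1672) (nat_lit 0) (XT.nd (nat_lit 78) (nat_lit 76) (nat_lit 0) (XT.lf (nat_lit 0) (nat_lit 1067705009) (nat_lit 836) (nat_lit 5458547800) (nat_lit 912) (nat_lit 928090003) (nat_lit 327) (nat_lit 5) (nat_lit 338) (nat_lit 5) (nat_lit 339) (nat_lit 4) (nat_lit 424) (nat_lit 362) (nat_lit 354)) (XT.lf (nat_lit 0) (nat_lit 2207826721) (nat_lit 912) (nat_lit 1339633414) (nat_lit 76) (nat_lit 3957166565) (nat_lit 326) (nat_lit 5) (nat_lit 338) (nat_lit 5) (nat_lit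 327) (nat_lit 5) (nat_lit 425) (nat_lit 362) (nat_lit 353))) (XT.nd (nat_lit 78) (nat_lit 836) (nat_lit 0) (XT.lf (nat_lit 0) (nat_lit 3788439139) (nat_lit 836) (nat_lit 1571650732) (nat_lit 912) (nat_lit 2196435471) (nat_lit 315) (nat_lit 5) (nat_lit 326) (nat_lit 5) (nat_lit 327) (nat_lit 5) (nat_lit 426) (nat_lit 362) (nat_lit 352)) (XT.lf (nat_lit 0) (nat_lit 916006661) (nat_lit 836) (nat_lit 6237353702) (nat_lit 76) (nat_lit 456772207) (nat_lit 304) (nat_lit 5) (nat_lit 315) (nat_lit 5) (nat_lit 305) (nat_lit 5) (nat_lit 427) (nat_lit 362) (nat_lit 351))))) (XT.nd (nat_lit 312) (nat_lit 2280) (nat_lit 0) (XT.nd (nat_lit 156) (nat_lit 760) (nat_lit 0) (XT.nd (nat_lit 78) (nat_lit 760) (nat_lit 0) (XT.lf (nat_lit 0) (nat_lit 4039620355) (nat_lit 836) (nat_lit 1086450802) (nat_lit 76) (nat_lit 2538933582) (nat_lit 304) (nat_lit 5) (nat_lit 315) (nat_lit 5) (nat_lit 305) (nat_lit 5) (nat_lit 428) (nat_lit 362)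 (nat_lit 350)) (XT.lf (nat_lit 0) (nat_lit 4158716839) (nat_lit 760) (nat_lit 3037563100) (nat_lit 836) (nat_lit 525331785) (nat_lit 294) (nat_lit 5) (nat_lit 304) (nat_lit 5) (nat_lit 305) (nat_lit 5) (nat_lit 429) (nat_lit 362) (nat_lit 349))) (XT.nd (nat_lit 78) (nat_lit 0) (nat_lit 0) (XT.lf (nat_lit 0) (nat_lit 1685576620) (nat_lit 684) (nat_lit 878701290) (nat_lit 760) (nat_lit 5215534758) (nat_lit 284) (nat_lit 5) (nat_lit 293) (nat_lit 5) (nat_lit 294) (nat_lit 5) (nat_lit 430) (nat_lit 362) (nat_lit 348)) (XT.lf (nat_lit 0) (nat_lit 5685805299) (nat_lit 760) (nat_lit 827973188) (nat_lit 76) (nat_lit 1325832531) (nat_lit 284) (nat_lit 5) (nat_lit 294) (nat_lit 5) (nat_lit 285) (nat_lit 5) (nat_lit 431) (nat_lit 362) (nat_lit 347)))) (XT.nd (nat_lit 156) (nat_lit 760) (nat_lit 0) (XT.nd (nat_lit 78) (nat_lit 684) (nat_lit 0) (XT.lf (nat_lit 0) (nat_lit 937116071) (nat_lit 836) (nat_lit 3373032782) (nat_lit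 76) (nat_lit 3590761499) (nat_lit 273) (nat_lit 5) (nat_lit 284) (nat_lit 5) (nat_lit 274) (nat_lit 5) (nat_lit 432) (nat_lit 362) (nat_lit 346)) (XT.lf (nat_lit 0) (nat_lit 1987060437) (nat_lit 684) (nat_lit 2038320229) (nat_lit 760) (nat_lit 3938526371) (nat_lit 264) (nat_lit 5) (nat_lit 273) (nat_lit 5) (nat_lit 274) (nat_lit 5) (nat_lit 433) (nat_lit 362) (nat_lit 345))) (XT.nd (nat_lit 78) (nat_lit 760) (nat_lit 0) (XT.lf (nat_lit 0) (nat_lit 7146439872) (nat_lit 760) (nat_lit 593671483) (nat_lit 76) (nat_lit 288674236) (nat_lit 264) (nat_lit 5) (nat_lit 274) (nat_lit 5) (nat_lit 265) (nat_lit 5) (nat_lit 434) (nat_lit 362) (nat_lit 344)) (XT.lf (nat_lit 0) (nat_lit 2198255895) (nat_lit 760) (nat_lit 3224697772) (nat_lit 76) (nat_lit 2671906521) (nat_lit 254) (nat_lit 5) (nat_lit 264) (nat_lit 5) (nat_lit 255) (nat_lit 5) (nat_lit 435) (nat_lit 362) (nat_lit 343))))))))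
noncomputable def xc60 : XT := (XT.nd (nat_lit 2184) (nat_lit 5092) (nat_lit 0) (XT.nd (nat_lit 1092) (nat_lit 4256) (nat_lit 0) (XT.nd (nat_lit 546) (nat_lit 2280) (nat_lit 0) (XT.nd (nat_lit 234) (nat_lit 1824) (nat_lit 0) (XT.nd (nat_lit 78) (nat_lit 684) (nat_lit 0) (XT.lf (nat_lit 0) (nat_lit 2249635946) (nat_lit 608) (nat_lit 3045370762) (nat_lit 684) (nat_lit 2867845960) (nat_lit 246) (nat_lit 5) (nat_lit 254) (nat_lit 5) (nat_lit 255) (nat_lit 5) (nat_lit 436) (nat_lit 362) (nat_lit 342)) (XT.nd (nat_lit 78) (nat_lit 608) (nat_lit 0) (XT.lf (nat_lit 0) (nat_lit 188326658) (nat_lit 684) (nat_lit 419642733) (nat_lit 76) (nat_lit 7624850480) (nat_lit 245) (nat_lit 5) (nat_lit 254) (nat_lit 5) (nat_lit 246) (nat_lit 5) (nat_lit 437) (nat_lit 362) (nat_lit 341)) (XT.lf (nat_lit 0) (nat_lit 3262279298) (nat_lit 684) (nat_lit 3146254777) (nat_lit 76) (nat_lit 1895409834) (nat_lit 237) (nat_lit 5) (nat_lit 246)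 (nat_lit 5) (nat_lit 238) (nat_lit 5) (nat_lit 438) (nat_lit 362) (nat_lit 340)))) (XT.nd (nat_lit 156) (nat_lit 1140) (nat_lit 0) (XT.nd (nat_lit 78) (nat_lit 76) (nat_lit 0) (XT.lf (nat_lit 0) (nat_lit 2441016248) (nat_lit 608) (nat_lit 3928911183) (nat_lit 684) (nat_lit 2007155685) (nat_lit 229) (nat_lit 5) (nat_lit 237) (nat_lit 5) (nat_lit 238) (nat_lit 5) (nat_lit 439) (nat_lit 362) (nat_lit 339)) (XT.lf (nat_lit 0) (nat_lit 1044751997) (nat_lit 684) (nat_lit 338851750) (nat_lit 76) (nat_lit 7068556088) (nat_lit 228) (nat_lit 5) (nat_lit 237) (nat_lit 5) (nat_lit 229) (nat_lit 5) (nat_lit 440) (nat_lit 362) (nat_lit 338))) (XT.nd (nat_lit 78) (nat_lit 532) (nat_lit 0) (XT.lf (nat_lit 0) (nat_lit 4124505664) (nat_lit 684) (nat_lit 3171350264) (nat_lit 76) (nat_lit 1232778026) (nat_lit 220) (nat_lit 5) (nat_lit 229) (nat_lit 5) (nat_lit 221) (nat_lit 5) (nat_lit 441) (nat_lit 362) (nat_lit 337)) (XT.lf (nat_lit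 0) (nat_lit 2526957914) (nat_lit 532) (nat_lit 4717951620) (nat_lit 608) (nat_lit 1362181119) (nat_lit 213) (nat_lit 5) (nat_lit 220) (nat_lit 5) (nat_lit 221) (nat_lit 5) (nat_lit 442) (nat_lit 362) (nat_lit 336))))) (XT.nd (nat_lit 234) (nat_lit 1140) (nat_lit 0) (XT.nd (nat_lit 78) (nat_lit 1064) (nat_lit 0) (XT.lf (nat_lit 0) (nat_lit 1690597751) (nat_lit 608) (nat_lit 378529368) (nat_lit 76) (nat_lit 6618339794) (nat_lit 212) (nat_lit 5) (nat_lit 220) (nat_lit 5) (nat_lit 213) (nat_lit 5) (nat_lit 443) (nat_lit 362) (nat_lit 335)) (XT.nd (nat_lit 78) (nat_lit 532) (nat_lit 0) (XT.lf (nat_lit 0) (nat_lit 4778180646) (nat_lit 608) (nat_lit 3335845215) (nat_lit 76) (nat_lit 655437224) (nat_lit 205) (nat_lit 5) (nat_lit 213) (nat_lit 5) (nat_lit 206) (nat_lit 5) (nat_lit 444) (nat_lit 362) (nat_lit 334)) (XT.lf (nat_lit 0) (nat_lit 2470908302) (nat_lit 532) (nat_lit 5441709391) (nat_lit 608) (nat_lit 940811031)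 (nat_lit 198) (nat_lit 5) (nat_lit 205) (nat_lit 5) (nat_lit 206) (nat_lit 5) (nat_lit 445) (nat_lit 362) (nat_lit 333)))) (XT.nd (nat_lit 156) (nat_lit 532) (nat_lit 0) (XT.nd (nat_lit 78) (nat_lit 532) (nat_lit 0) (XT.lf (nat_lit 0) (nat_lit 2117721312) (nat_lit 608) (nat_lit 575969809) (nat_lit 76) (nat_lit 6245620652) (nat_lit 197) (nat_lit 5) (nat_lit 205) (nat_lit 5) (nat_lit 198) (nat_lit 5) (nat_lit 446) (nat_lit 362) (nat_lit 332)) (XT.lf (nat_lit 0) (nat_lit 5214365963) (nat_lit 608) (nat_lit 3678184686) (nat_lit 76) (nat_lit 134476449) (nat_lit 190) (nat_lit 5) (nat_lit 198) (nat_lit 5) (nat_lit 191) (nat_lit 5) (nat_lit 447) (nat_lit 362) (nat_lit 331))) (XT.nd (nat_lit 78) (nat_lit 76) (nat_lit 0) (XT.lf (nat_lit 0) (nat_lit 2233626056) (nat_lit 456) (nat_lit 6129871940) (nat_lit 532) (nat_lit 753216833) (nat_lit 184) (nat_lit 5) (nat_lit 190) (nat_lit 5) (nat_lit 191) (nat_lit 5) (nat_lit 448) (nat_lit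 362) (nat_lit 330)) (XT.lf (nat_lit 0) (nat_lit 2315708464) (nat_lit 532) (nat_lit 971277021) (nat_lit 76) (nat_lit 5921344645) (nat_lit 183) (nat_lit 5) (nat_lit 190) (nat_lit 5) (nat_lit 184) (nat_lit 5) (nat_lit 449) (nat_lit 362) (nat_lit 329)))))) (XT.nd (nat_lit 546) (nat_lit 1748) (nat_lit 0) (XT.nd (nat_lit 234) (nat_lit 1444) (nat_lit 0) (XT.nd (nat_lit 78) (nat_lit 532) (nat_lit 0) (XT.lf (nat_lit 0) (nat_lit 5059778131) (nat_lit 532) (nat_lit 364396862) (nat_lit 608) (nat_lit 3877765709) (nat_lit 176) (nat_lit 5) (nat_lit 183) (nat_lit 5) (nat_lit 184) (nat_lit 5) (nat_lit 450) (nat_lit 362) (nat_lit 328)) (XT.nd (nat_lit 78) (nat_lit 76) (nat_lit 0) (XT.lf (nat_lit 0) (nat_lit 1772771163) (nat_lit 456) (nat_lit 6812869624) (nat_lit 532) (nat_lit 811993066) (nat_lit 170) (nat_lit 5) (nat_lit 176) (nat_lit 5) (nat_lit 177) (nat_lit 5) (nat_lit 451) (nat_lit 362) (nat_lit 327)) (XT.lf (nat_lit 0) (nat_lit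 2271730439) (nat_lit 532) (nat_lit 1607783041) (nat_lit 76) (nat_lit 5615712719) (nat_lit 169) (nat_lit 5) (nat_lit 176) (nat_lit 5) (nat_lit 170) (nat_lit 5) (nat_lit 452) (nat_lit 362) (nat_lit 326)))) (XT.nd (nat_lit 156) (nat_lit 532) (nat_lit 0) (XT.nd (nat_lit 78) (nat_lit 456) (nat_lit 0) (XT.lf (nat_lit 0) (nat_lit 4523801194) (nat_lit 456) (nat_lit 868629851) (nat_lit 532) (nat_lit 4202533907) (nat_lit 163) (nat_lit 5) (nat_lit 169) (nat_lit 5) (nat_lit 170) (nat_lit 5) (nat_lit 453) (nat_lit 362) (nat_lit 325)) (XT.lf (nat_lit 0) (nat_lit 1042460661) (nat_lit 456) (nat_lit 7522160741) (nat_lit 532) (nat_lit 1132320478) (nat_lit 157) (nat_lit 5) (nat_lit 163) (nat_lit 5) (nat_lit 164) (nat_lit 5) (nat_lit 454) (nat_lit 362) (nat_lit 324))) (XT.nd (nat_lit 78) (nat_lit 456) (nat_lit 0) (XT.lf (nat_lit 0) (nat_lit 1970378367) (nat_lit 532) (nat_lit 2532501874) (nat_lit 76) (nat_lit 5297896388) (nat_lit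 156) (nat_lit 5) (nat_lit 163) (nat_lit 5) (nat_lit 157) (nat_lit 5) (nat_lit 455) (nat_lit 362) (nat_lit 323)) (XT.lf (nat_lit 0) (nat_lit 3693681131) (nat_lit 456) (nat_lit 1408415889) (nat_lit 532) (nat_lit 4804822285) (nat_lit 150) (nat_lit 5) (nat_lit 156) (nat_lit 5) (nat_lit 157) (nat_lit 5) (nat_lit 456) (nat_lit 362) (nat_lit 322))))) (XT.nd (nat_lit 234) (nat_lit 836) (nat_lit 0) (XT.nd (nat_lit 78) (nat_lit 912) (nat_lit 0) (XT.lf (nat_lit 0) (nat_lit 8283363897) (nat_lit 532) (nat_lit 7119676) (nat_lit 76) (nat_lit 1724986000) (nat_lit 150) (nat_lit 5) (nat_lit 157) (nat_lit 5) (nat_lit 151) (nat_lit 5) (nat_lit 457) (nat_lit 362) (nat_lit 321)) (XT.nd (nat_lit 78) (nat_lit 456) (nat_lit 0) (XT.lf (nat_lit 0) (nat_lit 1393473325) (nat_lit 456) (nat_lit 3796623278) (nat_lit 76) (nat_lit 4935738376) (nat_lit 144) (nat_lit 5) (nat_lit 150) (nat_lit 5) (nat_lit 145) (nat_lit 5) (nat_lit 458) (nat_lit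 362) (nat_lit 320)) (XT.lf (nat_lit 0) (nat_lit 2516958750) (nat_lit 456) (nat_lit 2017229846) (nat_lit 532) (nat_lit 5704495448) (nat_lit 138) (nat_lit 5) (nat_lit 144) (nat_lit 5) (nat_lit 145) (nat_lit 5) (nat_lit 459) (nat_lit 362) (nat_lit 319)))) (XT.nd (nat_lit 156) (nat_lit 380) (nat_lit 0) (XT.nd (nat_lit 78) (nat_lit 456) (nat_lit 0) (XT.lf (nat_lit 0) (nat_lit 7730987101) (nat_lit 532) (nat_lit 1411950578) (nat_lit 76) (nat_lit 1211008296) (nat_lit 138) (nat_lit 5) (nat_lit 145) (nat_lit 5) (nat_lit 139) (nat_lit 5) (nat_lit 460) (nat_lit 362) (nat_lit 318)) (XT.lf (nat_lit 0) (nat_lit 519849979) (nat_lit 456) (nat_lit 5456051216) (nat_lit 76) (nat_lit 4495435552) (nat_lit 132) (nat_lit 5) (nat_lit 138) (nat_lit 5) (nat_lit 133) (nat_lit 5) (nat_lit 461) (nat_lit 362) (nat_lit 317))) (XT.nd (nat_lit 78) (nat_lit 0) (nat_lit 0) (XT.lf (nat_lit 0) (nat_lit 936293895) (nat_lit 380) (nat_lit 2730370213)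 (nat_lit 456) (nat_lit 6924559099) (nat_lit 127) (nat_lit 5) (nat_lit 132) (nat_lit 5) (nat_lit 133) (nat_lit 5) (nat_lit 462) (nat_lit 362) (nat_lit 316)) (XT.lf (nat_lit 0) (nat_lit 6877935816) (nat_lit 456) (nat_lit 3244510333) (nat_lit 76) (nat_lit 591050463) (nat_lit 127) (nat_lit 5) (nat_lit 133) (nat_lit 5) (nat_lit 128) (nat_lit 5) (nat_lit 463) (nat_lit 362) (nat_lit 315))))))) (XT.nd (nat_lit 1092) (nat_lit 2204) (nat_lit 0) (XT.nd (nat_lit 546) (nat_lit 1368) (nat_lit 0) (XT.nd (nat_lit 234) (nat_lit 760) (nat_lit 0) (XT.nd (nat_lit 78) (nat_lit 456) (nat_lit 0) (XT.lf (nat_lit 0) (nat_lit 3261783948) (nat_lit 304) (nat_lit 6892574913) (nat_lit 380) (nat_lit 683857366) (nat_lit 123) (nat_lit 5) (nat_lit 127) (nat_lit 5) (nat_lit 128) (nat_lit 5) (nat_lit 464) (nat_lit 362) (nat_lit 314)) (XT.nd (nat_lit 78) (nat_lit 380) (nat_lit 0) (XT.lf (nat_lit 0) (nat_lit 2481383903) (nat_lit 380) (nat_lit 1096568093)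 (nat_lit 76) (nat_lit 7387494171) (nat_lit 122) (nat_lit 5) (nat_lit 127) (nat_lit 5) (nat_lit 123) (nat_lit 5) (nat_lit 465) (nat_lit 362) (nat_lit 313)) (XT.lf (nat_lit 0) (nat_lit 5524762704) (nat_lit 380) (nat_lit 174418995) (nat_lit 456) (nat_lit 5395998579) (nat_lit 117) (nat_lit 5) (nat_lit 122) (nat_lit 5) (nat_lit 123) (nat_lit 5) (nat_lit 466) (nat_lit 362) (nat_lit 312)))) (XT.nd (nat_lit 156) (nat_lit 380) (nat_lit 0) (XT.nd (nat_lit 78) (nat_lit 76) (nat_lit 0) (XT.lf (nat_lit 0) (nat_lit 1001369113) (nat_lit 304) (nat_lit 7978064655) (nat_lit 380) (nat_lit 2248131127) (nat_lit 113) (nat_lit 5) (nat_lit 117) (nat_lit 5) (nat_lit 118) (nat_lit 5) (nat_lit 467) (nat_lit 362) (nat_lit 311)) (XT.lf (nat_lit 0) (nat_lit 951737998) (nat_lit 380) (nat_lit 3645872663) (nat_lit 76) (nat_lit 6764845232) (nat_lit 112) (nat_lit 5) (nat_lit 117) (nat_lit 5) (nat_lit 113) (nat_lit 5) (nat_lit 468) (nat_lit 362)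 (nat_lit 310))) (XT.nd (nat_lit 78) (nat_lit 0) (nat_lit 0) (XT.lf (nat_lit 0) (nat_lit 3035618584) (nat_lit 380) (nat_lit 1133235683) (nat_lit 456) (nat_lit 7331242961) (nat_lit 107) (nat_lit 5) (nat_lit 112) (nat_lit 5) (nat_lit 113) (nat_lit 5) (nat_lit 469) (nat_lit 362) (nat_lit 309)) (XT.lf (nat_lit 0) (nat_lit 7454373810) (nat_lit 456) (nat_lit 1811201195) (nat_lit 76) (nat_lit 2374851604) (nat_lit 107) (nat_lit 5) (nat_lit 113) (nat_lit 5) (nat_lit 108) (nat_lit 5) (nat_lit 470) (nat_lit 362) (nat_lit 308))))) (XT.nd (nat_lit 234) (nat_lit 684) (nat_lit 0) (XT.nd (nat_lit 78) (nat_lit 380) (nat_lit 0) (XT.lf (nat_lit 0) (nat_lit 4978407729) (nat_lit 304) (nat_lit 5831580905) (nat_lit 380) (nat_lit 973502360) (nat_lit 103) (nat_lit 5) (nat_lit 107) (nat_lit 5) (nat_lit 108) (nat_lit 5) (nat_lit 471) (nat_lit 362) (nat_lit 307)) (XT.nd (nat_lit 78) (nat_lit 304) (nat_lit 0) (XT.lf (nat_lit 0) (nat_lit 2249977665)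 (nat_lit 380) (nat_lit 70496939) (nat_lit 76) (nat_lit 9609120725) (nat_lit 102) (nat_lit 5) (nat_lit 107) (nat_lit 5) (nat_lit 103) (nat_lit 5) (nat_lit 472) (nat_lit 362) (nat_lit 306)) (XT.lf (nat_lit 0) (nat_lit 5542983199) (nat_lit 380) (nat_lit 5258402463) (nat_lit 76) (nat_lit 1276760755) (nat_lit 98) (nat_lit 5) (nat_lit 103) (nat_lit 5) (nat_lit 99) (nat_lit 5) (nat_lit 473) (nat_lit 362) (nat_lit 305)))) (XT.nd (nat_lit 156) (nat_lit 380) (nat_lit 0) (XT.nd (nat_lit 78) (nat_lit 0) (nat_lit 0) (XT.lf (nat_lit 0) (nat_lit 1570510203) (nat_lit 304) (nat_lit 7322935471) (nat_lit 380) (nat_lit 3336405804) (nat_lit 94) (nat_lit 5) (nat_lit 98) (nat_lit 5) (nat_lit 99) (nat_lit 5) (nat_lit 474) (nat_lit 362) (nat_lit 304)) (XT.lf (nat_lit 0) (nat_lit 8553831108) (nat_lit 304) (nat_lit 3758257726) (nat_lit 380) (nat_lit 72492972) (nat_lit 94) (nat_lit 5) (nat_lit 98) (nat_lit 5) (nat_lit 99) (nat_lit 5) (nat_lit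 475) (nat_lit 362) (nat_lit 303))) (XT.nd (nat_lit 78) (nat_lit 0) (nat_lit 0) (XT.lf (nat_lit 0) (nat_lit 3101075541) (nat_lit 304) (nat_lit 99362725) (nat_lit 380) (nat_lit 9341830565) (nat_lit 89) (nat_lit 5) (nat_lit 93) (nat_lit 5) (nat_lit 94) (nat_lit 5) (nat_lit 476) (nat_lit 362) (nat_lit 302)) (XT.lf (nat_lit 0) (nat_lit 6553834127) (nat_lit 380) (nat_lit 2556438159) (nat_lit 76) (nat_lit 3592521947) (nat_lit 89) (nat_lit 5) (nat_lit 94) (nat_lit 5) (nat_lit 90) (nat_lit 5) (nat_lit 477) (nat_lit 362) (nat_lit 301)))))) (XT.nd (nat_lit 546) (nat_lit 988) (nat_lit 0) (XT.nd (nat_lit 234) (nat_lit 608) (nat_lit 0) (XT.nd (nat_lit 78) (nat_lit 380) (nat_lit 0) (XT.lf (nat_lit 0) (nat_lit 4471973866) (nat_lit 228) (nat_lit 5499186905) (nat_lit 304) (nat_lit 2895445598) (nat_lit 86) (nat_lit 5) (nat_lit 89) (nat_lit 5) (nat_lit 90) (nat_lit 5) (nat_lit 478) (nat_lit 362) (nat_lit 300)) (XT.nd (nat_lit 78)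 (nat_lit 304) (nat_lit 0) (XT.lf (nat_lit 0) (nat_lit 402107830) (nat_lit 304) (nat_lit 1412742043) (nat_lit 76) (nat_lit 11219112527) (nat_lit 85) (nat_lit 5) (nat_lit 89) (nat_lit 5) (nat_lit 86) (nat_lit 5) (nat_lit 479) (nat_lit 362) (nat_lit 299)) (XT.lf (nat_lit 0) (nat_lit 3744731239) (nat_lit 380) (nat_lit 7503631415) (nat_lit 76) (nat_lit 1955575046) (nat_lit 81) (nat_lit 5) (nat_lit 86) (nat_lit 5) (nat_lit 82) (nat_lit 5) (nat_lit 480) (nat_lit 362) (nat_lit 298)))) (XT.nd (nat_lit 156) (nat_lit 380) (nat_lit 0) (XT.nd (nat_lit 78) (nat_lit 228) (nat_lit 0) (XT.lf (nat_lit 0) (nat_lit 7143837429) (nat_lit 380) (nat_lit 465742585) (nat_lit 76) (nat_lit 5767952344) (nat_lit 81) (nat_lit 5) (nat_lit 86) (nat_lit 5) (nat_lit 82) (nat_lit 5) (nat_lit 481) (nat_lit 362) (nat_lit 297)) (XT.lf (nat_lit 0) (nat_lit 6751148807) (nat_lit 228) (nat_lit 3872304394) (nat_lit 304) (nat_lit 2930907371) (nat_lit 78)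 (nat_lit 5) (nat_lit 81) (nat_lit 5) (nat_lit 82) (nat_lit 5) (nat_lit 482) (nat_lit 362) (nat_lit 296))) (XT.nd (nat_lit 78) (nat_lit 0) (nat_lit 0) (XT.lf (nat_lit 0) (nat_lit 335166495) (nat_lit 304) (nat_lit 71114748) (nat_lit 380) (nat_lit 13328917200) (nat_lit 73) (nat_lit 5) (nat_lit 77) (nat_lit 5) (nat_lit 78) (nat_lit 5) (nat_lit 483) (nat_lit 362) (nat_lit 295)) (XT.lf (nat_lit 0) (nat_lit 3810602639) (nat_lit 380) (nat_lit 6305200825) (nat_lit 76) (nat_lit 3802680975) (nat_lit 73) (nat_lit 5) (nat_lit 78) (nat_lit 5) (nat_lit 74) (nat_lit 5) (nat_lit 484) (nat_lit 362) (nat_lit 294))))) (XT.nd (nat_lit 234) (nat_lit 532) (nat_lit 0) (XT.nd (nat_lit 78) (nat_lit 228) (nat_lit 0) (XT.lf (nat_lit 0) (nat_lit 893193467) (nat_lit 228) (nat_lit 6365626355) (nat_lit 304) (nat_lit 6847111426) (nat_lit 70) (nat_lit 5) (nat_lit 73) (nat_lit 5) (nat_lit 74) (nat_lit 5) (nat_lit 485) (nat_lit 362) (nat_lit 293))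 (XT.nd (nat_lit 78) (nat_lit 228) (nat_lit 0) (XT.lf (nat_lit 0) (nat_lit 8271773580) (nat_lit 228) (nat_lit 2516355688) (nat_lit 304) (nat_lit 3508766230) (nat_lit 70) (nat_lit 5) (nat_lit 73) (nat_lit 5) (nat_lit 74) (nat_lit 5) (nat_lit 486) (nat_lit 362) (nat_lit 292)) (XT.lf (nat_lit 0) (nat_lit 1264915521) (nat_lit 228) (nat_lit 13110763220) (nat_lit 304) (nat_lit 116258060) (nat_lit 67) (nat_lit 5) (nat_lit 70) (nat_lit 5) (nat_lit 71) (nat_lit 5) (nat_lit 487) (nat_lit 362) (nat_lit 291)))) (XT.nd (nat_lit 156) (nat_lit 228) (nat_lit 0) (XT.nd (nat_lit 78) (nat_lit 228) (nat_lit 0) (XT.lf (nat_lit 0) (nat_lit 3327955636) (nat_lit 304) (nat_lit 5995138911) (nat_lit 76) (nat_lit 5366806287) (nat_lit 66) (nat_lit 5) (nat_lit 70) (nat_lit 5) (nat_lit 67) (nat_lit 5) (nat_lit 488) (nat_lit 362) (nat_lit 290)) (XT.lf (nat_lit 0) (nat_lit 1350430207) (nat_lit 228) (nat_lit 5468767158) (nat_lit 304) (nat_lit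 8073027624) (nat_lit 63) (nat_lit 5) (nat_lit 66) (nat_lit 5) (nat_lit 67) (nat_lit 5) (nat_lit 489) (nat_lit 362) (nat_lit 289))) (XT.nd (nat_lit 78) (nat_lit 228) (nat_lit 0) (XT.lf (nat_lit 0) (nat_lit 8876599360) (nat_lit 228) (nat_lit 1515087293) (nat_lit 304) (nat_lit 4706690537) (nat_lit 63) (nat_lit 5) (nat_lit 66) (nat_lit 5) (nat_lit 67) (nat_lit 5) (nat_lit 490) (nat_lit 362) (nat_lit 288)) (XT.lf (nat_lit 0) (nat_lit 1196891184) (nat_lit 228) (nat_lit 12834489487) (nat_lit 304) (nat_lit 1277366488) (nat_lit 60) (nat_lit 5) (nat_lit 63) (nat_lit 5) (nat_lit 64) (nat_lit 5) (nat_lit 491) (nat_lit 362) (nat_lit 287))))))))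
noncomputable def xc61 : XT := (XT.nd (nat_lit 2184) (nat_lit 608) (nat_lit 0) (XT.nd (nat_lit 1092) (nat_lit 988) (nat_lit 0) (XT.nd (nat_lit 546) (nat_lit 684) (nat_lit 0) (XT.nd (nat_lit 234) (nat_lit 456) (nat_lit 0) (XT.nd (nat_lit 78) (nat_lit 228) (nat_lit 0) (XT.lf (nat_lit 0) (nat_lit 2215177048) (nat_lit 304) (nat_lit 6746120623) (nat_lit 76) (nat_lit 6561272837) (nat_lit 59) (nat_lit 5) (nat_lit 63) (nat_lit 5) (nat_lit 60) (nat_lit 5) (nat_lit 492) (nat_lit 362) (nat_lit 286)) (XT.nd (nat_lit 78) (nat_lit 0) (nat_lit 0) (XT.lf (nat_lit 0) (nat_lit 721684981) (nat_lit 228) (nat_lit 5015733445) (nat_lit 304) (nat_lit 10003553266) (nat_lit 56) (nat_lit 5) (nat_lit 59) (nat_lit 5) (nat_lit 60) (nat_lit 5) (nat_lit 493) (nat_lit 362) (nat_lit 285)) (XT.lf (nat_lit 0) (nat_lit 8384346313) (nat_lit 228) (nat_lit 963523424) (nat_lit 304) (nat_lit 6615524936) (nat_lit 56) (nat_lit 5) (nat_lit 59) (nat_lit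 5) (nat_lit 60) (nat_lit 5) (nat_lit 494) (nat_lit 362) (nat_lit 284)))) (XT.nd (nat_lit 156) (nat_lit 152) (nat_lit 0) (XT.nd (nat_lit 78) (nat_lit 304) (nat_lit 0) (XT.lf (nat_lit 0) (nat_lit 13024027082) (nat_lit 304) (nat_lit 56060989) (nat_lit 76) (nat_lit 3110316999) (nat_lit 56) (nat_lit 5) (nat_lit 60) (nat_lit 5) (nat_lit 57) (nat_lit 5) (nat_lit 495) (nat_lit 362) (nat_lit 283)) (XT.lf (nat_lit 0) (nat_lit 376934169) (nat_lit 304) (nat_lit 8756877203) (nat_lit 76) (nat_lit 7287511266) (nat_lit 52) (nat_lit 5) (nat_lit 56) (nat_lit 5) (nat_lit 53) (nat_lit 5) (nat_lit 496) (nat_lit 362) (nat_lit 282))) (XT.nd (nat_lit 78) (nat_lit 152) (nat_lit 0) (XT.lf (nat_lit 0) (nat_lit 3922631470) (nat_lit 304) (nat_lit 1182352335) (nat_lit 76) (nat_lit 11551986208) (nat_lit 52) (nat_lit 5) (nat_lit 56) (nat_lit 5) (nat_lit 53) (nat_lit 5) (nat_lit 497) (nat_lit 362) (nat_lit 281)) (XT.lf (nat_lit 0) (nat_lit 6586267296)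 (nat_lit 152) (nat_lit 969755853) (nat_lit 228) (nat_lit 9340979795) (nat_lit 50) (nat_lit 5) (nat_lit 52) (nat_lit 5) (nat_lit 53) (nat_lit 5) (nat_lit 498) (nat_lit 362) (nat_lit 280))))) (XT.nd (nat_lit 234) (nat_lit 380) (nat_lit 0) (XT.nd (nat_lit 78) (nat_lit 304) (nat_lit 0) (XT.lf (nat_lit 0) (nat_lit 11265288712) (nat_lit 228) (nat_lit 2680429133) (nat_lit 76) (nat_lit 3196062626) (nat_lit 50) (nat_lit 5) (nat_lit 53) (nat_lit 5) (nat_lit 51) (nat_lit 5) (nat_lit 499) (nat_lit 362) (nat_lit 279)) (XT.nd (nat_lit 78) (nat_lit 76) (nat_lit 0) (XT.lf (nat_lit 0) (nat_lit 5120178213) (nat_lit 228) (nat_lit 9942864429) (nat_lit 304) (nat_lit 2328132746) (nat_lit 47) (nat_lit 5) (nat_lit 50) (nat_lit 5) (nat_lit 51) (nat_lit 5) (nat_lit 500) (nat_lit 362) (nat_lit 278)) (XT.lf (nat_lit 0) (nat_lit 1267048241) (nat_lit 304) (nat_lit 4583665290) (nat_lit 76) (nat_lit 11794828818) (nat_lit 46) (nat_lit 5) (nat_lit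 50) (nat_lit 5) (nat_lit 47) (nat_lit 5) (nat_lit 501) (nat_lit 362) (nat_lit 277)))) (XT.nd (nat_lit 156) (nat_lit 228) (nat_lit 0) (XT.nd (nat_lit 78) (nat_lit 0) (nat_lit 0) (XT.lf (nat_lit 0) (nat_lit 3242267017) (nat_lit 152) (nat_lit 1656951456) (nat_lit 228) (nat_lit 13005552655) (nat_lit 44) (nat_lit 5) (nat_lit 46) (nat_lit 5) (nat_lit 47) (nat_lit 5) (nat_lit 502) (nat_lit 362) (nat_lit 276)) (XT.lf (nat_lit 0) (nat_lit 8627290492) (nat_lit 228) (nat_lit 6941297219) (nat_lit 76) (nat_lit 2600138901) (nat_lit 44) (nat_lit 5) (nat_lit 47) (nat_lit 5) (nat_lit 45) (nat_lit 5) (nat_lit 503) (nat_lit 362) (nat_lit 275))) (XT.nd (nat_lit 78) (nat_lit 0) (nat_lit 0) (XT.lf (nat_lit 0) (nat_lit 893550540) (nat_lit 228) (nat_lit 11528913461) (nat_lit 304) (nat_lit 6015653562) (nat_lit 41) (nat_lit 5) (nat_lit 44) (nat_lit 5) (nat_lit 45) (nat_lit 5) (nat_lit 504) (nat_lit 362) (nat_lit 274)) (XT.lf (nat_lit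 0) (nat_lit 8937930425) (nat_lit 228) (nat_lit 7378162977) (nat_lit 304) (nat_lit 2396358895) (nat_lit 41) (nat_lit 5) (nat_lit 44) (nat_lit 5) (nat_lit 45) (nat_lit 5) (nat_lit 505) (nat_lit 362) (nat_lit 273)))))) (XT.nd (nat_lit 546) (nat_lit 380) (nat_lit 0) (XT.nd (nat_lit 234) (nat_lit 380) (nat_lit 0) (XT.nd (nat_lit 78) (nat_lit 152) (nat_lit 0) (XT.lf (nat_lit 0) (nat_lit 1254614290) (nat_lit 304) (nat_lit 1898254860) (nat_lit 76) (nat_lit 15839717496) (nat_lit 40) (nat_lit 5) (nat_lit 44) (nat_lit 5) (nat_lit 41) (nat_lit 5) (nat_lit 506) (nat_lit 362) (nat_lit 272)) (XT.nd (nat_lit 78) (nat_lit 0) (nat_lit 0) (XT.lf (nat_lit 0) (nat_lit 4971066799) (nat_lit 228) (nat_lit 13124957044) (nat_lit 76) (nat_lit 1181498709) (nat_lit 38) (nat_lit 5) (nat_lit 41) (nat_lit 5) (nat_lit 39) (nat_lit 5) (nat_lit 507) (nat_lit 362) (nat_lit 271)) (XT.lf (nat_lit 0) (nat_lit 8772387065) (nat_lit 228) (nat_lit 5238799162)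 (nat_lit 76) (nat_lit 5556766656) (nat_lit 38) (nat_lit 5) (nat_lit 41) (nat_lit 5) (nat_lit 39) (nat_lit 5) (nat_lit 508) (nat_lit 362) (nat_lit 270)))) (XT.nd (nat_lit 156) (nat_lit 228) (nat_lit 0) (XT.nd (nat_lit 78) (nat_lit 0) (nat_lit 0) (XT.lf (nat_lit 0) (nat_lit 2802557438) (nat_lit 152) (nat_lit 9842662682) (nat_lit 228) (nat_lit 7219068326) (nat_lit 36) (nat_lit 5) (nat_lit 38) (nat_lit 5) (nat_lit 39) (nat_lit 5) (nat_lit 509) (nat_lit 362) (nat_lit 269)) (XT.lf (nat_lit 0) (nat_lit 11036732412) (nat_lit 152) (nat_lit 5571414778) (nat_lit 228) (nat_lit 3558157013) (nat_lit 36) (nat_lit 5) (nat_lit 38) (nat_lit 5) (nat_lit 39) (nat_lit 5) (nat_lit 510) (nat_lit 362) (nat_lit 268))) (XT.nd (nat_lit 78) (nat_lit 152) (nat_lit 0) (XT.lf (nat_lit 0) (nat_lit 151436166) (nat_lit 228) (nat_lit 1078470232) (nat_lit 76) (nat_lit 19244881582) (nat_lit 35) (nat_lit 5) (nat_lit 38) (nat_lit 5) (nat_lit 36) (nat_lit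 5) (nat_lit 511) (nat_lit 362) (nat_lit 267)) (XT.lf (nat_lit 0) (nat_lit 3933484215) (nat_lit 228) (nat_lit 13643333785) (nat_lit 76) (nat_lit 3211240779) (nat_lit 33) (nat_lit 5) (nat_lit 36) (nat_lit 5) (nat_lit 34) (nat_lit 5) (nat_lit 512) (nat_lit 362) (nat_lit 266))))) (XT.nd (nat_lit 234) (nat_lit 228) (nat_lit 0) (XT.nd (nat_lit 78) (nat_lit 152) (nat_lit 0) (XT.lf (nat_lit 0) (nat_lit 7784890695) (nat_lit 228) (nat_lit 5606528165) (nat_lit 76) (nat_lit 7716307540) (nat_lit 33) (nat_lit 5) (nat_lit 36) (nat_lit 5) (nat_lit 34) (nat_lit 5) (nat_lit 513) (nat_lit 362) (nat_lit 265)) (XT.nd (nat_lit 78) (nat_lit 0) (nat_lit 0) (XT.lf (nat_lit 0) (nat_lit 2587808054) (nat_lit 152) (nat_lit 9121032119) (nat_lit 228) (nat_lit 9725042543) (nat_lit 31) (nat_lit 5) (nat_lit 33) (nat_lit 5) (nat_lit 34) (nat_lit 5) (nat_lit 514) (nat_lit 362) (nat_lit 264)) (XT.lf (nat_lit 0) (nat_lit 10985128256) (nat_lit 152)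 (nat_lit 4742654048) (nat_lit 228) (nat_lit 6038455114) (nat_lit 31) (nat_lit 5) (nat_lit 33) (nat_lit 5) (nat_lit 34) (nat_lit 5) (nat_lit 515) (nat_lit 362) (nat_lit 263)))) (XT.nd (nat_lit 156) (nat_lit 0) (nat_lit 0) (XT.nd (nat_lit 78) (nat_lit 228) (nat_lit 0) (XT.lf (nat_lit 0) (nat_lit 19514217699) (nat_lit 152) (nat_lit 292190390) (nat_lit 228) (nat_lit 2299250449) (nat_lit 31) (nat_lit 5) (nat_lit 33) (nat_lit 5) (nat_lit 34) (nat_lit 5) (nat_lit 516) (nat_lit 362) (nat_lit 262)) (XT.lf (nat_lit 0) (nat_lit 1539842326) (nat_lit 228) (nat_lit 16686713794) (nat_lit 76) (nat_lit 4224221080) (nat_lit 28) (nat_lit 5) (nat_lit 31) (nat_lit 5) (nat_lit 29) (nat_lit 5) (nat_lit 517) (nat_lit 362) (nat_lit 261))) (XT.nd (nat_lit 78) (nat_lit 0) (nat_lit 0) (XT.lf (nat_lit 0) (nat_lit 5424040895) (nat_lit 228) (nat_lit 8533742682) (nat_lit 76) (nat_lit 8844733587) (nat_lit 28) (nat_lit 5) (nat_lit 31) (nat_lit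 5) (nat_lit 29) (nat_lit 5) (nat_lit 518) (nat_lit 362) (nat_lit 260)) (XT.lf (nat_lit 0) (nat_lit 9365964603) (nat_lit 228) (nat_lit 252830405) (nat_lit 76) (nat_lit 13542901107) (nat_lit 28) (nat_lit 5) (nat_lit 31) (nat_lit 5) (nat_lit 29) (nat_lit 5) (nat_lit 519) (nat_lit 362) (nat_lit 259))))))) (XT.nd (nat_lit 51324) (nat_lit 0) (nat_lit 20064) (XT.nd (nat_lit 546) (nat_lit 152) (nat_lit 0) (XT.nd (nat_lit 234) (nat_lit 228) (nat_lit 0) (XT.nd (nat_lit 78) (nat_lit 76) (nat_lit 0) (XT.lf (nat_lit 0) (nat_lit 8267702862) (nat_lit 152) (nat_lit 5153135850) (nat_lit 228) (nat_lit 10106542606) (nat_lit 26) (nat_lit 5) (nat_lit 28) (nat_lit 5) (nat_lit 29) (nat_lit 5) (nat_lit 520) (nat_lit 362) (nat_lit 258)) (XT.nd (nat_lit 78) (nat_lit 76) (nat_lit 0) (XT.lf (nat_lit 0) (nat_lit 16927870824) (nat_lit 152) (nat_lit 611230226) (nat_lit 228) (nat_lit 6361638174) (nat_lit 26) (nat_lit 5) (nat_lit 28) (nat_lit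 5) (nat_lit 29) (nat_lit 5) (nat_lit 521) (nat_lit 362) (nat_lit 257)) (XT.lf (nat_lit 0) (nat_lit 1438611631) (nat_lit 76) (nat_lit 20317448200) (nat_lit 152) (nat_lit 2525182556) (nat_lit 25) (nat_lit 5) (nat_lit 26) (nat_lit 5) (nat_lit 27) (nat_lit 4) (nat_lit 522) (nat_lit 362) (nat_lit 256)))) (XT.nd (nat_lit 156) (nat_lit 152) (nat_lit 0) (XT.nd (nat_lit 78) (nat_lit 0) (nat_lit 0) (XT.lf (nat_lit 0) (nat_lit 1401854678) (nat_lit 152) (nat_lit 14602808331) (nat_lit 76) (nat_lit 8663875775) (nat_lit 24) (nat_lit 5) (nat_lit 26) (nat_lit 5) (nat_lit 25) (nat_lit 5) (nat_lit 523) (nat_lit 362) (nat_lit 255)) (XT.lf (nat_lit 0) (nat_lit 5354933466) (nat_lit 152) (nat_lit 6248107905) (nat_lit 76) (nat_lit 13460584098) (nat_lit 24) (nat_lit 5) (nat_lit 26) (nat_lit 5) (nat_lit 25) (nat_lit 5) (nat_lit 524) (nat_lit 362) (nat_lit 254))) (XT.nd (nat_lit 78) (nat_lit 0) (nat_lit 0) (XT.lf (nat_lit 0) (nat_lit 2270925633)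 (nat_lit 152) (nat_lit 7112540980) (nat_lit 228) (nat_lit 16083223781) (nat_lit 22) (nat_lit 5) (nat_lit 24) (nat_lit 5) (nat_lit 25) (nat_lit 5) (nat_lit 525) (nat_lit 362) (nat_lit 253)) (XT.lf (nat_lit 0) (nat_lit 11012704205) (nat_lit 152) (nat_lit 2503592663) (nat_lit 228) (nat_lit 12361049495) (nat_lit 22) (nat_lit 5) (nat_lit 24) (nat_lit 5) (nat_lit 25) (nat_lit 5) (nat_lit 526) (nat_lit 362) (nat_lit 252))))) (XT.nd (nat_lit 234) (nat_lit 76) (nat_lit 0) (XT.nd (nat_lit 78) (nat_lit 76) (nat_lit 0) (XT.lf (nat_lit 0) (nat_lit 17728116894) (nat_lit 228) (nat_lit 6413132566) (nat_lit 76) (nat_lit 2155043521) (nat_lit 22) (nat_lit 5) (nat_lit 25) (nat_lit 5) (nat_lit 23) (nat_lit 4) (nat_lit 527) (nat_lit 362) (nat_lit 251)) (XT.nd (nat_lit 78) (nat_lit 0) (nat_lit 0) (XT.lf (nat_lit 0) (nat_lit 2188184779) (nat_lit 76) (nat_lit 19849192745) (nat_lit 152) (nat_lit 4685981032) (nat_lit 21) (nat_lit 5) (nat_lit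 22) (nat_lit 5) (nat_lit 23) (nat_lit 4) (nat_lit 528) (nat_lit 362) (nat_lit 250)) (XT.lf (nat_lit 0) (nat_lit 11017325568) (nat_lit 76) (nat_lit 15441092887) (nat_lit 152) (nat_lit 700039116) (nat_lit 21) (nat_lit 5) (nat_lit 22) (nat_lit 5) (nat_lit 23) (nat_lit 4) (nat_lit 529) (nat_lit 362) (nat_lit 249)))) (XT.nd (nat_lit 50388) (nat_lit 0) (nat_lit 30628) (XT.nd (nat_lit 50310) (nat_lit 0) (nat_lit 32224) (XT.lf (nat_lit 0) (nat_lit 3304265332) (nat_lit 152) (nat_lit 7631818020) (nat_lit 76) (nat_lit 16666086360) (nat_lit 20) (nat_lit 5) (nat_lit 22) (nat_lit 5) (nat_lit 21) (nat_lit 5) (nat_lit 530) (nat_lit 362) (nat_lit 248)) (XT.lf (nat_lit 0) (nat_lit 1440116142) (nat_lit 1444) (nat_lit 1037986782) (nat_lit 1444) (nat_lit 1037986782) (nat_lit 444) (nat_lit 4) (nat_lit 463) (nat_lit 5) (nat_lit 463) (nat_lit 4) (nat_lit 414) (nat_lit 363) (nat_lit 363))) (XT.nd (nat_lit 78) (nat_lit 0) (nat_lit 0)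 (XT.lf (nat_lit 0) (nat_lit 510378359) (nat_lit 1520) (nat_lit 611140718) (nat_lit 1596) (nat_lit 5947002666) (nat_lit 423) (nat_lit 5) (nat_lit 443) (nat_lit 5) (nat_lit 444) (nat_lit 4) (nat_lit 415) (nat_lit 363) (nat_lit 362)) (XT.lf (nat_lit 0) (nat_lit 4323770839) (nat_lit 1596) (nat_lit 1866085590) (nat_lit 0) (nat_lit 916156308) (nat_lit 423) (nat_lit 5) (nat_lit 444) (nat_lit 4) (nat_lit 423) (nat_lit 4) (nat_lit 416) (nat_lit 363) (nat_lit 361)))))) (XT.nd (nat_lit 546) (nat_lit 4104) (nat_lit 0) (XT.nd (nat_lit 234) (nat_lit 3116) (nat_lit 0) (XT.nd (nat_lit 78) (nat_lit 1672) (nat_lit 0) (XT.lf (nat_lit 0) (nat_lit 398528177) (nat_lit 1672) (nat_lit 4256448286) (nat_lit 76) (nat_lit 2490113719) (nat_lit 401) (nat_lit 5) (nat_lit 423) (nat_lit 5) (nat_lit 402) (nat_lit 4) (nat_lit 417) (nat_lit 363) (nat_lit 360)) (XT.nd (nat_lit 78) (nat_lit 0) (nat_lit 0) (XT.lf (nat_lit 0) (nat_lit 504297400) (nat_lit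 1672) (nat_lit 3053724697) (nat_lit 1748) (nat_lit 3627576464) (nat_lit 379) (nat_lit 5) (nat_lit 401) (nat_lit 5) (nat_lit 402) (nat_lit 4) (nat_lit 418) (nat_lit 363) (nat_lit 359)) (XT.lf (nat_lit 0) (nat_lit 5355500222) (nat_lit 1672) (nat_lit 1391057553) (nat_lit 1748) (nat_lit 481105483) (nat_lit 379) (nat_lit 5) (nat_lit 401) (nat_lit 5) (nat_lit 402) (nat_lit 4) (nat_lit 419) (nat_lit 363) (nat_lit 358)))) (XT.nd (nat_lit 156) (nat_lit 912) (nat_lit 0) (XT.nd (nat_lit 78) (nat_lit 836) (nat_lit 0) (XT.lf (nat_lit 0) (nat_lit 2652217128) (nat_lit 1368) (nat_lit 4280772708) (nat_lit 76) (nat_lit 338091783) (nat_lit 361) (nat_lit 5) (nat_lit 379) (nat_lit 5) (nat_lit 362) (nat_lit 4) (nat_lit 420) (nat_lit 363) (nat_lit 357)) (XT.lf (nat_lit 0) (nat_lit 592596892) (nat_lit 836) (nat_lit 5213740121) (nat_lit 912) (nat_lit 1509735819) (nat_lit 350) (nat_lit 5) (nat_lit 361) (nat_lit 5) (nat_lit 362) (nat_lit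 4) (nat_lit 421) (nat_lit 363) (nat_lit 356))) (XT.nd (nat_lit 78) (nat_lit 836) (nat_lit 0) (XT.lf (nat_lit 0) (nat_lit 1607895918) (nat_lit 912) (nat_lit 1814342035) (nat_lit 76) (nat_lit 3940205140) (nat_lit 349) (nat_lit 5) (nat_lit 361) (nat_lit 5) (nat_lit 350) (nat_lit 5) (nat_lit 422) (nat_lit 363) (nat_lit 355)) (XT.lf (nat_lit 0) (nat_lit 3162258431) (nat_lit 836) (nat_lit 1566344987) (nat_lit 912) (nat_lit 2681775093) (nat_lit 338) (nat_lit 5) (nat_lit 349) (nat_lit 5) (nat_lit 350) (nat_lit 5) (nat_lit 423) (nat_lit 363) (nat_lit 354))))) (XT.nd (nat_lit 312) (nat_lit 1520) (nat_lit 0) (XT.nd (nat_lit 156) (nat_lit 1672) (nat_lit 0) (XT.nd (nat_lit 78) (nat_lit 0) (nat_lit 0) (XT.lf (nat_lit 0) (nat_lit 406575497) (nat_lit 912) (nat_lit 6714218313) (nat_lit 76) (nat_lit 339272864) (nat_lit 326) (nat_lit 5) (nat_lit 338) (nat_lit 5) (nat_lit 327) (nat_lit 5) (nat_lit 424) (nat_lit 363) (nat_lit 353))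 (XT.lf (nat_lit 0) (nat_lit 3501333293) (nat_lit 912) (nat_lit 1704631627) (nat_lit 76) (nat_lit 2304871039) (nat_lit 326) (nat_lit 5) (nat_lit 338) (nat_lit 5) (nat_lit 327) (nat_lit 5) (nat_lit 425) (nat_lit 363) (nat_lit 352))) (XT.nd (nat_lit 78) (nat_lit 836) (nat_lit 0) (XT.lf (nat_lit 0) (nat_lit 3387404891) (nat_lit 836) (nat_lit 3235169279) (nat_lit 912) (nat_lit 940806538) (nat_lit 315) (nat_lit 5) (nat_lit 326) (nat_lit 5) (nat_lit 327) (nat_lit 5) (nat_lit 426) (nat_lit 363) (nat_lit 351)) (XT.lf (nat_lit 0) (nat_lit 922887164) (nat_lit 760) (nat_lit 1198064227) (nat_lit 836) (nat_lit 5496582491) (nat_lit 304) (nat_lit 5) (nat_lit 314) (nat_lit 5) (nat_lit 315) (nat_lit 5) (nat_lit 427) (nat_lit 363) (nat_lit 350)))) (XT.nd (nat_lit 156) (nat_lit 684) (nat_lit 0) (XT.nd (nat_lit 78) (nat_lit 836) (nat_lit 0) (XT.lf (nat_lit 0) (nat_lit 5208852036) (nat_lit 836) (nat_lit 1567299663) (nat_lit 76) (nat_lit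 896992793) (nat_lit 304) (nat_lit 5) (nat_lit 315) (nat_lit 5) (nat_lit 305) (nat_lit 5) (nat_lit 428) (nat_lit 363) (nat_lit 349)) (XT.lf (nat_lit 0) (nat_lit 596442706) (nat_lit 836) (nat_lit 4093964771) (nat_lit 76) (nat_lit 3039904273) (nat_lit 293) (nat_lit 5) (nat_lit 304) (nat_lit 5) (nat_lit 294) (nat_lit 5) (nat_lit 429) (nat_lit 363) (nat_lit 348))) (XT.nd (nat_lit 78) (nat_lit 0) (nat_lit 0) (XT.lf (nat_lit 0) (nat_lit 1112679392) (nat_lit 684) (nat_lit 2535513662) (nat_lit 760) (nat_lit 4140893603) (nat_lit 284) (nat_lit 5) (nat_lit 293) (nat_lit 5) (nat_lit 294) (nat_lit 5) (nat_lit 430) (nat_lit 363) (nat_lit 347)) (XT.lf (nat_lit 0) (nat_lit 6416938055) (nat_lit 684) (nat_lit 317144894) (nat_lit 760) (nat_lit 1115537147) (nat_lit 284) (nat_lit 5) (nat_lit 293) (nat_lit 5) (nat_lit 294) (nat_lit 5) (nat_lit 431) (nat_lit 363) (nat_lit 346))))))))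
noncomputable def xc62 : XT := (XT.nd (nat_lit 2184) (nat_lit 5168) (nat_lit 0) (XT.nd (nat_lit 1092) (nat_lit 4560) (nat_lit 0) (XT.nd (nat_lit 546) (nat_lit 2964) (nat_lit 0) (XT.nd (nat_lit 234) (nat_lit 1976) (nat_lit 0) (XT.nd (nat_lit 78) (nat_lit 760) (nat_lit 0) (XT.lf (nat_lit 0) (nat_lit 1928893173) (nat_lit 836) (nat_lit 4031930128) (nat_lit 76) (nat_lit 1950640266) (nat_lit 273) (nat_lit 5) (nat_lit 284) (nat_lit 5) (nat_lit 274) (nat_lit 5) (nat_lit 432) (nat_lit 363) (nat_lit 345)) (XT.nd (nat_lit 78) (nat_lit 76) (nat_lit 0) (XT.lf (nat_lit 0) (nat_lit 1288205404) (nat_lit 684) (nat_lit 3698130048) (nat_lit 760) (nat_lit 2988762297) (nat_lit 264) (nat_lit 5) (nat_lit 273) (nat_lit 5) (nat_lit 274) (nat_lit 5) (nat_lit 433) (nat_lit 363) (nat_lit 344)) (XT.lf (nat_lit 0) (nat_lit 38461953) (nat_lit 760) (nat_lit 1333200595) (nat_lit 76) (nat_lit 6668886679) (nat_lit 263) (nat_lit 5) (nat_lit 273)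 (nat_lit 5) (nat_lit 264) (nat_lit 5) (nat_lit 434) (nat_lit 363) (nat_lit 343)))) (XT.nd (nat_lit 156) (nat_lit 684) (nat_lit 0) (XT.nd (nat_lit 78) (nat_lit 608) (nat_lit 0) (XT.lf (nat_lit 0) (nat_lit 3067809135) (nat_lit 760) (nat_lit 4013965237) (nat_lit 76) (nat_lit 1025548361) (nat_lit 254) (nat_lit 5) (nat_lit 264) (nat_lit 5) (nat_lit 255) (nat_lit 5) (nat_lit 435) (nat_lit 363) (nat_lit 342)) (XT.lf (nat_lit 0) (nat_lit 1418826534) (nat_lit 608) (nat_lit 4714967655) (nat_lit 684) (nat_lit 2042155787) (nat_lit 246) (nat_lit 5) (nat_lit 254) (nat_lit 5) (nat_lit 255) (nat_lit 5) (nat_lit 436) (nat_lit 363) (nat_lit 341))) (XT.nd (nat_lit 78) (nat_lit 608) (nat_lit 0) (XT.lf (nat_lit 0) (nat_lit 977931127) (nat_lit 684) (nat_lit 1299708838) (nat_lit 76) (nat_lit 5968693820) (nat_lit 245) (nat_lit 5) (nat_lit 254) (nat_lit 5) (nat_lit 246) (nat_lit 5) (nat_lit 437) (nat_lit 363) (nat_lit 340)) (XT.lf (nat_lit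 0) (nat_lit 4010218264) (nat_lit 684) (nat_lit 4071844028) (nat_lit 76) (nat_lit 236247166) (nat_lit 237) (nat_lit 5) (nat_lit 246) (nat_lit 5) (nat_lit 238) (nat_lit 5) (nat_lit 438) (nat_lit 363) (nat_lit 339))))) (XT.nd (nat_lit 234) (nat_lit 1672) (nat_lit 0) (XT.nd (nat_lit 78) (nat_lit 684) (nat_lit 0) (XT.lf (nat_lit 0) (nat_lit 1472254084) (nat_lit 608) (nat_lit 5614815956) (nat_lit 684) (nat_lit 1305012520) (nat_lit 229) (nat_lit 5) (nat_lit 237) (nat_lit 5) (nat_lit 238) (nat_lit 5) (nat_lit 439) (nat_lit 363) (nat_lit 338)) (XT.nd (nat_lit 78) (nat_lit 608) (nat_lit 0) (XT.lf (nat_lit 0) (nat_lit 1713286126) (nat_lit 684) (nat_lit 1357780654) (nat_lit 76) (nat_lit 5396506600) (nat_lit 228) (nat_lit 5) (nat_lit 237) (nat_lit 5) (nat_lit 229) (nat_lit 5) (nat_lit 440) (nat_lit 363) (nat_lit 337)) (XT.lf (nat_lit 0) (nat_lit 4302679204) (nat_lit 608) (nat_lit 451427439) (nat_lit 684) (nat_lit 3790736450)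 (nat_lit 220) (nat_lit 5) (nat_lit 228) (nat_lit 5) (nat_lit 229) (nat_lit 5) (nat_lit 441) (nat_lit 363) (nat_lit 336)))) (XT.nd (nat_lit 156) (nat_lit 1064) (nat_lit 0) (XT.nd (nat_lit 78) (nat_lit 76) (nat_lit 0) (XT.lf (nat_lit 0) (nat_lit 1414221083) (nat_lit 532) (nat_lit 6426447452) (nat_lit 608) (nat_lit 783324694) (nat_lit 213) (nat_lit 5) (nat_lit 220) (nat_lit 5) (nat_lit 221) (nat_lit 5) (nat_lit 442) (nat_lit 363) (nat_lit 335)) (XT.lf (nat_lit 0) (nat_lit 2238274106) (nat_lit 608) (nat_lit 1542317870) (nat_lit 76) (nat_lit 4924190067) (nat_lit 212) (nat_lit 5) (nat_lit 220) (nat_lit 5) (nat_lit 213) (nat_lit 5) (nat_lit 443) (nat_lit 363) (nat_lit 334))) (XT.nd (nat_lit 78) (nat_lit 532) (nat_lit 0) (XT.lf (nat_lit 0) (nat_lit 4228570723) (nat_lit 532) (nat_lit 1061995917) (nat_lit 608) (nat_lit 3496933022) (nat_lit 205) (nat_lit 5) (nat_lit 212) (nat_lit 5) (nat_lit 213) (nat_lit 5) (nat_lit 444)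 (nat_lit 363) (nat_lit 333)) (XT.lf (nat_lit 0) (nat_lit 1208130441) (nat_lit 532) (nat_lit 7178871070) (nat_lit 608) (nat_lit 485239170) (nat_lit 198) (nat_lit 5) (nat_lit 205) (nat_lit 5) (nat_lit 206) (nat_lit 5) (nat_lit 445) (nat_lit 363) (nat_lit 332)))))) (XT.nd (nat_lit 546) (nat_lit 2356) (nat_lit 0) (XT.nd (nat_lit 234) (nat_lit 1140) (nat_lit 0) (XT.nd (nat_lit 78) (nat_lit 988) (nat_lit 0) (XT.lf (nat_lit 0) (nat_lit 2544500712) (nat_lit 608) (nat_lit 1890665682) (nat_lit 76) (nat_lit 4523369269) (nat_lit 197) (nat_lit 5) (nat_lit 205) (nat_lit 5) (nat_lit 198) (nat_lit 5) (nat_lit 446) (nat_lit 363) (nat_lit 331)) (XT.nd (nat_lit 78) (nat_lit 456) (nat_lit 0) (XT.lf (nat_lit 0) (nat_lit 3987627493) (nat_lit 532) (nat_lit 1621419234) (nat_lit 608) (nat_lit 3437860683) (nat_lit 190) (nat_lit 5) (nat_lit 197) (nat_lit 5) (nat_lit 198) (nat_lit 5) (nat_lit 447) (nat_lit 363) (nat_lit 330)) (XT.lf (nat_lit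 0) (nat_lit 814676185) (nat_lit 456) (nat_lit 7901593311) (nat_lit 532) (nat_lit 421177998) (nat_lit 184) (nat_lit 5) (nat_lit 190) (nat_lit 5) (nat_lit 191) (nat_lit 5) (nat_lit 448) (nat_lit 363) (nat_lit 329)))) (XT.nd (nat_lit 156) (nat_lit 532) (nat_lit 0) (XT.nd (nat_lit 78) (nat_lit 532) (nat_lit 0) (XT.lf (nat_lit 0) (nat_lit 2621307122) (nat_lit 532) (nat_lit 2442998810) (nat_lit 76) (nat_lit 4165169072) (nat_lit 183) (nat_lit 5) (nat_lit 190) (nat_lit 5) (nat_lit 184) (nat_lit 5) (nat_lit 449) (nat_lit 363) (nat_lit 328)) (XT.lf (nat_lit 0) (nat_lit 3538811099) (nat_lit 532) (nat_lit 2159435045) (nat_lit 608) (nat_lit 3625483332) (nat_lit 176) (nat_lit 5) (nat_lit 183) (nat_lit 5) (nat_lit 184) (nat_lit 5) (nat_lit 450) (nat_lit 363) (nat_lit 327))) (XT.nd (nat_lit 78) (nat_lit 76) (nat_lit 0) (XT.lf (nat_lit 0) (nat_lit 191434167) (nat_lit 456) (nat_lit 8624889398) (nat_lit 532) (nat_lit 603979917)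 (nat_lit 170) (nat_lit 5) (nat_lit 176) (nat_lit 5) (nat_lit 177) (nat_lit 5) (nat_lit 451) (nat_lit 363) (nat_lit 326)) (XT.lf (nat_lit 0) (nat_lit 2455626120) (nat_lit 532) (nat_lit 3242739253) (nat_lit 76) (nat_lit 3819943811) (nat_lit 169) (nat_lit 5) (nat_lit 176) (nat_lit 5) (nat_lit 170) (nat_lit 5) (nat_lit 452) (nat_lit 363) (nat_lit 325))))) (XT.nd (nat_lit 234) (nat_lit 1368) (nat_lit 0) (XT.nd (nat_lit 78) (nat_lit 532) (nat_lit 0) (XT.lf (nat_lit 0) (nat_lit 2837712977) (nat_lit 456) (nat_lit 2706696606) (nat_lit 532) (nat_lit 4074289030) (nat_lit 163) (nat_lit 5) (nat_lit 169) (nat_lit 5) (nat_lit 170) (nat_lit 5) (nat_lit 453) (nat_lit 363) (nat_lit 324)) (XT.nd (nat_lit 78) (nat_lit 532) (nat_lit 0) (XT.lf (nat_lit 0) (nat_lit 8677099238) (nat_lit 532) (nat_lit 698301607) (nat_lit 76) (nat_lit 346076800) (nat_lit 163) (nat_lit 5) (nat_lit 170) (nat_lit 5) (nat_lit 164) (nat_lit 5) (nat_lit 454)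 (nat_lit 363) (nat_lit 323)) (XT.lf (nat_lit 0) (nat_lit 2031815617) (nat_lit 532) (nat_lit 4337009636) (nat_lit 76) (nat_lit 3456994372) (nat_lit 156) (nat_lit 5) (nat_lit 163) (nat_lit 5) (nat_lit 157) (nat_lit 5) (nat_lit 455) (nat_lit 363) (nat_lit 322)))) (XT.nd (nat_lit 156) (nat_lit 912) (nat_lit 0) (XT.nd (nat_lit 78) (nat_lit 0) (nat_lit 0) (XT.lf (nat_lit 0) (nat_lit 1836087923) (nat_lit 456) (nat_lit 3295065100) (nat_lit 532) (nat_lit 4801468299) (nat_lit 150) (nat_lit 5) (nat_lit 156) (nat_lit 5) (nat_lit 157) (nat_lit 5) (nat_lit 456) (nat_lit 363) (nat_lit 321)) (XT.lf (nat_lit 0) (nat_lit 8133798444) (nat_lit 456) (nat_lit 147165525) (nat_lit 532) (nat_lit 1760847910) (nat_lit 150) (nat_lit 5) (nat_lit 156) (nat_lit 5) (nat_lit 157) (nat_lit 5) (nat_lit 457) (nat_lit 363) (nat_lit 320))) (XT.nd (nat_lit 78) (nat_lit 456) (nat_lit 0) (XT.lf (nat_lit 0) (nat_lit 1331467837) (nat_lit 456) (nat_lit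 5777126546) (nat_lit 76) (nat_lit 3044270174) (nat_lit 144) (nat_lit 5) (nat_lit 150) (nat_lit 5) (nat_lit 145) (nat_lit 5) (nat_lit 458) (nat_lit 363) (nat_lit 319)) (XT.lf (nat_lit 0) (nat_lit 481346157) (nat_lit 456) (nat_lit 3957918427) (nat_lit 532) (nat_lit 5827117935) (nat_lit 138) (nat_lit 5) (nat_lit 144) (nat_lit 5) (nat_lit 145) (nat_lit 5) (nat_lit 459) (nat_lit 363) (nat_lit 318))))))) (XT.nd (nat_lit 1092) (nat_lit 2128) (nat_lit 0) (XT.nd (nat_lit 546) (nat_lit 1444) (nat_lit 0) (XT.nd (nat_lit 234) (nat_lit 1140) (nat_lit 0) (XT.nd (nat_lit 78) (nat_lit 456) (nat_lit 0) (XT.lf (nat_lit 0) (nat_lit 6886284327) (nat_lit 456) (nat_lit 722312682) (nat_lit 532) (nat_lit 2773607082) (nat_lit 138) (nat_lit 5) (nat_lit 144) (nat_lit 5) (nat_lit 145) (nat_lit 5) (nat_lit 460) (nat_lit 363) (nat_lit 317)) (XT.nd (nat_lit 78) (nat_lit 0) (nat_lit 0) (XT.lf (nat_lit 0) (nat_lit 333192125) (nat_lit 456) (nat_lit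 7619138604) (nat_lit 76) (nat_lit 2548053324) (nat_lit 132) (nat_lit 5) (nat_lit 138) (nat_lit 5) (nat_lit 133) (nat_lit 5) (nat_lit 461) (nat_lit 363) (nat_lit 316)) (XT.lf (nat_lit 0) (nat_lit 3454814889) (nat_lit 456) (nat_lit 1267161059) (nat_lit 76) (nat_lit 5898808117) (nat_lit 132) (nat_lit 5) (nat_lit 138) (nat_lit 5) (nat_lit 133) (nat_lit 5) (nat_lit 462) (nat_lit 363) (nat_lit 315)))) (XT.nd (nat_lit 156) (nat_lit 456) (nat_lit 0) (XT.nd (nat_lit 78) (nat_lit 304) (nat_lit 0) (XT.lf (nat_lit 0) (nat_lit 5224754565) (nat_lit 380) (nat_lit 1410188217) (nat_lit 456) (nat_lit 4108747099) (nat_lit 127) (nat_lit 5) (nat_lit 132) (nat_lit 5) (nat_lit 133) (nat_lit 5) (nat_lit 463) (nat_lit 363) (nat_lit 314)) (XT.lf (nat_lit 0) (nat_lit 938363657) (nat_lit 304) (nat_lit 8930156135) (nat_lit 380) (nat_lit 1000755971) (nat_lit 123) (nat_lit 5) (nat_lit 127) (nat_lit 5) (nat_lit 128) (nat_lit 5) (nat_lit 464)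 (nat_lit 363) (nat_lit 313))) (XT.nd (nat_lit 78) (nat_lit 380) (nat_lit 0) (XT.lf (nat_lit 0) (nat_lit 2150091761) (nat_lit 380) (nat_lit 3476742915) (nat_lit 76) (nat_lit 5370092156) (nat_lit 122) (nat_lit 5) (nat_lit 127) (nat_lit 5) (nat_lit 123) (nat_lit 5) (nat_lit 465) (nat_lit 363) (nat_lit 312)) (XT.lf (nat_lit 0) (nat_lit 3085386684) (nat_lit 380) (nat_lit 2248478827) (nat_lit 456) (nat_lit 5793484720) (nat_lit 117) (nat_lit 5) (nat_lit 122) (nat_lit 5) (nat_lit 123) (nat_lit 5) (nat_lit 466) (nat_lit 363) (nat_lit 311))))) (XT.nd (nat_lit 234) (nat_lit 684) (nat_lit 0) (XT.nd (nat_lit 78) (nat_lit 760) (nat_lit 0) (XT.lf (nat_lit 0) (nat_lit 8576086361) (nat_lit 456) (nat_lit 1497183305) (nat_lit 76) (nat_lit 1187234442) (nat_lit 117) (nat_lit 5) (nat_lit 123) (nat_lit 5) (nat_lit 118) (nat_lit 5) (nat_lit 467) (nat_lit 363) (nat_lit 310)) (XT.nd (nat_lit 78) (nat_lit 380) (nat_lit 0) (XT.lf (nat_lit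 0) (nat_lit 493245783) (nat_lit 380) (nat_lit 6221967471) (nat_lit 76) (nat_lit 4680805356) (nat_lit 112) (nat_lit 5) (nat_lit 117) (nat_lit 5) (nat_lit 113) (nat_lit 5) (nat_lit 468) (nat_lit 363) (nat_lit 309)) (XT.lf (nat_lit 0) (nat_lit 398061850) (nat_lit 380) (nat_lit 3277516169) (nat_lit 456) (nat_lit 7858785744) (nat_lit 107) (nat_lit 5) (nat_lit 112) (nat_lit 5) (nat_lit 113) (nat_lit 5) (nat_lit 469) (nat_lit 363) (nat_lit 308)))) (XT.nd (nat_lit 156) (nat_lit 380) (nat_lit 0) (XT.nd (nat_lit 78) (nat_lit 304) (nat_lit 0) (XT.lf (nat_lit 0) (nat_lit 6929629379) (nat_lit 456) (nat_lit 4496093420) (nat_lit 76) (nat_lit 249607687) (nat_lit 107) (nat_lit 5) (nat_lit 113) (nat_lit 5) (nat_lit 108) (nat_lit 5) (nat_lit 470) (nat_lit 363) (nat_lit 307)) (XT.lf (nat_lit 0) (nat_lit 2231021226) (nat_lit 304) (nat_lit 8019183071) (nat_lit 380) (nat_lit 1568899192) (nat_lit 103) (nat_lit 5) (nat_lit 107) (nat_lit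 5) (nat_lit 108) (nat_lit 5) (nat_lit 471) (nat_lit 363) (nat_lit 306))) (XT.nd (nat_lit 78) (nat_lit 304) (nat_lit 0) (XT.lf (nat_lit 0) (nat_lit 1645233751) (nat_lit 380) (nat_lit 2876153455) (nat_lit 76) (nat_lit 7444248566) (nat_lit 102) (nat_lit 5) (nat_lit 107) (nat_lit 5) (nat_lit 103) (nat_lit 5) (nat_lit 472) (nat_lit 363) (nat_lit 305)) (XT.lf (nat_lit 0) (nat_lit 3959020743) (nat_lit 304) (nat_lit 935370032) (nat_lit 380) (nat_lit 7220680427) (nat_lit 98) (nat_lit 5) (nat_lit 102) (nat_lit 5) (nat_lit 103) (nat_lit 5) (nat_lit 473) (nat_lit 363) (nat_lit 304)))))) (XT.nd (nat_lit 546) (nat_lit 836) (nat_lit 0) (XT.nd (nat_lit 234) (nat_lit 608) (nat_lit 0) (XT.nd (nat_lit 78) (nat_lit 684) (nat_lit 0) (XT.lf (nat_lit 0) (nat_lit 8211866490) (nat_lit 380) (nat_lit 1367775169) (nat_lit 76) (nat_lit 2687801563) (nat_lit 98) (nat_lit 5) (nat_lit 103) (nat_lit 5) (nat_lit 99) (nat_lit 5) (nat_lit 474) (nat_lit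 363) (nat_lit 303)) (XT.nd (nat_lit 78) (nat_lit 380) (nat_lit 0) (XT.lf (nat_lit 0) (nat_lit 5571427623) (nat_lit 304) (nat_lit 6033525940) (nat_lit 380) (nat_lit 817738195) (nat_lit 94) (nat_lit 5) (nat_lit 98) (nat_lit 5) (nat_lit 99) (nat_lit 5) (nat_lit 475) (nat_lit 363) (nat_lit 302)) (XT.lf (nat_lit 0) (nat_lit 19326531) (nat_lit 304) (nat_lit 2409284513) (nat_lit 380) (nat_lit 10152598439) (nat_lit 89) (nat_lit 5) (nat_lit 93) (nat_lit 5) (nat_lit 94) (nat_lit 5) (nat_lit 476) (nat_lit 363) (nat_lit 301)))) (XT.nd (nat_lit 156) (nat_lit 380) (nat_lit 0) (XT.nd (nat_lit 78) (nat_lit 228) (nat_lit 0) (XT.lf (nat_lit 0) (nat_lit 5750756794) (nat_lit 380) (nat_lit 5687888157) (nat_lit 76) (nat_lit 1303721612) (nat_lit 89) (nat_lit 5) (nat_lit 94) (nat_lit 5) (nat_lit 90) (nat_lit 5) (nat_lit 477) (nat_lit 363) (nat_lit 300)) (XT.lf (nat_lit 0) (nat_lit 1273320123) (nat_lit 228) (nat_lit 7858061644) (nat_lit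 304) (nat_lit 3775537510) (nat_lit 86) (nat_lit 5) (nat_lit 89) (nat_lit 5) (nat_lit 90) (nat_lit 5) (nat_lit 478) (nat_lit 363) (nat_lit 299))) (XT.nd (nat_lit 78) (nat_lit 380) (nat_lit 0) (XT.lf (nat_lit 0) (nat_lit 8400178282) (nat_lit 228) (nat_lit 4185725315) (nat_lit 304) (nat_lit 488746722) (nat_lit 86) (nat_lit 5) (nat_lit 89) (nat_lit 5) (nat_lit 90) (nat_lit 5) (nat_lit 479) (nat_lit 363) (nat_lit 298)) (XT.lf (nat_lit 0) (nat_lit 2386430252) (nat_lit 304) (nat_lit 423806193) (nat_lit 380) (nat_lit 10435459812) (nat_lit 81) (nat_lit 5) (nat_lit 85) (nat_lit 5) (nat_lit 86) (nat_lit 5) (nat_lit 480) (nat_lit 363) (nat_lit 297))))) (XT.nd (nat_lit 234) (nat_lit 608) (nat_lit 0) (XT.nd (nat_lit 78) (nat_lit 228) (nat_lit 0) (XT.lf (nat_lit 0) (nat_lit 6191093243) (nat_lit 380) (nat_lit 3843525418) (nat_lit 76) (nat_lit 3385043287) (nat_lit 81) (nat_lit 5) (nat_lit 86) (nat_lit 5) (nat_lit 82) (nat_lit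 5) (nat_lit 481) (nat_lit 363) (nat_lit 296)) (XT.nd (nat_lit 78) (nat_lit 0) (nat_lit 0) (XT.lf (nat_lit 0) (nat_lit 3303740959) (nat_lit 228) (nat_lit 6329391315) (nat_lit 304) (nat_lit 3964115351) (nat_lit 78) (nat_lit 5) (nat_lit 81) (nat_lit 5) (nat_lit 82) (nat_lit 5) (nat_lit 482) (nat_lit 363) (nat_lit 295)) (XT.lf (nat_lit 0) (nat_lit 10597065567) (nat_lit 228) (nat_lit 2542330692) (nat_lit 304) (nat_lit 639092811) (nat_lit 78) (nat_lit 5) (nat_lit 81) (nat_lit 5) (nat_lit 82) (nat_lit 5) (nat_lit 483) (nat_lit 363) (nat_lit 294)))) (XT.nd (nat_lit 156) (nat_lit 228) (nat_lit 0) (XT.nd (nat_lit 78) (nat_lit 0) (nat_lit 0) (XT.lf (nat_lit 0) (nat_lit 2721416993) (nat_lit 380) (nat_lit 9911989718) (nat_lit 76) (nat_lit 1329500797) (nat_lit 73) (nat_lit 5) (nat_lit 78) (nat_lit 5) (nat_lit 74) (nat_lit 5) (nat_lit 484) (nat_lit 363) (nat_lit 293)) (XT.lf (nat_lit 0) (nat_lit 6149051046) (nat_lit 380) (nat_lit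 2749371595) (nat_lit 76) (nat_lit 5252348814) (nat_lit 73) (nat_lit 5) (nat_lit 78) (nat_lit 5) (nat_lit 74) (nat_lit 5) (nat_lit 485) (nat_lit 363) (nat_lit 292))) (XT.nd (nat_lit 78) (nat_lit 0) (nat_lit 0) (XT.lf (nat_lit 0) (nat_lit 4568767339) (nat_lit 228) (nat_lit 5076855939) (nat_lit 304) (nat_lit 4696772540) (nat_lit 70) (nat_lit 5) (nat_lit 73) (nat_lit 5) (nat_lit 74) (nat_lit 5) (nat_lit 486) (nat_lit 363) (nat_lit 291)) (XT.lf (nat_lit 0) (nat_lit 12023199250) (nat_lit 228) (nat_lit 1178366191) (nat_lit 304) (nat_lit 1336509090) (nat_lit 70) (nat_lit 5) (nat_lit 73) (nat_lit 5) (nat_lit 74) (nat_lit 5) (nat_lit 487) (nat_lit 363) (nat_lit 290))))))))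
noncomputable def xc63 : XT := (XT.nd (nat_lit 2184) (nat_lit 836) (nat_lit 0) (XT.nd (nat_lit 1092) (nat_lit 1216) (nat_lit 0) (XT.nd (nat_lit 546) (nat_lit 684) (nat_lit 0) (XT.nd (nat_lit 234) (nat_lit 532) (nat_lit 0) (XT.nd (nat_lit 78) (nat_lit 228) (nat_lit 0) (XT.lf (nat_lit 0) (nat_lit 2085012340) (nat_lit 304) (nat_lit 9862845698) (nat_lit 76) (nat_lit 2789117959) (nat_lit 66) (nat_lit 5) (nat_lit 70) (nat_lit 5) (nat_lit 67) (nat_lit 5) (nat_lit 488) (nat_lit 363) (nat_lit 289)) (XT.nd (nat_lit 78) (nat_lit 228) (nat_lit 0) (XT.lf (nat_lit 0) (nat_lit 5553377809) (nat_lit 304) (nat_lit 2558231800) (nat_lit 76) (nat_lit 6828153028) (nat_lit 66) (nat_lit 5) (nat_lit 70) (nat_lit 5) (nat_lit 67) (nat_lit 5) (nat_lit 489) (nat_lit 363) (nat_lit 288)) (XT.lf (nat_lit 0) (nat_lit 4910848634) (nat_lit 228) (nat_lit 4184206330) (nat_lit 304) (nat_lit 6051480980) (nat_lit 63) (nat_lit 5) (nat_lit 66) (nat_lit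 5) (nat_lit 67) (nat_lit 5) (nat_lit 490) (nat_lit 363) (nat_lit 287)))) (XT.nd (nat_lit 156) (nat_lit 228) (nat_lit 0) (XT.nd (nat_lit 78) (nat_lit 304) (nat_lit 0) (XT.lf (nat_lit 0) (nat_lit 12518258625) (nat_lit 228) (nat_lit 178784949) (nat_lit 304) (nat_lit 2660621214) (nat_lit 63) (nat_lit 5) (nat_lit 66) (nat_lit 5) (nat_lit 67) (nat_lit 5) (nat_lit 491) (nat_lit 363) (nat_lit 286)) (XT.lf (nat_lit 0) (nat_lit 816361163) (nat_lit 304) (nat_lit 10882074003) (nat_lit 76) (nat_lit 3873911229) (nat_lit 59) (nat_lit 5) (nat_lit 63) (nat_lit 5) (nat_lit 60) (nat_lit 5) (nat_lit 492) (nat_lit 363) (nat_lit 285))) (XT.nd (nat_lit 78) (nat_lit 228) (nat_lit 0) (XT.lf (nat_lit 0) (nat_lit 4320448268) (nat_lit 304) (nat_lit 3446180574) (nat_lit 76) (nat_lit 8024486316) (nat_lit 59) (nat_lit 5) (nat_lit 63) (nat_lit 5) (nat_lit 60) (nat_lit 5) (nat_lit 493) (nat_lit 363) (nat_lit 284)) (XT.lf (nat_lit 0) (nat_lit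 4148383363) (nat_lit 228) (nat_lit 3746494666) (nat_lit 304) (nat_lit 8119384945) (nat_lit 56) (nat_lit 5) (nat_lit 59) (nat_lit 5) (nat_lit 60) (nat_lit 5) (nat_lit 494) (nat_lit 363) (nat_lit 283))))) (XT.nd (nat_lit 234) (nat_lit 380) (nat_lit 0) (XT.nd (nat_lit 78) (nat_lit 304) (nat_lit 0) (XT.lf (nat_lit 0) (nat_lit 11539821951) (nat_lit 304) (nat_lit 4346894667) (nat_lit 76) (nat_lit 355185340) (nat_lit 56) (nat_lit 5) (nat_lit 60) (nat_lit 5) (nat_lit 57) (nat_lit 5) (nat_lit 495) (nat_lit 363) (nat_lit 282)) (XT.nd (nat_lit 78) (nat_lit 76) (nat_lit 0) (XT.lf (nat_lit 0) (nat_lit 3297192148) (nat_lit 228) (nat_lit 11980660062) (nat_lit 304) (nat_lit 1195846312) (nat_lit 53) (nat_lit 5) (nat_lit 56) (nat_lit 5) (nat_lit 57) (nat_lit 5) (nat_lit 496) (nat_lit 363) (nat_lit 281)) (XT.lf (nat_lit 0) (nat_lit 2352672359) (nat_lit 304) (nat_lit 5615888474) (nat_lit 76) (nat_lit 8741201663) (nat_lit 52) (nat_lit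 5) (nat_lit 56) (nat_lit 5) (nat_lit 53) (nat_lit 5) (nat_lit 497) (nat_lit 363) (nat_lit 280)))) (XT.nd (nat_lit 156) (nat_lit 228) (nat_lit 0) (XT.nd (nat_lit 78) (nat_lit 0) (nat_lit 0) (XT.lf (nat_lit 0) (nat_lit 2072283173) (nat_lit 152) (nat_lit 3871862921) (nat_lit 228) (nat_lit 11006491680) (nat_lit 50) (nat_lit 5) (nat_lit 52) (nat_lit 5) (nat_lit 53) (nat_lit 5) (nat_lit 498) (nat_lit 363) (nat_lit 279)) (XT.lf (nat_lit 0) (nat_lit 9622013432) (nat_lit 228) (nat_lit 7250510204) (nat_lit 76) (nat_lit 323523542) (nat_lit 50) (nat_lit 5) (nat_lit 53) (nat_lit 5) (nat_lit 51) (nat_lit 5) (nat_lit 499) (nat_lit 363) (nat_lit 278))) (XT.nd (nat_lit 78) (nat_lit 0) (nat_lit 0) (XT.lf (nat_lit 0) (nat_lit 468198809) (nat_lit 228) (nat_lit 12909055186) (nat_lit 304) (nat_lit 4069042201) (nat_lit 47) (nat_lit 5) (nat_lit 50) (nat_lit 5) (nat_lit 51) (nat_lit 5) (nat_lit 500) (nat_lit 363) (nat_lit 277)) (XT.lf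 (nat_lit 0) (nat_lit 8397650843) (nat_lit 228) (nat_lit 8833953238) (nat_lit 304) (nat_lit 469473612) (nat_lit 47) (nat_lit 5) (nat_lit 50) (nat_lit 5) (nat_lit 51) (nat_lit 5) (nat_lit 501) (nat_lit 363) (nat_lit 276)))))) (XT.nd (nat_lit 546) (nat_lit 532) (nat_lit 0) (XT.nd (nat_lit 234) (nat_lit 456) (nat_lit 0) (XT.nd (nat_lit 78) (nat_lit 152) (nat_lit 0) (XT.lf (nat_lit 0) (nat_lit 3135756326) (nat_lit 304) (nat_lit 1537475551) (nat_lit 76) (nat_lit 13287801120) (nat_lit 46) (nat_lit 5) (nat_lit 50) (nat_lit 5) (nat_lit 47) (nat_lit 5) (nat_lit 502) (nat_lit 363) (nat_lit 275)) (XT.nd (nat_lit 78) (nat_lit 0) (nat_lit 0) (XT.lf (nat_lit 0) (nat_lit 6424331566) (nat_lit 152) (nat_lit 400332998) (nat_lit 228) (nat_lit 11401110737) (nat_lit 44) (nat_lit 5) (nat_lit 46) (nat_lit 5) (nat_lit 47) (nat_lit 5) (nat_lit 503) (nat_lit 363) (nat_lit 274)) (XT.lf (nat_lit 0) (nat_lit 10599675207) (nat_lit 228) (nat_lit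 3995871696) (nat_lit 76) (nat_lit 3900026077) (nat_lit 44) (nat_lit 5) (nat_lit 47) (nat_lit 5) (nat_lit 45) (nat_lit 5) (nat_lit 504) (nat_lit 363) (nat_lit 273)))) (XT.nd (nat_lit 156) (nat_lit 228) (nat_lit 0) (XT.nd (nat_lit 78) (nat_lit 0) (nat_lit 0) (XT.lf (nat_lit 0) (nat_lit 3975381890) (nat_lit 228) (nat_lit 10479972599) (nat_lit 304) (nat_lit 4315315632) (nat_lit 41) (nat_lit 5) (nat_lit 44) (nat_lit 5) (nat_lit 45) (nat_lit 5) (nat_lit 505) (nat_lit 363) (nat_lit 272)) (XT.lf (nat_lit 0) (nat_lit 12120571719) (nat_lit 228) (nat_lit 6271295716) (nat_lit 304) (nat_lit 659334111) (nat_lit 41) (nat_lit 5) (nat_lit 44) (nat_lit 5) (nat_lit 45) (nat_lit 5) (nat_lit 506) (nat_lit 363) (nat_lit 271))) (XT.nd (nat_lit 78) (nat_lit 0) (nat_lit 0) (XT.lf (nat_lit 0) (nat_lit 1045922394) (nat_lit 152) (nat_lit 1967576960) (nat_lit 228) (nat_lit 16323772250) (nat_lit 38) (nat_lit 5) (nat_lit 40) (nat_lit 5) (nat_lit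 41) (nat_lit 5) (nat_lit 507) (nat_lit 363) (nat_lit 270)) (XT.lf (nat_lit 0) (nat_lit 6790802391) (nat_lit 228) (nat_lit 10411862297) (nat_lit 76) (nat_lit 2425520736) (nat_lit 38) (nat_lit 5) (nat_lit 41) (nat_lit 5) (nat_lit 39) (nat_lit 5) (nat_lit 508) (nat_lit 363) (nat_lit 269))))) (XT.nd (nat_lit 234) (nat_lit 380) (nat_lit 0) (XT.nd (nat_lit 78) (nat_lit 152) (nat_lit 0) (XT.lf (nat_lit 0) (nat_lit 10634417410) (nat_lit 228) (nat_lit 2426326236) (nat_lit 76) (nat_lit 6864364786) (nat_lit 38) (nat_lit 5) (nat_lit 41) (nat_lit 5) (nat_lit 39) (nat_lit 5) (nat_lit 509) (nat_lit 363) (nat_lit 268)) (XT.nd (nat_lit 78) (nat_lit 0) (nat_lit 0) (XT.lf (nat_lit 0) (nat_lit 5756665069) (nat_lit 152) (nat_lit 8813787915) (nat_lit 228) (nat_lit 5657212057) (nat_lit 36) (nat_lit 5) (nat_lit 38) (nat_lit 5) (nat_lit 39) (nat_lit 5) (nat_lit 510) (nat_lit 363) (nat_lit 267)) (XT.lf (nat_lit 0) (nat_lit 14098698905)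 (nat_lit 152) (nat_lit 4481148935) (nat_lit 228) (nat_lit 1956538158) (nat_lit 36) (nat_lit 5) (nat_lit 38) (nat_lit 5) (nat_lit 39) (nat_lit 5) (nat_lit 511) (nat_lit 363) (nat_lit 266)))) (XT.nd (nat_lit 156) (nat_lit 152) (nat_lit 0) (XT.nd (nat_lit 78) (nat_lit 0) (nat_lit 0) (XT.lf (nat_lit 0) (nat_lit 1730117163) (nat_lit 152) (nat_lit 54054479) (nat_lit 228) (nat_lit 19067082039) (nat_lit 33) (nat_lit 5) (nat_lit 35) (nat_lit 5) (nat_lit 36) (nat_lit 5) (nat_lit 512) (nat_lit 363) (nat_lit 265)) (XT.lf (nat_lit 0) (nat_lit 5624689097) (nat_lit 228) (nat_lit 11102368595) (nat_lit 76) (nat_lit 4444084183) (nat_lit 33) (nat_lit 5) (nat_lit 36) (nat_lit 5) (nat_lit 34) (nat_lit 5) (nat_lit 513) (nat_lit 363) (nat_lit 264))) (XT.nd (nat_lit 78) (nat_lit 152) (nat_lit 0) (XT.lf (nat_lit 0) (nat_lit 9521505369) (nat_lit 228) (nat_lit 2960000036) (nat_lit 76) (nat_lit 9016338189) (nat_lit 33) (nat_lit 5) (nat_lit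 36) (nat_lit 5) (nat_lit 34) (nat_lit 5) (nat_lit 514) (nat_lit 363) (nat_lit 263)) (XT.lf (nat_lit 0) (nat_lit 5380073836) (nat_lit 152) (nat_lit 8130654837) (nat_lit 228) (nat_lit 8320066683) (nat_lit 31) (nat_lit 5) (nat_lit 33) (nat_lit 5) (nat_lit 34) (nat_lit 5) (nat_lit 515) (nat_lit 363) (nat_lit 262))))))) (XT.nd (nat_lit 1092) (nat_lit 76) (nat_lit 0) (XT.nd (nat_lit 546) (nat_lit 380) (nat_lit 0) (XT.nd (nat_lit 234) (nat_lit 152) (nat_lit 0) (XT.nd (nat_lit 78) (nat_lit 228) (nat_lit 0) (XT.lf (nat_lit 0) (nat_lit 13891604959) (nat_lit 152) (nat_lit 3687705242) (nat_lit 228) (nat_lit 4591109793) (nat_lit 31) (nat_lit 5) (nat_lit 33) (nat_lit 5) (nat_lit 34) (nat_lit 5) (nat_lit 516) (nat_lit 363) (nat_lit 261)) (XT.nd (nat_lit 78) (nat_lit 76) (nat_lit 0) (XT.lf (nat_lit 0) (nat_lit 16182549) (nat_lit 152) (nat_lit 21698678174) (nat_lit 228) (nat_lit 802269668) (nat_lit 29) (nat_lit 5) (nat_lit 31)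 (nat_lit 5) (nat_lit 32) (nat_lit 4) (nat_lit 517) (nat_lit 363) (nat_lit 260)) (XT.lf (nat_lit 0) (nat_lit 3082570201) (nat_lit 228) (nat_lit 14360153140) (nat_lit 76) (nat_lit 5426451285) (nat_lit 28) (nat_lit 5) (nat_lit 31) (nat_lit 5) (nat_lit 29) (nat_lit 5) (nat_lit 518) (nat_lit 363) (nat_lit 259)))) (XT.nd (nat_lit 156) (nat_lit 0) (nat_lit 0) (XT.nd (nat_lit 78) (nat_lit 152) (nat_lit 0) (XT.lf (nat_lit 0) (nat_lit 7014807035) (nat_lit 228) (nat_lit 6096285252) (nat_lit 76) (nat_lit 10117457458) (nat_lit 28) (nat_lit 5) (nat_lit 31) (nat_lit 5) (nat_lit 29) (nat_lit 5) (nat_lit 519) (nat_lit 363) (nat_lit 258)) (XT.lf (nat_lit 0) (nat_lit 2329659321) (nat_lit 152) (nat_lit 8691971171) (nat_lit 228) (nat_lit 12573567853) (nat_lit 26) (nat_lit 5) (nat_lit 28) (nat_lit 5) (nat_lit 29) (nat_lit 5) (nat_lit 520) (nat_lit 363) (nat_lit 257))) (XT.nd (nat_lit 78) (nat_lit 0) (nat_lit 0) (XT.lf (nat_lit 0)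 (nat_lit 10973227035) (nat_lit 152) (nat_lit 4157247296) (nat_lit 228) (nat_lit 8838272627) (nat_lit 26) (nat_lit 5) (nat_lit 28) (nat_lit 5) (nat_lit 29) (nat_lit 5) (nat_lit 521) (nat_lit 363) (nat_lit 256)) (XT.lf (nat_lit 0) (nat_lit 19305790058) (nat_lit 228) (nat_lit 4596300454) (nat_lit 76) (nat_lit 447994760) (nat_lit 26) (nat_lit 5) (nat_lit 29) (nat_lit 5) (nat_lit 27) (nat_lit 4) (nat_lit 522) (nat_lit 363) (nat_lit 255))))) (XT.nd (nat_lit 234) (nat_lit 228) (nat_lit 0) (XT.nd (nat_lit 78) (nat_lit 76) (nat_lit 0) (XT.lf (nat_lit 0) (nat_lit 3962835129) (nat_lit 76) (nat_lit 19636660640) (nat_lit 152) (nat_lit 1138861448) (nat_lit 25) (nat_lit 5) (nat_lit 26) (nat_lit 5) (nat_lit 27) (nat_lit 4) (nat_lit 523) (nat_lit 363) (nat_lit 254)) (XT.nd (nat_lit 78) (nat_lit 0) (nat_lit 0) (XT.lf (nat_lit 0) (nat_lit 2820068775) (nat_lit 152) (nat_lit 12429538554) (nat_lit 76) (nat_lit 9884168316) (nat_lit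 24) (nat_lit 5) (nat_lit 26) (nat_lit 5) (nat_lit 25) (nat_lit 5) (nat_lit 524) (nat_lit 363) (nat_lit 253)) (XT.lf (nat_lit 0) (nat_lit 6824950766) (nat_lit 152) (nat_lit 3956083844) (nat_lit 76) (nat_lit 14756281099) (nat_lit 24) (nat_lit 5) (nat_lit 26) (nat_lit 5) (nat_lit 25) (nat_lit 5) (nat_lit 525) (nat_lit 363) (nat_lit 252)))) (XT.nd (nat_lit 156) (nat_lit 76) (nat_lit 0) (XT.nd (nat_lit 78) (nat_lit 0) (nat_lit 0) (XT.lf (nat_lit 0) (nat_lit 4717429140) (nat_lit 152) (nat_lit 6205490977) (nat_lit 228) (nat_lit 15025750854) (nat_lit 22) (nat_lit 5) (nat_lit 24) (nat_lit 5) (nat_lit 25) (nat_lit 5) (nat_lit 526) (nat_lit 363) (nat_lit 251)) (XT.lf (nat_lit 0) (nat_lit 13586963185) (nat_lit 152) (nat_lit 1524938220) (nat_lit 228) (nat_lit 11256174993) (nat_lit 22) (nat_lit 5) (nat_lit 24) (nat_lit 5) (nat_lit 25) (nat_lit 5) (nat_lit 527) (nat_lit 363) (nat_lit 250))) (XT.nd (nat_lit 78) (nat_lit 76)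 (nat_lit 0) (XT.lf (nat_lit 0) (nat_lit 19388520187) (nat_lit 228) (nat_lit 4213804418) (nat_lit 76) (nat_lit 3193472201) (nat_lit 22) (nat_lit 5) (nat_lit 25) (nat_lit 5) (nat_lit 23) (nat_lit 4) (nat_lit 528) (nat_lit 363) (nat_lit 249)) (XT.lf (nat_lit 0) (nat_lit 4544226176) (nat_lit 76) (nat_lit 19229147969) (nat_lit 152) (nat_lit 3458247370) (nat_lit 21) (nat_lit 5) (nat_lit 22) (nat_lit 5) (nat_lit 23) (nat_lit 4) (nat_lit 529) (nat_lit 363) (nat_lit 248)))))) (XT.nd (nat_lit 50622) (nat_lit 0) (nat_lit 23256) (XT.nd (nat_lit 50310) (nat_lit 0) (nat_lit 28956) (XT.nd (nat_lit 50154) (nat_lit 0) (nat_lit 33668) (XT.lf (nat_lit 0) (nat_lit 573876025) (nat_lit 152) (nat_lit 14175100816) (nat_lit 76) (nat_lit 12926883967) (nat_lit 20) (nat_lit 5) (nat_lit 22) (nat_lit 5) (nat_lit 21) (nat_lit 5) (nat_lit 530) (nat_lit 363) (nat_lit 247)) (XT.nd (nat_lit 78) (nat_lit 0) (nat_lit 0) (XT.lf (nat_lit 0) (nat_lit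 163269718) (nat_lit 1444) (nat_lit 3155332753) (nat_lit 0) (nat_lit 163269718) (nat_lit 463) (nat_lit 5) (nat_lit 482) (nat_lit 4) (nat_lit 463) (nat_lit 4) (nat_lit 412) (nat_lit 364) (nat_lit 364)) (XT.lf (nat_lit 0) (nat_lit 3511729228) (nat_lit 1444) (nat_lit 1764198006) (nat_lit 0) (nat_lit 1721537247) (nat_lit 463) (nat_lit 5) (nat_lit 482) (nat_lit 4) (nat_lit 463) (nat_lit 4) (nat_lit 413) (nat_lit 364) (nat_lit 363)))) (XT.nd (nat_lit 156) (nat_lit 1672) (nat_lit 0) (XT.nd (nat_lit 78) (nat_lit 1596) (nat_lit 0) (XT.lf (nat_lit 0) (nat_lit 2849693210) (nat_lit 1444) (nat_lit 3864226576) (nat_lit 1444) (nat_lit 318944418) (nat_lit 444) (nat_lit 4) (nat_lit 463) (nat_lit 5) (nat_lit 463) (nat_lit 4) (nat_lit 414) (nat_lit 364) (nat_lit 362)) (XT.lf (nat_lit 0) (nat_lit 436375598) (nat_lit 1520) (nat_lit 2386562223) (nat_lit 1596) (nat_lit 4246725746) (nat_lit 423) (nat_lit 5) (nat_lit 443) (nat_lit 5)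 (nat_lit 444) (nat_lit 4) (nat_lit 415) (nat_lit 364) (nat_lit 361))) (XT.nd (nat_lit 78) (nat_lit 1672) (nat_lit 0) (XT.lf (nat_lit 0) (nat_lit 5141871743) (nat_lit 1520) (nat_lit 845637381) (nat_lit 1596) (nat_lit 1120432243) (nat_lit 423) (nat_lit 5) (nat_lit 443) (nat_lit 5) (nat_lit 444) (nat_lit 4) (nat_lit 416) (nat_lit 364) (nat_lit 360)) (XT.lf (nat_lit 0) (nat_lit 2000929057) (nat_lit 1672) (nat_lit 4396120718) (nat_lit 76) (nat_lit 750537429) (nat_lit 401) (nat_lit 5) (nat_lit 423) (nat_lit 5) (nat_lit 402) (nat_lit 4) (nat_lit 417) (nat_lit 364) (nat_lit 359))))) (XT.nd (nat_lit 312) (nat_lit 1824) (nat_lit 0) (XT.nd (nat_lit 156) (nat_lit 2128) (nat_lit 0) (XT.nd (nat_lit 78) (nat_lit 76) (nat_lit 0) (XT.lf (nat_lit 0) (nat_lit 331850451) (nat_lit 1672) (nat_lit 4796608515) (nat_lit 1748) (nat_lit 2060307178) (nat_lit 379) (nat_lit 5) (nat_lit 401) (nat_lit 5) (nat_lit 402) (nat_lit 4) (nat_lit 418)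 (nat_lit 364) (nat_lit 358)) (XT.lf (nat_lit 0) (nat_lit 1041250352) (nat_lit 1748) (nat_lit 2085579397) (nat_lit 76) (nat_lit 4104503481) (nat_lit 378) (nat_lit 5) (nat_lit 401) (nat_lit 5) (nat_lit 379) (nat_lit 5) (nat_lit 419) (nat_lit 364) (nat_lit 357))) (XT.nd (nat_lit 78) (nat_lit 836) (nat_lit 0) (XT.lf (nat_lit 0) (nat_lit 2742612533) (nat_lit 1292) (nat_lit 1391736538) (nat_lit 1368) (nat_lit 3141047806) (nat_lit 361) (nat_lit 5) (nat_lit 378) (nat_lit 5) (nat_lit 379) (nat_lit 5) (nat_lit 420) (nat_lit 364) (nat_lit 356)) (XT.lf (nat_lit 0) (nat_lit 315417068) (nat_lit 836) (nat_lit 6932542603) (nat_lit 912) (nat_lit 73267505) (nat_lit 350) (nat_lit 5) (nat_lit 361) (nat_lit 5) (nat_lit 362) (nat_lit 4) (nat_lit 421) (nat_lit 364) (nat_lit 355)))) (XT.nd (nat_lit 156) (nat_lit 912) (nat_lit 0) (XT.nd (nat_lit 78) (nat_lit 836) (nat_lit 0) (XT.lf (nat_lit 0) (nat_lit 2996013858) (nat_lit 912) (nat_lit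 2136790556) (nat_lit 76) (nat_lit 2235224486) (nat_lit 349) (nat_lit 5) (nat_lit 361) (nat_lit 5) (nat_lit 350) (nat_lit 5) (nat_lit 422) (nat_lit 364) (nat_lit 354)) (XT.lf (nat_lit 0) (nat_lit 2804939442) (nat_lit 836) (nat_lit 3280529773) (nat_lit 912) (nat_lit 1331147378) (nat_lit 338) (nat_lit 5) (nat_lit 349) (nat_lit 5) (nat_lit 350) (nat_lit 5) (nat_lit 423) (nat_lit 364) (nat_lit 353))) (XT.nd (nat_lit 78) (nat_lit 0) (nat_lit 0) (XT.lf (nat_lit 0) (nat_lit 340052711) (nat_lit 836) (nat_lit 1365780177) (nat_lit 912) (nat_lit 5760995790) (nat_lit 326) (nat_lit 5) (nat_lit 337) (nat_lit 5) (nat_lit 338) (nat_lit 5) (nat_lit 424) (nat_lit 364) (nat_lit 352)) (XT.lf (nat_lit 0) (nat_lit 4763304642) (nat_lit 912) (nat_lit 2139098130) (nat_lit 76) (nat_lit 615966574) (nat_lit 326) (nat_lit 5) (nat_lit 338) (nat_lit 5) (nat_lit 327) (nat_lit 5) (nat_lit 425) (nat_lit 364) (nat_lit 351))))))))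
noncomputable def xc64 : XT := (XT.nd (nat_lit 2184) (nat_lit 6232) (nat_lit 0) (XT.nd (nat_lit 1092) (nat_lit 5016) (nat_lit 0) (XT.nd (nat_lit 546) (nat_lit 3344) (nat_lit 0) (XT.nd (nat_lit 234) (nat_lit 2356) (nat_lit 0) (XT.nd (nat_lit 78) (nat_lit 760) (nat_lit 0) (XT.lf (nat_lit 0) (nat_lit 278370402) (nat_lit 912) (nat_lit 4656798365) (nat_lit 76) (nat_lit 2636352219) (nat_lit 314) (nat_lit 5) (nat_lit 326) (nat_lit 5) (nat_lit 315) (nat_lit 5) (nat_lit 426) (nat_lit 364) (nat_lit 350)) (XT.nd (nat_lit 78) (nat_lit 0) (nat_lit 0) (XT.lf (nat_lit 0) (nat_lit 398714712) (nat_lit 760) (nat_lit 2897955392) (nat_lit 836) (nat_lit 4329528459) (nat_lit 304) (nat_lit 5) (nat_lit 314) (nat_lit 5) (nat_lit 315) (nat_lit 5) (nat_lit 427) (nat_lit 364) (nat_lit 349)) (XT.lf (nat_lit 0) (nat_lit 5557524506) (nat_lit 760) (nat_lit 793776457) (nat_lit 836) (nat_lit 1331197314) (nat_lit 304) (nat_lit 5) (nat_lit 314)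 (nat_lit 5) (nat_lit 315) (nat_lit 5) (nat_lit 428) (nat_lit 364) (nat_lit 348)))) (XT.nd (nat_lit 156) (nat_lit 836) (nat_lit 0) (XT.nd (nat_lit 78) (nat_lit 684) (nat_lit 0) (XT.lf (nat_lit 0) (nat_lit 1678580274) (nat_lit 836) (nat_lit 4701558911) (nat_lit 76) (nat_lit 1360123937) (nat_lit 293) (nat_lit 5) (nat_lit 304) (nat_lit 5) (nat_lit 294) (nat_lit 5) (nat_lit 429) (nat_lit 364) (nat_lit 347)) (XT.lf (nat_lit 0) (nat_lit 466311065) (nat_lit 684) (nat_lit 4233107317) (nat_lit 760) (nat_lit 3100260231) (nat_lit 284) (nat_lit 5) (nat_lit 293) (nat_lit 5) (nat_lit 294) (nat_lit 5) (nat_lit 430) (nat_lit 364) (nat_lit 346))) (XT.nd (nat_lit 78) (nat_lit 836) (nat_lit 0) (XT.lf (nat_lit 0) (nat_lit 5740472100) (nat_lit 684) (nat_lit 2018449011) (nat_lit 760) (nat_lit 101840586) (nat_lit 284) (nat_lit 5) (nat_lit 293) (nat_lit 5) (nat_lit 294) (nat_lit 5) (nat_lit 431) (nat_lit 364) (nat_lit 345)) (XT.lf (nat_lit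 0) (nat_lit 2887410348) (nat_lit 836) (nat_lit 4766205418) (nat_lit 76) (nat_lit 269716513) (nat_lit 273) (nat_lit 5) (nat_lit 284) (nat_lit 5) (nat_lit 274) (nat_lit 5) (nat_lit 432) (nat_lit 364) (nat_lit 344))))) (XT.nd (nat_lit 234) (nat_lit 1900) (nat_lit 0) (XT.nd (nat_lit 78) (nat_lit 760) (nat_lit 0) (XT.lf (nat_lit 0) (nat_lit 513582482) (nat_lit 684) (nat_lit 5400471283) (nat_lit 760) (nat_lit 2073549312) (nat_lit 264) (nat_lit 5) (nat_lit 273) (nat_lit 5) (nat_lit 274) (nat_lit 5) (nat_lit 433) (nat_lit 364) (nat_lit 343)) (XT.nd (nat_lit 78) (nat_lit 684) (nat_lit 0) (XT.lf (nat_lit 0) (nat_lit 916024261) (nat_lit 760) (nat_lit 2156621397) (nat_lit 76) (nat_lit 4980822840) (nat_lit 263) (nat_lit 5) (nat_lit 273) (nat_lit 5) (nat_lit 264) (nat_lit 5) (nat_lit 434) (nat_lit 364) (nat_lit 342)) (XT.lf (nat_lit 0) (nat_lit 3235725125) (nat_lit 684) (nat_lit 672141686) (nat_lit 760) (nat_lit 4213144735)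 (nat_lit 254) (nat_lit 5) (nat_lit 263) (nat_lit 5) (nat_lit 264) (nat_lit 5) (nat_lit 435) (nat_lit 364) (nat_lit 341)))) (XT.nd (nat_lit 156) (nat_lit 1216) (nat_lit 0) (XT.nd (nat_lit 78) (nat_lit 76) (nat_lit 0) (XT.lf (nat_lit 0) (nat_lit 509903817) (nat_lit 608) (nat_lit 6428808617) (nat_lit 684) (nat_lit 1251648208) (nat_lit 246) (nat_lit 5) (nat_lit 254) (nat_lit 5) (nat_lit 255) (nat_lit 5) (nat_lit 436) (nat_lit 364) (nat_lit 340)) (XT.lf (nat_lit 0) (nat_lit 1733309654) (nat_lit 684) (nat_lit 2258369287) (nat_lit 76) (nat_lit 4269476416) (nat_lit 245) (nat_lit 5) (nat_lit 254) (nat_lit 5) (nat_lit 246) (nat_lit 5) (nat_lit 437) (nat_lit 364) (nat_lit 339))) (XT.nd (nat_lit 78) (nat_lit 608) (nat_lit 0) (XT.lf (nat_lit 0) (nat_lit 3246654315) (nat_lit 608) (nat_lit 1486610605) (nat_lit 684) (nat_lit 3600530715) (nat_lit 237) (nat_lit 5) (nat_lit 245) (nat_lit 5) (nat_lit 246) (nat_lit 5) (nat_lit 438)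 (nat_lit 364) (nat_lit 338)) (XT.lf (nat_lit 0) (nat_lit 422977378) (nat_lit 608) (nat_lit 7346648665) (nat_lit 684) (nat_lit 638770123) (nat_lit 229) (nat_lit 5) (nat_lit 237) (nat_lit 5) (nat_lit 238) (nat_lit 5) (nat_lit 439) (nat_lit 364) (nat_lit 337)))))) (XT.nd (nat_lit 546) (nat_lit 2584) (nat_lit 0) (XT.nd (nat_lit 234) (nat_lit 1216) (nat_lit 0) (XT.nd (nat_lit 78) (nat_lit 1140) (nat_lit 0) (XT.lf (nat_lit 0) (nat_lit 2346868770) (nat_lit 684) (nat_lit 2457705001) (nat_lit 76) (nat_lit 3679722067) (nat_lit 228) (nat_lit 5) (nat_lit 237) (nat_lit 5) (nat_lit 229) (nat_lit 5) (nat_lit 440) (nat_lit 364) (nat_lit 336)) (XT.nd (nat_lit 78) (nat_lit 532) (nat_lit 0) (XT.lf (nat_lit 0) (nat_lit 3158326515) (nat_lit 608) (nat_lit 2198480066) (nat_lit 684) (nat_lit 3205393223) (nat_lit 220) (nat_lit 5) (nat_lit 228) (nat_lit 5) (nat_lit 229) (nat_lit 5) (nat_lit 441) (nat_lit 364) (nat_lit 335)) (XT.lf (nat_lit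 0) (nat_lit 218505598) (nat_lit 532) (nat_lit 8182534527) (nat_lit 608) (nat_lit 241172657) (nat_lit 213) (nat_lit 5) (nat_lit 220) (nat_lit 5) (nat_lit 221) (nat_lit 5) (nat_lit 442) (nat_lit 364) (nat_lit 334)))) (XT.nd (nat_lit 156) (nat_lit 608) (nat_lit 0) (XT.nd (nat_lit 78) (nat_lit 532) (nat_lit 0) (XT.lf (nat_lit 0) (nat_lit 2750189972) (nat_lit 608) (nat_lit 2789567795) (nat_lit 76) (nat_lit 3183651583) (nat_lit 212) (nat_lit 5) (nat_lit 220) (nat_lit 5) (nat_lit 213) (nat_lit 5) (nat_lit 443) (nat_lit 364) (nat_lit 333)) (XT.lf (nat_lit 0) (nat_lit 2935146644) (nat_lit 532) (nat_lit 2836265792) (nat_lit 608) (nat_lit 3035351271) (nat_lit 205) (nat_lit 5) (nat_lit 212) (nat_lit 5) (nat_lit 213) (nat_lit 5) (nat_lit 444) (nat_lit 364) (nat_lit 332))) (XT.nd (nat_lit 78) (nat_lit 608) (nat_lit 0) (XT.lf (nat_lit 0) (nat_lit 8753551350) (nat_lit 532) (nat_lit 72946832) (nat_lit 608) (nat_lit 65848560)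 (nat_lit 205) (nat_lit 5) (nat_lit 212) (nat_lit 5) (nat_lit 213) (nat_lit 5) (nat_lit 445) (nat_lit 364) (nat_lit 331)) (XT.lf (nat_lit 0) (nat_lit 2934627992) (nat_lit 608) (nat_lit 3291360692) (nat_lit 76) (nat_lit 2753088288) (nat_lit 197) (nat_lit 5) (nat_lit 205) (nat_lit 5) (nat_lit 198) (nat_lit 5) (nat_lit 446) (nat_lit 364) (nat_lit 330))))) (XT.nd (nat_lit 234) (nat_lit 1520) (nat_lit 0) (XT.nd (nat_lit 78) (nat_lit 532) (nat_lit 0) (XT.lf (nat_lit 0) (nat_lit 2538955398) (nat_lit 532) (nat_lit 3428881349) (nat_lit 608) (nat_lit 3100252887) (nat_lit 190) (nat_lit 5) (nat_lit 197) (nat_lit 5) (nat_lit 198) (nat_lit 5) (nat_lit 447) (nat_lit 364) (nat_lit 329)) (XT.nd (nat_lit 78) (nat_lit 532) (nat_lit 0) (XT.lf (nat_lit 0) (nat_lit 8472343636) (nat_lit 532) (nat_lit 567642244) (nat_lit 608) (nat_lit 119359198) (nat_lit 190) (nat_lit 5) (nat_lit 197) (nat_lit 5) (nat_lit 198) (nat_lit 5) (nat_lit 448)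 (nat_lit 364) (nat_lit 328)) (XT.lf (nat_lit 0) (nat_lit 2889279945) (nat_lit 532) (nat_lit 4003335960) (nat_lit 76) (nat_lit 2359328593) (nat_lit 183) (nat_lit 5) (nat_lit 190) (nat_lit 5) (nat_lit 184) (nat_lit 5) (nat_lit 449) (nat_lit 364) (nat_lit 327)))) (XT.nd (nat_lit 156) (nat_lit 988) (nat_lit 0) (XT.nd (nat_lit 78) (nat_lit 0) (nat_lit 0) (XT.lf (nat_lit 0) (nat_lit 1928633149) (nat_lit 532) (nat_lit 4005903651) (nat_lit 608) (nat_lit 3412308900) (nat_lit 176) (nat_lit 5) (nat_lit 183) (nat_lit 5) (nat_lit 184) (nat_lit 5) (nat_lit 450) (nat_lit 364) (nat_lit 326)) (XT.lf (nat_lit 0) (nat_lit 7975869113) (nat_lit 532) (nat_lit 1049280527) (nat_lit 608) (nat_lit 418832191) (nat_lit 176) (nat_lit 5) (nat_lit 183) (nat_lit 5) (nat_lit 184) (nat_lit 5) (nat_lit 451) (nat_lit 364) (nat_lit 325))) (XT.nd (nat_lit 78) (nat_lit 456) (nat_lit 0) (XT.lf (nat_lit 0) (nat_lit 2600840434) (nat_lit 532) (nat_lit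 4969012273) (nat_lit 76) (nat_lit 1972873219) (nat_lit 169) (nat_lit 5) (nat_lit 176) (nat_lit 5) (nat_lit 170) (nat_lit 5) (nat_lit 452) (nat_lit 364) (nat_lit 324)) (XT.lf (nat_lit 0) (nat_lit 1059670955) (nat_lit 456) (nat_lit 4597849950) (nat_lit 532) (nat_lit 3986248602) (nat_lit 163) (nat_lit 5) (nat_lit 169) (nat_lit 5) (nat_lit 170) (nat_lit 5) (nat_lit 453) (nat_lit 364) (nat_lit 323))))))) (XT.nd (nat_lit 1092) (nat_lit 2736) (nat_lit 0) (XT.nd (nat_lit 546) (nat_lit 1596) (nat_lit 0) (XT.nd (nat_lit 234) (nat_lit 1368) (nat_lit 0) (XT.nd (nat_lit 78) (nat_lit 532) (nat_lit 0) (XT.lf (nat_lit 0) (nat_lit 7219193881) (nat_lit 456) (nat_lit 1548400707) (nat_lit 532) (nat_lit 979418125) (nat_lit 163) (nat_lit 5) (nat_lit 169) (nat_lit 5) (nat_lit 170) (nat_lit 5) (nat_lit 454) (nat_lit 364) (nat_lit 322)) (XT.nd (nat_lit 78) (nat_lit 0) (nat_lit 0) (XT.lf (nat_lit 0) (nat_lit 2053434162) (nat_lit 532)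 (nat_lit 6235627562) (nat_lit 76) (nat_lit 1563145724) (nat_lit 156) (nat_lit 5) (nat_lit 163) (nat_lit 5) (nat_lit 157) (nat_lit 5) (nat_lit 455) (nat_lit 364) (nat_lit 321)) (XT.lf (nat_lit 0) (nat_lit 5120928388) (nat_lit 532) (nat_lit 114770210) (nat_lit 76) (nat_lit 4723958579) (nat_lit 156) (nat_lit 5) (nat_lit 163) (nat_lit 5) (nat_lit 157) (nat_lit 5) (nat_lit 456) (nat_lit 364) (nat_lit 320)))) (XT.nd (nat_lit 156) (nat_lit 456) (nat_lit 0) (XT.nd (nat_lit 78) (nat_lit 456) (nat_lit 0) (XT.lf (nat_lit 0) (nat_lit 6153440750) (nat_lit 456) (nat_lit 2096830439) (nat_lit 532) (nat_lit 1818996860) (nat_lit 150) (nat_lit 5) (nat_lit 156) (nat_lit 5) (nat_lit 157) (nat_lit 5) (nat_lit 457) (nat_lit 364) (nat_lit 319)) (XT.lf (nat_lit 0) (nat_lit 1228424246) (nat_lit 456) (nat_lit 7854631917) (nat_lit 76) (nat_lit 1098195787) (nat_lit 144) (nat_lit 5) (nat_lit 150) (nat_lit 5) (nat_lit 145) (nat_lit 5) (nat_lit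 458) (nat_lit 364) (nat_lit 318))) (XT.nd (nat_lit 78) (nat_lit 456) (nat_lit 0) (XT.lf (nat_lit 0) (nat_lit 4313780111) (nat_lit 456) (nat_lit 1630326958) (nat_lit 76) (nat_lit 4351121980) (nat_lit 144) (nat_lit 5) (nat_lit 150) (nat_lit 5) (nat_lit 145) (nat_lit 5) (nat_lit 459) (nat_lit 364) (nat_lit 317)) (XT.lf (nat_lit 0) (nat_lit 4725273474) (nat_lit 456) (nat_lit 2727996638) (nat_lit 532) (nat_lit 2958387475) (nat_lit 138) (nat_lit 5) (nat_lit 144) (nat_lit 5) (nat_lit 145) (nat_lit 5) (nat_lit 460) (nat_lit 364) (nat_lit 316))))) (XT.nd (nat_lit 234) (nat_lit 760) (nat_lit 0) (XT.nd (nat_lit 78) (nat_lit 380) (nat_lit 0) (XT.lf (nat_lit 0) (nat_lit 104194218) (nat_lit 456) (nat_lit 9882225307) (nat_lit 76) (nat_lit 544384562) (nat_lit 132) (nat_lit 5) (nat_lit 138) (nat_lit 5) (nat_lit 133) (nat_lit 5) (nat_lit 461) (nat_lit 364) (nat_lit 315)) (XT.nd (nat_lit 78) (nat_lit 380) (nat_lit 0) (XT.lf (nat_lit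 0) (nat_lit 3207079409) (nat_lit 456) (nat_lit 3557784924) (nat_lit 76) (nat_lit 3886724051) (nat_lit 132) (nat_lit 5) (nat_lit 138) (nat_lit 5) (nat_lit 133) (nat_lit 5) (nat_lit 462) (nat_lit 364) (nat_lit 314)) (XT.lf (nat_lit 0) (nat_lit 2876333519) (nat_lit 380) (nat_lit 3477256106) (nat_lit 456) (nat_lit 4421586275) (nat_lit 127) (nat_lit 5) (nat_lit 132) (nat_lit 5) (nat_lit 133) (nat_lit 5) (nat_lit 463) (nat_lit 364) (nat_lit 313)))) (XT.nd (nat_lit 156) (nat_lit 380) (nat_lit 0) (XT.nd (nat_lit 78) (nat_lit 380) (nat_lit 0) (XT.lf (nat_lit 0) (nat_lit 9433185443) (nat_lit 380) (nat_lit 116987328) (nat_lit 456) (nat_lit 1351338053) (nat_lit 127) (nat_lit 5) (nat_lit 132) (nat_lit 5) (nat_lit 133) (nat_lit 5) (nat_lit 464) (nat_lit 364) (nat_lit 312)) (XT.lf (nat_lit 0) (nat_lit 1775438059) (nat_lit 380) (nat_lit 5959482087) (nat_lit 76) (nat_lit 3294869470) (nat_lit 122) (nat_lit 5) (nat_lit 127) (nat_lit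 5) (nat_lit 123) (nat_lit 5) (nat_lit 465) (nat_lit 364) (nat_lit 311))) (XT.nd (nat_lit 78) (nat_lit 0) (nat_lit 0) (XT.lf (nat_lit 0) (nat_lit 542623874) (nat_lit 380) (nat_lit 4382249222) (nat_lit 456) (nat_lit 6236035329) (nat_lit 117) (nat_lit 5) (nat_lit 122) (nat_lit 5) (nat_lit 123) (nat_lit 5) (nat_lit 466) (nat_lit 364) (nat_lit 310)) (XT.lf (nat_lit 0) (nat_lit 7202025607) (nat_lit 380) (nat_lit 939605719) (nat_lit 456) (nat_lit 3152948694) (nat_lit 117) (nat_lit 5) (nat_lit 122) (nat_lit 5) (nat_lit 123) (nat_lit 5) (nat_lit 467) (nat_lit 364) (nat_lit 309)))))) (XT.nd (nat_lit 546) (nat_lit 1292) (nat_lit 0) (XT.nd (nat_lit 234) (nat_lit 684) (nat_lit 0) (XT.nd (nat_lit 78) (nat_lit 456) (nat_lit 0) (XT.lf (nat_lit 0) (nat_lit 2527053395) (nat_lit 304) (nat_lit 8893705675) (nat_lit 380) (nat_lit 10222056) (nat_lit 113) (nat_lit 5) (nat_lit 117) (nat_lit 5) (nat_lit 118) (nat_lit 5) (nat_lit 468)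 (nat_lit 364) (nat_lit 308)) (XT.nd (nat_lit 78) (nat_lit 380) (nat_lit 0) (XT.lf (nat_lit 0) (nat_lit 3152346758) (nat_lit 380) (nat_lit 2315395728) (nat_lit 76) (nat_lit 6101991049) (nat_lit 112) (nat_lit 5) (nat_lit 117) (nat_lit 5) (nat_lit 113) (nat_lit 5) (nat_lit 469) (nat_lit 364) (nat_lit 307)) (XT.lf (nat_lit 0) (nat_lit 4410514371) (nat_lit 380) (nat_lit 1961865277) (nat_lit 456) (nat_lit 5339008799) (nat_lit 107) (nat_lit 5) (nat_lit 112) (nat_lit 5) (nat_lit 113) (nat_lit 5) (nat_lit 470) (nat_lit 364) (nat_lit 306)))) (XT.nd (nat_lit 156) (nat_lit 304) (nat_lit 0) (XT.nd (nat_lit 78) (nat_lit 380) (nat_lit 0) (XT.lf (nat_lit 0) (nat_lit 9648866812) (nat_lit 456) (nat_lit 616224895) (nat_lit 76) (nat_lit 1590959167) (nat_lit 107) (nat_lit 5) (nat_lit 113) (nat_lit 5) (nat_lit 108) (nat_lit 5) (nat_lit 471) (nat_lit 364) (nat_lit 305)) (XT.lf (nat_lit 0) (nat_lit 994419714) (nat_lit 380) (nat_lit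 5790449496) (nat_lit 76) (nat_lit 5218222208) (nat_lit 102) (nat_lit 5) (nat_lit 107) (nat_lit 5) (nat_lit 103) (nat_lit 5) (nat_lit 472) (nat_lit 364) (nat_lit 304))) (XT.nd (nat_lit 78) (nat_lit 0) (nat_lit 0) (XT.lf (nat_lit 0) (nat_lit 980163150) (nat_lit 304) (nat_lit 3227583232) (nat_lit 380) (nat_lit 7945504297) (nat_lit 98) (nat_lit 5) (nat_lit 102) (nat_lit 5) (nat_lit 103) (nat_lit 5) (nat_lit 473) (nat_lit 364) (nat_lit 303)) (XT.lf (nat_lit 0) (nat_lit 7493950388) (nat_lit 380) (nat_lit 4395530550) (nat_lit 76) (nat_lit 416774280) (nat_lit 98) (nat_lit 5) (nat_lit 103) (nat_lit 5) (nat_lit 99) (nat_lit 5) (nat_lit 474) (nat_lit 364) (nat_lit 302))))) (XT.nd (nat_lit 234) (nat_lit 608) (nat_lit 0) (XT.nd (nat_lit 78) (nat_lit 380) (nat_lit 0) (XT.lf (nat_lit 0) (nat_lit 2478002515) (nat_lit 304) (nat_lit 8372882593) (nat_lit 380) (nat_lit 1611348637) (nat_lit 94) (nat_lit 5) (nat_lit 98) (nat_lit 5)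 (nat_lit 99) (nat_lit 5) (nat_lit 475) (nat_lit 364) (nat_lit 301)) (XT.nd (nat_lit 78) (nat_lit 304) (nat_lit 0) (XT.lf (nat_lit 0) (nat_lit 1629256734) (nat_lit 380) (nat_lit 3133894827) (nat_lit 76) (nat_lit 7858032683) (nat_lit 93) (nat_lit 5) (nat_lit 98) (nat_lit 5) (nat_lit 94) (nat_lit 5) (nat_lit 476) (nat_lit 364) (nat_lit 300)) (XT.lf (nat_lit 0) (nat_lit 3843369937) (nat_lit 304) (nat_lit 1062962981) (nat_lit 380) (nat_lit 7876916341) (nat_lit 89) (nat_lit 5) (nat_lit 93) (nat_lit 5) (nat_lit 94) (nat_lit 5) (nat_lit 477) (nat_lit 364) (nat_lit 299)))) (XT.nd (nat_lit 156) (nat_lit 380) (nat_lit 0) (XT.nd (nat_lit 78) (nat_lit 228) (nat_lit 0) (XT.lf (nat_lit 0) (nat_lit 8256167732) (nat_lit 380) (nat_lit 2013227074) (nat_lit 76) (nat_lit 2679029386) (nat_lit 89) (nat_lit 5) (nat_lit 94) (nat_lit 5) (nat_lit 90) (nat_lit 5) (nat_lit 478) (nat_lit 364) (nat_lit 298)) (XT.lf (nat_lit 0) (nat_lit 5062281564)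 (nat_lit 228) (nat_lit 6619688241) (nat_lit 304) (nat_lit 1434766115) (nat_lit 86) (nat_lit 5) (nat_lit 89) (nat_lit 5) (nat_lit 90) (nat_lit 5) (nat_lit 479) (nat_lit 364) (nat_lit 297))) (XT.nd (nat_lit 78) (nat_lit 304) (nat_lit 0) (XT.lf (nat_lit 0) (nat_lit 1845852006) (nat_lit 304) (nat_lit 1043029965) (nat_lit 76) (nat_lit 10399644222) (nat_lit 85) (nat_lit 5) (nat_lit 89) (nat_lit 5) (nat_lit 86) (nat_lit 5) (nat_lit 480) (nat_lit 364) (nat_lit 296)) (XT.lf (nat_lit 0) (nat_lit 5188602530) (nat_lit 380) (nat_lit 7338175422) (nat_lit 76) (nat_lit 936481985) (nat_lit 81) (nat_lit 5) (nat_lit 86) (nat_lit 5) (nat_lit 82) (nat_lit 5) (nat_lit 481) (nat_lit 364) (nat_lit 295))))))))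
noncomputable def xc65 : XT := (XT.nd (nat_lit 2184) (nat_lit 1292) (nat_lit 0) (XT.nd (nat_lit 1092) (nat_lit 1368) (nat_lit 0) (XT.nd (nat_lit 546) (nat_lit 760) (nat_lit 0) (XT.nd (nat_lit 234) (nat_lit 532) (nat_lit 0) (XT.nd (nat_lit 78) (nat_lit 608) (nat_lit 0) (XT.lf (nat_lit 0) (nat_lit 8594295519) (nat_lit 380) (nat_lit 258171181) (nat_lit 76) (nat_lit 4789111645) (nat_lit 81) (nat_lit 5) (nat_lit 86) (nat_lit 5) (nat_lit 82) (nat_lit 5) (nat_lit 482) (nat_lit 364) (nat_lit 294)) (XT.nd (nat_lit 78) (nat_lit 380) (nat_lit 0) (XT.lf (nat_lit 0) (nat_lit 7007946940) (nat_lit 228) (nat_lit 5076155817) (nat_lit 304) (nat_lit 1739051866) (nat_lit 78) (nat_lit 5) (nat_lit 81) (nat_lit 5) (nat_lit 82) (nat_lit 5) (nat_lit 483) (nat_lit 364) (nat_lit 293)) (XT.lf (nat_lit 0) (nat_lit 361179891) (nat_lit 304) (nat_lit 1227373132) (nat_lit 380) (nat_lit 12420114968) (nat_lit 73) (nat_lit 5) (nat_lit 77) (nat_lit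 5) (nat_lit 78) (nat_lit 5) (nat_lit 484) (nat_lit 364) (nat_lit 292)))) (XT.nd (nat_lit 156) (nat_lit 304) (nat_lit 0) (XT.nd (nat_lit 78) (nat_lit 228) (nat_lit 0) (XT.lf (nat_lit 0) (nat_lit 4993724112) (nat_lit 380) (nat_lit 6500491035) (nat_lit 76) (nat_lit 2702771421) (nat_lit 73) (nat_lit 5) (nat_lit 78) (nat_lit 5) (nat_lit 74) (nat_lit 5) (nat_lit 485) (nat_lit 364) (nat_lit 291)) (XT.lf (nat_lit 0) (nat_lit 744362715) (nat_lit 228) (nat_lit 7706893209) (nat_lit 304) (nat_lit 5938141078) (nat_lit 70) (nat_lit 5) (nat_lit 73) (nat_lit 5) (nat_lit 74) (nat_lit 5) (nat_lit 486) (nat_lit 364) (nat_lit 290))) (XT.nd (nat_lit 78) (nat_lit 304) (nat_lit 0) (XT.lf (nat_lit 0) (nat_lit 8175819350) (nat_lit 228) (nat_lit 3817298341) (nat_lit 304) (nat_lit 2592244790) (nat_lit 70) (nat_lit 5) (nat_lit 73) (nat_lit 5) (nat_lit 74) (nat_lit 5) (nat_lit 487) (nat_lit 364) (nat_lit 289)) (XT.lf (nat_lit 0) (nat_lit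 788711267) (nat_lit 304) (nat_lit 13854859673) (nat_lit 76) (nat_lit 142001721) (nat_lit 66) (nat_lit 5) (nat_lit 70) (nat_lit 5) (nat_lit 67) (nat_lit 5) (nat_lit 488) (nat_lit 364) (nat_lit 288))))) (XT.nd (nat_lit 234) (nat_lit 532) (nat_lit 0) (XT.nd (nat_lit 78) (nat_lit 228) (nat_lit 0) (XT.lf (nat_lit 0) (nat_lit 4243244999) (nat_lit 304) (nat_lit 6573034094) (nat_lit 76) (nat_lit 4172361705) (nat_lit 66) (nat_lit 5) (nat_lit 70) (nat_lit 5) (nat_lit 67) (nat_lit 5) (nat_lit 489) (nat_lit 364) (nat_lit 287)) (XT.nd (nat_lit 78) (nat_lit 0) (nat_lit 0) (XT.lf (nat_lit 0) (nat_lit 820053336) (nat_lit 228) (nat_lit 6924748135) (nat_lit 304) (nat_lit 7451419815) (nat_lit 63) (nat_lit 5) (nat_lit 66) (nat_lit 5) (nat_lit 67) (nat_lit 5) (nat_lit 490) (nat_lit 364) (nat_lit 286)) (XT.lf (nat_lit 0) (nat_lit 8405268821) (nat_lit 228) (nat_lit 2928082525) (nat_lit 304) (nat_lit 4074272233) (nat_lit 63) (nat_lit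 5) (nat_lit 66) (nat_lit 5) (nat_lit 67) (nat_lit 5) (nat_lit 491) (nat_lit 364) (nat_lit 285)))) (XT.nd (nat_lit 156) (nat_lit 228) (nat_lit 0) (XT.nd (nat_lit 78) (nat_lit 76) (nat_lit 0) (XT.lf (nat_lit 0) (nat_lit 473302434) (nat_lit 228) (nat_lit 14504173160) (nat_lit 304) (nat_lit 646111512) (nat_lit 60) (nat_lit 5) (nat_lit 63) (nat_lit 5) (nat_lit 64) (nat_lit 5) (nat_lit 492) (nat_lit 364) (nat_lit 284)) (XT.lf (nat_lit 0) (nat_lit 2853244935) (nat_lit 304) (nat_lit 7732203266) (nat_lit 76) (nat_lit 5257260063) (nat_lit 59) (nat_lit 5) (nat_lit 63) (nat_lit 5) (nat_lit 60) (nat_lit 5) (nat_lit 493) (nat_lit 364) (nat_lit 283))) (XT.nd (nat_lit 78) (nat_lit 228) (nat_lit 0) (XT.lf (nat_lit 0) (nat_lit 6387795026) (nat_lit 304) (nat_lit 213621619) (nat_lit 76) (nat_lit 9465241346) (nat_lit 59) (nat_lit 5) (nat_lit 63) (nat_lit 5) (nat_lit 60) (nat_lit 5) (nat_lit 494) (nat_lit 364) (nat_lit 282)) (XT.lf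 (nat_lit 0) (nat_lit 7511113316) (nat_lit 228) (nat_lit 2505052541) (nat_lit 304) (nat_lit 6278466813) (nat_lit 56) (nat_lit 5) (nat_lit 59) (nat_lit 5) (nat_lit 60) (nat_lit 5) (nat_lit 495) (nat_lit 364) (nat_lit 281)))))) (XT.nd (nat_lit 546) (nat_lit 608) (nat_lit 0) (XT.nd (nat_lit 234) (nat_lit 456) (nat_lit 0) (XT.nd (nat_lit 78) (nat_lit 304) (nat_lit 0) (XT.lf (nat_lit 0) (nat_lit 13703889985) (nat_lit 304) (nat_lit 1187625609) (nat_lit 76) (nat_lit 1635923912) (nat_lit 56) (nat_lit 5) (nat_lit 60) (nat_lit 5) (nat_lit 57) (nat_lit 5) (nat_lit 496) (nat_lit 364) (nat_lit 280)) (XT.nd (nat_lit 78) (nat_lit 0) (nat_lit 0) (XT.lf (nat_lit 0) (nat_lit 725841535) (nat_lit 304) (nat_lit 10181012800) (nat_lit 76) (nat_lit 5857274003) (nat_lit 52) (nat_lit 5) (nat_lit 56) (nat_lit 5) (nat_lit 53) (nat_lit 5) (nat_lit 497) (nat_lit 364) (nat_lit 279)) (XT.lf (nat_lit 0) (nat_lit 4291497728) (nat_lit 304) (nat_lit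 2540849195) (nat_lit 76) (nat_lit 10173176956) (nat_lit 52) (nat_lit 5) (nat_lit 56) (nat_lit 5) (nat_lit 53) (nat_lit 5) (nat_lit 498) (nat_lit 364) (nat_lit 278)))) (XT.nd (nat_lit 156) (nat_lit 304) (nat_lit 0) (XT.nd (nat_lit 78) (nat_lit 0) (nat_lit 0) (XT.lf (nat_lit 0) (nat_lit 5280116431) (nat_lit 152) (nat_lit 2658149228) (nat_lit 228) (nat_lit 9313293444) (nat_lit 50) (nat_lit 5) (nat_lit 52) (nat_lit 5) (nat_lit 53) (nat_lit 5) (nat_lit 499) (nat_lit 364) (nat_lit 277)) (XT.lf (nat_lit 0) (nat_lit 11661139632) (nat_lit 228) (nat_lit 4262092944) (nat_lit 76) (nat_lit 1579226635) (nat_lit 50) (nat_lit 5) (nat_lit 53) (nat_lit 5) (nat_lit 51) (nat_lit 5) (nat_lit 500) (nat_lit 364) (nat_lit 276))) (XT.nd (nat_lit 78) (nat_lit 76) (nat_lit 0) (XT.lf (nat_lit 0) (nat_lit 3590375594) (nat_lit 228) (nat_lit 11885110329) (nat_lit 304) (nat_lit 2282558546) (nat_lit 47) (nat_lit 5) (nat_lit 50) (nat_lit 5) (nat_lit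 51) (nat_lit 5) (nat_lit 501) (nat_lit 364) (nat_lit 275)) (XT.lf (nat_lit 0) (nat_lit 1334639958) (nat_lit 304) (nat_lit 6410049973) (nat_lit 76) (nat_lit 10273785029) (nat_lit 46) (nat_lit 5) (nat_lit 50) (nat_lit 5) (nat_lit 47) (nat_lit 5) (nat_lit 502) (nat_lit 364) (nat_lit 274))))) (XT.nd (nat_lit 234) (nat_lit 456) (nat_lit 0) (XT.nd (nat_lit 78) (nat_lit 0) (nat_lit 0) (XT.lf (nat_lit 0) (nat_lit 1467031314) (nat_lit 152) (nat_lit 3512752007) (nat_lit 228) (nat_lit 13304312712) (nat_lit 44) (nat_lit 5) (nat_lit 46) (nat_lit 5) (nat_lit 47) (nat_lit 5) (nat_lit 503) (nat_lit 364) (nat_lit 273)) (XT.nd (nat_lit 78) (nat_lit 0) (nat_lit 0) (XT.lf (nat_lit 0) (nat_lit 8723054590) (nat_lit 228) (nat_lit 9011045450) (nat_lit 76) (nat_lit 820431864) (nat_lit 44) (nat_lit 5) (nat_lit 47) (nat_lit 5) (nat_lit 45) (nat_lit 5) (nat_lit 504) (nat_lit 364) (nat_lit 272)) (XT.lf (nat_lit 0) (nat_lit 12541617678) (nat_lit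 228) (nat_lit 1111302906) (nat_lit 76) (nat_lit 5177454123) (nat_lit 44) (nat_lit 5) (nat_lit 47) (nat_lit 5) (nat_lit 45) (nat_lit 5) (nat_lit 505) (nat_lit 364) (nat_lit 271)))) (XT.nd (nat_lit 156) (nat_lit 152) (nat_lit 0) (XT.nd (nat_lit 78) (nat_lit 76) (nat_lit 0) (XT.lf (nat_lit 0) (nat_lit 6999872553) (nat_lit 228) (nat_lit 9459738207) (nat_lit 304) (nat_lit 2651669041) (nat_lit 41) (nat_lit 5) (nat_lit 44) (nat_lit 5) (nat_lit 45) (nat_lit 5) (nat_lit 506) (nat_lit 364) (nat_lit 270)) (XT.lf (nat_lit 0) (nat_lit 1029438610) (nat_lit 304) (nat_lit 4154655490) (nat_lit 76) (nat_lit 14213874728) (nat_lit 40) (nat_lit 5) (nat_lit 44) (nat_lit 5) (nat_lit 41) (nat_lit 5) (nat_lit 507) (nat_lit 364) (nat_lit 269))) (XT.nd (nat_lit 78) (nat_lit 0) (nat_lit 0) (XT.lf (nat_lit 0) (nat_lit 3957915137) (nat_lit 152) (nat_lit 794565342) (nat_lit 228) (nat_lit 14937490477) (nat_lit 38) (nat_lit 5) (nat_lit 40) (nat_lit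 5) (nat_lit 41) (nat_lit 5) (nat_lit 508) (nat_lit 364) (nat_lit 268)) (XT.lf (nat_lit 0) (nat_lit 8580130795) (nat_lit 228) (nat_lit 7760051593) (nat_lit 76) (nat_lit 3647033892) (nat_lit 38) (nat_lit 5) (nat_lit 41) (nat_lit 5) (nat_lit 39) (nat_lit 5) (nat_lit 509) (nat_lit 364) (nat_lit 267))))))) (XT.nd (nat_lit 1092) (nat_lit 380) (nat_lit 0) (XT.nd (nat_lit 546) (nat_lit 380) (nat_lit 0) (XT.nd (nat_lit 234) (nat_lit 380) (nat_lit 0) (XT.nd (nat_lit 78) (nat_lit 0) (nat_lit 0) (XT.lf (nat_lit 0) (nat_lit 333489593) (nat_lit 152) (nat_lit 12136871946) (nat_lit 228) (nat_lit 7820330412) (nat_lit 36) (nat_lit 5) (nat_lit 38) (nat_lit 5) (nat_lit 39) (nat_lit 5) (nat_lit 510) (nat_lit 364) (nat_lit 266)) (XT.nd (nat_lit 78) (nat_lit 0) (nat_lit 0) (XT.lf (nat_lit 0) (nat_lit 8657319787) (nat_lit 152) (nat_lit 7811932166) (nat_lit 228) (nat_lit 4130373950) (nat_lit 36) (nat_lit 5) (nat_lit 38) (nat_lit 5) (nat_lit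 39) (nat_lit 5) (nat_lit 511) (nat_lit 364) (nat_lit 265)) (XT.lf (nat_lit 0) (nat_lit 17111576233) (nat_lit 152) (nat_lit 3415741024) (nat_lit 228) (nat_lit 387843089) (nat_lit 36) (nat_lit 5) (nat_lit 38) (nat_lit 5) (nat_lit 39) (nat_lit 5) (nat_lit 512) (nat_lit 364) (nat_lit 264)))) (XT.nd (nat_lit 156) (nat_lit 152) (nat_lit 0) (XT.nd (nat_lit 78) (nat_lit 0) (nat_lit 0) (XT.lf (nat_lit 0) (nat_lit 3400413959) (nat_lit 228) (nat_lit 16744542580) (nat_lit 76) (nat_lit 1091292042) (nat_lit 33) (nat_lit 5) (nat_lit 36) (nat_lit 5) (nat_lit 34) (nat_lit 5) (nat_lit 513) (nat_lit 364) (nat_lit 263)) (XT.lf (nat_lit 0) (nat_lit 7287101370) (nat_lit 228) (nat_lit 8619848622) (nat_lit 76) (nat_lit 5656205571) (nat_lit 33) (nat_lit 5) (nat_lit 36) (nat_lit 5) (nat_lit 34) (nat_lit 5) (nat_lit 514) (nat_lit 364) (nat_lit 262))) (XT.nd (nat_lit 78) (nat_lit 152) (nat_lit 0) (XT.lf (nat_lit 0) (nat_lit 11231463409)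 (nat_lit 228) (nat_lit 367663424) (nat_lit 76) (nat_lit 10297880349) (nat_lit 33) (nat_lit 5) (nat_lit 36) (nat_lit 5) (nat_lit 34) (nat_lit 5) (nat_lit 515) (nat_lit 364) (nat_lit 261)) (XT.lf (nat_lit 0) (nat_lit 8121767605) (nat_lit 152) (nat_lit 7166011182) (nat_lit 228) (nat_lit 6949100936) (nat_lit 31) (nat_lit 5) (nat_lit 33) (nat_lit 5) (nat_lit 34) (nat_lit 5) (nat_lit 516) (nat_lit 364) (nat_lit 260))))) (XT.nd (nat_lit 234) (nat_lit 152) (nat_lit 0) (XT.nd (nat_lit 78) (nat_lit 228) (nat_lit 0) (XT.lf (nat_lit 0) (nat_lit 16751880483) (nat_lit 152) (nat_lit 2656305669) (nat_lit 228) (nat_lit 3175709361) (nat_lit 31) (nat_lit 5) (nat_lit 33) (nat_lit 5) (nat_lit 34) (nat_lit 5) (nat_lit 517) (nat_lit 364) (nat_lit 259)) (XT.nd (nat_lit 78) (nat_lit 0) (nat_lit 0) (XT.lf (nat_lit 0) (nat_lit 674702609) (nat_lit 228) (nat_lit 20337521472) (nat_lit 76) (nat_lit 1925337417) (nat_lit 28) (nat_lit 5) (nat_lit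 31) (nat_lit 5) (nat_lit 29) (nat_lit 5) (nat_lit 518) (nat_lit 364) (nat_lit 258)) (XT.lf (nat_lit 0) (nat_lit 4597442509) (nat_lit 228) (nat_lit 12090363768) (nat_lit 76) (nat_lit 6609322662) (nat_lit 28) (nat_lit 5) (nat_lit 31) (nat_lit 5) (nat_lit 29) (nat_lit 5) (nat_lit 519) (nat_lit 364) (nat_lit 257)))) (XT.nd (nat_lit 156) (nat_lit 0) (nat_lit 0) (XT.nd (nat_lit 78) (nat_lit 152) (nat_lit 0) (XT.lf (nat_lit 0) (nat_lit 8579829552) (nat_lit 228) (nat_lit 3711355629) (nat_lit 76) (nat_lit 11373083423) (nat_lit 28) (nat_lit 5) (nat_lit 31) (nat_lit 5) (nat_lit 29) (nat_lit 5) (nat_lit 520) (nat_lit 364) (nat_lit 256)) (XT.lf (nat_lit 0) (nat_lit 4866615367) (nat_lit 152) (nat_lit 7788407388) (nat_lit 228) (nat_lit 11383469768) (nat_lit 26) (nat_lit 5) (nat_lit 28) (nat_lit 5) (nat_lit 29) (nat_lit 5) (nat_lit 521) (nat_lit 364) (nat_lit 255))) (XT.nd (nat_lit 78) (nat_lit 0) (nat_lit 0) (XT.lf (nat_lit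 0) (nat_lit 13634223790) (nat_lit 152) (nat_lit 3184114589) (nat_lit 228) (nat_lit 7601734705) (nat_lit 26) (nat_lit 5) (nat_lit 28) (nat_lit 5) (nat_lit 29) (nat_lit 5) (nat_lit 522) (nat_lit 364) (nat_lit 254)) (XT.lf (nat_lit 0) (nat_lit 21056722150) (nat_lit 228) (nat_lit 2273792176) (nat_lit 76) (nat_lit 1478939344) (nat_lit 26) (nat_lit 5) (nat_lit 29) (nat_lit 5) (nat_lit 27) (nat_lit 4) (nat_lit 523) (nat_lit 364) (nat_lit 253)))))) (XT.nd (nat_lit 50466) (nat_lit 0) (nat_lit 30476) (XT.nd (nat_lit 234) (nat_lit 228) (nat_lit 0) (XT.nd (nat_lit 78) (nat_lit 0) (nat_lit 0) (XT.lf (nat_lit 0) (nat_lit 216515052) (nat_lit 152) (nat_lit 18766504182) (nat_lit 76) (nat_lit 6222673700) (nat_lit 24) (nat_lit 5) (nat_lit 26) (nat_lit 5) (nat_lit 25) (nat_lit 5) (nat_lit 524) (nat_lit 364) (nat_lit 252)) (XT.nd (nat_lit 78) (nat_lit 0) (nat_lit 0) (XT.lf (nat_lit 0) (nat_lit 4212664886) (nat_lit 152) (nat_lit 10308534992)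 (nat_lit 76) (nat_lit 11088209838) (nat_lit 24) (nat_lit 5) (nat_lit 26) (nat_lit 5) (nat_lit 25) (nat_lit 5) (nat_lit 525) (nat_lit 364) (nat_lit 251)) (XT.lf (nat_lit 0) (nat_lit 8271444620) (nat_lit 152) (nat_lit 1712073822) (nat_lit 76) (nat_lit 16038032364) (nat_lit 24) (nat_lit 5) (nat_lit 26) (nat_lit 5) (nat_lit 25) (nat_lit 5) (nat_lit 526) (nat_lit 364) (nat_lit 250)))) (XT.nd (nat_lit 156) (nat_lit 76) (nat_lit 0) (XT.nd (nat_lit 78) (nat_lit 0) (nat_lit 0) (XT.lf (nat_lit 0) (nat_lit 7119625660) (nat_lit 152) (nat_lit 5321045605) (nat_lit 228) (nat_lit 14000682056) (nat_lit 22) (nat_lit 5) (nat_lit 24) (nat_lit 5) (nat_lit 25) (nat_lit 5) (nat_lit 527) (nat_lit 364) (nat_lit 249)) (XT.lf (nat_lit 0) (nat_lit 16121298466) (nat_lit 152) (nat_lit 566657385) (nat_lit 228) (nat_lit 10181706517) (nat_lit 22) (nat_lit 5) (nat_lit 24) (nat_lit 5) (nat_lit 25) (nat_lit 5) (nat_lit 528) (nat_lit 364) (nat_lit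 248))) (XT.nd (nat_lit 78) (nat_lit 76) (nat_lit 0) (XT.lf (nat_lit 0) (nat_lit 21031424150) (nat_lit 228) (nat_lit 2060872895) (nat_lit 76) (nat_lit 4214019663) (nat_lit 22) (nat_lit 5) (nat_lit 25) (nat_lit 5) (nat_lit 23) (nat_lit 4) (nat_lit 529) (nat_lit 364) (nat_lit 247)) (XT.lf (nat_lit 0) (nat_lit 6857599840) (nat_lit 76) (nat_lit 18636194759) (nat_lit 152) (nat_lit 2257272676) (nat_lit 21) (nat_lit 5) (nat_lit 22) (nat_lit 5) (nat_lit 23) (nat_lit 4) (nat_lit 530) (nat_lit 364) (nat_lit 246))))) (XT.nd (nat_lit 234) (nat_lit 3116) (nat_lit 0) (XT.nd (nat_lit 78) (nat_lit 2736) (nat_lit 0) (XT.lf (nat_lit 0) (nat_lit 1371319349) (nat_lit 1292) (nat_lit 707021842) (nat_lit 0) (nat_lit 1371319349) (nat_lit 499) (nat_lit 5) (nat_lit 516) (nat_lit 4) (nat_lit 499) (nat_lit 4) (nat_lit 410) (nat_lit 365) (nat_lit 365)) (XT.nd (nat_lit 78) (nat_lit 1444) (nat_lit 0) (XT.lf (nat_lit 0) (nat_lit 3059876442)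 (nat_lit 1292) (nat_lit 2866842296) (nat_lit 1292) (nat_lit 1004326559) (nat_lit 482) (nat_lit 4) (nat_lit 499) (nat_lit 5) (nat_lit 499) (nat_lit 4) (nat_lit 411) (nat_lit 365) (nat_lit 364)) (XT.lf (nat_lit 0) (nat_lit 612989167) (nat_lit 1368) (nat_lit 1516466636) (nat_lit 1444) (nat_lit 4834786097) (nat_lit 463) (nat_lit 5) (nat_lit 481) (nat_lit 5) (nat_lit 482) (nat_lit 4) (nat_lit 412) (nat_lit 365) (nat_lit 363)))) (XT.nd (nat_lit 156) (nat_lit 1596) (nat_lit 0) (XT.nd (nat_lit 78) (nat_lit 1520) (nat_lit 0) (XT.lf (nat_lit 0) (nat_lit 5173099147) (nat_lit 1368) (nat_lit 100070498) (nat_lit 1444) (nat_lit 1725657103) (nat_lit 463) (nat_lit 5) (nat_lit 481) (nat_lit 5) (nat_lit 482) (nat_lit 4) (nat_lit 413) (nat_lit 365) (nat_lit 362)) (XT.lf (nat_lit 0) (nat_lit 1389089625) (nat_lit 1520) (nat_lit 4285993580) (nat_lit 76) (nat_lit 1359652859) (nat_lit 443) (nat_lit 5) (nat_lit 463) (nat_lit 5) (nat_lit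 444) (nat_lit 4) (nat_lit 414) (nat_lit 365) (nat_lit 361))) (XT.nd (nat_lit 78) (nat_lit 76) (nat_lit 0) (XT.lf (nat_lit 0) (nat_lit 299887702) (nat_lit 1520) (nat_lit 4194557946) (nat_lit 1596) (nat_lit 2577728422) (nat_lit 423) (nat_lit 5) (nat_lit 443) (nat_lit 5) (nat_lit 444) (nat_lit 4) (nat_lit 415) (nat_lit 365) (nat_lit 360)) (XT.lf (nat_lit 0) (nat_lit 510100454) (nat_lit 1596) (nat_lit 2138685509) (nat_lit 76) (nat_lit 4462251983) (nat_lit 422) (nat_lit 5) (nat_lit 443) (nat_lit 5) (nat_lit 423) (nat_lit 5) (nat_lit 416) (nat_lit 365) (nat_lit 359))))))))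
noncomputable def xc66 : XT := (XT.nd (nat_lit 2184) (nat_lit 7828) (nat_lit 0) (XT.nd (nat_lit 1092) (nat_lit 6688) (nat_lit 0) (XT.nd (nat_lit 546) (nat_lit 3420) (nat_lit 0) (XT.nd (nat_lit 234) (nat_lit 3040) (nat_lit 0) (XT.nd (nat_lit 78) (nat_lit 1748) (nat_lit 0) (XT.lf (nat_lit 0) (nat_lit 2544363762) (nat_lit 1596) (nat_lit 1035431269) (nat_lit 1672) (nat_lit 3571513982) (nat_lit 401) (nat_lit 5) (nat_lit 422) (nat_lit 5) (nat_lit 423) (nat_lit 5) (nat_lit 417) (nat_lit 365) (nat_lit 358)) (XT.nd (nat_lit 78) (nat_lit 76) (nat_lit 0) (XT.lf (nat_lit 0) (nat_lit 94724117) (nat_lit 1672) (nat_lit 6574098957) (nat_lit 1748) (nat_lit 524465585) (nat_lit 379) (nat_lit 5) (nat_lit 401) (nat_lit 5) (nat_lit 402) (nat_lit 4) (nat_lit 418) (nat_lit 365) (nat_lit 357)) (XT.lf (nat_lit 0) (nat_lit 2526882227) (nat_lit 1748) (nat_lit 2367346744) (nat_lit 76) (nat_lit 2342058153) (nat_lit 378) (nat_lit 5) (nat_lit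 401) (nat_lit 5) (nat_lit 379) (nat_lit 5) (nat_lit 419) (nat_lit 365) (nat_lit 356)))) (XT.nd (nat_lit 156) (nat_lit 1672) (nat_lit 0) (XT.nd (nat_lit 78) (nat_lit 76) (nat_lit 0) (XT.lf (nat_lit 0) (nat_lit 2427152184) (nat_lit 1292) (nat_lit 3161303254) (nat_lit 1368) (nat_lit 1692554744) (nat_lit 361) (nat_lit 5) (nat_lit 378) (nat_lit 5) (nat_lit 379) (nat_lit 5) (nat_lit 420) (nat_lit 365) (nat_lit 355)) (XT.lf (nat_lit 0) (nat_lit 1323256671) (nat_lit 1368) (nat_lit 45926679) (nat_lit 76) (nat_lit 5958184979) (nat_lit 360) (nat_lit 5) (nat_lit 378) (nat_lit 5) (nat_lit 361) (nat_lit 5) (nat_lit 421) (nat_lit 365) (nat_lit 354))) (XT.nd (nat_lit 78) (nat_lit 836) (nat_lit 0) (XT.lf (nat_lit 0) (nat_lit 4353451130) (nat_lit 912) (nat_lit 2526660062) (nat_lit 76) (nat_lit 494839099) (nat_lit 349) (nat_lit 5) (nat_lit 361) (nat_lit 5) (nat_lit 350) (nat_lit 5) (nat_lit 422) (nat_lit 365) (nat_lit 353)) (XT.lf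 (nat_lit 0) (nat_lit 2379903190) (nat_lit 836) (nat_lit 5031878788) (nat_lit 912) (nat_lit 12405195) (nat_lit 338) (nat_lit 5) (nat_lit 349) (nat_lit 5) (nat_lit 350) (nat_lit 5) (nat_lit 423) (nat_lit 365) (nat_lit 352))))) (XT.nd (nat_lit 234) (nat_lit 1596) (nat_lit 0) (XT.nd (nat_lit 78) (nat_lit 1748) (nat_lit 0) (XT.lf (nat_lit 0) (nat_lit 2976860835) (nat_lit 912) (nat_lit 135374324) (nat_lit 76) (nat_lit 4362626892) (nat_lit 337) (nat_lit 5) (nat_lit 349) (nat_lit 5) (nat_lit 338) (nat_lit 5) (nat_lit 424) (nat_lit 365) (nat_lit 351)) (XT.nd (nat_lit 78) (nat_lit 912) (nat_lit 0) (XT.lf (nat_lit 0) (nat_lit 4876576426) (nat_lit 836) (nat_lit 1124963240) (nat_lit 912) (nat_lit 1525544069) (nat_lit 326) (nat_lit 5) (nat_lit 337) (nat_lit 5) (nat_lit 338) (nat_lit 5) (nat_lit 425) (nat_lit 365) (nat_lit 350)) (XT.lf (nat_lit 0) (nat_lit 1453358725) (nat_lit 912) (nat_lit 5214809105) (nat_lit 76) (nat_lit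 912700208) (nat_lit 314) (nat_lit 5) (nat_lit 326) (nat_lit 5) (nat_lit 315) (nat_lit 5) (nat_lit 426) (nat_lit 365) (nat_lit 349)))) (XT.nd (nat_lit 156) (nat_lit 836) (nat_lit 0) (XT.nd (nat_lit 78) (nat_lit 760) (nat_lit 0) (XT.lf (nat_lit 0) (nat_lit 4441897055) (nat_lit 912) (nat_lit 194296759) (nat_lit 76) (nat_lit 2999970736) (nat_lit 314) (nat_lit 5) (nat_lit 326) (nat_lit 5) (nat_lit 315) (nat_lit 5) (nat_lit 427) (nat_lit 365) (nat_lit 348)) (XT.lf (nat_lit 0) (nat_lit 4932355280) (nat_lit 760) (nat_lit 2536062485) (nat_lit 836) (nat_lit 224631943) (nat_lit 304) (nat_lit 5) (nat_lit 314) (nat_lit 5) (nat_lit 315) (nat_lit 5) (nat_lit 428) (nat_lit 365) (nat_lit 347))) (XT.nd (nat_lit 78) (nat_lit 0) (nat_lit 0) (XT.lf (nat_lit 0) (nat_lit 2366621676) (nat_lit 760) (nat_lit 364137652) (nat_lit 836) (nat_lit 5020731344) (nat_lit 293) (nat_lit 5) (nat_lit 303) (nat_lit 5) (nat_lit 304) (nat_lit 5) (nat_lit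 429) (nat_lit 365) (nat_lit 346)) (XT.lf (nat_lit 0) (nat_lit 5720013861) (nat_lit 836) (nat_lit 250453443) (nat_lit 76) (nat_lit 1841092433) (nat_lit 293) (nat_lit 5) (nat_lit 304) (nat_lit 5) (nat_lit 294) (nat_lit 5) (nat_lit 430) (nat_lit 365) (nat_lit 345)))))) (XT.nd (nat_lit 546) (nat_lit 3040) (nat_lit 0) (XT.nd (nat_lit 234) (nat_lit 2128) (nat_lit 0) (XT.nd (nat_lit 78) (nat_lit 760) (nat_lit 0) (XT.lf (nat_lit 0) (nat_lit 867259038) (nat_lit 760) (nat_lit 2888048578) (nat_lit 76) (nat_lit 4117792914) (nat_lit 283) (nat_lit 5) (nat_lit 293) (nat_lit 5) (nat_lit 284) (nat_lit 5) (nat_lit 431) (nat_lit 365) (nat_lit 344)) (XT.nd (nat_lit 78) (nat_lit 0) (nat_lit 0) (XT.lf (nat_lit 0) (nat_lit 2350626366) (nat_lit 760) (nat_lit 1471974152) (nat_lit 836) (nat_lit 4113729485) (nat_lit 273) (nat_lit 5) (nat_lit 283) (nat_lit 5) (nat_lit 284) (nat_lit 5) (nat_lit 432) (nat_lit 365) (nat_lit 343)) (XT.lf (nat_lit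 0) (nat_lit 6811088174) (nat_lit 836) (nat_lit 332690814) (nat_lit 76) (nat_lit 857605161) (nat_lit 273) (nat_lit 5) (nat_lit 284) (nat_lit 5) (nat_lit 274) (nat_lit 5) (nat_lit 433) (nat_lit 365) (nat_lit 342)))) (XT.nd (nat_lit 156) (nat_lit 684) (nat_lit 0) (XT.nd (nat_lit 78) (nat_lit 684) (nat_lit 0) (XT.lf (nat_lit 0) (nat_lit 1760345717) (nat_lit 760) (nat_lit 3056616277) (nat_lit 76) (nat_lit 3250739289) (nat_lit 263) (nat_lit 5) (nat_lit 273) (nat_lit 5) (nat_lit 264) (nat_lit 5) (nat_lit 434) (nat_lit 365) (nat_lit 341)) (XT.lf (nat_lit 0) (nat_lit 2294210267) (nat_lit 684) (nat_lit 2427213489) (nat_lit 760) (nat_lit 3414454930) (nat_lit 254) (nat_lit 5) (nat_lit 263) (nat_lit 5) (nat_lit 264) (nat_lit 5) (nat_lit 435) (nat_lit 365) (nat_lit 340))) (XT.nd (nat_lit 78) (nat_lit 684) (nat_lit 0) (XT.lf (nat_lit 0) (nat_lit 7713177273) (nat_lit 760) (nat_lit 471226292) (nat_lit 76) (nat_lit 21624754) (nat_lit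 254) (nat_lit 5) (nat_lit 264) (nat_lit 5) (nat_lit 255) (nat_lit 5) (nat_lit 436) (nat_lit 365) (nat_lit 339)) (XT.lf (nat_lit 0) (nat_lit 2454758467) (nat_lit 684) (nat_lit 3296000025) (nat_lit 76) (nat_lit 2526531907) (nat_lit 245) (nat_lit 5) (nat_lit 254) (nat_lit 5) (nat_lit 246) (nat_lit 5) (nat_lit 437) (nat_lit 365) (nat_lit 338))))) (XT.nd (nat_lit 234) (nat_lit 1748) (nat_lit 0) (XT.nd (nat_lit 78) (nat_lit 684) (nat_lit 0) (XT.lf (nat_lit 0) (nat_lit 2165826249) (nat_lit 608) (nat_lit 3258070145) (nat_lit 684) (nat_lit 2926668246) (nat_lit 237) (nat_lit 5) (nat_lit 245) (nat_lit 5) (nat_lit 246) (nat_lit 5) (nat_lit 438) (nat_lit 365) (nat_lit 337)) (XT.nd (nat_lit 78) (nat_lit 608) (nat_lit 0) (XT.lf (nat_lit 0) (nat_lit 1161194) (nat_lit 684) (nat_lit 702526459) (nat_lit 76) (nat_lit 7722159309) (nat_lit 236) (nat_lit 5) (nat_lit 245) (nat_lit 5) (nat_lit 237) (nat_lit 5) (nat_lit 439) (nat_lit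 365) (nat_lit 336)) (XT.lf (nat_lit 0) (nat_lit 2945748394) (nat_lit 684) (nat_lit 3639056134) (nat_lit 76) (nat_lit 1917529242) (nat_lit 228) (nat_lit 5) (nat_lit 237) (nat_lit 5) (nat_lit 229) (nat_lit 5) (nat_lit 440) (nat_lit 365) (nat_lit 335)))) (XT.nd (nat_lit 156) (nat_lit 1064) (nat_lit 0) (XT.nd (nat_lit 78) (nat_lit 76) (nat_lit 0) (XT.lf (nat_lit 0) (nat_lit 1932049450) (nat_lit 608) (nat_lit 3992682002) (nat_lit 684) (nat_lit 2656141652) (nat_lit 220) (nat_lit 5) (nat_lit 228) (nat_lit 5) (nat_lit 229) (nat_lit 5) (nat_lit 441) (nat_lit 365) (nat_lit 334)) (XT.lf (nat_lit 0) (nat_lit 276681086) (nat_lit 684) (nat_lit 1057239759) (nat_lit 76) (nat_lit 7327488019) (nat_lit 219) (nat_lit 5) (nat_lit 228) (nat_lit 5) (nat_lit 220) (nat_lit 5) (nat_lit 442) (nat_lit 365) (nat_lit 333))) (XT.nd (nat_lit 78) (nat_lit 532) (nat_lit 0) (XT.lf (nat_lit 0) (nat_lit 3226546102) (nat_lit 608) (nat_lit 4120768262)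 (nat_lit 76) (nat_lit 1396041778) (nat_lit 212) (nat_lit 5) (nat_lit 220) (nat_lit 5) (nat_lit 213) (nat_lit 5) (nat_lit 443) (nat_lit 365) (nat_lit 332)) (XT.lf (nat_lit 0) (nat_lit 1557236734) (nat_lit 532) (nat_lit 4659357777) (nat_lit 608) (nat_lit 2610754502) (nat_lit 205) (nat_lit 5) (nat_lit 212) (nat_lit 5) (nat_lit 213) (nat_lit 5) (nat_lit 444) (nat_lit 365) (nat_lit 331))))))) (XT.nd (nat_lit 1092) (nat_lit 3192) (nat_lit 0) (XT.nd (nat_lit 546) (nat_lit 2432) (nat_lit 0) (XT.nd (nat_lit 234) (nat_lit 1064) (nat_lit 0) (XT.nd (nat_lit 78) (nat_lit 1064) (nat_lit 0) (XT.lf (nat_lit 0) (nat_lit 331906451) (nat_lit 608) (nat_lit 1568377974) (nat_lit 76) (nat_lit 7013058223) (nat_lit 204) (nat_lit 5) (nat_lit 212) (nat_lit 5) (nat_lit 205) (nat_lit 5) (nat_lit 445) (nat_lit 365) (nat_lit 330)) (XT.nd (nat_lit 78) (nat_lit 532) (nat_lit 0) (XT.lf (nat_lit 0) (nat_lit 3288256145) (nat_lit 608) (nat_lit 4778604133)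 (nat_lit 76) (nat_lit 934083483) (nat_lit 197) (nat_lit 5) (nat_lit 205) (nat_lit 5) (nat_lit 198) (nat_lit 5) (nat_lit 446) (nat_lit 365) (nat_lit 329)) (XT.lf (nat_lit 0) (nat_lit 1003160425) (nat_lit 532) (nat_lit 5286831582) (nat_lit 608) (nat_lit 2800607760) (nat_lit 190) (nat_lit 5) (nat_lit 197) (nat_lit 5) (nat_lit 198) (nat_lit 5) (nat_lit 447) (nat_lit 365) (nat_lit 328)))) (XT.nd (nat_lit 156) (nat_lit 532) (nat_lit 0) (XT.nd (nat_lit 78) (nat_lit 456) (nat_lit 0) (XT.lf (nat_lit 0) (nat_lit 156504059) (nat_lit 608) (nat_lit 2274997462) (nat_lit 76) (nat_lit 6750771979) (nat_lit 189) (nat_lit 5) (nat_lit 197) (nat_lit 5) (nat_lit 190) (nat_lit 5) (nat_lit 448) (nat_lit 365) (nat_lit 327)) (XT.lf (nat_lit 0) (nat_lit 3119732022) (nat_lit 532) (nat_lit 5652900366) (nat_lit 76) (nat_lit 503115036) (nat_lit 183) (nat_lit 5) (nat_lit 190) (nat_lit 5) (nat_lit 184) (nat_lit 5) (nat_lit 449) (nat_lit 365)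 (nat_lit 326))) (XT.nd (nat_lit 78) (nat_lit 0) (nat_lit 0) (XT.lf (nat_lit 0) (nat_lit 228612840) (nat_lit 532) (nat_lit 5904526785) (nat_lit 608) (nat_lit 3238158818) (nat_lit 176) (nat_lit 5) (nat_lit 183) (nat_lit 5) (nat_lit 184) (nat_lit 5) (nat_lit 450) (nat_lit 365) (nat_lit 325)) (XT.lf (nat_lit 0) (nat_lit 6247874236) (nat_lit 532) (nat_lit 2955293078) (nat_lit 608) (nat_lit 265691542) (nat_lit 176) (nat_lit 5) (nat_lit 183) (nat_lit 5) (nat_lit 184) (nat_lit 5) (nat_lit 451) (nat_lit 365) (nat_lit 324))))) (XT.nd (nat_lit 234) (nat_lit 1444) (nat_lit 0) (XT.nd (nat_lit 78) (nat_lit 456) (nat_lit 0) (XT.lf (nat_lit 0) (nat_lit 2707430331) (nat_lit 532) (nat_lit 6787279069) (nat_lit 76) (nat_lit 73776603) (nat_lit 169) (nat_lit 5) (nat_lit 176) (nat_lit 5) (nat_lit 170) (nat_lit 5) (nat_lit 452) (nat_lit 365) (nat_lit 323)) (XT.nd (nat_lit 78) (nat_lit 456) (nat_lit 0) (XT.lf (nat_lit 0) (nat_lit 5737075063)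 (nat_lit 532) (nat_lit 800385441) (nat_lit 76) (nat_lit 3132621648) (nat_lit 169) (nat_lit 5) (nat_lit 176) (nat_lit 5) (nat_lit 170) (nat_lit 5) (nat_lit 453) (nat_lit 365) (nat_lit 322)) (XT.lf (nat_lit 0) (nat_lit 5320792457) (nat_lit 456) (nat_lit 3501150252) (nat_lit 532) (nat_lit 951898392) (nat_lit 163) (nat_lit 5) (nat_lit 169) (nat_lit 5) (nat_lit 170) (nat_lit 5) (nat_lit 454) (nat_lit 365) (nat_lit 321)))) (XT.nd (nat_lit 156) (nat_lit 912) (nat_lit 0) (XT.nd (nat_lit 78) (nat_lit 0) (nat_lit 0) (XT.lf (nat_lit 0) (nat_lit 1648270761) (nat_lit 456) (nat_lit 389500613) (nat_lit 532) (nat_lit 7842128490) (nat_lit 156) (nat_lit 5) (nat_lit 162) (nat_lit 5) (nat_lit 163) (nat_lit 5) (nat_lit 455) (nat_lit 365) (nat_lit 320)) (XT.lf (nat_lit 0) (nat_lit 5083205255) (nat_lit 532) (nat_lit 2135850291) (nat_lit 76) (nat_lit 2768746206) (nat_lit 156) (nat_lit 5) (nat_lit 163) (nat_lit 5) (nat_lit 157) (nat_lit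 5) (nat_lit 456) (nat_lit 365) (nat_lit 319))) (XT.nd (nat_lit 78) (nat_lit 456) (nat_lit 0) (XT.lf (nat_lit 0) (nat_lit 4078075771) (nat_lit 456) (nat_lit 4101849159) (nat_lit 532) (nat_lit 1918150893) (nat_lit 150) (nat_lit 5) (nat_lit 156) (nat_lit 5) (nat_lit 157) (nat_lit 5) (nat_lit 457) (nat_lit 365) (nat_lit 318)) (XT.lf (nat_lit 0) (nat_lit 174992920) (nat_lit 380) (nat_lit 915251641) (nat_lit 456) (nat_lit 9120644879) (nat_lit 144) (nat_lit 5) (nat_lit 149) (nat_lit 5) (nat_lit 150) (nat_lit 5) (nat_lit 458) (nat_lit 365) (nat_lit 317)))))) (XT.nd (nat_lit 546) (nat_lit 1520) (nat_lit 0) (XT.nd (nat_lit 234) (nat_lit 1216) (nat_lit 0) (XT.nd (nat_lit 78) (nat_lit 456) (nat_lit 0) (XT.lf (nat_lit 0) (nat_lit 4150721080) (nat_lit 456) (nat_lit 3832957773) (nat_lit 76) (nat_lit 2341695391) (nat_lit 144) (nat_lit 5) (nat_lit 150) (nat_lit 5) (nat_lit 145) (nat_lit 5) (nat_lit 459) (nat_lit 365) (nat_lit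 316)) (XT.nd (nat_lit 78) (nat_lit 0) (nat_lit 0) (XT.lf (nat_lit 0) (nat_lit 2466241886) (nat_lit 456) (nat_lit 4790736451) (nat_lit 532) (nat_lit 3185499020) (nat_lit 138) (nat_lit 5) (nat_lit 144) (nat_lit 5) (nat_lit 145) (nat_lit 5) (nat_lit 460) (nat_lit 365) (nat_lit 315)) (XT.lf (nat_lit 0) (nat_lit 8889656293) (nat_lit 456) (nat_lit 1524309591) (nat_lit 532) (nat_lit 148204188) (nat_lit 138) (nat_lit 5) (nat_lit 144) (nat_lit 5) (nat_lit 145) (nat_lit 5) (nat_lit 461) (nat_lit 365) (nat_lit 314)))) (XT.nd (nat_lit 156) (nat_lit 380) (nat_lit 0) (XT.nd (nat_lit 78) (nat_lit 380) (nat_lit 0) (XT.lf (nat_lit 0) (nat_lit 2917281477) (nat_lit 456) (nat_lit 5948755644) (nat_lit 76) (nat_lit 1817732705) (nat_lit 132) (nat_lit 5) (nat_lit 138) (nat_lit 5) (nat_lit 133) (nat_lit 5) (nat_lit 462) (nat_lit 365) (nat_lit 313)) (XT.lf (nat_lit 0) (nat_lit 426768453) (nat_lit 380) (nat_lit 5603109069) (nat_lit 456)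 (nat_lit 4778167268) (nat_lit 127) (nat_lit 5) (nat_lit 132) (nat_lit 5) (nat_lit 133) (nat_lit 5) (nat_lit 463) (nat_lit 365) (nat_lit 312))) (XT.nd (nat_lit 78) (nat_lit 380) (nat_lit 0) (XT.lf (nat_lit 0) (nat_lit 6957326647) (nat_lit 380) (nat_lit 2251306471) (nat_lit 456) (nat_lit 1726112130) (nat_lit 127) (nat_lit 5) (nat_lit 132) (nat_lit 5) (nat_lit 133) (nat_lit 5) (nat_lit 464) (nat_lit 365) (nat_lit 311)) (XT.lf (nat_lit 0) (nat_lit 1357275874) (nat_lit 380) (nat_lit 8545759232) (nat_lit 76) (nat_lit 1161012302) (nat_lit 122) (nat_lit 5) (nat_lit 127) (nat_lit 5) (nat_lit 123) (nat_lit 5) (nat_lit 465) (nat_lit 365) (nat_lit 310))))) (XT.nd (nat_lit 234) (nat_lit 1140) (nat_lit 0) (XT.nd (nat_lit 78) (nat_lit 380) (nat_lit 0) (XT.lf (nat_lit 0) (nat_lit 4485708022) (nat_lit 380) (nat_lit 2076921691) (nat_lit 76) (nat_lit 4632965026) (nat_lit 122) (nat_lit 5) (nat_lit 127) (nat_lit 5) (nat_lit 123)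 (nat_lit 5) (nat_lit 466) (nat_lit 365) (nat_lit 309)) (XT.nd (nat_lit 78) (nat_lit 0) (nat_lit 0) (XT.lf (nat_lit 0) (nat_lit 4528899086) (nat_lit 380) (nat_lit 3142597457) (nat_lit 456) (nat_lit 3658397486) (nat_lit 117) (nat_lit 5) (nat_lit 122) (nat_lit 5) (nat_lit 123) (nat_lit 5) (nat_lit 467) (nat_lit 365) (nat_lit 308)) (XT.lf (nat_lit 0) (nat_lit 10902892061) (nat_lit 456) (nat_lit 225989215) (nat_lit 76) (nat_lit 338376641) (nat_lit 117) (nat_lit 5) (nat_lit 123) (nat_lit 5) (nat_lit 118) (nat_lit 5) (nat_lit 468) (nat_lit 365) (nat_lit 307)))) (XT.nd (nat_lit 156) (nat_lit 380) (nat_lit 0) (XT.nd (nat_lit 78) (nat_lit 380) (nat_lit 0) (XT.lf (nat_lit 0) (nat_lit 2587000501) (nat_lit 380) (nat_lit 5129966931) (nat_lit 76) (nat_lit 3889492074) (nat_lit 112) (nat_lit 5) (nat_lit 117) (nat_lit 5) (nat_lit 113) (nat_lit 5) (nat_lit 469) (nat_lit 365) (nat_lit 306)) (XT.lf (nat_lit 0) (nat_lit 1532882405)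 (nat_lit 380) (nat_lit 4238826771) (nat_lit 456) (nat_lit 5977119395) (nat_lit 107) (nat_lit 5) (nat_lit 112) (nat_lit 5) (nat_lit 113) (nat_lit 5) (nat_lit 470) (nat_lit 365) (nat_lit 305))) (XT.nd (nat_lit 78) (nat_lit 380) (nat_lit 0) (XT.lf (nat_lit 0) (nat_lit 8347716664) (nat_lit 380) (nat_lit 673535094) (nat_lit 456) (nat_lit 2872785649) (nat_lit 107) (nat_lit 5) (nat_lit 112) (nat_lit 5) (nat_lit 113) (nat_lit 5) (nat_lit 471) (nat_lit 365) (nat_lit 304)) (XT.lf (nat_lit 0) (nat_lit 297280331) (nat_lit 380) (nat_lit 8814527922) (nat_lit 76) (nat_lit 2930168699) (nat_lit 102) (nat_lit 5) (nat_lit 107) (nat_lit 5) (nat_lit 103) (nat_lit 5) (nat_lit 472) (nat_lit 365) (nat_lit 303))))))))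
noncomputable def xc67 : XT := (XT.nd (nat_lit 2184) (nat_lit 2128) (nat_lit 0) (XT.nd (nat_lit 1092) (nat_lit 1748) (nat_lit 0) (XT.nd (nat_lit 546) (nat_lit 988) (nat_lit 0) (XT.nd (nat_lit 234) (nat_lit 912) (nat_lit 0) (XT.nd (nat_lit 78) (nat_lit 304) (nat_lit 0) (XT.lf (nat_lit 0) (nat_lit 3488076820) (nat_lit 380) (nat_lit 2081763722) (nat_lit 76) (nat_lit 6622753359) (nat_lit 102) (nat_lit 5) (nat_lit 107) (nat_lit 5) (nat_lit 103) (nat_lit 5) (nat_lit 473) (nat_lit 365) (nat_lit 302)) (XT.nd (nat_lit 78) (nat_lit 0) (nat_lit 0) (XT.lf (nat_lit 0) (nat_lit 4799100026) (nat_lit 304) (nat_lit 1942732520) (nat_lit 380) (nat_lit 5604421805) (nat_lit 98) (nat_lit 5) (nat_lit 102) (nat_lit 5) (nat_lit 103) (nat_lit 5) (nat_lit 474) (nat_lit 365) (nat_lit 301)) (XT.lf (nat_lit 0) (nat_lit 10054312193) (nat_lit 380) (nat_lit 718113965) (nat_lit 76) (nat_lit 1730702630) (nat_lit 98) (nat_lit 5) (nat_lit 103) (nat_lit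 5) (nat_lit 99) (nat_lit 5) (nat_lit 475) (nat_lit 365) (nat_lit 300)))) (XT.nd (nat_lit 156) (nat_lit 228) (nat_lit 0) (XT.nd (nat_lit 78) (nat_lit 304) (nat_lit 0) (XT.lf (nat_lit 0) (nat_lit 782304115) (nat_lit 380) (nat_lit 6399735745) (nat_lit 76) (nat_lit 5480564084) (nat_lit 93) (nat_lit 5) (nat_lit 98) (nat_lit 5) (nat_lit 94) (nat_lit 5) (nat_lit 476) (nat_lit 365) (nat_lit 299)) (XT.lf (nat_lit 0) (nat_lit 509629717) (nat_lit 304) (nat_lit 3512701335) (nat_lit 380) (nat_lit 8803085307) (nat_lit 89) (nat_lit 5) (nat_lit 93) (nat_lit 5) (nat_lit 94) (nat_lit 5) (nat_lit 477) (nat_lit 365) (nat_lit 298))) (XT.nd (nat_lit 78) (nat_lit 228) (nat_lit 0) (XT.lf (nat_lit 0) (nat_lit 7340945384) (nat_lit 380) (nat_lit 5397501295) (nat_lit 76) (nat_lit 252775315) (nat_lit 89) (nat_lit 5) (nat_lit 94) (nat_lit 5) (nat_lit 90) (nat_lit 5) (nat_lit 478) (nat_lit 365) (nat_lit 297)) (XT.lf (nat_lit 0) (nat_lit 1608919579)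 (nat_lit 228) (nat_lit 9120391501) (nat_lit 304) (nat_lit 2430977535) (nat_lit 86) (nat_lit 5) (nat_lit 89) (nat_lit 5) (nat_lit 90) (nat_lit 5) (nat_lit 479) (nat_lit 365) (nat_lit 296))))) (XT.nd (nat_lit 234) (nat_lit 608) (nat_lit 0) (XT.nd (nat_lit 78) (nat_lit 304) (nat_lit 0) (XT.lf (nat_lit 0) (nat_lit 847727672) (nat_lit 304) (nat_lit 4557321309) (nat_lit 76) (nat_lit 7927464763) (nat_lit 85) (nat_lit 5) (nat_lit 89) (nat_lit 5) (nat_lit 86) (nat_lit 5) (nat_lit 480) (nat_lit 365) (nat_lit 295)) (XT.nd (nat_lit 78) (nat_lit 0) (nat_lit 0) (XT.lf (nat_lit 0) (nat_lit 2546686521) (nat_lit 304) (nat_lit 1599671763) (nat_lit 380) (nat_lit 9361777413) (nat_lit 81) (nat_lit 5) (nat_lit 85) (nat_lit 5) (nat_lit 86) (nat_lit 5) (nat_lit 481) (nat_lit 365) (nat_lit 294)) (XT.lf (nat_lit 0) (nat_lit 7527061258) (nat_lit 380) (nat_lit 3894522513) (nat_lit 76) (nat_lit 2265375833) (nat_lit 81) (nat_lit 5) (nat_lit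 86) (nat_lit 5) (nat_lit 82) (nat_lit 5) (nat_lit 482) (nat_lit 365) (nat_lit 293)))) (XT.nd (nat_lit 156) (nat_lit 304) (nat_lit 0) (XT.nd (nat_lit 78) (nat_lit 76) (nat_lit 0) (XT.lf (nat_lit 0) (nat_lit 3299961072) (nat_lit 228) (nat_lit 7678515185) (nat_lit 304) (nat_lit 2890833056) (nat_lit 78) (nat_lit 5) (nat_lit 81) (nat_lit 5) (nat_lit 82) (nat_lit 5) (nat_lit 483) (nat_lit 365) (nat_lit 292)) (XT.lf (nat_lit 0) (nat_lit 435248114) (nat_lit 304) (nat_lit 3413266973) (nat_lit 76) (nat_lit 10206795115) (nat_lit 77) (nat_lit 5) (nat_lit 81) (nat_lit 5) (nat_lit 78) (nat_lit 5) (nat_lit 484) (nat_lit 365) (nat_lit 291))) (XT.nd (nat_lit 78) (nat_lit 0) (nat_lit 0) (XT.lf (nat_lit 0) (nat_lit 3786586745) (nat_lit 380) (nat_lit 10373350271) (nat_lit 76) (nat_lit 84773675) (nat_lit 73) (nat_lit 5) (nat_lit 78) (nat_lit 5) (nat_lit 74) (nat_lit 5) (nat_lit 485) (nat_lit 365) (nat_lit 290)) (XT.lf (nat_lit 0)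 (nat_lit 7225354437) (nat_lit 380) (nat_lit 3160932922) (nat_lit 76) (nat_lit 4051214208) (nat_lit 73) (nat_lit 5) (nat_lit 78) (nat_lit 5) (nat_lit 74) (nat_lit 5) (nat_lit 486) (nat_lit 365) (nat_lit 289)))))) (XT.nd (nat_lit 546) (nat_lit 684) (nat_lit 0) (XT.nd (nat_lit 234) (nat_lit 532) (nat_lit 0) (XT.nd (nat_lit 78) (nat_lit 304) (nat_lit 0) (XT.lf (nat_lit 0) (nat_lit 4205991797) (nat_lit 228) (nat_lit 6526624488) (nat_lit 304) (nat_lit 3901547820) (nat_lit 70) (nat_lit 5) (nat_lit 73) (nat_lit 5) (nat_lit 74) (nat_lit 5) (nat_lit 487) (nat_lit 365) (nat_lit 288)) (XT.nd (nat_lit 78) (nat_lit 304) (nat_lit 0) (XT.lf (nat_lit 0) (nat_lit 11718494392) (nat_lit 228) (nat_lit 2585402558) (nat_lit 304) (nat_lit 530995490) (nat_lit 70) (nat_lit 5) (nat_lit 73) (nat_lit 5) (nat_lit 74) (nat_lit 5) (nat_lit 488) (nat_lit 365) (nat_lit 287)) (XT.lf (nat_lit 0) (nat_lit 2879517269) (nat_lit 304) (nat_lit 10713262241)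 (nat_lit 76) (nat_lit 1446274488) (nat_lit 66) (nat_lit 5) (nat_lit 70) (nat_lit 5) (nat_lit 67) (nat_lit 5) (nat_lit 489) (nat_lit 365) (nat_lit 286)))) (XT.nd (nat_lit 156) (nat_lit 304) (nat_lit 0) (XT.nd (nat_lit 78) (nat_lit 228) (nat_lit 0) (XT.lf (nat_lit 0) (nat_lit 6362454778) (nat_lit 304) (nat_lit 3352833378) (nat_lit 76) (nat_lit 5531723383) (nat_lit 66) (nat_lit 5) (nat_lit 70) (nat_lit 5) (nat_lit 67) (nat_lit 5) (nat_lit 490) (nat_lit 365) (nat_lit 285)) (XT.lf (nat_lit 0) (nat_lit 4166065396) (nat_lit 228) (nat_lit 5749705911) (nat_lit 304) (nat_lit 5543351774) (nat_lit 63) (nat_lit 5) (nat_lit 66) (nat_lit 5) (nat_lit 67) (nat_lit 5) (nat_lit 491) (nat_lit 365) (nat_lit 284))) (XT.nd (nat_lit 78) (nat_lit 304) (nat_lit 0) (XT.lf (nat_lit 0) (nat_lit 11837698701) (nat_lit 228) (nat_lit 1698862620) (nat_lit 304) (nat_lit 2138996464) (nat_lit 63) (nat_lit 5) (nat_lit 66) (nat_lit 5) (nat_lit 67)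 (nat_lit 5) (nat_lit 492) (nat_lit 365) (nat_lit 283)) (XT.lf (nat_lit 0) (nat_lit 1330547395) (nat_lit 304) (nat_lit 12147528916) (nat_lit 76) (nat_lit 2417788646) (nat_lit 59) (nat_lit 5) (nat_lit 63) (nat_lit 5) (nat_lit 60) (nat_lit 5) (nat_lit 493) (nat_lit 365) (nat_lit 282))))) (XT.nd (nat_lit 234) (nat_lit 456) (nat_lit 0) (XT.nd (nat_lit 78) (nat_lit 228) (nat_lit 0) (XT.lf (nat_lit 0) (nat_lit 4852405709) (nat_lit 304) (nat_lit 4650099718) (nat_lit 76) (nat_lit 6617567327) (nat_lit 59) (nat_lit 5) (nat_lit 63) (nat_lit 5) (nat_lit 60) (nat_lit 5) (nat_lit 494) (nat_lit 365) (nat_lit 281)) (XT.nd (nat_lit 78) (nat_lit 0) (nat_lit 0) (XT.lf (nat_lit 0) (nat_lit 2994663472) (nat_lit 228) (nat_lit 5444346360) (nat_lit 304) (nat_lit 7909877084) (nat_lit 56) (nat_lit 5) (nat_lit 59) (nat_lit 5) (nat_lit 60) (nat_lit 5) (nat_lit 495) (nat_lit 365) (nat_lit 280)) (XT.lf (nat_lit 0) (nat_lit 10813740702) (nat_lit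 228) (nat_lit 1289897903) (nat_lit 304) (nat_lit 4478521125) (nat_lit 56) (nat_lit 5) (nat_lit 59) (nat_lit 5) (nat_lit 60) (nat_lit 5) (nat_lit 496) (nat_lit 365) (nat_lit 279)))) (XT.nd (nat_lit 156) (nat_lit 152) (nat_lit 0) (XT.nd (nat_lit 78) (nat_lit 76) (nat_lit 0) (XT.lf (nat_lit 0) (nat_lit 1934141266) (nat_lit 228) (nat_lit 13914584550) (nat_lit 304) (nat_lit 971236923) (nat_lit 53) (nat_lit 5) (nat_lit 56) (nat_lit 5) (nat_lit 57) (nat_lit 5) (nat_lit 497) (nat_lit 365) (nat_lit 278)) (XT.lf (nat_lit 0) (nat_lit 2595036719) (nat_lit 304) (nat_lit 7259773205) (nat_lit 76) (nat_lit 7206920718) (nat_lit 52) (nat_lit 5) (nat_lit 56) (nat_lit 5) (nat_lit 53) (nat_lit 5) (nat_lit 498) (nat_lit 365) (nat_lit 277))) (XT.nd (nat_lit 78) (nat_lit 0) (nat_lit 0) (XT.lf (nat_lit 0) (nat_lit 478193504) (nat_lit 152) (nat_lit 5720551039) (nat_lit 228) (nat_lit 11109886285) (nat_lit 50) (nat_lit 5) (nat_lit 52) (nat_lit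 5) (nat_lit 53) (nat_lit 5) (nat_lit 499) (nat_lit 365) (nat_lit 276)) (XT.lf (nat_lit 0) (nat_lit 8429151664) (nat_lit 152) (nat_lit 1470298226) (nat_lit 228) (nat_lit 7660528104) (nat_lit 50) (nat_lit 5) (nat_lit 52) (nat_lit 5) (nat_lit 53) (nat_lit 5) (nat_lit 500) (nat_lit 365) (nat_lit 275))))))) (XT.nd (nat_lit 1092) (nat_lit 836) (nat_lit 0) (XT.nd (nat_lit 546) (nat_lit 608) (nat_lit 0) (XT.nd (nat_lit 234) (nat_lit 380) (nat_lit 0) (XT.nd (nat_lit 78) (nat_lit 304) (nat_lit 0) (XT.lf (nat_lit 0) (nat_lit 13669339292) (nat_lit 228) (nat_lit 1335582146) (nat_lit 76) (nat_lit 2811534565) (nat_lit 50) (nat_lit 5) (nat_lit 53) (nat_lit 5) (nat_lit 51) (nat_lit 5) (nat_lit 501) (nat_lit 365) (nat_lit 274)) (XT.nd (nat_lit 78) (nat_lit 76) (nat_lit 0) (XT.lf (nat_lit 0) (nat_lit 6654121601) (nat_lit 228) (nat_lit 10890473089) (nat_lit 304) (nat_lit 532876673) (nat_lit 47) (nat_lit 5) (nat_lit 50) (nat_lit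 5) (nat_lit 51) (nat_lit 5) (nat_lit 502) (nat_lit 365) (nat_lit 273)) (XT.lf (nat_lit 0) (nat_lit 3098378765) (nat_lit 304) (nat_lit 3581372543) (nat_lit 76) (nat_lit 11663831263) (nat_lit 46) (nat_lit 5) (nat_lit 50) (nat_lit 5) (nat_lit 47) (nat_lit 5) (nat_lit 503) (nat_lit 365) (nat_lit 272)))) (XT.nd (nat_lit 156) (nat_lit 228) (nat_lit 0) (XT.nd (nat_lit 78) (nat_lit 0) (nat_lit 0) (XT.lf (nat_lit 0) (nat_lit 4433797222) (nat_lit 152) (nat_lit 2367639762) (nat_lit 228) (nat_lit 11813389057) (nat_lit 44) (nat_lit 5) (nat_lit 46) (nat_lit 5) (nat_lit 47) (nat_lit 5) (nat_lit 504) (nat_lit 365) (nat_lit 271)) (XT.lf (nat_lit 0) (nat_lit 10593544080) (nat_lit 228) (nat_lit 6284907316) (nat_lit 76) (nat_lit 2012749840) (nat_lit 44) (nat_lit 5) (nat_lit 47) (nat_lit 5) (nat_lit 45) (nat_lit 5) (nat_lit 505) (nat_lit 365) (nat_lit 270))) (XT.nd (nat_lit 78) (nat_lit 0) (nat_lit 0) (XT.lf (nat_lit 0) (nat_lit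 1738645292) (nat_lit 228) (nat_lit 12727866117) (nat_lit 304) (nat_lit 4706498645) (nat_lit 41) (nat_lit 5) (nat_lit 44) (nat_lit 5) (nat_lit 45) (nat_lit 5) (nat_lit 506) (nat_lit 365) (nat_lit 269)) (XT.lf (nat_lit 0) (nat_lit 9970495749) (nat_lit 228) (nat_lit 8466855075) (nat_lit 304) (nat_lit 1022702323) (nat_lit 41) (nat_lit 5) (nat_lit 44) (nat_lit 5) (nat_lit 45) (nat_lit 5) (nat_lit 507) (nat_lit 365) (nat_lit 268))))) (XT.nd (nat_lit 234) (nat_lit 380) (nat_lit 0) (XT.nd (nat_lit 78) (nat_lit 152) (nat_lit 0) (XT.lf (nat_lit 0) (nat_lit 2677419898) (nat_lit 304) (nat_lit 1440535526) (nat_lit 76) (nat_lit 15634962326) (nat_lit 40) (nat_lit 5) (nat_lit 44) (nat_lit 5) (nat_lit 41) (nat_lit 5) (nat_lit 508) (nat_lit 365) (nat_lit 267)) (XT.nd (nat_lit 78) (nat_lit 0) (nat_lit 0) (XT.lf (nat_lit 0) (nat_lit 6463358612) (nat_lit 228) (nat_lit 13237466335) (nat_lit 76) (nat_lit 350175323) (nat_lit 38) (nat_lit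 5) (nat_lit 41) (nat_lit 5) (nat_lit 39) (nat_lit 5) (nat_lit 509) (nat_lit 365) (nat_lit 266)) (XT.lf (nat_lit 0) (nat_lit 10341037868) (nat_lit 228) (nat_lit 5166263823) (nat_lit 76) (nat_lit 4847428186) (nat_lit 38) (nat_lit 5) (nat_lit 41) (nat_lit 5) (nat_lit 39) (nat_lit 5) (nat_lit 510) (nat_lit 365) (nat_lit 265)))) (XT.nd (nat_lit 156) (nat_lit 228) (nat_lit 0) (XT.nd (nat_lit 78) (nat_lit 0) (nat_lit 0) (XT.lf (nat_lit 0) (nat_lit 3071062735) (nat_lit 152) (nat_lit 11224578495) (nat_lit 228) (nat_lit 6368911188) (nat_lit 36) (nat_lit 5) (nat_lit 38) (nat_lit 5) (nat_lit 39) (nat_lit 5) (nat_lit 511) (nat_lit 365) (nat_lit 264)) (XT.lf (nat_lit 0) (nat_lit 11507822408) (nat_lit 152) (nat_lit 6835787583) (nat_lit 228) (nat_lit 2636681594) (nat_lit 36) (nat_lit 5) (nat_lit 38) (nat_lit 5) (nat_lit 39) (nat_lit 5) (nat_lit 512) (nat_lit 365) (nat_lit 263))) (XT.nd (nat_lit 78) (nat_lit 152) (nat_lit 0)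 (XT.lf (nat_lit 0) (nat_lit 1134712314) (nat_lit 228) (nat_lit 1231549380) (nat_lit 76) (nat_lit 18936339971) (nat_lit 35) (nat_lit 5) (nat_lit 38) (nat_lit 5) (nat_lit 36) (nat_lit 5) (nat_lit 513) (nat_lit 365) (nat_lit 262)) (XT.lf (nat_lit 0) (nat_lit 4987950171) (nat_lit 228) (nat_lit 14427896819) (nat_lit 76) (nat_lit 2214333279) (nat_lit 33) (nat_lit 5) (nat_lit 36) (nat_lit 5) (nat_lit 34) (nat_lit 5) (nat_lit 514) (nat_lit 365) (nat_lit 261)))))) (XT.nd (nat_lit 546) (nat_lit 456) (nat_lit 0) (XT.nd (nat_lit 234) (nat_lit 228) (nat_lit 0) (XT.nd (nat_lit 78) (nat_lit 152) (nat_lit 0) (XT.lf (nat_lit 0) (nat_lit 8922576664) (nat_lit 228) (nat_lit 6192699896) (nat_lit 76) (nat_lit 6848952620) (nat_lit 33) (nat_lit 5) (nat_lit 36) (nat_lit 5) (nat_lit 34) (nat_lit 5) (nat_lit 515) (nat_lit 365) (nat_lit 260)) (XT.nd (nat_lit 78) (nat_lit 0) (nat_lit 0) (XT.lf (nat_lit 0) (nat_lit 2202442956) (nat_lit 152)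 (nat_lit 10728472252) (nat_lit 228) (nat_lit 9374148580) (nat_lit 31) (nat_lit 5) (nat_lit 33) (nat_lit 5) (nat_lit 34) (nat_lit 5) (nat_lit 516) (nat_lit 365) (nat_lit 259)) (XT.lf (nat_lit 0) (nat_lit 10816010236) (nat_lit 152) (nat_lit 6225847408) (nat_lit 228) (nat_lit 5610413712) (nat_lit 31) (nat_lit 5) (nat_lit 33) (nat_lit 5) (nat_lit 34) (nat_lit 5) (nat_lit 517) (nat_lit 365) (nat_lit 258)))) (XT.nd (nat_lit 156) (nat_lit 0) (nat_lit 0) (XT.nd (nat_lit 78) (nat_lit 228) (nat_lit 0) (XT.lf (nat_lit 0) (nat_lit 19569082091) (nat_lit 152) (nat_lit 1647192569) (nat_lit 228) (nat_lit 1790528211) (nat_lit 31) (nat_lit 5) (nat_lit 33) (nat_lit 5) (nat_lit 34) (nat_lit 5) (nat_lit 518) (nat_lit 365) (nat_lit 257)) (XT.lf (nat_lit 0) (nat_lit 2112923038) (nat_lit 228) (nat_lit 18237416573) (nat_lit 76) (nat_lit 3017120981) (nat_lit 28) (nat_lit 5) (nat_lit 31) (nat_lit 5) (nat_lit 29) (nat_lit 5) (nat_lit 519)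 (nat_lit 365) (nat_lit 256))) (XT.nd (nat_lit 78) (nat_lit 0) (nat_lit 0) (XT.lf (nat_lit 0) (nat_lit 6086181924) (nat_lit 228) (nat_lit 9874469741) (nat_lit 76) (nat_lit 7774133445) (nat_lit 28) (nat_lit 5) (nat_lit 31) (nat_lit 5) (nat_lit 29) (nat_lit 5) (nat_lit 520) (nat_lit 365) (nat_lit 255)) (XT.lf (nat_lit 0) (nat_lit 10120828658) (nat_lit 228) (nat_lit 1376071661) (nat_lit 76) (nat_lit 12612921885) (nat_lit 28) (nat_lit 5) (nat_lit 31) (nat_lit 5) (nat_lit 29) (nat_lit 5) (nat_lit 521) (nat_lit 365) (nat_lit 254))))) (XT.nd (nat_lit 312) (nat_lit 152) (nat_lit 0) (XT.nd (nat_lit 156) (nat_lit 152) (nat_lit 0) (XT.nd (nat_lit 78) (nat_lit 0) (nat_lit 0) (XT.lf (nat_lit 0) (nat_lit 7357606708) (nat_lit 152) (nat_lit 6908609209) (nat_lit 228) (nat_lit 10225547619) (nat_lit 26) (nat_lit 5) (nat_lit 28) (nat_lit 5) (nat_lit 29) (nat_lit 5) (nat_lit 522) (nat_lit 365) (nat_lit 253)) (XT.lf (nat_lit 0) (nat_lit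 16253632809) (nat_lit 152) (nat_lit 2232535776) (nat_lit 228) (nat_lit 6395346317) (nat_lit 26) (nat_lit 5) (nat_lit 28) (nat_lit 5) (nat_lit 29) (nat_lit 5) (nat_lit 523) (nat_lit 365) (nat_lit 252))) (XT.nd (nat_lit 78) (nat_lit 76) (nat_lit 0) (XT.lf (nat_lit 0) (nat_lit 1429590) (nat_lit 76) (nat_lit 22788255095) (nat_lit 152) (nat_lit 2489397599) (nat_lit 25) (nat_lit 5) (nat_lit 26) (nat_lit 5) (nat_lit 27) (nat_lit 4) (nat_lit 524) (nat_lit 365) (nat_lit 251)) (XT.lf (nat_lit 0) (nat_lit 1530840193) (nat_lit 152) (nat_lit 16818702567) (nat_lit 76) (nat_lit 7333752817) (nat_lit 24) (nat_lit 5) (nat_lit 26) (nat_lit 5) (nat_lit 25) (nat_lit 5) (nat_lit 525) (nat_lit 365) (nat_lit 250)))) (XT.nd (nat_lit 156) (nat_lit 0) (nat_lit 0) (XT.nd (nat_lit 78) (nat_lit 152) (nat_lit 0) (XT.lf (nat_lit 0) (nat_lit 5581226850) (nat_lit 152) (nat_lit 8237125595) (nat_lit 76) (nat_lit 12277254077) (nat_lit 24) (nat_lit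 5) (nat_lit 26) (nat_lit 5) (nat_lit 25) (nat_lit 5) (nat_lit 526) (nat_lit 365) (nat_lit 249)) (XT.lf (nat_lit 0) (nat_lit 493073107) (nat_lit 152) (nat_lit 9206127906) (nat_lit 228) (nat_lit 16817235029) (nat_lit 22) (nat_lit 5) (nat_lit 24) (nat_lit 5) (nat_lit 25) (nat_lit 5) (nat_lit 527) (nat_lit 365) (nat_lit 248))) (XT.nd (nat_lit 78) (nat_lit 0) (nat_lit 0) (XT.lf (nat_lit 0) (nat_lit 9480249563) (nat_lit 152) (nat_lit 4458074752) (nat_lit 228) (nat_lit 13006585916) (nat_lit 22) (nat_lit 5) (nat_lit 24) (nat_lit 5) (nat_lit 25) (nat_lit 5) (nat_lit 528) (nat_lit 365) (nat_lit 247)) (XT.lf (nat_lit 0) (nat_lit 18248485368) (nat_lit 228) (nat_lit 8766237686) (nat_lit 76) (nat_lit 367509542) (nat_lit 22) (nat_lit 5) (nat_lit 25) (nat_lit 5) (nat_lit 23) (nat_lit 4) (nat_lit 529) (nat_lit 365) (nat_lit 246))))))))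
noncomputable def xc68 : XT := (XT.nd (nat_lit 51948) (nat_lit 0) (nat_lit 8436) (XT.nd (nat_lit 50856) (nat_lit 0) (nat_lit 18392) (XT.nd (nat_lit 50310) (nat_lit 0) (nat_lit 25840) (XT.nd (nat_lit 49998) (nat_lit 0) (nat_lit 33516) (XT.nd (nat_lit 49842) (nat_lit 0) (nat_lit 36328) (XT.lf (nat_lit 0) (nat_lit 48884893) (nat_lit 76) (nat_lit 22609880325) (nat_lit 152) (nat_lit 5169261600) (nat_lit 21) (nat_lit 5) (nat_lit 22) (nat_lit 5) (nat_lit 23) (nat_lit 4) (nat_lit 530) (nat_lit 365) (nat_lit 245)) (XT.nd (nat_lit 78) (nat_lit 1292) (nat_lit 0) (XT.lf (nat_lit 0) (nat_lit 1767390939) (nat_lit 1140) (nat_lit 826183614) (nat_lit 1140) (nat_lit 826183614) (nat_lit 516) (nat_lit 4) (nat_lit 531) (nat_lit 5) (nat_lit 531) (nat_lit 4) (nat_lit 408) (nat_lit 366) (nat_lit 366)) (XT.lf (nat_lit 0) (nat_lit 1047326291) (nat_lit 1216) (nat_lit 430439878) (nat_lit 1292) (nat_lit 5391386608) (nat_lit 499) (nat_lit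 5) (nat_lit 515) (nat_lit 5) (nat_lit 516) (nat_lit 4) (nat_lit 409) (nat_lit 366) (nat_lit 365)))) (XT.nd (nat_lit 156) (nat_lit 1444) (nat_lit 0) (XT.nd (nat_lit 78) (nat_lit 1368) (nat_lit 0) (XT.lf (nat_lit 0) (nat_lit 4609449971) (nat_lit 1292) (nat_lit 1443399410) (nat_lit 0) (nat_lit 847168182) (nat_lit 499) (nat_lit 5) (nat_lit 516) (nat_lit 4) (nat_lit 499) (nat_lit 4) (nat_lit 410) (nat_lit 366) (nat_lit 364)) (XT.lf (nat_lit 0) (nat_lit 817541977) (nat_lit 1368) (nat_lit 3936842814) (nat_lit 76) (nat_lit 2177939886) (nat_lit 481) (nat_lit 5) (nat_lit 499) (nat_lit 5) (nat_lit 482) (nat_lit 4) (nat_lit 411) (nat_lit 366) (nat_lit 363))) (XT.nd (nat_lit 78) (nat_lit 76) (nat_lit 0) (XT.lf (nat_lit 0) (nat_lit 510396234) (nat_lit 1368) (nat_lit 3394982886) (nat_lit 1444) (nat_lit 3060702440) (nat_lit 463) (nat_lit 5) (nat_lit 481) (nat_lit 5) (nat_lit 482) (nat_lit 4) (nat_lit 412) (nat_lit 366) (nat_lit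 362)) (XT.lf (nat_lit 0) (nat_lit 15882614) (nat_lit 1444) (nat_lit 1959794081) (nat_lit 76) (nat_lit 5025655461) (nat_lit 462) (nat_lit 5) (nat_lit 481) (nat_lit 5) (nat_lit 463) (nat_lit 5) (nat_lit 413) (nat_lit 366) (nat_lit 361))))) (XT.nd (nat_lit 234) (nat_lit 4636) (nat_lit 0) (XT.nd (nat_lit 78) (nat_lit 1596) (nat_lit 0) (XT.lf (nat_lit 0) (nat_lit 2581538733) (nat_lit 1444) (nat_lit 485085231) (nat_lit 1520) (nat_lit 3971254082) (nat_lit 443) (nat_lit 5) (nat_lit 462) (nat_lit 5) (nat_lit 463) (nat_lit 5) (nat_lit 414) (nat_lit 366) (nat_lit 360)) (XT.nd (nat_lit 78) (nat_lit 76) (nat_lit 0) (XT.lf (nat_lit 0) (nat_lit 100861147) (nat_lit 1520) (nat_lit 6035836905) (nat_lit 1596) (nat_lit 939356184) (nat_lit 423) (nat_lit 5) (nat_lit 443) (nat_lit 5) (nat_lit 444) (nat_lit 4) (nat_lit 415) (nat_lit 366) (nat_lit 359)) (XT.lf (nat_lit 0) (nat_lit 2096328188) (nat_lit 1596) (nat_lit 2381696136) (nat_lit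 76) (nat_lit 2637325460) (nat_lit 422) (nat_lit 5) (nat_lit 443) (nat_lit 5) (nat_lit 423) (nat_lit 5) (nat_lit 416) (nat_lit 366) (nat_lit 358)))) (XT.nd (nat_lit 156) (nat_lit 2964) (nat_lit 0) (XT.nd (nat_lit 78) (nat_lit 76) (nat_lit 0) (XT.lf (nat_lit 0) (nat_lit 2268851003) (nat_lit 1596) (nat_lit 2865327109) (nat_lit 1672) (nat_lit 2022110299) (nat_lit 401) (nat_lit 5) (nat_lit 422) (nat_lit 5) (nat_lit 423) (nat_lit 5) (nat_lit 417) (nat_lit 366) (nat_lit 357)) (XT.lf (nat_lit 0) (nat_lit 976901354) (nat_lit 1672) (nat_lit 218689574) (nat_lit 76) (nat_lit 6003265404) (nat_lit 400) (nat_lit 5) (nat_lit 422) (nat_lit 5) (nat_lit 401) (nat_lit 5) (nat_lit 418) (nat_lit 366) (nat_lit 356))) (XT.nd (nat_lit 78) (nat_lit 1292) (nat_lit 0) (XT.lf (nat_lit 0) (nat_lit 3982682529) (nat_lit 1748) (nat_lit 2714451918) (nat_lit 76) (nat_lit 545454909) (nat_lit 378) (nat_lit 5) (nat_lit 401) (nat_lit 5) (nat_lit 379)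 (nat_lit 5) (nat_lit 419) (nat_lit 366) (nat_lit 355)) (XT.lf (nat_lit 0) (nat_lit 2046072927) (nat_lit 1292) (nat_lit 4966809248) (nat_lit 1368) (nat_lit 275086043) (nat_lit 361) (nat_lit 5) (nat_lit 378) (nat_lit 5) (nat_lit 379) (nat_lit 5) (nat_lit 420) (nat_lit 366) (nat_lit 354)))))) (XT.nd (nat_lit 546) (nat_lit 3876) (nat_lit 0) (XT.nd (nat_lit 234) (nat_lit 1748) (nat_lit 0) (XT.nd (nat_lit 78) (nat_lit 1748) (nat_lit 0) (XT.lf (nat_lit 0) (nat_lit 2693399145) (nat_lit 1368) (nat_lit 472361763) (nat_lit 76) (nat_lit 4168983344) (nat_lit 360) (nat_lit 5) (nat_lit 378) (nat_lit 5) (nat_lit 361) (nat_lit 5) (nat_lit 421) (nat_lit 366) (nat_lit 353)) (XT.nd (nat_lit 78) (nat_lit 912) (nat_lit 0) (XT.lf (nat_lit 0) (nat_lit 4390506105) (nat_lit 836) (nat_lit 1298665759) (nat_lit 912) (nat_lit 1693869483) (nat_lit 349) (nat_lit 5) (nat_lit 360) (nat_lit 5) (nat_lit 361) (nat_lit 5) (nat_lit 422) (nat_lit 366)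 (nat_lit 352)) (XT.lf (nat_lit 0) (nat_lit 1258247164) (nat_lit 912) (nat_lit 5554388169) (nat_lit 76) (nat_lit 620292329) (nat_lit 337) (nat_lit 5) (nat_lit 349) (nat_lit 5) (nat_lit 338) (nat_lit 5) (nat_lit 423) (nat_lit 366) (nat_lit 351)))) (XT.nd (nat_lit 156) (nat_lit 912) (nat_lit 0) (XT.nd (nat_lit 78) (nat_lit 836) (nat_lit 0) (XT.lf (nat_lit 0) (nat_lit 4219692807) (nat_lit 912) (nat_lit 674772975) (nat_lit 76) (nat_lit 2589713459) (nat_lit 337) (nat_lit 5) (nat_lit 349) (nat_lit 5) (nat_lit 338) (nat_lit 5) (nat_lit 424) (nat_lit 366) (nat_lit 350)) (XT.lf (nat_lit 0) (nat_lit 4300987724) (nat_lit 836) (nat_lit 2912531425) (nat_lit 912) (nat_lit 323523492) (nat_lit 326) (nat_lit 5) (nat_lit 337) (nat_lit 5) (nat_lit 338) (nat_lit 5) (nat_lit 425) (nat_lit 366) (nat_lit 349))) (XT.nd (nat_lit 78) (nat_lit 0) (nat_lit 0) (XT.lf (nat_lit 0) (nat_lit 1741728385) (nat_lit 836) (nat_lit 860818677) (nat_lit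 912) (nat_lit 4988888853) (nat_lit 314) (nat_lit 5) (nat_lit 325) (nat_lit 5) (nat_lit 326) (nat_lit 5) (nat_lit 426) (nat_lit 366) (nat_lit 348)) (XT.lf (nat_lit 0) (nat_lit 5558856532) (nat_lit 912) (nat_lit 852793941) (nat_lit 76) (nat_lit 1235749773) (nat_lit 314) (nat_lit 5) (nat_lit 326) (nat_lit 5) (nat_lit 315) (nat_lit 5) (nat_lit 427) (nat_lit 366) (nat_lit 347))))) (XT.nd (nat_lit 234) (nat_lit 2280) (nat_lit 0) (XT.nd (nat_lit 78) (nat_lit 760) (nat_lit 0) (XT.lf (nat_lit 0) (nat_lit 838672788) (nat_lit 836) (nat_lit 3474327255) (nat_lit 76) (nat_lit 3391810556) (nat_lit 303) (nat_lit 5) (nat_lit 314) (nat_lit 5) (nat_lit 304) (nat_lit 5) (nat_lit 428) (nat_lit 366) (nat_lit 346)) (XT.nd (nat_lit 78) (nat_lit 0) (nat_lit 0) (XT.lf (nat_lit 0) (nat_lit 1612850148) (nat_lit 760) (nat_lit 2147391032) (nat_lit 836) (nat_lit 4003620651) (nat_lit 293) (nat_lit 5) (nat_lit 303) (nat_lit 5) (nat_lit 304)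 (nat_lit 5) (nat_lit 429) (nat_lit 366) (nat_lit 345)) (XT.lf (nat_lit 0) (nat_lit 6712239460) (nat_lit 836) (nat_lit 1034138549) (nat_lit 76) (nat_lit 78319483) (nat_lit 293) (nat_lit 5) (nat_lit 304) (nat_lit 5) (nat_lit 294) (nat_lit 5) (nat_lit 430) (nat_lit 366) (nat_lit 344)))) (XT.nd (nat_lit 156) (nat_lit 760) (nat_lit 0) (XT.nd (nat_lit 78) (nat_lit 760) (nat_lit 0) (XT.lf (nat_lit 0) (nat_lit 1802764741) (nat_lit 760) (nat_lit 3731001165) (nat_lit 76) (nat_lit 2352980706) (nat_lit 283) (nat_lit 5) (nat_lit 293) (nat_lit 5) (nat_lit 284) (nat_lit 5) (nat_lit 431) (nat_lit 366) (nat_lit 343)) (XT.lf (nat_lit 0) (nat_lit 1467374972) (nat_lit 760) (nat_lit 3259946341) (nat_lit 836) (nat_lit 3223290704) (nat_lit 273) (nat_lit 5) (nat_lit 283) (nat_lit 5) (nat_lit 284) (nat_lit 5) (nat_lit 432) (nat_lit 366) (nat_lit 342))) (XT.nd (nat_lit 78) (nat_lit 760) (nat_lit 0) (XT.lf (nat_lit 0) (nat_lit 6762671031)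 (nat_lit 760) (nat_lit 922751516) (nat_lit 836) (nat_lit 330871181) (nat_lit 273) (nat_lit 5) (nat_lit 283) (nat_lit 5) (nat_lit 284) (nat_lit 5) (nat_lit 433) (nat_lit 366) (nat_lit 341)) (XT.lf (nat_lit 0) (nat_lit 2571757428) (nat_lit 760) (nat_lit 4033538173) (nat_lit 76) (nat_lit 1477957560) (nat_lit 263) (nat_lit 5) (nat_lit 273) (nat_lit 5) (nat_lit 264) (nat_lit 5) (nat_lit 434) (nat_lit 366) (nat_lit 340))))))) (XT.nd (nat_lit 1092) (nat_lit 4332) (nat_lit 0) (XT.nd (nat_lit 546) (nat_lit 2356) (nat_lit 0) (XT.nd (nat_lit 234) (nat_lit 1900) (nat_lit 0) (XT.nd (nat_lit 78) (nat_lit 684) (nat_lit 0) (XT.lf (nat_lit 0) (nat_lit 1275325672) (nat_lit 684) (nat_lit 4226726313) (nat_lit 760) (nat_lit 2650012942) (nat_lit 254) (nat_lit 5) (nat_lit 263) (nat_lit 5) (nat_lit 264) (nat_lit 5) (nat_lit 435) (nat_lit 366) (nat_lit 339)) (XT.nd (nat_lit 78) (nat_lit 608) (nat_lit 0) (XT.lf (nat_lit 0) (nat_lit 243830754)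 (nat_lit 760) (nat_lit 1536666599) (nat_lit 76) (nat_lit 6442183872) (nat_lit 253) (nat_lit 5) (nat_lit 263) (nat_lit 5) (nat_lit 254) (nat_lit 5) (nat_lit 436) (nat_lit 366) (nat_lit 338)) (XT.lf (nat_lit 0) (nat_lit 3142560487) (nat_lit 684) (nat_lit 4413007968) (nat_lit 76) (nat_lit 739176787) (nat_lit 245) (nat_lit 5) (nat_lit 254) (nat_lit 5) (nat_lit 246) (nat_lit 5) (nat_lit 437) (nat_lit 366) (nat_lit 337)))) (XT.nd (nat_lit 156) (nat_lit 1216) (nat_lit 0) (XT.nd (nat_lit 78) (nat_lit 76) (nat_lit 0) (XT.lf (nat_lit 0) (nat_lit 1005142720) (nat_lit 608) (nat_lit 5075686545) (nat_lit 684) (nat_lit 2287824869) (nat_lit 237) (nat_lit 5) (nat_lit 245) (nat_lit 5) (nat_lit 246) (nat_lit 5) (nat_lit 438) (nat_lit 366) (nat_lit 336)) (XT.lf (nat_lit 0) (nat_lit 608397378) (nat_lit 684) (nat_lit 1914038394) (nat_lit 76) (nat_lit 5921898899) (nat_lit 236) (nat_lit 5) (nat_lit 245) (nat_lit 5) (nat_lit 237) (nat_lit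 5) (nat_lit 439) (nat_lit 366) (nat_lit 335))) (XT.nd (nat_lit 78) (nat_lit 608) (nat_lit 0) (XT.lf (nat_lit 0) (nat_lit 3510159852) (nat_lit 684) (nat_lit 4902297329) (nat_lit 76) (nat_lit 109237067) (nat_lit 228) (nat_lit 5) (nat_lit 237) (nat_lit 5) (nat_lit 229) (nat_lit 5) (nat_lit 440) (nat_lit 366) (nat_lit 334)) (XT.lf (nat_lit 0) (nat_lit 623367114) (nat_lit 608) (nat_lit 5834736854) (nat_lit 684) (nat_lit 2142766346) (nat_lit 220) (nat_lit 5) (nat_lit 228) (nat_lit 5) (nat_lit 229) (nat_lit 5) (nat_lit 441) (nat_lit 366) (nat_lit 333))))) (XT.nd (nat_lit 234) (nat_lit 1216) (nat_lit 0) (XT.nd (nat_lit 78) (nat_lit 1064) (nat_lit 0) (XT.lf (nat_lit 0) (nat_lit 760877886) (nat_lit 684) (nat_lit 2417657603) (nat_lit 76) (nat_lit 5503268166) (nat_lit 219) (nat_lit 5) (nat_lit 228) (nat_lit 5) (nat_lit 220) (nat_lit 5) (nat_lit 442) (nat_lit 366) (nat_lit 332)) (XT.nd (nat_lit 78) (nat_lit 532) (nat_lit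 0) (XT.lf (nat_lit 0) (nat_lit 3225240726) (nat_lit 532) (nat_lit 445178973) (nat_lit 608) (nat_lit 5094152733) (nat_lit 212) (nat_lit 5) (nat_lit 219) (nat_lit 5) (nat_lit 220) (nat_lit 5) (nat_lit 443) (nat_lit 366) (nat_lit 331)) (XT.lf (nat_lit 0) (nat_lit 94300638) (nat_lit 532) (nat_lit 6531986811) (nat_lit 608) (nat_lit 2222976206) (nat_lit 205) (nat_lit 5) (nat_lit 212) (nat_lit 5) (nat_lit 213) (nat_lit 5) (nat_lit 444) (nat_lit 366) (nat_lit 330)))) (XT.nd (nat_lit 156) (nat_lit 608) (nat_lit 0) (XT.nd (nat_lit 78) (nat_lit 532) (nat_lit 0) (XT.lf (nat_lit 0) (nat_lit 692896308) (nat_lit 608) (nat_lit 3083940675) (nat_lit 76) (nat_lit 5158818172) (nat_lit 204) (nat_lit 5) (nat_lit 212) (nat_lit 5) (nat_lit 205) (nat_lit 5) (nat_lit 445) (nat_lit 366) (nat_lit 329)) (XT.lf (nat_lit 0) (nat_lit 2664895326) (nat_lit 532) (nat_lit 946775615) (nat_lit 608) (nat_lit 5412350717) (nat_lit 197) (nat_lit 5) (nat_lit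 204) (nat_lit 5) (nat_lit 205) (nat_lit 5) (nat_lit 446) (nat_lit 366) (nat_lit 328))) (XT.nd (nat_lit 78) (nat_lit 608) (nat_lit 0) (XT.lf (nat_lit 0) (nat_lit 6579666633) (nat_lit 608) (nat_lit 612223566) (nat_lit 76) (nat_lit 1922475887) (nat_lit 197) (nat_lit 5) (nat_lit 205) (nat_lit 5) (nat_lit 198) (nat_lit 5) (nat_lit 447) (nat_lit 366) (nat_lit 327)) (XT.lf (nat_lit 0) (nat_lit 393873032) (nat_lit 608) (nat_lit 3952025389) (nat_lit 76) (nat_lit 4860620993) (nat_lit 189) (nat_lit 5) (nat_lit 197) (nat_lit 5) (nat_lit 190) (nat_lit 5) (nat_lit 448) (nat_lit 366) (nat_lit 326)))))) (XT.nd (nat_lit 546) (nat_lit 2280) (nat_lit 0) (XT.nd (nat_lit 234) (nat_lit 1064) (nat_lit 0) (XT.nd (nat_lit 78) (nat_lit 532) (nat_lit 0) (XT.lf (nat_lit 0) (nat_lit 1899131280) (nat_lit 456) (nat_lit 1422860598) (nat_lit 532) (nat_lit 5978716474) (nat_lit 183) (nat_lit 5) (nat_lit 189) (nat_lit 5) (nat_lit 190) (nat_lit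 5) (nat_lit 449) (nat_lit 366) (nat_lit 325)) (XT.nd (nat_lit 78) (nat_lit 532) (nat_lit 0) (XT.lf (nat_lit 0) (nat_lit 6304273501) (nat_lit 532) (nat_lit 1541431685) (nat_lit 76) (nat_lit 1551189285) (nat_lit 183) (nat_lit 5) (nat_lit 190) (nat_lit 5) (nat_lit 184) (nat_lit 5) (nat_lit 450) (nat_lit 366) (nat_lit 324)) (XT.lf (nat_lit 0) (nat_lit 4429918846) (nat_lit 532) (nat_lit 4914059824) (nat_lit 608) (nat_lit 151094997) (nat_lit 176) (nat_lit 5) (nat_lit 183) (nat_lit 5) (nat_lit 184) (nat_lit 5) (nat_lit 451) (nat_lit 366) (nat_lit 323)))) (XT.nd (nat_lit 156) (nat_lit 532) (nat_lit 0) (XT.nd (nat_lit 78) (nat_lit 0) (nat_lit 0) (XT.lf (nat_lit 0) (nat_lit 884743849) (nat_lit 456) (nat_lit 1903049620) (nat_lit 532) (nat_lit 6807558928) (nat_lit 169) (nat_lit 5) (nat_lit 175) (nat_lit 5) (nat_lit 176) (nat_lit 5) (nat_lit 452) (nat_lit 366) (nat_lit 322)) (XT.lf (nat_lit 0) (nat_lit 5785321898) (nat_lit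 532) (nat_lit 2738703986) (nat_lit 76) (nat_lit 1173576610) (nat_lit 169) (nat_lit 5) (nat_lit 176) (nat_lit 5) (nat_lit 170) (nat_lit 5) (nat_lit 453) (nat_lit 366) (nat_lit 321))) (XT.nd (nat_lit 78) (nat_lit 76) (nat_lit 0) (XT.lf (nat_lit 0) (nat_lit 3329549653) (nat_lit 456) (nat_lit 5508338439) (nat_lit 532) (nat_lit 964130774) (nat_lit 163) (nat_lit 5) (nat_lit 169) (nat_lit 5) (nat_lit 170) (nat_lit 5) (nat_lit 454) (nat_lit 366) (nat_lit 320)) (XT.lf (nat_lit 0) (nat_lit 1995693768) (nat_lit 532) (nat_lit 419587624) (nat_lit 76) (nat_lit 7493408891) (nat_lit 162) (nat_lit 5) (nat_lit 169) (nat_lit 5) (nat_lit 163) (nat_lit 5) (nat_lit 455) (nat_lit 366) (nat_lit 319))))) (XT.nd (nat_lit 234) (nat_lit 1292) (nat_lit 0) (XT.nd (nat_lit 78) (nat_lit 532) (nat_lit 0) (XT.lf (nat_lit 0) (nat_lit 5006047730) (nat_lit 532) (nat_lit 4252025523) (nat_lit 76) (nat_lit 759231253) (nat_lit 156) (nat_lit 5) (nat_lit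 163) (nat_lit 5) (nat_lit 157) (nat_lit 5) (nat_lit 456) (nat_lit 366) (nat_lit 318)) (XT.nd (nat_lit 78) (nat_lit 76) (nat_lit 0) (XT.lf (nat_lit 0) (nat_lit 1906889637) (nat_lit 456) (nat_lit 6163007968) (nat_lit 532) (nat_lit 2058348894) (nat_lit 150) (nat_lit 5) (nat_lit 156) (nat_lit 5) (nat_lit 157) (nat_lit 5) (nat_lit 457) (nat_lit 366) (nat_lit 317)) (XT.lf (nat_lit 0) (nat_lit 932039835) (nat_lit 532) (nat_lit 2054368277) (nat_lit 76) (nat_lit 7255077235) (nat_lit 149) (nat_lit 5) (nat_lit 156) (nat_lit 5) (nat_lit 150) (nat_lit 5) (nat_lit 458) (nat_lit 366) (nat_lit 316)))) (XT.nd (nat_lit 156) (nat_lit 456) (nat_lit 0) (XT.nd (nat_lit 78) (nat_lit 456) (nat_lit 0) (XT.lf (nat_lit 0) (nat_lit 3946898331) (nat_lit 456) (nat_lit 6133723003) (nat_lit 76) (nat_lit 276271098) (nat_lit 144) (nat_lit 5) (nat_lit 150) (nat_lit 5) (nat_lit 145) (nat_lit 5) (nat_lit 459) (nat_lit 366) (nat_lit 315)) (XT.lf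 (nat_lit 0) (nat_lit 108303668) (nat_lit 456) (nat_lit 6911341038) (nat_lit 532) (nat_lit 3455030779) (nat_lit 138) (nat_lit 5) (nat_lit 144) (nat_lit 5) (nat_lit 145) (nat_lit 5) (nat_lit 460) (nat_lit 366) (nat_lit 314))) (XT.nd (nat_lit 78) (nat_lit 456) (nat_lit 0) (XT.lf (nat_lit 0) (nat_lit 6505642556) (nat_lit 456) (nat_lit 3652975710) (nat_lit 532) (nat_lit 436119749) (nat_lit 138) (nat_lit 5) (nat_lit 144) (nat_lit 5) (nat_lit 145) (nat_lit 5) (nat_lit 461) (nat_lit 366) (nat_lit 313)) (XT.lf (nat_lit 0) (nat_lit 2274256754) (nat_lit 380) (nat_lit 313083437) (nat_lit 456) (nat_lit 8129960163) (nat_lit 132) (nat_lit 5) (nat_lit 137) (nat_lit 5) (nat_lit 138) (nat_lit 5) (nat_lit 462) (nat_lit 366) (nat_lit 312))))))))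
noncomputable def xc69 : XT := (XT.nd (nat_lit 2184) (nat_lit 2660) (nat_lit 0) (XT.nd (nat_lit 1092) (nat_lit 2128) (nat_lit 0) (XT.nd (nat_lit 546) (nat_lit 1368) (nat_lit 0) (XT.nd (nat_lit 234) (nat_lit 1064) (nat_lit 0) (XT.nd (nat_lit 78) (nat_lit 456) (nat_lit 0) (XT.lf (nat_lit 0) (nat_lit 5677475794) (nat_lit 456) (nat_lit 2097032786) (nat_lit 76) (nat_lit 3067524932) (nat_lit 132) (nat_lit 5) (nat_lit 138) (nat_lit 5) (nat_lit 133) (nat_lit 5) (nat_lit 463) (nat_lit 366) (nat_lit 311)) (XT.nd (nat_lit 78) (nat_lit 76) (nat_lit 0) (XT.lf (nat_lit 0) (nat_lit 4379878780) (nat_lit 380) (nat_lit 4445078351) (nat_lit 456) (nat_lit 2144411132) (nat_lit 127) (nat_lit 5) (nat_lit 132) (nat_lit 5) (nat_lit 133) (nat_lit 5) (nat_lit 464) (nat_lit 366) (nat_lit 310)) (XT.lf (nat_lit 0) (nat_lit 903166433) (nat_lit 456) (nat_lit 141916328) (nat_lit 76) (nat_lit 10054476376) (nat_lit 126) (nat_lit 5) (nat_lit 132)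 (nat_lit 5) (nat_lit 127) (nat_lit 5) (nat_lit 465) (nat_lit 366) (nat_lit 309)))) (XT.nd (nat_lit 156) (nat_lit 380) (nat_lit 0) (XT.nd (nat_lit 78) (nat_lit 380) (nat_lit 0) (XT.lf (nat_lit 0) (nat_lit 4006736295) (nat_lit 380) (nat_lit 4793390067) (nat_lit 76) (nat_lit 2431485652) (nat_lit 122) (nat_lit 5) (nat_lit 127) (nat_lit 5) (nat_lit 123) (nat_lit 5) (nat_lit 466) (nat_lit 366) (nat_lit 308)) (XT.lf (nat_lit 0) (nat_lit 1750859923) (nat_lit 380) (nat_lit 5406826967) (nat_lit 456) (nat_lit 4208929308) (nat_lit 117) (nat_lit 5) (nat_lit 122) (nat_lit 5) (nat_lit 123) (nat_lit 5) (nat_lit 467) (nat_lit 366) (nat_lit 307))) (XT.nd (nat_lit 78) (nat_lit 380) (nat_lit 0) (XT.lf (nat_lit 0) (nat_lit 8440529292) (nat_lit 380) (nat_lit 1929693207) (nat_lit 456) (nat_lit 1134142763) (nat_lit 117) (nat_lit 5) (nat_lit 122) (nat_lit 5) (nat_lit 123) (nat_lit 5) (nat_lit 468) (nat_lit 366) (nat_lit 306)) (XT.lf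 (nat_lit 0) (nat_lit 1976733066) (nat_lit 380) (nat_lit 8051976164) (nat_lit 76) (nat_lit 1615898542) (nat_lit 112) (nat_lit 5) (nat_lit 117) (nat_lit 5) (nat_lit 113) (nat_lit 5) (nat_lit 469) (nat_lit 366) (nat_lit 305))))) (XT.nd (nat_lit 234) (nat_lit 684) (nat_lit 0) (XT.nd (nat_lit 78) (nat_lit 684) (nat_lit 0) (XT.lf (nat_lit 0) (nat_lit 5135174820) (nat_lit 380) (nat_lit 1434054486) (nat_lit 76) (nat_lit 5218280387) (nat_lit 112) (nat_lit 5) (nat_lit 117) (nat_lit 5) (nat_lit 113) (nat_lit 5) (nat_lit 470) (nat_lit 366) (nat_lit 304)) (XT.nd (nat_lit 78) (nat_lit 304) (nat_lit 0) (XT.lf (nat_lit 0) (nat_lit 5337061627) (nat_lit 380) (nat_lit 3022066553) (nat_lit 456) (nat_lit 3574109502) (nat_lit 107) (nat_lit 5) (nat_lit 112) (nat_lit 5) (nat_lit 113) (nat_lit 5) (nat_lit 471) (nat_lit 366) (nat_lit 303)) (XT.lf (nat_lit 0) (nat_lit 129737014) (nat_lit 304) (nat_lit 11500120896) (nat_lit 380) (nat_lit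 452390973) (nat_lit 103) (nat_lit 5) (nat_lit 107) (nat_lit 5) (nat_lit 108) (nat_lit 5) (nat_lit 472) (nat_lit 366) (nat_lit 302)))) (XT.nd (nat_lit 156) (nat_lit 304) (nat_lit 0) (XT.nd (nat_lit 78) (nat_lit 304) (nat_lit 0) (XT.lf (nat_lit 0) (nat_lit 2728489381) (nat_lit 380) (nat_lit 5241313810) (nat_lit 76) (nat_lit 4263445315) (nat_lit 102) (nat_lit 5) (nat_lit 107) (nat_lit 5) (nat_lit 103) (nat_lit 5) (nat_lit 473) (nat_lit 366) (nat_lit 301)) (XT.lf (nat_lit 0) (nat_lit 1573219024) (nat_lit 304) (nat_lit 4372542972) (nat_lit 380) (nat_lit 6441883432) (nat_lit 98) (nat_lit 5) (nat_lit 102) (nat_lit 5) (nat_lit 103) (nat_lit 5) (nat_lit 474) (nat_lit 366) (nat_lit 300))) (XT.nd (nat_lit 78) (nat_lit 304) (nat_lit 0) (XT.lf (nat_lit 0) (nat_lit 8546882886) (nat_lit 304) (nat_lit 684583733) (nat_lit 380) (nat_lit 3313595421) (nat_lit 98) (nat_lit 5) (nat_lit 102) (nat_lit 5) (nat_lit 103) (nat_lit 5) (nat_lit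 475) (nat_lit 366) (nat_lit 299)) (XT.lf (nat_lit 0) (nat_lit 2925000615) (nat_lit 304) (nat_lit 9666269677) (nat_lit 380) (nat_lit 114202214) (nat_lit 94) (nat_lit 5) (nat_lit 98) (nat_lit 5) (nat_lit 99) (nat_lit 5) (nat_lit 476) (nat_lit 366) (nat_lit 298)))))) (XT.nd (nat_lit 546) (nat_lit 1140) (nat_lit 0) (XT.nd (nat_lit 234) (nat_lit 608) (nat_lit 0) (XT.nd (nat_lit 78) (nat_lit 304) (nat_lit 0) (XT.lf (nat_lit 0) (nat_lit 3108911305) (nat_lit 380) (nat_lit 2900751483) (nat_lit 76) (nat_lit 6859011477) (nat_lit 93) (nat_lit 5) (nat_lit 98) (nat_lit 5) (nat_lit 94) (nat_lit 5) (nat_lit 477) (nat_lit 366) (nat_lit 297)) (XT.nd (nat_lit 78) (nat_lit 0) (nat_lit 0) (XT.lf (nat_lit 0) (nat_lit 4122939585) (nat_lit 304) (nat_lit 2268880060) (nat_lit 380) (nat_lit 6643380540) (nat_lit 89) (nat_lit 5) (nat_lit 93) (nat_lit 5) (nat_lit 94) (nat_lit 5) (nat_lit 478) (nat_lit 366) (nat_lit 296)) (XT.lf (nat_lit 0)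 (nat_lit 9740287644) (nat_lit 380) (nat_lit 1935539629) (nat_lit 76) (nat_lit 1529243534) (nat_lit 89) (nat_lit 5) (nat_lit 94) (nat_lit 5) (nat_lit 90) (nat_lit 5) (nat_lit 479) (nat_lit 366) (nat_lit 295)))) (XT.nd (nat_lit 156) (nat_lit 304) (nat_lit 0) (XT.nd (nat_lit 78) (nat_lit 76) (nat_lit 0) (XT.lf (nat_lit 0) (nat_lit 5187523402) (nat_lit 228) (nat_lit 7987755875) (nat_lit 304) (nat_lit 202680453) (nat_lit 86) (nat_lit 5) (nat_lit 89) (nat_lit 5) (nat_lit 90) (nat_lit 5) (nat_lit 480) (nat_lit 366) (nat_lit 294)) (XT.lf (nat_lit 0) (nat_lit 3067676796) (nat_lit 304) (nat_lit 1141431622) (nat_lit 76) (nat_lit 9345123913) (nat_lit 85) (nat_lit 5) (nat_lit 89) (nat_lit 5) (nat_lit 86) (nat_lit 5) (nat_lit 481) (nat_lit 366) (nat_lit 293))) (XT.nd (nat_lit 78) (nat_lit 0) (nat_lit 0) (XT.lf (nat_lit 0) (nat_lit 6081583759) (nat_lit 304) (nat_lit 330120491) (nat_lit 380) (nat_lit 7322091082) (nat_lit 81)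 (nat_lit 5) (nat_lit 85) (nat_lit 5) (nat_lit 86) (nat_lit 5) (nat_lit 482) (nat_lit 366) (nat_lit 292)) (XT.lf (nat_lit 0) (nat_lit 9825513553) (nat_lit 380) (nat_lit 521416792) (nat_lit 76) (nat_lit 3569972285) (nat_lit 81) (nat_lit 5) (nat_lit 86) (nat_lit 5) (nat_lit 82) (nat_lit 5) (nat_lit 483) (nat_lit 366) (nat_lit 291))))) (XT.nd (nat_lit 234) (nat_lit 532) (nat_lit 0) (XT.nd (nat_lit 78) (nat_lit 380) (nat_lit 0) (XT.lf (nat_lit 0) (nat_lit 6794252543) (nat_lit 228) (nat_lit 6531847153) (nat_lit 304) (nat_lit 777213210) (nat_lit 78) (nat_lit 5) (nat_lit 81) (nat_lit 5) (nat_lit 82) (nat_lit 5) (nat_lit 484) (nat_lit 366) (nat_lit 290)) (XT.nd (nat_lit 78) (nat_lit 304) (nat_lit 0) (XT.lf (nat_lit 0) (nat_lit 2544892024) (nat_lit 304) (nat_lit 91751493) (nat_lit 76) (nat_lit 11656964496) (nat_lit 77) (nat_lit 5) (nat_lit 81) (nat_lit 5) (nat_lit 78) (nat_lit 5) (nat_lit 485) (nat_lit 366) (nat_lit 289))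 (XT.lf (nat_lit 0) (nat_lit 5952275189) (nat_lit 380) (nat_lit 7179280088) (nat_lit 76) (nat_lit 1355476363) (nat_lit 73) (nat_lit 5) (nat_lit 78) (nat_lit 5) (nat_lit 74) (nat_lit 5) (nat_lit 486) (nat_lit 366) (nat_lit 288)))) (XT.nd (nat_lit 156) (nat_lit 304) (nat_lit 0) (XT.nd (nat_lit 78) (nat_lit 0) (nat_lit 0) (XT.lf (nat_lit 0) (nat_lit 112159796) (nat_lit 228) (nat_lit 9307407111) (nat_lit 304) (nat_lit 5264931632) (nat_lit 70) (nat_lit 5) (nat_lit 73) (nat_lit 5) (nat_lit 74) (nat_lit 5) (nat_lit 487) (nat_lit 366) (nat_lit 287)) (XT.lf (nat_lit 0) (nat_lit 7603012275) (nat_lit 228) (nat_lit 5374567027) (nat_lit 304) (nat_lit 1907917801) (nat_lit 70) (nat_lit 5) (nat_lit 73) (nat_lit 5) (nat_lit 74) (nat_lit 5) (nat_lit 488) (nat_lit 366) (nat_lit 286))) (XT.nd (nat_lit 78) (nat_lit 0) (nat_lit 0) (XT.lf (nat_lit 0) (nat_lit 101415032) (nat_lit 228) (nat_lit 1369134118) (nat_lit 304) (nat_lit 13620295069)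 (nat_lit 66) (nat_lit 5) (nat_lit 69) (nat_lit 5) (nat_lit 70) (nat_lit 5) (nat_lit 489) (nat_lit 366) (nat_lit 285)) (XT.lf (nat_lit 0) (nat_lit 4931563378) (nat_lit 304) (nat_lit 7641584939) (nat_lit 76) (nat_lit 2726096491) (nat_lit 66) (nat_lit 5) (nat_lit 70) (nat_lit 5) (nat_lit 67) (nat_lit 5) (nat_lit 490) (nat_lit 366) (nat_lit 284))))))) (XT.nd (nat_lit 1092) (nat_lit 1140) (nat_lit 0) (XT.nd (nat_lit 546) (nat_lit 760) (nat_lit 0) (XT.nd (nat_lit 234) (nat_lit 532) (nat_lit 0) (XT.nd (nat_lit 78) (nat_lit 228) (nat_lit 0) (XT.lf (nat_lit 0) (nat_lit 8445052661) (nat_lit 304) (nat_lit 198377744) (nat_lit 76) (nat_lit 6868726982) (nat_lit 66) (nat_lit 5) (nat_lit 70) (nat_lit 5) (nat_lit 67) (nat_lit 5) (nat_lit 491) (nat_lit 366) (nat_lit 283)) (XT.nd (nat_lit 78) (nat_lit 0) (nat_lit 0) (XT.lf (nat_lit 0) (nat_lit 7449704845) (nat_lit 228) (nat_lit 4602169092) (nat_lit 304) (nat_lit 3677001933) (nat_lit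 63) (nat_lit 5) (nat_lit 66) (nat_lit 5) (nat_lit 67) (nat_lit 5) (nat_lit 492) (nat_lit 366) (nat_lit 282)) (XT.lf (nat_lit 0) (nat_lit 15212019480) (nat_lit 228) (nat_lit 495064444) (nat_lit 304) (nat_lit 243328476) (nat_lit 63) (nat_lit 5) (nat_lit 66) (nat_lit 5) (nat_lit 67) (nat_lit 5) (nat_lit 493) (nat_lit 366) (nat_lit 281)))) (XT.nd (nat_lit 156) (nat_lit 228) (nat_lit 0) (XT.nd (nat_lit 78) (nat_lit 0) (nat_lit 0) (XT.lf (nat_lit 0) (nat_lit 3261173907) (nat_lit 304) (nat_lit 9217197520) (nat_lit 76) (nat_lit 3696695461) (nat_lit 59) (nat_lit 5) (nat_lit 63) (nat_lit 5) (nat_lit 60) (nat_lit 5) (nat_lit 494) (nat_lit 366) (nat_lit 280)) (XT.lf (nat_lit 0) (nat_lit 6816135748) (nat_lit 304) (nat_lit 1632040953) (nat_lit 76) (nat_lit 7956341264) (nat_lit 59) (nat_lit 5) (nat_lit 63) (nat_lit 5) (nat_lit 60) (nat_lit 5) (nat_lit 495) (nat_lit 366) (nat_lit 279))) (XT.nd (nat_lit 78) (nat_lit 0) (nat_lit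 0) (XT.lf (nat_lit 0) (nat_lit 6145149995) (nat_lit 228) (nat_lit 4312786534) (nat_lit 304) (nat_lit 6180314798) (nat_lit 56) (nat_lit 5) (nat_lit 59) (nat_lit 5) (nat_lit 60) (nat_lit 5) (nat_lit 496) (nat_lit 366) (nat_lit 278)) (XT.lf (nat_lit 0) (nat_lit 14060008902) (nat_lit 228) (nat_lit 99571592) (nat_lit 304) (nat_lit 2717346618) (nat_lit 56) (nat_lit 5) (nat_lit 59) (nat_lit 5) (nat_lit 60) (nat_lit 5) (nat_lit 497) (nat_lit 366) (nat_lit 277))))) (XT.nd (nat_lit 234) (nat_lit 304) (nat_lit 0) (XT.nd (nat_lit 78) (nat_lit 152) (nat_lit 0) (XT.lf (nat_lit 0) (nat_lit 840643155) (nat_lit 304) (nat_lit 12113517781) (nat_lit 76) (nat_lit 4165388266) (nat_lit 52) (nat_lit 5) (nat_lit 56) (nat_lit 5) (nat_lit 53) (nat_lit 5) (nat_lit 498) (nat_lit 366) (nat_lit 276)) (XT.nd (nat_lit 78) (nat_lit 152) (nat_lit 0) (XT.lf (nat_lit 0) (nat_lit 4429596387) (nat_lit 304) (nat_lit 4401450934) (nat_lit 76) (nat_lit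 8535700843) (nat_lit 52) (nat_lit 5) (nat_lit 56) (nat_lit 5) (nat_lit 53) (nat_lit 5) (nat_lit 499) (nat_lit 366) (nat_lit 275)) (XT.lf (nat_lit 0) (nat_lit 3471515123) (nat_lit 152) (nat_lit 4618281681) (nat_lit 228) (nat_lit 9529112238) (nat_lit 50) (nat_lit 5) (nat_lit 52) (nat_lit 5) (nat_lit 53) (nat_lit 5) (nat_lit 500) (nat_lit 366) (nat_lit 274)))) (XT.nd (nat_lit 156) (nat_lit 76) (nat_lit 0) (XT.nd (nat_lit 78) (nat_lit 228) (nat_lit 0) (XT.lf (nat_lit 0) (nat_lit 11522987393) (nat_lit 152) (nat_lit 306880290) (nat_lit 228) (nat_lit 6046119280) (nat_lit 50) (nat_lit 5) (nat_lit 52) (nat_lit 5) (nat_lit 53) (nat_lit 5) (nat_lit 501) (nat_lit 366) (nat_lit 273)) (XT.lf (nat_lit 0) (nat_lit 1552875076) (nat_lit 228) (nat_lit 14105985648) (nat_lit 304) (nat_lit 2479070319) (nat_lit 47) (nat_lit 5) (nat_lit 50) (nat_lit 5) (nat_lit 51) (nat_lit 5) (nat_lit 502) (nat_lit 366) (nat_lit 272))) (XT.nd (nat_lit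 78) (nat_lit 0) (nat_lit 0) (XT.lf (nat_lit 0) (nat_lit 1166580624) (nat_lit 304) (nat_lit 8749387353) (nat_lit 76) (nat_lit 8488552914) (nat_lit 46) (nat_lit 5) (nat_lit 50) (nat_lit 5) (nat_lit 47) (nat_lit 5) (nat_lit 503) (nat_lit 366) (nat_lit 271)) (XT.lf (nat_lit 0) (nat_lit 4829940735) (nat_lit 304) (nat_lit 810940758) (nat_lit 76) (nat_lit 13035680103) (nat_lit 46) (nat_lit 5) (nat_lit 50) (nat_lit 5) (nat_lit 47) (nat_lit 5) (nat_lit 504) (nat_lit 366) (nat_lit 270)))))) (XT.nd (nat_lit 546) (nat_lit 532) (nat_lit 0) (XT.nd (nat_lit 234) (nat_lit 228) (nat_lit 0) (XT.nd (nat_lit 78) (nat_lit 228) (nat_lit 0) (XT.lf (nat_lit 0) (nat_lit 7345834644) (nat_lit 152) (nat_lit 1246819464) (nat_lit 228) (nat_lit 10360873765) (nat_lit 44) (nat_lit 5) (nat_lit 46) (nat_lit 5) (nat_lit 47) (nat_lit 5) (nat_lit 505) (nat_lit 366) (nat_lit 269)) (XT.nd (nat_lit 78) (nat_lit 228) (nat_lit 0) (XT.lf (nat_lit 0) (nat_lit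 12435584510) (nat_lit 228) (nat_lit 3617103882) (nat_lit 76) (nat_lit 3183252183) (nat_lit 44) (nat_lit 5) (nat_lit 47) (nat_lit 5) (nat_lit 45) (nat_lit 5) (nat_lit 506) (nat_lit 366) (nat_lit 268)) (XT.lf (nat_lit 0) (nat_lit 4548541477) (nat_lit 228) (nat_lit 11823523541) (nat_lit 304) (nat_lit 3151608912) (nat_lit 41) (nat_lit 5) (nat_lit 44) (nat_lit 5) (nat_lit 45) (nat_lit 5) (nat_lit 507) (nat_lit 366) (nat_lit 267)))) (XT.nd (nat_lit 156) (nat_lit 0) (nat_lit 0) (XT.nd (nat_lit 78) (nat_lit 152) (nat_lit 0) (XT.lf (nat_lit 0) (nat_lit 566007672) (nat_lit 304) (nat_lit 6930209924) (nat_lit 76) (nat_lit 12320808880) (nat_lit 40) (nat_lit 5) (nat_lit 44) (nat_lit 5) (nat_lit 41) (nat_lit 5) (nat_lit 508) (nat_lit 366) (nat_lit 266)) (XT.lf (nat_lit 0) (nat_lit 1235450804) (nat_lit 152) (nat_lit 3067737738) (nat_lit 228) (nat_lit 15812898517) (nat_lit 38) (nat_lit 5) (nat_lit 40) (nat_lit 5) (nat_lit 41)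 (nat_lit 5) (nat_lit 509) (nat_lit 366) (nat_lit 265))) (XT.nd (nat_lit 78) (nat_lit 0) (nat_lit 0) (XT.lf (nat_lit 0) (nat_lit 8150767409) (nat_lit 228) (nat_lit 10807128601) (nat_lit 76) (nat_lit 1462525512) (nat_lit 38) (nat_lit 5) (nat_lit 41) (nat_lit 5) (nat_lit 39) (nat_lit 5) (nat_lit 510) (nat_lit 366) (nat_lit 264)) (XT.lf (nat_lit 0) (nat_lit 12075448452) (nat_lit 228) (nat_lit 2627346882) (nat_lit 76) (nat_lit 6028049967) (nat_lit 38) (nat_lit 5) (nat_lit 41) (nat_lit 5) (nat_lit 39) (nat_lit 5) (nat_lit 511) (nat_lit 366) (nat_lit 263))))) (XT.nd (nat_lit 234) (nat_lit 152) (nat_lit 0) (XT.nd (nat_lit 78) (nat_lit 228) (nat_lit 0) (XT.lf (nat_lit 0) (nat_lit 5757343034) (nat_lit 152) (nat_lit 10338890432) (nat_lit 228) (nat_lit 4950897417) (nat_lit 36) (nat_lit 5) (nat_lit 38) (nat_lit 5) (nat_lit 39) (nat_lit 5) (nat_lit 512) (nat_lit 366) (nat_lit 262)) (XT.nd (nat_lit 78) (nat_lit 228) (nat_lit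 0) (XT.lf (nat_lit 0) (nat_lit 14311370076) (nat_lit 152) (nat_lit 5884091930) (nat_lit 228) (nat_lit 1174325034) (nat_lit 36) (nat_lit 5) (nat_lit 38) (nat_lit 5) (nat_lit 39) (nat_lit 5) (nat_lit 513) (nat_lit 366) (nat_lit 261)) (XT.lf (nat_lit 0) (nat_lit 1303726698) (nat_lit 152) (nat_lit 1328046002) (nat_lit 228) (nat_lit 19066998847) (nat_lit 33) (nat_lit 5) (nat_lit 35) (nat_lit 5) (nat_lit 36) (nat_lit 5) (nat_lit 514) (nat_lit 366) (nat_lit 260)))) (XT.nd (nat_lit 156) (nat_lit 152) (nat_lit 0) (XT.nd (nat_lit 78) (nat_lit 0) (nat_lit 0) (XT.lf (nat_lit 0) (nat_lit 6548231985) (nat_lit 228) (nat_lit 12167880541) (nat_lit 76) (nat_lit 3317073805) (nat_lit 33) (nat_lit 5) (nat_lit 36) (nat_lit 5) (nat_lit 34) (nat_lit 5) (nat_lit 515) (nat_lit 366) (nat_lit 259)) (XT.lf (nat_lit 0) (nat_lit 10532913306) (nat_lit 228) (nat_lit 3817951723) (nat_lit 76) (nat_lit 8023631536) (nat_lit 33) (nat_lit 5) (nat_lit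 36) (nat_lit 5) (nat_lit 34) (nat_lit 5) (nat_lit 516) (nat_lit 366) (nat_lit 258))) (XT.nd (nat_lit 78) (nat_lit 0) (nat_lit 0) (XT.lf (nat_lit 0) (nat_lit 4728655814) (nat_lit 152) (nat_lit 9880802483) (nat_lit 228) (nat_lit 8112936215) (nat_lit 31) (nat_lit 5) (nat_lit 33) (nat_lit 5) (nat_lit 34) (nat_lit 5) (nat_lit 517) (nat_lit 366) (nat_lit 257)) (XT.lf (nat_lit 0) (nat_lit 13465824557) (nat_lit 152) (nat_lit 5308953362) (nat_lit 228) (nat_lit 4302332440) (nat_lit 31) (nat_lit 5) (nat_lit 33) (nat_lit 5) (nat_lit 34) (nat_lit 5) (nat_lit 518) (nat_lit 366) (nat_lit 256))))))))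
noncomputable def xc70 : XT := (XT.nd (nat_lit 51870) (nat_lit 0) (nat_lit 12236) (XT.nd (nat_lit 50778) (nat_lit 0) (nat_lit 24852) (XT.nd (nat_lit 546) (nat_lit 228) (nat_lit 0) (XT.nd (nat_lit 234) (nat_lit 228) (nat_lit 0) (XT.nd (nat_lit 78) (nat_lit 228) (nat_lit 0) (XT.lf (nat_lit 0) (nat_lit 22346242279) (nat_lit 152) (nat_lit 659145250) (nat_lit 228) (nat_lit 433898045) (nat_lit 31) (nat_lit 5) (nat_lit 33) (nat_lit 5) (nat_lit 34) (nat_lit 5) (nat_lit 519) (nat_lit 366) (nat_lit 255)) (XT.nd (nat_lit 78) (nat_lit 0) (nat_lit 0) (XT.lf (nat_lit 0) (nat_lit 3524584013) (nat_lit 228) (nat_lit 16192653824) (nat_lit 76) (nat_lit 4089840194) (nat_lit 28) (nat_lit 5) (nat_lit 31) (nat_lit 5) (nat_lit 29) (nat_lit 5) (nat_lit 520) (nat_lit 366) (nat_lit 254)) (XT.lf (nat_lit 0) (nat_lit 7550457048) (nat_lit 228) (nat_lit 7709693371) (nat_lit 76) (nat_lit 8922142382) (nat_lit 28) (nat_lit 5) (nat_lit 31) (nat_lit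 5) (nat_lit 29) (nat_lit 5) (nat_lit 521) (nat_lit 366) (nat_lit 253)))) (XT.nd (nat_lit 156) (nat_lit 76) (nat_lit 0) (XT.nd (nat_lit 78) (nat_lit 0) (nat_lit 0) (XT.lf (nat_lit 0) (nat_lit 924478435) (nat_lit 152) (nat_lit 10720996070) (nat_lit 228) (nat_lit 12919769183) (nat_lit 26) (nat_lit 5) (nat_lit 28) (nat_lit 5) (nat_lit 29) (nat_lit 5) (nat_lit 522) (nat_lit 366) (nat_lit 252)) (XT.lf (nat_lit 0) (nat_lit 9805469179) (nat_lit 152) (nat_lit 6051427369) (nat_lit 228) (nat_lit 9098271236) (nat_lit 26) (nat_lit 5) (nat_lit 28) (nat_lit 5) (nat_lit 29) (nat_lit 5) (nat_lit 523) (nat_lit 366) (nat_lit 251))) (XT.nd (nat_lit 78) (nat_lit 76) (nat_lit 0) (XT.lf (nat_lit 0) (nat_lit 18834303835) (nat_lit 152) (nat_lit 1301349213) (nat_lit 228) (nat_lit 5217579385) (nat_lit 26) (nat_lit 5) (nat_lit 28) (nat_lit 5) (nat_lit 29) (nat_lit 5) (nat_lit 524) (nat_lit 366) (nat_lit 250)) (XT.lf (nat_lit 0) (nat_lit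 2261665277) (nat_lit 76) (nat_lit 22259367153) (nat_lit 152) (nat_lit 1237809099) (nat_lit 25) (nat_lit 5) (nat_lit 26) (nat_lit 5) (nat_lit 27) (nat_lit 4) (nat_lit 525) (nat_lit 366) (nat_lit 249))))) (XT.nd (nat_lit 234) (nat_lit 0) (nat_lit 0) (XT.nd (nat_lit 78) (nat_lit 152) (nat_lit 0) (XT.lf (nat_lit 0) (nat_lit 2820583139) (nat_lit 152) (nat_lit 14922154955) (nat_lit 76) (nat_lit 8428741640) (nat_lit 24) (nat_lit 5) (nat_lit 26) (nat_lit 5) (nat_lit 25) (nat_lit 5) (nat_lit 526) (nat_lit 366) (nat_lit 248)) (XT.nd (nat_lit 78) (nat_lit 152) (nat_lit 0) (XT.lf (nat_lit 0) (nat_lit 6927288782) (nat_lit 152) (nat_lit 6212729221) (nat_lit 76) (nat_lit 13452518538) (nat_lit 24) (nat_lit 5) (nat_lit 26) (nat_lit 5) (nat_lit 25) (nat_lit 5) (nat_lit 527) (nat_lit 366) (nat_lit 247)) (XT.lf (nat_lit 0) (nat_lit 2677671225) (nat_lit 152) (nat_lit 8439866381) (nat_lit 228) (nat_lit 15904452494) (nat_lit 22) (nat_lit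 5) (nat_lit 24) (nat_lit 5) (nat_lit 25) (nat_lit 5) (nat_lit 528) (nat_lit 366) (nat_lit 246)))) (XT.nd (nat_lit 49842) (nat_lit 0) (nat_lit 37468) (XT.nd (nat_lit 49764) (nat_lit 0) (nat_lit 38684) (XT.lf (nat_lit 0) (nat_lit 11801949316) (nat_lit 152) (nat_lit 3615487146) (nat_lit 228) (nat_lit 12042083090) (nat_lit 22) (nat_lit 5) (nat_lit 24) (nat_lit 5) (nat_lit 25) (nat_lit 5) (nat_lit 529) (nat_lit 366) (nat_lit 245)) (XT.lf (nat_lit 0) (nat_lit 436574170) (nat_lit 1140) (nat_lit 2518917547) (nat_lit 0) (nat_lit 436574170) (nat_lit 531) (nat_lit 5) (nat_lit 546) (nat_lit 4) (nat_lit 531) (nat_lit 4) (nat_lit 406) (nat_lit 367) (nat_lit 367))) (XT.nd (nat_lit 78) (nat_lit 1216) (nat_lit 0) (XT.lf (nat_lit 0) (nat_lit 3992573256) (nat_lit 1140) (nat_lit 802794175) (nat_lit 0) (nat_lit 2016056656) (nat_lit 531) (nat_lit 5) (nat_lit 546) (nat_lit 4) (nat_lit 531) (nat_lit 4) (nat_lit 407) (nat_lit 367) (nat_lit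 366)) (XT.lf (nat_lit 0) (nat_lit 286444998) (nat_lit 1216) (nat_lit 3335659075) (nat_lit 76) (nat_lit 3218077363) (nat_lit 515) (nat_lit 5) (nat_lit 531) (nat_lit 5) (nat_lit 516) (nat_lit 4) (nat_lit 408) (nat_lit 367) (nat_lit 365)))))) (XT.nd (nat_lit 546) (nat_lit 7068) (nat_lit 0) (XT.nd (nat_lit 234) (nat_lit 2964) (nat_lit 0) (XT.nd (nat_lit 78) (nat_lit 1368) (nat_lit 0) (XT.lf (nat_lit 0) (nat_lit 976489444) (nat_lit 1216) (nat_lit 2385160787) (nat_lit 1292) (nat_lit 3508655608) (nat_lit 499) (nat_lit 5) (nat_lit 515) (nat_lit 5) (nat_lit 516) (nat_lit 4) (nat_lit 409) (nat_lit 367) (nat_lit 364)) (XT.nd (nat_lit 78) (nat_lit 1368) (nat_lit 0) (XT.lf (nat_lit 0) (nat_lit 5363397211) (nat_lit 1216) (nat_lit 1092027032) (nat_lit 1292) (nat_lit 446541228) (nat_lit 499) (nat_lit 5) (nat_lit 515) (nat_lit 5) (nat_lit 516) (nat_lit 4) (nat_lit 410) (nat_lit 367) (nat_lit 363)) (XT.lf (nat_lit 0) (nat_lit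 2597555988) (nat_lit 1368) (nat_lit 4069167866) (nat_lit 76) (nat_lit 268141059) (nat_lit 481) (nat_lit 5) (nat_lit 499) (nat_lit 5) (nat_lit 482) (nat_lit 4) (nat_lit 411) (nat_lit 367) (nat_lit 362)))) (XT.nd (nat_lit 156) (nat_lit 1520) (nat_lit 0) (XT.nd (nat_lit 78) (nat_lit 76) (nat_lit 0) (XT.lf (nat_lit 0) (nat_lit 347451093) (nat_lit 1368) (nat_lit 5305406447) (nat_lit 1444) (nat_lit 1316449503) (nat_lit 463) (nat_lit 5) (nat_lit 481) (nat_lit 5) (nat_lit 482) (nat_lit 4) (nat_lit 412) (nat_lit 367) (nat_lit 361)) (XT.lf (nat_lit 0) (nat_lit 1705976206) (nat_lit 1444) (nat_lit 2166034130) (nat_lit 76) (nat_lit 3132979665) (nat_lit 462) (nat_lit 5) (nat_lit 481) (nat_lit 5) (nat_lit 463) (nat_lit 5) (nat_lit 413) (nat_lit 367) (nat_lit 360))) (XT.nd (nat_lit 78) (nat_lit 76) (nat_lit 0) (XT.lf (nat_lit 0) (nat_lit 2344002392) (nat_lit 1444) (nat_lit 2380503161) (nat_lit 1520) (nat_lit 2317707123) (nat_lit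 443) (nat_lit 5) (nat_lit 462) (nat_lit 5) (nat_lit 463) (nat_lit 5) (nat_lit 414) (nat_lit 367) (nat_lit 359)) (XT.lf (nat_lit 0) (nat_lit 666798343) (nat_lit 1520) (nat_lit 168512708) (nat_lit 76) (nat_lit 6245776871) (nat_lit 442) (nat_lit 5) (nat_lit 462) (nat_lit 5) (nat_lit 443) (nat_lit 5) (nat_lit 415) (nat_lit 367) (nat_lit 358))))) (XT.nd (nat_lit 234) (nat_lit 3876) (nat_lit 0) (XT.nd (nat_lit 78) (nat_lit 1672) (nat_lit 0) (XT.lf (nat_lit 0) (nat_lit 3653567677) (nat_lit 1596) (nat_lit 2687922215) (nat_lit 76) (nat_lit 779534170) (nat_lit 422) (nat_lit 5) (nat_lit 443) (nat_lit 5) (nat_lit 423) (nat_lit 5) (nat_lit 416) (nat_lit 367) (nat_lit 357)) (XT.nd (nat_lit 78) (nat_lit 76) (nat_lit 0) (XT.lf (nat_lit 0) (nat_lit 1929856665) (nat_lit 1596) (nat_lit 4729893450) (nat_lit 1672) (nat_lit 502875991) (nat_lit 401) (nat_lit 5) (nat_lit 422) (nat_lit 5) (nat_lit 423) (nat_lit 5) (nat_lit 417) (nat_lit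 367) (nat_lit 356)) (XT.lf (nat_lit 0) (nat_lit 2446917601) (nat_lit 1672) (nat_lit 602439628) (nat_lit 76) (nat_lit 4156254281) (nat_lit 400) (nat_lit 5) (nat_lit 422) (nat_lit 5) (nat_lit 401) (nat_lit 5) (nat_lit 418) (nat_lit 367) (nat_lit 355)))) (XT.nd (nat_lit 156) (nat_lit 836) (nat_lit 0) (XT.nd (nat_lit 78) (nat_lit 1368) (nat_lit 0) (XT.lf (nat_lit 0) (nat_lit 4114581551) (nat_lit 1672) (nat_lit 1303101205) (nat_lit 1748) (nat_lit 1832390431) (nat_lit 378) (nat_lit 5) (nat_lit 400) (nat_lit 5) (nat_lit 401) (nat_lit 5) (nat_lit 419) (nat_lit 367) (nat_lit 354)) (XT.lf (nat_lit 0) (nat_lit 1097331212) (nat_lit 1368) (nat_lit 5704267680) (nat_lit 76) (nat_lit 494530437) (nat_lit 360) (nat_lit 5) (nat_lit 378) (nat_lit 5) (nat_lit 361) (nat_lit 5) (nat_lit 420) (nat_lit 367) (nat_lit 353))) (XT.nd (nat_lit 78) (nat_lit 836) (nat_lit 0) (XT.lf (nat_lit 0) (nat_lit 4034036176) (nat_lit 1368) (nat_lit 965142393)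 (nat_lit 76) (nat_lit 2344281220) (nat_lit 360) (nat_lit 5) (nat_lit 378) (nat_lit 5) (nat_lit 361) (nat_lit 5) (nat_lit 421) (nat_lit 367) (nat_lit 352)) (XT.lf (nat_lit 0) (nat_lit 3862742784) (nat_lit 836) (nat_lit 3136019500) (nat_lit 912) (nat_lit 393641707) (nat_lit 349) (nat_lit 5) (nat_lit 360) (nat_lit 5) (nat_lit 361) (nat_lit 5) (nat_lit 422) (nat_lit 367) (nat_lit 351))))))) (XT.nd (nat_lit 1092) (nat_lit 5320) (nat_lit 0) (XT.nd (nat_lit 546) (nat_lit 3040) (nat_lit 0) (XT.nd (nat_lit 234) (nat_lit 2432) (nat_lit 0) (XT.nd (nat_lit 78) (nat_lit 912) (nat_lit 0) (XT.lf (nat_lit 0) (nat_lit 1301241591) (nat_lit 836) (nat_lit 1204859235) (nat_lit 912) (nat_lit 4936752226) (nat_lit 337) (nat_lit 5) (nat_lit 348) (nat_lit 5) (nat_lit 349) (nat_lit 5) (nat_lit 423) (nat_lit 367) (nat_lit 350)) (XT.nd (nat_lit 78) (nat_lit 912) (nat_lit 0) (XT.lf (nat_lit 0) (nat_lit 5432608339) (nat_lit 912) (nat_lit 1282814625)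 (nat_lit 76) (nat_lit 779405096) (nat_lit 337) (nat_lit 5) (nat_lit 349) (nat_lit 5) (nat_lit 338) (nat_lit 5) (nat_lit 424) (nat_lit 367) (nat_lit 349)) (XT.lf (nat_lit 0) (nat_lit 836221997) (nat_lit 912) (nat_lit 3897419627) (nat_lit 76) (nat_lit 2814579361) (nat_lit 325) (nat_lit 5) (nat_lit 337) (nat_lit 5) (nat_lit 326) (nat_lit 5) (nat_lit 425) (nat_lit 367) (nat_lit 348)))) (XT.nd (nat_lit 156) (nat_lit 1596) (nat_lit 0) (XT.nd (nat_lit 78) (nat_lit 0) (nat_lit 0) (XT.lf (nat_lit 0) (nat_lit 1040800952) (nat_lit 836) (nat_lit 2686256877) (nat_lit 912) (nat_lit 3876157496) (nat_lit 314) (nat_lit 5) (nat_lit 325) (nat_lit 5) (nat_lit 326) (nat_lit 5) (nat_lit 426) (nat_lit 367) (nat_lit 347)) (XT.lf (nat_lit 0) (nat_lit 6073887983) (nat_lit 836) (nat_lit 575244724) (nat_lit 912) (nat_lit 1010754427) (nat_lit 314) (nat_lit 5) (nat_lit 325) (nat_lit 5) (nat_lit 326) (nat_lit 5) (nat_lit 427) (nat_lit 367)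 (nat_lit 346))) (XT.nd (nat_lit 78) (nat_lit 760) (nat_lit 0) (XT.lf (nat_lit 0) (nat_lit 1867753335) (nat_lit 836) (nat_lit 4261885040) (nat_lit 76) (nat_lit 1588232526) (nat_lit 303) (nat_lit 5) (nat_lit 314) (nat_lit 5) (nat_lit 304) (nat_lit 5) (nat_lit 428) (nat_lit 367) (nat_lit 345)) (XT.lf (nat_lit 0) (nat_lit 786221178) (nat_lit 760) (nat_lit 3972260186) (nat_lit 836) (nat_lit 3019079050) (nat_lit 293) (nat_lit 5) (nat_lit 303) (nat_lit 5) (nat_lit 304) (nat_lit 5) (nat_lit 429) (nat_lit 367) (nat_lit 344))))) (XT.nd (nat_lit 234) (nat_lit 1520) (nat_lit 0) (XT.nd (nat_lit 78) (nat_lit 1520) (nat_lit 0) (XT.lf (nat_lit 0) (nat_lit 5936411464) (nat_lit 760) (nat_lit 1748396976) (nat_lit 836) (nat_lit 154122110) (nat_lit 293) (nat_lit 5) (nat_lit 303) (nat_lit 5) (nat_lit 304) (nat_lit 5) (nat_lit 430) (nat_lit 367) (nat_lit 343)) (XT.nd (nat_lit 78) (nat_lit 760) (nat_lit 0) (XT.lf (nat_lit 0) (nat_lit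 2706379045) (nat_lit 760) (nat_lit 4648816712) (nat_lit 76) (nat_lit 546522761) (nat_lit 283) (nat_lit 5) (nat_lit 293) (nat_lit 5) (nat_lit 284) (nat_lit 5) (nat_lit 431) (nat_lit 367) (nat_lit 342)) (XT.lf (nat_lit 0) (nat_lit 508836246) (nat_lit 760) (nat_lit 5091316828) (nat_lit 836) (nat_lit 2366066336) (nat_lit 273) (nat_lit 5) (nat_lit 283) (nat_lit 5) (nat_lit 284) (nat_lit 5) (nat_lit 432) (nat_lit 367) (nat_lit 341)))) (XT.nd (nat_lit 156) (nat_lit 760) (nat_lit 0) (XT.nd (nat_lit 78) (nat_lit 684) (nat_lit 0) (XT.lf (nat_lit 0) (nat_lit 495011019) (nat_lit 836) (nat_lit 2259496661) (nat_lit 76) (nat_lit 5277832939) (nat_lit 272) (nat_lit 5) (nat_lit 283) (nat_lit 5) (nat_lit 273) (nat_lit 5) (nat_lit 433) (nat_lit 367) (nat_lit 340)) (XT.lf (nat_lit 0) (nat_lit 3010090423) (nat_lit 684) (nat_lit 342712286) (nat_lit 760) (nat_lit 4747283021) (nat_lit 263) (nat_lit 5) (nat_lit 272) (nat_lit 5) (nat_lit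 273) (nat_lit 5) (nat_lit 434) (nat_lit 367) (nat_lit 339))) (XT.nd (nat_lit 78) (nat_lit 76) (nat_lit 0) (XT.lf (nat_lit 0) (nat_lit 178671777) (nat_lit 684) (nat_lit 6071385849) (nat_lit 760) (nat_lit 1919518990) (nat_lit 254) (nat_lit 5) (nat_lit 263) (nat_lit 5) (nat_lit 264) (nat_lit 5) (nat_lit 435) (nat_lit 367) (nat_lit 338)) (XT.lf (nat_lit 0) (nat_lit 941160801) (nat_lit 760) (nat_lit 2683760654) (nat_lit 76) (nat_lit 4615665882) (nat_lit 253) (nat_lit 5) (nat_lit 263) (nat_lit 5) (nat_lit 254) (nat_lit 5) (nat_lit 436) (nat_lit 367) (nat_lit 337)))))) (XT.nd (nat_lit 546) (nat_lit 2204) (nat_lit 0) (XT.nd (nat_lit 234) (nat_lit 1824) (nat_lit 0) (XT.nd (nat_lit 78) (nat_lit 684) (nat_lit 0) (XT.lf (nat_lit 0) (nat_lit 2696359019) (nat_lit 608) (nat_lit 1107819115) (nat_lit 684) (nat_lit 4509204737) (nat_lit 245) (nat_lit 5) (nat_lit 253) (nat_lit 5) (nat_lit 254) (nat_lit 5) (nat_lit 437) (nat_lit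 367) (nat_lit 336)) (XT.nd (nat_lit 78) (nat_lit 684) (nat_lit 0) (XT.lf (nat_lit 0) (nat_lit 6705852456) (nat_lit 684) (nat_lit 232758206) (nat_lit 76) (nat_lit 1449429921) (nat_lit 245) (nat_lit 5) (nat_lit 254) (nat_lit 5) (nat_lit 246) (nat_lit 5) (nat_lit 438) (nat_lit 367) (nat_lit 335)) (XT.lf (nat_lit 0) (nat_lit 1181776456) (nat_lit 684) (nat_lit 3206402193) (nat_lit 76) (nat_lit 4075966394) (nat_lit 236) (nat_lit 5) (nat_lit 245) (nat_lit 5) (nat_lit 237) (nat_lit 5) (nat_lit 439) (nat_lit 367) (nat_lit 334)))) (XT.nd (nat_lit 156) (nat_lit 1216) (nat_lit 0) (XT.nd (nat_lit 78) (nat_lit 0) (nat_lit 0) (XT.lf (nat_lit 0) (nat_lit 2282745227) (nat_lit 608) (nat_lit 1769065199) (nat_lit 684) (nat_lit 4490344718) (nat_lit 228) (nat_lit 5) (nat_lit 236) (nat_lit 5) (nat_lit 237) (nat_lit 5) (nat_lit 440) (nat_lit 367) (nat_lit 333)) (XT.lf (nat_lit 0) (nat_lit 6962121180) (nat_lit 684) (nat_lit 758158177)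 (nat_lit 76) (nat_lit 901820162) (nat_lit 228) (nat_lit 5) (nat_lit 237) (nat_lit 5) (nat_lit 229) (nat_lit 5) (nat_lit 441) (nat_lit 367) (nat_lit 332))) (XT.nd (nat_lit 78) (nat_lit 532) (nat_lit 0) (XT.lf (nat_lit 0) (nat_lit 1210307737) (nat_lit 684) (nat_lit 3861537090) (nat_lit 76) (nat_lit 3631680902) (nat_lit 219) (nat_lit 5) (nat_lit 228) (nat_lit 5) (nat_lit 220) (nat_lit 5) (nat_lit 442) (nat_lit 367) (nat_lit 331)) (XT.lf (nat_lit 0) (nat_lit 1734507891) (nat_lit 532) (nat_lit 2354088922) (nat_lit 608) (nat_lit 4698337487) (nat_lit 212) (nat_lit 5) (nat_lit 219) (nat_lit 5) (nat_lit 220) (nat_lit 5) (nat_lit 443) (nat_lit 367) (nat_lit 330))))) (XT.nd (nat_lit 234) (nat_lit 1064) (nat_lit 0) (XT.nd (nat_lit 78) (nat_lit 1140) (nat_lit 0) (XT.lf (nat_lit 0) (nat_lit 7010093774) (nat_lit 608) (nat_lit 1435162785) (nat_lit 76) (nat_lit 427070829) (nat_lit 212) (nat_lit 5) (nat_lit 220) (nat_lit 5) (nat_lit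 213) (nat_lit 5) (nat_lit 444) (nat_lit 367) (nat_lit 329)) (XT.nd (nat_lit 78) (nat_lit 532) (nat_lit 0) (XT.lf (nat_lit 0) (nat_lit 1018126190) (nat_lit 608) (nat_lit 4685650301) (nat_lit 76) (nat_lit 3255525073) (nat_lit 204) (nat_lit 5) (nat_lit 212) (nat_lit 5) (nat_lit 205) (nat_lit 5) (nat_lit 445) (nat_lit 367) (nat_lit 328)) (XT.lf (nat_lit 0) (nat_lit 1014440252) (nat_lit 532) (nat_lit 2890884806) (nat_lit 608) (nat_lit 5142988141) (nat_lit 197) (nat_lit 5) (nat_lit 204) (nat_lit 5) (nat_lit 205) (nat_lit 5) (nat_lit 446) (nat_lit 367) (nat_lit 327)))) (XT.nd (nat_lit 156) (nat_lit 456) (nat_lit 0) (XT.nd (nat_lit 78) (nat_lit 608) (nat_lit 0) (XT.lf (nat_lit 0) (nat_lit 6837667125) (nat_lit 532) (nat_lit 2380069) (nat_lit 608) (nat_lit 2299289255) (nat_lit 197) (nat_lit 5) (nat_lit 204) (nat_lit 5) (nat_lit 205) (nat_lit 5) (nat_lit 447) (nat_lit 367) (nat_lit 326)) (XT.lf (nat_lit 0) (nat_lit 594406226)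 (nat_lit 608) (nat_lit 5717967924) (nat_lit 76) (nat_lit 2919733682) (nat_lit 189) (nat_lit 5) (nat_lit 197) (nat_lit 5) (nat_lit 190) (nat_lit 5) (nat_lit 448) (nat_lit 367) (nat_lit 325))) (XT.nd (nat_lit 78) (nat_lit 0) (nat_lit 0) (XT.lf (nat_lit 0) (nat_lit 82487752) (nat_lit 456) (nat_lit 3408060383) (nat_lit 532) (nat_lit 5836400752) (nat_lit 183) (nat_lit 5) (nat_lit 189) (nat_lit 5) (nat_lit 190) (nat_lit 5) (nat_lit 449) (nat_lit 367) (nat_lit 324)) (XT.lf (nat_lit 0) (nat_lit 6022529979) (nat_lit 456) (nat_lit 420134887) (nat_lit 532) (nat_lit 2981085771) (nat_lit 183) (nat_lit 5) (nat_lit 189) (nat_lit 5) (nat_lit 190) (nat_lit 5) (nat_lit 450) (nat_lit 367) (nat_lit 323))))))))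
noncomputable def xc71 : XT := (XT.nd (nat_lit 2184) (nat_lit 3420) (nat_lit 0) (XT.nd (nat_lit 1092) (nat_lit 2888) (nat_lit 0) (XT.nd (nat_lit 546) (nat_lit 2204) (nat_lit 0) (XT.nd (nat_lit 234) (nat_lit 988) (nat_lit 0) (XT.nd (nat_lit 78) (nat_lit 532) (nat_lit 0) (XT.lf (nat_lit 0) (nat_lit 2521290020) (nat_lit 532) (nat_lit 6926348910) (nat_lit 608) (nat_lit 74997617) (nat_lit 176) (nat_lit 5) (nat_lit 183) (nat_lit 5) (nat_lit 184) (nat_lit 5) (nat_lit 451) (nat_lit 367) (nat_lit 322)) (XT.nd (nat_lit 78) (nat_lit 456) (nat_lit 0) (XT.lf (nat_lit 0) (nat_lit 2837610466) (nat_lit 608) (nat_lit 1090177837) (nat_lit 76) (nat_lit 5695634360) (nat_lit 175) (nat_lit 5) (nat_lit 183) (nat_lit 5) (nat_lit 176) (nat_lit 5) (nat_lit 452) (nat_lit 367) (nat_lit 321)) (XT.lf (nat_lit 0) (nat_lit 4950907129) (nat_lit 456) (nat_lit 850011956) (nat_lit 532) (nat_lit 3925449466) (nat_lit 169) (nat_lit 5) (nat_lit 175)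 (nat_lit 5) (nat_lit 176) (nat_lit 5) (nat_lit 453) (nat_lit 367) (nat_lit 320)))) (XT.nd (nat_lit 156) (nat_lit 456) (nat_lit 0) (XT.nd (nat_lit 78) (nat_lit 76) (nat_lit 0) (XT.lf (nat_lit 0) (nat_lit 1244684588) (nat_lit 456) (nat_lit 7570752402) (nat_lit 532) (nat_lit 1016120069) (nat_lit 163) (nat_lit 5) (nat_lit 169) (nat_lit 5) (nat_lit 170) (nat_lit 5) (nat_lit 454) (nat_lit 367) (nat_lit 319)) (XT.lf (nat_lit 0) (nat_lit 1925460844) (nat_lit 532) (nat_lit 2560025753) (nat_lit 76) (nat_lit 5453137875) (nat_lit 162) (nat_lit 5) (nat_lit 169) (nat_lit 5) (nat_lit 163) (nat_lit 5) (nat_lit 455) (nat_lit 367) (nat_lit 318))) (XT.nd (nat_lit 78) (nat_lit 0) (nat_lit 0) (XT.lf (nat_lit 0) (nat_lit 3575291480) (nat_lit 456) (nat_lit 1322722063) (nat_lit 532) (nat_lit 5149991704) (nat_lit 156) (nat_lit 5) (nat_lit 162) (nat_lit 5) (nat_lit 163) (nat_lit 5) (nat_lit 456) (nat_lit 367) (nat_lit 317)) (XT.lf (nat_lit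 0) (nat_lit 7922489717) (nat_lit 532) (nat_lit 356234921) (nat_lit 76) (nat_lit 1881020396) (nat_lit 156) (nat_lit 5) (nat_lit 163) (nat_lit 5) (nat_lit 157) (nat_lit 5) (nat_lit 457) (nat_lit 367) (nat_lit 316))))) (XT.nd (nat_lit 234) (nat_lit 1292) (nat_lit 0) (XT.nd (nat_lit 78) (nat_lit 380) (nat_lit 0) (XT.lf (nat_lit 0) (nat_lit 734778200) (nat_lit 532) (nat_lit 4378692951) (nat_lit 76) (nat_lit 5159959915) (nat_lit 149) (nat_lit 5) (nat_lit 156) (nat_lit 5) (nat_lit 150) (nat_lit 5) (nat_lit 458) (nat_lit 367) (nat_lit 315)) (XT.nd (nat_lit 78) (nat_lit 0) (nat_lit 0) (XT.lf (nat_lit 0) (nat_lit 1843883691) (nat_lit 380) (nat_lit 1870492719) (nat_lit 456) (nat_lit 6675176670) (nat_lit 144) (nat_lit 5) (nat_lit 149) (nat_lit 5) (nat_lit 150) (nat_lit 5) (nat_lit 459) (nat_lit 367) (nat_lit 314)) (XT.lf (nat_lit 0) (nat_lit 6756430440) (nat_lit 456) (nat_lit 2318652193) (nat_lit 76) (nat_lit 1432876882)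 (nat_lit 144) (nat_lit 5) (nat_lit 150) (nat_lit 5) (nat_lit 145) (nat_lit 5) (nat_lit 460) (nat_lit 367) (nat_lit 313)))) (XT.nd (nat_lit 156) (nat_lit 760) (nat_lit 0) (XT.nd (nat_lit 78) (nat_lit 76) (nat_lit 0) (XT.lf (nat_lit 0) (nat_lit 4022308793) (nat_lit 456) (nat_lit 5840180143) (nat_lit 532) (nat_lit 766200756) (nat_lit 138) (nat_lit 5) (nat_lit 144) (nat_lit 5) (nat_lit 145) (nat_lit 5) (nat_lit 461) (nat_lit 367) (nat_lit 312)) (XT.lf (nat_lit 0) (nat_lit 2229384081) (nat_lit 532) (nat_lit 296016570) (nat_lit 76) (nat_lit 8226547310) (nat_lit 137) (nat_lit 5) (nat_lit 144) (nat_lit 5) (nat_lit 138) (nat_lit 5) (nat_lit 462) (nat_lit 367) (nat_lit 311))) (XT.nd (nat_lit 78) (nat_lit 380) (nat_lit 0) (XT.lf (nat_lit 0) (nat_lit 5285884857) (nat_lit 456) (nat_lit 4716989925) (nat_lit 76) (nat_lit 874487841) (nat_lit 132) (nat_lit 5) (nat_lit 138) (nat_lit 5) (nat_lit 133) (nat_lit 5) (nat_lit 463) (nat_lit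 367) (nat_lit 310)) (XT.lf (nat_lit 0) (nat_lit 1699831078) (nat_lit 380) (nat_lit 6699163272) (nat_lit 456) (nat_lit 2606399097) (nat_lit 127) (nat_lit 5) (nat_lit 132) (nat_lit 5) (nat_lit 133) (nat_lit 5) (nat_lit 464) (nat_lit 367) (nat_lit 309)))))) (XT.nd (nat_lit 546) (nat_lit 1368) (nat_lit 0) (XT.nd (nat_lit 234) (nat_lit 1140) (nat_lit 0) (XT.nd (nat_lit 78) (nat_lit 304) (nat_lit 0) (XT.lf (nat_lit 0) (nat_lit 430318616) (nat_lit 456) (nat_lit 2879999993) (nat_lit 76) (nat_lit 7825672380) (nat_lit 126) (nat_lit 5) (nat_lit 132) (nat_lit 5) (nat_lit 127) (nat_lit 5) (nat_lit 465) (nat_lit 367) (nat_lit 308)) (XT.nd (nat_lit 78) (nat_lit 0) (nat_lit 0) (XT.lf (nat_lit 0) (nat_lit 3484247008) (nat_lit 380) (nat_lit 7614963143) (nat_lit 76) (nat_lit 169834681) (nat_lit 122) (nat_lit 5) (nat_lit 127) (nat_lit 5) (nat_lit 123) (nat_lit 5) (nat_lit 466) (nat_lit 367) (nat_lit 307)) (XT.lf (nat_lit 0) (nat_lit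 6607358241) (nat_lit 380) (nat_lit 1118319430) (nat_lit 76) (nat_lit 3678936111) (nat_lit 122) (nat_lit 5) (nat_lit 127) (nat_lit 5) (nat_lit 123) (nat_lit 5) (nat_lit 467) (nat_lit 367) (nat_lit 306)))) (XT.nd (nat_lit 156) (nat_lit 380) (nat_lit 0) (XT.nd (nat_lit 78) (nat_lit 380) (nat_lit 0) (XT.lf (nat_lit 0) (nat_lit 5532006754) (nat_lit 380) (nat_lit 4264222135) (nat_lit 456) (nat_lit 1746615077) (nat_lit 117) (nat_lit 5) (nat_lit 122) (nat_lit 5) (nat_lit 123) (nat_lit 5) (nat_lit 468) (nat_lit 367) (nat_lit 305)) (XT.lf (nat_lit 0) (nat_lit 596794538) (nat_lit 304) (nat_lit 729245335) (nat_lit 380) (nat_lit 10358058723) (nat_lit 112) (nat_lit 5) (nat_lit 116) (nat_lit 5) (nat_lit 117) (nat_lit 5) (nat_lit 469) (nat_lit 367) (nat_lit 304))) (XT.nd (nat_lit 78) (nat_lit 380) (nat_lit 0) (XT.lf (nat_lit 0) (nat_lit 4463752343) (nat_lit 380) (nat_lit 4488984527) (nat_lit 76) (nat_lit 2874685602) (nat_lit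 112) (nat_lit 5) (nat_lit 117) (nat_lit 5) (nat_lit 113) (nat_lit 5) (nat_lit 470) (nat_lit 367) (nat_lit 303)) (XT.lf (nat_lit 0) (nat_lit 2217356393) (nat_lit 380) (nat_lit 5434413192) (nat_lit 456) (nat_lit 4322106825) (nat_lit 107) (nat_lit 5) (nat_lit 112) (nat_lit 5) (nat_lit 113) (nat_lit 5) (nat_lit 471) (nat_lit 367) (nat_lit 302))))) (XT.nd (nat_lit 234) (nat_lit 988) (nat_lit 0) (XT.nd (nat_lit 78) (nat_lit 380) (nat_lit 0) (XT.lf (nat_lit 0) (nat_lit 9070793993) (nat_lit 380) (nat_lit 1831511389) (nat_lit 456) (nat_lit 1220993191) (nat_lit 107) (nat_lit 5) (nat_lit 112) (nat_lit 5) (nat_lit 113) (nat_lit 5) (nat_lit 472) (nat_lit 367) (nat_lit 301)) (XT.nd (nat_lit 78) (nat_lit 0) (nat_lit 0) (XT.lf (nat_lit 0) (nat_lit 1922322318) (nat_lit 380) (nat_lit 8512581169) (nat_lit 76) (nat_lit 1840454229) (nat_lit 102) (nat_lit 5) (nat_lit 107) (nat_lit 5) (nat_lit 103) (nat_lit 5) (nat_lit 473) (nat_lit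 367) (nat_lit 300)) (XT.lf (nat_lit 0) (nat_lit 5114146677) (nat_lit 380) (nat_lit 1742233252) (nat_lit 76) (nat_lit 5573890348) (nat_lit 102) (nat_lit 5) (nat_lit 107) (nat_lit 5) (nat_lit 103) (nat_lit 5) (nat_lit 474) (nat_lit 367) (nat_lit 299)))) (XT.nd (nat_lit 156) (nat_lit 684) (nat_lit 0) (XT.nd (nat_lit 78) (nat_lit 0) (nat_lit 0) (XT.lf (nat_lit 0) (nat_lit 5184880325) (nat_lit 304) (nat_lit 3188421834) (nat_lit 380) (nat_lit 4214922258) (nat_lit 98) (nat_lit 5) (nat_lit 102) (nat_lit 5) (nat_lit 103) (nat_lit 5) (nat_lit 475) (nat_lit 367) (nat_lit 298)) (XT.lf (nat_lit 0) (nat_lit 11683014061) (nat_lit 380) (nat_lit 525457157) (nat_lit 76) (nat_lit 541171915) (nat_lit 98) (nat_lit 5) (nat_lit 103) (nat_lit 5) (nat_lit 99) (nat_lit 5) (nat_lit 476) (nat_lit 367) (nat_lit 297))) (XT.nd (nat_lit 78) (nat_lit 304) (nat_lit 0) (XT.lf (nat_lit 0) (nat_lit 2150689624) (nat_lit 380) (nat_lit 6419463280)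 (nat_lit 76) (nat_lit 4343187553) (nat_lit 93) (nat_lit 5) (nat_lit 98) (nat_lit 5) (nat_lit 94) (nat_lit 5) (nat_lit 477) (nat_lit 367) (nat_lit 296)) (XT.lf (nat_lit 0) (nat_lit 534380951) (nat_lit 304) (nat_lit 4861401806) (nat_lit 380) (nat_lit 7684845970) (nat_lit 89) (nat_lit 5) (nat_lit 93) (nat_lit 5) (nat_lit 94) (nat_lit 5) (nat_lit 478) (nat_lit 367) (nat_lit 295))))))) (XT.nd (nat_lit 1092) (nat_lit 1444) (nat_lit 0) (XT.nd (nat_lit 546) (nat_lit 1064) (nat_lit 0) (XT.nd (nat_lit 234) (nat_lit 608) (nat_lit 0) (XT.nd (nat_lit 78) (nat_lit 304) (nat_lit 0) (XT.lf (nat_lit 0) (nat_lit 7668602214) (nat_lit 304) (nat_lit 1051209506) (nat_lit 380) (nat_lit 4531182337) (nat_lit 89) (nat_lit 5) (nat_lit 93) (nat_lit 5) (nat_lit 94) (nat_lit 5) (nat_lit 479) (nat_lit 367) (nat_lit 294)) (XT.nd (nat_lit 78) (nat_lit 76) (nat_lit 0) (XT.lf (nat_lit 0) (nat_lit 1476400506) (nat_lit 228) (nat_lit 10633333788)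 (nat_lit 304) (nat_lit 1315055878) (nat_lit 86) (nat_lit 5) (nat_lit 89) (nat_lit 5) (nat_lit 90) (nat_lit 5) (nat_lit 480) (nat_lit 367) (nat_lit 293)) (XT.lf (nat_lit 0) (nat_lit 1955775889) (nat_lit 304) (nat_lit 4914632101) (nat_lit 76) (nat_lit 6731087103) (nat_lit 85) (nat_lit 5) (nat_lit 89) (nat_lit 5) (nat_lit 86) (nat_lit 5) (nat_lit 481) (nat_lit 367) (nat_lit 292)))) (XT.nd (nat_lit 156) (nat_lit 304) (nat_lit 0) (XT.nd (nat_lit 78) (nat_lit 0) (nat_lit 0) (XT.lf (nat_lit 0) (nat_lit 2235917836) (nat_lit 304) (nat_lit 3025079163) (nat_lit 380) (nat_lit 8520842700) (nat_lit 81) (nat_lit 5) (nat_lit 85) (nat_lit 5) (nat_lit 86) (nat_lit 5) (nat_lit 482) (nat_lit 367) (nat_lit 291)) (XT.lf (nat_lit 0) (nat_lit 8643547274) (nat_lit 380) (nat_lit 4419739997) (nat_lit 76) (nat_lit 902290275) (nat_lit 81) (nat_lit 5) (nat_lit 86) (nat_lit 5) (nat_lit 82) (nat_lit 5) (nat_lit 483) (nat_lit 367) (nat_lit 290)))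 (XT.nd (nat_lit 78) (nat_lit 76) (nat_lit 0) (XT.lf (nat_lit 0) (nat_lit 2822157762) (nat_lit 228) (nat_lit 9282694447) (nat_lit 304) (nat_lit 2047926500) (nat_lit 78) (nat_lit 5) (nat_lit 81) (nat_lit 5) (nat_lit 82) (nat_lit 5) (nat_lit 484) (nat_lit 367) (nat_lit 289)) (XT.lf (nat_lit 0) (nat_lit 1277383747) (nat_lit 304) (nat_lit 4126779934) (nat_lit 76) (nat_lit 8939349412) (nat_lit 77) (nat_lit 5) (nat_lit 81) (nat_lit 5) (nat_lit 78) (nat_lit 5) (nat_lit 485) (nat_lit 367) (nat_lit 288))))) (XT.nd (nat_lit 234) (nat_lit 532) (nat_lit 0) (XT.nd (nat_lit 78) (nat_lit 228) (nat_lit 0) (XT.lf (nat_lit 0) (nat_lit 3206620378) (nat_lit 304) (nat_lit 1429345919) (nat_lit 380) (nat_lit 9901951395) (nat_lit 73) (nat_lit 5) (nat_lit 77) (nat_lit 5) (nat_lit 78) (nat_lit 5) (nat_lit 486) (nat_lit 367) (nat_lit 287)) (XT.nd (nat_lit 78) (nat_lit 228) (nat_lit 0) (XT.lf (nat_lit 0) (nat_lit 8080121836) (nat_lit 380)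 (nat_lit 4053414335) (nat_lit 76) (nat_lit 2602316008) (nat_lit 73) (nat_lit 5) (nat_lit 78) (nat_lit 5) (nat_lit 74) (nat_lit 5) (nat_lit 487) (nat_lit 367) (nat_lit 286)) (XT.lf (nat_lit 0) (nat_lit 3362344797) (nat_lit 228) (nat_lit 8236114125) (nat_lit 304) (nat_lit 3339190092) (nat_lit 70) (nat_lit 5) (nat_lit 73) (nat_lit 5) (nat_lit 74) (nat_lit 5) (nat_lit 488) (nat_lit 367) (nat_lit 285)))) (XT.nd (nat_lit 156) (nat_lit 228) (nat_lit 0) (XT.nd (nat_lit 78) (nat_lit 228) (nat_lit 0) (XT.lf (nat_lit 0) (nat_lit 44547682) (nat_lit 304) (nat_lit 4204426326) (nat_lit 76) (nat_lit 10894482572) (nat_lit 69) (nat_lit 5) (nat_lit 73) (nat_lit 5) (nat_lit 70) (nat_lit 5) (nat_lit 489) (nat_lit 367) (nat_lit 284)) (XT.lf (nat_lit 0) (nat_lit 3293390834) (nat_lit 228) (nat_lit 153849870) (nat_lit 304) (nat_lit 11905787382) (nat_lit 66) (nat_lit 5) (nat_lit 69) (nat_lit 5) (nat_lit 70) (nat_lit 5) (nat_lit 490) (nat_lit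 367) (nat_lit 283))) (XT.nd (nat_lit 78) (nat_lit 228) (nat_lit 0) (XT.lf (nat_lit 0) (nat_lit 6947203262) (nat_lit 304) (nat_lit 4636071245) (nat_lit 76) (nat_lit 3982941098) (nat_lit 66) (nat_lit 5) (nat_lit 70) (nat_lit 5) (nat_lit 67) (nat_lit 5) (nat_lit 491) (nat_lit 367) (nat_lit 282)) (XT.lf (nat_lit 0) (nat_lit 2932532442) (nat_lit 228) (nat_lit 7579881429) (nat_lit 304) (nat_lit 5271356747) (nat_lit 63) (nat_lit 5) (nat_lit 66) (nat_lit 5) (nat_lit 67) (nat_lit 5) (nat_lit 492) (nat_lit 367) (nat_lit 281)))))) (XT.nd (nat_lit 546) (nat_lit 608) (nat_lit 0) (XT.nd (nat_lit 234) (nat_lit 532) (nat_lit 0) (XT.nd (nat_lit 78) (nat_lit 304) (nat_lit 0) (XT.lf (nat_lit 0) (nat_lit 10674744830) (nat_lit 228) (nat_lit 3480707152) (nat_lit 304) (nat_lit 1850102837) (nat_lit 63) (nat_lit 5) (nat_lit 66) (nat_lit 5) (nat_lit 67) (nat_lit 5) (nat_lit 493) (nat_lit 367) (nat_lit 280)) (XT.nd (nat_lit 78) (nat_lit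 0) (nat_lit 0) (XT.lf (nat_lit 0) (nat_lit 1613475609) (nat_lit 304) (nat_lit 13916706046) (nat_lit 76) (nat_lit 701480306) (nat_lit 59) (nat_lit 5) (nat_lit 63) (nat_lit 5) (nat_lit 60) (nat_lit 5) (nat_lit 494) (nat_lit 367) (nat_lit 279)) (XT.lf (nat_lit 0) (nat_lit 5156477704) (nat_lit 304) (nat_lit 6351481903) (nat_lit 76) (nat_lit 4953396615) (nat_lit 59) (nat_lit 5) (nat_lit 63) (nat_lit 5) (nat_lit 60) (nat_lit 5) (nat_lit 495) (nat_lit 367) (nat_lit 278)))) (XT.nd (nat_lit 156) (nat_lit 304) (nat_lit 0) (XT.nd (nat_lit 78) (nat_lit 0) (nat_lit 0) (XT.lf (nat_lit 0) (nat_lit 1343188869) (nat_lit 228) (nat_lit 7412186858) (nat_lit 304) (nat_lit 7940575823) (nat_lit 56) (nat_lit 5) (nat_lit 59) (nat_lit 5) (nat_lit 60) (nat_lit 5) (nat_lit 496) (nat_lit 367) (nat_lit 277)) (XT.lf (nat_lit 0) (nat_lit 9238634746) (nat_lit 228) (nat_lit 3206763570) (nat_lit 304) (nat_lit 4489465282) (nat_lit 56) (nat_lit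 5) (nat_lit 59) (nat_lit 5) (nat_lit 60) (nat_lit 5) (nat_lit 497) (nat_lit 367) (nat_lit 276))) (XT.nd (nat_lit 78) (nat_lit 76) (nat_lit 0) (XT.lf (nat_lit 0) (nat_lit 68490757) (nat_lit 228) (nat_lit 16125090268) (nat_lit 304) (nat_lit 985293260) (nat_lit 53) (nat_lit 5) (nat_lit 56) (nat_lit 5) (nat_lit 57) (nat_lit 5) (nat_lit 498) (nat_lit 367) (nat_lit 275)) (XT.lf (nat_lit 0) (nat_lit 2605160854) (nat_lit 304) (nat_lit 9411162906) (nat_lit 76) (nat_lit 5410109472) (nat_lit 52) (nat_lit 5) (nat_lit 56) (nat_lit 5) (nat_lit 53) (nat_lit 5) (nat_lit 499) (nat_lit 367) (nat_lit 274))))) (XT.nd (nat_lit 312) (nat_lit 228) (nat_lit 0) (XT.nd (nat_lit 156) (nat_lit 228) (nat_lit 0) (XT.nd (nat_lit 78) (nat_lit 152) (nat_lit 0) (XT.lf (nat_lit 0) (nat_lit 6231624428) (nat_lit 304) (nat_lit 1602592472) (nat_lit 76) (nat_lit 9845055489) (nat_lit 52) (nat_lit 5) (nat_lit 56) (nat_lit 5) (nat_lit 53) (nat_lit 5)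 (nat_lit 500) (nat_lit 367) (nat_lit 273)) (XT.lf (nat_lit 0) (nat_lit 6408840226) (nat_lit 152) (nat_lit 3541212117) (nat_lit 228) (nat_lit 7986734300) (nat_lit 50) (nat_lit 5) (nat_lit 52) (nat_lit 5) (nat_lit 53) (nat_lit 5) (nat_lit 501) (nat_lit 367) (nat_lit 272))) (XT.nd (nat_lit 78) (nat_lit 228) (nat_lit 0) (XT.lf (nat_lit 0) (nat_lit 13737033062) (nat_lit 228) (nat_lit 3639985447) (nat_lit 76) (nat_lit 822555864) (nat_lit 50) (nat_lit 5) (nat_lit 53) (nat_lit 5) (nat_lit 51) (nat_lit 5) (nat_lit 502) (nat_lit 367) (nat_lit 271)) (XT.lf (nat_lit 0) (nat_lit 4403303044) (nat_lit 228) (nat_lit 13226844377) (nat_lit 304) (nat_lit 836869300) (nat_lit 47) (nat_lit 5) (nat_lit 50) (nat_lit 5) (nat_lit 51) (nat_lit 5) (nat_lit 503) (nat_lit 367) (nat_lit 270)))) (XT.nd (nat_lit 156) (nat_lit 0) (nat_lit 0) (XT.nd (nat_lit 78) (nat_lit 152) (nat_lit 0) (XT.lf (nat_lit 0) (nat_lit 2826769486) (nat_lit 304) (nat_lit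 6138042515) (nat_lit 76) (nat_lit 9774571242) (nat_lit 46) (nat_lit 5) (nat_lit 50) (nat_lit 5) (nat_lit 47) (nat_lit 5) (nat_lit 504) (nat_lit 367) (nat_lit 269)) (XT.lf (nat_lit 0) (nat_lit 1929849360) (nat_lit 152) (nat_lit 4613982061) (nat_lit 228) (nat_lit 12473434275) (nat_lit 44) (nat_lit 5) (nat_lit 46) (nat_lit 5) (nat_lit 47) (nat_lit 5) (nat_lit 505) (nat_lit 367) (nat_lit 268))) (XT.nd (nat_lit 78) (nat_lit 0) (nat_lit 0) (XT.lf (nat_lit 0) (nat_lit 10206478248) (nat_lit 152) (nat_lit 148944346) (nat_lit 228) (nat_lit 8944885673) (nat_lit 44) (nat_lit 5) (nat_lit 46) (nat_lit 5) (nat_lit 47) (nat_lit 5) (nat_lit 506) (nat_lit 367) (nat_lit 267)) (XT.lf (nat_lit 0) (nat_lit 14251164279) (nat_lit 228) (nat_lit 1004419452) (nat_lit 76) (nat_lit 4333275690) (nat_lit 44) (nat_lit 5) (nat_lit 47) (nat_lit 5) (nat_lit 45) (nat_lit 5) (nat_lit 507) (nat_lit 367) (nat_lit 266))))))))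
noncomputable def xc72 : XT := (XT.nd (nat_lit 51714) (nat_lit 0) (nat_lit 16948) (XT.nd (nat_lit 1092) (nat_lit 456) (nat_lit 0) (XT.nd (nat_lit 546) (nat_lit 532) (nat_lit 0) (XT.nd (nat_lit 234) (nat_lit 228) (nat_lit 0) (XT.nd (nat_lit 78) (nat_lit 228) (nat_lit 0) (XT.lf (nat_lit 0) (nat_lit 7306874167) (nat_lit 228) (nat_lit 10946095609) (nat_lit 304) (nat_lit 1629654830) (nat_lit 41) (nat_lit 5) (nat_lit 44) (nat_lit 5) (nat_lit 45) (nat_lit 5) (nat_lit 508) (nat_lit 367) (nat_lit 265)) (XT.nd (nat_lit 78) (nat_lit 152) (nat_lit 0) (XT.lf (nat_lit 0) (nat_lit 2110856140) (nat_lit 304) (nat_lit 4432937768) (nat_lit 76) (nat_lit 13638466608) (nat_lit 40) (nat_lit 5) (nat_lit 44) (nat_lit 5) (nat_lit 41) (nat_lit 5) (nat_lit 509) (nat_lit 367) (nat_lit 264)) (XT.lf (nat_lit 0) (nat_lit 3878694883) (nat_lit 152) (nat_lit 2031017829) (nat_lit 228) (nat_lit 14577859505) (nat_lit 38) (nat_lit 5) (nat_lit 40)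 (nat_lit 5) (nat_lit 41) (nat_lit 5) (nat_lit 510) (nat_lit 367) (nat_lit 263)))) (XT.nd (nat_lit 156) (nat_lit 228) (nat_lit 0) (XT.nd (nat_lit 78) (nat_lit 0) (nat_lit 0) (XT.lf (nat_lit 0) (nat_lit 9811419842) (nat_lit 228) (nat_lit 8432837627) (nat_lit 76) (nat_lit 2554200745) (nat_lit 38) (nat_lit 5) (nat_lit 41) (nat_lit 5) (nat_lit 39) (nat_lit 5) (nat_lit 511) (nat_lit 367) (nat_lit 262)) (XT.lf (nat_lit 0) (nat_lit 13785229074) (nat_lit 228) (nat_lit 140253089) (nat_lit 76) (nat_lit 7190203832) (nat_lit 38) (nat_lit 5) (nat_lit 41) (nat_lit 5) (nat_lit 39) (nat_lit 5) (nat_lit 512) (nat_lit 367) (nat_lit 261))) (XT.nd (nat_lit 78) (nat_lit 76) (nat_lit 0) (XT.lf (nat_lit 0) (nat_lit 8395422463) (nat_lit 152) (nat_lit 9478598236) (nat_lit 228) (nat_lit 3564532825) (nat_lit 36) (nat_lit 5) (nat_lit 38) (nat_lit 5) (nat_lit 39) (nat_lit 5) (nat_lit 513) (nat_lit 367) (nat_lit 260)) (XT.lf (nat_lit 0) (nat_lit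 255056293) (nat_lit 228) (nat_lit 4698858850) (nat_lit 76) (nat_lit 16814292925) (nat_lit 35) (nat_lit 5) (nat_lit 38) (nat_lit 5) (nat_lit 36) (nat_lit 5) (nat_lit 514) (nat_lit 367) (nat_lit 259))))) (XT.nd (nat_lit 234) (nat_lit 380) (nat_lit 0) (XT.nd (nat_lit 78) (nat_lit 0) (nat_lit 0) (XT.lf (nat_lit 0) (nat_lit 3806349716) (nat_lit 152) (nat_lit 303116574) (nat_lit 228) (nat_lit 17994400029) (nat_lit 33) (nat_lit 5) (nat_lit 35) (nat_lit 5) (nat_lit 36) (nat_lit 5) (nat_lit 515) (nat_lit 367) (nat_lit 258)) (XT.nd (nat_lit 78) (nat_lit 0) (nat_lit 0) (XT.lf (nat_lit 0) (nat_lit 8083005555) (nat_lit 228) (nat_lit 9961628181) (nat_lit 76) (nat_lit 4400768088) (nat_lit 33) (nat_lit 5) (nat_lit 36) (nat_lit 5) (nat_lit 34) (nat_lit 5) (nat_lit 516) (nat_lit 367) (nat_lit 257)) (XT.lf (nat_lit 0) (nat_lit 12119854837) (nat_lit 228) (nat_lit 1492732354) (nat_lit 76) (nat_lit 9181508879) (nat_lit 33) (nat_lit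 5) (nat_lit 36) (nat_lit 5) (nat_lit 34) (nat_lit 5) (nat_lit 517) (nat_lit 367) (nat_lit 256)))) (XT.nd (nat_lit 156) (nat_lit 228) (nat_lit 0) (XT.nd (nat_lit 78) (nat_lit 0) (nat_lit 0) (XT.lf (nat_lit 0) (nat_lit 7209007476) (nat_lit 152) (nat_lit 9057427363) (nat_lit 228) (nat_lit 6882754208) (nat_lit 31) (nat_lit 5) (nat_lit 33) (nat_lit 5) (nat_lit 34) (nat_lit 5) (nat_lit 518) (nat_lit 367) (nat_lit 255)) (XT.lf (nat_lit 0) (nat_lit 16074139623) (nat_lit 152) (nat_lit 4414160694) (nat_lit 228) (nat_lit 3023241117) (nat_lit 31) (nat_lit 5) (nat_lit 33) (nat_lit 5) (nat_lit 34) (nat_lit 5) (nat_lit 519) (nat_lit 367) (nat_lit 254))) (XT.nd (nat_lit 78) (nat_lit 0) (nat_lit 0) (XT.lf (nat_lit 0) (nat_lit 894031271) (nat_lit 228) (nat_lit 22668385596) (nat_lit 76) (nat_lit 318758848) (nat_lit 28) (nat_lit 5) (nat_lit 31) (nat_lit 5) (nat_lit 29) (nat_lit 5) (nat_lit 520) (nat_lit 367) (nat_lit 253)) (XT.lf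 (nat_lit 0) (nat_lit 4911302640) (nat_lit 228) (nat_lit 14200560072) (nat_lit 76) (nat_lit 5144701966) (nat_lit 28) (nat_lit 5) (nat_lit 31) (nat_lit 5) (nat_lit 29) (nat_lit 5) (nat_lit 521) (nat_lit 367) (nat_lit 252)))))) (XT.nd (nat_lit 546) (nat_lit 152) (nat_lit 0) (XT.nd (nat_lit 234) (nat_lit 152) (nat_lit 0) (XT.nd (nat_lit 78) (nat_lit 152) (nat_lit 0) (XT.lf (nat_lit 0) (nat_lit 8991884764) (nat_lit 228) (nat_lit 5593351132) (nat_lit 76) (nat_lit 10054570492) (nat_lit 28) (nat_lit 5) (nat_lit 31) (nat_lit 5) (nat_lit 29) (nat_lit 5) (nat_lit 522) (nat_lit 367) (nat_lit 251)) (XT.nd (nat_lit 78) (nat_lit 0) (nat_lit 0) (XT.lf (nat_lit 0) (nat_lit 3198566372) (nat_lit 152) (nat_lit 9959578713) (nat_lit 228) (nat_lit 11872490708) (nat_lit 26) (nat_lit 5) (nat_lit 28) (nat_lit 5) (nat_lit 29) (nat_lit 5) (nat_lit 523) (nat_lit 367) (nat_lit 250)) (XT.lf (nat_lit 0) (nat_lit 12212949512) (nat_lit 152) (nat_lit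 5215752702) (nat_lit 228) (nat_lit 8000164250) (nat_lit 26) (nat_lit 5) (nat_lit 28) (nat_lit 5) (nat_lit 29) (nat_lit 5) (nat_lit 524) (nat_lit 367) (nat_lit 249)))) (XT.nd (nat_lit 156) (nat_lit 76) (nat_lit 0) (XT.nd (nat_lit 78) (nat_lit 76) (nat_lit 0) (XT.lf (nat_lit 0) (nat_lit 21379000647) (nat_lit 152) (nat_lit 389431869) (nat_lit 228) (nat_lit 4066958021) (nat_lit 26) (nat_lit 5) (nat_lit 28) (nat_lit 5) (nat_lit 29) (nat_lit 5) (nat_lit 525) (nat_lit 367) (nat_lit 248)) (XT.lf (nat_lit 0) (nat_lit 4479339082) (nat_lit 76) (nat_lit 21758136730) (nat_lit 152) (nat_lit 11722862) (nat_lit 25) (nat_lit 5) (nat_lit 26) (nat_lit 5) (nat_lit 27) (nat_lit 4) (nat_lit 526) (nat_lit 367) (nat_lit 247))) (XT.nd (nat_lit 78) (nat_lit 0) (nat_lit 0) (XT.lf (nat_lit 0) (nat_lit 4087227542) (nat_lit 152) (nat_lit 13074383460) (nat_lit 76) (nat_lit 9508806061) (nat_lit 24) (nat_lit 5) (nat_lit 26) (nat_lit 5) (nat_lit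 25) (nat_lit 5) (nat_lit 527) (nat_lit 367) (nat_lit 246)) (XT.lf (nat_lit 0) (nat_lit 8252337244) (nat_lit 152) (nat_lit 4232851851) (nat_lit 76) (nat_lit 14615186152) (nat_lit 24) (nat_lit 5) (nat_lit 26) (nat_lit 5) (nat_lit 25) (nat_lit 5) (nat_lit 528) (nat_lit 367) (nat_lit 245))))) (XT.nd (nat_lit 49764) (nat_lit 0) (nat_lit 36252) (XT.nd (nat_lit 49608) (nat_lit 0) (nat_lit 39824) (XT.lf (nat_lit 0) (nat_lit 4821513632) (nat_lit 152) (nat_lit 7695184197) (nat_lit 228) (nat_lit 15021919440) (nat_lit 22) (nat_lit 5) (nat_lit 24) (nat_lit 5) (nat_lit 25) (nat_lit 5) (nat_lit 529) (nat_lit 367) (nat_lit 244)) (XT.nd (nat_lit 78) (nat_lit 0) (nat_lit 0) (XT.lf (nat_lit 0) (nat_lit 55299700) (nat_lit 988) (nat_lit 1655578862) (nat_lit 988) (nat_lit 1655578862) (nat_lit 546) (nat_lit 4) (nat_lit 559) (nat_lit 5) (nat_lit 559) (nat_lit 4) (nat_lit 404) (nat_lit 368) (nat_lit 368)) (XT.lf (nat_lit 0) (nat_lit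 4286964173) (nat_lit 988) (nat_lit 2263771157) (nat_lit 988) (nat_lit 207403286) (nat_lit 546) (nat_lit 4) (nat_lit 559) (nat_lit 5) (nat_lit 559) (nat_lit 4) (nat_lit 405) (nat_lit 368) (nat_lit 367)))) (XT.nd (nat_lit 156) (nat_lit 2432) (nat_lit 0) (XT.nd (nat_lit 78) (nat_lit 0) (nat_lit 0) (XT.lf (nat_lit 0) (nat_lit 1710854658) (nat_lit 1064) (nat_lit 1152150025) (nat_lit 1140) (nat_lit 3921690576) (nat_lit 531) (nat_lit 5) (nat_lit 545) (nat_lit 5) (nat_lit 546) (nat_lit 4) (nat_lit 406) (nat_lit 368) (nat_lit 366)) (XT.lf (nat_lit 0) (nat_lit 5941938184) (nat_lit 1140) (nat_lit 859284830) (nat_lit 0) (nat_lit 11613279) (nat_lit 531) (nat_lit 5) (nat_lit 546) (nat_lit 4) (nat_lit 531) (nat_lit 4) (nat_lit 407) (nat_lit 368) (nat_lit 365))) (XT.nd (nat_lit 78) (nat_lit 1216) (nat_lit 0) (XT.lf (nat_lit 0) (nat_lit 2175678706) (nat_lit 1216) (nat_lit 3435219968) (nat_lit 76) (nat_lit 1231142830) (nat_lit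 515) (nat_lit 5) (nat_lit 531) (nat_lit 5) (nat_lit 516) (nat_lit 4) (nat_lit 408) (nat_lit 368) (nat_lit 364)) (XT.lf (nat_lit 0) (nat_lit 847536400) (nat_lit 1216) (nat_lit 4370356220) (nat_lit 1292) (nat_lit 1654969764) (nat_lit 499) (nat_lit 5) (nat_lit 515) (nat_lit 5) (nat_lit 516) (nat_lit 4) (nat_lit 409) (nat_lit 368) (nat_lit 363))))))) (XT.nd (nat_lit 1092) (nat_lit 6992) (nat_lit 0) (XT.nd (nat_lit 546) (nat_lit 6460) (nat_lit 0) (XT.nd (nat_lit 234) (nat_lit 3040) (nat_lit 0) (XT.nd (nat_lit 78) (nat_lit 2736) (nat_lit 0) (XT.lf (nat_lit 0) (nat_lit 1356741982) (nat_lit 1292) (nat_lit 1707192426) (nat_lit 76) (nat_lit 3841079066) (nat_lit 498) (nat_lit 5) (nat_lit 515) (nat_lit 5) (nat_lit 499) (nat_lit 5) (nat_lit 410) (nat_lit 368) (nat_lit 362)) (XT.nd (nat_lit 78) (nat_lit 1444) (nat_lit 0) (XT.lf (nat_lit 0) (nat_lit 2665899159) (nat_lit 1292) (nat_lit 1694689329) (nat_lit 1368) (nat_lit 2577988865)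 (nat_lit 481) (nat_lit 5) (nat_lit 498) (nat_lit 5) (nat_lit 499) (nat_lit 5) (nat_lit 411) (nat_lit 368) (nat_lit 361)) (XT.lf (nat_lit 0) (nat_lit 119624616) (nat_lit 1368) (nat_lit 275592994) (nat_lit 1444) (nat_lit 6578614454) (nat_lit 462) (nat_lit 5) (nat_lit 480) (nat_lit 5) (nat_lit 481) (nat_lit 5) (nat_lit 412) (nat_lit 368) (nat_lit 360)))) (XT.nd (nat_lit 156) (nat_lit 1596) (nat_lit 0) (XT.nd (nat_lit 78) (nat_lit 1444) (nat_lit 0) (XT.lf (nat_lit 0) (nat_lit 3367918757) (nat_lit 1444) (nat_lit 2433324518) (nat_lit 76) (nat_lit 1208782528) (nat_lit 462) (nat_lit 5) (nat_lit 481) (nat_lit 5) (nat_lit 463) (nat_lit 5) (nat_lit 413) (nat_lit 368) (nat_lit 359)) (XT.lf (nat_lit 0) (nat_lit 2045164298) (nat_lit 1444) (nat_lit 4309275160) (nat_lit 1520) (nat_lit 693481099) (nat_lit 443) (nat_lit 5) (nat_lit 462) (nat_lit 5) (nat_lit 463) (nat_lit 5) (nat_lit 414) (nat_lit 368) (nat_lit 358))) (XT.nd (nat_lit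 78) (nat_lit 1520) (nat_lit 0) (XT.lf (nat_lit 0) (nat_lit 2239838059) (nat_lit 1520) (nat_lit 511478675) (nat_lit 76) (nat_lit 4335896511) (nat_lit 442) (nat_lit 5) (nat_lit 462) (nat_lit 5) (nat_lit 443) (nat_lit 5) (nat_lit 415) (nat_lit 368) (nat_lit 357)) (XT.lf (nat_lit 0) (nat_lit 4063118072) (nat_lit 1520) (nat_lit 1126626338) (nat_lit 1596) (nat_lit 1938172302) (nat_lit 422) (nat_lit 5) (nat_lit 442) (nat_lit 5) (nat_lit 443) (nat_lit 5) (nat_lit 416) (nat_lit 368) (nat_lit 356))))) (XT.nd (nat_lit 234) (nat_lit 3116) (nat_lit 0) (XT.nd (nat_lit 78) (nat_lit 1672) (nat_lit 0) (XT.lf (nat_lit 0) (nat_lit 973842860) (nat_lit 1672) (nat_lit 5649483636) (nat_lit 76) (nat_lit 546869952) (nat_lit 400) (nat_lit 5) (nat_lit 422) (nat_lit 5) (nat_lit 401) (nat_lit 5) (nat_lit 417) (nat_lit 368) (nat_lit 355)) (XT.nd (nat_lit 78) (nat_lit 1672) (nat_lit 0) (XT.lf (nat_lit 0) (nat_lit 3888322487) (nat_lit 1672)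 (nat_lit 1050413085) (nat_lit 76) (nat_lit 2274983683) (nat_lit 400) (nat_lit 5) (nat_lit 422) (nat_lit 5) (nat_lit 401) (nat_lit 5) (nat_lit 418) (nat_lit 368) (nat_lit 354)) (XT.lf (nat_lit 0) (nat_lit 3632844677) (nat_lit 1672) (nat_lit 3194959665) (nat_lit 1748) (nat_lit 431030034) (nat_lit 378) (nat_lit 5) (nat_lit 400) (nat_lit 5) (nat_lit 401) (nat_lit 5) (nat_lit 419) (nat_lit 368) (nat_lit 353)))) (XT.nd (nat_lit 156) (nat_lit 1748) (nat_lit 0) (XT.nd (nat_lit 78) (nat_lit 0) (nat_lit 0) (XT.lf (nat_lit 0) (nat_lit 1060913097) (nat_lit 1292) (nat_lit 1384685763) (nat_lit 1368) (nat_lit 4859830657) (nat_lit 360) (nat_lit 5) (nat_lit 377) (nat_lit 5) (nat_lit 378) (nat_lit 5) (nat_lit 420) (nat_lit 368) (nat_lit 352)) (XT.lf (nat_lit 0) (nat_lit 5345693505) (nat_lit 1368) (nat_lit 1524461816) (nat_lit 76) (nat_lit 483363038) (nat_lit 360) (nat_lit 5) (nat_lit 378) (nat_lit 5) (nat_lit 361) (nat_lit 5)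 (nat_lit 421) (nat_lit 368) (nat_lit 351))) (XT.nd (nat_lit 78) (nat_lit 836) (nat_lit 0) (XT.lf (nat_lit 0) (nat_lit 864879634) (nat_lit 912) (nat_lit 4140683072) (nat_lit 76) (nat_lit 2397430500) (nat_lit 348) (nat_lit 5) (nat_lit 360) (nat_lit 5) (nat_lit 349) (nat_lit 5) (nat_lit 422) (nat_lit 368) (nat_lit 350)) (XT.lf (nat_lit 0) (nat_lit 651429258) (nat_lit 836) (nat_lit 3076884456) (nat_lit 912) (nat_lit 3725725018) (nat_lit 337) (nat_lit 5) (nat_lit 348) (nat_lit 5) (nat_lit 349) (nat_lit 5) (nat_lit 423) (nat_lit 368) (nat_lit 349)))))) (XT.nd (nat_lit 546) (nat_lit 3572) (nat_lit 0) (XT.nd (nat_lit 234) (nat_lit 1672) (nat_lit 0) (XT.nd (nat_lit 78) (nat_lit 1748) (nat_lit 0) (XT.lf (nat_lit 0) (nat_lit 5539901358) (nat_lit 836) (nat_lit 1083214676) (nat_lit 912) (nat_lit 883555991) (nat_lit 337) (nat_lit 5) (nat_lit 348) (nat_lit 5) (nat_lit 349) (nat_lit 5) (nat_lit 424) (nat_lit 368) (nat_lit 348))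 (XT.nd (nat_lit 78) (nat_lit 836) (nat_lit 0) (XT.lf (nat_lit 0) (nat_lit 1961424115) (nat_lit 912) (nat_lit 4631258367) (nat_lit 76) (nat_lit 968012722) (nat_lit 325) (nat_lit 5) (nat_lit 337) (nat_lit 5) (nat_lit 326) (nat_lit 5) (nat_lit 425) (nat_lit 368) (nat_lit 347)) (XT.lf (nat_lit 0) (nat_lit 269126461) (nat_lit 836) (nat_lit 4552200942) (nat_lit 912) (nat_lit 2795003578) (nat_lit 314) (nat_lit 5) (nat_lit 325) (nat_lit 5) (nat_lit 326) (nat_lit 5) (nat_lit 426) (nat_lit 368) (nat_lit 346)))) (XT.nd (nat_lit 156) (nat_lit 836) (nat_lit 0) (XT.nd (nat_lit 78) (nat_lit 760) (nat_lit 0) (XT.lf (nat_lit 0) (nat_lit 43691852) (nat_lit 912) (nat_lit 2399143706) (nat_lit 76) (nat_lit 5230695679) (nat_lit 313) (nat_lit 5) (nat_lit 325) (nat_lit 5) (nat_lit 314) (nat_lit 5) (nat_lit 427) (nat_lit 368) (nat_lit 345)) (XT.lf (nat_lit 0) (nat_lit 2608329428) (nat_lit 760) (nat_lit 259313554) (nat_lit 836) (nat_lit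 4864588253) (nat_lit 303) (nat_lit 5) (nat_lit 313) (nat_lit 5) (nat_lit 314) (nat_lit 5) (nat_lit 428) (nat_lit 368) (nat_lit 344))) (XT.nd (nat_lit 78) (nat_lit 836) (nat_lit 0) (XT.lf (nat_lit 0) (nat_lit 5726608844) (nat_lit 836) (nat_lit 112099656) (nat_lit 76) (nat_lit 1953868541) (nat_lit 303) (nat_lit 5) (nat_lit 314) (nat_lit 5) (nat_lit 304) (nat_lit 5) (nat_lit 429) (nat_lit 368) (nat_lit 343)) (XT.lf (nat_lit 0) (nat_lit 762921092) (nat_lit 836) (nat_lit 2850388346) (nat_lit 76) (nat_lit 4241065998) (nat_lit 292) (nat_lit 5) (nat_lit 303) (nat_lit 5) (nat_lit 293) (nat_lit 5) (nat_lit 430) (nat_lit 368) (nat_lit 342))))) (XT.nd (nat_lit 234) (nat_lit 2052) (nat_lit 0) (XT.nd (nat_lit 78) (nat_lit 836) (nat_lit 0) (XT.lf (nat_lit 0) (nat_lit 2267427926) (nat_lit 684) (nat_lit 1319596073) (nat_lit 760) (nat_lit 4330826766) (nat_lit 283) (nat_lit 5) (nat_lit 292) (nat_lit 5) (nat_lit 293) (nat_lit 5)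 (nat_lit 431) (nat_lit 368) (nat_lit 341)) (XT.nd (nat_lit 78) (nat_lit 836) (nat_lit 0) (XT.lf (nat_lit 0) (nat_lit 6444849111) (nat_lit 760) (nat_lit 518475442) (nat_lit 76) (nat_lit 1019765531) (nat_lit 283) (nat_lit 5) (nat_lit 293) (nat_lit 5) (nat_lit 284) (nat_lit 5) (nat_lit 432) (nat_lit 368) (nat_lit 340)) (XT.lf (nat_lit 0) (nat_lit 1284585937) (nat_lit 836) (nat_lit 3343745015) (nat_lit 76) (nat_lit 3421339405) (nat_lit 272) (nat_lit 5) (nat_lit 283) (nat_lit 5) (nat_lit 273) (nat_lit 5) (nat_lit 433) (nat_lit 368) (nat_lit 339)))) (XT.nd (nat_lit 156) (nat_lit 1368) (nat_lit 0) (XT.nd (nat_lit 78) (nat_lit 0) (nat_lit 0) (XT.lf (nat_lit 0) (nat_lit 1883860276) (nat_lit 684) (nat_lit 2227715163) (nat_lit 760) (nat_lit 4006474400) (nat_lit 263) (nat_lit 5) (nat_lit 272) (nat_lit 5) (nat_lit 273) (nat_lit 5) (nat_lit 434) (nat_lit 368) (nat_lit 338)) (XT.lf (nat_lit 0) (nat_lit 6972201885) (nat_lit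 760) (nat_lit 983116379) (nat_lit 76) (nat_lit 232972997) (nat_lit 263) (nat_lit 5) (nat_lit 273) (nat_lit 5) (nat_lit 264) (nat_lit 5) (nat_lit 435) (nat_lit 368) (nat_lit 337))) (XT.nd (nat_lit 78) (nat_lit 608) (nat_lit 0) (XT.lf (nat_lit 0) (nat_lit 1605733178) (nat_lit 760) (nat_lit 3909615172) (nat_lit 76) (nat_lit 2744472192) (nat_lit 253) (nat_lit 5) (nat_lit 263) (nat_lit 5) (nat_lit 254) (nat_lit 5) (nat_lit 436) (nat_lit 368) (nat_lit 336)) (XT.lf (nat_lit 0) (nat_lit 1426762375) (nat_lit 608) (nat_lit 3011077497) (nat_lit 684) (nat_lit 3895411347) (nat_lit 245) (nat_lit 5) (nat_lit 253) (nat_lit 5) (nat_lit 254) (nat_lit 5) (nat_lit 437) (nat_lit 368) (nat_lit 335))))))))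
noncomputable def xc73 : XT := (XT.nd (nat_lit 2184) (nat_lit 4864) (nat_lit 0) (XT.nd (nat_lit 1092) (nat_lit 3724) (nat_lit 0) (XT.nd (nat_lit 546) (nat_lit 2736) (nat_lit 0) (XT.nd (nat_lit 234) (nat_lit 1216) (nat_lit 0) (XT.nd (nat_lit 78) (nat_lit 1292) (nat_lit 0) (XT.lf (nat_lit 0) (nat_lit 6868499263) (nat_lit 608) (nat_lit 439081357) (nat_lit 684) (nat_lit 1100983581) (nat_lit 245) (nat_lit 5) (nat_lit 253) (nat_lit 5) (nat_lit 254) (nat_lit 5) (nat_lit 438) (nat_lit 368) (nat_lit 334)) (XT.nd (nat_lit 78) (nat_lit 608) (nat_lit 0) (XT.lf (nat_lit 0) (nat_lit 1721523283) (nat_lit 684) (nat_lit 4580124666) (nat_lit 76) (nat_lit 2183637898) (nat_lit 236) (nat_lit 5) (nat_lit 245) (nat_lit 5) (nat_lit 237) (nat_lit 5) (nat_lit 439) (nat_lit 368) (nat_lit 333)) (XT.lf (nat_lit 0) (nat_lit 863466610) (nat_lit 608) (nat_lit 3696986871) (nat_lit 684) (nat_lit 4003480183) (nat_lit 228) (nat_lit 5) (nat_lit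 236) (nat_lit 5) (nat_lit 237) (nat_lit 5) (nat_lit 440) (nat_lit 368) (nat_lit 332)))) (XT.nd (nat_lit 156) (nat_lit 532) (nat_lit 0) (XT.nd (nat_lit 78) (nat_lit 684) (nat_lit 0) (XT.lf (nat_lit 0) (nat_lit 6423949615) (nat_lit 608) (nat_lit 1019248138) (nat_lit 684) (nat_lit 1201246950) (nat_lit 228) (nat_lit 5) (nat_lit 236) (nat_lit 5) (nat_lit 237) (nat_lit 5) (nat_lit 441) (nat_lit 368) (nat_lit 331)) (XT.lf (nat_lit 0) (nat_lit 1625146886) (nat_lit 684) (nat_lit 5389444447) (nat_lit 76) (nat_lit 1711992270) (nat_lit 219) (nat_lit 5) (nat_lit 228) (nat_lit 5) (nat_lit 220) (nat_lit 5) (nat_lit 442) (nat_lit 368) (nat_lit 330))) (XT.nd (nat_lit 78) (nat_lit 0) (nat_lit 0) (XT.lf (nat_lit 0) (nat_lit 159172949) (nat_lit 532) (nat_lit 4312884000) (nat_lit 608) (nat_lit 4338577255) (nat_lit 212) (nat_lit 5) (nat_lit 219) (nat_lit 5) (nat_lit 220) (nat_lit 5) (nat_lit 443) (nat_lit 368) (nat_lit 329)) (XT.lf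 (nat_lit 0) (nat_lit 5838104846) (nat_lit 532) (nat_lit 1531730574) (nat_lit 608) (nat_lit 1526680410) (nat_lit 212) (nat_lit 5) (nat_lit 219) (nat_lit 5) (nat_lit 220) (nat_lit 5) (nat_lit 444) (nat_lit 368) (nat_lit 328))))) (XT.nd (nat_lit 234) (nat_lit 1596) (nat_lit 0) (XT.nd (nat_lit 78) (nat_lit 532) (nat_lit 0) (XT.lf (nat_lit 0) (nat_lit 1307723639) (nat_lit 608) (nat_lit 6374134974) (nat_lit 76) (nat_lit 1302432535) (nat_lit 204) (nat_lit 5) (nat_lit 212) (nat_lit 5) (nat_lit 205) (nat_lit 5) (nat_lit 445) (nat_lit 368) (nat_lit 327)) (XT.nd (nat_lit 78) (nat_lit 532) (nat_lit 0) (XT.lf (nat_lit 0) (nat_lit 4167885190) (nat_lit 608) (nat_lit 713917057) (nat_lit 76) (nat_lit 4192054633) (nat_lit 204) (nat_lit 5) (nat_lit 212) (nat_lit 5) (nat_lit 205) (nat_lit 5) (nat_lit 446) (nat_lit 368) (nat_lit 326)) (XT.lf (nat_lit 0) (nat_lit 5073428951) (nat_lit 532) (nat_lit 2004260288) (nat_lit 608) (nat_lit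 2087702339) (nat_lit 197) (nat_lit 5) (nat_lit 204) (nat_lit 5) (nat_lit 205) (nat_lit 5) (nat_lit 447) (nat_lit 368) (nat_lit 325)))) (XT.nd (nat_lit 156) (nat_lit 988) (nat_lit 0) (XT.nd (nat_lit 78) (nat_lit 0) (nat_lit 0) (XT.lf (nat_lit 0) (nat_lit 758182278) (nat_lit 608) (nat_lit 7573517592) (nat_lit 76) (nat_lit 927348913) (nat_lit 189) (nat_lit 5) (nat_lit 197) (nat_lit 5) (nat_lit 190) (nat_lit 5) (nat_lit 448) (nat_lit 368) (nat_lit 324)) (XT.lf (nat_lit 0) (nat_lit 3634002269) (nat_lit 608) (nat_lit 1800492176) (nat_lit 76) (nat_lit 3919814165) (nat_lit 189) (nat_lit 5) (nat_lit 197) (nat_lit 5) (nat_lit 190) (nat_lit 5) (nat_lit 449) (nat_lit 368) (nat_lit 323))) (XT.nd (nat_lit 78) (nat_lit 532) (nat_lit 0) (XT.lf (nat_lit 0) (nat_lit 4089447382) (nat_lit 456) (nat_lit 2465257941) (nat_lit 532) (nat_lit 2897045402) (nat_lit 183) (nat_lit 5) (nat_lit 189) (nat_lit 5) (nat_lit 190) (nat_lit 5) (nat_lit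 450) (nat_lit 368) (nat_lit 322)) (XT.lf (nat_lit 0) (nat_lit 521239275) (nat_lit 532) (nat_lit 8992949467) (nat_lit 608) (nat_lit 37369560) (nat_lit 176) (nat_lit 5) (nat_lit 183) (nat_lit 5) (nat_lit 184) (nat_lit 5) (nat_lit 451) (nat_lit 368) (nat_lit 321)))))) (XT.nd (nat_lit 546) (nat_lit 1672) (nat_lit 0) (XT.nd (nat_lit 234) (nat_lit 1520) (nat_lit 0) (XT.nd (nat_lit 78) (nat_lit 456) (nat_lit 0) (XT.lf (nat_lit 0) (nat_lit 2855590113) (nat_lit 608) (nat_lit 3145504773) (nat_lit 76) (nat_lit 3651639138) (nat_lit 175) (nat_lit 5) (nat_lit 183) (nat_lit 5) (nat_lit 176) (nat_lit 5) (nat_lit 452) (nat_lit 368) (nat_lit 320)) (XT.nd (nat_lit 78) (nat_lit 0) (nat_lit 0) (XT.lf (nat_lit 0) (nat_lit 2842327628) (nat_lit 456) (nat_lit 2944101485) (nat_lit 532) (nat_lit 3969911363) (nat_lit 169) (nat_lit 5) (nat_lit 175) (nat_lit 5) (nat_lit 176) (nat_lit 5) (nat_lit 453) (nat_lit 368) (nat_lit 319)) (XT.lf (nat_lit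 0) (nat_lit 8760648775) (nat_lit 532) (nat_lit 922362616) (nat_lit 76) (nat_lit 179334508) (nat_lit 169) (nat_lit 5) (nat_lit 176) (nat_lit 5) (nat_lit 170) (nat_lit 5) (nat_lit 454) (nat_lit 368) (nat_lit 318)))) (XT.nd (nat_lit 156) (nat_lit 532) (nat_lit 0) (XT.nd (nat_lit 78) (nat_lit 456) (nat_lit 0) (XT.lf (nat_lit 0) (nat_lit 1816343395) (nat_lit 532) (nat_lit 4795500381) (nat_lit 76) (nat_lit 3358084431) (nat_lit 162) (nat_lit 5) (nat_lit 169) (nat_lit 5) (nat_lit 163) (nat_lit 5) (nat_lit 455) (nat_lit 368) (nat_lit 317)) (XT.lf (nat_lit 0) (nat_lit 1284423357) (nat_lit 456) (nat_lit 3471408323) (nat_lit 532) (nat_lit 5324148909) (nat_lit 156) (nat_lit 5) (nat_lit 162) (nat_lit 5) (nat_lit 163) (nat_lit 5) (nat_lit 456) (nat_lit 368) (nat_lit 316))) (XT.nd (nat_lit 78) (nat_lit 532) (nat_lit 0) (XT.lf (nat_lit 0) (nat_lit 7500083045) (nat_lit 456) (nat_lit 249852278) (nat_lit 532) (nat_lit 2442402621)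 (nat_lit 156) (nat_lit 5) (nat_lit 162) (nat_lit 5) (nat_lit 163) (nat_lit 5) (nat_lit 457) (nat_lit 368) (nat_lit 315)) (XT.lf (nat_lit 0) (nat_lit 497246128) (nat_lit 532) (nat_lit 6801187664) (nat_lit 76) (nat_lit 3008328054) (nat_lit 149) (nat_lit 5) (nat_lit 156) (nat_lit 5) (nat_lit 150) (nat_lit 5) (nat_lit 458) (nat_lit 368) (nat_lit 314))))) (XT.nd (nat_lit 234) (nat_lit 836) (nat_lit 0) (XT.nd (nat_lit 78) (nat_lit 836) (nat_lit 0) (XT.lf (nat_lit 0) (nat_lit 3447242453) (nat_lit 532) (nat_lit 627878115) (nat_lit 76) (nat_lit 6348364864) (nat_lit 149) (nat_lit 5) (nat_lit 156) (nat_lit 5) (nat_lit 150) (nat_lit 5) (nat_lit 459) (nat_lit 368) (nat_lit 313)) (XT.nd (nat_lit 78) (nat_lit 456) (nat_lit 0) (XT.lf (nat_lit 0) (nat_lit 5693897503) (nat_lit 380) (nat_lit 764395108) (nat_lit 456) (nat_lit 4084228681) (nat_lit 144) (nat_lit 5) (nat_lit 149) (nat_lit 5) (nat_lit 150) (nat_lit 5) (nat_lit 460)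 (nat_lit 368) (nat_lit 312)) (XT.lf (nat_lit 0) (nat_lit 1438681146) (nat_lit 456) (nat_lit 8086780620) (nat_lit 532) (nat_lit 1138576654) (nat_lit 138) (nat_lit 5) (nat_lit 144) (nat_lit 5) (nat_lit 145) (nat_lit 5) (nat_lit 461) (nat_lit 368) (nat_lit 311)))) (XT.nd (nat_lit 156) (nat_lit 380) (nat_lit 0) (XT.nd (nat_lit 78) (nat_lit 380) (nat_lit 0) (XT.lf (nat_lit 0) (nat_lit 1844795695) (nat_lit 532) (nat_lit 2937382784) (nat_lit 76) (nat_lit 6005517297) (nat_lit 137) (nat_lit 5) (nat_lit 144) (nat_lit 5) (nat_lit 138) (nat_lit 5) (nat_lit 462) (nat_lit 368) (nat_lit 310)) (XT.lf (nat_lit 0) (nat_lit 3465128048) (nat_lit 380) (nat_lit 1396116751) (nat_lit 456) (nat_lit 6052675308) (nat_lit 132) (nat_lit 5) (nat_lit 137) (nat_lit 5) (nat_lit 138) (nat_lit 5) (nat_lit 463) (nat_lit 368) (nat_lit 309))) (XT.nd (nat_lit 78) (nat_lit 380) (nat_lit 0) (XT.lf (nat_lit 0) (nat_lit 7937614916) (nat_lit 456) (nat_lit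 1069652341) (nat_lit 76) (nat_lit 2035426925) (nat_lit 132) (nat_lit 5) (nat_lit 138) (nat_lit 5) (nat_lit 133) (nat_lit 5) (nat_lit 464) (nat_lit 368) (nat_lit 308)) (XT.lf (nat_lit 0) (nat_lit 5450888783) (nat_lit 380) (nat_lit 5636309631) (nat_lit 456) (nat_lit 86628373) (nat_lit 127) (nat_lit 5) (nat_lit 132) (nat_lit 5) (nat_lit 133) (nat_lit 5) (nat_lit 465) (nat_lit 368) (nat_lit 307))))))) (XT.nd (nat_lit 1092) (nat_lit 1976) (nat_lit 0) (XT.nd (nat_lit 546) (nat_lit 1368) (nat_lit 0) (XT.nd (nat_lit 234) (nat_lit 760) (nat_lit 0) (XT.nd (nat_lit 78) (nat_lit 380) (nat_lit 0) (XT.lf (nat_lit 0) (nat_lit 750713533) (nat_lit 304) (nat_lit 2181485381) (nat_lit 380) (nat_lit 8375425689) (nat_lit 122) (nat_lit 5) (nat_lit 126) (nat_lit 5) (nat_lit 127) (nat_lit 5) (nat_lit 466) (nat_lit 368) (nat_lit 306)) (XT.nd (nat_lit 78) (nat_lit 380) (nat_lit 0) (XT.lf (nat_lit 0) (nat_lit 6024997850) (nat_lit 380) (nat_lit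 4070263938) (nat_lit 76) (nat_lit 1348545831) (nat_lit 122) (nat_lit 5) (nat_lit 127) (nat_lit 5) (nat_lit 123) (nat_lit 5) (nat_lit 467) (nat_lit 368) (nat_lit 305)) (XT.lf (nat_lit 0) (nat_lit 2516831176) (nat_lit 380) (nat_lit 6661628796) (nat_lit 456) (nat_lit 2404293670) (nat_lit 117) (nat_lit 5) (nat_lit 122) (nat_lit 5) (nat_lit 123) (nat_lit 5) (nat_lit 468) (nat_lit 368) (nat_lit 304)))) (XT.nd (nat_lit 156) (nat_lit 380) (nat_lit 0) (XT.nd (nat_lit 78) (nat_lit 304) (nat_lit 0) (XT.lf (nat_lit 0) (nat_lit 657326494) (nat_lit 456) (nat_lit 2485595517) (nat_lit 76) (nat_lit 8581572240) (nat_lit 116) (nat_lit 5) (nat_lit 122) (nat_lit 5) (nat_lit 117) (nat_lit 5) (nat_lit 469) (nat_lit 368) (nat_lit 303)) (XT.lf (nat_lit 0) (nat_lit 3747225953) (nat_lit 380) (nat_lit 7653209759) (nat_lit 76) (nat_lit 468345901) (nat_lit 112) (nat_lit 5) (nat_lit 117) (nat_lit 5) (nat_lit 113) (nat_lit 5) (nat_lit 470)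 (nat_lit 368) (nat_lit 302))) (XT.nd (nat_lit 78) (nat_lit 380) (nat_lit 0) (XT.lf (nat_lit 0) (nat_lit 6905473195) (nat_lit 380) (nat_lit 999341726) (nat_lit 76) (nat_lit 4111023114) (nat_lit 112) (nat_lit 5) (nat_lit 117) (nat_lit 5) (nat_lit 113) (nat_lit 5) (nat_lit 471) (nat_lit 368) (nat_lit 301)) (XT.lf (nat_lit 0) (nat_lit 5817577181) (nat_lit 380) (nat_lit 4316634304) (nat_lit 456) (nat_lit 2031491608) (nat_lit 107) (nat_lit 5) (nat_lit 112) (nat_lit 5) (nat_lit 113) (nat_lit 5) (nat_lit 472) (nat_lit 368) (nat_lit 300))))) (XT.nd (nat_lit 234) (nat_lit 684) (nat_lit 0) (XT.nd (nat_lit 78) (nat_lit 304) (nat_lit 0) (XT.lf (nat_lit 0) (nat_lit 417746542) (nat_lit 304) (nat_lit 655770642) (nat_lit 380) (nat_lit 11245335703) (nat_lit 102) (nat_lit 5) (nat_lit 106) (nat_lit 5) (nat_lit 107) (nat_lit 5) (nat_lit 473) (nat_lit 368) (nat_lit 299)) (XT.nd (nat_lit 78) (nat_lit 304) (nat_lit 0) (XT.lf (nat_lit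 0) (nat_lit 4246148674) (nat_lit 380) (nat_lit 5149590798) (nat_lit 76) (nat_lit 3078416378) (nat_lit 102) (nat_lit 5) (nat_lit 107) (nat_lit 5) (nat_lit 103) (nat_lit 5) (nat_lit 474) (nat_lit 368) (nat_lit 298)) (XT.lf (nat_lit 0) (nat_lit 1709302633) (nat_lit 304) (nat_lit 5758793443) (nat_lit 380) (nat_lit 5164764492) (nat_lit 98) (nat_lit 5) (nat_lit 102) (nat_lit 5) (nat_lit 103) (nat_lit 5) (nat_lit 475) (nat_lit 368) (nat_lit 297)))) (XT.nd (nat_lit 156) (nat_lit 304) (nat_lit 0) (XT.nd (nat_lit 78) (nat_lit 380) (nat_lit 0) (XT.lf (nat_lit 0) (nat_lit 8729751442) (nat_lit 304) (nat_lit 2029994963) (nat_lit 380) (nat_lit 2034900400) (nat_lit 98) (nat_lit 5) (nat_lit 102) (nat_lit 5) (nat_lit 103) (nat_lit 5) (nat_lit 476) (nat_lit 368) (nat_lit 296)) (XT.lf (nat_lit 0) (nat_lit 1143981383) (nat_lit 380) (nat_lit 10054569447) (nat_lit 76) (nat_lit 1760947799) (nat_lit 93) (nat_lit 5) (nat_lit 98) (nat_lit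 5) (nat_lit 94) (nat_lit 5) (nat_lit 477) (nat_lit 368) (nat_lit 295))) (XT.nd (nat_lit 78) (nat_lit 304) (nat_lit 0) (XT.lf (nat_lit 0) (nat_lit 4371373682) (nat_lit 380) (nat_lit 3130069249) (nat_lit 76) (nat_lit 5625703911) (nat_lit 93) (nat_lit 5) (nat_lit 98) (nat_lit 5) (nat_lit 94) (nat_lit 5) (nat_lit 478) (nat_lit 368) (nat_lit 294)) (XT.lf (nat_lit 0) (nat_lit 3940366451) (nat_lit 304) (nat_lit 3720347336) (nat_lit 380) (nat_lit 5637497974) (nat_lit 89) (nat_lit 5) (nat_lit 93) (nat_lit 5) (nat_lit 94) (nat_lit 5) (nat_lit 479) (nat_lit 368) (nat_lit 293)))))) (XT.nd (nat_lit 546) (nat_lit 1064) (nat_lit 0) (XT.nd (nat_lit 234) (nat_lit 608) (nat_lit 0) (XT.nd (nat_lit 78) (nat_lit 304) (nat_lit 0) (XT.lf (nat_lit 0) (nat_lit 11009849367) (nat_lit 380) (nat_lit 2323070509) (nat_lit 76) (nat_lit 139909437) (nat_lit 89) (nat_lit 5) (nat_lit 94) (nat_lit 5) (nat_lit 90) (nat_lit 5) (nat_lit 480) (nat_lit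 368) (nat_lit 292)) (XT.nd (nat_lit 78) (nat_lit 0) (nat_lit 0) (XT.lf (nat_lit 0) (nat_lit 793684748) (nat_lit 304) (nat_lit 8807794854) (nat_lit 76) (nat_lit 4048793617) (nat_lit 85) (nat_lit 5) (nat_lit 89) (nat_lit 5) (nat_lit 86) (nat_lit 5) (nat_lit 481) (nat_lit 368) (nat_lit 291)) (XT.lf (nat_lit 0) (nat_lit 4070822393) (nat_lit 304) (nat_lit 1708166286) (nat_lit 76) (nat_lit 8052196183) (nat_lit 85) (nat_lit 5) (nat_lit 89) (nat_lit 5) (nat_lit 86) (nat_lit 5) (nat_lit 482) (nat_lit 368) (nat_lit 290)))) (XT.nd (nat_lit 156) (nat_lit 304) (nat_lit 0) (XT.nd (nat_lit 78) (nat_lit 0) (nat_lit 0) (XT.lf (nat_lit 0) (nat_lit 5563652818) (nat_lit 304) (nat_lit 1859106099) (nat_lit 380) (nat_lit 6592781330) (nat_lit 81) (nat_lit 5) (nat_lit 85) (nat_lit 5) (nat_lit 86) (nat_lit 5) (nat_lit 483) (nat_lit 368) (nat_lit 289)) (XT.lf (nat_lit 0) (nat_lit 10840442794) (nat_lit 380) (nat_lit 1256184028) (nat_lit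 76) (nat_lit 2106992170) (nat_lit 81) (nat_lit 5) (nat_lit 86) (nat_lit 5) (nat_lit 82) (nat_lit 5) (nat_lit 484) (nat_lit 368) (nat_lit 288))) (XT.nd (nat_lit 78) (nat_lit 76) (nat_lit 0) (XT.lf (nat_lit 0) (nat_lit 6109157274) (nat_lit 228) (nat_lit 8243104712) (nat_lit 304) (nat_lit 42691912) (nat_lit 78) (nat_lit 5) (nat_lit 81) (nat_lit 5) (nat_lit 82) (nat_lit 5) (nat_lit 485) (nat_lit 368) (nat_lit 287)) (XT.lf (nat_lit 0) (nat_lit 3282693116) (nat_lit 304) (nat_lit 1015049358) (nat_lit 76) (nat_lit 10292301577) (nat_lit 77) (nat_lit 5) (nat_lit 81) (nat_lit 5) (nat_lit 78) (nat_lit 5) (nat_lit 486) (nat_lit 368) (nat_lit 286))))) (XT.nd (nat_lit 234) (nat_lit 532) (nat_lit 0) (XT.nd (nat_lit 78) (nat_lit 228) (nat_lit 0) (XT.lf (nat_lit 0) (nat_lit 6444004052) (nat_lit 304) (nat_lit 246227260) (nat_lit 380) (nat_lit 8098484339) (nat_lit 73) (nat_lit 5) (nat_lit 77) (nat_lit 5) (nat_lit 78) (nat_lit 5)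 (nat_lit 487) (nat_lit 368) (nat_lit 285)) (XT.nd (nat_lit 78) (nat_lit 228) (nat_lit 0) (XT.lf (nat_lit 0) (nat_lit 10172521219) (nat_lit 380) (nat_lit 991988048) (nat_lit 76) (nat_lit 3826728839) (nat_lit 73) (nat_lit 5) (nat_lit 78) (nat_lit 5) (nat_lit 74) (nat_lit 5) (nat_lit 488) (nat_lit 368) (nat_lit 284)) (XT.lf (nat_lit 0) (nat_lit 6551411961) (nat_lit 228) (nat_lit 7192223251) (nat_lit 304) (nat_lit 1453801487) (nat_lit 70) (nat_lit 5) (nat_lit 73) (nat_lit 5) (nat_lit 74) (nat_lit 5) (nat_lit 489) (nat_lit 368) (nat_lit 283)))) (XT.nd (nat_lit 156) (nat_lit 228) (nat_lit 0) (XT.nd (nat_lit 78) (nat_lit 228) (nat_lit 0) (XT.lf (nat_lit 0) (nat_lit 1934232082) (nat_lit 304) (nat_lit 1202131749) (nat_lit 76) (nat_lit 12271512084) (nat_lit 69) (nat_lit 5) (nat_lit 73) (nat_lit 5) (nat_lit 70) (nat_lit 5) (nat_lit 490) (nat_lit 368) (nat_lit 282)) (XT.lf (nat_lit 0) (nat_lit 5394586857) (nat_lit 304) (nat_lit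 9203394072) (nat_lit 76) (nat_lit 1023878979) (nat_lit 66) (nat_lit 5) (nat_lit 70) (nat_lit 5) (nat_lit 67) (nat_lit 5) (nat_lit 491) (nat_lit 368) (nat_lit 281))) (XT.nd (nat_lit 78) (nat_lit 228) (nat_lit 0) (XT.lf (nat_lit 0) (nat_lit 8928716162) (nat_lit 304) (nat_lit 1693089677) (nat_lit 76) (nat_lit 5218234942) (nat_lit 66) (nat_lit 5) (nat_lit 70) (nat_lit 5) (nat_lit 67) (nat_lit 5) (nat_lit 492) (nat_lit 368) (nat_lit 280)) (XT.lf (nat_lit 0) (nat_lit 6006914353) (nat_lit 228) (nat_lit 6541767958) (nat_lit 304) (nat_lit 3513608260) (nat_lit 63) (nat_lit 5) (nat_lit 66) (nat_lit 5) (nat_lit 67) (nat_lit 5) (nat_lit 493) (nat_lit 368) (nat_lit 279))))))))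
noncomputable def xc74 : XT := (XT.nd (nat_lit 2184) (nat_lit 304) (nat_lit 0) (XT.nd (nat_lit 1092) (nat_lit 1216) (nat_lit 0) (XT.nd (nat_lit 546) (nat_lit 608) (nat_lit 0) (XT.nd (nat_lit 234) (nat_lit 532) (nat_lit 0) (XT.nd (nat_lit 78) (nat_lit 304) (nat_lit 0) (XT.lf (nat_lit 0) (nat_lit 13844839003) (nat_lit 228) (nat_lit 2383937863) (nat_lit 304) (nat_lit 60462127) (nat_lit 63) (nat_lit 5) (nat_lit 66) (nat_lit 5) (nat_lit 67) (nat_lit 5) (nat_lit 494) (nat_lit 368) (nat_lit 278)) (XT.nd (nat_lit 78) (nat_lit 0) (nat_lit 0) (XT.lf (nat_lit 0) (nat_lit 3439941512) (nat_lit 304) (nat_lit 11204785689) (nat_lit 76) (nat_lit 1875085643) (nat_lit 59) (nat_lit 5) (nat_lit 63) (nat_lit 5) (nat_lit 60) (nat_lit 5) (nat_lit 495) (nat_lit 368) (nat_lit 277)) (XT.lf (nat_lit 0) (nat_lit 7018623328) (nat_lit 304) (nat_lit 3546889504) (nat_lit 76) (nat_lit 6189303499) (nat_lit 59) (nat_lit 5) (nat_lit 63) (nat_lit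 5) (nat_lit 60) (nat_lit 5) (nat_lit 496) (nat_lit 368) (nat_lit 276)))) (XT.nd (nat_lit 156) (nat_lit 304) (nat_lit 0) (XT.nd (nat_lit 78) (nat_lit 0) (nat_lit 0) (XT.lf (nat_lit 0) (nat_lit 4282387696) (nat_lit 228) (nat_lit 6391529914) (nat_lit 304) (nat_lit 6320509092) (nat_lit 56) (nat_lit 5) (nat_lit 59) (nat_lit 5) (nat_lit 60) (nat_lit 5) (nat_lit 497) (nat_lit 368) (nat_lit 275)) (XT.lf (nat_lit 0) (nat_lit 12278637883) (nat_lit 228) (nat_lit 2124917782) (nat_lit 304) (nat_lit 2835256305) (nat_lit 56) (nat_lit 5) (nat_lit 59) (nat_lit 5) (nat_lit 60) (nat_lit 5) (nat_lit 498) (nat_lit 368) (nat_lit 274))) (XT.nd (nat_lit 78) (nat_lit 0) (nat_lit 0) (XT.lf (nat_lit 0) (nat_lit 721617732) (nat_lit 304) (nat_lit 14559178598) (nat_lit 76) (nat_lit 2206975206) (nat_lit 52) (nat_lit 5) (nat_lit 56) (nat_lit 5) (nat_lit 53) (nat_lit 5) (nat_lit 499) (nat_lit 368) (nat_lit 273)) (XT.lf (nat_lit 0) (nat_lit 4337103399)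 (nat_lit 304) (nat_lit 6769104321) (nat_lit 76) (nat_lit 6634626004) (nat_lit 52) (nat_lit 5) (nat_lit 56) (nat_lit 5) (nat_lit 53) (nat_lit 5) (nat_lit 500) (nat_lit 368) (nat_lit 272))))) (XT.nd (nat_lit 234) (nat_lit 456) (nat_lit 0) (XT.nd (nat_lit 78) (nat_lit 0) (nat_lit 0) (XT.lf (nat_lit 0) (nat_lit 1155293683) (nat_lit 152) (nat_lit 6855365468) (nat_lit 228) (nat_lit 9988589674) (nat_lit 50) (nat_lit 5) (nat_lit 52) (nat_lit 5) (nat_lit 53) (nat_lit 5) (nat_lit 501) (nat_lit 368) (nat_lit 271)) (XT.nd (nat_lit 78) (nat_lit 0) (nat_lit 0) (XT.lf (nat_lit 0) (nat_lit 9293547979) (nat_lit 152) (nat_lit 2488011757) (nat_lit 228) (nat_lit 6480801760) (nat_lit 50) (nat_lit 5) (nat_lit 52) (nat_lit 5) (nat_lit 53) (nat_lit 5) (nat_lit 502) (nat_lit 368) (nat_lit 270)) (XT.lf (nat_lit 0) (nat_lit 15619424958) (nat_lit 228) (nat_lit 984947984) (nat_lit 76) (nat_lit 1926539156) (nat_lit 50) (nat_lit 5) (nat_lit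 53) (nat_lit 5) (nat_lit 51) (nat_lit 5) (nat_lit 503) (nat_lit 368) (nat_lit 269)))) (XT.nd (nat_lit 156) (nat_lit 152) (nat_lit 0) (XT.nd (nat_lit 78) (nat_lit 0) (nat_lit 0) (XT.lf (nat_lit 0) (nat_lit 762350528) (nat_lit 304) (nat_lit 11607747158) (nat_lit 76) (nat_lit 6433793679) (nat_lit 46) (nat_lit 5) (nat_lit 50) (nat_lit 5) (nat_lit 47) (nat_lit 5) (nat_lit 504) (nat_lit 368) (nat_lit 268)) (XT.lf (nat_lit 0) (nat_lit 4456600964) (nat_lit 304) (nat_lit 3582667471) (nat_lit 76) (nat_lit 11042964695) (nat_lit 46) (nat_lit 5) (nat_lit 50) (nat_lit 5) (nat_lit 47) (nat_lit 5) (nat_lit 505) (nat_lit 368) (nat_lit 267))) (XT.nd (nat_lit 78) (nat_lit 0) (nat_lit 0) (XT.lf (nat_lit 0) (nat_lit 4628962926) (nat_lit 152) (nat_lit 3605466107) (nat_lit 228) (nat_lit 11131524953) (nat_lit 44) (nat_lit 5) (nat_lit 46) (nat_lit 5) (nat_lit 47) (nat_lit 5) (nat_lit 506) (nat_lit 368) (nat_lit 266)) (XT.lf (nat_lit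 0) (nat_lit 12097689834) (nat_lit 228) (nat_lit 6642341303) (nat_lit 76) (nat_lit 915126584) (nat_lit 44) (nat_lit 5) (nat_lit 47) (nat_lit 5) (nat_lit 45) (nat_lit 5) (nat_lit 507) (nat_lit 368) (nat_lit 265)))))) (XT.nd (nat_lit 546) (nat_lit 608) (nat_lit 0) (XT.nd (nat_lit 234) (nat_lit 304) (nat_lit 0) (XT.nd (nat_lit 78) (nat_lit 76) (nat_lit 0) (XT.lf (nat_lit 0) (nat_lit 1576937636) (nat_lit 228) (nat_lit 14475513135) (nat_lit 304) (nat_lit 3897415933) (nat_lit 41) (nat_lit 5) (nat_lit 44) (nat_lit 5) (nat_lit 45) (nat_lit 5) (nat_lit 508) (nat_lit 368) (nat_lit 264)) (XT.nd (nat_lit 78) (nat_lit 76) (nat_lit 0) (XT.lf (nat_lit 0) (nat_lit 10016796599) (nat_lit 228) (nat_lit 10094373151) (nat_lit 304) (nat_lit 138808614) (nat_lit 41) (nat_lit 5) (nat_lit 44) (nat_lit 5) (nat_lit 45) (nat_lit 5) (nat_lit 509) (nat_lit 368) (nat_lit 263)) (XT.lf (nat_lit 0) (nat_lit 3627052803) (nat_lit 304) (nat_lit 1988074460)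 (nat_lit 76) (nat_lit 14940879876) (nat_lit 40) (nat_lit 5) (nat_lit 44) (nat_lit 5) (nat_lit 41) (nat_lit 5) (nat_lit 510) (nat_lit 368) (nat_lit 262)))) (XT.nd (nat_lit 156) (nat_lit 152) (nat_lit 0) (XT.nd (nat_lit 78) (nat_lit 0) (nat_lit 0) (XT.lf (nat_lit 0) (nat_lit 6473122935) (nat_lit 152) (nat_lit 1016203099) (nat_lit 228) (nat_lit 13378358466) (nat_lit 38) (nat_lit 5) (nat_lit 40) (nat_lit 5) (nat_lit 41) (nat_lit 5) (nat_lit 511) (nat_lit 368) (nat_lit 261)) (XT.lf (nat_lit 0) (nat_lit 11447130252) (nat_lit 228) (nat_lit 6111650525) (nat_lit 76) (nat_lit 3626454236) (nat_lit 38) (nat_lit 5) (nat_lit 41) (nat_lit 5) (nat_lit 39) (nat_lit 5) (nat_lit 512) (nat_lit 368) (nat_lit 260))) (XT.nd (nat_lit 78) (nat_lit 0) (nat_lit 0) (XT.lf (nat_lit 0) (nat_lit 2328503984) (nat_lit 152) (nat_lit 13158804738) (nat_lit 228) (nat_lit 6021768663) (nat_lit 36) (nat_lit 5) (nat_lit 38) (nat_lit 5) (nat_lit 39)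 (nat_lit 5) (nat_lit 513) (nat_lit 368) (nat_lit 259)) (XT.lf (nat_lit 0) (nat_lit 10988294934) (nat_lit 152) (nat_lit 8642535825) (nat_lit 228) (nat_lit 2208120155) (nat_lit 36) (nat_lit 5) (nat_lit 38) (nat_lit 5) (nat_lit 39) (nat_lit 5) (nat_lit 514) (nat_lit 368) (nat_lit 258))))) (XT.nd (nat_lit 234) (nat_lit 380) (nat_lit 0) (XT.nd (nat_lit 78) (nat_lit 152) (nat_lit 0) (XT.lf (nat_lit 0) (nat_lit 1641509125) (nat_lit 228) (nat_lit 2396690826) (nat_lit 76) (nat_lit 18137373188) (nat_lit 35) (nat_lit 5) (nat_lit 38) (nat_lit 5) (nat_lit 36) (nat_lit 5) (nat_lit 515) (nat_lit 368) (nat_lit 257)) (XT.nd (nat_lit 78) (nat_lit 0) (nat_lit 0) (XT.lf (nat_lit 0) (nat_lit 5565931486) (nat_lit 228) (nat_lit 16259881137) (nat_lit 76) (nat_lit 692280743) (nat_lit 33) (nat_lit 5) (nat_lit 36) (nat_lit 5) (nat_lit 34) (nat_lit 5) (nat_lit 516) (nat_lit 368) (nat_lit 256)) (XT.lf (nat_lit 0) (nat_lit 9593962984) (nat_lit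 228) (nat_lit 7806372114) (nat_lit 76) (nat_lit 5466631207) (nat_lit 33) (nat_lit 5) (nat_lit 36) (nat_lit 5) (nat_lit 34) (nat_lit 5) (nat_lit 517) (nat_lit 368) (nat_lit 255)))) (XT.nd (nat_lit 156) (nat_lit 228) (nat_lit 0) (XT.nd (nat_lit 78) (nat_lit 0) (nat_lit 0) (XT.lf (nat_lit 0) (nat_lit 796177192) (nat_lit 152) (nat_lit 12894084559) (nat_lit 228) (nat_lit 9532805446) (nat_lit 31) (nat_lit 5) (nat_lit 33) (nat_lit 5) (nat_lit 34) (nat_lit 5) (nat_lit 518) (nat_lit 368) (nat_lit 254)) (XT.lf (nat_lit 0) (nat_lit 9646323482) (nat_lit 152) (nat_lit 8257231071) (nat_lit 228) (nat_lit 5682038732) (nat_lit 31) (nat_lit 5) (nat_lit 33) (nat_lit 5) (nat_lit 34) (nat_lit 5) (nat_lit 519) (nat_lit 368) (nat_lit 253))) (XT.nd (nat_lit 78) (nat_lit 228) (nat_lit 0) (XT.lf (nat_lit 0) (nat_lit 18643794824) (nat_lit 152) (nat_lit 3540341125) (nat_lit 228) (nat_lit 1771577939) (nat_lit 31) (nat_lit 5) (nat_lit 33)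 (nat_lit 5) (nat_lit 34) (nat_lit 5) (nat_lit 520) (nat_lit 368) (nat_lit 252)) (XT.lf (nat_lit 0) (nat_lit 2202330471) (nat_lit 228) (nat_lit 20851217202) (nat_lit 76) (nat_lit 1279119289) (nat_lit 28) (nat_lit 5) (nat_lit 31) (nat_lit 5) (nat_lit 29) (nat_lit 5) (nat_lit 521) (nat_lit 368) (nat_lit 251))))))) (XT.nd (nat_lit 50466) (nat_lit 0) (nat_lit 25536) (XT.nd (nat_lit 546) (nat_lit 0) (nat_lit 0) (XT.nd (nat_lit 234) (nat_lit 152) (nat_lit 0) (XT.nd (nat_lit 78) (nat_lit 152) (nat_lit 0) (XT.lf (nat_lit 0) (nat_lit 6274644942) (nat_lit 228) (nat_lit 12258555483) (nat_lit 76) (nat_lit 6182875675) (nat_lit 28) (nat_lit 5) (nat_lit 31) (nat_lit 5) (nat_lit 29) (nat_lit 5) (nat_lit 522) (nat_lit 368) (nat_lit 250)) (XT.nd (nat_lit 78) (nat_lit 152) (nat_lit 0) (XT.lf (nat_lit 0) (nat_lit 10412032508) (nat_lit 228) (nat_lit 3522849732) (nat_lit 76) (nat_lit 11172602755) (nat_lit 28) (nat_lit 5) (nat_lit 31)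 (nat_lit 5) (nat_lit 29) (nat_lit 5) (nat_lit 523) (nat_lit 368) (nat_lit 249)) (XT.lf (nat_lit 0) (nat_lit 5430548435) (nat_lit 152) (nat_lit 9220825959) (nat_lit 228) (nat_lit 10854967571) (nat_lit 26) (nat_lit 5) (nat_lit 28) (nat_lit 5) (nat_lit 29) (nat_lit 5) (nat_lit 524) (nat_lit 368) (nat_lit 248)))) (XT.nd (nat_lit 156) (nat_lit 152) (nat_lit 0) (XT.nd (nat_lit 78) (nat_lit 0) (nat_lit 0) (XT.lf (nat_lit 0) (nat_lit 14582709224) (nat_lit 152) (nat_lit 4400514493) (nat_lit 228) (nat_lit 6929801897) (nat_lit 26) (nat_lit 5) (nat_lit 28) (nat_lit 5) (nat_lit 29) (nat_lit 5) (nat_lit 525) (nat_lit 368) (nat_lit 247)) (XT.lf (nat_lit 0) (nat_lit 23389376862) (nat_lit 228) (nat_lit 2441028326) (nat_lit 76) (nat_lit 497688283) (nat_lit 26) (nat_lit 5) (nat_lit 29) (nat_lit 5) (nat_lit 27) (nat_lit 4) (nat_lit 526) (nat_lit 368) (nat_lit 246))) (XT.nd (nat_lit 78) (nat_lit 0) (nat_lit 0) (XT.lf (nat_lit 0)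 (nat_lit 1174702188) (nat_lit 152) (nat_lit 20101047195) (nat_lit 76) (nat_lit 5474422792) (nat_lit 24) (nat_lit 5) (nat_lit 26) (nat_lit 5) (nat_lit 25) (nat_lit 5) (nat_lit 527) (nat_lit 368) (nat_lit 245)) (XT.lf (nat_lit 0) (nat_lit 5332210021) (nat_lit 152) (nat_lit 11272996663) (nat_lit 76) (nat_lit 10575077518) (nat_lit 24) (nat_lit 5) (nat_lit 26) (nat_lit 5) (nat_lit 25) (nat_lit 5) (nat_lit 528) (nat_lit 368) (nat_lit 244))))) (XT.nd (nat_lit 49608) (nat_lit 0) (nat_lit 38456) (XT.nd (nat_lit 49452) (nat_lit 0) (nat_lit 40660) (XT.lf (nat_lit 0) (nat_lit 9557813330) (nat_lit 152) (nat_lit 2295082941) (nat_lit 76) (nat_lit 15766406871) (nat_lit 24) (nat_lit 5) (nat_lit 26) (nat_lit 5) (nat_lit 25) (nat_lit 5) (nat_lit 529) (nat_lit 368) (nat_lit 243)) (XT.nd (nat_lit 78) (nat_lit 988) (nat_lit 0) (XT.lf (nat_lit 0) (nat_lit 2677381163) (nat_lit 836) (nat_lit 332829334) (nat_lit 836) (nat_lit 332829334)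 (nat_lit 572) (nat_lit 4) (nat_lit 583) (nat_lit 5) (nat_lit 583) (nat_lit 4) (nat_lit 402) (nat_lit 369) (nat_lit 369)) (XT.lf (nat_lit 0) (nat_lit 2410642184) (nat_lit 988) (nat_lit 3985297957) (nat_lit 0) (nat_lit 313146956) (nat_lit 559) (nat_lit 5) (nat_lit 572) (nat_lit 4) (nat_lit 559) (nat_lit 4) (nat_lit 403) (nat_lit 369) (nat_lit 368)))) (XT.nd (nat_lit 156) (nat_lit 1140) (nat_lit 0) (XT.nd (nat_lit 78) (nat_lit 76) (nat_lit 0) (XT.lf (nat_lit 0) (nat_lit 83137868) (nat_lit 988) (nat_lit 5402180022) (nat_lit 988) (nat_lit 1248316923) (nat_lit 546) (nat_lit 4) (nat_lit 559) (nat_lit 5) (nat_lit 559) (nat_lit 4) (nat_lit 404) (nat_lit 369) (nat_lit 367)) (XT.lf (nat_lit 0) (nat_lit 1797573777) (nat_lit 1064) (nat_lit 2538810999) (nat_lit 76) (nat_lit 2422943127) (nat_lit 545) (nat_lit 5) (nat_lit 559) (nat_lit 5) (nat_lit 546) (nat_lit 4) (nat_lit 405) (nat_lit 369) (nat_lit 366))) (XT.nd (nat_lit 78)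 (nat_lit 76) (nat_lit 0) (XT.lf (nat_lit 0) (nat_lit 1613726741) (nat_lit 1064) (nat_lit 3218032353) (nat_lit 1140) (nat_lit 1954807465) (nat_lit 531) (nat_lit 5) (nat_lit 545) (nat_lit 5) (nat_lit 546) (nat_lit 4) (nat_lit 406) (nat_lit 369) (nat_lit 365)) (XT.lf (nat_lit 0) (nat_lit 1048881174) (nat_lit 1140) (nat_lit 992488452) (nat_lit 76) (nat_lit 4773887629) (nat_lit 530) (nat_lit 5) (nat_lit 545) (nat_lit 5) (nat_lit 531) (nat_lit 5) (nat_lit 407) (nat_lit 369) (nat_lit 364)))))) (XT.nd (nat_lit 546) (nat_lit 6232) (nat_lit 0) (XT.nd (nat_lit 234) (nat_lit 4256) (nat_lit 0) (XT.nd (nat_lit 78) (nat_lit 1292) (nat_lit 0) (XT.lf (nat_lit 0) (nat_lit 3247315068) (nat_lit 1140) (nat_lit 795596336) (nat_lit 1216) (nat_lit 2802297117) (nat_lit 515) (nat_lit 5) (nat_lit 530) (nat_lit 5) (nat_lit 531) (nat_lit 5) (nat_lit 408) (nat_lit 369) (nat_lit 363)) (XT.nd (nat_lit 78) (nat_lit 0) (nat_lit 0) (XT.lf (nat_lit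 0) (nat_lit 168163060) (nat_lit 1292) (nat_lit 6217513160) (nat_lit 76) (nat_lit 491125067) (nat_lit 498) (nat_lit 5) (nat_lit 515) (nat_lit 5) (nat_lit 499) (nat_lit 5) (nat_lit 409) (nat_lit 369) (nat_lit 362)) (XT.lf (nat_lit 0) (nat_lit 3126848329) (nat_lit 1292) (nat_lit 1937554627) (nat_lit 76) (nat_lit 1844995480) (nat_lit 498) (nat_lit 5) (nat_lit 515) (nat_lit 5) (nat_lit 499) (nat_lit 5) (nat_lit 410) (nat_lit 369) (nat_lit 361)))) (XT.nd (nat_lit 156) (nat_lit 2888) (nat_lit 0) (XT.nd (nat_lit 78) (nat_lit 76) (nat_lit 0) (XT.lf (nat_lit 0) (nat_lit 2405226161) (nat_lit 1292) (nat_lit 3693069101) (nat_lit 1368) (nat_lit 845348905) (nat_lit 481) (nat_lit 5) (nat_lit 498) (nat_lit 5) (nat_lit 499) (nat_lit 5) (nat_lit 411) (nat_lit 369) (nat_lit 360)) (XT.lf (nat_lit 0) (nat_lit 2073845261) (nat_lit 1368) (nat_lit 186086673) (nat_lit 76) (nat_lit 4719400267) (nat_lit 480) (nat_lit 5) (nat_lit 498) (nat_lit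 5) (nat_lit 481) (nat_lit 5) (nat_lit 412) (nat_lit 369) (nat_lit 359))) (XT.nd (nat_lit 78) (nat_lit 1520) (nat_lit 0) (XT.lf (nat_lit 0) (nat_lit 4249654075) (nat_lit 1368) (nat_lit 757626951) (nat_lit 1444) (nat_lit 2009062129) (nat_lit 462) (nat_lit 5) (nat_lit 480) (nat_lit 5) (nat_lit 481) (nat_lit 5) (nat_lit 413) (nat_lit 369) (nat_lit 358)) (XT.lf (nat_lit 0) (nat_lit 890230249) (nat_lit 1520) (nat_lit 5375953447) (nat_lit 76) (nat_lit 788703096) (nat_lit 442) (nat_lit 5) (nat_lit 462) (nat_lit 5) (nat_lit 443) (nat_lit 5) (nat_lit 414) (nat_lit 369) (nat_lit 357))))) (XT.nd (nat_lit 234) (nat_lit 3040) (nat_lit 0) (XT.nd (nat_lit 78) (nat_lit 3192) (nat_lit 0) (XT.lf (nat_lit 0) (nat_lit 3785155954) (nat_lit 1520) (nat_lit 916506284) (nat_lit 76) (nat_lit 2393043224) (nat_lit 442) (nat_lit 5) (nat_lit 462) (nat_lit 5) (nat_lit 443) (nat_lit 5) (nat_lit 415) (nat_lit 369) (nat_lit 356)) (XT.nd (nat_lit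 78) (nat_lit 1672) (nat_lit 0) (XT.lf (nat_lit 0) (nat_lit 3625559766) (nat_lit 1520) (nat_lit 3077937773) (nat_lit 1596) (nat_lit 432572163) (nat_lit 422) (nat_lit 5) (nat_lit 442) (nat_lit 5) (nat_lit 443) (nat_lit 5) (nat_lit 416) (nat_lit 369) (nat_lit 355)) (XT.lf (nat_lit 0) (nat_lit 1035460122) (nat_lit 1596) (nat_lit 1388914821) (nat_lit 1672) (nat_lit 4754513755) (nat_lit 400) (nat_lit 5) (nat_lit 421) (nat_lit 5) (nat_lit 422) (nat_lit 5) (nat_lit 417) (nat_lit 369) (nat_lit 354)))) (XT.nd (nat_lit 156) (nat_lit 1292) (nat_lit 0) (XT.nd (nat_lit 78) (nat_lit 1748) (nat_lit 0) (XT.lf (nat_lit 0) (nat_lit 5301681270) (nat_lit 1672) (nat_lit 1562785621) (nat_lit 76) (nat_lit 358715858) (nat_lit 400) (nat_lit 5) (nat_lit 422) (nat_lit 5) (nat_lit 401) (nat_lit 5) (nat_lit 418) (nat_lit 369) (nat_lit 353)) (XT.lf (nat_lit 0) (nat_lit 928721407) (nat_lit 1748) (nat_lit 4188659949) (nat_lit 76) (nat_lit 2151444573)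 (nat_lit 377) (nat_lit 5) (nat_lit 400) (nat_lit 5) (nat_lit 378) (nat_lit 5) (nat_lit 419) (nat_lit 369) (nat_lit 352))) (XT.nd (nat_lit 78) (nat_lit 0) (nat_lit 0) (XT.lf (nat_lit 0) (nat_lit 460448050) (nat_lit 1292) (nat_lit 3307908099) (nat_lit 1368) (nat_lit 3547661947) (nat_lit 360) (nat_lit 5) (nat_lit 377) (nat_lit 5) (nat_lit 378) (nat_lit 5) (nat_lit 420) (nat_lit 369) (nat_lit 351)) (XT.lf (nat_lit 0) (nat_lit 5204892487) (nat_lit 1292) (nat_lit 1433298947) (nat_lit 1368) (nat_lit 726546353) (nat_lit 360) (nat_lit 5) (nat_lit 377) (nat_lit 5) (nat_lit 378) (nat_lit 5) (nat_lit 421) (nat_lit 369) (nat_lit 350))))))))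
noncomputable def xc75 : XT := (XT.nd (nat_lit 2184) (nat_lit 7296) (nat_lit 0) (XT.nd (nat_lit 1092) (nat_lit 5624) (nat_lit 0) (XT.nd (nat_lit 546) (nat_lit 3040) (nat_lit 0) (XT.nd (nat_lit 234) (nat_lit 2508) (nat_lit 0) (XT.nd (nat_lit 78) (nat_lit 912) (nat_lit 0) (XT.lf (nat_lit 0) (nat_lit 2088913413) (nat_lit 912) (nat_lit 4822511079) (nat_lit 76) (nat_lit 503455239) (nat_lit 348) (nat_lit 5) (nat_lit 360) (nat_lit 5) (nat_lit 349) (nat_lit 5) (nat_lit 422) (nat_lit 369) (nat_lit 349)) (XT.nd (nat_lit 78) (nat_lit 912) (nat_lit 0) (XT.lf (nat_lit 0) (nat_lit 4921719198) (nat_lit 912) (nat_lit 66111263) (nat_lit 76) (nat_lit 2478731544) (nat_lit 348) (nat_lit 5) (nat_lit 360) (nat_lit 5) (nat_lit 349) (nat_lit 5) (nat_lit 423) (nat_lit 369) (nat_lit 348)) (XT.lf (nat_lit 0) (nat_lit 266736555) (nat_lit 912) (nat_lit 2727011585) (nat_lit 76) (nat_lit 4525965595) (nat_lit 336) (nat_lit 5) (nat_lit 348)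 (nat_lit 5) (nat_lit 337) (nat_lit 5) (nat_lit 424) (nat_lit 369) (nat_lit 347)))) (XT.nd (nat_lit 156) (nat_lit 1672) (nat_lit 0) (XT.nd (nat_lit 78) (nat_lit 0) (nat_lit 0) (XT.lf (nat_lit 0) (nat_lit 2132593457) (nat_lit 836) (nat_lit 930213290) (nat_lit 912) (nat_lit 4511584659) (nat_lit 325) (nat_lit 5) (nat_lit 336) (nat_lit 5) (nat_lit 337) (nat_lit 5) (nat_lit 425) (nat_lit 369) (nat_lit 346)) (XT.lf (nat_lit 0) (nat_lit 5889509086) (nat_lit 912) (nat_lit 566074868) (nat_lit 76) (nat_lit 1175129587) (nat_lit 325) (nat_lit 5) (nat_lit 337) (nat_lit 5) (nat_lit 326) (nat_lit 5) (nat_lit 426) (nat_lit 369) (nat_lit 345))) (XT.nd (nat_lit 78) (nat_lit 760) (nat_lit 0) (XT.lf (nat_lit 0) (nat_lit 1054642607) (nat_lit 912) (nat_lit 3290492537) (nat_lit 76) (nat_lit 3343243838) (nat_lit 313) (nat_lit 5) (nat_lit 325) (nat_lit 5) (nat_lit 314) (nat_lit 5) (nat_lit 427) (nat_lit 369) (nat_lit 344)) (XT.lf (nat_lit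 0) (nat_lit 1677964655) (nat_lit 760) (nat_lit 2169805437) (nat_lit 836) (nat_lit 3899946413) (nat_lit 303) (nat_lit 5) (nat_lit 313) (nat_lit 5) (nat_lit 314) (nat_lit 5) (nat_lit 428) (nat_lit 369) (nat_lit 343))))) (XT.nd (nat_lit 234) (nat_lit 1520) (nat_lit 0) (XT.nd (nat_lit 78) (nat_lit 1520) (nat_lit 0) (XT.lf (nat_lit 0) (nat_lit 6669847595) (nat_lit 836) (nat_lit 1072679118) (nat_lit 76) (nat_lit 66294004) (nat_lit 303) (nat_lit 5) (nat_lit 314) (nat_lit 5) (nat_lit 304) (nat_lit 5) (nat_lit 429) (nat_lit 369) (nat_lit 342)) (XT.nd (nat_lit 78) (nat_lit 684) (nat_lit 0) (XT.lf (nat_lit 0) (nat_lit 1647037804) (nat_lit 836) (nat_lit 3873378933) (nat_lit 76) (nat_lit 2350716251) (nat_lit 292) (nat_lit 5) (nat_lit 303) (nat_lit 5) (nat_lit 293) (nat_lit 5) (nat_lit 430) (nat_lit 369) (nat_lit 341)) (XT.lf (nat_lit 0) (nat_lit 1203723281) (nat_lit 684) (nat_lit 3236629583) (nat_lit 760) (nat_lit 3494890659)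 (nat_lit 283) (nat_lit 5) (nat_lit 292) (nat_lit 5) (nat_lit 293) (nat_lit 5) (nat_lit 431) (nat_lit 369) (nat_lit 340)))) (XT.nd (nat_lit 156) (nat_lit 684) (nat_lit 0) (XT.nd (nat_lit 78) (nat_lit 836) (nat_lit 0) (XT.lf (nat_lit 0) (nat_lit 6381165856) (nat_lit 684) (nat_lit 886717209) (nat_lit 760) (nat_lit 733224742) (nat_lit 283) (nat_lit 5) (nat_lit 292) (nat_lit 5) (nat_lit 293) (nat_lit 5) (nat_lit 432) (nat_lit 369) (nat_lit 339)) (XT.lf (nat_lit 0) (nat_lit 2042502645) (nat_lit 836) (nat_lit 4504644722) (nat_lit 76) (nat_lit 1521185338) (nat_lit 272) (nat_lit 5) (nat_lit 283) (nat_lit 5) (nat_lit 273) (nat_lit 5) (nat_lit 433) (nat_lit 369) (nat_lit 338))) (XT.nd (nat_lit 78) (nat_lit 0) (nat_lit 0) (XT.lf (nat_lit 0) (nat_lit 680500762) (nat_lit 684) (nat_lit 4158149008) (nat_lit 760) (nat_lit 3298697230) (nat_lit 263) (nat_lit 5) (nat_lit 272) (nat_lit 5) (nat_lit 273) (nat_lit 5) (nat_lit 434) (nat_lit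 369) (nat_lit 337)) (XT.lf (nat_lit 0) (nat_lit 5976876719) (nat_lit 684) (nat_lit 1698116899) (nat_lit 760) (nat_lit 533098071) (nat_lit 263) (nat_lit 5) (nat_lit 272) (nat_lit 5) (nat_lit 273) (nat_lit 5) (nat_lit 435) (nat_lit 369) (nat_lit 336)))))) (XT.nd (nat_lit 546) (nat_lit 2280) (nat_lit 0) (XT.nd (nat_lit 234) (nat_lit 1976) (nat_lit 0) (XT.nd (nat_lit 78) (nat_lit 608) (nat_lit 0) (XT.lf (nat_lit 0) (nat_lit 2237808500) (nat_lit 760) (nat_lit 5214710879) (nat_lit 76) (nat_lit 827869002) (nat_lit 253) (nat_lit 5) (nat_lit 263) (nat_lit 5) (nat_lit 254) (nat_lit 5) (nat_lit 436) (nat_lit 369) (nat_lit 335)) (XT.nd (nat_lit 78) (nat_lit 0) (nat_lit 0) (XT.lf (nat_lit 0) (nat_lit 77409725) (nat_lit 608) (nat_lit 4961521464) (nat_lit 684) (nat_lit 3315524148) (nat_lit 245) (nat_lit 5) (nat_lit 253) (nat_lit 5) (nat_lit 254) (nat_lit 5) (nat_lit 437) (nat_lit 369) (nat_lit 334)) (XT.lf (nat_lit 0) (nat_lit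 5492761410) (nat_lit 608) (nat_lit 2393951851) (nat_lit 684) (nat_lit 543510505) (nat_lit 245) (nat_lit 5) (nat_lit 253) (nat_lit 5) (nat_lit 254) (nat_lit 5) (nat_lit 438) (nat_lit 369) (nat_lit 333)))) (XT.nd (nat_lit 156) (nat_lit 1292) (nat_lit 0) (XT.nd (nat_lit 78) (nat_lit 0) (nat_lit 0) (XT.lf (nat_lit 0) (nat_lit 2227849523) (nat_lit 684) (nat_lit 6035744528) (nat_lit 76) (nat_lit 244171323) (nat_lit 236) (nat_lit 5) (nat_lit 245) (nat_lit 5) (nat_lit 237) (nat_lit 5) (nat_lit 439) (nat_lit 369) (nat_lit 332)) (XT.lf (nat_lit 0) (nat_lit 5039713844) (nat_lit 684) (nat_lit 629891543) (nat_lit 76) (nat_lit 2917364454) (nat_lit 236) (nat_lit 5) (nat_lit 245) (nat_lit 5) (nat_lit 237) (nat_lit 5) (nat_lit 440) (nat_lit 369) (nat_lit 331))) (XT.nd (nat_lit 78) (nat_lit 684) (nat_lit 0) (XT.lf (nat_lit 0) (nat_lit 4895980535) (nat_lit 608) (nat_lit 3001124290) (nat_lit 684) (nat_lit 770898157) (nat_lit 228)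 (nat_lit 5) (nat_lit 236) (nat_lit 5) (nat_lit 237) (nat_lit 5) (nat_lit 441) (nat_lit 369) (nat_lit 330)) (XT.lf (nat_lit 0) (nat_lit 1747285878) (nat_lit 608) (nat_lit 259959968) (nat_lit 684) (nat_lit 6743706718) (nat_lit 219) (nat_lit 5) (nat_lit 227) (nat_lit 5) (nat_lit 228) (nat_lit 5) (nat_lit 442) (nat_lit 369) (nat_lit 329))))) (XT.nd (nat_lit 234) (nat_lit 1140) (nat_lit 0) (XT.nd (nat_lit 78) (nat_lit 1140) (nat_lit 0) (XT.lf (nat_lit 0) (nat_lit 4830698453) (nat_lit 684) (nat_lit 1481690983) (nat_lit 76) (nat_lit 2523097045) (nat_lit 219) (nat_lit 5) (nat_lit 228) (nat_lit 5) (nat_lit 220) (nat_lit 5) (nat_lit 443) (nat_lit 369) (nat_lit 328)) (XT.nd (nat_lit 78) (nat_lit 608) (nat_lit 0) (XT.lf (nat_lit 0) (nat_lit 4151480719) (nat_lit 532) (nat_lit 3546749399) (nat_lit 608) (nat_lit 1223756814) (nat_lit 212) (nat_lit 5) (nat_lit 219) (nat_lit 5) (nat_lit 220) (nat_lit 5) (nat_lit 444) (nat_lit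 369) (nat_lit 327)) (XT.lf (nat_lit 0) (nat_lit 855871273) (nat_lit 532) (nat_lit 710544274) (nat_lit 608) (nat_lit 7444125894) (nat_lit 204) (nat_lit 5) (nat_lit 211) (nat_lit 5) (nat_lit 212) (nat_lit 5) (nat_lit 445) (nat_lit 369) (nat_lit 326)))) (XT.nd (nat_lit 156) (nat_lit 608) (nat_lit 0) (XT.nd (nat_lit 78) (nat_lit 532) (nat_lit 0) (XT.lf (nat_lit 0) (nat_lit 4401913873) (nat_lit 608) (nat_lit 2515886055) (nat_lit 76) (nat_lit 2182813596) (nat_lit 204) (nat_lit 5) (nat_lit 212) (nat_lit 5) (nat_lit 205) (nat_lit 5) (nat_lit 446) (nat_lit 369) (nat_lit 325)) (XT.lf (nat_lit 0) (nat_lit 3221636967) (nat_lit 532) (nat_lit 4058401127) (nat_lit 608) (nat_lit 1912756556) (nat_lit 197) (nat_lit 5) (nat_lit 204) (nat_lit 5) (nat_lit 205) (nat_lit 5) (nat_lit 447) (nat_lit 369) (nat_lit 324))) (XT.nd (nat_lit 78) (nat_lit 532) (nat_lit 0) (XT.lf (nat_lit 0) (nat_lit 894171469) (nat_lit 608) (nat_lit 236405291)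 (nat_lit 76) (nat_lit 8156597955) (nat_lit 196) (nat_lit 5) (nat_lit 204) (nat_lit 5) (nat_lit 197) (nat_lit 5) (nat_lit 448) (nat_lit 369) (nat_lit 323)) (XT.lf (nat_lit 0) (nat_lit 3741687021) (nat_lit 608) (nat_lit 3772208428) (nat_lit 76) (nat_lit 1869117273) (nat_lit 189) (nat_lit 5) (nat_lit 197) (nat_lit 5) (nat_lit 190) (nat_lit 5) (nat_lit 449) (nat_lit 369) (nat_lit 322))))))) (XT.nd (nat_lit 1092) (nat_lit 2964) (nat_lit 0) (XT.nd (nat_lit 546) (nat_lit 2280) (nat_lit 0) (XT.nd (nat_lit 234) (nat_lit 988) (nat_lit 0) (XT.nd (nat_lit 78) (nat_lit 608) (nat_lit 0) (XT.lf (nat_lit 0) (nat_lit 2065866221) (nat_lit 456) (nat_lit 4564367397) (nat_lit 532) (nat_lit 2850876202) (nat_lit 183) (nat_lit 5) (nat_lit 189) (nat_lit 5) (nat_lit 190) (nat_lit 5) (nat_lit 450) (nat_lit 369) (nat_lit 321)) (XT.nd (nat_lit 78) (nat_lit 608) (nat_lit 0) (XT.lf (nat_lit 0) (nat_lit 8021015141) (nat_lit 456) (nat_lit 1542856401)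 (nat_lit 532) (nat_lit 17574387) (nat_lit 183) (nat_lit 5) (nat_lit 189) (nat_lit 5) (nat_lit 190) (nat_lit 5) (nat_lit 451) (nat_lit 369) (nat_lit 320)) (XT.lf (nat_lit 0) (nat_lit 2835995120) (nat_lit 608) (nat_lit 5293646544) (nat_lit 76) (nat_lit 1553771199) (nat_lit 175) (nat_lit 5) (nat_lit 183) (nat_lit 5) (nat_lit 176) (nat_lit 5) (nat_lit 452) (nat_lit 369) (nat_lit 319)))) (XT.nd (nat_lit 156) (nat_lit 532) (nat_lit 0) (XT.nd (nat_lit 78) (nat_lit 0) (nat_lit 0) (XT.lf (nat_lit 0) (nat_lit 640208426) (nat_lit 456) (nat_lit 5093916972) (nat_lit 532) (nat_lit 4053559041) (nat_lit 169) (nat_lit 5) (nat_lit 175) (nat_lit 5) (nat_lit 176) (nat_lit 5) (nat_lit 453) (nat_lit 369) (nat_lit 318)) (XT.lf (nat_lit 0) (nat_lit 6714136377) (nat_lit 456) (nat_lit 1974816881) (nat_lit 532) (nat_lit 1205135177) (nat_lit 169) (nat_lit 5) (nat_lit 175) (nat_lit 5) (nat_lit 176) (nat_lit 5) (nat_lit 454) (nat_lit 369)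 (nat_lit 317))) (XT.nd (nat_lit 78) (nat_lit 0) (nat_lit 0) (XT.lf (nat_lit 0) (nat_lit 1668298629) (nat_lit 532) (nat_lit 7126888164) (nat_lit 76) (nat_lit 1207426968) (nat_lit 162) (nat_lit 5) (nat_lit 169) (nat_lit 5) (nat_lit 163) (nat_lit 5) (nat_lit 455) (nat_lit 369) (nat_lit 316)) (XT.lf (nat_lit 0) (nat_lit 4581613686) (nat_lit 532) (nat_lit 1088661189) (nat_lit 76) (nat_lit 4442924851) (nat_lit 162) (nat_lit 5) (nat_lit 169) (nat_lit 5) (nat_lit 163) (nat_lit 5) (nat_lit 456) (nat_lit 369) (nat_lit 315))))) (XT.nd (nat_lit 234) (nat_lit 1292) (nat_lit 0) (XT.nd (nat_lit 78) (nat_lit 532) (nat_lit 0) (XT.lf (nat_lit 0) (nat_lit 5087842937) (nat_lit 456) (nat_lit 2463067641) (nat_lit 532) (nat_lit 2675152557) (nat_lit 156) (nat_lit 5) (nat_lit 162) (nat_lit 5) (nat_lit 163) (nat_lit 5) (nat_lit 457) (nat_lit 369) (nat_lit 314)) (XT.nd (nat_lit 78) (nat_lit 0) (nat_lit 0) (XT.lf (nat_lit 0) (nat_lit 219350471)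 (nat_lit 532) (nat_lit 9322802413) (nat_lit 76) (nat_lit 799337876) (nat_lit 149) (nat_lit 5) (nat_lit 156) (nat_lit 5) (nat_lit 150) (nat_lit 5) (nat_lit 458) (nat_lit 369) (nat_lit 313)) (XT.lf (nat_lit 0) (nat_lit 3152062315) (nat_lit 532) (nat_lit 3174085246) (nat_lit 76) (nat_lit 4132421821) (nat_lit 149) (nat_lit 5) (nat_lit 156) (nat_lit 5) (nat_lit 150) (nat_lit 5) (nat_lit 459) (nat_lit 369) (nat_lit 312)))) (XT.nd (nat_lit 156) (nat_lit 912) (nat_lit 0) (XT.nd (nat_lit 78) (nat_lit 0) (nat_lit 0) (XT.lf (nat_lit 0) (nat_lit 3089422031) (nat_lit 380) (nat_lit 3039834891) (nat_lit 456) (nat_lit 4449034595) (nat_lit 144) (nat_lit 5) (nat_lit 149) (nat_lit 5) (nat_lit 150) (nat_lit 5) (nat_lit 460) (nat_lit 369) (nat_lit 311)) (XT.lf (nat_lit 0) (nat_lit 9155496092) (nat_lit 456) (nat_lit 1229908730) (nat_lit 76) (nat_lit 315231406) (nat_lit 144) (nat_lit 5) (nat_lit 150) (nat_lit 5) (nat_lit 145) (nat_lit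 5) (nat_lit 461) (nat_lit 369) (nat_lit 310))) (XT.nd (nat_lit 78) (nat_lit 380) (nat_lit 0) (XT.lf (nat_lit 0) (nat_lit 1418658229) (nat_lit 532) (nat_lit 5680705003) (nat_lit 76) (nat_lit 3725489904) (nat_lit 137) (nat_lit 5) (nat_lit 144) (nat_lit 5) (nat_lit 138) (nat_lit 5) (nat_lit 462) (nat_lit 369) (nat_lit 309)) (XT.lf (nat_lit 0) (nat_lit 661187398) (nat_lit 380) (nat_lit 3739282495) (nat_lit 456) (nat_lit 6551308788) (nat_lit 132) (nat_lit 5) (nat_lit 137) (nat_lit 5) (nat_lit 138) (nat_lit 5) (nat_lit 463) (nat_lit 369) (nat_lit 308)))))) (XT.nd (nat_lit 546) (nat_lit 1444) (nat_lit 0) (XT.nd (nat_lit 234) (nat_lit 1064) (nat_lit 0) (XT.nd (nat_lit 78) (nat_lit 456) (nat_lit 0) (XT.lf (nat_lit 0) (nat_lit 7159072605) (nat_lit 380) (nat_lit 288112452) (nat_lit 456) (nat_lit 3633969100) (nat_lit 132) (nat_lit 5) (nat_lit 137) (nat_lit 5) (nat_lit 138) (nat_lit 5) (nat_lit 464) (nat_lit 369) (nat_lit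 307)) (XT.nd (nat_lit 78) (nat_lit 76) (nat_lit 0) (XT.lf (nat_lit 0) (nat_lit 2538632725) (nat_lit 380) (nat_lit 8021364576) (nat_lit 456) (nat_lit 653033022) (nat_lit 127) (nat_lit 5) (nat_lit 132) (nat_lit 5) (nat_lit 133) (nat_lit 5) (nat_lit 465) (nat_lit 369) (nat_lit 306)) (XT.lf (nat_lit 0) (nat_lit 2352405570) (nat_lit 456) (nat_lit 2230482103) (nat_lit 76) (nat_lit 6764438179) (nat_lit 126) (nat_lit 5) (nat_lit 132) (nat_lit 5) (nat_lit 127) (nat_lit 5) (nat_lit 466) (nat_lit 369) (nat_lit 305)))) (XT.nd (nat_lit 156) (nat_lit 760) (nat_lit 0) (XT.nd (nat_lit 78) (nat_lit 0) (nat_lit 0) (XT.lf (nat_lit 0) (nat_lit 4348342840) (nat_lit 304) (nat_lit 1057532964) (nat_lit 380) (nat_lit 6078427308) (nat_lit 122) (nat_lit 5) (nat_lit 126) (nat_lit 5) (nat_lit 127) (nat_lit 5) (nat_lit 467) (nat_lit 369) (nat_lit 304)) (XT.lf (nat_lit 0) (nat_lit 8520609209) (nat_lit 380) (nat_lit 598229705) (nat_lit 76)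 (nat_lit 2505192312) (nat_lit 122) (nat_lit 5) (nat_lit 127) (nat_lit 5) (nat_lit 123) (nat_lit 5) (nat_lit 468) (nat_lit 369) (nat_lit 303))) (XT.nd (nat_lit 78) (nat_lit 380) (nat_lit 0) (XT.lf (nat_lit 0) (nat_lit 6097229420) (nat_lit 380) (nat_lit 5616259843) (nat_lit 456) (nat_lit 52762487) (nat_lit 117) (nat_lit 5) (nat_lit 122) (nat_lit 5) (nat_lit 123) (nat_lit 5) (nat_lit 469) (nat_lit 369) (nat_lit 302)) (XT.lf (nat_lit 0) (nat_lit 970199938) (nat_lit 304) (nat_lit 2028283685) (nat_lit 380) (nat_lit 8912856330) (nat_lit 112) (nat_lit 5) (nat_lit 116) (nat_lit 5) (nat_lit 117) (nat_lit 5) (nat_lit 470) (nat_lit 369) (nat_lit 301))))) (XT.nd (nat_lit 312) (nat_lit 684) (nat_lit 0) (XT.nd (nat_lit 156) (nat_lit 380) (nat_lit 0) (XT.nd (nat_lit 78) (nat_lit 380) (nat_lit 0) (XT.lf (nat_lit 0) (nat_lit 6128489889) (nat_lit 380) (nat_lit 4297036217) (nat_lit 76) (nat_lit 1633442034) (nat_lit 112) (nat_lit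 5) (nat_lit 117) (nat_lit 5) (nat_lit 113) (nat_lit 5) (nat_lit 471) (nat_lit 369) (nat_lit 300)) (XT.lf (nat_lit 0) (nat_lit 2453275745) (nat_lit 380) (nat_lit 6867332674) (nat_lit 456) (nat_lit 2888963982) (nat_lit 107) (nat_lit 5) (nat_lit 112) (nat_lit 5) (nat_lit 113) (nat_lit 5) (nat_lit 472) (nat_lit 369) (nat_lit 299))) (XT.nd (nat_lit 78) (nat_lit 304) (nat_lit 0) (XT.lf (nat_lit 0) (nat_lit 209843174) (nat_lit 456) (nat_lit 3012873720) (nat_lit 76) (nat_lit 9140472144) (nat_lit 106) (nat_lit 5) (nat_lit 112) (nat_lit 5) (nat_lit 107) (nat_lit 5) (nat_lit 473) (nat_lit 369) (nat_lit 298)) (XT.lf (nat_lit 0) (nat_lit 3331213215) (nat_lit 380) (nat_lit 8670822881) (nat_lit 76) (nat_lit 517487549) (nat_lit 102) (nat_lit 5) (nat_lit 107) (nat_lit 5) (nat_lit 103) (nat_lit 5) (nat_lit 474) (nat_lit 369) (nat_lit 297)))) (XT.nd (nat_lit 156) (nat_lit 380) (nat_lit 0) (XT.nd (nat_lit 78) (nat_lit 304) (nat_lit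 0) (XT.lf (nat_lit 0) (nat_lit 6527707470) (nat_lit 380) (nat_lit 1856540712) (nat_lit 76) (nat_lit 4294495533) (nat_lit 102) (nat_lit 5) (nat_lit 107) (nat_lit 5) (nat_lit 103) (nat_lit 5) (nat_lit 475) (nat_lit 369) (nat_lit 296)) (XT.lf (nat_lit 0) (nat_lit 5117188206) (nat_lit 304) (nat_lit 4675738618) (nat_lit 380) (nat_lit 3048137917) (nat_lit 98) (nat_lit 5) (nat_lit 102) (nat_lit 5) (nat_lit 103) (nat_lit 5) (nat_lit 476) (nat_lit 369) (nat_lit 295))) (XT.nd (nat_lit 78) (nat_lit 304) (nat_lit 0) (XT.lf (nat_lit 0) (nat_lit 99473624) (nat_lit 380) (nat_lit 795717744) (nat_lit 76) (nat_lit 12111753876) (nat_lit 97) (nat_lit 5) (nat_lit 102) (nat_lit 5) (nat_lit 98) (nat_lit 5) (nat_lit 477) (nat_lit 369) (nat_lit 294)) (XT.lf (nat_lit 0) (nat_lit 3301831859) (nat_lit 380) (nat_lit 6904892898) (nat_lit 76) (nat_lit 2968375194) (nat_lit 93) (nat_lit 5) (nat_lit 98) (nat_lit 5) (nat_lit 94) (nat_lit 5) (nat_lit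 478) (nat_lit 369) (nat_lit 293))))))))
noncomputable def xc76 : XT := (XT.nd (nat_lit 2184) (nat_lit 1672) (nat_lit 0) (XT.nd (nat_lit 1092) (nat_lit 1520) (nat_lit 0) (XT.nd (nat_lit 546) (nat_lit 912) (nat_lit 0) (XT.nd (nat_lit 234) (nat_lit 608) (nat_lit 0) (XT.nd (nat_lit 78) (nat_lit 228) (nat_lit 0) (XT.lf (nat_lit 0) (nat_lit 93623864) (nat_lit 304) (nat_lit 6458893834) (nat_lit 380) (nat_lit 6794425952) (nat_lit 89) (nat_lit 5) (nat_lit 93) (nat_lit 5) (nat_lit 94) (nat_lit 5) (nat_lit 479) (nat_lit 369) (nat_lit 292)) (XT.nd (nat_lit 78) (nat_lit 228) (nat_lit 0) (XT.lf (nat_lit 0) (nat_lit 7282628105) (nat_lit 304) (nat_lit 2604555796) (nat_lit 380) (nat_lit 3634672275) (nat_lit 89) (nat_lit 5) (nat_lit 93) (nat_lit 5) (nat_lit 94) (nat_lit 5) (nat_lit 480) (nat_lit 369) (nat_lit 291)) (XT.lf (nat_lit 0) (nat_lit 875327161) (nat_lit 228) (nat_lit 12400582199) (nat_lit 304) (nat_lit 424621335) (nat_lit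 86) (nat_lit 5) (nat_lit 89) (nat_lit 5) (nat_lit 90) (nat_lit 5) (nat_lit 481) (nat_lit 369) (nat_lit 290)))) (XT.nd (nat_lit 156) (nat_lit 228) (nat_lit 0) (XT.nd (nat_lit 78) (nat_lit 304) (nat_lit 0) (XT.lf (nat_lit 0) (nat_lit 2844784900) (nat_lit 304) (nat_lit 5743991479) (nat_lit 76) (nat_lit 5292992369) (nat_lit 85) (nat_lit 5) (nat_lit 89) (nat_lit 5) (nat_lit 86) (nat_lit 5) (nat_lit 482) (nat_lit 369) (nat_lit 289)) (XT.lf (nat_lit 0) (nat_lit 1453159495) (nat_lit 304) (nat_lit 4703834277) (nat_lit 380) (nat_lit 7909930074) (nat_lit 81) (nat_lit 5) (nat_lit 85) (nat_lit 5) (nat_lit 86) (nat_lit 5) (nat_lit 483) (nat_lit 369) (nat_lit 288))) (XT.nd (nat_lit 78) (nat_lit 228) (nat_lit 0) (XT.lf (nat_lit 0) (nat_lit 8830458963) (nat_lit 304) (nat_lit 717439079) (nat_lit 380) (nat_lit 4707645199) (nat_lit 81) (nat_lit 5) (nat_lit 85) (nat_lit 5) (nat_lit 86) (nat_lit 5) (nat_lit 484) (nat_lit 369) (nat_lit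 287)) (XT.lf (nat_lit 0) (nat_lit 1868876499) (nat_lit 228) (nat_lit 11145938369) (nat_lit 304) (nat_lit 1432966287) (nat_lit 78) (nat_lit 5) (nat_lit 81) (nat_lit 5) (nat_lit 82) (nat_lit 5) (nat_lit 485) (nat_lit 369) (nat_lit 286))))) (XT.nd (nat_lit 234) (nat_lit 532) (nat_lit 0) (XT.nd (nat_lit 78) (nat_lit 304) (nat_lit 0) (XT.lf (nat_lit 0) (nat_lit 1897968196) (nat_lit 304) (nat_lit 5319596324) (nat_lit 76) (nat_lit 7425745772) (nat_lit 77) (nat_lit 5) (nat_lit 81) (nat_lit 5) (nat_lit 78) (nat_lit 5) (nat_lit 486) (nat_lit 369) (nat_lit 285)) (XT.nd (nat_lit 78) (nat_lit 0) (nat_lit 0) (XT.lf (nat_lit 0) (nat_lit 2061921046) (nat_lit 304) (nat_lit 3202698425) (nat_lit 380) (nat_lit 9578184833) (nat_lit 73) (nat_lit 5) (nat_lit 77) (nat_lit 5) (nat_lit 78) (nat_lit 5) (nat_lit 487) (nat_lit 369) (nat_lit 284)) (XT.lf (nat_lit 0) (nat_lit 8715343478) (nat_lit 380) (nat_lit 5429098155) (nat_lit 76) (nat_lit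 901521027) (nat_lit 73) (nat_lit 5) (nat_lit 78) (nat_lit 5) (nat_lit 74) (nat_lit 5) (nat_lit 488) (nat_lit 369) (nat_lit 283)))) (XT.nd (nat_lit 156) (nat_lit 228) (nat_lit 0) (XT.nd (nat_lit 78) (nat_lit 76) (nat_lit 0) (XT.lf (nat_lit 0) (nat_lit 2035333636) (nat_lit 228) (nat_lit 10209674490) (nat_lit 304) (nat_lit 3007986605) (nat_lit 70) (nat_lit 5) (nat_lit 73) (nat_lit 5) (nat_lit 74) (nat_lit 5) (nat_lit 489) (nat_lit 369) (nat_lit 282)) (XT.lf (nat_lit 0) (nat_lit 388328968) (nat_lit 304) (nat_lit 5783451621) (nat_lit 76) (nat_lit 9292101521) (nat_lit 69) (nat_lit 5) (nat_lit 73) (nat_lit 5) (nat_lit 70) (nat_lit 5) (nat_lit 490) (nat_lit 369) (nat_lit 281))) (XT.nd (nat_lit 78) (nat_lit 0) (nat_lit 0) (XT.lf (nat_lit 0) (nat_lit 1763489179) (nat_lit 228) (nat_lit 2036326580) (nat_lit 304) (nat_lit 11879031935) (nat_lit 66) (nat_lit 5) (nat_lit 69) (nat_lit 5) (nat_lit 70) (nat_lit 5) (nat_lit 491)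 (nat_lit 369) (nat_lit 280)) (XT.lf (nat_lit 0) (nat_lit 7308918628) (nat_lit 304) (nat_lit 6411282549) (nat_lit 76) (nat_lit 2177332070) (nat_lit 66) (nat_lit 5) (nat_lit 70) (nat_lit 5) (nat_lit 67) (nat_lit 5) (nat_lit 492) (nat_lit 369) (nat_lit 279)))))) (XT.nd (nat_lit 546) (nat_lit 760) (nat_lit 0) (XT.nd (nat_lit 234) (nat_lit 228) (nat_lit 0) (XT.nd (nat_lit 78) (nat_lit 304) (nat_lit 0) (XT.lf (nat_lit 0) (nat_lit 1206697528) (nat_lit 228) (nat_lit 9679447278) (nat_lit 304) (nat_lit 5234497099) (nat_lit 63) (nat_lit 5) (nat_lit 66) (nat_lit 5) (nat_lit 67) (nat_lit 5) (nat_lit 493) (nat_lit 369) (nat_lit 278)) (XT.nd (nat_lit 78) (nat_lit 304) (nat_lit 0) (XT.lf (nat_lit 0) (nat_lit 9025679382) (nat_lit 228) (nat_lit 5529090149) (nat_lit 304) (nat_lit 1793054183) (nat_lit 63) (nat_lit 5) (nat_lit 66) (nat_lit 5) (nat_lit 67) (nat_lit 5) (nat_lit 494) (nat_lit 369) (nat_lit 277)) (XT.lf (nat_lit 0) (nat_lit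 377467065) (nat_lit 228) (nat_lit 1296806685) (nat_lit 304) (nat_lit 14905468611) (nat_lit 59) (nat_lit 5) (nat_lit 62) (nat_lit 5) (nat_lit 63) (nat_lit 5) (nat_lit 495) (nat_lit 369) (nat_lit 276)))) (XT.nd (nat_lit 156) (nat_lit 228) (nat_lit 0) (XT.nd (nat_lit 78) (nat_lit 0) (nat_lit 0) (XT.lf (nat_lit 0) (nat_lit 5233265901) (nat_lit 304) (nat_lit 8554742150) (nat_lit 76) (nat_lit 3027135347) (nat_lit 59) (nat_lit 5) (nat_lit 63) (nat_lit 5) (nat_lit 60) (nat_lit 5) (nat_lit 496) (nat_lit 369) (nat_lit 275)) (XT.lf (nat_lit 0) (nat_lit 8849707127) (nat_lit 304) (nat_lit 800043713) (nat_lit 76) (nat_lit 7405783678) (nat_lit 59) (nat_lit 5) (nat_lit 63) (nat_lit 5) (nat_lit 60) (nat_lit 5) (nat_lit 497) (nat_lit 369) (nat_lit 274))) (XT.nd (nat_lit 78) (nat_lit 0) (nat_lit 0) (XT.lf (nat_lit 0) (nat_lit 7167280981) (nat_lit 228) (nat_lit 5395849670) (nat_lit 304) (nat_lit 4737117036) (nat_lit 56) (nat_lit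 5) (nat_lit 59) (nat_lit 5) (nat_lit 60) (nat_lit 5) (nat_lit 498) (nat_lit 369) (nat_lit 273)) (XT.lf (nat_lit 0) (nat_lit 15268569004) (nat_lit 228) (nat_lit 1065934919) (nat_lit 304) (nat_lit 1215684728) (nat_lit 56) (nat_lit 5) (nat_lit 59) (nat_lit 5) (nat_lit 60) (nat_lit 5) (nat_lit 499) (nat_lit 369) (nat_lit 272))))) (XT.nd (nat_lit 234) (nat_lit 304) (nat_lit 0) (XT.nd (nat_lit 78) (nat_lit 152) (nat_lit 0) (XT.lf (nat_lit 0) (nat_lit 2382951388) (nat_lit 304) (nat_lit 12075576049) (nat_lit 76) (nat_lit 3345540536) (nat_lit 52) (nat_lit 5) (nat_lit 56) (nat_lit 5) (nat_lit 53) (nat_lit 5) (nat_lit 500) (nat_lit 369) (nat_lit 271)) (XT.nd (nat_lit 78) (nat_lit 152) (nat_lit 0) (XT.lf (nat_lit 0) (nat_lit 6038454586) (nat_lit 304) (nat_lit 4184107857) (nat_lit 76) (nat_lit 7840285020) (nat_lit 52) (nat_lit 5) (nat_lit 56) (nat_lit 5) (nat_lit 53) (nat_lit 5) (nat_lit 501) (nat_lit 369) (nat_lit 270))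 (XT.lf (nat_lit 0) (nat_lit 3880880879) (nat_lit 152) (nat_lit 5890487872) (nat_lit 228) (nat_lit 8555354383) (nat_lit 50) (nat_lit 5) (nat_lit 52) (nat_lit 5) (nat_lit 53) (nat_lit 5) (nat_lit 502) (nat_lit 369) (nat_lit 269)))) (XT.nd (nat_lit 156) (nat_lit 76) (nat_lit 0) (XT.nd (nat_lit 78) (nat_lit 228) (nat_lit 0) (XT.lf (nat_lit 0) (nat_lit 12128910432) (nat_lit 152) (nat_lit 1457394634) (nat_lit 228) (nat_lit 5009430457) (nat_lit 50) (nat_lit 5) (nat_lit 52) (nat_lit 5) (nat_lit 53) (nat_lit 5) (nat_lit 503) (nat_lit 369) (nat_lit 268)) (XT.lf (nat_lit 0) (nat_lit 1638757587) (nat_lit 228) (nat_lit 15848919949) (nat_lit 304) (nat_lit 1382254228) (nat_lit 47) (nat_lit 5) (nat_lit 50) (nat_lit 5) (nat_lit 51) (nat_lit 5) (nat_lit 504) (nat_lit 369) (nat_lit 267))) (XT.nd (nat_lit 78) (nat_lit 0) (nat_lit 0) (XT.lf (nat_lit 0) (nat_lit 2320044683) (nat_lit 304) (nat_lit 9214278675) (nat_lit 76) (nat_lit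 7614334286) (nat_lit 46) (nat_lit 5) (nat_lit 50) (nat_lit 5) (nat_lit 47) (nat_lit 5) (nat_lit 505) (nat_lit 369) (nat_lit 266)) (XT.lf (nat_lit 0) (nat_lit 6057936066) (nat_lit 304) (nat_lit 1080180208) (nat_lit 76) (nat_lit 12295063923) (nat_lit 46) (nat_lit 5) (nat_lit 50) (nat_lit 5) (nat_lit 47) (nat_lit 5) (nat_lit 506) (nat_lit 369) (nat_lit 265))))))) (XT.nd (nat_lit 1092) (nat_lit 532) (nat_lit 0) (XT.nd (nat_lit 546) (nat_lit 532) (nat_lit 0) (XT.nd (nat_lit 234) (nat_lit 228) (nat_lit 0) (XT.nd (nat_lit 78) (nat_lit 228) (nat_lit 0) (XT.lf (nat_lit 0) (nat_lit 7278747662) (nat_lit 152) (nat_lit 2619525067) (nat_lit 228) (nat_lit 9824572592) (nat_lit 44) (nat_lit 5) (nat_lit 46) (nat_lit 5) (nat_lit 47) (nat_lit 5) (nat_lit 507) (nat_lit 369) (nat_lit 264)) (XT.nd (nat_lit 78) (nat_lit 228) (nat_lit 0) (XT.lf (nat_lit 0) (nat_lit 13816138416) (nat_lit 228) (nat_lit 4245027681) (nat_lit 76) (nat_lit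 1957128960) (nat_lit 44) (nat_lit 5) (nat_lit 47) (nat_lit 5) (nat_lit 45) (nat_lit 5) (nat_lit 508) (nat_lit 369) (nat_lit 263)) (XT.lf (nat_lit 0) (nat_lit 4121991044) (nat_lit 228) (nat_lit 13715372054) (nat_lit 304) (nat_lit 2481796299) (nat_lit 41) (nat_lit 5) (nat_lit 44) (nat_lit 5) (nat_lit 45) (nat_lit 5) (nat_lit 509) (nat_lit 369) (nat_lit 262)))) (XT.nd (nat_lit 156) (nat_lit 0) (nat_lit 0) (XT.nd (nat_lit 78) (nat_lit 152) (nat_lit 0) (XT.lf (nat_lit 0) (nat_lit 1305350104) (nat_lit 304) (nat_lit 7953080978) (nat_lit 76) (nat_lit 11367252894) (nat_lit 40) (nat_lit 5) (nat_lit 44) (nat_lit 5) (nat_lit 41) (nat_lit 5) (nat_lit 510) (nat_lit 369) (nat_lit 261)) (XT.lf (nat_lit 0) (nat_lit 412719250) (nat_lit 152) (nat_lit 4706297375) (nat_lit 228) (nat_lit 15819319477) (nat_lit 38) (nat_lit 5) (nat_lit 40) (nat_lit 5) (nat_lit 41) (nat_lit 5) (nat_lit 511) (nat_lit 369) (nat_lit 260))) (XT.nd (nat_lit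 78) (nat_lit 0) (nat_lit 0) (XT.lf (nat_lit 0) (nat_lit 9021707034) (nat_lit 152) (nat_lit 22075904) (nat_lit 228) (nat_lit 12212767015) (nat_lit 38) (nat_lit 5) (nat_lit 40) (nat_lit 5) (nat_lit 41) (nat_lit 5) (nat_lit 512) (nat_lit 369) (nat_lit 259)) (XT.lf (nat_lit 0) (nat_lit 13059658028) (nat_lit 228) (nat_lit 3840723353) (nat_lit 76) (nat_lit 4680499542) (nat_lit 38) (nat_lit 5) (nat_lit 41) (nat_lit 5) (nat_lit 39) (nat_lit 5) (nat_lit 513) (nat_lit 369) (nat_lit 258))))) (XT.nd (nat_lit 234) (nat_lit 304) (nat_lit 0) (XT.nd (nat_lit 78) (nat_lit 76) (nat_lit 0) (XT.lf (nat_lit 0) (nat_lit 4752489771) (nat_lit 152) (nat_lit 12416456935) (nat_lit 228) (nat_lit 4742494893) (nat_lit 36) (nat_lit 5) (nat_lit 38) (nat_lit 5) (nat_lit 39) (nat_lit 5) (nat_lit 514) (nat_lit 369) (nat_lit 257)) (XT.nd (nat_lit 78) (nat_lit 76) (nat_lit 0) (XT.lf (nat_lit 0) (nat_lit 13538860547) (nat_lit 152) (nat_lit 7829578798)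 (nat_lit 228) (nat_lit 880018692) (nat_lit 36) (nat_lit 5) (nat_lit 38) (nat_lit 5) (nat_lit 39) (nat_lit 5) (nat_lit 515) (nat_lit 369) (nat_lit 256)) (XT.lf (nat_lit 0) (nat_lit 3002051443) (nat_lit 228) (nat_lit 141524680) (nat_lit 76) (nat_lit 19448596627) (nat_lit 35) (nat_lit 5) (nat_lit 38) (nat_lit 5) (nat_lit 36) (nat_lit 5) (nat_lit 516) (nat_lit 369) (nat_lit 255)))) (XT.nd (nat_lit 156) (nat_lit 152) (nat_lit 0) (XT.nd (nat_lit 78) (nat_lit 0) (nat_lit 0) (XT.lf (nat_lit 0) (nat_lit 7000090624) (nat_lit 228) (nat_lit 14276756573) (nat_lit 76) (nat_lit 1664800630) (nat_lit 33) (nat_lit 5) (nat_lit 36) (nat_lit 5) (nat_lit 34) (nat_lit 5) (nat_lit 517) (nat_lit 369) (nat_lit 254)) (XT.lf (nat_lit 0) (nat_lit 11082744703) (nat_lit 228) (nat_lit 5699438588) (nat_lit 76) (nat_lit 6515840569) (nat_lit 33) (nat_lit 5) (nat_lit 36) (nat_lit 5) (nat_lit 34) (nat_lit 5) (nat_lit 518) (nat_lit 369) (nat_lit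 253))) (XT.nd (nat_lit 78) (nat_lit 0) (nat_lit 0) (XT.lf (nat_lit 0) (nat_lit 3060273145) (nat_lit 152) (nat_lit 12189863467) (nat_lit 228) (nat_lit 8411333555) (nat_lit 31) (nat_lit 5) (nat_lit 33) (nat_lit 5) (nat_lit 34) (nat_lit 5) (nat_lit 519) (nat_lit 369) (nat_lit 252)) (XT.lf (nat_lit 0) (nat_lit 12043340548) (nat_lit 152) (nat_lit 7479137670) (nat_lit 228) (nat_lit 4509279506) (nat_lit 31) (nat_lit 5) (nat_lit 33) (nat_lit 5) (nat_lit 34) (nat_lit 5) (nat_lit 520) (nat_lit 369) (nat_lit 251)))))) (XT.nd (nat_lit 546) (nat_lit 152) (nat_lit 0) (XT.nd (nat_lit 234) (nat_lit 152) (nat_lit 0) (XT.nd (nat_lit 78) (nat_lit 228) (nat_lit 0) (XT.lf (nat_lit 0) (nat_lit 21177543854) (nat_lit 152) (nat_lit 2686404788) (nat_lit 228) (nat_lit 545833027) (nat_lit 31) (nat_lit 5) (nat_lit 33) (nat_lit 5) (nat_lit 34) (nat_lit 5) (nat_lit 521) (nat_lit 369) (nat_lit 250)) (XT.nd (nat_lit 78) (nat_lit 0) (nat_lit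 0) (XT.lf (nat_lit 0) (nat_lit 3486687129) (nat_lit 228) (nat_lit 19085873123) (nat_lit 76) (nat_lit 2221642527) (nat_lit 28) (nat_lit 5) (nat_lit 31) (nat_lit 5) (nat_lit 29) (nat_lit 5) (nat_lit 522) (nat_lit 369) (nat_lit 249)) (XT.lf (nat_lit 0) (nat_lit 7616128085) (nat_lit 228) (nat_lit 10364149708) (nat_lit 76) (nat_lit 7205494809) (nat_lit 28) (nat_lit 5) (nat_lit 31) (nat_lit 5) (nat_lit 29) (nat_lit 5) (nat_lit 523) (nat_lit 369) (nat_lit 248)))) (XT.nd (nat_lit 156) (nat_lit 0) (nat_lit 0) (XT.nd (nat_lit 78) (nat_lit 152) (nat_lit 0) (XT.lf (nat_lit 0) (nat_lit 11812420456) (nat_lit 228) (nat_lit 1495682330) (nat_lit 76) (nat_lit 12277389732) (nat_lit 28) (nat_lit 5) (nat_lit 31) (nat_lit 5) (nat_lit 29) (nat_lit 5) (nat_lit 524) (nat_lit 369) (nat_lit 247)) (XT.lf (nat_lit 0) (nat_lit 7622983640) (nat_lit 152) (nat_lit 8503719672) (nat_lit 228) (nat_lit 9865826101) (nat_lit 26) (nat_lit 5) (nat_lit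 28) (nat_lit 5) (nat_lit 29) (nat_lit 5) (nat_lit 525) (nat_lit 369) (nat_lit 246))) (XT.nd (nat_lit 78) (nat_lit 0) (nat_lit 0) (XT.lf (nat_lit 0) (nat_lit 16917328346) (nat_lit 152) (nat_lit 3604678895) (nat_lit 228) (nat_lit 5885808893) (nat_lit 26) (nat_lit 5) (nat_lit 28) (nat_lit 5) (nat_lit 29) (nat_lit 5) (nat_lit 526) (nat_lit 369) (nat_lit 245)) (XT.lf (nat_lit 0) (nat_lit 24999181617) (nat_lit 228) (nat_lit 469558288) (nat_lit 76) (nat_lit 1362793118) (nat_lit 26) (nat_lit 5) (nat_lit 29) (nat_lit 5) (nat_lit 27) (nat_lit 4) (nat_lit 527) (nat_lit 369) (nat_lit 244))))) (XT.nd (nat_lit 49452) (nat_lit 0) (nat_lit 40584) (XT.nd (nat_lit 78) (nat_lit 0) (nat_lit 0) (XT.lf (nat_lit 0) (nat_lit 2338625573) (nat_lit 152) (nat_lit 18480642192) (nat_lit 76) (nat_lit 6442828244) (nat_lit 24) (nat_lit 5) (nat_lit 26) (nat_lit 5) (nat_lit 25) (nat_lit 5) (nat_lit 528) (nat_lit 369) (nat_lit 243)) (XT.nd (nat_lit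 49296) (nat_lit 0) (nat_lit 42484) (XT.lf (nat_lit 0) (nat_lit 6556922203) (nat_lit 152) (nat_lit 9515686061) (nat_lit 76) (nat_lit 11628654555) (nat_lit 24) (nat_lit 5) (nat_lit 26) (nat_lit 5) (nat_lit 25) (nat_lit 5) (nat_lit 529) (nat_lit 369) (nat_lit 242)) (XT.lf (nat_lit 0) (nat_lit 1005086409) (nat_lit 836) (nat_lit 1311451307) (nat_lit 0) (nat_lit 1005086409) (nat_lit 583) (nat_lit 5) (nat_lit 594) (nat_lit 4) (nat_lit 583) (nat_lit 4) (nat_lit 400) (nat_lit 370) (nat_lit 370)))) (XT.nd (nat_lit 156) (nat_lit 988) (nat_lit 0) (XT.nd (nat_lit 78) (nat_lit 76) (nat_lit 0) (XT.lf (nat_lit 0) (nat_lit 1321970129) (nat_lit 836) (nat_lit 3762262327) (nat_lit 836) (nat_lit 1580028292) (nat_lit 572) (nat_lit 4) (nat_lit 583) (nat_lit 5) (nat_lit 583) (nat_lit 4) (nat_lit 401) (nat_lit 370) (nat_lit 369)) (XT.lf (nat_lit 0) (nat_lit 1462378863) (nat_lit 912) (nat_lit 1367673862) (nat_lit 76) (nat_lit 3856558231)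 (nat_lit 571) (nat_lit 5) (nat_lit 583) (nat_lit 5) (nat_lit 572) (nat_lit 4) (nat_lit 402) (nat_lit 370) (nat_lit 368))) (XT.nd (nat_lit 78) (nat_lit 76) (nat_lit 0) (XT.lf (nat_lit 0) (nat_lit 2658335996) (nat_lit 912) (nat_lit 1835481029) (nat_lit 988) (nat_lit 2216478852) (nat_lit 559) (nat_lit 5) (nat_lit 571) (nat_lit 5) (nat_lit 572) (nat_lit 4) (nat_lit 403) (nat_lit 370) (nat_lit 367)) (XT.lf (nat_lit 0) (nat_lit 782030893) (nat_lit 988) (nat_lit 9585947) (nat_lit 76) (nat_lit 5943971870) (nat_lit 558) (nat_lit 5) (nat_lit 571) (nat_lit 5) (nat_lit 559) (nat_lit 5) (nat_lit 404) (nat_lit 370) (nat_lit 366))))))))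
noncomputable def xc77 : XT := (XT.nd (nat_lit 2184) (nat_lit 10488) (nat_lit 0) (XT.nd (nat_lit 1092) (nat_lit 8968) (nat_lit 0) (XT.nd (nat_lit 546) (nat_lit 6080) (nat_lit 0) (XT.nd (nat_lit 234) (nat_lit 3800) (nat_lit 0) (XT.nd (nat_lit 78) (nat_lit 1140) (nat_lit 0) (XT.lf (nat_lit 0) (nat_lit 3773474606) (nat_lit 1064) (nat_lit 2663453059) (nat_lit 76) (nat_lit 324992434) (nat_lit 545) (nat_lit 5) (nat_lit 559) (nat_lit 5) (nat_lit 546) (nat_lit 4) (nat_lit 405) (nat_lit 370) (nat_lit 365)) (XT.nd (nat_lit 78) (nat_lit 76) (nat_lit 0) (XT.lf (nat_lit 0) (nat_lit 1460734126) (nat_lit 1064) (nat_lit 5313705112) (nat_lit 1140) (nat_lit 15422061) (nat_lit 531) (nat_lit 5) (nat_lit 545) (nat_lit 5) (nat_lit 546) (nat_lit 4) (nat_lit 406) (nat_lit 370) (nat_lit 364)) (XT.lf (nat_lit 0) (nat_lit 2930818565) (nat_lit 1140) (nat_lit 1188000380) (nat_lit 76) (nat_lit 2700158118) (nat_lit 530) (nat_lit 5) (nat_lit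 545) (nat_lit 5) (nat_lit 531) (nat_lit 5) (nat_lit 407) (nat_lit 370) (nat_lit 363)))) (XT.nd (nat_lit 156) (nat_lit 1368) (nat_lit 0) (XT.nd (nat_lit 78) (nat_lit 1292) (nat_lit 0) (XT.lf (nat_lit 0) (nat_lit 3022747309) (nat_lit 1140) (nat_lit 2869258517) (nat_lit 1216) (nat_lit 957615293) (nat_lit 515) (nat_lit 5) (nat_lit 530) (nat_lit 5) (nat_lit 531) (nat_lit 5) (nat_lit 408) (nat_lit 370) (nat_lit 362)) (XT.lf (nat_lit 0) (nat_lit 391686031) (nat_lit 1216) (nat_lit 1560797985) (nat_lit 1292) (nat_lit 4929248220) (nat_lit 498) (nat_lit 5) (nat_lit 514) (nat_lit 5) (nat_lit 515) (nat_lit 5) (nat_lit 409) (nat_lit 370) (nat_lit 361))) (XT.nd (nat_lit 78) (nat_lit 1368) (nat_lit 0) (XT.lf (nat_lit 0) (nat_lit 4687112824) (nat_lit 1216) (nat_lit 184412945) (nat_lit 1292) (nat_lit 2043630346) (nat_lit 498) (nat_lit 5) (nat_lit 514) (nat_lit 5) (nat_lit 515) (nat_lit 5) (nat_lit 410) (nat_lit 370) (nat_lit 360))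 (XT.lf (nat_lit 0) (nat_lit 848218673) (nat_lit 1368) (nat_lit 4870307812) (nat_lit 76) (nat_lit 1231464528) (nat_lit 480) (nat_lit 5) (nat_lit 498) (nat_lit 5) (nat_lit 481) (nat_lit 5) (nat_lit 411) (nat_lit 370) (nat_lit 359))))) (XT.nd (nat_lit 234) (nat_lit 3192) (nat_lit 0) (XT.nd (nat_lit 78) (nat_lit 2888) (nat_lit 0) (XT.lf (nat_lit 0) (nat_lit 3726412464) (nat_lit 1368) (nat_lit 550085763) (nat_lit 76) (nat_lit 2709701226) (nat_lit 480) (nat_lit 5) (nat_lit 498) (nat_lit 5) (nat_lit 481) (nat_lit 5) (nat_lit 412) (nat_lit 370) (nat_lit 358)) (XT.nd (nat_lit 78) (nat_lit 1520) (nat_lit 0) (XT.lf (nat_lit 0) (nat_lit 3854372047) (nat_lit 1368) (nat_lit 2773582814) (nat_lit 1444) (nat_lit 395924694) (nat_lit 462) (nat_lit 5) (nat_lit 480) (nat_lit 5) (nat_lit 481) (nat_lit 5) (nat_lit 413) (nat_lit 370) (nat_lit 357)) (XT.lf (nat_lit 0) (nat_lit 1238747046) (nat_lit 1444) (nat_lit 1206240845) (nat_lit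 1520) (nat_lit 4618000360) (nat_lit 442) (nat_lit 5) (nat_lit 461) (nat_lit 5) (nat_lit 462) (nat_lit 5) (nat_lit 414) (nat_lit 370) (nat_lit 356)))) (XT.nd (nat_lit 156) (nat_lit 1596) (nat_lit 0) (XT.nd (nat_lit 78) (nat_lit 1596) (nat_lit 0) (XT.lf (nat_lit 0) (nat_lit 5303358034) (nat_lit 1520) (nat_lit 1383754369) (nat_lit 76) (nat_lit 416455108) (nat_lit 442) (nat_lit 5) (nat_lit 462) (nat_lit 5) (nat_lit 443) (nat_lit 5) (nat_lit 415) (nat_lit 370) (nat_lit 355)) (XT.lf (nat_lit 0) (nat_lit 1031001905) (nat_lit 1596) (nat_lit 4026885282) (nat_lit 76) (nat_lit 2087565952) (nat_lit 421) (nat_lit 5) (nat_lit 442) (nat_lit 5) (nat_lit 422) (nat_lit 5) (nat_lit 416) (nat_lit 370) (nat_lit 354))) (XT.nd (nat_lit 78) (nat_lit 0) (nat_lit 0) (XT.lf (nat_lit 0) (nat_lit 482530817) (nat_lit 1596) (nat_lit 3368165145) (nat_lit 1672) (nat_lit 3338179375) (nat_lit 400) (nat_lit 5) (nat_lit 421) (nat_lit 5) (nat_lit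 422) (nat_lit 5) (nat_lit 417) (nat_lit 370) (nat_lit 353)) (XT.lf (nat_lit 0) (nat_lit 5083555649) (nat_lit 1596) (nat_lit 1614474798) (nat_lit 1672) (nat_lit 535765610) (nat_lit 400) (nat_lit 5) (nat_lit 421) (nat_lit 5) (nat_lit 422) (nat_lit 5) (nat_lit 418) (nat_lit 370) (nat_lit 352)))))) (XT.nd (nat_lit 546) (nat_lit 3268) (nat_lit 0) (XT.nd (nat_lit 234) (nat_lit 2584) (nat_lit 0) (XT.nd (nat_lit 78) (nat_lit 1368) (nat_lit 0) (XT.lf (nat_lit 0) (nat_lit 2254467933) (nat_lit 1748) (nat_lit 4820222643) (nat_lit 76) (nat_lit 205431196) (nat_lit 377) (nat_lit 5) (nat_lit 400) (nat_lit 5) (nat_lit 378) (nat_lit 5) (nat_lit 419) (nat_lit 370) (nat_lit 351)) (XT.nd (nat_lit 78) (nat_lit 1368) (nat_lit 0) (XT.lf (nat_lit 0) (nat_lit 5064208731) (nat_lit 1748) (nat_lit 203742774) (nat_lit 76) (nat_lit 2059985975) (nat_lit 377) (nat_lit 5) (nat_lit 400) (nat_lit 5) (nat_lit 378) (nat_lit 5) (nat_lit 420) (nat_lit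 370) (nat_lit 350)) (XT.lf (nat_lit 0) (nat_lit 521978307) (nat_lit 1368) (nat_lit 2869094487) (nat_lit 76) (nat_lit 3986098629) (nat_lit 359) (nat_lit 5) (nat_lit 377) (nat_lit 5) (nat_lit 360) (nat_lit 5) (nat_lit 421) (nat_lit 370) (nat_lit 349)))) (XT.nd (nat_lit 156) (nat_lit 1748) (nat_lit 0) (XT.nd (nat_lit 78) (nat_lit 0) (nat_lit 0) (XT.lf (nat_lit 0) (nat_lit 1845674248) (nat_lit 836) (nat_lit 1447828336) (nat_lit 912) (nat_lit 4134428755) (nat_lit 348) (nat_lit 5) (nat_lit 359) (nat_lit 5) (nat_lit 360) (nat_lit 5) (nat_lit 422) (nat_lit 370) (nat_lit 348)) (XT.lf (nat_lit 0) (nat_lit 6091026946) (nat_lit 912) (nat_lit 843093192) (nat_lit 76) (nat_lit 546222810) (nat_lit 348) (nat_lit 5) (nat_lit 360) (nat_lit 5) (nat_lit 349) (nat_lit 5) (nat_lit 423) (nat_lit 370) (nat_lit 347))) (XT.nd (nat_lit 78) (nat_lit 836) (nat_lit 0) (XT.lf (nat_lit 0) (nat_lit 1376225240) (nat_lit 912) (nat_lit 3562496733)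 (nat_lit 76) (nat_lit 2595263105) (nat_lit 336) (nat_lit 5) (nat_lit 348) (nat_lit 5) (nat_lit 337) (nat_lit 5) (nat_lit 424) (nat_lit 370) (nat_lit 346)) (XT.lf (nat_lit 0) (nat_lit 1259355869) (nat_lit 836) (nat_lit 2882036982) (nat_lit 912) (nat_lit 3447910290) (nat_lit 325) (nat_lit 5) (nat_lit 336) (nat_lit 5) (nat_lit 337) (nat_lit 5) (nat_lit 425) (nat_lit 370) (nat_lit 345))))) (XT.nd (nat_lit 234) (nat_lit 1596) (nat_lit 0) (XT.nd (nat_lit 78) (nat_lit 1672) (nat_lit 0) (XT.lf (nat_lit 0) (nat_lit 6173160077) (nat_lit 836) (nat_lit 762296185) (nat_lit 912) (nat_lit 710843695) (nat_lit 325) (nat_lit 5) (nat_lit 336) (nat_lit 5) (nat_lit 337) (nat_lit 5) (nat_lit 426) (nat_lit 370) (nat_lit 344)) (XT.nd (nat_lit 78) (nat_lit 760) (nat_lit 0) (XT.lf (nat_lit 0) (nat_lit 2035750515) (nat_lit 912) (nat_lit 4253832707) (nat_lit 76) (nat_lit 1414984222) (nat_lit 313) (nat_lit 5) (nat_lit 325) (nat_lit 5) (nat_lit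 314) (nat_lit 5) (nat_lit 427) (nat_lit 370) (nat_lit 343)) (XT.lf (nat_lit 0) (nat_lit 675184570) (nat_lit 760) (nat_lit 4122885560) (nat_lit 836) (nat_lit 2966471632) (nat_lit 303) (nat_lit 5) (nat_lit 313) (nat_lit 5) (nat_lit 314) (nat_lit 5) (nat_lit 428) (nat_lit 370) (nat_lit 342)))) (XT.nd (nat_lit 156) (nat_lit 760) (nat_lit 0) (XT.nd (nat_lit 78) (nat_lit 836) (nat_lit 0) (XT.lf (nat_lit 0) (nat_lit 5707691057) (nat_lit 760) (nat_lit 1888030131) (nat_lit 836) (nat_lit 230433549) (nat_lit 303) (nat_lit 5) (nat_lit 313) (nat_lit 5) (nat_lit 314) (nat_lit 5) (nat_lit 429) (nat_lit 370) (nat_lit 341)) (XT.lf (nat_lit 0) (nat_lit 2500596077) (nat_lit 836) (nat_lit 4970891360) (nat_lit 76) (nat_lit 417742356) (nat_lit 292) (nat_lit 5) (nat_lit 303) (nat_lit 5) (nat_lit 293) (nat_lit 5) (nat_lit 430) (nat_lit 370) (nat_lit 340))) (XT.nd (nat_lit 78) (nat_lit 76) (nat_lit 0) (XT.lf (nat_lit 0) (nat_lit 65038188)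 (nat_lit 684) (nat_lit 5198066546) (nat_lit 760) (nat_lit 2690870788) (nat_lit 283) (nat_lit 5) (nat_lit 292) (nat_lit 5) (nat_lit 293) (nat_lit 5) (nat_lit 431) (nat_lit 370) (nat_lit 339)) (XT.lf (nat_lit 0) (nat_lit 46571595) (nat_lit 760) (nat_lit 2804212583) (nat_lit 76) (nat_lit 5169530662) (nat_lit 282) (nat_lit 5) (nat_lit 292) (nat_lit 5) (nat_lit 283) (nat_lit 5) (nat_lit 432) (nat_lit 370) (nat_lit 338))))))) (XT.nd (nat_lit 1092) (nat_lit 4560) (nat_lit 0) (XT.nd (nat_lit 546) (nat_lit 2432) (nat_lit 0) (XT.nd (nat_lit 234) (nat_lit 1976) (nat_lit 0) (XT.nd (nat_lit 78) (nat_lit 760) (nat_lit 0) (XT.lf (nat_lit 0) (nat_lit 2342842879) (nat_lit 760) (nat_lit 429000841) (nat_lit 836) (nat_lit 5316435551) (nat_lit 272) (nat_lit 5) (nat_lit 282) (nat_lit 5) (nat_lit 283) (nat_lit 5) (nat_lit 433) (nat_lit 370) (nat_lit 337)) (XT.nd (nat_lit 78) (nat_lit 760) (nat_lit 0) (XT.lf (nat_lit 0) (nat_lit 5538209416)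 (nat_lit 836) (nat_lit 592584882) (nat_lit 76) (nat_lit 2027112513) (nat_lit 272) (nat_lit 5) (nat_lit 283) (nat_lit 5) (nat_lit 273) (nat_lit 5) (nat_lit 434) (nat_lit 370) (nat_lit 336)) (XT.lf (nat_lit 0) (nat_lit 117595278) (nat_lit 760) (nat_lit 3560032910) (nat_lit 76) (nat_lit 4551549155) (nat_lit 262) (nat_lit 5) (nat_lit 272) (nat_lit 5) (nat_lit 263) (nat_lit 5) (nat_lit 435) (nat_lit 370) (nat_lit 335)))) (XT.nd (nat_lit 156) (nat_lit 1292) (nat_lit 0) (XT.nd (nat_lit 78) (nat_lit 0) (nat_lit 0) (XT.lf (nat_lit 0) (nat_lit 1695123596) (nat_lit 684) (nat_lit 1149977459) (nat_lit 760) (nat_lit 5457048536) (nat_lit 253) (nat_lit 5) (nat_lit 262) (nat_lit 5) (nat_lit 263) (nat_lit 5) (nat_lit 436) (nat_lit 370) (nat_lit 334)) (XT.lf (nat_lit 0) (nat_lit 5616467368) (nat_lit 760) (nat_lit 1334493373) (nat_lit 76) (nat_lit 1425867208) (nat_lit 253) (nat_lit 5) (nat_lit 263) (nat_lit 5) (nat_lit 254) (nat_lit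 5) (nat_lit 437) (nat_lit 370) (nat_lit 333))) (XT.nd (nat_lit 78) (nat_lit 684) (nat_lit 0) (XT.lf (nat_lit 0) (nat_lit 4037255751) (nat_lit 608) (nat_lit 4396686014) (nat_lit 684) (nat_lit 19276721) (nat_lit 245) (nat_lit 5) (nat_lit 253) (nat_lit 5) (nat_lit 254) (nat_lit 5) (nat_lit 438) (nat_lit 370) (nat_lit 332)) (XT.lf (nat_lit 0) (nat_lit 946062080) (nat_lit 608) (nat_lit 1766360036) (nat_lit 684) (nat_lit 5818940953) (nat_lit 236) (nat_lit 5) (nat_lit 244) (nat_lit 5) (nat_lit 245) (nat_lit 5) (nat_lit 439) (nat_lit 370) (nat_lit 331))))) (XT.nd (nat_lit 234) (nat_lit 1140) (nat_lit 0) (XT.nd (nat_lit 78) (nat_lit 1292) (nat_lit 0) (XT.lf (nat_lit 0) (nat_lit 5491779156) (nat_lit 684) (nat_lit 2193875481) (nat_lit 76) (nat_lit 925578081) (nat_lit 236) (nat_lit 5) (nat_lit 245) (nat_lit 5) (nat_lit 237) (nat_lit 5) (nat_lit 440) (nat_lit 370) (nat_lit 330)) (XT.nd (nat_lit 78) (nat_lit 684) (nat_lit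 0) (XT.lf (nat_lit 0) (nat_lit 3285486585) (nat_lit 608) (nat_lit 5032600783) (nat_lit 684) (nat_lit 374814884) (nat_lit 228) (nat_lit 5) (nat_lit 236) (nat_lit 5) (nat_lit 237) (nat_lit 5) (nat_lit 441) (nat_lit 370) (nat_lit 329)) (XT.lf (nat_lit 0) (nat_lit 61706209) (nat_lit 608) (nat_lit 2304949353) (nat_lit 684) (nat_lit 6409788583) (nat_lit 219) (nat_lit 5) (nat_lit 227) (nat_lit 5) (nat_lit 228) (nat_lit 5) (nat_lit 442) (nat_lit 370) (nat_lit 328)))) (XT.nd (nat_lit 156) (nat_lit 608) (nat_lit 0) (XT.nd (nat_lit 78) (nat_lit 532) (nat_lit 0) (XT.lf (nat_lit 0) (nat_lit 5156501164) (nat_lit 684) (nat_lit 3205212203) (nat_lit 76) (nat_lit 499950726) (nat_lit 219) (nat_lit 5) (nat_lit 228) (nat_lit 5) (nat_lit 220) (nat_lit 5) (nat_lit 443) (nat_lit 370) (nat_lit 327)) (XT.lf (nat_lit 0) (nat_lit 2379496672) (nat_lit 532) (nat_lit 5613100303) (nat_lit 608) (nat_lit 956209902) (nat_lit 212) (nat_lit 5) (nat_lit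 219) (nat_lit 5) (nat_lit 220) (nat_lit 5) (nat_lit 444) (nat_lit 370) (nat_lit 326))) (XT.nd (nat_lit 78) (nat_lit 532) (nat_lit 0) (XT.lf (nat_lit 0) (nat_lit 1805050150) (nat_lit 608) (nat_lit 981228551) (nat_lit 76) (nat_lit 6251569099) (nat_lit 211) (nat_lit 5) (nat_lit 219) (nat_lit 5) (nat_lit 212) (nat_lit 5) (nat_lit 445) (nat_lit 370) (nat_lit 325)) (XT.lf (nat_lit 0) (nat_lit 4600916464) (nat_lit 608) (nat_lit 4405477963) (nat_lit 76) (nat_lit 122330928) (nat_lit 204) (nat_lit 5) (nat_lit 212) (nat_lit 5) (nat_lit 205) (nat_lit 5) (nat_lit 446) (nat_lit 370) (nat_lit 324)))))) (XT.nd (nat_lit 546) (nat_lit 2356) (nat_lit 0) (XT.nd (nat_lit 234) (nat_lit 1064) (nat_lit 0) (XT.nd (nat_lit 78) (nat_lit 608) (nat_lit 0) (XT.lf (nat_lit 0) (nat_lit 1281564980) (nat_lit 532) (nat_lit 6165608133) (nat_lit 608) (nat_lit 1774383299) (nat_lit 197) (nat_lit 5) (nat_lit 204) (nat_lit 5) (nat_lit 205) (nat_lit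 5) (nat_lit 447) (nat_lit 370) (nat_lit 323)) (XT.nd (nat_lit 78) (nat_lit 532) (nat_lit 0) (XT.lf (nat_lit 0) (nat_lit 1011536624) (nat_lit 608) (nat_lit 2231275590) (nat_lit 76) (nat_lit 6073502251) (nat_lit 196) (nat_lit 5) (nat_lit 204) (nat_lit 5) (nat_lit 197) (nat_lit 5) (nat_lit 448) (nat_lit 370) (nat_lit 322)) (XT.lf (nat_lit 0) (nat_lit 3576993223) (nat_lit 532) (nat_lit 237658870) (nat_lit 608) (nat_lit 5598400235) (nat_lit 189) (nat_lit 5) (nat_lit 196) (nat_lit 5) (nat_lit 197) (nat_lit 5) (nat_lit 449) (nat_lit 370) (nat_lit 321)))) (XT.nd (nat_lit 156) (nat_lit 608) (nat_lit 0) (XT.nd (nat_lit 78) (nat_lit 456) (nat_lit 0) (XT.lf (nat_lit 0) (nat_lit 6669597556) (nat_lit 608) (nat_lit 48364327) (nat_lit 76) (nat_lit 2793871189) (nat_lit 189) (nat_lit 5) (nat_lit 197) (nat_lit 5) (nat_lit 190) (nat_lit 5) (nat_lit 450) (nat_lit 370) (nat_lit 320)) (XT.lf (nat_lit 0) (nat_lit 5881476498) (nat_lit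 456) (nat_lit 3703001118) (nat_lit 532) (nat_lit 28078115) (nat_lit 183) (nat_lit 5) (nat_lit 189) (nat_lit 5) (nat_lit 190) (nat_lit 5) (nat_lit 451) (nat_lit 370) (nat_lit 319))) (XT.nd (nat_lit 78) (nat_lit 0) (nat_lit 0) (XT.lf (nat_lit 0) (nat_lit 2176007440) (nat_lit 532) (nat_lit 606749782) (nat_lit 608) (nat_lit 6932635197) (nat_lit 175) (nat_lit 5) (nat_lit 182) (nat_lit 5) (nat_lit 183) (nat_lit 5) (nat_lit 452) (nat_lit 370) (nat_lit 318)) (XT.lf (nat_lit 0) (nat_lit 5654741321) (nat_lit 608) (nat_lit 1634591193) (nat_lit 76) (nat_lit 2530865141) (nat_lit 175) (nat_lit 5) (nat_lit 183) (nat_lit 5) (nat_lit 176) (nat_lit 5) (nat_lit 453) (nat_lit 370) (nat_lit 317))))) (XT.nd (nat_lit 234) (nat_lit 1368) (nat_lit 0) (XT.nd (nat_lit 78) (nat_lit 532) (nat_lit 0) (XT.lf (nat_lit 0) (nat_lit 4393171612) (nat_lit 456) (nat_lit 4187788808) (nat_lit 532) (nat_lit 1346223934) (nat_lit 169) (nat_lit 5) (nat_lit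 175) (nat_lit 5) (nat_lit 176) (nat_lit 5) (nat_lit 454) (nat_lit 370) (nat_lit 316)) (XT.nd (nat_lit 78) (nat_lit 0) (nat_lit 0) (XT.lf (nat_lit 0) (nat_lit 474882217) (nat_lit 456) (nat_lit 1012963099) (nat_lit 532) (nat_lit 8548717101) (nat_lit 162) (nat_lit 5) (nat_lit 168) (nat_lit 5) (nat_lit 169) (nat_lit 5) (nat_lit 455) (nat_lit 370) (nat_lit 315)) (XT.lf (nat_lit 0) (nat_lit 4377099329) (nat_lit 532) (nat_lit 3541240438) (nat_lit 76) (nat_lit 2229299754) (nat_lit 162) (nat_lit 5) (nat_lit 169) (nat_lit 5) (nat_lit 163) (nat_lit 5) (nat_lit 456) (nat_lit 370) (nat_lit 314)))) (XT.nd (nat_lit 156) (nat_lit 912) (nat_lit 0) (XT.nd (nat_lit 78) (nat_lit 0) (nat_lit 0) (XT.lf (nat_lit 0) (nat_lit 2578466450) (nat_lit 456) (nat_lit 4734495846) (nat_lit 532) (nat_lit 2948219037) (nat_lit 156) (nat_lit 5) (nat_lit 162) (nat_lit 5) (nat_lit 163) (nat_lit 5) (nat_lit 457) (nat_lit 370) (nat_lit 313)) (XT.lf (nat_lit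 0) (nat_lit 8820637005) (nat_lit 456) (nat_lit 1476411223) (nat_lit 532) (nat_lit 80174899) (nat_lit 156) (nat_lit 5) (nat_lit 162) (nat_lit 5) (nat_lit 163) (nat_lit 5) (nat_lit 458) (nat_lit 370) (nat_lit 312))) (XT.nd (nat_lit 78) (nat_lit 380) (nat_lit 0) (XT.lf (nat_lit 0) (nat_lit 2816748524) (nat_lit 532) (nat_lit 5819919077) (nat_lit 76) (nat_lit 1858390521) (nat_lit 149) (nat_lit 5) (nat_lit 156) (nat_lit 5) (nat_lit 150) (nat_lit 5) (nat_lit 459) (nat_lit 370) (nat_lit 311)) (XT.lf (nat_lit 0) (nat_lit 384474902) (nat_lit 380) (nat_lit 5375292614) (nat_lit 456) (nat_lit 4855705238) (nat_lit 144) (nat_lit 5) (nat_lit 149) (nat_lit 5) (nat_lit 150) (nat_lit 5) (nat_lit 460) (nat_lit 370) (nat_lit 310))))))))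
noncomputable def xc78 : XT := (XT.nd (nat_lit 2184) (nat_lit 2888) (nat_lit 0) (XT.nd (nat_lit 1092) (nat_lit 2204) (nat_lit 0) (XT.nd (nat_lit 546) (nat_lit 1520) (nat_lit 0) (XT.nd (nat_lit 234) (nat_lit 1140) (nat_lit 0) (XT.nd (nat_lit 78) (nat_lit 532) (nat_lit 0) (XT.lf (nat_lit 0) (nat_lit 6744413818) (nat_lit 380) (nat_lit 2023078964) (nat_lit 456) (nat_lit 1970703768) (nat_lit 144) (nat_lit 5) (nat_lit 149) (nat_lit 5) (nat_lit 150) (nat_lit 5) (nat_lit 461) (nat_lit 370) (nat_lit 309)) (XT.nd (nat_lit 78) (nat_lit 0) (nat_lit 0) (XT.lf (nat_lit 0) (nat_lit 950804572) (nat_lit 532) (nat_lit 8527059040) (nat_lit 76) (nat_lit 1385571001) (nat_lit 137) (nat_lit 5) (nat_lit 144) (nat_lit 5) (nat_lit 138) (nat_lit 5) (nat_lit 462) (nat_lit 370) (nat_lit 308)) (XT.lf (nat_lit 0) (nat_lit 3912213176) (nat_lit 532) (nat_lit 2217214939) (nat_lit 76) (nat_lit 4861348404) (nat_lit 137) (nat_lit 5) (nat_lit 144)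 (nat_lit 5) (nat_lit 138) (nat_lit 5) (nat_lit 463) (nat_lit 370) (nat_lit 307)))) (XT.nd (nat_lit 156) (nat_lit 760) (nat_lit 0) (XT.nd (nat_lit 78) (nat_lit 0) (nat_lit 0) (XT.lf (nat_lit 0) (nat_lit 4227981731) (nat_lit 380) (nat_lit 2700414582) (nat_lit 456) (nat_lit 4192374459) (nat_lit 132) (nat_lit 5) (nat_lit 137) (nat_lit 5) (nat_lit 138) (nat_lit 5) (nat_lit 464) (nat_lit 370) (nat_lit 306)) (XT.lf (nat_lit 0) (nat_lit 9993385042) (nat_lit 456) (nat_lit 472748988) (nat_lit 76) (nat_lit 787477357) (nat_lit 132) (nat_lit 5) (nat_lit 138) (nat_lit 5) (nat_lit 133) (nat_lit 5) (nat_lit 465) (nat_lit 370) (nat_lit 305))) (XT.nd (nat_lit 78) (nat_lit 304) (nat_lit 0) (XT.lf (nat_lit 0) (nat_lit 1734414454) (nat_lit 456) (nat_lit 5307932433) (nat_lit 76) (nat_lit 4346021769) (nat_lit 126) (nat_lit 5) (nat_lit 132) (nat_lit 5) (nat_lit 127) (nat_lit 5) (nat_lit 466) (nat_lit 370) (nat_lit 304)) (XT.lf (nat_lit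 0) (nat_lit 1207041165) (nat_lit 304) (nat_lit 3545124133) (nat_lit 380) (nat_lit 6773902522) (nat_lit 122) (nat_lit 5) (nat_lit 126) (nat_lit 5) (nat_lit 127) (nat_lit 5) (nat_lit 467) (nat_lit 370) (nat_lit 303))))) (XT.nd (nat_lit 234) (nat_lit 1064) (nat_lit 0) (XT.nd (nat_lit 78) (nat_lit 456) (nat_lit 0) (XT.lf (nat_lit 0) (nat_lit 7835530380) (nat_lit 380) (nat_lit 3787911721) (nat_lit 76) (nat_lit 42988569) (nat_lit 122) (nat_lit 5) (nat_lit 127) (nat_lit 5) (nat_lit 123) (nat_lit 5) (nat_lit 468) (nat_lit 370) (nat_lit 302)) (XT.nd (nat_lit 78) (nat_lit 76) (nat_lit 0) (XT.lf (nat_lit 0) (nat_lit 2842541265) (nat_lit 380) (nat_lit 8149818722) (nat_lit 456) (nat_lit 817019442) (nat_lit 117) (nat_lit 5) (nat_lit 122) (nat_lit 5) (nat_lit 123) (nat_lit 5) (nat_lit 469) (nat_lit 370) (nat_lit 301)) (XT.lf (nat_lit 0) (nat_lit 2223075756) (nat_lit 456) (nat_lit 2357756279) (nat_lit 76) (nat_lit 7374165268)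 (nat_lit 116) (nat_lit 5) (nat_lit 122) (nat_lit 5) (nat_lit 117) (nat_lit 5) (nat_lit 470) (nat_lit 370) (nat_lit 300)))) (XT.nd (nat_lit 156) (nat_lit 760) (nat_lit 0) (XT.nd (nat_lit 78) (nat_lit 0) (nat_lit 0) (XT.lf (nat_lit 0) (nat_lit 4391372744) (nat_lit 304) (nat_lit 920723625) (nat_lit 380) (nat_lit 6791355643) (nat_lit 112) (nat_lit 5) (nat_lit 116) (nat_lit 5) (nat_lit 117) (nat_lit 5) (nat_lit 471) (nat_lit 370) (nat_lit 299)) (XT.lf (nat_lit 0) (nat_lit 8467821910) (nat_lit 380) (nat_lit 1010007182) (nat_lit 76) (nat_lit 2776961716) (nat_lit 112) (nat_lit 5) (nat_lit 117) (nat_lit 5) (nat_lit 113) (nat_lit 5) (nat_lit 472) (nat_lit 370) (nat_lit 298))) (XT.nd (nat_lit 78) (nat_lit 380) (nat_lit 0) (XT.lf (nat_lit 0) (nat_lit 5853120429) (nat_lit 380) (nat_lit 5848951937) (nat_lit 456) (nat_lit 706789027) (nat_lit 107) (nat_lit 5) (nat_lit 112) (nat_lit 5) (nat_lit 113) (nat_lit 5) (nat_lit 473)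 (nat_lit 370) (nat_lit 297)) (XT.lf (nat_lit 0) (nat_lit 244922534) (nat_lit 304) (nat_lit 2137939891) (nat_lit 380) (nat_lit 10183251410) (nat_lit 102) (nat_lit 5) (nat_lit 106) (nat_lit 5) (nat_lit 107) (nat_lit 5) (nat_lit 474) (nat_lit 370) (nat_lit 296)))))) (XT.nd (nat_lit 546) (nat_lit 1216) (nat_lit 0) (XT.nd (nat_lit 234) (nat_lit 684) (nat_lit 0) (XT.nd (nat_lit 78) (nat_lit 304) (nat_lit 0) (XT.lf (nat_lit 0) (nat_lit 5551402011) (nat_lit 380) (nat_lit 5514786494) (nat_lit 76) (nat_lit 1659710660) (nat_lit 102) (nat_lit 5) (nat_lit 107) (nat_lit 5) (nat_lit 103) (nat_lit 5) (nat_lit 475) (nat_lit 370) (nat_lit 295)) (XT.nd (nat_lit 78) (nat_lit 0) (nat_lit 0) (XT.lf (nat_lit 0) (nat_lit 1388711124) (nat_lit 304) (nat_lit 7389904705) (nat_lit 380) (nat_lit 4110370518) (nat_lit 98) (nat_lit 5) (nat_lit 102) (nat_lit 5) (nat_lit 103) (nat_lit 5) (nat_lit 476) (nat_lit 370) (nat_lit 294)) (XT.lf (nat_lit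 0) (nat_lit 8462226626) (nat_lit 304) (nat_lit 3617551455) (nat_lit 380) (nat_lit 975381081) (nat_lit 98) (nat_lit 5) (nat_lit 102) (nat_lit 5) (nat_lit 103) (nat_lit 5) (nat_lit 477) (nat_lit 370) (nat_lit 293)))) (XT.nd (nat_lit 156) (nat_lit 304) (nat_lit 0) (XT.nd (nat_lit 78) (nat_lit 0) (nat_lit 0) (XT.lf (nat_lit 0) (nat_lit 2183268305) (nat_lit 380) (nat_lit 10798578818) (nat_lit 76) (nat_lit 242729124) (nat_lit 93) (nat_lit 5) (nat_lit 98) (nat_lit 5) (nat_lit 94) (nat_lit 5) (nat_lit 478) (nat_lit 370) (nat_lit 292)) (XT.lf (nat_lit 0) (nat_lit 5419935825) (nat_lit 380) (nat_lit 3822337220) (nat_lit 76) (nat_lit 4154432854) (nat_lit 93) (nat_lit 5) (nat_lit 98) (nat_lit 5) (nat_lit 94) (nat_lit 5) (nat_lit 479) (nat_lit 370) (nat_lit 291))) (XT.nd (nat_lit 78) (nat_lit 0) (nat_lit 0) (XT.lf (nat_lit 0) (nat_lit 3294961367) (nat_lit 304) (nat_lit 5421210450) (nat_lit 380) (nat_lit 4856220688) (nat_lit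 89) (nat_lit 5) (nat_lit 93) (nat_lit 5) (nat_lit 94) (nat_lit 5) (nat_lit 480) (nat_lit 370) (nat_lit 290)) (XT.lf (nat_lit 0) (nat_lit 10565011084) (nat_lit 304) (nat_lit 1512665283) (nat_lit 380) (nat_lit 1673940442) (nat_lit 89) (nat_lit 5) (nat_lit 93) (nat_lit 5) (nat_lit 94) (nat_lit 5) (nat_lit 481) (nat_lit 370) (nat_lit 289))))) (XT.nd (nat_lit 234) (nat_lit 608) (nat_lit 0) (XT.nd (nat_lit 78) (nat_lit 304) (nat_lit 0) (XT.lf (nat_lit 0) (nat_lit 1567886658) (nat_lit 304) (nat_lit 9902464884) (nat_lit 76) (nat_lit 2463549992) (nat_lit 85) (nat_lit 5) (nat_lit 89) (nat_lit 5) (nat_lit 86) (nat_lit 5) (nat_lit 482) (nat_lit 370) (nat_lit 288)) (XT.nd (nat_lit 78) (nat_lit 304) (nat_lit 0) (XT.lf (nat_lit 0) (nat_lit 4857876731) (nat_lit 304) (nat_lit 2744723604) (nat_lit 76) (nat_lit 6516905734) (nat_lit 85) (nat_lit 5) (nat_lit 89) (nat_lit 5) (nat_lit 86) (nat_lit 5) (nat_lit 483) (nat_lit 370) (nat_lit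 287)) (XT.lf (nat_lit 0) (nat_lit 4575882575) (nat_lit 304) (nat_lit 3642176510) (nat_lit 380) (nat_lit 6090685777) (nat_lit 81) (nat_lit 5) (nat_lit 85) (nat_lit 5) (nat_lit 86) (nat_lit 5) (nat_lit 484) (nat_lit 370) (nat_lit 286)))) (XT.nd (nat_lit 156) (nat_lit 304) (nat_lit 0) (XT.nd (nat_lit 78) (nat_lit 304) (nat_lit 0) (XT.lf (nat_lit 0) (nat_lit 11641388314) (nat_lit 380) (nat_lit 2464448872) (nat_lit 76) (nat_lit 396022204) (nat_lit 81) (nat_lit 5) (nat_lit 86) (nat_lit 5) (nat_lit 82) (nat_lit 5) (nat_lit 485) (nat_lit 370) (nat_lit 285)) (XT.lf (nat_lit 0) (nat_lit 460429003) (nat_lit 304) (nat_lit 9750763980) (nat_lit 76) (nat_lit 4486960712) (nat_lit 77) (nat_lit 5) (nat_lit 81) (nat_lit 5) (nat_lit 78) (nat_lit 5) (nat_lit 486) (nat_lit 370) (nat_lit 284))) (XT.nd (nat_lit 78) (nat_lit 304) (nat_lit 0) (XT.lf (nat_lit 0) (nat_lit 3801501221) (nat_lit 304) (nat_lit 2415959891) (nat_lit 76) (nat_lit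 8680702759) (nat_lit 77) (nat_lit 5) (nat_lit 81) (nat_lit 5) (nat_lit 78) (nat_lit 5) (nat_lit 487) (nat_lit 370) (nat_lit 283)) (XT.lf (nat_lit 0) (nat_lit 5093385009) (nat_lit 304) (nat_lit 2124935165) (nat_lit 380) (nat_lit 7883684645) (nat_lit 73) (nat_lit 5) (nat_lit 77) (nat_lit 5) (nat_lit 78) (nat_lit 5) (nat_lit 488) (nat_lit 370) (nat_lit 282))))))) (XT.nd (nat_lit 1092) (nat_lit 1292) (nat_lit 0) (XT.nd (nat_lit 546) (nat_lit 836) (nat_lit 0) (XT.nd (nat_lit 234) (nat_lit 456) (nat_lit 0) (XT.nd (nat_lit 78) (nat_lit 304) (nat_lit 0) (XT.lf (nat_lit 0) (nat_lit 10709083433) (nat_lit 380) (nat_lit 2576437295) (nat_lit 76) (nat_lit 2024298595) (nat_lit 73) (nat_lit 5) (nat_lit 78) (nat_lit 5) (nat_lit 74) (nat_lit 5) (nat_lit 489) (nat_lit 370) (nat_lit 281)) (XT.nd (nat_lit 78) (nat_lit 76) (nat_lit 0) (XT.lf (nat_lit 0) (nat_lit 5017801271) (nat_lit 228) (nat_lit 9274964808) (nat_lit 304) (nat_lit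 1228570677) (nat_lit 70) (nat_lit 5) (nat_lit 73) (nat_lit 5) (nat_lit 74) (nat_lit 5) (nat_lit 490) (nat_lit 370) (nat_lit 280)) (XT.lf (nat_lit 0) (nat_lit 2175947797) (nat_lit 304) (nat_lit 2990752922) (nat_lit 76) (nat_lit 10570226931) (nat_lit 69) (nat_lit 5) (nat_lit 73) (nat_lit 5) (nat_lit 70) (nat_lit 5) (nat_lit 491) (nat_lit 370) (nat_lit 279)))) (XT.nd (nat_lit 156) (nat_lit 228) (nat_lit 0) (XT.nd (nat_lit 78) (nat_lit 0) (nat_lit 0) (XT.lf (nat_lit 0) (nat_lit 4687992696) (nat_lit 228) (nat_lit 951531386) (nat_lit 304) (nat_lit 10317003721) (nat_lit 66) (nat_lit 5) (nat_lit 69) (nat_lit 5) (nat_lit 70) (nat_lit 5) (nat_lit 492) (nat_lit 370) (nat_lit 278)) (XT.lf (nat_lit 0) (nat_lit 9191390766) (nat_lit 304) (nat_lit 3678897470) (nat_lit 76) (nat_lit 3309859404) (nat_lit 66) (nat_lit 5) (nat_lit 70) (nat_lit 5) (nat_lit 67) (nat_lit 5) (nat_lit 493) (nat_lit 370) (nat_lit 277))) (XT.nd (nat_lit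 78) (nat_lit 0) (nat_lit 0) (XT.lf (nat_lit 0) (nat_lit 4072622402) (nat_lit 228) (nat_lit 8751944882) (nat_lit 304) (nat_lit 3583475039) (nat_lit 63) (nat_lit 5) (nat_lit 66) (nat_lit 5) (nat_lit 67) (nat_lit 5) (nat_lit 494) (nat_lit 370) (nat_lit 276)) (XT.lf (nat_lit 0) (nat_lit 11992262502) (nat_lit 228) (nat_lit 4540562794) (nat_lit 304) (nat_lit 107628990) (nat_lit 63) (nat_lit 5) (nat_lit 66) (nat_lit 5) (nat_lit 67) (nat_lit 5) (nat_lit 495) (nat_lit 370) (nat_lit 275))))) (XT.nd (nat_lit 234) (nat_lit 304) (nat_lit 0) (XT.nd (nat_lit 78) (nat_lit 228) (nat_lit 0) (XT.lf (nat_lit 0) (nat_lit 3175754400) (nat_lit 228) (nat_lit 215527380) (nat_lit 304) (nat_lit 13485821064) (nat_lit 59) (nat_lit 5) (nat_lit 62) (nat_lit 5) (nat_lit 63) (nat_lit 5) (nat_lit 496) (nat_lit 370) (nat_lit 274)) (XT.nd (nat_lit 78) (nat_lit 228) (nat_lit 0) (XT.lf (nat_lit 0) (nat_lit 6995491349) (nat_lit 304) (nat_lit 5963304071)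 (nat_lit 76) (nat_lit 4158946789) (nat_lit 59) (nat_lit 5) (nat_lit 63) (nat_lit 5) (nat_lit 60) (nat_lit 5) (nat_lit 497) (nat_lit 370) (nat_lit 273)) (XT.lf (nat_lit 0) (nat_lit 1917468972) (nat_lit 228) (nat_lit 8746740727) (nat_lit 304) (nat_lit 6699143325) (nat_lit 56) (nat_lit 5) (nat_lit 59) (nat_lit 5) (nat_lit 60) (nat_lit 5) (nat_lit 498) (nat_lit 370) (nat_lit 272)))) (XT.nd (nat_lit 156) (nat_lit 0) (nat_lit 0) (XT.nd (nat_lit 78) (nat_lit 304) (nat_lit 0) (XT.lf (nat_lit 0) (nat_lit 10001174016) (nat_lit 228) (nat_lit 4423883116) (nat_lit 304) (nat_lit 3188450845) (nat_lit 56) (nat_lit 5) (nat_lit 59) (nat_lit 5) (nat_lit 60) (nat_lit 5) (nat_lit 499) (nat_lit 370) (nat_lit 271)) (XT.lf (nat_lit 0) (nat_lit 344753673) (nat_lit 228) (nat_lit 23802932) (nat_lit 304) (nat_lit 17500440238) (nat_lit 52) (nat_lit 5) (nat_lit 55) (nat_lit 5) (nat_lit 56) (nat_lit 5) (nat_lit 500) (nat_lit 370) (nat_lit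 270))) (XT.nd (nat_lit 78) (nat_lit 0) (nat_lit 0) (XT.lf (nat_lit 0) (nat_lit 4013560532) (nat_lit 304) (nat_lit 9650049776) (nat_lit 76) (nat_lit 4464379284) (nat_lit 52) (nat_lit 5) (nat_lit 56) (nat_lit 5) (nat_lit 53) (nat_lit 5) (nat_lit 501) (nat_lit 370) (nat_lit 269)) (XT.lf (nat_lit 0) (nat_lit 7711135557) (nat_lit 304) (nat_lit 1653047078) (nat_lit 76) (nat_lit 9028392619) (nat_lit 52) (nat_lit 5) (nat_lit 56) (nat_lit 5) (nat_lit 53) (nat_lit 5) (nat_lit 502) (nat_lit 370) (nat_lit 268)))))) (XT.nd (nat_lit 546) (nat_lit 684) (nat_lit 0) (XT.nd (nat_lit 234) (nat_lit 152) (nat_lit 0) (XT.nd (nat_lit 78) (nat_lit 304) (nat_lit 0) (XT.lf (nat_lit 0) (nat_lit 6556039177) (nat_lit 152) (nat_lit 4949104142) (nat_lit 228) (nat_lit 7156866041) (nat_lit 50) (nat_lit 5) (nat_lit 52) (nat_lit 5) (nat_lit 53) (nat_lit 5) (nat_lit 503) (nat_lit 370) (nat_lit 267)) (XT.nd (nat_lit 78) (nat_lit 304) (nat_lit 0)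 (XT.lf (nat_lit 0) (nat_lit 14918097150) (nat_lit 152) (nat_lit 448117538) (nat_lit 228) (nat_lit 3570800018) (nat_lit 50) (nat_lit 5) (nat_lit 52) (nat_lit 5) (nat_lit 53) (nat_lit 5) (nat_lit 504) (nat_lit 370) (nat_lit 266)) (XT.lf (nat_lit 0) (nat_lit 120794853) (nat_lit 304) (nat_lit 14992503047) (nat_lit 76) (nat_lit 4103517985) (nat_lit 46) (nat_lit 5) (nat_lit 50) (nat_lit 5) (nat_lit 47) (nat_lit 5) (nat_lit 505) (nat_lit 370) (nat_lit 265)))) (XT.nd (nat_lit 156) (nat_lit 0) (nat_lit 0) (XT.nd (nat_lit 78) (nat_lit 152) (nat_lit 0) (XT.lf (nat_lit 0) (nat_lit 3848997619) (nat_lit 304) (nat_lit 6874896981) (nat_lit 76) (nat_lit 8777640515) (nat_lit 46) (nat_lit 5) (nat_lit 50) (nat_lit 5) (nat_lit 47) (nat_lit 5) (nat_lit 506) (nat_lit 370) (nat_lit 264)) (XT.lf (nat_lit 0) (nat_lit 1390638254) (nat_lit 152) (nat_lit 6250967873) (nat_lit 228) (nat_lit 12150551524) (nat_lit 44) (nat_lit 5) (nat_lit 46)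 (nat_lit 5) (nat_lit 47) (nat_lit 5) (nat_lit 507) (nat_lit 370) (nat_lit 263))) (XT.nd (nat_lit 78) (nat_lit 0) (nat_lit 0) (XT.lf (nat_lit 0) (nat_lit 9882228688) (nat_lit 152) (nat_lit 1654950593) (nat_lit 228) (nat_lit 8550876750) (nat_lit 44) (nat_lit 5) (nat_lit 46) (nat_lit 5) (nat_lit 47) (nat_lit 5) (nat_lit 508) (nat_lit 370) (nat_lit 262)) (XT.lf (nat_lit 0) (nat_lit 15511621878) (nat_lit 228) (nat_lit 1898017001) (nat_lit 76) (nat_lit 2980219870) (nat_lit 44) (nat_lit 5) (nat_lit 47) (nat_lit 5) (nat_lit 45) (nat_lit 5) (nat_lit 509) (nat_lit 370) (nat_lit 261))))) (XT.nd (nat_lit 234) (nat_lit 228) (nat_lit 0) (XT.nd (nat_lit 78) (nat_lit 228) (nat_lit 0) (XT.lf (nat_lit 0) (nat_lit 6620342682) (nat_lit 228) (nat_lit 12980787392) (nat_lit 304) (nat_lit 1095861335) (nat_lit 41) (nat_lit 5) (nat_lit 44) (nat_lit 5) (nat_lit 45) (nat_lit 5) (nat_lit 510) (nat_lit 370) (nat_lit 260)) (XT.nd (nat_lit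 78) (nat_lit 152) (nat_lit 0) (XT.lf (nat_lit 0) (nat_lit 2720420948) (nat_lit 304) (nat_lit 5724748173) (nat_lit 76) (nat_lit 12564854429) (nat_lit 40) (nat_lit 5) (nat_lit 44) (nat_lit 5) (nat_lit 41) (nat_lit 5) (nat_lit 511) (nat_lit 370) (nat_lit 259)) (XT.lf (nat_lit 0) (nat_lit 2792661518) (nat_lit 152) (nat_lit 3805863267) (nat_lit 228) (nat_lit 14730648395) (nat_lit 38) (nat_lit 5) (nat_lit 40) (nat_lit 5) (nat_lit 41) (nat_lit 5) (nat_lit 512) (nat_lit 370) (nat_lit 258)))) (XT.nd (nat_lit 156) (nat_lit 228) (nat_lit 0) (XT.nd (nat_lit 78) (nat_lit 0) (nat_lit 0) (XT.lf (nat_lit 0) (nat_lit 10580968450) (nat_lit 228) (nat_lit 10133158107) (nat_lit 76) (nat_lit 940048701) (nat_lit 38) (nat_lit 5) (nat_lit 41) (nat_lit 5) (nat_lit 39) (nat_lit 5) (nat_lit 513) (nat_lit 370) (nat_lit 257)) (XT.lf (nat_lit 0) (nat_lit 14650710062) (nat_lit 228) (nat_lit 1617306963) (nat_lit 76) (nat_lit 5717512283) (nat_lit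 38) (nat_lit 5) (nat_lit 41) (nat_lit 5) (nat_lit 39) (nat_lit 5) (nat_lit 514) (nat_lit 370) (nat_lit 256))) (XT.nd (nat_lit 78) (nat_lit 76) (nat_lit 0) (XT.lf (nat_lit 0) (nat_lit 7132637325) (nat_lit 152) (nat_lit 11698307894) (nat_lit 228) (nat_lit 3491988059) (nat_lit 36) (nat_lit 5) (nat_lit 38) (nat_lit 5) (nat_lit 39) (nat_lit 5) (nat_lit 515) (nat_lit 370) (nat_lit 255)) (XT.lf (nat_lit 0) (nat_lit 415831933) (nat_lit 228) (nat_lit 6620020362) (nat_lit 76) (nat_lit 15631307293) (nat_lit 35) (nat_lit 5) (nat_lit 38) (nat_lit 5) (nat_lit 36) (nat_lit 5) (nat_lit 516) (nat_lit 370) (nat_lit 254))))))))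
noncomputable def xc79 : XT := (XT.nd (nat_lit 51246) (nat_lit 0) (nat_lit 15504) (XT.nd (nat_lit 50154) (nat_lit 0) (nat_lit 34656) (XT.nd (nat_lit 546) (nat_lit 304) (nat_lit 0) (XT.nd (nat_lit 234) (nat_lit 380) (nat_lit 0) (XT.nd (nat_lit 78) (nat_lit 0) (nat_lit 0) (XT.lf (nat_lit 0) (nat_lit 2096812685) (nat_lit 152) (nat_lit 2255049141) (nat_lit 228) (nat_lit 18666015271) (nat_lit 33) (nat_lit 5) (nat_lit 35) (nat_lit 5) (nat_lit 36) (nat_lit 5) (nat_lit 517) (nat_lit 370) (nat_lit 253)) (XT.nd (nat_lit 78) (nat_lit 0) (nat_lit 0) (XT.lf (nat_lit 0) (nat_lit 8411565435) (nat_lit 228) (nat_lit 12343604481) (nat_lit 76) (nat_lit 2619544424) (nat_lit 33) (nat_lit 5) (nat_lit 36) (nat_lit 5) (nat_lit 34) (nat_lit 5) (nat_lit 518) (nat_lit 370) (nat_lit 252)) (XT.lf (nat_lit 0) (nat_lit 12550941753) (nat_lit 228) (nat_lit 3638243808) (nat_lit 76) (nat_lit 7549537558) (nat_lit 33) (nat_lit 5) (nat_lit 36) (nat_lit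 5) (nat_lit 34) (nat_lit 5) (nat_lit 519) (nat_lit 370) (nat_lit 251)))) (XT.nd (nat_lit 156) (nat_lit 228) (nat_lit 0) (XT.nd (nat_lit 78) (nat_lit 0) (nat_lit 0) (XT.lf (nat_lit 0) (nat_lit 5282351742) (nat_lit 152) (nat_lit 11508917577) (nat_lit 228) (nat_lit 7318383755) (nat_lit 31) (nat_lit 5) (nat_lit 33) (nat_lit 5) (nat_lit 34) (nat_lit 5) (nat_lit 520) (nat_lit 370) (nat_lit 250)) (XT.lf (nat_lit 0) (nat_lit 14402710432) (nat_lit 152) (nat_lit 6722109482) (nat_lit 228) (nat_lit 3363017576) (nat_lit 31) (nat_lit 5) (nat_lit 33) (nat_lit 5) (nat_lit 34) (nat_lit 5) (nat_lit 521) (nat_lit 370) (nat_lit 249))) (XT.nd (nat_lit 78) (nat_lit 152) (nat_lit 0) (XT.lf (nat_lit 0) (nat_lit 646857369) (nat_lit 228) (nat_lit 1200100504) (nat_lit 76) (nat_lit 23026860405) (nat_lit 30) (nat_lit 5) (nat_lit 33) (nat_lit 5) (nat_lit 31) (nat_lit 5) (nat_lit 522) (nat_lit 370) (nat_lit 248)) (XT.lf (nat_lit 0) (nat_lit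 4748568170) (nat_lit 228) (nat_lit 17369966189) (nat_lit 76) (nat_lit 3147410300) (nat_lit 28) (nat_lit 5) (nat_lit 31) (nat_lit 5) (nat_lit 29) (nat_lit 5) (nat_lit 523) (nat_lit 370) (nat_lit 247))))) (XT.nd (nat_lit 234) (nat_lit 152) (nat_lit 0) (XT.nd (nat_lit 78) (nat_lit 152) (nat_lit 0) (XT.lf (nat_lit 0) (nat_lit 8937222507) (nat_lit 228) (nat_lit 8514938195) (nat_lit 76) (nat_lit 8213658550) (nat_lit 28) (nat_lit 5) (nat_lit 31) (nat_lit 5) (nat_lit 29) (nat_lit 5) (nat_lit 524) (nat_lit 370) (nat_lit 246)) (XT.nd (nat_lit 78) (nat_lit 0) (nat_lit 0) (XT.lf (nat_lit 0) (nat_lit 497094592) (nat_lit 152) (nat_lit 12700656505) (nat_lit 228) (nat_lit 12876182015) (nat_lit 26) (nat_lit 5) (nat_lit 28) (nat_lit 5) (nat_lit 29) (nat_lit 5) (nat_lit 525) (nat_lit 370) (nat_lit 245)) (XT.lf (nat_lit 0) (nat_lit 9778350114) (nat_lit 152) (nat_lit 7807278488) (nat_lit 228) (nat_lit 8903741602) (nat_lit 26) (nat_lit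 5) (nat_lit 28) (nat_lit 5) (nat_lit 29) (nat_lit 5) (nat_lit 526) (nat_lit 370) (nat_lit 244)))) (XT.nd (nat_lit 156) (nat_lit 76) (nat_lit 0) (XT.nd (nat_lit 78) (nat_lit 76) (nat_lit 0) (XT.lf (nat_lit 0) (nat_lit 19219309032) (nat_lit 152) (nat_lit 2827247397) (nat_lit 228) (nat_lit 4866857404) (nat_lit 26) (nat_lit 5) (nat_lit 28) (nat_lit 5) (nat_lit 29) (nat_lit 5) (nat_lit 527) (nat_lit 370) (nat_lit 243)) (XT.lf (nat_lit 0) (nat_lit 1482331851) (nat_lit 76) (nat_lit 25124128977) (nat_lit 152) (nat_lit 739285922) (nat_lit 25) (nat_lit 5) (nat_lit 26) (nat_lit 5) (nat_lit 27) (nat_lit 4) (nat_lit 528) (nat_lit 370) (nat_lit 242))) (XT.nd (nat_lit 49140) (nat_lit 0) (nat_lit 43320) (XT.lf (nat_lit 0) (nat_lit 3481543165) (nat_lit 152) (nat_lit 16906362354) (nat_lit 76) (nat_lit 7397249011) (nat_lit 24) (nat_lit 5) (nat_lit 26) (nat_lit 5) (nat_lit 25) (nat_lit 5) (nat_lit 529) (nat_lit 370) (nat_lit 241))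 (XT.lf (nat_lit 0) (nat_lit 1428985378) (nat_lit 684) (nat_lit 936695182) (nat_lit 684) (nat_lit 936695182) (nat_lit 594) (nat_lit 4) (nat_lit 603) (nat_lit 5) (nat_lit 603) (nat_lit 4) (nat_lit 398) (nat_lit 371) (nat_lit 371)))))) (XT.nd (nat_lit 546) (nat_lit 4940) (nat_lit 0) (XT.nd (nat_lit 234) (nat_lit 1976) (nat_lit 0) (XT.nd (nat_lit 78) (nat_lit 912) (nat_lit 0) (XT.lf (nat_lit 0) (nat_lit 91515231) (nat_lit 760) (nat_lit 1077747898) (nat_lit 836) (nat_lit 5454531466) (nat_lit 583) (nat_lit 5) (nat_lit 593) (nat_lit 5) (nat_lit 594) (nat_lit 4) (nat_lit 399) (nat_lit 371) (nat_lit 370)) (XT.nd (nat_lit 78) (nat_lit 912) (nat_lit 0) (XT.lf (nat_lit 0) (nat_lit 3993509764) (nat_lit 760) (nat_lit 209353983) (nat_lit 836) (nat_lit 2441092060) (nat_lit 583) (nat_lit 5) (nat_lit 593) (nat_lit 5) (nat_lit 594) (nat_lit 4) (nat_lit 400) (nat_lit 371) (nat_lit 369)) (XT.lf (nat_lit 0) (nat_lit 568081163) (nat_lit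 912) (nat_lit 5400033934) (nat_lit 76) (nat_lit 697532805) (nat_lit 571) (nat_lit 5) (nat_lit 583) (nat_lit 5) (nat_lit 572) (nat_lit 4) (nat_lit 401) (nat_lit 371) (nat_lit 368)))) (XT.nd (nat_lit 156) (nat_lit 1064) (nat_lit 0) (XT.nd (nat_lit 78) (nat_lit 912) (nat_lit 0) (XT.lf (nat_lit 0) (nat_lit 3556132293) (nat_lit 912) (nat_lit 1461665879) (nat_lit 76) (nat_lit 1670708715) (nat_lit 571) (nat_lit 5) (nat_lit 583) (nat_lit 5) (nat_lit 572) (nat_lit 4) (nat_lit 402) (nat_lit 371) (nat_lit 367)) (XT.lf (nat_lit 0) (nat_lit 2537275751) (nat_lit 912) (nat_lit 4016534513) (nat_lit 988) (nat_lit 159097212) (nat_lit 559) (nat_lit 5) (nat_lit 571) (nat_lit 5) (nat_lit 572) (nat_lit 4) (nat_lit 403) (nat_lit 371) (nat_lit 366))) (XT.nd (nat_lit 78) (nat_lit 988) (nat_lit 0) (XT.lf (nat_lit 0) (nat_lit 2779683289) (nat_lit 988) (nat_lit 172402618) (nat_lit 76) (nat_lit 3786541064) (nat_lit 558) (nat_lit 5) (nat_lit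 571) (nat_lit 5) (nat_lit 559) (nat_lit 5) (nat_lit 404) (nat_lit 371) (nat_lit 365)) (XT.lf (nat_lit 0) (nat_lit 3910050201) (nat_lit 988) (nat_lit 1825596978) (nat_lit 1064) (nat_lit 1030058909) (nat_lit 545) (nat_lit 5) (nat_lit 558) (nat_lit 5) (nat_lit 559) (nat_lit 5) (nat_lit 405) (nat_lit 371) (nat_lit 364))))) (XT.nd (nat_lit 234) (nat_lit 2584) (nat_lit 0) (XT.nd (nat_lit 78) (nat_lit 1216) (nat_lit 0) (XT.lf (nat_lit 0) (nat_lit 1235004027) (nat_lit 1064) (nat_lit 641504762) (nat_lit 1140) (nat_lit 4917742318) (nat_lit 530) (nat_lit 5) (nat_lit 544) (nat_lit 5) (nat_lit 545) (nat_lit 5) (nat_lit 406) (nat_lit 371) (nat_lit 363)) (XT.nd (nat_lit 78) (nat_lit 1216) (nat_lit 0) (XT.lf (nat_lit 0) (nat_lit 4786997154) (nat_lit 1140) (nat_lit 1440165927) (nat_lit 76) (nat_lit 596948719) (nat_lit 530) (nat_lit 5) (nat_lit 545) (nat_lit 5) (nat_lit 531) (nat_lit 5) (nat_lit 407) (nat_lit 371) (nat_lit 362))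 (XT.lf (nat_lit 0) (nat_lit 848863511) (nat_lit 1216) (nat_lit 4119735842) (nat_lit 76) (nat_lit 1886731978) (nat_lit 514) (nat_lit 5) (nat_lit 530) (nat_lit 5) (nat_lit 515) (nat_lit 5) (nat_lit 408) (nat_lit 371) (nat_lit 361)))) (XT.nd (nat_lit 156) (nat_lit 1368) (nat_lit 0) (XT.nd (nat_lit 78) (nat_lit 0) (nat_lit 0) (XT.lf (nat_lit 0) (nat_lit 62417845) (nat_lit 1216) (nat_lit 3651281578) (nat_lit 1292) (nat_lit 3174306617) (nat_lit 498) (nat_lit 5) (nat_lit 514) (nat_lit 5) (nat_lit 515) (nat_lit 5) (nat_lit 409) (nat_lit 371) (nat_lit 360)) (XT.lf (nat_lit 0) (nat_lit 4332144567) (nat_lit 1216) (nat_lit 2270462811) (nat_lit 1292) (nat_lit 319458413) (nat_lit 498) (nat_lit 5) (nat_lit 514) (nat_lit 5) (nat_lit 515) (nat_lit 5) (nat_lit 410) (nat_lit 371) (nat_lit 359))) (XT.nd (nat_lit 78) (nat_lit 0) (nat_lit 0) (XT.lf (nat_lit 0) (nat_lit 1683952424) (nat_lit 1292) (nat_lit 825329911) (nat_lit 1368)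 (nat_lit 4448236279) (nat_lit 480) (nat_lit 5) (nat_lit 497) (nat_lit 5) (nat_lit 498) (nat_lit 5) (nat_lit 411) (nat_lit 371) (nat_lit 358)) (XT.lf (nat_lit 0) (nat_lit 5352790602) (nat_lit 1368) (nat_lit 974084296) (nat_lit 76) (nat_lit 667577148) (nat_lit 480) (nat_lit 5) (nat_lit 498) (nat_lit 5) (nat_lit 481) (nat_lit 5) (nat_lit 412) (nat_lit 371) (nat_lit 357))))))) (XT.nd (nat_lit 1092) (nat_lit 7296) (nat_lit 0) (XT.nd (nat_lit 546) (nat_lit 4028) (nat_lit 0) (XT.nd (nat_lit 234) (nat_lit 4940) (nat_lit 0) (XT.nd (nat_lit 78) (nat_lit 1444) (nat_lit 0) (XT.lf (nat_lit 0) (nat_lit 1174221507) (nat_lit 1444) (nat_lit 3641710396) (nat_lit 76) (nat_lit 2216710605) (nat_lit 461) (nat_lit 5) (nat_lit 480) (nat_lit 5) (nat_lit 462) (nat_lit 5) (nat_lit 413) (nat_lit 371) (nat_lit 356)) (XT.nd (nat_lit 78) (nat_lit 0) (nat_lit 0) (XT.lf (nat_lit 0) (nat_lit 731492993) (nat_lit 1444) (nat_lit 3246584437) (nat_lit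 1520) (nat_lit 3094289119) (nat_lit 442) (nat_lit 5) (nat_lit 461) (nat_lit 5) (nat_lit 462) (nat_lit 5) (nat_lit 414) (nat_lit 371) (nat_lit 355)) (XT.lf (nat_lit 0) (nat_lit 5189695809) (nat_lit 1444) (nat_lit 1615834936) (nat_lit 1520) (nat_lit 308062298) (nat_lit 442) (nat_lit 5) (nat_lit 461) (nat_lit 5) (nat_lit 462) (nat_lit 5) (nat_lit 415) (nat_lit 371) (nat_lit 354)))) (XT.nd (nat_lit 156) (nat_lit 3344) (nat_lit 0) (XT.nd (nat_lit 78) (nat_lit 0) (nat_lit 0) (XT.lf (nat_lit 0) (nat_lit 2461521323) (nat_lit 1596) (nat_lit 4609970017) (nat_lit 76) (nat_lit 84662508) (nat_lit 421) (nat_lit 5) (nat_lit 442) (nat_lit 5) (nat_lit 422) (nat_lit 5) (nat_lit 416) (nat_lit 371) (nat_lit 353)) (XT.lf (nat_lit 0) (nat_lit 5250641485) (nat_lit 1596) (nat_lit 132856559) (nat_lit 76) (nat_lit 1816716713) (nat_lit 421) (nat_lit 5) (nat_lit 442) (nat_lit 5) (nat_lit 422) (nat_lit 5) (nat_lit 417) (nat_lit 371) (nat_lit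 352))) (XT.nd (nat_lit 78) (nat_lit 1672) (nat_lit 0) (XT.lf (nat_lit 0) (nat_lit 813499410) (nat_lit 1672) (nat_lit 2810473636) (nat_lit 76) (nat_lit 3621640979) (nat_lit 399) (nat_lit 5) (nat_lit 421) (nat_lit 5) (nat_lit 400) (nat_lit 5) (nat_lit 418) (nat_lit 371) (nat_lit 351)) (XT.lf (nat_lit 0) (nat_lit 1762725903) (nat_lit 1672) (nat_lit 1801352150) (nat_lit 1748) (nat_lit 3728470344) (nat_lit 377) (nat_lit 5) (nat_lit 399) (nat_lit 5) (nat_lit 400) (nat_lit 5) (nat_lit 419) (nat_lit 371) (nat_lit 350))))) (XT.nd (nat_lit 234) (nat_lit 1824) (nat_lit 0) (XT.nd (nat_lit 78) (nat_lit 2204) (nat_lit 0) (XT.lf (nat_lit 0) (nat_lit 6335746406) (nat_lit 1748) (nat_lit 927714965) (nat_lit 76) (nat_lit 77689341) (nat_lit 377) (nat_lit 5) (nat_lit 400) (nat_lit 5) (nat_lit 378) (nat_lit 5) (nat_lit 420) (nat_lit 371) (nat_lit 349)) (XT.nd (nat_lit 78) (nat_lit 836) (nat_lit 0) (XT.lf (nat_lit 0) (nat_lit 1732780554)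 (nat_lit 1368) (nat_lit 3650403817) (nat_lit 76) (nat_lit 2007681447) (nat_lit 359) (nat_lit 5) (nat_lit 377) (nat_lit 5) (nat_lit 360) (nat_lit 5) (nat_lit 421) (nat_lit 371) (nat_lit 348)) (XT.lf (nat_lit 0) (nat_lit 1027885446) (nat_lit 836) (nat_lit 3445399437) (nat_lit 912) (nat_lit 2968984957) (nat_lit 348) (nat_lit 5) (nat_lit 359) (nat_lit 5) (nat_lit 360) (nat_lit 5) (nat_lit 422) (nat_lit 371) (nat_lit 347)))) (XT.nd (nat_lit 156) (nat_lit 912) (nat_lit 0) (XT.nd (nat_lit 78) (nat_lit 912) (nat_lit 0) (XT.lf (nat_lit 0) (nat_lit 5797541806) (nat_lit 836) (nat_lit 1444301559) (nat_lit 912) (nat_lit 253440645) (nat_lit 348) (nat_lit 5) (nat_lit 359) (nat_lit 5) (nat_lit 360) (nat_lit 5) (nat_lit 423) (nat_lit 371) (nat_lit 346)) (XT.lf (nat_lit 0) (nat_lit 2456933154) (nat_lit 912) (nat_lit 4467817123) (nat_lit 76) (nat_lit 624856110) (nat_lit 336) (nat_lit 5) (nat_lit 348) (nat_lit 5) (nat_lit 337) (nat_lit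 5) (nat_lit 424) (nat_lit 371) (nat_lit 345))) (XT.nd (nat_lit 78) (nat_lit 76) (nat_lit 0) (XT.lf (nat_lit 0) (nat_lit 315877501) (nat_lit 836) (nat_lit 4875359396) (nat_lit 912) (nat_lit 2414326731) (nat_lit 325) (nat_lit 5) (nat_lit 336) (nat_lit 5) (nat_lit 337) (nat_lit 5) (nat_lit 425) (nat_lit 371) (nat_lit 344)) (XT.lf (nat_lit 0) (nat_lit 293904739) (nat_lit 912) (nat_lit 2460936638) (nat_lit 76) (nat_lit 4908190257) (nat_lit 324) (nat_lit 5) (nat_lit 336) (nat_lit 5) (nat_lit 325) (nat_lit 5) (nat_lit 426) (nat_lit 371) (nat_lit 343)))))) (XT.nd (nat_lit 546) (nat_lit 3344) (nat_lit 0) (XT.nd (nat_lit 234) (nat_lit 2280) (nat_lit 0) (XT.nd (nat_lit 78) (nat_lit 836) (nat_lit 0) (XT.lf (nat_lit 0) (nat_lit 2428837712) (nat_lit 836) (nat_lit 562212872) (nat_lit 912) (nat_lit 4730979381) (nat_lit 313) (nat_lit 5) (nat_lit 324) (nat_lit 5) (nat_lit 325) (nat_lit 5) (nat_lit 427) (nat_lit 371) (nat_lit 342))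 (XT.nd (nat_lit 78) (nat_lit 836) (nat_lit 0) (XT.lf (nat_lit 0) (nat_lit 5721515453) (nat_lit 912) (nat_lit 395152702) (nat_lit 76) (nat_lit 1665993456) (nat_lit 313) (nat_lit 5) (nat_lit 325) (nat_lit 5) (nat_lit 314) (nat_lit 5) (nat_lit 428) (nat_lit 371) (nat_lit 341)) (XT.lf (nat_lit 0) (nat_lit 639728448) (nat_lit 836) (nat_lit 3242526404) (nat_lit 76) (nat_lit 3962477788) (nat_lit 302) (nat_lit 5) (nat_lit 313) (nat_lit 5) (nat_lit 303) (nat_lit 5) (nat_lit 429) (nat_lit 371) (nat_lit 340)))) (XT.nd (nat_lit 156) (nat_lit 1520) (nat_lit 0) (XT.nd (nat_lit 78) (nat_lit 0) (nat_lit 0) (XT.lf (nat_lit 0) (nat_lit 1754857806) (nat_lit 760) (nat_lit 1579326871) (nat_lit 836) (nat_lit 4574283188) (nat_lit 292) (nat_lit 5) (nat_lit 302) (nat_lit 5) (nat_lit 303) (nat_lit 5) (nat_lit 430) (nat_lit 371) (nat_lit 339)) (XT.lf (nat_lit 0) (nat_lit 6063062806) (nat_lit 836) (nat_lit 1134003586) (nat_lit 76) (nat_lit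 776838506) (nat_lit 292) (nat_lit 5) (nat_lit 303) (nat_lit 5) (nat_lit 293) (nat_lit 5) (nat_lit 431) (nat_lit 371) (nat_lit 338))) (XT.nd (nat_lit 78) (nat_lit 760) (nat_lit 0) (XT.lf (nat_lit 0) (nat_lit 786021841) (nat_lit 760) (nat_lit 4069294674) (nat_lit 76) (nat_lit 3185451343) (nat_lit 282) (nat_lit 5) (nat_lit 292) (nat_lit 5) (nat_lit 283) (nat_lit 5) (nat_lit 432) (nat_lit 371) (nat_lit 337)) (XT.lf (nat_lit 0) (nat_lit 1035242389) (nat_lit 760) (nat_lit 2445171301) (nat_lit 836) (nat_lit 4628953819) (nat_lit 272) (nat_lit 5) (nat_lit 282) (nat_lit 5) (nat_lit 283) (nat_lit 5) (nat_lit 433) (nat_lit 371) (nat_lit 336))))) (XT.nd (nat_lit 312) (nat_lit 1900) (nat_lit 0) (XT.nd (nat_lit 156) (nat_lit 684) (nat_lit 0) (XT.nd (nat_lit 78) (nat_lit 760) (nat_lit 0) (XT.lf (nat_lit 0) (nat_lit 6211553960) (nat_lit 836) (nat_lit 1933824904) (nat_lit 76) (nat_lit 34337963) (nat_lit 272) (nat_lit 5) (nat_lit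 283) (nat_lit 5) (nat_lit 273) (nat_lit 5) (nat_lit 434) (nat_lit 371) (nat_lit 335)) (XT.lf (nat_lit 0) (nat_lit 729674435) (nat_lit 760) (nat_lit 4971037814) (nat_lit 76) (nat_lit 2550825314) (nat_lit 262) (nat_lit 5) (nat_lit 272) (nat_lit 5) (nat_lit 263) (nat_lit 5) (nat_lit 435) (nat_lit 371) (nat_lit 334))) (XT.nd (nat_lit 78) (nat_lit 0) (nat_lit 0) (XT.lf (nat_lit 0) (nat_lit 239754546) (nat_lit 684) (nat_lit 3186380372) (nat_lit 760) (nat_lit 4899012071) (nat_lit 253) (nat_lit 5) (nat_lit 262) (nat_lit 5) (nat_lit 263) (nat_lit 5) (nat_lit 436) (nat_lit 371) (nat_lit 333)) (XT.lf (nat_lit 0) (nat_lit 5571423420) (nat_lit 684) (nat_lit 595361451) (nat_lit 760) (nat_lit 2233670757) (nat_lit 253) (nat_lit 5) (nat_lit 262) (nat_lit 5) (nat_lit 263) (nat_lit 5) (nat_lit 437) (nat_lit 371) (nat_lit 332)))) (XT.nd (nat_lit 156) (nat_lit 1216) (nat_lit 0) (XT.nd (nat_lit 78) (nat_lit 0) (nat_lit 0) (XT.lf (nat_lit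 0) (nat_lit 465733994) (nat_lit 684) (nat_lit 5979209919) (nat_lit 76) (nat_lit 2032552184) (nat_lit 244) (nat_lit 5) (nat_lit 253) (nat_lit 5) (nat_lit 245) (nat_lit 5) (nat_lit 438) (nat_lit 371) (nat_lit 331)) (XT.lf (nat_lit 0) (nat_lit 3170193233) (nat_lit 684) (nat_lit 654873444) (nat_lit 76) (nat_lit 4731126269) (nat_lit 244) (nat_lit 5) (nat_lit 253) (nat_lit 5) (nat_lit 245) (nat_lit 5) (nat_lit 439) (nat_lit 371) (nat_lit 330))) (XT.nd (nat_lit 78) (nat_lit 608) (nat_lit 0) (XT.lf (nat_lit 0) (nat_lit 4788939991) (nat_lit 608) (nat_lit 1129614717) (nat_lit 684) (nat_lit 2718142538) (nat_lit 236) (nat_lit 5) (nat_lit 244) (nat_lit 5) (nat_lit 245) (nat_lit 5) (nat_lit 440) (nat_lit 371) (nat_lit 329)) (XT.lf (nat_lit 0) (nat_lit 1591836201) (nat_lit 608) (nat_lit 7114474275) (nat_lit 684) (nat_lit 12841804) (nat_lit 228) (nat_lit 5) (nat_lit 236) (nat_lit 5) (nat_lit 237) (nat_lit 5) (nat_lit 441) (nat_lit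 371) (nat_lit 328))))))))
noncomputable def xc80 : XT := (XT.nd (nat_lit 2184) (nat_lit 4788) (nat_lit 0) (XT.nd (nat_lit 1092) (nat_lit 3496) (nat_lit 0) (XT.nd (nat_lit 546) (nat_lit 2128) (nat_lit 0) (XT.nd (nat_lit 234) (nat_lit 1216) (nat_lit 0) (XT.nd (nat_lit 78) (nat_lit 1140) (nat_lit 0) (XT.lf (nat_lit 0) (nat_lit 2703348357) (nat_lit 684) (nat_lit 1686361633) (nat_lit 76) (nat_lit 4413361727) (nat_lit 227) (nat_lit 5) (nat_lit 236) (nat_lit 5) (nat_lit 228) (nat_lit 5) (nat_lit 442) (nat_lit 371) (nat_lit 327)) (XT.nd (nat_lit 78) (nat_lit 532) (nat_lit 0) (XT.lf (nat_lit 0) (nat_lit 3864484673) (nat_lit 608) (nat_lit 1594426795) (nat_lit 684) (nat_lit 3430079462) (nat_lit 219) (nat_lit 5) (nat_lit 227) (nat_lit 5) (nat_lit 228) (nat_lit 5) (nat_lit 443) (nat_lit 371) (nat_lit 326)) (XT.lf (nat_lit 0) (nat_lit 521457810) (nat_lit 532) (nat_lit 7731593619) (nat_lit 608) (nat_lit 723934754) (nat_lit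 212) (nat_lit 5) (nat_lit 219) (nat_lit 5) (nat_lit 220) (nat_lit 5) (nat_lit 444) (nat_lit 371) (nat_lit 325)))) (XT.nd (nat_lit 156) (nat_lit 608) (nat_lit 0) (XT.nd (nat_lit 78) (nat_lit 532) (nat_lit 0) (XT.lf (nat_lit 0) (nat_lit 2014821615) (nat_lit 608) (nat_lit 2893791896) (nat_lit 76) (nat_lit 4157785410) (nat_lit 211) (nat_lit 5) (nat_lit 219) (nat_lit 5) (nat_lit 212) (nat_lit 5) (nat_lit 445) (nat_lit 371) (nat_lit 324)) (XT.lf (nat_lit 0) (nat_lit 2761414301) (nat_lit 532) (nat_lit 2016650132) (nat_lit 608) (nat_lit 4379877094) (nat_lit 204) (nat_lit 5) (nat_lit 211) (nat_lit 5) (nat_lit 212) (nat_lit 5) (nat_lit 446) (nat_lit 371) (nat_lit 323))) (XT.nd (nat_lit 78) (nat_lit 608) (nat_lit 0) (XT.lf (nat_lit 0) (nat_lit 7584013414) (nat_lit 608) (nat_lit 737743599) (nat_lit 76) (nat_lit 929834058) (nat_lit 204) (nat_lit 5) (nat_lit 212) (nat_lit 5) (nat_lit 205) (nat_lit 5) (nat_lit 447) (nat_lit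 371) (nat_lit 322)) (XT.lf (nat_lit 0) (nat_lit 1093238801) (nat_lit 608) (nat_lit 4315826667) (nat_lit 76) (nat_lit 3937755695) (nat_lit 196) (nat_lit 5) (nat_lit 204) (nat_lit 5) (nat_lit 197) (nat_lit 5) (nat_lit 448) (nat_lit 371) (nat_lit 321))))) (XT.nd (nat_lit 234) (nat_lit 1140) (nat_lit 0) (XT.nd (nat_lit 78) (nat_lit 456) (nat_lit 0) (XT.lf (nat_lit 0) (nat_lit 1440256465) (nat_lit 532) (nat_lit 2423776681) (nat_lit 608) (nat_lit 5580183923) (nat_lit 189) (nat_lit 5) (nat_lit 196) (nat_lit 5) (nat_lit 197) (nat_lit 5) (nat_lit 449) (nat_lit 371) (nat_lit 320)) (XT.nd (nat_lit 78) (nat_lit 456) (nat_lit 0) (XT.lf (nat_lit 0) (nat_lit 6686505349) (nat_lit 608) (nat_lit 2226413967) (nat_lit 76) (nat_lit 630739357) (nat_lit 189) (nat_lit 5) (nat_lit 197) (nat_lit 5) (nat_lit 190) (nat_lit 5) (nat_lit 450) (nat_lit 371) (nat_lit 319)) (XT.lf (nat_lit 0) (nat_lit 3650300002) (nat_lit 456) (nat_lit 5918678019)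 (nat_lit 532) (nat_lit 76062629) (nat_lit 183) (nat_lit 5) (nat_lit 189) (nat_lit 5) (nat_lit 190) (nat_lit 5) (nat_lit 451) (nat_lit 371) (nat_lit 318)))) (XT.nd (nat_lit 156) (nat_lit 532) (nat_lit 0) (XT.nd (nat_lit 78) (nat_lit 532) (nat_lit 0) (XT.lf (nat_lit 0) (nat_lit 2703422125) (nat_lit 532) (nat_lit 139836704) (nat_lit 76) (nat_lit 6905275073) (nat_lit 182) (nat_lit 5) (nat_lit 189) (nat_lit 5) (nat_lit 183) (nat_lit 5) (nat_lit 452) (nat_lit 371) (nat_lit 317)) (XT.lf (nat_lit 0) (nat_lit 5542263077) (nat_lit 608) (nat_lit 3995048310) (nat_lit 76) (nat_lit 316701143) (nat_lit 175) (nat_lit 5) (nat_lit 183) (nat_lit 5) (nat_lit 176) (nat_lit 5) (nat_lit 453) (nat_lit 371) (nat_lit 316))) (XT.nd (nat_lit 78) (nat_lit 76) (nat_lit 0) (XT.lf (nat_lit 0) (nat_lit 1977382234) (nat_lit 456) (nat_lit 6458065842) (nat_lit 532) (nat_lit 1526222154) (nat_lit 169) (nat_lit 5) (nat_lit 175) (nat_lit 5) (nat_lit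 176) (nat_lit 5) (nat_lit 454) (nat_lit 371) (nat_lit 315)) (XT.lf (nat_lit 0) (nat_lit 1289839373) (nat_lit 532) (nat_lit 2004185328) (nat_lit 76) (nat_lit 6777464253) (nat_lit 168) (nat_lit 5) (nat_lit 175) (nat_lit 5) (nat_lit 169) (nat_lit 5) (nat_lit 455) (nat_lit 371) (nat_lit 314)))))) (XT.nd (nat_lit 546) (nat_lit 1596) (nat_lit 0) (XT.nd (nat_lit 234) (nat_lit 988) (nat_lit 0) (XT.nd (nat_lit 78) (nat_lit 456) (nat_lit 0) (XT.lf (nat_lit 0) (nat_lit 4092080086) (nat_lit 456) (nat_lit 42062090) (nat_lit 532) (nat_lit 6049332631) (nat_lit 162) (nat_lit 5) (nat_lit 168) (nat_lit 5) (nat_lit 169) (nat_lit 5) (nat_lit 456) (nat_lit 371) (nat_lit 313)) (XT.nd (nat_lit 78) (nat_lit 456) (nat_lit 0) (XT.lf (nat_lit 0) (nat_lit 7036185653) (nat_lit 532) (nat_lit 28649743) (nat_lit 76) (nat_lit 3232867147) (nat_lit 162) (nat_lit 5) (nat_lit 169) (nat_lit 5) (nat_lit 163) (nat_lit 5) (nat_lit 457) (nat_lit 371)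 (nat_lit 312)) (XT.lf (nat_lit 0) (nat_lit 6189876181) (nat_lit 456) (nat_lit 3813580106) (nat_lit 532) (nat_lit 410633703) (nat_lit 156) (nat_lit 5) (nat_lit 162) (nat_lit 5) (nat_lit 163) (nat_lit 5) (nat_lit 458) (nat_lit 371) (nat_lit 311)))) (XT.nd (nat_lit 156) (nat_lit 456) (nat_lit 0) (XT.nd (nat_lit 78) (nat_lit 0) (nat_lit 0) (XT.lf (nat_lit 0) (nat_lit 1963363816) (nat_lit 456) (nat_lit 480928273) (nat_lit 532) (nat_lit 8088611424) (nat_lit 149) (nat_lit 5) (nat_lit 155) (nat_lit 5) (nat_lit 156) (nat_lit 5) (nat_lit 459) (nat_lit 371) (nat_lit 310)) (XT.lf (nat_lit 0) (nat_lit 5365404758) (nat_lit 532) (nat_lit 2390239620) (nat_lit 76) (nat_lit 2898120701) (nat_lit 149) (nat_lit 5) (nat_lit 156) (nat_lit 5) (nat_lit 150) (nat_lit 5) (nat_lit 460) (nat_lit 371) (nat_lit 309))) (XT.nd (nat_lit 78) (nat_lit 76) (nat_lit 0) (XT.lf (nat_lit 0) (nat_lit 3914912779) (nat_lit 380) (nat_lit 4426374325) (nat_lit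 456) (nat_lit 2435847265) (nat_lit 144) (nat_lit 5) (nat_lit 149) (nat_lit 5) (nat_lit 150) (nat_lit 5) (nat_lit 461) (nat_lit 371) (nat_lit 308)) (XT.lf (nat_lit 0) (nat_lit 451501620) (nat_lit 456) (nat_lit 573299167) (nat_lit 76) (nat_lit 9878445542) (nat_lit 143) (nat_lit 5) (nat_lit 149) (nat_lit 5) (nat_lit 144) (nat_lit 5) (nat_lit 462) (nat_lit 371) (nat_lit 307))))) (XT.nd (nat_lit 234) (nat_lit 760) (nat_lit 0) (XT.nd (nat_lit 78) (nat_lit 380) (nat_lit 0) (XT.lf (nat_lit 0) (nat_lit 3386665548) (nat_lit 532) (nat_lit 5190635354) (nat_lit 76) (nat_lit 2453820365) (nat_lit 137) (nat_lit 5) (nat_lit 144) (nat_lit 5) (nat_lit 138) (nat_lit 5) (nat_lit 463) (nat_lit 371) (nat_lit 306)) (XT.nd (nat_lit 78) (nat_lit 0) (nat_lit 0) (XT.lf (nat_lit 0) (nat_lit 1192278559) (nat_lit 380) (nat_lit 5175375712) (nat_lit 456) (nat_lit 4794173114) (nat_lit 132) (nat_lit 5) (nat_lit 137) (nat_lit 5) (nat_lit 138) (nat_lit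 5) (nat_lit 464) (nat_lit 371) (nat_lit 305)) (XT.lf (nat_lit 0) (nat_lit 7728122473) (nat_lit 380) (nat_lit 1684013836) (nat_lit 456) (nat_lit 1882949646) (nat_lit 132) (nat_lit 5) (nat_lit 137) (nat_lit 5) (nat_lit 138) (nat_lit 5) (nat_lit 465) (nat_lit 371) (nat_lit 304)))) (XT.nd (nat_lit 156) (nat_lit 304) (nat_lit 0) (XT.nd (nat_lit 78) (nat_lit 0) (nat_lit 0) (XT.lf (nat_lit 0) (nat_lit 1073109085) (nat_lit 456) (nat_lit 8492690040) (nat_lit 76) (nat_lit 1865067463) (nat_lit 126) (nat_lit 5) (nat_lit 132) (nat_lit 5) (nat_lit 127) (nat_lit 5) (nat_lit 466) (nat_lit 371) (nat_lit 303)) (XT.lf (nat_lit 0) (nat_lit 4067999512) (nat_lit 456) (nat_lit 2015755445) (nat_lit 76) (nat_lit 5485275373) (nat_lit 126) (nat_lit 5) (nat_lit 132) (nat_lit 5) (nat_lit 127) (nat_lit 5) (nat_lit 467) (nat_lit 371) (nat_lit 302))) (XT.nd (nat_lit 78) (nat_lit 0) (nat_lit 0) (XT.lf (nat_lit 0) (nat_lit 4607160153) (nat_lit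 304) (nat_lit 2515787902) (nat_lit 380) (nat_lit 4587020682) (nat_lit 122) (nat_lit 5) (nat_lit 126) (nat_lit 5) (nat_lit 127) (nat_lit 5) (nat_lit 468) (nat_lit 371) (nat_lit 301)) (XT.lf (nat_lit 0) (nat_lit 10230361508) (nat_lit 380) (nat_lit 515184539) (nat_lit 76) (nat_lit 1108366855) (nat_lit 122) (nat_lit 5) (nat_lit 127) (nat_lit 5) (nat_lit 123) (nat_lit 5) (nat_lit 469) (nat_lit 371) (nat_lit 300))))))) (XT.nd (nat_lit 1092) (nat_lit 1976) (nat_lit 0) (XT.nd (nat_lit 546) (nat_lit 1292) (nat_lit 0) (XT.nd (nat_lit 234) (nat_lit 760) (nat_lit 0) (XT.nd (nat_lit 78) (nat_lit 304) (nat_lit 0) (XT.lf (nat_lit 0) (nat_lit 1409126367) (nat_lit 456) (nat_lit 5783610205) (nat_lit 76) (nat_lit 4807265650) (nat_lit 116) (nat_lit 5) (nat_lit 122) (nat_lit 5) (nat_lit 117) (nat_lit 5) (nat_lit 470) (nat_lit 371) (nat_lit 299)) (XT.nd (nat_lit 78) (nat_lit 0) (nat_lit 0) (XT.lf (nat_lit 0) (nat_lit 898196046) (nat_lit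 304) (nat_lit 3562973434) (nat_lit 380) (nat_lit 7688033677) (nat_lit 112) (nat_lit 5) (nat_lit 116) (nat_lit 5) (nat_lit 117) (nat_lit 5) (nat_lit 471) (nat_lit 371) (nat_lit 298)) (XT.lf (nat_lit 0) (nat_lit 7585537087) (nat_lit 380) (nat_lit 4553390249) (nat_lit 76) (nat_lit 162248319) (nat_lit 112) (nat_lit 5) (nat_lit 117) (nat_lit 5) (nat_lit 113) (nat_lit 5) (nat_lit 472) (nat_lit 371) (nat_lit 297)))) (XT.nd (nat_lit 156) (nat_lit 304) (nat_lit 0) (XT.nd (nat_lit 78) (nat_lit 76) (nat_lit 0) (XT.lf (nat_lit 0) (nat_lit 2241179376) (nat_lit 380) (nat_lit 8541232839) (nat_lit 456) (nat_lit 1673587946) (nat_lit 107) (nat_lit 5) (nat_lit 112) (nat_lit 5) (nat_lit 113) (nat_lit 5) (nat_lit 473) (nat_lit 371) (nat_lit 296)) (XT.lf (nat_lit 0) (nat_lit 1413267690) (nat_lit 456) (nat_lit 3432330428) (nat_lit 76) (nat_lit 7768095706) (nat_lit 106) (nat_lit 5) (nat_lit 112) (nat_lit 5) (nat_lit 107) (nat_lit 5)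 (nat_lit 474) (nat_lit 371) (nat_lit 295))) (XT.nd (nat_lit 78) (nat_lit 0) (nat_lit 0) (XT.lf (nat_lit 0) (nat_lit 3478285061) (nat_lit 304) (nat_lit 1056271864) (nat_lit 380) (nat_lit 8239873283) (nat_lit 102) (nat_lit 5) (nat_lit 106) (nat_lit 5) (nat_lit 107) (nat_lit 5) (nat_lit 475) (nat_lit 371) (nat_lit 294)) (XT.lf (nat_lit 0) (nat_lit 7732369048) (nat_lit 380) (nat_lit 2424916091) (nat_lit 76) (nat_lit 2780826212) (nat_lit 102) (nat_lit 5) (nat_lit 107) (nat_lit 5) (nat_lit 103) (nat_lit 5) (nat_lit 476) (nat_lit 371) (nat_lit 293))))) (XT.nd (nat_lit 234) (nat_lit 608) (nat_lit 0) (XT.nd (nat_lit 78) (nat_lit 380) (nat_lit 0) (XT.lf (nat_lit 0) (nat_lit 4595597755) (nat_lit 304) (nat_lit 6408583255) (nat_lit 380) (nat_lit 2100695974) (nat_lit 98) (nat_lit 5) (nat_lit 102) (nat_lit 5) (nat_lit 103) (nat_lit 5) (nat_lit 477) (nat_lit 371) (nat_lit 292)) (XT.nd (nat_lit 78) (nat_lit 304) (nat_lit 0) (XT.lf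 (nat_lit 0) (nat_lit 1042126643) (nat_lit 380) (nat_lit 1533802677) (nat_lit 76) (nat_lit 10699128168) (nat_lit 97) (nat_lit 5) (nat_lit 102) (nat_lit 5) (nat_lit 98) (nat_lit 5) (nat_lit 478) (nat_lit 371) (nat_lit 291)) (XT.lf (nat_lit 0) (nat_lit 4238764386) (nat_lit 380) (nat_lit 7857046928) (nat_lit 76) (nat_lit 1352181899) (nat_lit 93) (nat_lit 5) (nat_lit 98) (nat_lit 5) (nat_lit 94) (nat_lit 5) (nat_lit 479) (nat_lit 371) (nat_lit 290)))) (XT.nd (nat_lit 156) (nat_lit 304) (nat_lit 0) (XT.nd (nat_lit 78) (nat_lit 304) (nat_lit 0) (XT.lf (nat_lit 0) (nat_lit 7500717595) (nat_lit 380) (nat_lit 803192332) (nat_lit 76) (nat_lit 5320460915) (nat_lit 93) (nat_lit 5) (nat_lit 98) (nat_lit 5) (nat_lit 94) (nat_lit 5) (nat_lit 480) (nat_lit 371) (nat_lit 289)) (XT.lf (nat_lit 0) (nat_lit 6436086493) (nat_lit 304) (nat_lit 4408084042) (nat_lit 380) (nat_lit 2959790908) (nat_lit 89) (nat_lit 5) (nat_lit 93) (nat_lit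 5) (nat_lit 94) (nat_lit 5) (nat_lit 481) (nat_lit 371) (nat_lit 288))) (XT.nd (nat_lit 78) (nat_lit 228) (nat_lit 0) (XT.lf (nat_lit 0) (nat_lit 243805596) (nat_lit 380) (nat_lit 197917500) (nat_lit 76) (nat_lit 13545796997) (nat_lit 88) (nat_lit 5) (nat_lit 93) (nat_lit 5) (nat_lit 89) (nat_lit 5) (nat_lit 482) (nat_lit 371) (nat_lit 287)) (XT.lf (nat_lit 0) (nat_lit 3517083738) (nat_lit 304) (nat_lit 7047428197) (nat_lit 76) (nat_lit 3608951892) (nat_lit 85) (nat_lit 5) (nat_lit 89) (nat_lit 5) (nat_lit 86) (nat_lit 5) (nat_lit 483) (nat_lit 371) (nat_lit 286)))))) (XT.nd (nat_lit 546) (nat_lit 836) (nat_lit 0) (XT.nd (nat_lit 234) (nat_lit 608) (nat_lit 0) (XT.nd (nat_lit 78) (nat_lit 228) (nat_lit 0) (XT.lf (nat_lit 0) (nat_lit 196176365) (nat_lit 304) (nat_lit 6640366260) (nat_lit 380) (nat_lit 7526979326) (nat_lit 81) (nat_lit 5) (nat_lit 85) (nat_lit 5) (nat_lit 86) (nat_lit 5) (nat_lit 484) (nat_lit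 371) (nat_lit 285)) (XT.nd (nat_lit 78) (nat_lit 228) (nat_lit 0) (XT.lf (nat_lit 0) (nat_lit 7640929534) (nat_lit 304) (nat_lit 2604164165) (nat_lit 380) (nat_lit 4311843111) (nat_lit 81) (nat_lit 5) (nat_lit 85) (nat_lit 5) (nat_lit 86) (nat_lit 5) (nat_lit 485) (nat_lit 371) (nat_lit 284)) (XT.lf (nat_lit 0) (nat_lit 437390610) (nat_lit 228) (nat_lit 13272886716) (nat_lit 304) (nat_lit 1044182849) (nat_lit 78) (nat_lit 5) (nat_lit 81) (nat_lit 5) (nat_lit 82) (nat_lit 5) (nat_lit 486) (nat_lit 371) (nat_lit 283)))) (XT.nd (nat_lit 156) (nat_lit 228) (nat_lit 0) (XT.nd (nat_lit 78) (nat_lit 304) (nat_lit 0) (XT.lf (nat_lit 0) (nat_lit 2298631368) (nat_lit 304) (nat_lit 6994771063) (nat_lit 76) (nat_lit 5661447054) (nat_lit 77) (nat_lit 5) (nat_lit 81) (nat_lit 5) (nat_lit 78) (nat_lit 5) (nat_lit 487) (nat_lit 371) (nat_lit 282)) (XT.lf (nat_lit 0) (nat_lit 434565607) (nat_lit 304) (nat_lit 5238918289) (nat_lit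 380) (nat_lit 9486050271) (nat_lit 73) (nat_lit 5) (nat_lit 77) (nat_lit 5) (nat_lit 78) (nat_lit 5) (nat_lit 488) (nat_lit 371) (nat_lit 281))) (XT.nd (nat_lit 78) (nat_lit 228) (nat_lit 0) (XT.lf (nat_lit 0) (nat_lit 8069364148) (nat_lit 304) (nat_lit 1069954794) (nat_lit 380) (nat_lit 6228532611) (nat_lit 73) (nat_lit 5) (nat_lit 77) (nat_lit 5) (nat_lit 78) (nat_lit 5) (nat_lit 489) (nat_lit 371) (nat_lit 280)) (XT.lf (nat_lit 0) (nat_lit 221189048) (nat_lit 228) (nat_lit 12452294441) (nat_lit 304) (nat_lit 2906880094) (nat_lit 70) (nat_lit 5) (nat_lit 73) (nat_lit 5) (nat_lit 74) (nat_lit 5) (nat_lit 490) (nat_lit 371) (nat_lit 279))))) (XT.nd (nat_lit 234) (nat_lit 532) (nat_lit 0) (XT.nd (nat_lit 78) (nat_lit 228) (nat_lit 0) (XT.lf (nat_lit 0) (nat_lit 508246278) (nat_lit 304) (nat_lit 7854129053) (nat_lit 76) (nat_lit 7434029217) (nat_lit 69) (nat_lit 5) (nat_lit 73) (nat_lit 5) (nat_lit 70) (nat_lit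 5) (nat_lit 491) (nat_lit 371) (nat_lit 278)) (XT.nd (nat_lit 78) (nat_lit 228) (nat_lit 0) (XT.lf (nat_lit 0) (nat_lit 3930205170) (nat_lit 304) (nat_lit 255135712) (nat_lit 76) (nat_lit 11831500155) (nat_lit 69) (nat_lit 5) (nat_lit 73) (nat_lit 5) (nat_lit 70) (nat_lit 5) (nat_lit 492) (nat_lit 371) (nat_lit 277)) (XT.lf (nat_lit 0) (nat_lit 7448261822) (nat_lit 304) (nat_lit 8683083953) (nat_lit 76) (nat_lit 109795210) (nat_lit 66) (nat_lit 5) (nat_lit 70) (nat_lit 5) (nat_lit 67) (nat_lit 5) (nat_lit 493) (nat_lit 371) (nat_lit 276)))) (XT.nd (nat_lit 156) (nat_lit 304) (nat_lit 0) (XT.nd (nat_lit 78) (nat_lit 228) (nat_lit 0) (XT.lf (nat_lit 0) (nat_lit 11044089945) (nat_lit 304) (nat_lit 1002945690) (nat_lit 76) (nat_lit 4422750837) (nat_lit 66) (nat_lit 5) (nat_lit 70) (nat_lit 5) (nat_lit 67) (nat_lit 5) (nat_lit 494) (nat_lit 371) (nat_lit 275)) (XT.lf (nat_lit 0) (nat_lit 6885515568) (nat_lit 228)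 (nat_lit 7849425782) (nat_lit 304) (nat_lit 1967608974) (nat_lit 63) (nat_lit 5) (nat_lit 66) (nat_lit 5) (nat_lit 67) (nat_lit 5) (nat_lit 495) (nat_lit 371) (nat_lit 274))) (XT.nd (nat_lit 78) (nat_lit 228) (nat_lit 0) (XT.lf (nat_lit 0) (nat_lit 1524406502) (nat_lit 304) (nat_lit 2040308567) (nat_lit 76) (nat_lit 13375354737) (nat_lit 62) (nat_lit 5) (nat_lit 66) (nat_lit 5) (nat_lit 63) (nat_lit 5) (nat_lit 496) (nat_lit 371) (nat_lit 273)) (XT.lf (nat_lit 0) (nat_lit 5082739033) (nat_lit 304) (nat_lit 11265582470) (nat_lit 76) (nat_lit 833308751) (nat_lit 59) (nat_lit 5) (nat_lit 63) (nat_lit 5) (nat_lit 60) (nat_lit 5) (nat_lit 497) (nat_lit 371) (nat_lit 272))))))))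
noncomputable def xc81 : XT := (XT.nd (nat_lit 2184) (nat_lit 304) (nat_lit 0) (XT.nd (nat_lit 1092) (nat_lit 912) (nat_lit 0) (XT.nd (nat_lit 546) (nat_lit 760) (nat_lit 0) (XT.nd (nat_lit 234) (nat_lit 456) (nat_lit 0) (XT.nd (nat_lit 78) (nat_lit 228) (nat_lit 0) (XT.lf (nat_lit 0) (nat_lit 8728596225) (nat_lit 304) (nat_lit 3427309751) (nat_lit 76) (nat_lit 5271795789) (nat_lit 59) (nat_lit 5) (nat_lit 63) (nat_lit 5) (nat_lit 60) (nat_lit 5) (nat_lit 498) (nat_lit 371) (nat_lit 271)) (XT.nd (nat_lit 78) (nat_lit 0) (nat_lit 0) (XT.lf (nat_lit 0) (nat_lit 4593609935) (nat_lit 228) (nat_lit 7862966182) (nat_lit 304) (nat_lit 5221941355) (nat_lit 56) (nat_lit 5) (nat_lit 59) (nat_lit 5) (nat_lit 60) (nat_lit 5) (nat_lit 499) (nat_lit 371) (nat_lit 270)) (XT.lf (nat_lit 0) (nat_lit 12787267676) (nat_lit 228) (nat_lit 3474410425) (nat_lit 304) (nat_lit 1672626885) (nat_lit 56) (nat_lit 5) (nat_lit 59) (nat_lit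 5) (nat_lit 60) (nat_lit 5) (nat_lit 500) (nat_lit 371) (nat_lit 269)))) (XT.nd (nat_lit 156) (nat_lit 152) (nat_lit 0) (XT.nd (nat_lit 78) (nat_lit 0) (nat_lit 0) (XT.lf (nat_lit 0) (nat_lit 1927681982) (nat_lit 304) (nat_lit 15259827463) (nat_lit 76) (nat_lit 1007341331) (nat_lit 52) (nat_lit 5) (nat_lit 56) (nat_lit 5) (nat_lit 53) (nat_lit 5) (nat_lit 501) (nat_lit 371) (nat_lit 268)) (XT.lf (nat_lit 0) (nat_lit 5615313977) (nat_lit 304) (nat_lit 7279577305) (nat_lit 76) (nat_lit 5564747162) (nat_lit 52) (nat_lit 5) (nat_lit 56) (nat_lit 5) (nat_lit 53) (nat_lit 5) (nat_lit 502) (nat_lit 371) (nat_lit 267))) (XT.nd (nat_lit 78) (nat_lit 0) (nat_lit 0) (XT.lf (nat_lit 0) (nat_lit 838093000) (nat_lit 152) (nat_lit 8524355972) (nat_lit 228) (nat_lit 9367564116) (nat_lit 50) (nat_lit 5) (nat_lit 52) (nat_lit 5) (nat_lit 53) (nat_lit 5) (nat_lit 503) (nat_lit 371) (nat_lit 266)) (XT.lf (nat_lit 0) (nat_lit 9183834969)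 (nat_lit 152) (nat_lit 4030022510) (nat_lit 228) (nat_lit 5791357236) (nat_lit 50) (nat_lit 5) (nat_lit 52) (nat_lit 5) (nat_lit 53) (nat_lit 5) (nat_lit 504) (nat_lit 371) (nat_lit 265))))) (XT.nd (nat_lit 234) (nat_lit 456) (nat_lit 0) (XT.nd (nat_lit 78) (nat_lit 304) (nat_lit 0) (XT.lf (nat_lit 0) (nat_lit 17126670572) (nat_lit 228) (nat_lit 1625642070) (nat_lit 76) (nat_lit 533926192) (nat_lit 50) (nat_lit 5) (nat_lit 53) (nat_lit 5) (nat_lit 51) (nat_lit 5) (nat_lit 505) (nat_lit 371) (nat_lit 264)) (XT.nd (nat_lit 78) (nat_lit 0) (nat_lit 0) (XT.lf (nat_lit 0) (nat_lit 1576693144) (nat_lit 304) (nat_lit 12818169512) (nat_lit 76) (nat_lit 5176783975) (nat_lit 46) (nat_lit 5) (nat_lit 50) (nat_lit 5) (nat_lit 47) (nat_lit 5) (nat_lit 506) (nat_lit 371) (nat_lit 263)) (XT.lf (nat_lit 0) (nat_lit 5350960311) (nat_lit 304) (nat_lit 4586724728) (nat_lit 76) (nat_lit 9924953748) (nat_lit 46) (nat_lit 5) (nat_lit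 50) (nat_lit 5) (nat_lit 47) (nat_lit 5) (nat_lit 507) (nat_lit 371) (nat_lit 262)))) (XT.nd (nat_lit 156) (nat_lit 304) (nat_lit 0) (XT.nd (nat_lit 78) (nat_lit 0) (nat_lit 0) (XT.lf (nat_lit 0) (nat_lit 3828162855) (nat_lit 152) (nat_lit 5378962744) (nat_lit 228) (nat_lit 10952202463) (nat_lit 44) (nat_lit 5) (nat_lit 46) (nat_lit 5) (nat_lit 47) (nat_lit 5) (nat_lit 508) (nat_lit 371) (nat_lit 261)) (XT.lf (nat_lit 0) (nat_lit 12442335846) (nat_lit 152) (nat_lit 710574618) (nat_lit 228) (nat_lit 7308796156) (nat_lit 44) (nat_lit 5) (nat_lit 46) (nat_lit 5) (nat_lit 47) (nat_lit 5) (nat_lit 509) (nat_lit 371) (nat_lit 260))) (XT.nd (nat_lit 78) (nat_lit 76) (nat_lit 0) (XT.lf (nat_lit 0) (nat_lit 406835536) (nat_lit 228) (nat_lit 16781713180) (nat_lit 304) (nat_lit 3581370596) (nat_lit 41) (nat_lit 5) (nat_lit 44) (nat_lit 5) (nat_lit 45) (nat_lit 5) (nat_lit 510) (nat_lit 371) (nat_lit 259)) (XT.lf (nat_lit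 0) (nat_lit 258610561) (nat_lit 304) (nat_lit 12010341573) (nat_lit 76) (nat_lit 8814502579) (nat_lit 40) (nat_lit 5) (nat_lit 44) (nat_lit 5) (nat_lit 41) (nat_lit 5) (nat_lit 511) (nat_lit 371) (nat_lit 258)))))) (XT.nd (nat_lit 546) (nat_lit 380) (nat_lit 0) (XT.nd (nat_lit 234) (nat_lit 380) (nat_lit 0) (XT.nd (nat_lit 78) (nat_lit 152) (nat_lit 0) (XT.lf (nat_lit 0) (nat_lit 4109858050) (nat_lit 304) (nat_lit 3544554146) (nat_lit 76) (nat_lit 13748731754) (nat_lit 40) (nat_lit 5) (nat_lit 44) (nat_lit 5) (nat_lit 41) (nat_lit 5) (nat_lit 512) (nat_lit 371) (nat_lit 257)) (XT.nd (nat_lit 78) (nat_lit 0) (nat_lit 0) (XT.lf (nat_lit 0) (nat_lit 5128107100) (nat_lit 152) (nat_lit 2926040457) (nat_lit 228) (nat_lit 13674763986) (nat_lit 38) (nat_lit 5) (nat_lit 40) (nat_lit 5) (nat_lit 41) (nat_lit 5) (nat_lit 513) (nat_lit 371) (nat_lit 256)) (XT.lf (nat_lit 0) (nat_lit 12096371028) (nat_lit 228) (nat_lit 8080692978)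 (nat_lit 76) (nat_lit 1883754332) (nat_lit 38) (nat_lit 5) (nat_lit 41) (nat_lit 5) (nat_lit 39) (nat_lit 5) (nat_lit 514) (nat_lit 371) (nat_lit 255)))) (XT.nd (nat_lit 156) (nat_lit 228) (nat_lit 0) (XT.nd (nat_lit 78) (nat_lit 0) (nat_lit 0) (XT.lf (nat_lit 0) (nat_lit 568715795) (nat_lit 152) (nat_lit 15656919780) (nat_lit 228) (nat_lit 6173608485) (nat_lit 36) (nat_lit 5) (nat_lit 38) (nat_lit 5) (nat_lit 39) (nat_lit 5) (nat_lit 515) (nat_lit 371) (nat_lit 254)) (XT.lf (nat_lit 0) (nat_lit 9471654699) (nat_lit 152) (nat_lit 11003325399) (nat_lit 228) (nat_lit 2268712930) (nat_lit 36) (nat_lit 5) (nat_lit 38) (nat_lit 5) (nat_lit 39) (nat_lit 5) (nat_lit 516) (nat_lit 371) (nat_lit 253))) (XT.nd (nat_lit 78) (nat_lit 152) (nat_lit 0) (XT.lf (nat_lit 0) (nat_lit 1675281371) (nat_lit 228) (nat_lit 4582158236) (nat_lit 76) (nat_lit 16837703534) (nat_lit 35) (nat_lit 5) (nat_lit 38) (nat_lit 5) (nat_lit 36)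 (nat_lit 5) (nat_lit 517) (nat_lit 371) (nat_lit 252)) (XT.lf (nat_lit 0) (nat_lit 4294733429) (nat_lit 152) (nat_lit 1384764499) (nat_lit 228) (nat_lit 17773594359) (nat_lit 33) (nat_lit 5) (nat_lit 35) (nat_lit 5) (nat_lit 36) (nat_lit 5) (nat_lit 518) (nat_lit 371) (nat_lit 251))))) (XT.nd (nat_lit 234) (nat_lit 228) (nat_lit 0) (XT.nd (nat_lit 78) (nat_lit 152) (nat_lit 0) (XT.lf (nat_lit 0) (nat_lit 9801896897) (nat_lit 228) (nat_lit 10457943677) (nat_lit 76) (nat_lit 3557602154) (nat_lit 33) (nat_lit 5) (nat_lit 36) (nat_lit 5) (nat_lit 34) (nat_lit 5) (nat_lit 519) (nat_lit 371) (nat_lit 250)) (XT.nd (nat_lit 78) (nat_lit 152) (nat_lit 0) (XT.lf (nat_lit 0) (nat_lit 14000097992) (nat_lit 228) (nat_lit 1620290160) (nat_lit 76) (nat_lit 8568829135) (nat_lit 33) (nat_lit 5) (nat_lit 36) (nat_lit 5) (nat_lit 34) (nat_lit 5) (nat_lit 520) (nat_lit 371) (nat_lit 249)) (XT.lf (nat_lit 0) (nat_lit 7464962573)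 (nat_lit 152) (nat_lit 10850261673) (nat_lit 228) (nat_lit 6252547978) (nat_lit 31) (nat_lit 5) (nat_lit 33) (nat_lit 5) (nat_lit 34) (nat_lit 5) (nat_lit 521) (nat_lit 371) (nat_lit 248)))) (XT.nd (nat_lit 156) (nat_lit 0) (nat_lit 0) (XT.nd (nat_lit 78) (nat_lit 228) (nat_lit 0) (XT.lf (nat_lit 0) (nat_lit 16727003657) (nat_lit 152) (nat_lit 5985145539) (nat_lit 228) (nat_lit 2241843171) (nat_lit 31) (nat_lit 5) (nat_lit 33) (nat_lit 5) (nat_lit 34) (nat_lit 5) (nat_lit 522) (nat_lit 371) (nat_lit 247)) (XT.lf (nat_lit 0) (nat_lit 798253768) (nat_lit 152) (nat_lit 1016574738) (nat_lit 228) (nat_lit 23533072094) (nat_lit 28) (nat_lit 5) (nat_lit 30) (nat_lit 5) (nat_lit 31) (nat_lit 5) (nat_lit 523) (nat_lit 371) (nat_lit 246))) (XT.nd (nat_lit 78) (nat_lit 0) (nat_lit 0) (XT.lf (nat_lit 0) (nat_lit 5989394299) (nat_lit 228) (nat_lit 15701194428) (nat_lit 76) (nat_lit 4057470119) (nat_lit 28) (nat_lit 5) (nat_lit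 31) (nat_lit 5) (nat_lit 29) (nat_lit 5) (nat_lit 524) (nat_lit 371) (nat_lit 245)) (XT.lf (nat_lit 0) (nat_lit 10239353982) (nat_lit 228) (nat_lit 6708598641) (nat_lit 76) (nat_lit 9208433303) (nat_lit 28) (nat_lit 5) (nat_lit 31) (nat_lit 5) (nat_lit 29) (nat_lit 5) (nat_lit 525) (nat_lit 371) (nat_lit 244))))))) (XT.nd (nat_lit 49998) (nat_lit 0) (nat_lit 26828) (XT.nd (nat_lit 49452) (nat_lit 0) (nat_lit 39520) (XT.nd (nat_lit 234) (nat_lit 152) (nat_lit 0) (XT.nd (nat_lit 78) (nat_lit 0) (nat_lit 0) (XT.lf (nat_lit 0) (nat_lit 2470670603) (nat_lit 152) (nat_lit 12105144560) (nat_lit 228) (nat_lit 11997037988) (nat_lit 26) (nat_lit 5) (nat_lit 28) (nat_lit 5) (nat_lit 29) (nat_lit 5) (nat_lit 526) (nat_lit 371) (nat_lit 243)) (XT.nd (nat_lit 78) (nat_lit 0) (nat_lit 0) (XT.lf (nat_lit 0) (nat_lit 11899048606) (nat_lit 152) (nat_lit 7130556337) (nat_lit 228) (nat_lit 7967436368) (nat_lit 26) (nat_lit 5) (nat_lit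 28) (nat_lit 5) (nat_lit 29) (nat_lit 5) (nat_lit 527) (nat_lit 371) (nat_lit 242)) (XT.lf (nat_lit 0) (nat_lit 21491079025) (nat_lit 152) (nat_lit 2067255363) (nat_lit 228) (nat_lit 3871665075) (nat_lit 26) (nat_lit 5) (nat_lit 28) (nat_lit 5) (nat_lit 29) (nat_lit 5) (nat_lit 528) (nat_lit 371) (nat_lit 241)))) (XT.nd (nat_lit 49062) (nat_lit 0) (nat_lit 43244) (XT.nd (nat_lit 48984) (nat_lit 0) (nat_lit 44004) (XT.lf (nat_lit 0) (nat_lit 330470183) (nat_lit 152) (nat_lit 24470010124) (nat_lit 76) (nat_lit 3070530865) (nat_lit 24) (nat_lit 5) (nat_lit 26) (nat_lit 5) (nat_lit 25) (nat_lit 5) (nat_lit 529) (nat_lit 371) (nat_lit 240)) (XT.lf (nat_lit 0) (nat_lit 466385432) (nat_lit 684) (nat_lit 2352475548) (nat_lit 0) (nat_lit 466385432) (nat_lit 603) (nat_lit 5) (nat_lit 612) (nat_lit 4) (nat_lit 603) (nat_lit 4) (nat_lit 396) (nat_lit 372) (nat_lit 372))) (XT.nd (nat_lit 78) (nat_lit 760) (nat_lit 0) (XT.lf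 (nat_lit 0) (nat_lit 3968030755) (nat_lit 684) (nat_lit 967005615) (nat_lit 0) (nat_lit 1652226538) (nat_lit 603) (nat_lit 5) (nat_lit 612) (nat_lit 4) (nat_lit 603) (nat_lit 4) (nat_lit 397) (nat_lit 372) (nat_lit 371)) (XT.lf (nat_lit 0) (nat_lit 401480606) (nat_lit 760) (nat_lit 3775209681) (nat_lit 76) (nat_lit 2428751045) (nat_lit 593) (nat_lit 5) (nat_lit 603) (nat_lit 5) (nat_lit 594) (nat_lit 4) (nat_lit 398) (nat_lit 372) (nat_lit 370))))) (XT.nd (nat_lit 234) (nat_lit 2052) (nat_lit 0) (XT.nd (nat_lit 78) (nat_lit 912) (nat_lit 0) (XT.lf (nat_lit 0) (nat_lit 24995165) (nat_lit 760) (nat_lit 3359695125) (nat_lit 836) (nat_lit 3240292165) (nat_lit 583) (nat_lit 5) (nat_lit 593) (nat_lit 5) (nat_lit 594) (nat_lit 4) (nat_lit 399) (nat_lit 372) (nat_lit 369)) (XT.nd (nat_lit 78) (nat_lit 912) (nat_lit 0) (XT.lf (nat_lit 0) (nat_lit 3902099137) (nat_lit 760) (nat_lit 2482263434) (nat_lit 836) (nat_lit 261502606)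 (nat_lit 583) (nat_lit 5) (nat_lit 593) (nat_lit 5) (nat_lit 594) (nat_lit 4) (nat_lit 400) (nat_lit 372) (nat_lit 368)) (XT.lf (nat_lit 0) (nat_lit 1136175127) (nat_lit 836) (nat_lit 1543925048) (nat_lit 912) (nat_lit 3987995039) (nat_lit 571) (nat_lit 5) (nat_lit 582) (nat_lit 5) (nat_lit 583) (nat_lit 5) (nat_lit 401) (nat_lit 372) (nat_lit 367)))) (XT.nd (nat_lit 156) (nat_lit 1064) (nat_lit 0) (XT.nd (nat_lit 78) (nat_lit 988) (nat_lit 0) (XT.lf (nat_lit 0) (nat_lit 5079207121) (nat_lit 836) (nat_lit 549513618) (nat_lit 912) (nat_lit 1063062537) (nat_lit 571) (nat_lit 5) (nat_lit 582) (nat_lit 5) (nat_lit 583) (nat_lit 5) (nat_lit 402) (nat_lit 372) (nat_lit 366)) (XT.lf (nat_lit 0) (nat_lit 1847848508) (nat_lit 988) (nat_lit 4366458706) (nat_lit 76) (nat_lit 502413768) (nat_lit 558) (nat_lit 5) (nat_lit 571) (nat_lit 5) (nat_lit 559) (nat_lit 5) (nat_lit 403) (nat_lit 372) (nat_lit 365))) (XT.nd (nat_lit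 78) (nat_lit 1064) (nat_lit 0) (XT.lf (nat_lit 0) (nat_lit 4752438193) (nat_lit 988) (nat_lit 389543879) (nat_lit 76) (nat_lit 1601117962) (nat_lit 558) (nat_lit 5) (nat_lit 571) (nat_lit 5) (nat_lit 559) (nat_lit 5) (nat_lit 404) (nat_lit 372) (nat_lit 364)) (XT.lf (nat_lit 0) (nat_lit 892595734) (nat_lit 1064) (nat_lit 3111841947) (nat_lit 76) (nat_lit 2766322734) (nat_lit 544) (nat_lit 5) (nat_lit 558) (nat_lit 5) (nat_lit 545) (nat_lit 5) (nat_lit 405) (nat_lit 372) (nat_lit 363)))))) (XT.nd (nat_lit 546) (nat_lit 7828) (nat_lit 0) (XT.nd (nat_lit 234) (nat_lit 2584) (nat_lit 0) (XT.nd (nat_lit 78) (nat_lit 1216) (nat_lit 0) (XT.lf (nat_lit 0) (nat_lit 943229579) (nat_lit 1064) (nat_lit 2809271022) (nat_lit 1140) (nat_lit 3047370078) (nat_lit 530) (nat_lit 5) (nat_lit 544) (nat_lit 5) (nat_lit 545) (nat_lit 5) (nat_lit 406) (nat_lit 372) (nat_lit 362)) (XT.nd (nat_lit 78) (nat_lit 1216) (nat_lit 0) (XT.lf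 (nat_lit 0) (nat_lit 5071268337) (nat_lit 1064) (nat_lit 1556985498) (nat_lit 1140) (nat_lit 202207466) (nat_lit 530) (nat_lit 5) (nat_lit 544) (nat_lit 5) (nat_lit 545) (nat_lit 5) (nat_lit 407) (nat_lit 372) (nat_lit 361)) (XT.lf (nat_lit 0) (nat_lit 2383722874) (nat_lit 1140) (nat_lit 234718609) (nat_lit 1216) (nat_lit 4243860221) (nat_lit 514) (nat_lit 5) (nat_lit 529) (nat_lit 5) (nat_lit 530) (nat_lit 5) (nat_lit 408) (nat_lit 372) (nat_lit 360)))) (XT.nd (nat_lit 156) (nat_lit 1292) (nat_lit 0) (XT.nd (nat_lit 78) (nat_lit 1292) (nat_lit 0) (XT.lf (nat_lit 0) (nat_lit 5451381254) (nat_lit 1216) (nat_lit 321082825) (nat_lit 76) (nat_lit 1123183453) (nat_lit 514) (nat_lit 5) (nat_lit 530) (nat_lit 5) (nat_lit 515) (nat_lit 5) (nat_lit 409) (nat_lit 372) (nat_lit 359)) (XT.lf (nat_lit 0) (nat_lit 1360184807) (nat_lit 1292) (nat_lit 3020140792) (nat_lit 76) (nat_lit 2549868362) (nat_lit 497) (nat_lit 5) (nat_lit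 514) (nat_lit 5) (nat_lit 498) (nat_lit 5) (nat_lit 410) (nat_lit 372) (nat_lit 358))) (XT.nd (nat_lit 78) (nat_lit 0) (nat_lit 0) (XT.lf (nat_lit 0) (nat_lit 1220458649) (nat_lit 1292) (nat_lit 2932080878) (nat_lit 1368) (nat_lit 2813740984) (nat_lit 480) (nat_lit 5) (nat_lit 497) (nat_lit 5) (nat_lit 498) (nat_lit 5) (nat_lit 411) (nat_lit 372) (nat_lit 357)) (XT.lf (nat_lit 0) (nat_lit 5536397775) (nat_lit 1292) (nat_lit 1426481360) (nat_lit 1368) (nat_lit 41028848) (nat_lit 480) (nat_lit 5) (nat_lit 497) (nat_lit 5) (nat_lit 498) (nat_lit 5) (nat_lit 412) (nat_lit 372) (nat_lit 356))))) (XT.nd (nat_lit 234) (nat_lit 4864) (nat_lit 0) (XT.nd (nat_lit 78) (nat_lit 1520) (nat_lit 0) (XT.lf (nat_lit 0) (nat_lit 2712761523) (nat_lit 1444) (nat_lit 4178151580) (nat_lit 76) (nat_lit 151828970) (nat_lit 461) (nat_lit 5) (nat_lit 480) (nat_lit 5) (nat_lit 462) (nat_lit 5) (nat_lit 413) (nat_lit 372) (nat_lit 355))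 (XT.nd (nat_lit 78) (nat_lit 76) (nat_lit 0) (XT.lf (nat_lit 0) (nat_lit 162264874) (nat_lit 1444) (nat_lit 5322646364) (nat_lit 1520) (nat_lit 1598217901) (nat_lit 442) (nat_lit 5) (nat_lit 461) (nat_lit 5) (nat_lit 462) (nat_lit 5) (nat_lit 414) (nat_lit 372) (nat_lit 354)) (XT.lf (nat_lit 0) (nat_lit 1144592564) (nat_lit 1520) (nat_lit 2537153796) (nat_lit 76) (nat_lit 3443039491) (nat_lit 441) (nat_lit 5) (nat_lit 461) (nat_lit 5) (nat_lit 442) (nat_lit 5) (nat_lit 415) (nat_lit 372) (nat_lit 353)))) (XT.nd (nat_lit 156) (nat_lit 3344) (nat_lit 0) (XT.nd (nat_lit 78) (nat_lit 0) (nat_lit 0) (XT.lf (nat_lit 0) (nat_lit 1897934415) (nat_lit 1520) (nat_lit 1980142321) (nat_lit 1596) (nat_lit 3289898332) (nat_lit 421) (nat_lit 5) (nat_lit 441) (nat_lit 5) (nat_lit 442) (nat_lit 5) (nat_lit 416) (nat_lit 372) (nat_lit 352)) (XT.lf (nat_lit 0) (nat_lit 6405845108) (nat_lit 1520) (nat_lit 223040594) (nat_lit 1596)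 (nat_lit 583943197) (nat_lit 421) (nat_lit 5) (nat_lit 441) (nat_lit 5) (nat_lit 442) (nat_lit 5) (nat_lit 417) (nat_lit 372) (nat_lit 351))) (XT.nd (nat_lit 78) (nat_lit 1672) (nat_lit 0) (XT.lf (nat_lit 0) (nat_lit 2128565199) (nat_lit 1672) (nat_lit 3539329957) (nat_lit 76) (nat_lit 1590834417) (nat_lit 399) (nat_lit 5) (nat_lit 421) (nat_lit 5) (nat_lit 400) (nat_lit 5) (nat_lit 418) (nat_lit 372) (nat_lit 350)) (XT.lf (nat_lit 0) (nat_lit 998674029) (nat_lit 1672) (nat_lit 3849292163) (nat_lit 1748) (nat_lit 2458346463) (nat_lit 377) (nat_lit 5) (nat_lit 399) (nat_lit 5) (nat_lit 400) (nat_lit 5) (nat_lit 419) (nat_lit 372) (nat_lit 349))))))))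
noncomputable def xc82 : XT := (XT.nd (nat_lit 2184) (nat_lit 7448) (nat_lit 0) (XT.nd (nat_lit 1092) (nat_lit 5928) (nat_lit 0) (XT.nd (nat_lit 546) (nat_lit 3192) (nat_lit 0) (XT.nd (nat_lit 234) (nat_lit 1824) (nat_lit 0) (XT.nd (nat_lit 78) (nat_lit 2128) (nat_lit 0) (XT.lf (nat_lit 0) (nat_lit 234672358) (nat_lit 1748) (nat_lit 1732115101) (nat_lit 76) (nat_lit 5388648826) (nat_lit 376) (nat_lit 5) (nat_lit 399) (nat_lit 5) (nat_lit 377) (nat_lit 5) (nat_lit 420) (nat_lit 372) (nat_lit 348)) (XT.nd (nat_lit 78) (nat_lit 836) (nat_lit 0) (XT.lf (nat_lit 0) (nat_lit 2906495777) (nat_lit 1292) (nat_lit 9429443) (nat_lit 1368) (nat_lit 4489994243) (nat_lit 359) (nat_lit 5) (nat_lit 376) (nat_lit 5) (nat_lit 377) (nat_lit 5) (nat_lit 421) (nat_lit 372) (nat_lit 347)) (XT.lf (nat_lit 0) (nat_lit 142059994) (nat_lit 836) (nat_lit 5483350769) (nat_lit 912) (nat_lit 1832556339) (nat_lit 348) (nat_lit 5) (nat_lit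 359) (nat_lit 5) (nat_lit 360) (nat_lit 5) (nat_lit 422) (nat_lit 372) (nat_lit 346)))) (XT.nd (nat_lit 156) (nat_lit 912) (nat_lit 0) (XT.nd (nat_lit 78) (nat_lit 836) (nat_lit 0) (XT.lf (nat_lit 0) (nat_lit 846345392) (nat_lit 912) (nat_lit 2630436194) (nat_lit 76) (nat_lit 4034608607) (nat_lit 347) (nat_lit 5) (nat_lit 359) (nat_lit 5) (nat_lit 348) (nat_lit 5) (nat_lit 423) (nat_lit 372) (nat_lit 345)) (XT.lf (nat_lit 0) (nat_lit 2113955027) (nat_lit 836) (nat_lit 1404447681) (nat_lit 912) (nat_lit 4047998706) (nat_lit 336) (nat_lit 5) (nat_lit 347) (nat_lit 5) (nat_lit 348) (nat_lit 5) (nat_lit 424) (nat_lit 372) (nat_lit 344))) (XT.nd (nat_lit 78) (nat_lit 912) (nat_lit 0) (XT.lf (nat_lit 0) (nat_lit 6217283843) (nat_lit 912) (nat_lit 689054465) (nat_lit 76) (nat_lit 716750272) (nat_lit 336) (nat_lit 5) (nat_lit 348) (nat_lit 5) (nat_lit 337) (nat_lit 5) (nat_lit 425) (nat_lit 372) (nat_lit 343)) (XT.lf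 (nat_lit 0) (nat_lit 1260516578) (nat_lit 912) (nat_lit 3524612759) (nat_lit 76) (nat_lit 2895890592) (nat_lit 324) (nat_lit 5) (nat_lit 336) (nat_lit 5) (nat_lit 325) (nat_lit 5) (nat_lit 426) (nat_lit 372) (nat_lit 342))))) (XT.nd (nat_lit 234) (nat_lit 1520) (nat_lit 0) (XT.nd (nat_lit 78) (nat_lit 836) (nat_lit 0) (XT.lf (nat_lit 0) (nat_lit 1325739959) (nat_lit 836) (nat_lit 2601113427) (nat_lit 912) (nat_lit 3813801287) (nat_lit 313) (nat_lit 5) (nat_lit 324) (nat_lit 5) (nat_lit 325) (nat_lit 5) (nat_lit 427) (nat_lit 372) (nat_lit 341)) (XT.nd (nat_lit 78) (nat_lit 836) (nat_lit 0) (XT.lf (nat_lit 0) (nat_lit 6270800716) (nat_lit 836) (nat_lit 352212774) (nat_lit 912) (nat_lit 1178978762) (nat_lit 313) (nat_lit 5) (nat_lit 324) (nat_lit 5) (nat_lit 325) (nat_lit 5) (nat_lit 428) (nat_lit 372) (nat_lit 340)) (XT.lf (nat_lit 0) (nat_lit 1477285199) (nat_lit 836) (nat_lit 4441963062) (nat_lit 76) (nat_lit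 1945380352) (nat_lit 302) (nat_lit 5) (nat_lit 313) (nat_lit 5) (nat_lit 303) (nat_lit 5) (nat_lit 429) (nat_lit 372) (nat_lit 339)))) (XT.nd (nat_lit 156) (nat_lit 760) (nat_lit 0) (XT.nd (nat_lit 78) (nat_lit 0) (nat_lit 0) (XT.lf (nat_lit 0) (nat_lit 514219537) (nat_lit 760) (nat_lit 3626691719) (nat_lit 836) (nat_lit 3788087877) (nat_lit 292) (nat_lit 5) (nat_lit 302) (nat_lit 5) (nat_lit 303) (nat_lit 5) (nat_lit 430) (nat_lit 372) (nat_lit 338)) (XT.lf (nat_lit 0) (nat_lit 5579709638) (nat_lit 760) (nat_lit 1262479614) (nat_lit 836) (nat_lit 1152817244) (nat_lit 292) (nat_lit 5) (nat_lit 302) (nat_lit 5) (nat_lit 303) (nat_lit 5) (nat_lit 431) (nat_lit 372) (nat_lit 337))) (XT.nd (nat_lit 78) (nat_lit 0) (nat_lit 0) (XT.lf (nat_lit 0) (nat_lit 1495032350) (nat_lit 760) (nat_lit 5410923753) (nat_lit 76) (nat_lit 1156613991) (nat_lit 282) (nat_lit 5) (nat_lit 292) (nat_lit 5) (nat_lit 283) (nat_lit 5) (nat_lit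 432) (nat_lit 372) (nat_lit 336)) (XT.lf (nat_lit 0) (nat_lit 4160751281) (nat_lit 760) (nat_lit 344835631) (nat_lit 76) (nat_lit 3626173560) (nat_lit 282) (nat_lit 5) (nat_lit 292) (nat_lit 5) (nat_lit 283) (nat_lit 5) (nat_lit 433) (nat_lit 372) (nat_lit 335)))))) (XT.nd (nat_lit 546) (nat_lit 2432) (nat_lit 0) (XT.nd (nat_lit 234) (nat_lit 1976) (nat_lit 0) (XT.nd (nat_lit 78) (nat_lit 760) (nat_lit 0) (XT.lf (nat_lit 0) (nat_lit 4836753720) (nat_lit 760) (nat_lit 2030961829) (nat_lit 836) (nat_lit 1334894691) (nat_lit 272) (nat_lit 5) (nat_lit 282) (nat_lit 5) (nat_lit 283) (nat_lit 5) (nat_lit 434) (nat_lit 372) (nat_lit 334)) (XT.nd (nat_lit 78) (nat_lit 0) (nat_lit 0) (XT.lf (nat_lit 0) (nat_lit 1310371107) (nat_lit 760) (nat_lit 6461321789) (nat_lit 76) (nat_lit 503557442) (nat_lit 262) (nat_lit 5) (nat_lit 272) (nat_lit 5) (nat_lit 263) (nat_lit 5) (nat_lit 435) (nat_lit 372) (nat_lit 333)) (XT.lf (nat_lit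 0) (nat_lit 3984102325) (nat_lit 760) (nat_lit 1278454951) (nat_lit 76) (nat_lit 3086773030) (nat_lit 262) (nat_lit 5) (nat_lit 272) (nat_lit 5) (nat_lit 263) (nat_lit 5) (nat_lit 436) (nat_lit 372) (nat_lit 332)))) (XT.nd (nat_lit 156) (nat_lit 608) (nat_lit 0) (XT.nd (nat_lit 78) (nat_lit 684) (nat_lit 0) (XT.lf (nat_lit 0) (nat_lit 4011605864) (nat_lit 684) (nat_lit 2683818218) (nat_lit 760) (nat_lit 1729817068) (nat_lit 253) (nat_lit 5) (nat_lit 262) (nat_lit 5) (nat_lit 263) (nat_lit 5) (nat_lit 437) (nat_lit 372) (nat_lit 331)) (XT.lf (nat_lit 0) (nat_lit 878199706) (nat_lit 608) (nat_lit 40142450) (nat_lit 684) (nat_lit 7584781816) (nat_lit 244) (nat_lit 5) (nat_lit 252) (nat_lit 5) (nat_lit 253) (nat_lit 5) (nat_lit 438) (nat_lit 372) (nat_lit 330))) (XT.nd (nat_lit 78) (nat_lit 608) (nat_lit 0) (XT.lf (nat_lit 0) (nat_lit 3602105159) (nat_lit 684) (nat_lit 2324989328) (nat_lit 76) (nat_lit 2655155000)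 (nat_lit 244) (nat_lit 5) (nat_lit 253) (nat_lit 5) (nat_lit 245) (nat_lit 5) (nat_lit 439) (nat_lit 372) (nat_lit 329)) (XT.lf (nat_lit 0) (nat_lit 3072129231) (nat_lit 608) (nat_lit 3247155820) (nat_lit 684) (nat_lit 2344106817) (nat_lit 236) (nat_lit 5) (nat_lit 244) (nat_lit 5) (nat_lit 245) (nat_lit 5) (nat_lit 440) (nat_lit 372) (nat_lit 328))))) (XT.nd (nat_lit 234) (nat_lit 1140) (nat_lit 0) (XT.nd (nat_lit 78) (nat_lit 1216) (nat_lit 0) (XT.lf (nat_lit 0) (nat_lit 315551418) (nat_lit 684) (nat_lit 188562951) (nat_lit 76) (nat_lit 8242517627) (nat_lit 235) (nat_lit 5) (nat_lit 244) (nat_lit 5) (nat_lit 236) (nat_lit 5) (nat_lit 441) (nat_lit 372) (nat_lit 327)) (XT.nd (nat_lit 78) (nat_lit 608) (nat_lit 0) (XT.lf (nat_lit 0) (nat_lit 3007313797) (nat_lit 684) (nat_lit 3518090954) (nat_lit 76) (nat_lit 2305643820) (nat_lit 227) (nat_lit 5) (nat_lit 236) (nat_lit 5) (nat_lit 228) (nat_lit 5) (nat_lit 442)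 (nat_lit 372) (nat_lit 326)) (XT.lf (nat_lit 0) (nat_lit 1984056313) (nat_lit 608) (nat_lit 3747261064) (nat_lit 684) (nat_lit 3186294948) (nat_lit 219) (nat_lit 5) (nat_lit 227) (nat_lit 5) (nat_lit 228) (nat_lit 5) (nat_lit 443) (nat_lit 372) (nat_lit 325)))) (XT.nd (nat_lit 156) (nat_lit 532) (nat_lit 0) (XT.nd (nat_lit 78) (nat_lit 608) (nat_lit 0) (XT.lf (nat_lit 0) (nat_lit 7595700107) (nat_lit 608) (nat_lit 899074323) (nat_lit 684) (nat_lit 511459893) (nat_lit 219) (nat_lit 5) (nat_lit 227) (nat_lit 5) (nat_lit 228) (nat_lit 5) (nat_lit 444) (nat_lit 372) (nat_lit 324)) (XT.lf (nat_lit 0) (nat_lit 2190255322) (nat_lit 608) (nat_lit 4893793693) (nat_lit 76) (nat_lit 2012268126) (nat_lit 211) (nat_lit 5) (nat_lit 219) (nat_lit 5) (nat_lit 212) (nat_lit 5) (nat_lit 445) (nat_lit 372) (nat_lit 323))) (XT.nd (nat_lit 78) (nat_lit 0) (nat_lit 0) (XT.lf (nat_lit 0) (nat_lit 710643639) (nat_lit 532) (nat_lit 4210837737)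 (nat_lit 608) (nat_lit 4267031037) (nat_lit 204) (nat_lit 5) (nat_lit 211) (nat_lit 5) (nat_lit 212) (nat_lit 5) (nat_lit 446) (nat_lit 372) (nat_lit 322)) (XT.lf (nat_lit 0) (nat_lit 6445600905) (nat_lit 532) (nat_lit 1257223048) (nat_lit 608) (nat_lit 1579842224) (nat_lit 204) (nat_lit 5) (nat_lit 211) (nat_lit 5) (nat_lit 212) (nat_lit 5) (nat_lit 447) (nat_lit 372) (nat_lit 321))))))) (XT.nd (nat_lit 1092) (nat_lit 2888) (nat_lit 0) (XT.nd (nat_lit 546) (nat_lit 2356) (nat_lit 0) (XT.nd (nat_lit 234) (nat_lit 1064) (nat_lit 0) (XT.nd (nat_lit 78) (nat_lit 532) (nat_lit 0) (XT.lf (nat_lit 0) (nat_lit 1139310037) (nat_lit 608) (nat_lit 6490875994) (nat_lit 76) (nat_lit 1748520737) (nat_lit 196) (nat_lit 5) (nat_lit 204) (nat_lit 5) (nat_lit 197) (nat_lit 5) (nat_lit 448) (nat_lit 372) (nat_lit 320)) (XT.nd (nat_lit 78) (nat_lit 532) (nat_lit 0) (XT.lf (nat_lit 0) (nat_lit 3882666998) (nat_lit 608) (nat_lit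 777370313) (nat_lit 76) (nat_lit 4816625507) (nat_lit 196) (nat_lit 5) (nat_lit 204) (nat_lit 5) (nat_lit 197) (nat_lit 5) (nat_lit 449) (nat_lit 372) (nat_lit 319)) (XT.lf (nat_lit 0) (nat_lit 5069987291) (nat_lit 532) (nat_lit 1608003588) (nat_lit 608) (nat_lit 2898667678) (nat_lit 189) (nat_lit 5) (nat_lit 196) (nat_lit 5) (nat_lit 197) (nat_lit 5) (nat_lit 450) (nat_lit 372) (nat_lit 318)))) (XT.nd (nat_lit 156) (nat_lit 532) (nat_lit 0) (XT.nd (nat_lit 78) (nat_lit 76) (nat_lit 0) (XT.lf (nat_lit 0) (nat_lit 1326610683) (nat_lit 456) (nat_lit 8190755995) (nat_lit 532) (nat_lit 161546747) (nat_lit 183) (nat_lit 5) (nat_lit 189) (nat_lit 5) (nat_lit 190) (nat_lit 5) (nat_lit 451) (nat_lit 372) (nat_lit 317)) (XT.lf (nat_lit 0) (nat_lit 2601557359) (nat_lit 532) (nat_lit 2520329611) (nat_lit 76) (nat_lit 4660891370) (nat_lit 182) (nat_lit 5) (nat_lit 189) (nat_lit 5) (nat_lit 183) (nat_lit 5) (nat_lit 452)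 (nat_lit 372) (nat_lit 316))) (XT.nd (nat_lit 78) (nat_lit 0) (nat_lit 0) (XT.lf (nat_lit 0) (nat_lit 3425629726) (nat_lit 532) (nat_lit 1979713787) (nat_lit 608) (nat_lit 4483624869) (nat_lit 175) (nat_lit 5) (nat_lit 182) (nat_lit 5) (nat_lit 183) (nat_lit 5) (nat_lit 453) (nat_lit 372) (nat_lit 315)) (XT.lf (nat_lit 0) (nat_lit 8255827408) (nat_lit 608) (nat_lit 527173268) (nat_lit 76) (nat_lit 1214489545) (nat_lit 175) (nat_lit 5) (nat_lit 183) (nat_lit 5) (nat_lit 176) (nat_lit 5) (nat_lit 454) (nat_lit 372) (nat_lit 314))))) (XT.nd (nat_lit 234) (nat_lit 1368) (nat_lit 0) (XT.nd (nat_lit 78) (nat_lit 456) (nat_lit 0) (XT.lf (nat_lit 0) (nat_lit 1056786785) (nat_lit 532) (nat_lit 4573481737) (nat_lit 76) (nat_lit 4477486874) (nat_lit 168) (nat_lit 5) (nat_lit 175) (nat_lit 5) (nat_lit 169) (nat_lit 5) (nat_lit 455) (nat_lit 372) (nat_lit 313)) (XT.nd (nat_lit 78) (nat_lit 0) (nat_lit 0) (XT.lf (nat_lit 0)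 (nat_lit 1465524710) (nat_lit 456) (nat_lit 2401897560) (nat_lit 532) (nat_lit 6353001859) (nat_lit 162) (nat_lit 5) (nat_lit 168) (nat_lit 5) (nat_lit 169) (nat_lit 5) (nat_lit 456) (nat_lit 372) (nat_lit 312)) (XT.lf (nat_lit 0) (nat_lit 6737668362) (nat_lit 532) (nat_lit 2699791605) (nat_lit 76) (nat_lit 897837193) (nat_lit 162) (nat_lit 5) (nat_lit 169) (nat_lit 5) (nat_lit 163) (nat_lit 5) (nat_lit 457) (nat_lit 372) (nat_lit 311)))) (XT.nd (nat_lit 156) (nat_lit 836) (nat_lit 0) (XT.nd (nat_lit 78) (nat_lit 76) (nat_lit 0) (XT.lf (nat_lit 0) (nat_lit 3460428515) (nat_lit 456) (nat_lit 6210636383) (nat_lit 532) (nat_lit 781306354) (nat_lit 156) (nat_lit 5) (nat_lit 162) (nat_lit 5) (nat_lit 163) (nat_lit 5) (nat_lit 458) (nat_lit 372) (nat_lit 310)) (XT.lf (nat_lit 0) (nat_lit 2049637543) (nat_lit 532) (nat_lit 850291566) (nat_lit 76) (nat_lit 7671889474) (nat_lit 155) (nat_lit 5) (nat_lit 162) (nat_lit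 5) (nat_lit 156) (nat_lit 5) (nat_lit 459) (nat_lit 372) (nat_lit 309))) (XT.nd (nat_lit 78) (nat_lit 380) (nat_lit 0) (XT.lf (nat_lit 0) (nat_lit 4933445195) (nat_lit 532) (nat_lit 5261198635) (nat_lit 76) (nat_lit 498791054) (nat_lit 149) (nat_lit 5) (nat_lit 156) (nat_lit 5) (nat_lit 150) (nat_lit 5) (nat_lit 460) (nat_lit 372) (nat_lit 308)) (XT.lf (nat_lit 0) (nat_lit 983230142) (nat_lit 380) (nat_lit 6891407885) (nat_lit 456) (nat_lit 2942868405) (nat_lit 144) (nat_lit 5) (nat_lit 149) (nat_lit 5) (nat_lit 150) (nat_lit 5) (nat_lit 461) (nat_lit 372) (nat_lit 307)))))) (XT.nd (nat_lit 546) (nat_lit 1216) (nat_lit 0) (XT.nd (nat_lit 234) (nat_lit 1140) (nat_lit 0) (XT.nd (nat_lit 78) (nat_lit 532) (nat_lit 0) (XT.lf (nat_lit 0) (nat_lit 7379166802) (nat_lit 380) (nat_lit 3499499907) (nat_lit 456) (nat_lit 65329226) (nat_lit 144) (nat_lit 5) (nat_lit 149) (nat_lit 5) (nat_lit 150) (nat_lit 5) (nat_lit 462)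 (nat_lit 372) (nat_lit 306)) (XT.nd (nat_lit 78) (nat_lit 0) (nat_lit 0) (XT.lf (nat_lit 0) (nat_lit 2803900280) (nat_lit 456) (nat_lit 15528586) (nat_lit 532) (nat_lit 8253483719) (nat_lit 137) (nat_lit 5) (nat_lit 143) (nat_lit 5) (nat_lit 144) (nat_lit 5) (nat_lit 463) (nat_lit 372) (nat_lit 305)) (XT.lf (nat_lit 0) (nat_lit 5777394711) (nat_lit 532) (nat_lit 1923662913) (nat_lit 76) (nat_lit 3503029359) (nat_lit 137) (nat_lit 5) (nat_lit 144) (nat_lit 5) (nat_lit 138) (nat_lit 5) (nat_lit 464) (nat_lit 372) (nat_lit 304)))) (XT.nd (nat_lit 156) (nat_lit 684) (nat_lit 0) (XT.nd (nat_lit 78) (nat_lit 76) (nat_lit 0) (XT.lf (nat_lit 0) (nat_lit 4564733060) (nat_lit 380) (nat_lit 4229462601) (nat_lit 456) (nat_lit 2543711181) (nat_lit 132) (nat_lit 5) (nat_lit 137) (nat_lit 5) (nat_lit 138) (nat_lit 5) (nat_lit 465) (nat_lit 372) (nat_lit 303)) (XT.lf (nat_lit 0) (nat_lit 374749756) (nat_lit 456) (nat_lit 311585838)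 (nat_lit 76) (nat_lit 10788370329) (nat_lit 131) (nat_lit 5) (nat_lit 137) (nat_lit 5) (nat_lit 132) (nat_lit 5) (nat_lit 466) (nat_lit 372) (nat_lit 302))) (XT.nd (nat_lit 78) (nat_lit 304) (nat_lit 0) (XT.lf (nat_lit 0) (nat_lit 3348391628) (nat_lit 456) (nat_lit 5330842237) (nat_lit 76) (nat_lit 2934067997) (nat_lit 126) (nat_lit 5) (nat_lit 132) (nat_lit 5) (nat_lit 127) (nat_lit 5) (nat_lit 467) (nat_lit 372) (nat_lit 301)) (XT.lf (nat_lit 0) (nat_lit 1226387865) (nat_lit 304) (nat_lit 5140561966) (nat_lit 380) (nat_lit 5388025328) (nat_lit 122) (nat_lit 5) (nat_lit 126) (nat_lit 5) (nat_lit 127) (nat_lit 5) (nat_lit 468) (nat_lit 372) (nat_lit 300))))) (XT.nd (nat_lit 234) (nat_lit 760) (nat_lit 0) (XT.nd (nat_lit 78) (nat_lit 456) (nat_lit 0) (XT.lf (nat_lit 0) (nat_lit 7944188175) (nat_lit 304) (nat_lit 1508588556) (nat_lit 380) (nat_lit 2446581270) (nat_lit 122) (nat_lit 5) (nat_lit 126) (nat_lit 5)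 (nat_lit 127) (nat_lit 5) (nat_lit 469) (nat_lit 372) (nat_lit 299)) (XT.nd (nat_lit 78) (nat_lit 0) (nat_lit 0) (XT.lf (nat_lit 0) (nat_lit 550017078) (nat_lit 456) (nat_lit 9321429656) (nat_lit 76) (nat_lit 2175051606) (nat_lit 116) (nat_lit 5) (nat_lit 122) (nat_lit 5) (nat_lit 117) (nat_lit 5) (nat_lit 470) (nat_lit 372) (nat_lit 298)) (XT.lf (nat_lit 0) (nat_lit 3582211369) (nat_lit 456) (nat_lit 2672490792) (nat_lit 76) (nat_lit 5941400635) (nat_lit 116) (nat_lit 5) (nat_lit 122) (nat_lit 5) (nat_lit 117) (nat_lit 5) (nat_lit 471) (nat_lit 372) (nat_lit 297)))) (XT.nd (nat_lit 156) (nat_lit 456) (nat_lit 0) (XT.nd (nat_lit 78) (nat_lit 0) (nat_lit 0) (XT.lf (nat_lit 0) (nat_lit 4121722691) (nat_lit 304) (nat_lit 2552328380) (nat_lit 380) (nat_lit 5674681198) (nat_lit 112) (nat_lit 5) (nat_lit 116) (nat_lit 5) (nat_lit 117) (nat_lit 5) (nat_lit 472) (nat_lit 372) (nat_lit 296)) (XT.lf (nat_lit 0) (nat_lit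 9826152382) (nat_lit 380) (nat_lit 1466033317) (nat_lit 76) (nat_lit 1212272843) (nat_lit 112) (nat_lit 5) (nat_lit 117) (nat_lit 5) (nat_lit 113) (nat_lit 5) (nat_lit 473) (nat_lit 372) (nat_lit 295))) (XT.nd (nat_lit 78) (nat_lit 0) (nat_lit 0) (XT.lf (nat_lit 0) (nat_lit 398404610) (nat_lit 456) (nat_lit 7221911648) (nat_lit 76) (nat_lit 5042438897) (nat_lit 106) (nat_lit 5) (nat_lit 112) (nat_lit 5) (nat_lit 107) (nat_lit 5) (nat_lit 474) (nat_lit 372) (nat_lit 294)) (XT.lf (nat_lit 0) (nat_lit 3483764340) (nat_lit 456) (nat_lit 377327831) (nat_lit 76) (nat_lit 8963123886) (nat_lit 106) (nat_lit 5) (nat_lit 112) (nat_lit 5) (nat_lit 107) (nat_lit 5) (nat_lit 475) (nat_lit 372) (nat_lit 293))))))))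
noncomputable def xc83 : XT := (XT.nd (nat_lit 2184) (nat_lit 1976) (nat_lit 0) (XT.nd (nat_lit 1092) (nat_lit 1596) (nat_lit 0) (XT.nd (nat_lit 546) (nat_lit 1216) (nat_lit 0) (XT.nd (nat_lit 234) (nat_lit 684) (nat_lit 0) (XT.nd (nat_lit 78) (nat_lit 304) (nat_lit 0) (XT.lf (nat_lit 0) (nat_lit 6647604844) (nat_lit 380) (nat_lit 6337655095) (nat_lit 76) (nat_lit 3322505) (nat_lit 102) (nat_lit 5) (nat_lit 107) (nat_lit 5) (nat_lit 103) (nat_lit 5) (nat_lit 476) (nat_lit 372) (nat_lit 292)) (XT.nd (nat_lit 78) (nat_lit 0) (nat_lit 0) (XT.lf (nat_lit 0) (nat_lit 610492081) (nat_lit 304) (nat_lit 9270048810) (nat_lit 380) (nat_lit 3275590401) (nat_lit 98) (nat_lit 5) (nat_lit 102) (nat_lit 5) (nat_lit 103) (nat_lit 5) (nat_lit 477) (nat_lit 372) (nat_lit 291)) (XT.lf (nat_lit 0) (nat_lit 7743173309) (nat_lit 304) (nat_lit 5451480463) (nat_lit 380) (nat_lit 132058265) (nat_lit 98) (nat_lit 5) (nat_lit 102) (nat_lit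 5) (nat_lit 103) (nat_lit 5) (nat_lit 478) (nat_lit 372) (nat_lit 290)))) (XT.nd (nat_lit 156) (nat_lit 304) (nat_lit 0) (XT.nd (nat_lit 78) (nat_lit 0) (nat_lit 0) (XT.lf (nat_lit 0) (nat_lit 1477319720) (nat_lit 304) (nat_lit 1540615283) (nat_lit 380) (nat_lit 10482702803) (nat_lit 93) (nat_lit 5) (nat_lit 97) (nat_lit 5) (nat_lit 98) (nat_lit 5) (nat_lit 479) (nat_lit 372) (nat_lit 289)) (XT.lf (nat_lit 0) (nat_lit 6257248549) (nat_lit 380) (nat_lit 4979294109) (nat_lit 76) (nat_lit 2440930835) (nat_lit 93) (nat_lit 5) (nat_lit 98) (nat_lit 5) (nat_lit 94) (nat_lit 5) (nat_lit 480) (nat_lit 372) (nat_lit 288))) (XT.nd (nat_lit 78) (nat_lit 0) (nat_lit 0) (XT.lf (nat_lit 0) (nat_lit 2184783689) (nat_lit 304) (nat_lit 7375926338) (nat_lit 380) (nat_lit 4297159056) (nat_lit 89) (nat_lit 5) (nat_lit 93) (nat_lit 5) (nat_lit 94) (nat_lit 5) (nat_lit 481) (nat_lit 372) (nat_lit 287)) (XT.lf (nat_lit 0) (nat_lit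 9520619352) (nat_lit 304) (nat_lit 3418246283) (nat_lit 380) (nat_lit 1102844671) (nat_lit 89) (nat_lit 5) (nat_lit 93) (nat_lit 5) (nat_lit 94) (nat_lit 5) (nat_lit 482) (nat_lit 372) (nat_lit 286))))) (XT.nd (nat_lit 234) (nat_lit 608) (nat_lit 0) (XT.nd (nat_lit 78) (nat_lit 304) (nat_lit 0) (XT.lf (nat_lit 0) (nat_lit 2124654116) (nat_lit 304) (nat_lit 11475700066) (nat_lit 76) (nat_lit 628652794) (nat_lit 85) (nat_lit 5) (nat_lit 89) (nat_lit 5) (nat_lit 86) (nat_lit 5) (nat_lit 483) (nat_lit 372) (nat_lit 285)) (XT.nd (nat_lit 78) (nat_lit 304) (nat_lit 0) (XT.lf (nat_lit 0) (nat_lit 5430792720) (nat_lit 304) (nat_lit 4253845825) (nat_lit 76) (nat_lit 4734697730) (nat_lit 85) (nat_lit 5) (nat_lit 89) (nat_lit 5) (nat_lit 86) (nat_lit 5) (nat_lit 484) (nat_lit 372) (nat_lit 284)) (XT.lf (nat_lit 0) (nat_lit 3115324703) (nat_lit 304) (nat_lit 5684099198) (nat_lit 380) (nat_lit 5814130303) (nat_lit 81) (nat_lit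 5) (nat_lit 85) (nat_lit 5) (nat_lit 86) (nat_lit 5) (nat_lit 485) (nat_lit 372) (nat_lit 283)))) (XT.nd (nat_lit 156) (nat_lit 304) (nat_lit 0) (XT.nd (nat_lit 78) (nat_lit 304) (nat_lit 0) (XT.lf (nat_lit 0) (nat_lit 10651811664) (nat_lit 304) (nat_lit 1588527461) (nat_lit 380) (nat_lit 2571228395) (nat_lit 81) (nat_lit 5) (nat_lit 85) (nat_lit 5) (nat_lit 86) (nat_lit 5) (nat_lit 486) (nat_lit 372) (nat_lit 282)) (XT.lf (nat_lit 0) (nat_lit 742033194) (nat_lit 304) (nat_lit 11703350549) (nat_lit 76) (nat_lit 2567767387) (nat_lit 77) (nat_lit 5) (nat_lit 81) (nat_lit 5) (nat_lit 78) (nat_lit 5) (nat_lit 487) (nat_lit 372) (nat_lit 281))) (XT.nd (nat_lit 78) (nat_lit 304) (nat_lit 0) (XT.lf (nat_lit 0) (nat_lit 4102575723) (nat_lit 304) (nat_lit 4298249534) (nat_lit 76) (nat_lit 6817301071) (nat_lit 77) (nat_lit 5) (nat_lit 81) (nat_lit 5) (nat_lit 78) (nat_lit 5) (nat_lit 488) (nat_lit 372) (nat_lit 280)) (XT.lf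 (nat_lit 0) (nat_lit 3261013232) (nat_lit 304) (nat_lit 4267736778) (nat_lit 380) (nat_lit 7898491153) (nat_lit 73) (nat_lit 5) (nat_lit 77) (nat_lit 5) (nat_lit 78) (nat_lit 5) (nat_lit 489) (nat_lit 372) (nat_lit 279)))))) (XT.nd (nat_lit 546) (nat_lit 836) (nat_lit 0) (XT.nd (nat_lit 234) (nat_lit 456) (nat_lit 0) (XT.nd (nat_lit 78) (nat_lit 304) (nat_lit 0) (XT.lf (nat_lit 0) (nat_lit 10993257621) (nat_lit 304) (nat_lit 36491266) (nat_lit 380) (nat_lit 4610671770) (nat_lit 73) (nat_lit 5) (nat_lit 77) (nat_lit 5) (nat_lit 78) (nat_lit 5) (nat_lit 490) (nat_lit 372) (nat_lit 278)) (XT.nd (nat_lit 78) (nat_lit 76) (nat_lit 0) (XT.lf (nat_lit 0) (nat_lit 2997699886) (nat_lit 228) (nat_lit 11628126435) (nat_lit 304) (nat_lit 1231544465) (nat_lit 70) (nat_lit 5) (nat_lit 73) (nat_lit 5) (nat_lit 74) (nat_lit 5) (nat_lit 491) (nat_lit 372) (nat_lit 277)) (XT.lf (nat_lit 0) (nat_lit 2195605731) (nat_lit 304) (nat_lit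 5270591763) (nat_lit 76) (nat_lit 8611992825) (nat_lit 69) (nat_lit 5) (nat_lit 73) (nat_lit 5) (nat_lit 70) (nat_lit 5) (nat_lit 492) (nat_lit 372) (nat_lit 276)))) (XT.nd (nat_lit 156) (nat_lit 228) (nat_lit 0) (XT.nd (nat_lit 78) (nat_lit 0) (nat_lit 0) (XT.lf (nat_lit 0) (nat_lit 2458892618) (nat_lit 228) (nat_lit 3210189777) (nat_lit 304) (nat_lit 10634303306) (nat_lit 66) (nat_lit 5) (nat_lit 69) (nat_lit 5) (nat_lit 70) (nat_lit 5) (nat_lit 493) (nat_lit 372) (nat_lit 275)) (XT.lf (nat_lit 0) (nat_lit 9233375454) (nat_lit 304) (nat_lit 6161128251) (nat_lit 76) (nat_lit 1138161942) (nat_lit 66) (nat_lit 5) (nat_lit 70) (nat_lit 5) (nat_lit 67) (nat_lit 5) (nat_lit 494) (nat_lit 372) (nat_lit 274))) (XT.nd (nat_lit 78) (nat_lit 0) (nat_lit 0) (XT.lf (nat_lit 0) (nat_lit 1641283260) (nat_lit 228) (nat_lit 11238411837) (nat_lit 304) (nat_lit 3886628724) (nat_lit 63) (nat_lit 5) (nat_lit 66) (nat_lit 5) (nat_lit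 67) (nat_lit 5) (nat_lit 495) (nat_lit 372) (nat_lit 273)) (XT.lf (nat_lit 0) (nat_lit 9648601426) (nat_lit 228) (nat_lit 6970699189) (nat_lit 304) (nat_lit 384954651) (nat_lit 63) (nat_lit 5) (nat_lit 66) (nat_lit 5) (nat_lit 67) (nat_lit 5) (nat_lit 496) (nat_lit 372) (nat_lit 272))))) (XT.nd (nat_lit 234) (nat_lit 532) (nat_lit 0) (XT.nd (nat_lit 78) (nat_lit 0) (nat_lit 0) (XT.lf (nat_lit 0) (nat_lit 521003082) (nat_lit 228) (nat_lit 2606620909) (nat_lit 304) (nat_lit 14119261236) (nat_lit 59) (nat_lit 5) (nat_lit 62) (nat_lit 5) (nat_lit 63) (nat_lit 5) (nat_lit 497) (nat_lit 372) (nat_lit 271)) (XT.nd (nat_lit 78) (nat_lit 0) (nat_lit 0) (XT.lf (nat_lit 0) (nat_lit 6746349744) (nat_lit 304) (nat_lit 8887697646) (nat_lit 76) (nat_lit 1859455381) (nat_lit 59) (nat_lit 5) (nat_lit 63) (nat_lit 5) (nat_lit 60) (nat_lit 5) (nat_lit 498) (nat_lit 372) (nat_lit 270)) (XT.lf (nat_lit 0) (nat_lit 10434497493) (nat_lit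 304) (nat_lit 943702541) (nat_lit 76) (nat_lit 6366918425) (nat_lit 59) (nat_lit 5) (nat_lit 63) (nat_lit 5) (nat_lit 60) (nat_lit 5) (nat_lit 499) (nat_lit 372) (nat_lit 269)))) (XT.nd (nat_lit 156) (nat_lit 304) (nat_lit 0) (XT.nd (nat_lit 78) (nat_lit 0) (nat_lit 0) (XT.lf (nat_lit 0) (nat_lit 7220845055) (nat_lit 228) (nat_lit 7002627120) (nat_lit 304) (nat_lit 3777759617) (nat_lit 56) (nat_lit 5) (nat_lit 59) (nat_lit 5) (nat_lit 60) (nat_lit 5) (nat_lit 500) (nat_lit 372) (nat_lit 268)) (XT.lf (nat_lit 0) (nat_lit 15528662953) (nat_lit 228) (nat_lit 2546253158) (nat_lit 304) (nat_lit 187823967) (nat_lit 56) (nat_lit 5) (nat_lit 59) (nat_lit 5) (nat_lit 60) (nat_lit 5) (nat_lit 501) (nat_lit 372) (nat_lit 267))) (XT.nd (nat_lit 78) (nat_lit 0) (nat_lit 0) (XT.lf (nat_lit 0) (nat_lit 3457884871) (nat_lit 304) (nat_lit 13051814732) (nat_lit 76) (nat_lit 2018743347) (nat_lit 52) (nat_lit 5) (nat_lit 56) (nat_lit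 5) (nat_lit 53) (nat_lit 5) (nat_lit 502) (nat_lit 372) (nat_lit 266)) (XT.lf (nat_lit 0) (nat_lit 7190021482) (nat_lit 304) (nat_lit 4961238183) (nat_lit 76) (nat_lit 6647860919) (nat_lit 52) (nat_lit 5) (nat_lit 56) (nat_lit 5) (nat_lit 53) (nat_lit 5) (nat_lit 503) (nat_lit 372) (nat_lit 265))))))) (XT.nd (nat_lit 1092) (nat_lit 760) (nat_lit 0) (XT.nd (nat_lit 546) (nat_lit 608) (nat_lit 0) (XT.nd (nat_lit 234) (nat_lit 228) (nat_lit 0) (XT.nd (nat_lit 78) (nat_lit 228) (nat_lit 0) (XT.lf (nat_lit 0) (nat_lit 3302575457) (nat_lit 152) (nat_lit 7696741411) (nat_lit 228) (nat_lit 8075850569) (nat_lit 50) (nat_lit 5) (nat_lit 52) (nat_lit 5) (nat_lit 53) (nat_lit 5) (nat_lit 504) (nat_lit 372) (nat_lit 264)) (XT.nd (nat_lit 78) (nat_lit 228) (nat_lit 0) (XT.lf (nat_lit 0) (nat_lit 11767237744) (nat_lit 152) (nat_lit 3132091901) (nat_lit 228) (nat_lit 4457120823) (nat_lit 50) (nat_lit 5) (nat_lit 52) (nat_lit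 5) (nat_lit 53) (nat_lit 5) (nat_lit 505) (nat_lit 372) (nat_lit 263)) (XT.lf (nat_lit 0) (nat_lit 726114627) (nat_lit 228) (nat_lit 18147360919) (nat_lit 304) (nat_lit 769966710) (nat_lit 47) (nat_lit 5) (nat_lit 50) (nat_lit 5) (nat_lit 51) (nat_lit 5) (nat_lit 506) (nat_lit 372) (nat_lit 262)))) (XT.nd (nat_lit 156) (nat_lit 152) (nat_lit 0) (XT.nd (nat_lit 78) (nat_lit 0) (nat_lit 0) (XT.lf (nat_lit 0) (nat_lit 3005268909) (nat_lit 304) (nat_lit 10696424870) (nat_lit 76) (nat_lit 6233025951) (nat_lit 46) (nat_lit 5) (nat_lit 50) (nat_lit 5) (nat_lit 47) (nat_lit 5) (nat_lit 507) (nat_lit 372) (nat_lit 261)) (XT.lf (nat_lit 0) (nat_lit 6827628441) (nat_lit 304) (nat_lit 2346980760) (nat_lit 76) (nat_lit 11057478604) (nat_lit 46) (nat_lit 5) (nat_lit 50) (nat_lit 5) (nat_lit 47) (nat_lit 5) (nat_lit 508) (nat_lit 372) (nat_lit 260))) (XT.nd (nat_lit 78) (nat_lit 0) (nat_lit 0) (XT.lf (nat_lit 0) (nat_lit 6220865901)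 (nat_lit 152) (nat_lit 4528233189) (nat_lit 228) (nat_lit 9785856189) (nat_lit 44) (nat_lit 5) (nat_lit 46) (nat_lit 5) (nat_lit 47) (nat_lit 5) (nat_lit 509) (nat_lit 372) (nat_lit 259)) (XT.lf (nat_lit 0) (nat_lit 14748569699) (nat_lit 228) (nat_lit 5883408126) (nat_lit 76) (nat_lit 211916078) (nat_lit 44) (nat_lit 5) (nat_lit 47) (nat_lit 5) (nat_lit 45) (nat_lit 5) (nat_lit 510) (nat_lit 372) (nat_lit 258))))) (XT.nd (nat_lit 234) (nat_lit 304) (nat_lit 0) (XT.nd (nat_lit 78) (nat_lit 76) (nat_lit 0) (XT.lf (nat_lit 0) (nat_lit 2691539911) (nat_lit 228) (nat_lit 16166645882) (nat_lit 304) (nat_lit 2300227496) (nat_lit 41) (nat_lit 5) (nat_lit 44) (nat_lit 5) (nat_lit 45) (nat_lit 5) (nat_lit 511) (nat_lit 372) (nat_lit 257)) (XT.nd (nat_lit 78) (nat_lit 0) (nat_lit 0) (XT.lf (nat_lit 0) (nat_lit 1572634422) (nat_lit 304) (nat_lit 10000853316) (nat_lit 76) (nat_lit 9905086980) (nat_lit 40) (nat_lit 5) (nat_lit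 44) (nat_lit 5) (nat_lit 41) (nat_lit 5) (nat_lit 512) (nat_lit 372) (nat_lit 256)) (XT.lf (nat_lit 0) (nat_lit 5475243104) (nat_lit 304) (nat_lit 1409861809) (nat_lit 76) (nat_lit 14920073398) (nat_lit 40) (nat_lit 5) (nat_lit 44) (nat_lit 5) (nat_lit 41) (nat_lit 5) (nat_lit 513) (nat_lit 372) (nat_lit 255)))) (XT.nd (nat_lit 156) (nat_lit 152) (nat_lit 0) (XT.nd (nat_lit 78) (nat_lit 0) (nat_lit 0) (XT.lf (nat_lit 0) (nat_lit 7421742245) (nat_lit 152) (nat_lit 2065741508) (nat_lit 228) (nat_lit 12650203347) (nat_lit 38) (nat_lit 5) (nat_lit 40) (nat_lit 5) (nat_lit 41) (nat_lit 5) (nat_lit 514) (nat_lit 372) (nat_lit 254)) (XT.lf (nat_lit 0) (nat_lit 13591454166) (nat_lit 228) (nat_lit 6074747927) (nat_lit 76) (nat_lit 2810418901) (nat_lit 38) (nat_lit 5) (nat_lit 41) (nat_lit 5) (nat_lit 39) (nat_lit 5) (nat_lit 515) (nat_lit 372) (nat_lit 253))) (XT.nd (nat_lit 78) (nat_lit 0) (nat_lit 0) (XT.lf (nat_lit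 0) (nat_lit 2733388765) (nat_lit 152) (nat_lit 15059324201) (nat_lit 228) (nat_lit 5029320958) (nat_lit 36) (nat_lit 5) (nat_lit 38) (nat_lit 5) (nat_lit 39) (nat_lit 5) (nat_lit 516) (nat_lit 372) (nat_lit 252)) (XT.lf (nat_lit 0) (nat_lit 11772164906) (nat_lit 152) (nat_lit 10330515461) (nat_lit 228) (nat_lit 1071185526) (nat_lit 36) (nat_lit 5) (nat_lit 38) (nat_lit 5) (nat_lit 39) (nat_lit 5) (nat_lit 517) (nat_lit 372) (nat_lit 251)))))) (XT.nd (nat_lit 546) (nat_lit 152) (nat_lit 0) (XT.nd (nat_lit 234) (nat_lit 380) (nat_lit 0) (XT.nd (nat_lit 78) (nat_lit 152) (nat_lit 0) (XT.lf (nat_lit 0) (nat_lit 2911336787) (nat_lit 228) (nat_lit 2587812807) (nat_lit 76) (nat_lit 18033521518) (nat_lit 35) (nat_lit 5) (nat_lit 38) (nat_lit 5) (nat_lit 36) (nat_lit 5) (nat_lit 518) (nat_lit 372) (nat_lit 250)) (XT.nd (nat_lit 78) (nat_lit 0) (nat_lit 0) (XT.lf (nat_lit 0) (nat_lit 6452893083) (nat_lit 152) (nat_lit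 532619703) (nat_lit 228) (nat_lit 16912475302) (nat_lit 33) (nat_lit 5) (nat_lit 35) (nat_lit 5) (nat_lit 36) (nat_lit 5) (nat_lit 519) (nat_lit 372) (nat_lit 249)) (XT.lf (nat_lit 0) (nat_lit 11172579349) (nat_lit 228) (nat_lit 8617378507) (nat_lit 76) (nat_lit 4480029516) (nat_lit 33) (nat_lit 5) (nat_lit 36) (nat_lit 5) (nat_lit 34) (nat_lit 5) (nat_lit 520) (nat_lit 372) (nat_lit 248)))) (XT.nd (nat_lit 156) (nat_lit 228) (nat_lit 0) (XT.nd (nat_lit 78) (nat_lit 0) (nat_lit 0) (XT.lf (nat_lit 0) (nat_lit 361579592) (nat_lit 152) (nat_lit 15072480243) (nat_lit 228) (nat_lit 9215557384) (nat_lit 31) (nat_lit 5) (nat_lit 33) (nat_lit 5) (nat_lit 34) (nat_lit 5) (nat_lit 521) (nat_lit 372) (nat_lit 247)) (XT.lf (nat_lit 0) (nat_lit 9610574586) (nat_lit 152) (nat_lit 10212947168) (nat_lit 228) (nat_lit 5212466824) (nat_lit 31) (nat_lit 5) (nat_lit 33) (nat_lit 5) (nat_lit 34) (nat_lit 5) (nat_lit 522) (nat_lit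 372) (nat_lit 246))) (XT.nd (nat_lit 78) (nat_lit 228) (nat_lit 0) (XT.lf (nat_lit 0) (nat_lit 19018713104) (nat_lit 152) (nat_lit 5267280079) (nat_lit 228) (nat_lit 1144393648) (nat_lit 31) (nat_lit 5) (nat_lit 33) (nat_lit 5) (nat_lit 34) (nat_lit 5) (nat_lit 523) (nat_lit 372) (nat_lit 245)) (XT.lf (nat_lit 0) (nat_lit 2773680553) (nat_lit 152) (nat_lit 195367723) (nat_lit 228) (nat_lit 22863169902) (nat_lit 28) (nat_lit 5) (nat_lit 30) (nat_lit 5) (nat_lit 31) (nat_lit 5) (nat_lit 524) (nat_lit 372) (nat_lit 244))))) (XT.nd (nat_lit 312) (nat_lit 0) (nat_lit 0) (XT.nd (nat_lit 156) (nat_lit 152) (nat_lit 0) (XT.nd (nat_lit 78) (nat_lit 0) (nat_lit 0) (XT.lf (nat_lit 0) (nat_lit 7210542013) (nat_lit 228) (nat_lit 14077337612) (nat_lit 76) (nat_lit 4952836757) (nat_lit 28) (nat_lit 5) (nat_lit 31) (nat_lit 5) (nat_lit 29) (nat_lit 5) (nat_lit 525) (nat_lit 372) (nat_lit 243)) (XT.lf (nat_lit 0) (nat_lit 11523905600)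 (nat_lit 228) (nat_lit 4942887570) (nat_lit 76) (nat_lit 10190854161) (nat_lit 28) (nat_lit 5) (nat_lit 31) (nat_lit 5) (nat_lit 29) (nat_lit 5) (nat_lit 526) (nat_lit 372) (nat_lit 242))) (XT.nd (nat_lit 78) (nat_lit 0) (nat_lit 0) (XT.lf (nat_lit 0) (nat_lit 4407467828) (nat_lit 152) (nat_lit 11530710470) (nat_lit 228) (nat_lit 11144449271) (nat_lit 26) (nat_lit 5) (nat_lit 28) (nat_lit 5) (nat_lit 29) (nat_lit 5) (nat_lit 527) (nat_lit 372) (nat_lit 241)) (XT.lf (nat_lit 0) (nat_lit 13987405865) (nat_lit 152) (nat_lit 6472641011) (nat_lit 228) (nat_lit 7055677765) (nat_lit 26) (nat_lit 5) (nat_lit 28) (nat_lit 5) (nat_lit 29) (nat_lit 5) (nat_lit 528) (nat_lit 372) (nat_lit 240)))) (XT.nd (nat_lit 48906) (nat_lit 0) (nat_lit 43852) (XT.nd (nat_lit 48828) (nat_lit 0) (nat_lit 44536) (XT.lf (nat_lit 0) (nat_lit 23734995005) (nat_lit 152) (nat_lit 1323770615) (nat_lit 228) (nat_lit 2898993151) (nat_lit 26) (nat_lit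 5) (nat_lit 28) (nat_lit 5) (nat_lit 29) (nat_lit 5) (nat_lit 529) (nat_lit 372) (nat_lit 239)) (XT.lf (nat_lit 0) (nat_lit 515918797) (nat_lit 532) (nat_lit 1377090602) (nat_lit 532) (nat_lit 1377090602) (nat_lit 612) (nat_lit 4) (nat_lit 619) (nat_lit 5) (nat_lit 619) (nat_lit 4) (nat_lit 394) (nat_lit 373) (nat_lit 373))) (XT.nd (nat_lit 78) (nat_lit 608) (nat_lit 0) (XT.lf (nat_lit 0) (nat_lit 275163289) (nat_lit 608) (nat_lit 1853532861) (nat_lit 76) (nat_lit 4426327128) (nat_lit 611) (nat_lit 5) (nat_lit 619) (nat_lit 5) (nat_lit 612) (nat_lit 4) (nat_lit 395) (nat_lit 373) (nat_lit 372)) (XT.lf (nat_lit 0) (nat_lit 1831566776) (nat_lit 608) (nat_lit 1437269749) (nat_lit 684) (nat_lit 3302223874) (nat_lit 603) (nat_lit 5) (nat_lit 611) (nat_lit 5) (nat_lit 612) (nat_lit 4) (nat_lit 396) (nat_lit 373) (nat_lit 371))))))))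
noncomputable def xc84 : XT := (XT.nd (nat_lit 2184) (nat_lit 11704) (nat_lit 0) (XT.nd (nat_lit 1092) (nat_lit 12236) (nat_lit 0) (XT.nd (nat_lit 546) (nat_lit 4636) (nat_lit 0) (XT.nd (nat_lit 234) (nat_lit 2660) (nat_lit 0) (XT.nd (nat_lit 78) (nat_lit 760) (nat_lit 0) (XT.lf (nat_lit 0) (nat_lit 5567205104) (nat_lit 608) (nat_lit 697395057) (nat_lit 684) (nat_lit 324065817) (nat_lit 603) (nat_lit 5) (nat_lit 611) (nat_lit 5) (nat_lit 612) (nat_lit 4) (nat_lit 397) (nat_lit 373) (nat_lit 370)) (XT.nd (nat_lit 78) (nat_lit 0) (nat_lit 0) (XT.lf (nat_lit 0) (nat_lit 2627214776) (nat_lit 760) (nat_lit 3867225675) (nat_lit 76) (nat_lit 112936331) (nat_lit 593) (nat_lit 5) (nat_lit 603) (nat_lit 5) (nat_lit 594) (nat_lit 4) (nat_lit 398) (nat_lit 373) (nat_lit 369)) (XT.lf (nat_lit 0) (nat_lit 5576495444) (nat_lit 760) (nat_lit 91912761) (nat_lit 76) (nat_lit 959231223) (nat_lit 593) (nat_lit 5) (nat_lit 603) (nat_lit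 5) (nat_lit 594) (nat_lit 4) (nat_lit 399) (nat_lit 373) (nat_lit 368)))) (XT.nd (nat_lit 156) (nat_lit 988) (nat_lit 0) (XT.nd (nat_lit 78) (nat_lit 836) (nat_lit 0) (XT.lf (nat_lit 0) (nat_lit 1868230552) (nat_lit 836) (nat_lit 2901965368) (nat_lit 76) (nat_lit 1878799865) (nat_lit 582) (nat_lit 5) (nat_lit 593) (nat_lit 5) (nat_lit 583) (nat_lit 5) (nat_lit 400) (nat_lit 373) (nat_lit 367)) (XT.lf (nat_lit 0) (nat_lit 949427433) (nat_lit 836) (nat_lit 3822896199) (nat_lit 912) (nat_lit 1899590299) (nat_lit 571) (nat_lit 5) (nat_lit 582) (nat_lit 5) (nat_lit 583) (nat_lit 5) (nat_lit 401) (nat_lit 373) (nat_lit 366))) (XT.nd (nat_lit 78) (nat_lit 912) (nat_lit 0) (XT.lf (nat_lit 0) (nat_lit 979260579) (nat_lit 912) (nat_lit 1834513106) (nat_lit 76) (nat_lit 3882386740) (nat_lit 570) (nat_lit 5) (nat_lit 582) (nat_lit 5) (nat_lit 571) (nat_lit 5) (nat_lit 402) (nat_lit 373) (nat_lit 365)) (XT.lf (nat_lit 0)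 (nat_lit 2097202779) (nat_lit 912) (nat_lit 1742062124) (nat_lit 988) (nat_lit 2882472607) (nat_lit 558) (nat_lit 5) (nat_lit 570) (nat_lit 5) (nat_lit 571) (nat_lit 5) (nat_lit 403) (nat_lit 373) (nat_lit 364))))) (XT.nd (nat_lit 234) (nat_lit 2508) (nat_lit 0) (XT.nd (nat_lit 78) (nat_lit 2128) (nat_lit 0) (XT.lf (nat_lit 0) (nat_lit 6083800180) (nat_lit 912) (nat_lit 621302963) (nat_lit 988) (nat_lit 43825832) (nat_lit 558) (nat_lit 5) (nat_lit 570) (nat_lit 5) (nat_lit 571) (nat_lit 5) (nat_lit 404) (nat_lit 373) (nat_lit 363)) (XT.nd (nat_lit 78) (nat_lit 1064) (nat_lit 0) (XT.lf (nat_lit 0) (nat_lit 2776780631) (nat_lit 1064) (nat_lit 3430622564) (nat_lit 76) (nat_lit 569711650) (nat_lit 544) (nat_lit 5) (nat_lit 558) (nat_lit 5) (nat_lit 545) (nat_lit 5) (nat_lit 405) (nat_lit 373) (nat_lit 362)) (XT.lf (nat_lit 0) (nat_lit 595303607) (nat_lit 1064) (nat_lit 5008476815) (nat_lit 1140) (nat_lit 1203138016)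 (nat_lit 530) (nat_lit 5) (nat_lit 544) (nat_lit 5) (nat_lit 545) (nat_lit 5) (nat_lit 406) (nat_lit 373) (nat_lit 361)))) (XT.nd (nat_lit 156) (nat_lit 1292) (nat_lit 0) (XT.nd (nat_lit 78) (nat_lit 1140) (nat_lit 0) (XT.lf (nat_lit 0) (nat_lit 1590051279) (nat_lit 1140) (nat_lit 2149686691) (nat_lit 76) (nat_lit 3098200487) (nat_lit 529) (nat_lit 5) (nat_lit 544) (nat_lit 5) (nat_lit 530) (nat_lit 5) (nat_lit 407) (nat_lit 373) (nat_lit 360)) (XT.lf (nat_lit 0) (nat_lit 1962014045) (nat_lit 1140) (nat_lit 2413455136) (nat_lit 1216) (nat_lit 2494968197) (nat_lit 514) (nat_lit 5) (nat_lit 529) (nat_lit 5) (nat_lit 530) (nat_lit 5) (nat_lit 408) (nat_lit 373) (nat_lit 359))) (XT.nd (nat_lit 78) (nat_lit 1216) (nat_lit 0) (XT.lf (nat_lit 0) (nat_lit 263552192) (nat_lit 1216) (nat_lit 770103780) (nat_lit 76) (nat_lit 5870861150) (nat_lit 513) (nat_lit 5) (nat_lit 529) (nat_lit 5) (nat_lit 514) (nat_lit 5) (nat_lit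 409) (nat_lit 373) (nat_lit 358)) (XT.lf (nat_lit 0) (nat_lit 3010189672) (nat_lit 1292) (nat_lit 3511825329) (nat_lit 76) (nat_lit 417669726) (nat_lit 497) (nat_lit 5) (nat_lit 514) (nat_lit 5) (nat_lit 498) (nat_lit 5) (nat_lit 410) (nat_lit 373) (nat_lit 357)))))) (XT.nd (nat_lit 546) (nat_lit 6384) (nat_lit 0) (XT.nd (nat_lit 234) (nat_lit 3116) (nat_lit 0) (XT.nd (nat_lit 78) (nat_lit 1444) (nat_lit 0) (XT.lf (nat_lit 0) (nat_lit 697283890) (nat_lit 1292) (nat_lit 5073249032) (nat_lit 1368) (nat_lit 1205909251) (nat_lit 480) (nat_lit 5) (nat_lit 497) (nat_lit 5) (nat_lit 498) (nat_lit 5) (nat_lit 411) (nat_lit 373) (nat_lit 356)) (XT.nd (nat_lit 78) (nat_lit 1368) (nat_lit 0) (XT.lf (nat_lit 0) (nat_lit 1517825018) (nat_lit 1368) (nat_lit 2035893298) (nat_lit 76) (nat_lit 3460745931) (nat_lit 479) (nat_lit 5) (nat_lit 497) (nat_lit 5) (nat_lit 480) (nat_lit 5) (nat_lit 412) (nat_lit 373) (nat_lit 355)) (XT.lf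 (nat_lit 0) (nat_lit 2264692518) (nat_lit 1368) (nat_lit 1973612813) (nat_lit 1444) (nat_lit 2815672017) (nat_lit 461) (nat_lit 5) (nat_lit 479) (nat_lit 5) (nat_lit 480) (nat_lit 5) (nat_lit 413) (nat_lit 373) (nat_lit 354)))) (XT.nd (nat_lit 156) (nat_lit 1596) (nat_lit 0) (XT.nd (nat_lit 78) (nat_lit 1520) (nat_lit 0) (XT.lf (nat_lit 0) (nat_lit 6629951036) (nat_lit 1368) (nat_lit 341391838) (nat_lit 1444) (nat_lit 123832114) (nat_lit 461) (nat_lit 5) (nat_lit 479) (nat_lit 5) (nat_lit 480) (nat_lit 5) (nat_lit 414) (nat_lit 373) (nat_lit 353)) (XT.lf (nat_lit 0) (nat_lit 2567054408) (nat_lit 1520) (nat_lit 3215319629) (nat_lit 76) (nat_lit 1354945184) (nat_lit 441) (nat_lit 5) (nat_lit 461) (nat_lit 5) (nat_lit 442) (nat_lit 5) (nat_lit 415) (nat_lit 373) (nat_lit 352))) (XT.nd (nat_lit 78) (nat_lit 76) (nat_lit 0) (XT.lf (nat_lit 0) (nat_lit 1185869446) (nat_lit 1520) (nat_lit 4083291413) (nat_lit 1596)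 (nat_lit 1912001831) (nat_lit 421) (nat_lit 5) (nat_lit 441) (nat_lit 5) (nat_lit 442) (nat_lit 5) (nat_lit 416) (nat_lit 373) (nat_lit 351)) (XT.lf (nat_lit 0) (nat_lit 756951538) (nat_lit 1596) (nat_lit 1562168963) (nat_lit 76) (nat_lit 4907350362) (nat_lit 420) (nat_lit 5) (nat_lit 441) (nat_lit 5) (nat_lit 421) (nat_lit 5) (nat_lit 417) (nat_lit 373) (nat_lit 350))))) (XT.nd (nat_lit 234) (nat_lit 3040) (nat_lit 0) (XT.nd (nat_lit 78) (nat_lit 1748) (nat_lit 0) (XT.lf (nat_lit 0) (nat_lit 2936397337) (nat_lit 1596) (nat_lit 483717407) (nat_lit 1672) (nat_lit 3853039859) (nat_lit 399) (nat_lit 5) (nat_lit 420) (nat_lit 5) (nat_lit 421) (nat_lit 5) (nat_lit 418) (nat_lit 373) (nat_lit 349)) (XT.nd (nat_lit 78) (nat_lit 76) (nat_lit 0) (XT.lf (nat_lit 0) (nat_lit 168822431) (nat_lit 1672) (nat_lit 5936461884) (nat_lit 1748) (nat_lit 1216162663) (nat_lit 377) (nat_lit 5) (nat_lit 399) (nat_lit 5) (nat_lit 400)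 (nat_lit 5) (nat_lit 419) (nat_lit 373) (nat_lit 348)) (XT.lf (nat_lit 0) (nat_lit 1435014820) (nat_lit 1748) (nat_lit 2610048228) (nat_lit 76) (nat_lit 3325880963) (nat_lit 376) (nat_lit 5) (nat_lit 399) (nat_lit 5) (nat_lit 377) (nat_lit 5) (nat_lit 420) (nat_lit 373) (nat_lit 347)))) (XT.nd (nat_lit 156) (nat_lit 1748) (nat_lit 0) (XT.nd (nat_lit 78) (nat_lit 0) (nat_lit 0) (XT.lf (nat_lit 0) (nat_lit 1992176954) (nat_lit 1292) (nat_lit 2093105467) (nat_lit 1368) (nat_lit 3336787715) (nat_lit 359) (nat_lit 5) (nat_lit 376) (nat_lit 5) (nat_lit 377) (nat_lit 5) (nat_lit 421) (nat_lit 373) (nat_lit 346)) (XT.lf (nat_lit 0) (nat_lit 6672874354) (nat_lit 1292) (nat_lit 83271352) (nat_lit 1368) (nat_lit 718767302) (nat_lit 359) (nat_lit 5) (nat_lit 376) (nat_lit 5) (nat_lit 377) (nat_lit 5) (nat_lit 422) (nat_lit 373) (nat_lit 345))) (XT.nd (nat_lit 78) (nat_lit 836) (nat_lit 0) (XT.lf (nat_lit 0) (nat_lit 1915104097)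 (nat_lit 912) (nat_lit 3633840355) (nat_lit 76) (nat_lit 1979877376) (nat_lit 347) (nat_lit 5) (nat_lit 359) (nat_lit 5) (nat_lit 348) (nat_lit 5) (nat_lit 423) (nat_lit 373) (nat_lit 344)) (XT.lf (nat_lit 0) (nat_lit 1072440687) (nat_lit 836) (nat_lit 3483869678) (nat_lit 912) (nat_lit 3028161176) (nat_lit 336) (nat_lit 5) (nat_lit 347) (nat_lit 5) (nat_lit 348) (nat_lit 5) (nat_lit 424) (nat_lit 373) (nat_lit 343))))))) (XT.nd (nat_lit 1092) (nat_lit 5320) (nat_lit 0) (XT.nd (nat_lit 546) (nat_lit 3040) (nat_lit 0) (XT.nd (nat_lit 234) (nat_lit 1596) (nat_lit 0) (XT.nd (nat_lit 78) (nat_lit 1748) (nat_lit 0) (XT.lf (nat_lit 0) (nat_lit 5873039874) (nat_lit 836) (nat_lit 1353661944) (nat_lit 912) (nat_lit 415047734) (nat_lit 336) (nat_lit 5) (nat_lit 347) (nat_lit 5) (nat_lit 348) (nat_lit 5) (nat_lit 425) (nat_lit 373) (nat_lit 342)) (XT.nd (nat_lit 78) (nat_lit 836) (nat_lit 0) (XT.lf (nat_lit 0) (nat_lit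 2198693726) (nat_lit 912) (nat_lit 4659970101) (nat_lit 76) (nat_lit 841700373) (nat_lit 324) (nat_lit 5) (nat_lit 336) (nat_lit 5) (nat_lit 325) (nat_lit 5) (nat_lit 426) (nat_lit 373) (nat_lit 341)) (XT.lf (nat_lit 0) (nat_lit 150504182) (nat_lit 836) (nat_lit 4683712615) (nat_lit 912) (nat_lit 2926418259) (nat_lit 313) (nat_lit 5) (nat_lit 324) (nat_lit 5) (nat_lit 325) (nat_lit 5) (nat_lit 427) (nat_lit 373) (nat_lit 340)))) (XT.nd (nat_lit 156) (nat_lit 760) (nat_lit 0) (XT.nd (nat_lit 78) (nat_lit 836) (nat_lit 0) (XT.lf (nat_lit 0) (nat_lit 5071260886) (nat_lit 836) (nat_lit 2436229465) (nat_lit 912) (nat_lit 314959463) (nat_lit 313) (nat_lit 5) (nat_lit 324) (nat_lit 5) (nat_lit 325) (nat_lit 5) (nat_lit 428) (nat_lit 373) (nat_lit 339)) (XT.lf (nat_lit 0) (nat_lit 2169357723) (nat_lit 760) (nat_lit 116989181) (nat_lit 836) (nat_lit 5599518285) (nat_lit 302) (nat_lit 5) (nat_lit 312) (nat_lit 5) (nat_lit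 313) (nat_lit 5) (nat_lit 429) (nat_lit 373) (nat_lit 338))) (XT.nd (nat_lit 78) (nat_lit 760) (nat_lit 0) (XT.lf (nat_lit 0) (nat_lit 4923546183) (nat_lit 836) (nat_lit 790750962) (nat_lit 76) (nat_lit 2236485427) (nat_lit 302) (nat_lit 5) (nat_lit 313) (nat_lit 5) (nat_lit 303) (nat_lit 5) (nat_lit 430) (nat_lit 373) (nat_lit 337)) (XT.lf (nat_lit 0) (nat_lit 4239949688) (nat_lit 760) (nat_lit 3357623794) (nat_lit 836) (nat_lit 419779432) (nat_lit 292) (nat_lit 5) (nat_lit 302) (nat_lit 5) (nat_lit 303) (nat_lit 5) (nat_lit 431) (nat_lit 373) (nat_lit 336))))) (XT.nd (nat_lit 234) (nat_lit 1520) (nat_lit 0) (XT.nd (nat_lit 78) (nat_lit 760) (nat_lit 0) (XT.lf (nat_lit 0) (nat_lit 1249945380) (nat_lit 684) (nat_lit 929973791) (nat_lit 760) (nat_lit 5905690165) (nat_lit 282) (nat_lit 5) (nat_lit 291) (nat_lit 5) (nat_lit 292) (nat_lit 5) (nat_lit 432) (nat_lit 373) (nat_lit 335)) (XT.nd (nat_lit 78) (nat_lit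 760) (nat_lit 0) (XT.lf (nat_lit 0) (nat_lit 4818079078) (nat_lit 760) (nat_lit 1787921702) (nat_lit 76) (nat_lit 1549367045) (nat_lit 282) (nat_lit 5) (nat_lit 292) (nat_lit 5) (nat_lit 283) (nat_lit 5) (nat_lit 433) (nat_lit 373) (nat_lit 334)) (XT.lf (nat_lit 0) (nat_lit 3350266340) (nat_lit 760) (nat_lit 4144026708) (nat_lit 836) (nat_lit 732556151) (nat_lit 272) (nat_lit 5) (nat_lit 282) (nat_lit 5) (nat_lit 283) (nat_lit 5) (nat_lit 434) (nat_lit 373) (nat_lit 333)))) (XT.nd (nat_lit 156) (nat_lit 760) (nat_lit 0) (XT.nd (nat_lit 78) (nat_lit 0) (nat_lit 0) (XT.lf (nat_lit 0) (nat_lit 258178878) (nat_lit 684) (nat_lit 1612201624) (nat_lit 760) (nat_lit 6429735121) (nat_lit 262) (nat_lit 5) (nat_lit 271) (nat_lit 5) (nat_lit 272) (nat_lit 5) (nat_lit 435) (nat_lit 373) (nat_lit 332)) (XT.lf (nat_lit 0) (nat_lit 4512886766) (nat_lit 760) (nat_lit 2872897618) (nat_lit 76) (nat_lit 989051345) (nat_lit 262)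 (nat_lit 5) (nat_lit 272) (nat_lit 5) (nat_lit 263) (nat_lit 5) (nat_lit 436) (nat_lit 373) (nat_lit 331))) (XT.nd (nat_lit 78) (nat_lit 76) (nat_lit 0) (XT.lf (nat_lit 0) (nat_lit 2371838535) (nat_lit 684) (nat_lit 4821373068) (nat_lit 760) (nat_lit 1258170244) (nat_lit 253) (nat_lit 5) (nat_lit 262) (nat_lit 5) (nat_lit 263) (nat_lit 5) (nat_lit 437) (nat_lit 373) (nat_lit 330)) (XT.lf (nat_lit 0) (nat_lit 1357848347) (nat_lit 760) (nat_lit 826234317) (nat_lit 76) (nat_lit 6345654599) (nat_lit 252) (nat_lit 5) (nat_lit 262) (nat_lit 5) (nat_lit 253) (nat_lit 5) (nat_lit 438) (nat_lit 373) (nat_lit 329)))))) (XT.nd (nat_lit 546) (nat_lit 2204) (nat_lit 0) (XT.nd (nat_lit 234) (nat_lit 1824) (nat_lit 0) (XT.nd (nat_lit 78) (nat_lit 684) (nat_lit 0) (XT.lf (nat_lit 0) (nat_lit 4002184809) (nat_lit 684) (nat_lit 4077348291) (nat_lit 76) (nat_lit 530132658) (nat_lit 244) (nat_lit 5) (nat_lit 253) (nat_lit 5) (nat_lit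 245) (nat_lit 5) (nat_lit 439) (nat_lit 373) (nat_lit 328)) (XT.nd (nat_lit 78) (nat_lit 76) (nat_lit 0) (XT.lf (nat_lit 0) (nat_lit 1272462814) (nat_lit 608) (nat_lit 5415575192) (nat_lit 684) (nat_lit 2003410834) (nat_lit 236) (nat_lit 5) (nat_lit 244) (nat_lit 5) (nat_lit 245) (nat_lit 5) (nat_lit 440) (nat_lit 373) (nat_lit 327)) (XT.lf (nat_lit 0) (nat_lit 632227042) (nat_lit 684) (nat_lit 2042320372) (nat_lit 76) (nat_lit 6100501972) (nat_lit 235) (nat_lit 5) (nat_lit 244) (nat_lit 5) (nat_lit 236) (nat_lit 5) (nat_lit 441) (nat_lit 373) (nat_lit 326)))) (XT.nd (nat_lit 156) (nat_lit 608) (nat_lit 0) (XT.nd (nat_lit 78) (nat_lit 608) (nat_lit 0) (XT.lf (nat_lit 0) (nat_lit 3278270447) (nat_lit 684) (nat_lit 5435009366) (nat_lit 76) (nat_lit 147113877) (nat_lit 227) (nat_lit 5) (nat_lit 236) (nat_lit 5) (nat_lit 228) (nat_lit 5) (nat_lit 442) (nat_lit 373) (nat_lit 325)) (XT.lf (nat_lit 0) (nat_lit 17784318)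 (nat_lit 608) (nat_lit 5952752245) (nat_lit 684) (nat_lit 2977068718) (nat_lit 219) (nat_lit 5) (nat_lit 227) (nat_lit 5) (nat_lit 228) (nat_lit 5) (nat_lit 443) (nat_lit 373) (nat_lit 324))) (XT.nd (nat_lit 78) (nat_lit 608) (nat_lit 0) (XT.lf (nat_lit 0) (nat_lit 5606017576) (nat_lit 608) (nat_lit 3109224904) (nat_lit 684) (nat_lit 321372652) (nat_lit 219) (nat_lit 5) (nat_lit 227) (nat_lit 5) (nat_lit 228) (nat_lit 5) (nat_lit 444) (nat_lit 373) (nat_lit 323)) (XT.lf (nat_lit 0) (nat_lit 2144348958) (nat_lit 532) (nat_lit 188293637) (nat_lit 608) (nat_lit 6794947145) (nat_lit 211) (nat_lit 5) (nat_lit 218) (nat_lit 5) (nat_lit 219) (nat_lit 5) (nat_lit 445) (nat_lit 373) (nat_lit 322))))) (XT.nd (nat_lit 234) (nat_lit 1064) (nat_lit 0) (XT.nd (nat_lit 78) (nat_lit 1140) (nat_lit 0) (XT.lf (nat_lit 0) (nat_lit 5039697056) (nat_lit 608) (nat_lit 1410305689) (nat_lit 76) (nat_lit 2770277791) (nat_lit 211) (nat_lit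 5) (nat_lit 219) (nat_lit 5) (nat_lit 212) (nat_lit 5) (nat_lit 446) (nat_lit 373) (nat_lit 321)) (XT.nd (nat_lit 78) (nat_lit 608) (nat_lit 0) (XT.lf (nat_lit 0) (nat_lit 4282658785) (nat_lit 532) (nat_lit 3510975976) (nat_lit 608) (nat_lit 1521359490) (nat_lit 204) (nat_lit 5) (nat_lit 211) (nat_lit 5) (nat_lit 212) (nat_lit 5) (nat_lit 447) (nat_lit 373) (nat_lit 320)) (XT.lf (nat_lit 0) (nat_lit 651385138) (nat_lit 532) (nat_lit 501640245) (nat_lit 608) (nat_lit 8258893267) (nat_lit 196) (nat_lit 5) (nat_lit 203) (nat_lit 5) (nat_lit 204) (nat_lit 5) (nat_lit 448) (nat_lit 373) (nat_lit 319)))) (XT.nd (nat_lit 156) (nat_lit 532) (nat_lit 0) (XT.nd (nat_lit 78) (nat_lit 532) (nat_lit 0) (XT.lf (nat_lit 0) (nat_lit 3875393710) (nat_lit 608) (nat_lit 3066994605) (nat_lit 76) (nat_lit 2567917327) (nat_lit 196) (nat_lit 5) (nat_lit 204) (nat_lit 5) (nat_lit 197) (nat_lit 5) (nat_lit 449) (nat_lit 373) (nat_lit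 318)) (XT.lf (nat_lit 0) (nat_lit 2726864131) (nat_lit 532) (nat_lit 3911256378) (nat_lit 608) (nat_lit 2972843766) (nat_lit 189) (nat_lit 5) (nat_lit 196) (nat_lit 5) (nat_lit 197) (nat_lit 5) (nat_lit 450) (nat_lit 373) (nat_lit 317))) (XT.nd (nat_lit 78) (nat_lit 532) (nat_lit 0) (XT.lf (nat_lit 0) (nat_lit 8632484401) (nat_lit 532) (nat_lit 809474860) (nat_lit 608) (nat_lit 271981358) (nat_lit 189) (nat_lit 5) (nat_lit 196) (nat_lit 5) (nat_lit 197) (nat_lit 5) (nat_lit 451) (nat_lit 373) (nat_lit 316)) (XT.lf (nat_lit 0) (nat_lit 2462994891) (nat_lit 532) (nat_lit 4994943535) (nat_lit 76) (nat_lit 2360483293) (nat_lit 182) (nat_lit 5) (nat_lit 189) (nat_lit 5) (nat_lit 183) (nat_lit 5) (nat_lit 452) (nat_lit 373) (nat_lit 315))))))))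
noncomputable def xc85 : XT := (XT.nd (nat_lit 2184) (nat_lit 3572) (nat_lit 0) (XT.nd (nat_lit 1092) (nat_lit 2964) (nat_lit 0) (XT.nd (nat_lit 546) (nat_lit 1748) (nat_lit 0) (XT.nd (nat_lit 234) (nat_lit 988) (nat_lit 0) (XT.nd (nat_lit 78) (nat_lit 532) (nat_lit 0) (XT.lf (nat_lit 0) (nat_lit 895255642) (nat_lit 532) (nat_lit 4338274364) (nat_lit 608) (nat_lit 4691756894) (nat_lit 175) (nat_lit 5) (nat_lit 182) (nat_lit 5) (nat_lit 183) (nat_lit 5) (nat_lit 453) (nat_lit 373) (nat_lit 314)) (XT.nd (nat_lit 78) (nat_lit 532) (nat_lit 0) (XT.lf (nat_lit 0) (nat_lit 6925667396) (nat_lit 532) (nat_lit 1133718515) (nat_lit 608) (nat_lit 1974925307) (nat_lit 175) (nat_lit 5) (nat_lit 182) (nat_lit 5) (nat_lit 183) (nat_lit 5) (nat_lit 454) (nat_lit 373) (nat_lit 313)) (XT.lf (nat_lit 0) (nat_lit 785512908) (nat_lit 532) (nat_lit 7240242742) (nat_lit 76) (nat_lit 2119681979) (nat_lit 168) (nat_lit 5) (nat_lit 175)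 (nat_lit 5) (nat_lit 169) (nat_lit 5) (nat_lit 455) (nat_lit 373) (nat_lit 312)))) (XT.nd (nat_lit 156) (nat_lit 532) (nat_lit 0) (XT.nd (nat_lit 78) (nat_lit 456) (nat_lit 0) (XT.lf (nat_lit 0) (nat_lit 3570345022) (nat_lit 532) (nat_lit 1242820857) (nat_lit 76) (nat_lit 5445465898) (nat_lit 168) (nat_lit 5) (nat_lit 175) (nat_lit 5) (nat_lit 169) (nat_lit 5) (nat_lit 456) (nat_lit 373) (nat_lit 311)) (XT.lf (nat_lit 0) (nat_lit 4894451702) (nat_lit 456) (nat_lit 1515943051) (nat_lit 532) (nat_lit 3963723146) (nat_lit 162) (nat_lit 5) (nat_lit 168) (nat_lit 5) (nat_lit 169) (nat_lit 5) (nat_lit 457) (nat_lit 373) (nat_lit 310))) (XT.nd (nat_lit 78) (nat_lit 76) (nat_lit 0) (XT.lf (nat_lit 0) (nat_lit 631223637) (nat_lit 456) (nat_lit 8668520077) (nat_lit 532) (nat_lit 1192338213) (nat_lit 156) (nat_lit 5) (nat_lit 162) (nat_lit 5) (nat_lit 163) (nat_lit 5) (nat_lit 458) (nat_lit 373) (nat_lit 309)) (XT.lf (nat_lit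 0) (nat_lit 1628216172) (nat_lit 532) (nat_lit 3738678857) (nat_lit 76) (nat_lit 5245011843) (nat_lit 155) (nat_lit 5) (nat_lit 162) (nat_lit 5) (nat_lit 156) (nat_lit 5) (nat_lit 459) (nat_lit 373) (nat_lit 308))))) (XT.nd (nat_lit 234) (nat_lit 912) (nat_lit 0) (XT.nd (nat_lit 78) (nat_lit 380) (nat_lit 0) (XT.lf (nat_lit 0) (nat_lit 2486816193) (nat_lit 456) (nat_lit 1987309906) (nat_lit 532) (nat_lit 6260163494) (nat_lit 149) (nat_lit 5) (nat_lit 155) (nat_lit 5) (nat_lit 156) (nat_lit 5) (nat_lit 460) (nat_lit 373) (nat_lit 307)) (XT.nd (nat_lit 78) (nat_lit 380) (nat_lit 0) (XT.lf (nat_lit 0) (nat_lit 7380684091) (nat_lit 532) (nat_lit 2024874260) (nat_lit 76) (nat_lit 1453503787) (nat_lit 149) (nat_lit 5) (nat_lit 156) (nat_lit 5) (nat_lit 150) (nat_lit 5) (nat_lit 461) (nat_lit 373) (nat_lit 306)) (XT.lf (nat_lit 0) (nat_lit 4322459222) (nat_lit 380) (nat_lit 6033743979) (nat_lit 456) (nat_lit 629926769)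 (nat_lit 144) (nat_lit 5) (nat_lit 149) (nat_lit 5) (nat_lit 150) (nat_lit 5) (nat_lit 462) (nat_lit 373) (nat_lit 305)))) (XT.nd (nat_lit 156) (nat_lit 380) (nat_lit 0) (XT.nd (nat_lit 78) (nat_lit 456) (nat_lit 0) (XT.lf (nat_lit 0) (nat_lit 2229034632) (nat_lit 456) (nat_lit 349524666) (nat_lit 76) (nat_lit 8537232487) (nat_lit 143) (nat_lit 5) (nat_lit 149) (nat_lit 5) (nat_lit 144) (nat_lit 5) (nat_lit 463) (nat_lit 373) (nat_lit 304)) (XT.lf (nat_lit 0) (nat_lit 5153161520) (nat_lit 532) (nat_lit 5129598392) (nat_lit 76) (nat_lit 964890718) (nat_lit 137) (nat_lit 5) (nat_lit 144) (nat_lit 5) (nat_lit 138) (nat_lit 5) (nat_lit 464) (nat_lit 373) (nat_lit 303))) (XT.nd (nat_lit 78) (nat_lit 0) (nat_lit 0) (XT.lf (nat_lit 0) (nat_lit 1294738001) (nat_lit 380) (nat_lit 6839401993) (nat_lit 456) (nat_lit 3248054462) (nat_lit 132) (nat_lit 5) (nat_lit 137) (nat_lit 5) (nat_lit 138) (nat_lit 5) (nat_lit 465) (nat_lit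 373) (nat_lit 302)) (XT.lf (nat_lit 0) (nat_lit 7874606084) (nat_lit 380) (nat_lit 3305381510) (nat_lit 456) (nat_lit 339351462) (nat_lit 132) (nat_lit 5) (nat_lit 137) (nat_lit 5) (nat_lit 138) (nat_lit 5) (nat_lit 466) (nat_lit 373) (nat_lit 301)))))) (XT.nd (nat_lit 546) (nat_lit 1444) (nat_lit 0) (XT.nd (nat_lit 234) (nat_lit 760) (nat_lit 0) (XT.nd (nat_lit 78) (nat_lit 304) (nat_lit 0) (XT.lf (nat_lit 0) (nat_lit 2585222536) (nat_lit 456) (nat_lit 8755349806) (nat_lit 76) (nat_lit 318484173) (nat_lit 126) (nat_lit 5) (nat_lit 132) (nat_lit 5) (nat_lit 127) (nat_lit 5) (nat_lit 467) (nat_lit 373) (nat_lit 300)) (XT.nd (nat_lit 78) (nat_lit 304) (nat_lit 0) (XT.lf (nat_lit 0) (nat_lit 5581661231) (nat_lit 456) (nat_lit 2235131511) (nat_lit 76) (nat_lit 3984386406) (nat_lit 126) (nat_lit 5) (nat_lit 132) (nat_lit 5) (nat_lit 127) (nat_lit 5) (nat_lit 468) (nat_lit 373) (nat_lit 299)) (XT.lf (nat_lit 0) (nat_lit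 4432175248) (nat_lit 304) (nat_lit 4206593692) (nat_lit 380) (nat_lit 3307374241) (nat_lit 122) (nat_lit 5) (nat_lit 126) (nat_lit 5) (nat_lit 127) (nat_lit 5) (nat_lit 469) (nat_lit 373) (nat_lit 298)))) (XT.nd (nat_lit 156) (nat_lit 304) (nat_lit 0) (XT.nd (nat_lit 78) (nat_lit 456) (nat_lit 0) (XT.lf (nat_lit 0) (nat_lit 11221953925) (nat_lit 304) (nat_lit 522309824) (nat_lit 380) (nat_lit 350011333) (nat_lit 122) (nat_lit 5) (nat_lit 126) (nat_lit 5) (nat_lit 127) (nat_lit 5) (nat_lit 470) (nat_lit 373) (nat_lit 297)) (XT.lf (nat_lit 0) (nat_lit 2663862983) (nat_lit 456) (nat_lit 6344337057) (nat_lit 76) (nat_lit 3236189571) (nat_lit 116) (nat_lit 5) (nat_lit 122) (nat_lit 5) (nat_lit 117) (nat_lit 5) (nat_lit 471) (nat_lit 373) (nat_lit 296))) (XT.nd (nat_lit 78) (nat_lit 0) (nat_lit 0) (XT.lf (nat_lit 0) (nat_lit 380541628) (nat_lit 304) (nat_lit 5337397993) (nat_lit 380) (nat_lit 6679841015) (nat_lit 112)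 (nat_lit 5) (nat_lit 116) (nat_lit 5) (nat_lit 117) (nat_lit 5) (nat_lit 472) (nat_lit 373) (nat_lit 295)) (XT.lf (nat_lit 0) (nat_lit 7285243962) (nat_lit 304) (nat_lit 1563482098) (nat_lit 380) (nat_lit 3705213314) (nat_lit 112) (nat_lit 5) (nat_lit 116) (nat_lit 5) (nat_lit 117) (nat_lit 5) (nat_lit 473) (nat_lit 373) (nat_lit 294))))) (XT.nd (nat_lit 234) (nat_lit 684) (nat_lit 0) (XT.nd (nat_lit 78) (nat_lit 380) (nat_lit 0) (XT.lf (nat_lit 0) (nat_lit 1580375557) (nat_lit 380) (nat_lit 10460350563) (nat_lit 456) (nat_lit 672535421) (nat_lit 107) (nat_lit 5) (nat_lit 112) (nat_lit 5) (nat_lit 113) (nat_lit 5) (nat_lit 474) (nat_lit 373) (nat_lit 293)) (XT.nd (nat_lit 78) (nat_lit 304) (nat_lit 0) (XT.lf (nat_lit 0) (nat_lit 2408560247) (nat_lit 456) (nat_lit 4303948700) (nat_lit 76) (nat_lit 6162568327) (nat_lit 106) (nat_lit 5) (nat_lit 112) (nat_lit 5) (nat_lit 107) (nat_lit 5) (nat_lit 475) (nat_lit 373)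 (nat_lit 292)) (XT.lf (nat_lit 0) (nat_lit 2652264639) (nat_lit 304) (nat_lit 2881324214) (nat_lit 380) (nat_lit 7506636743) (nat_lit 102) (nat_lit 5) (nat_lit 106) (nat_lit 5) (nat_lit 107) (nat_lit 5) (nat_lit 476) (nat_lit 373) (nat_lit 291)))) (XT.nd (nat_lit 156) (nat_lit 380) (nat_lit 0) (XT.nd (nat_lit 78) (nat_lit 304) (nat_lit 0) (XT.lf (nat_lit 0) (nat_lit 8731106688) (nat_lit 380) (nat_lit 3448820176) (nat_lit 76) (nat_lit 1028561530) (nat_lit 102) (nat_lit 5) (nat_lit 107) (nat_lit 5) (nat_lit 103) (nat_lit 5) (nat_lit 477) (nat_lit 373) (nat_lit 290)) (XT.lf (nat_lit 0) (nat_lit 3618450549) (nat_lit 304) (nat_lit 8391455221) (nat_lit 380) (nat_lit 1369875122) (nat_lit 98) (nat_lit 5) (nat_lit 102) (nat_lit 5) (nat_lit 103) (nat_lit 5) (nat_lit 478) (nat_lit 373) (nat_lit 289))) (XT.nd (nat_lit 78) (nat_lit 304) (nat_lit 0) (XT.lf (nat_lit 0) (nat_lit 1774296675) (nat_lit 380) (nat_lit 2731175006)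 (nat_lit 76) (nat_lit 9048842092) (nat_lit 97) (nat_lit 5) (nat_lit 102) (nat_lit 5) (nat_lit 98) (nat_lit 5) (nat_lit 479) (nat_lit 373) (nat_lit 288)) (XT.lf (nat_lit 0) (nat_lit 4450531581) (nat_lit 304) (nat_lit 516707194) (nat_lit 380) (nat_lit 8764843273) (nat_lit 93) (nat_lit 5) (nat_lit 97) (nat_lit 5) (nat_lit 98) (nat_lit 5) (nat_lit 480) (nat_lit 373) (nat_lit 287))))))) (XT.nd (nat_lit 1092) (nat_lit 1520) (nat_lit 0) (XT.nd (nat_lit 546) (nat_lit 1140) (nat_lit 0) (XT.nd (nat_lit 234) (nat_lit 532) (nat_lit 0) (XT.nd (nat_lit 78) (nat_lit 380) (nat_lit 0) (XT.lf (nat_lit 0) (nat_lit 8241014124) (nat_lit 380) (nat_lit 2161834856) (nat_lit 76) (nat_lit 3510227440) (nat_lit 93) (nat_lit 5) (nat_lit 98) (nat_lit 5) (nat_lit 94) (nat_lit 5) (nat_lit 481) (nat_lit 373) (nat_lit 286)) (XT.nd (nat_lit 78) (nat_lit 76) (nat_lit 0) (XT.lf (nat_lit 0) (nat_lit 5126333411) (nat_lit 304) (nat_lit 6466582669)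 (nat_lit 380) (nat_lit 2504531596) (nat_lit 89) (nat_lit 5) (nat_lit 93) (nat_lit 5) (nat_lit 94) (nat_lit 5) (nat_lit 482) (nat_lit 373) (nat_lit 285)) (XT.lf (nat_lit 0) (nat_lit 707432947) (nat_lit 380) (nat_lit 1738291607) (nat_lit 76) (nat_lit 11839884925) (nat_lit 88) (nat_lit 5) (nat_lit 93) (nat_lit 5) (nat_lit 89) (nat_lit 5) (nat_lit 483) (nat_lit 373) (nat_lit 284)))) (XT.nd (nat_lit 156) (nat_lit 304) (nat_lit 0) (XT.nd (nat_lit 78) (nat_lit 0) (nat_lit 0) (XT.lf (nat_lit 0) (nat_lit 3974370049) (nat_lit 304) (nat_lit 8828222954) (nat_lit 76) (nat_lit 1674134478) (nat_lit 85) (nat_lit 5) (nat_lit 89) (nat_lit 5) (nat_lit 86) (nat_lit 5) (nat_lit 484) (nat_lit 373) (nat_lit 283)) (XT.lf (nat_lit 0) (nat_lit 7311195682) (nat_lit 304) (nat_lit 1518343219) (nat_lit 76) (nat_lit 5842047203) (nat_lit 85) (nat_lit 5) (nat_lit 89) (nat_lit 5) (nat_lit 86) (nat_lit 5) (nat_lit 485) (nat_lit 373) (nat_lit 282)))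 (XT.nd (nat_lit 78) (nat_lit 0) (nat_lit 0) (XT.lf (nat_lit 0) (nat_lit 5979654276) (nat_lit 304) (nat_lit 4750996880) (nat_lit 380) (nat_lit 4139381951) (nat_lit 81) (nat_lit 5) (nat_lit 85) (nat_lit 5) (nat_lit 86) (nat_lit 5) (nat_lit 486) (nat_lit 373) (nat_lit 281)) (XT.lf (nat_lit 0) (nat_lit 13611929347) (nat_lit 304) (nat_lit 594038891) (nat_lit 380) (nat_lit 866740259) (nat_lit 81) (nat_lit 5) (nat_lit 85) (nat_lit 5) (nat_lit 86) (nat_lit 5) (nat_lit 487) (nat_lit 373) (nat_lit 280))))) (XT.nd (nat_lit 234) (nat_lit 532) (nat_lit 0) (XT.nd (nat_lit 78) (nat_lit 304) (nat_lit 0) (XT.lf (nat_lit 0) (nat_lit 2480375551) (nat_lit 304) (nat_lit 9156616628) (nat_lit 76) (nat_lit 3641304181) (nat_lit 77) (nat_lit 5) (nat_lit 81) (nat_lit 5) (nat_lit 78) (nat_lit 5) (nat_lit 488) (nat_lit 373) (nat_lit 279)) (XT.nd (nat_lit 78) (nat_lit 304) (nat_lit 0) (XT.lf (nat_lit 0) (nat_lit 5874334780) (nat_lit 304)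 (nat_lit 1657939101) (nat_lit 76) (nat_lit 7955785765) (nat_lit 77) (nat_lit 5) (nat_lit 81) (nat_lit 5) (nat_lit 78) (nat_lit 5) (nat_lit 489) (nat_lit 373) (nat_lit 278)) (XT.lf (nat_lit 0) (nat_lit 6034572898) (nat_lit 304) (nat_lit 3318912470) (nat_lit 380) (nat_lit 6348194806) (nat_lit 73) (nat_lit 5) (nat_lit 77) (nat_lit 5) (nat_lit 78) (nat_lit 5) (nat_lit 490) (nat_lit 373) (nat_lit 277)))) (XT.nd (nat_lit 156) (nat_lit 228) (nat_lit 0) (XT.nd (nat_lit 78) (nat_lit 304) (nat_lit 0) (XT.lf (nat_lit 0) (nat_lit 12898018803) (nat_lit 380) (nat_lit 2057775772) (nat_lit 76) (nat_lit 963870598) (nat_lit 73) (nat_lit 5) (nat_lit 78) (nat_lit 5) (nat_lit 74) (nat_lit 5) (nat_lit 491) (nat_lit 373) (nat_lit 276)) (XT.lf (nat_lit 0) (nat_lit 404607970) (nat_lit 304) (nat_lit 10421826169) (nat_lit 76) (nat_lit 5314774319) (nat_lit 69) (nat_lit 5) (nat_lit 73) (nat_lit 5) (nat_lit 70) (nat_lit 5) (nat_lit 492) (nat_lit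 373) (nat_lit 275))) (XT.nd (nat_lit 78) (nat_lit 228) (nat_lit 0) (XT.lf (nat_lit 0) (nat_lit 3851584865) (nat_lit 304) (nat_lit 2741805338) (nat_lit 76) (nat_lit 9773547392) (nat_lit 69) (nat_lit 5) (nat_lit 73) (nat_lit 5) (nat_lit 70) (nat_lit 5) (nat_lit 493) (nat_lit 373) (nat_lit 274)) (XT.lf (nat_lit 0) (nat_lit 5124938479) (nat_lit 228) (nat_lit 2254973869) (nat_lit 304) (nat_lit 9217028188) (nat_lit 66) (nat_lit 5) (nat_lit 69) (nat_lit 5) (nat_lit 70) (nat_lit 5) (nat_lit 494) (nat_lit 373) (nat_lit 273)))))) (XT.nd (nat_lit 546) (nat_lit 760) (nat_lit 0) (XT.nd (nat_lit 234) (nat_lit 456) (nat_lit 0) (XT.nd (nat_lit 78) (nat_lit 304) (nat_lit 0) (XT.lf (nat_lit 0) (nat_lit 10990657722) (nat_lit 304) (nat_lit 3693407542) (nat_lit 76) (nat_lit 2147248545) (nat_lit 66) (nat_lit 5) (nat_lit 70) (nat_lit 5) (nat_lit 67) (nat_lit 5) (nat_lit 495) (nat_lit 373) (nat_lit 272)) (XT.nd (nat_lit 78) (nat_lit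 76) (nat_lit 0) (XT.lf (nat_lit 0) (nat_lit 4248006519) (nat_lit 228) (nat_lit 10447773105) (nat_lit 304) (nat_lit 2374158845) (nat_lit 63) (nat_lit 5) (nat_lit 66) (nat_lit 5) (nat_lit 67) (nat_lit 5) (nat_lit 496) (nat_lit 373) (nat_lit 271)) (XT.lf (nat_lit 0) (nat_lit 1151071138) (nat_lit 304) (nat_lit 4955820713) (nat_lit 76) (nat_lit 11206207036) (nat_lit 62) (nat_lit 5) (nat_lit 66) (nat_lit 5) (nat_lit 63) (nat_lit 5) (nat_lit 497) (nat_lit 373) (nat_lit 270)))) (XT.nd (nat_lit 156) (nat_lit 228) (nat_lit 0) (XT.nd (nat_lit 78) (nat_lit 0) (nat_lit 0) (XT.lf (nat_lit 0) (nat_lit 3059080527) (nat_lit 228) (nat_lit 1655914191) (nat_lit 304) (nat_lit 12845821095) (nat_lit 59) (nat_lit 5) (nat_lit 62) (nat_lit 5) (nat_lit 63) (nat_lit 5) (nat_lit 498) (nat_lit 373) (nat_lit 269)) (XT.lf (nat_lit 0) (nat_lit 8382580017) (nat_lit 304) (nat_lit 6563340418) (nat_lit 76) (nat_lit 2866925587) (nat_lit 59) (nat_lit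 5) (nat_lit 63) (nat_lit 5) (nat_lit 60) (nat_lit 5) (nat_lit 499) (nat_lit 373) (nat_lit 268))) (XT.nd (nat_lit 78) (nat_lit 0) (nat_lit 0) (XT.lf (nat_lit 0) (nat_lit 1510281194) (nat_lit 228) (nat_lit 10614577955) (nat_lit 304) (nat_lit 5945037326) (nat_lit 56) (nat_lit 5) (nat_lit 59) (nat_lit 5) (nat_lit 60) (nat_lit 5) (nat_lit 500) (nat_lit 373) (nat_lit 267)) (XT.lf (nat_lit 0) (nat_lit 9802173646) (nat_lit 228) (nat_lit 6164595862) (nat_lit 304) (nat_lit 2364829069) (nat_lit 56) (nat_lit 5) (nat_lit 59) (nat_lit 5) (nat_lit 60) (nat_lit 5) (nat_lit 501) (nat_lit 373) (nat_lit 266))))) (XT.nd (nat_lit 234) (nat_lit 456) (nat_lit 0) (XT.nd (nat_lit 78) (nat_lit 228) (nat_lit 0) (XT.lf (nat_lit 0) (nat_lit 1251092933) (nat_lit 304) (nat_lit 378784109) (nat_lit 76) (nat_lit 16968876894) (nat_lit 55) (nat_lit 5) (nat_lit 59) (nat_lit 5) (nat_lit 56) (nat_lit 5) (nat_lit 502) (nat_lit 373) (nat_lit 265)) (XT.nd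 (nat_lit 78) (nat_lit 0) (nat_lit 0) (XT.lf (nat_lit 0) (nat_lit 4960769259) (nat_lit 304) (nat_lit 10897232725) (nat_lit 76) (nat_lit 3011881756) (nat_lit 52) (nat_lit 5) (nat_lit 56) (nat_lit 5) (nat_lit 53) (nat_lit 5) (nat_lit 503) (nat_lit 373) (nat_lit 264)) (XT.lf (nat_lit 0) (nat_lit 8739436314) (nat_lit 304) (nat_lit 2692209711) (nat_lit 76) (nat_lit 7714900041) (nat_lit 52) (nat_lit 5) (nat_lit 56) (nat_lit 5) (nat_lit 53) (nat_lit 5) (nat_lit 504) (nat_lit 373) (nat_lit 263)))) (XT.nd (nat_lit 156) (nat_lit 304) (nat_lit 0) (XT.nd (nat_lit 78) (nat_lit 0) (nat_lit 0) (XT.lf (nat_lit 0) (nat_lit 5721299590) (nat_lit 152) (nat_lit 6891332064) (nat_lit 228) (nat_lit 6815736641) (nat_lit 50) (nat_lit 5) (nat_lit 52) (nat_lit 5) (nat_lit 53) (nat_lit 5) (nat_lit 505) (nat_lit 373) (nat_lit 262)) (XT.lf (nat_lit 0) (nat_lit 14309124287) (nat_lit 152) (nat_lit 2254200234) (nat_lit 228) (nat_lit 3152507416)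 (nat_lit 50) (nat_lit 5) (nat_lit 52) (nat_lit 5) (nat_lit 53) (nat_lit 5) (nat_lit 506) (nat_lit 373) (nat_lit 261))) (XT.nd (nat_lit 78) (nat_lit 0) (nat_lit 0) (XT.lf (nat_lit 0) (nat_lit 594583095) (nat_lit 304) (nat_lit 16959096603) (nat_lit 76) (nat_lit 2454929629) (nat_lit 46) (nat_lit 5) (nat_lit 50) (nat_lit 5) (nat_lit 47) (nat_lit 5) (nat_lit 507) (nat_lit 373) (nat_lit 260)) (XT.lf (nat_lit 0) (nat_lit 4408167349) (nat_lit 304) (nat_lit 8624590169) (nat_lit 76) (nat_lit 7273398020) (nat_lit 46) (nat_lit 5) (nat_lit 50) (nat_lit 5) (nat_lit 47) (nat_lit 5) (nat_lit 508) (nat_lit 373) (nat_lit 259))))))))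
noncomputable def xc86 : XT := (XT.nd (nat_lit 50778) (nat_lit 0) (nat_lit 22648) (XT.nd (nat_lit 1092) (nat_lit 380) (nat_lit 0) (XT.nd (nat_lit 546) (nat_lit 532) (nat_lit 0) (XT.nd (nat_lit 234) (nat_lit 456) (nat_lit 0) (XT.nd (nat_lit 78) (nat_lit 152) (nat_lit 0) (XT.lf (nat_lit 0) (nat_lit 8280644796) (nat_lit 304) (nat_lit 152976063) (nat_lit 76) (nat_lit 12176384597) (nat_lit 46) (nat_lit 5) (nat_lit 50) (nat_lit 5) (nat_lit 47) (nat_lit 5) (nat_lit 509) (nat_lit 373) (nat_lit 258)) (XT.nd (nat_lit 78) (nat_lit 0) (nat_lit 0) (XT.lf (nat_lit 0) (nat_lit 8571484476) (nat_lit 152) (nat_lit 3697701341) (nat_lit 228) (nat_lit 8649979385) (nat_lit 44) (nat_lit 5) (nat_lit 46) (nat_lit 5) (nat_lit 47) (nat_lit 5) (nat_lit 510) (nat_lit 373) (nat_lit 257)) (XT.lf (nat_lit 0) (nat_lit 16328918657) (nat_lit 228) (nat_lit 3798419358) (nat_lit 76) (nat_lit 1107346718) (nat_lit 44) (nat_lit 5) (nat_lit 47) (nat_lit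 5) (nat_lit 45) (nat_lit 5) (nat_lit 511) (nat_lit 373) (nat_lit 256)))) (XT.nd (nat_lit 156) (nat_lit 152) (nat_lit 0) (XT.nd (nat_lit 78) (nat_lit 76) (nat_lit 0) (XT.lf (nat_lit 0) (nat_lit 4933536476) (nat_lit 228) (nat_lit 15576194138) (nat_lit 304) (nat_lit 1045991261) (nat_lit 41) (nat_lit 5) (nat_lit 44) (nat_lit 5) (nat_lit 45) (nat_lit 5) (nat_lit 512) (nat_lit 373) (nat_lit 255)) (XT.lf (nat_lit 0) (nat_lit 2862114456) (nat_lit 304) (nat_lit 8038533696) (nat_lit 76) (nat_lit 10981979904) (nat_lit 40) (nat_lit 5) (nat_lit 44) (nat_lit 5) (nat_lit 41) (nat_lit 5) (nat_lit 513) (nat_lit 373) (nat_lit 254))) (XT.nd (nat_lit 78) (nat_lit 0) (nat_lit 0) (XT.lf (nat_lit 0) (nat_lit 690940692) (nat_lit 152) (nat_lit 6131653461) (nat_lit 228) (nat_lit 15393580203) (nat_lit 38) (nat_lit 5) (nat_lit 40) (nat_lit 5) (nat_lit 41) (nat_lit 5) (nat_lit 514) (nat_lit 373) (nat_lit 253)) (XT.lf (nat_lit 0) (nat_lit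 9676168057) (nat_lit 152) (nat_lit 1223915471) (nat_lit 228) (nat_lit 11655556589) (nat_lit 38) (nat_lit 5) (nat_lit 40) (nat_lit 5) (nat_lit 41) (nat_lit 5) (nat_lit 515) (nat_lit 373) (nat_lit 252))))) (XT.nd (nat_lit 234) (nat_lit 304) (nat_lit 0) (XT.nd (nat_lit 78) (nat_lit 228) (nat_lit 0) (XT.lf (nat_lit 0) (nat_lit 15067777404) (nat_lit 228) (nat_lit 4112852930) (nat_lit 76) (nat_lit 3721096215) (nat_lit 38) (nat_lit 5) (nat_lit 41) (nat_lit 5) (nat_lit 39) (nat_lit 5) (nat_lit 516) (nat_lit 373) (nat_lit 251)) (XT.nd (nat_lit 78) (nat_lit 76) (nat_lit 0) (XT.lf (nat_lit 0) (nat_lit 4857739984) (nat_lit 152) (nat_lit 14485141621) (nat_lit 228) (nat_lit 3911376336) (nat_lit 36) (nat_lit 5) (nat_lit 38) (nat_lit 5) (nat_lit 39) (nat_lit 5) (nat_lit 517) (nat_lit 373) (nat_lit 250)) (XT.lf (nat_lit 0) (nat_lit 100690909) (nat_lit 228) (nat_lit 9577554207) (nat_lit 76) (nat_lit 13935343020) (nat_lit 35) (nat_lit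 5) (nat_lit 38) (nat_lit 5) (nat_lit 36) (nat_lit 5) (nat_lit 518) (nat_lit 373) (nat_lit 249)))) (XT.nd (nat_lit 156) (nat_lit 152) (nat_lit 0) (XT.nd (nat_lit 78) (nat_lit 152) (nat_lit 0) (XT.lf (nat_lit 0) (nat_lit 4125416837) (nat_lit 228) (nat_lit 634581948) (nat_lit 76) (nat_lit 19219897363) (nat_lit 35) (nat_lit 5) (nat_lit 38) (nat_lit 5) (nat_lit 36) (nat_lit 5) (nat_lit 519) (nat_lit 373) (nat_lit 248)) (XT.lf (nat_lit 0) (nat_lit 8273308028) (nat_lit 228) (nat_lit 15780936248) (nat_lit 76) (nat_lit 298436659) (nat_lit 33) (nat_lit 5) (nat_lit 36) (nat_lit 5) (nat_lit 34) (nat_lit 5) (nat_lit 520) (nat_lit 373) (nat_lit 247))) (XT.nd (nat_lit 78) (nat_lit 152) (nat_lit 0) (XT.lf (nat_lit 0) (nat_lit 12525062573) (nat_lit 228) (nat_lit 6819595317) (nat_lit 76) (nat_lit 5387849366) (nat_lit 33) (nat_lit 5) (nat_lit 36) (nat_lit 5) (nat_lit 34) (nat_lit 5) (nat_lit 521) (nat_lit 373) (nat_lit 246)) (XT.lf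 (nat_lit 0) (nat_lit 2325980558) (nat_lit 152) (nat_lit 14536361477) (nat_lit 228) (nat_lit 8257582146) (nat_lit 31) (nat_lit 5) (nat_lit 33) (nat_lit 5) (nat_lit 34) (nat_lit 5) (nat_lit 522) (nat_lit 373) (nat_lit 245)))))) (XT.nd (nat_lit 49140) (nat_lit 0) (nat_lit 43092) (XT.nd (nat_lit 234) (nat_lit 152) (nat_lit 0) (XT.nd (nat_lit 78) (nat_lit 228) (nat_lit 0) (XT.lf (nat_lit 0) (nat_lit 11721579581) (nat_lit 152) (nat_lit 9596060650) (nat_lit 228) (nat_lit 4196827546) (nat_lit 31) (nat_lit 5) (nat_lit 33) (nat_lit 5) (nat_lit 34) (nat_lit 5) (nat_lit 523) (nat_lit 373) (nat_lit 244)) (XT.nd (nat_lit 78) (nat_lit 228) (nat_lit 0) (XT.lf (nat_lit 0) (nat_lit 21280257467) (nat_lit 152) (nat_lit 4567581110) (nat_lit 228) (nat_lit 69351507) (nat_lit 31) (nat_lit 5) (nat_lit 33) (nat_lit 5) (nat_lit 34) (nat_lit 5) (nat_lit 524) (nat_lit 373) (nat_lit 243)) (XT.lf (nat_lit 0) (nat_lit 4106899953) (nat_lit 228)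 (nat_lit 21618531508) (nat_lit 76) (nat_lit 601590643) (nat_lit 28) (nat_lit 5) (nat_lit 31) (nat_lit 5) (nat_lit 29) (nat_lit 5) (nat_lit 525) (nat_lit 373) (nat_lit 242)))) (XT.nd (nat_lit 156) (nat_lit 152) (nat_lit 0) (XT.nd (nat_lit 78) (nat_lit 0) (nat_lit 0) (XT.lf (nat_lit 0) (nat_lit 8413345537) (nat_lit 228) (nat_lit 12496253929) (nat_lit 76) (nat_lit 5834493681) (nat_lit 28) (nat_lit 5) (nat_lit 31) (nat_lit 5) (nat_lit 29) (nat_lit 5) (nat_lit 526) (nat_lit 373) (nat_lit 241)) (XT.lf (nat_lit 0) (nat_lit 12792219676) (nat_lit 228) (nat_lit 3215637052) (nat_lit 76) (nat_lit 11161926331) (nat_lit 28) (nat_lit 5) (nat_lit 31) (nat_lit 5) (nat_lit 29) (nat_lit 5) (nat_lit 527) (nat_lit 373) (nat_lit 240))) (XT.nd (nat_lit 78) (nat_lit 0) (nat_lit 0) (XT.lf (nat_lit 0) (nat_lit 6309711584) (nat_lit 152) (nat_lit 10976494824) (nat_lit 228) (nat_lit 10317233031) (nat_lit 26) (nat_lit 5) (nat_lit 28) (nat_lit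 5) (nat_lit 29) (nat_lit 5) (nat_lit 528) (nat_lit 373) (nat_lit 239)) (XT.lf (nat_lit 0) (nat_lit 16045677904) (nat_lit 152) (nat_lit 5832652797) (nat_lit 228) (nat_lit 6167276393) (nat_lit 26) (nat_lit 5) (nat_lit 28) (nat_lit 5) (nat_lit 29) (nat_lit 5) (nat_lit 529) (nat_lit 373) (nat_lit 238))))) (XT.nd (nat_lit 234) (nat_lit 1444) (nat_lit 0) (XT.nd (nat_lit 78) (nat_lit 532) (nat_lit 0) (XT.lf (nat_lit 0) (nat_lit 95245930) (nat_lit 532) (nat_lit 3066656558) (nat_lit 0) (nat_lit 95245930) (nat_lit 619) (nat_lit 5) (nat_lit 626) (nat_lit 4) (nat_lit 619) (nat_lit 4) (nat_lit 392) (nat_lit 374) (nat_lit 374)) (XT.nd (nat_lit 78) (nat_lit 532) (nat_lit 0) (XT.lf (nat_lit 0) (nat_lit 3201706980) (nat_lit 532) (nat_lit 2580938921) (nat_lit 0) (nat_lit 744157019) (nat_lit 619) (nat_lit 5) (nat_lit 626) (nat_lit 4) (nat_lit 619) (nat_lit 4) (nat_lit 393) (nat_lit 374) (nat_lit 373)) (XT.lf (nat_lit 0) (nat_lit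 1007818763) (nat_lit 532) (nat_lit 5200028351) (nat_lit 532) (nat_lit 333115684) (nat_lit 612) (nat_lit 4) (nat_lit 619) (nat_lit 5) (nat_lit 619) (nat_lit 4) (nat_lit 394) (nat_lit 374) (nat_lit 372)))) (XT.nd (nat_lit 156) (nat_lit 760) (nat_lit 0) (XT.nd (nat_lit 78) (nat_lit 608) (nat_lit 0) (XT.lf (nat_lit 0) (nat_lit 2629176159) (nat_lit 608) (nat_lit 1918097125) (nat_lit 76) (nat_lit 2008950884) (nat_lit 611) (nat_lit 5) (nat_lit 619) (nat_lit 5) (nat_lit 612) (nat_lit 4) (nat_lit 395) (nat_lit 374) (nat_lit 371)) (XT.lf (nat_lit 0) (nat_lit 1742239325) (nat_lit 608) (nat_lit 3845422312) (nat_lit 684) (nat_lit 985348979) (nat_lit 603) (nat_lit 5) (nat_lit 611) (nat_lit 5) (nat_lit 612) (nat_lit 4) (nat_lit 396) (nat_lit 374) (nat_lit 370))) (XT.nd (nat_lit 78) (nat_lit 684) (nat_lit 0) (XT.lf (nat_lit 0) (nat_lit 1932321866) (nat_lit 684) (nat_lit 1149613925) (nat_lit 76) (nat_lit 3509152456) (nat_lit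 602) (nat_lit 5) (nat_lit 611) (nat_lit 5) (nat_lit 603) (nat_lit 5) (nat_lit 397) (nat_lit 374) (nat_lit 369)) (XT.lf (nat_lit 0) (nat_lit 2585141556) (nat_lit 684) (nat_lit 2258778765) (nat_lit 760) (nat_lit 1766588229) (nat_lit 593) (nat_lit 5) (nat_lit 602) (nat_lit 5) (nat_lit 603) (nat_lit 5) (nat_lit 398) (nat_lit 374) (nat_lit 368))))))) (XT.nd (nat_lit 1092) (nat_lit 11780) (nat_lit 0) (XT.nd (nat_lit 546) (nat_lit 4940) (nat_lit 0) (XT.nd (nat_lit 234) (nat_lit 1976) (nat_lit 0) (XT.nd (nat_lit 78) (nat_lit 1672) (nat_lit 0) (XT.lf (nat_lit 0) (nat_lit 1108149878) (nat_lit 760) (nat_lit 275795289) (nat_lit 76) (nat_lit 5247497048) (nat_lit 592) (nat_lit 5) (nat_lit 602) (nat_lit 5) (nat_lit 593) (nat_lit 5) (nat_lit 399) (nat_lit 374) (nat_lit 367)) (XT.nd (nat_lit 78) (nat_lit 912) (nat_lit 0) (XT.lf (nat_lit 0) (nat_lit 3536317581) (nat_lit 760) (nat_lit 437188598) (nat_lit 836) (nat_lit 2680001011)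 (nat_lit 582) (nat_lit 5) (nat_lit 592) (nat_lit 5) (nat_lit 593) (nat_lit 5) (nat_lit 400) (nat_lit 374) (nat_lit 366)) (XT.lf (nat_lit 0) (nat_lit 161637571) (nat_lit 912) (nat_lit 5968282275) (nat_lit 76) (nat_lit 547256219) (nat_lit 570) (nat_lit 5) (nat_lit 582) (nat_lit 5) (nat_lit 571) (nat_lit 5) (nat_lit 401) (nat_lit 374) (nat_lit 365)))) (XT.nd (nat_lit 156) (nat_lit 1064) (nat_lit 0) (XT.nd (nat_lit 78) (nat_lit 912) (nat_lit 0) (XT.lf (nat_lit 0) (nat_lit 2983580791) (nat_lit 912) (nat_lit 2116871043) (nat_lit 76) (nat_lit 1601402072) (nat_lit 570) (nat_lit 5) (nat_lit 582) (nat_lit 5) (nat_lit 571) (nat_lit 5) (nat_lit 402) (nat_lit 374) (nat_lit 364)) (XT.lf (nat_lit 0) (nat_lit 1787023092) (nat_lit 912) (nat_lit 4023181276) (nat_lit 988) (nat_lit 917931621) (nat_lit 558) (nat_lit 5) (nat_lit 570) (nat_lit 5) (nat_lit 571) (nat_lit 5) (nat_lit 403) (nat_lit 374) (nat_lit 363))) (XT.nd (nat_lit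 78) (nat_lit 988) (nat_lit 0) (XT.lf (nat_lit 0) (nat_lit 1864378761) (nat_lit 988) (nat_lit 1018224777) (nat_lit 76) (nat_lit 3873133354) (nat_lit 557) (nat_lit 5) (nat_lit 570) (nat_lit 5) (nat_lit 558) (nat_lit 5) (nat_lit 404) (nat_lit 374) (nat_lit 362)) (XT.lf (nat_lit 0) (nat_lit 2968349525) (nat_lit 988) (nat_lit 1679297674) (nat_lit 1064) (nat_lit 2137040365) (nat_lit 544) (nat_lit 5) (nat_lit 557) (nat_lit 5) (nat_lit 558) (nat_lit 5) (nat_lit 405) (nat_lit 374) (nat_lit 361))))) (XT.nd (nat_lit 234) (nat_lit 2660) (nat_lit 0) (XT.nd (nat_lit 78) (nat_lit 1140) (nat_lit 0) (XT.lf (nat_lit 0) (nat_lit 184189956) (nat_lit 1064) (nat_lit 426179463) (nat_lit 1140) (nat_lit 6204892441) (nat_lit 529) (nat_lit 5) (nat_lit 543) (nat_lit 5) (nat_lit 544) (nat_lit 5) (nat_lit 406) (nat_lit 374) (nat_lit 360)) (XT.nd (nat_lit 78) (nat_lit 1140) (nat_lit 0) (XT.lf (nat_lit 0) (nat_lit 3355171257) (nat_lit 1140)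 (nat_lit 2598559746) (nat_lit 76) (nat_lit 893080002) (nat_lit 529) (nat_lit 5) (nat_lit 544) (nat_lit 5) (nat_lit 530) (nat_lit 5) (nat_lit 407) (nat_lit 374) (nat_lit 359)) (XT.lf (nat_lit 0) (nat_lit 1482964590) (nat_lit 1140) (nat_lit 4625258334) (nat_lit 1216) (nat_lit 771766873) (nat_lit 514) (nat_lit 5) (nat_lit 529) (nat_lit 5) (nat_lit 530) (nat_lit 5) (nat_lit 408) (nat_lit 374) (nat_lit 358)))) (XT.nd (nat_lit 156) (nat_lit 1368) (nat_lit 0) (XT.nd (nat_lit 78) (nat_lit 1216) (nat_lit 0) (XT.lf (nat_lit 0) (nat_lit 1935094568) (nat_lit 1216) (nat_lit 1294047663) (nat_lit 76) (nat_lit 3685316004) (nat_lit 513) (nat_lit 5) (nat_lit 529) (nat_lit 5) (nat_lit 514) (nat_lit 5) (nat_lit 409) (nat_lit 374) (nat_lit 357)) (XT.lf (nat_lit 0) (nat_lit 2875760424) (nat_lit 1216) (nat_lit 1771131934) (nat_lit 1292) (nat_lit 2303460943) (nat_lit 497) (nat_lit 5) (nat_lit 513) (nat_lit 5) (nat_lit 514) (nat_lit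 5) (nat_lit 410) (nat_lit 374) (nat_lit 356))) (XT.nd (nat_lit 78) (nat_lit 0) (nat_lit 0) (XT.lf (nat_lit 0) (nat_lit 109994102) (nat_lit 1292) (nat_lit 262670913) (nat_lit 1368) (nat_lit 6615259650) (nat_lit 479) (nat_lit 5) (nat_lit 496) (nat_lit 5) (nat_lit 497) (nat_lit 5) (nat_lit 411) (nat_lit 374) (nat_lit 355)) (XT.lf (nat_lit 0) (nat_lit 3051006603) (nat_lit 1368) (nat_lit 2665175927) (nat_lit 76) (nat_lit 1310228057) (nat_lit 479) (nat_lit 5) (nat_lit 497) (nat_lit 5) (nat_lit 480) (nat_lit 5) (nat_lit 412) (nat_lit 374) (nat_lit 354)))))) (XT.nd (nat_lit 546) (nat_lit 5624) (nat_lit 0) (XT.nd (nat_lit 234) (nat_lit 3268) (nat_lit 0) (XT.nd (nat_lit 78) (nat_lit 1520) (nat_lit 0) (XT.lf (nat_lit 0) (nat_lit 1602821269) (nat_lit 1368) (nat_lit 4137043306) (nat_lit 1444) (nat_lit 1326719891) (nat_lit 461) (nat_lit 5) (nat_lit 479) (nat_lit 5) (nat_lit 480) (nat_lit 5) (nat_lit 413) (nat_lit 374) (nat_lit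 353)) (XT.nd (nat_lit 78) (nat_lit 1444) (nat_lit 0) (XT.lf (nat_lit 0) (nat_lit 1320066917) (nat_lit 1444) (nat_lit 1172704386) (nat_lit 76) (nat_lit 4615403757) (nat_lit 460) (nat_lit 5) (nat_lit 479) (nat_lit 5) (nat_lit 461) (nat_lit 5) (nat_lit 414) (nat_lit 374) (nat_lit 352)) (XT.lf (nat_lit 0) (nat_lit 3189414833) (nat_lit 1444) (nat_lit 779567992) (nat_lit 1520) (nat_lit 3182154016) (nat_lit 441) (nat_lit 5) (nat_lit 460) (nat_lit 5) (nat_lit 461) (nat_lit 5) (nat_lit 415) (nat_lit 374) (nat_lit 351)))) (XT.nd (nat_lit 156) (nat_lit 1672) (nat_lit 0) (XT.nd (nat_lit 78) (nat_lit 76) (nat_lit 0) (XT.lf (nat_lit 0) (nat_lit 410277814) (nat_lit 1520) (nat_lit 6224484413) (nat_lit 1596) (nat_lit 560970801) (nat_lit 421) (nat_lit 5) (nat_lit 441) (nat_lit 5) (nat_lit 442) (nat_lit 5) (nat_lit 416) (nat_lit 374) (nat_lit 350)) (XT.lf (nat_lit 0) (nat_lit 2064195980) (nat_lit 1596) (nat_lit 2385394594) (nat_lit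 76) (nat_lit 2791821699) (nat_lit 420) (nat_lit 5) (nat_lit 441) (nat_lit 5) (nat_lit 421) (nat_lit 5) (nat_lit 417) (nat_lit 374) (nat_lit 349))) (XT.nd (nat_lit 78) (nat_lit 76) (nat_lit 0) (XT.lf (nat_lit 0) (nat_lit 2078099414) (nat_lit 1596) (nat_lit 2618130688) (nat_lit 1672) (nat_lit 2592513158) (nat_lit 399) (nat_lit 5) (nat_lit 420) (nat_lit 5) (nat_lit 421) (nat_lit 5) (nat_lit 418) (nat_lit 374) (nat_lit 348)) (XT.lf (nat_lit 0) (nat_lit 8114243) (nat_lit 1672) (nat_lit 722414374) (nat_lit 76) (nat_lit 6607238323) (nat_lit 398) (nat_lit 5) (nat_lit 420) (nat_lit 5) (nat_lit 399) (nat_lit 5) (nat_lit 419) (nat_lit 374) (nat_lit 347))))) (XT.nd (nat_lit 234) (nat_lit 2584) (nat_lit 0) (XT.nd (nat_lit 78) (nat_lit 1368) (nat_lit 0) (XT.lf (nat_lit 0) (nat_lit 2608765362) (nat_lit 1748) (nat_lit 3554816382) (nat_lit 76) (nat_lit 1224239073) (nat_lit 376) (nat_lit 5) (nat_lit 399) (nat_lit 5) (nat_lit 377)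 (nat_lit 5) (nat_lit 420) (nat_lit 374) (nat_lit 346)) (XT.nd (nat_lit 78) (nat_lit 76) (nat_lit 0) (XT.lf (nat_lit 0) (nat_lit 1010619577) (nat_lit 1292) (nat_lit 4217482723) (nat_lit 1368) (nat_lit 2211486042) (nat_lit 359) (nat_lit 5) (nat_lit 376) (nat_lit 5) (nat_lit 377) (nat_lit 5) (nat_lit 421) (nat_lit 374) (nat_lit 345)) (XT.lf (nat_lit 0) (nat_lit 376789612) (nat_lit 1368) (nat_lit 1827858645) (nat_lit 76) (nat_lit 5288240327) (nat_lit 358) (nat_lit 5) (nat_lit 376) (nat_lit 5) (nat_lit 359) (nat_lit 5) (nat_lit 422) (nat_lit 374) (nat_lit 344)))) (XT.nd (nat_lit 156) (nat_lit 1748) (nat_lit 0) (XT.nd (nat_lit 78) (nat_lit 0) (nat_lit 0) (XT.lf (nat_lit 0) (nat_lit 2840139829) (nat_lit 836) (nat_lit 117199616) (nat_lit 912) (nat_lit 4590263993) (nat_lit 347) (nat_lit 5) (nat_lit 358) (nat_lit 5) (nat_lit 359) (nat_lit 5) (nat_lit 423) (nat_lit 374) (nat_lit 343)) (XT.lf (nat_lit 0) (nat_lit 5567205266)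 (nat_lit 912) (nat_lit 38457991) (nat_lit 76) (nat_lit 1998237755) (nat_lit 347) (nat_lit 5) (nat_lit 359) (nat_lit 5) (nat_lit 348) (nat_lit 5) (nat_lit 424) (nat_lit 374) (nat_lit 342))) (XT.nd (nat_lit 78) (nat_lit 836) (nat_lit 0) (XT.lf (nat_lit 0) (nat_lit 545120400) (nat_lit 912) (nat_lit 2927440500) (nat_lit 76) (nat_lit 4189038258) (nat_lit 335) (nat_lit 5) (nat_lit 347) (nat_lit 5) (nat_lit 336) (nat_lit 5) (nat_lit 425) (nat_lit 374) (nat_lit 341)) (XT.lf (nat_lit 0) (nat_lit 1845195172) (nat_lit 836) (nat_lit 1271866726) (nat_lit 912) (nat_lit 4603844979) (nat_lit 324) (nat_lit 5) (nat_lit 335) (nat_lit 5) (nat_lit 336) (nat_lit 5) (nat_lit 426) (nat_lit 374) (nat_lit 340))))))))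
noncomputable def xc87 : XT := (XT.nd (nat_lit 2184) (nat_lit 6536) (nat_lit 0) (XT.nd (nat_lit 1092) (nat_lit 5244) (nat_lit 0) (XT.nd (nat_lit 546) (nat_lit 2888) (nat_lit 0) (XT.nd (nat_lit 234) (nat_lit 1520) (nat_lit 0) (XT.nd (nat_lit 78) (nat_lit 1672) (nat_lit 0) (XT.lf (nat_lit 0) (nat_lit 5720621242) (nat_lit 912) (nat_lit 1082938810) (nat_lit 76) (nat_lit 978276404) (nat_lit 324) (nat_lit 5) (nat_lit 336) (nat_lit 5) (nat_lit 325) (nat_lit 5) (nat_lit 427) (nat_lit 374) (nat_lit 339)) (XT.nd (nat_lit 78) (nat_lit 760) (nat_lit 0) (XT.lf (nat_lit 0) (nat_lit 513250051) (nat_lit 912) (nat_lit 4048039470) (nat_lit 76) (nat_lit 3282904474) (nat_lit 312) (nat_lit 5) (nat_lit 324) (nat_lit 5) (nat_lit 313) (nat_lit 5) (nat_lit 428) (nat_lit 374) (nat_lit 338)) (XT.lf (nat_lit 0) (nat_lit 829212871) (nat_lit 760) (nat_lit 2250349723) (nat_lit 836) (nat_lit 4828641467) (nat_lit 302) (nat_lit 5) (nat_lit 312)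 (nat_lit 5) (nat_lit 313) (nat_lit 5) (nat_lit 429) (nat_lit 374) (nat_lit 337)))) (XT.nd (nat_lit 156) (nat_lit 684) (nat_lit 0) (XT.nd (nat_lit 78) (nat_lit 836) (nat_lit 0) (XT.lf (nat_lit 0) (nat_lit 5681019942) (nat_lit 836) (nat_lit 2163345832) (nat_lit 76) (nat_lit 129488474) (nat_lit 302) (nat_lit 5) (nat_lit 313) (nat_lit 5) (nat_lit 303) (nat_lit 5) (nat_lit 430) (nat_lit 374) (nat_lit 336)) (XT.lf (nat_lit 0) (nat_lit 279629683) (nat_lit 836) (nat_lit 5217585739) (nat_lit 76) (nat_lit 2543802917) (nat_lit 291) (nat_lit 5) (nat_lit 302) (nat_lit 5) (nat_lit 292) (nat_lit 5) (nat_lit 431) (nat_lit 374) (nat_lit 335))) (XT.nd (nat_lit 78) (nat_lit 684) (nat_lit 0) (XT.lf (nat_lit 0) (nat_lit 2844357721) (nat_lit 836) (nat_lit 232994465) (nat_lit 76) (nat_lit 5032474297) (nat_lit 291) (nat_lit 5) (nat_lit 302) (nat_lit 5) (nat_lit 292) (nat_lit 5) (nat_lit 432) (nat_lit 374) (nat_lit 334)) (XT.lf (nat_lit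 0) (nat_lit 4868323901) (nat_lit 684) (nat_lit 581384207) (nat_lit 760) (nat_lit 2730549654) (nat_lit 282) (nat_lit 5) (nat_lit 291) (nat_lit 5) (nat_lit 292) (nat_lit 5) (nat_lit 433) (nat_lit 374) (nat_lit 333))))) (XT.nd (nat_lit 234) (nat_lit 1368) (nat_lit 0) (XT.nd (nat_lit 78) (nat_lit 760) (nat_lit 0) (XT.lf (nat_lit 0) (nat_lit 1786077273) (nat_lit 760) (nat_lit 6305228991) (nat_lit 836) (nat_lit 161141461) (nat_lit 272) (nat_lit 5) (nat_lit 282) (nat_lit 5) (nat_lit 283) (nat_lit 5) (nat_lit 434) (nat_lit 374) (nat_lit 332)) (XT.nd (nat_lit 78) (nat_lit 684) (nat_lit 0) (XT.lf (nat_lit 0) (nat_lit 2412042765) (nat_lit 836) (nat_lit 1362276773) (nat_lit 76) (nat_lit 4551781216) (nat_lit 271) (nat_lit 5) (nat_lit 282) (nat_lit 5) (nat_lit 272) (nat_lit 5) (nat_lit 435) (nat_lit 374) (nat_lit 331)) (XT.lf (nat_lit 0) (nat_lit 3846598660) (nat_lit 684) (nat_lit 1172150683) (nat_lit 760) (nat_lit 3382802848)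 (nat_lit 262) (nat_lit 5) (nat_lit 271) (nat_lit 5) (nat_lit 272) (nat_lit 5) (nat_lit 436) (nat_lit 374) (nat_lit 330)))) (XT.nd (nat_lit 156) (nat_lit 608) (nat_lit 0) (XT.nd (nat_lit 78) (nat_lit 76) (nat_lit 0) (XT.lf (nat_lit 0) (nat_lit 651478388) (nat_lit 684) (nat_lit 7008864261) (nat_lit 760) (nat_lit 818545324) (nat_lit 253) (nat_lit 5) (nat_lit 262) (nat_lit 5) (nat_lit 263) (nat_lit 5) (nat_lit 437) (nat_lit 374) (nat_lit 329)) (XT.lf (nat_lit 0) (nat_lit 1771851579) (nat_lit 760) (nat_lit 2600431403) (nat_lit 76) (nat_lit 4185314888) (nat_lit 252) (nat_lit 5) (nat_lit 262) (nat_lit 5) (nat_lit 253) (nat_lit 5) (nat_lit 438) (nat_lit 374) (nat_lit 328))) (XT.nd (nat_lit 78) (nat_lit 0) (nat_lit 0) (XT.lf (nat_lit 0) (nat_lit 2714777679) (nat_lit 608) (nat_lit 1666632280) (nat_lit 684) (nat_lit 4256826135) (nat_lit 244) (nat_lit 5) (nat_lit 252) (nat_lit 5) (nat_lit 253) (nat_lit 5) (nat_lit 439) (nat_lit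 374) (nat_lit 327)) (XT.lf (nat_lit 0) (nat_lit 7028923673) (nat_lit 684) (nat_lit 602754717) (nat_lit 76) (nat_lit 1089121464) (nat_lit 244) (nat_lit 5) (nat_lit 253) (nat_lit 5) (nat_lit 245) (nat_lit 5) (nat_lit 440) (nat_lit 374) (nat_lit 326)))))) (XT.nd (nat_lit 546) (nat_lit 2204) (nat_lit 0) (XT.nd (nat_lit 234) (nat_lit 1748) (nat_lit 0) (XT.nd (nat_lit 78) (nat_lit 608) (nat_lit 0) (XT.lf (nat_lit 0) (nat_lit 916515412) (nat_lit 684) (nat_lit 3980329858) (nat_lit 76) (nat_lit 3907991235) (nat_lit 235) (nat_lit 5) (nat_lit 244) (nat_lit 5) (nat_lit 236) (nat_lit 5) (nat_lit 441) (nat_lit 374) (nat_lit 325)) (XT.nd (nat_lit 78) (nat_lit 0) (nat_lit 0) (XT.lf (nat_lit 0) (nat_lit 1439405664) (nat_lit 608) (nat_lit 2090491758) (nat_lit 684) (nat_lit 5360949702) (nat_lit 227) (nat_lit 5) (nat_lit 235) (nat_lit 5) (nat_lit 236) (nat_lit 5) (nat_lit 442) (nat_lit 374) (nat_lit 324)) (XT.lf (nat_lit 0) (nat_lit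 6189876073) (nat_lit 684) (nat_lit 2008411664) (nat_lit 76) (nat_lit 780429558) (nat_lit 227) (nat_lit 5) (nat_lit 236) (nat_lit 5) (nat_lit 228) (nat_lit 5) (nat_lit 443) (nat_lit 374) (nat_lit 323)))) (XT.nd (nat_lit 156) (nat_lit 1064) (nat_lit 0) (XT.nd (nat_lit 78) (nat_lit 76) (nat_lit 0) (XT.lf (nat_lit 0) (nat_lit 3530179354) (nat_lit 608) (nat_lit 5372805936) (nat_lit 684) (nat_lit 165386372) (nat_lit 219) (nat_lit 5) (nat_lit 227) (nat_lit 5) (nat_lit 228) (nat_lit 5) (nat_lit 444) (nat_lit 374) (nat_lit 322)) (XT.lf (nat_lit 0) (nat_lit 2454506016) (nat_lit 684) (nat_lit 15136913) (nat_lit 76) (nat_lit 6690336717) (nat_lit 218) (nat_lit 5) (nat_lit 227) (nat_lit 5) (nat_lit 219) (nat_lit 5) (nat_lit 445) (nat_lit 374) (nat_lit 321))) (XT.nd (nat_lit 78) (nat_lit 532) (nat_lit 0) (XT.lf (nat_lit 0) (nat_lit 5128672614) (nat_lit 608) (nat_lit 3610517564) (nat_lit 76) (nat_lit 514149877) (nat_lit 211)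 (nat_lit 5) (nat_lit 219) (nat_lit 5) (nat_lit 212) (nat_lit 5) (nat_lit 446) (nat_lit 374) (nat_lit 320)) (XT.lf (nat_lit 0) (nat_lit 2030412575) (nat_lit 532) (nat_lit 5819951544) (nat_lit 608) (nat_lit 1498346197) (nat_lit 204) (nat_lit 5) (nat_lit 211) (nat_lit 5) (nat_lit 212) (nat_lit 5) (nat_lit 447) (nat_lit 374) (nat_lit 319))))) (XT.nd (nat_lit 234) (nat_lit 1064) (nat_lit 0) (XT.nd (nat_lit 78) (nat_lit 1064) (nat_lit 0) (XT.lf (nat_lit 0) (nat_lit 1153958335) (nat_lit 608) (nat_lit 1665861700) (nat_lit 76) (nat_lit 6626258432) (nat_lit 203) (nat_lit 5) (nat_lit 211) (nat_lit 5) (nat_lit 204) (nat_lit 5) (nat_lit 448) (nat_lit 374) (nat_lit 318)) (XT.nd (nat_lit 78) (nat_lit 532) (nat_lit 0) (XT.lf (nat_lit 0) (nat_lit 3832859331) (nat_lit 608) (nat_lit 5448403524) (nat_lit 76) (nat_lit 264082902) (nat_lit 196) (nat_lit 5) (nat_lit 204) (nat_lit 5) (nat_lit 197) (nat_lit 5) (nat_lit 449) (nat_lit 374)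 (nat_lit 317)) (XT.lf (nat_lit 0) (nat_lit 291188946) (nat_lit 532) (nat_lit 6271540054) (nat_lit 608) (nat_lit 3083943269) (nat_lit 189) (nat_lit 5) (nat_lit 196) (nat_lit 5) (nat_lit 197) (nat_lit 5) (nat_lit 450) (nat_lit 374) (nat_lit 316)))) (XT.nd (nat_lit 156) (nat_lit 532) (nat_lit 0) (XT.nd (nat_lit 78) (nat_lit 532) (nat_lit 0) (XT.lf (nat_lit 0) (nat_lit 6174634123) (nat_lit 532) (nat_lit 3175080722) (nat_lit 608) (nat_lit 400281354) (nat_lit 189) (nat_lit 5) (nat_lit 196) (nat_lit 5) (nat_lit 197) (nat_lit 5) (nat_lit 451) (nat_lit 374) (nat_lit 315)) (XT.lf (nat_lit 0) (nat_lit 2287680385) (nat_lit 532) (nat_lit 7564648913) (nat_lit 76) (nat_lit 3148721) (nat_lit 182) (nat_lit 5) (nat_lit 189) (nat_lit 5) (nat_lit 183) (nat_lit 5) (nat_lit 452) (nat_lit 374) (nat_lit 314))) (XT.nd (nat_lit 78) (nat_lit 532) (nat_lit 0) (XT.lf (nat_lit 0) (nat_lit 5035910580) (nat_lit 532) (nat_lit 1708322399) (nat_lit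 76) (nat_lit 3218566238) (nat_lit 182) (nat_lit 5) (nat_lit 189) (nat_lit 5) (nat_lit 183) (nat_lit 5) (nat_lit 453) (nat_lit 374) (nat_lit 313)) (XT.lf (nat_lit 0) (nat_lit 4277401025) (nat_lit 532) (nat_lit 3556814805) (nat_lit 608) (nat_lit 2238168444) (nat_lit 175) (nat_lit 5) (nat_lit 182) (nat_lit 5) (nat_lit 183) (nat_lit 5) (nat_lit 454) (nat_lit 374) (nat_lit 312))))))) (XT.nd (nat_lit 1092) (nat_lit 2812) (nat_lit 0) (XT.nd (nat_lit 546) (nat_lit 1748) (nat_lit 0) (XT.nd (nat_lit 234) (nat_lit 988) (nat_lit 0) (XT.nd (nat_lit 78) (nat_lit 456) (nat_lit 0) (XT.lf (nat_lit 0) (nat_lit 177044115) (nat_lit 456) (nat_lit 300820373) (nat_lit 532) (nat_lit 9706646883) (nat_lit 168) (nat_lit 5) (nat_lit 174) (nat_lit 5) (nat_lit 175) (nat_lit 5) (nat_lit 455) (nat_lit 374) (nat_lit 311)) (XT.nd (nat_lit 78) (nat_lit 456) (nat_lit 0) (XT.lf (nat_lit 0) (nat_lit 3244774639) (nat_lit 532) (nat_lit 4030017680)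 (nat_lit 76) (nat_lit 3023280802) (nat_lit 168) (nat_lit 5) (nat_lit 175) (nat_lit 5) (nat_lit 169) (nat_lit 5) (nat_lit 456) (nat_lit 374) (nat_lit 310)) (XT.lf (nat_lit 0) (nat_lit 2048433312) (nat_lit 456) (nat_lit 4002257096) (nat_lit 532) (nat_lit 4363560498) (nat_lit 162) (nat_lit 5) (nat_lit 168) (nat_lit 5) (nat_lit 169) (nat_lit 5) (nat_lit 457) (nat_lit 374) (nat_lit 309)))) (XT.nd (nat_lit 156) (nat_lit 456) (nat_lit 0) (XT.nd (nat_lit 78) (nat_lit 532) (nat_lit 0) (XT.lf (nat_lit 0) (nat_lit 8259945982) (nat_lit 456) (nat_lit 648537517) (nat_lit 532) (nat_lit 1624371360) (nat_lit 162) (nat_lit 5) (nat_lit 168) (nat_lit 5) (nat_lit 169) (nat_lit 5) (nat_lit 458) (nat_lit 374) (nat_lit 308)) (XT.lf (nat_lit 0) (nat_lit 1167115252) (nat_lit 532) (nat_lit 6728680627) (nat_lit 76) (nat_lit 2757643171) (nat_lit 155) (nat_lit 5) (nat_lit 162) (nat_lit 5) (nat_lit 156) (nat_lit 5) (nat_lit 459) (nat_lit 374)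 (nat_lit 307))) (XT.nd (nat_lit 78) (nat_lit 456) (nat_lit 0) (XT.lf (nat_lit 0) (nat_lit 3981711618) (nat_lit 532) (nat_lit 557081307) (nat_lit 76) (nat_lit 6237663417) (nat_lit 155) (nat_lit 5) (nat_lit 162) (nat_lit 5) (nat_lit 156) (nat_lit 5) (nat_lit 460) (nat_lit 374) (nat_lit 306)) (XT.lf (nat_lit 0) (nat_lit 5771500150) (nat_lit 456) (nat_lit 1088534567) (nat_lit 532) (nat_lit 4041767005) (nat_lit 149) (nat_lit 5) (nat_lit 155) (nat_lit 5) (nat_lit 156) (nat_lit 5) (nat_lit 461) (nat_lit 374) (nat_lit 305))))) (XT.nd (nat_lit 234) (nat_lit 836) (nat_lit 0) (XT.nd (nat_lit 78) (nat_lit 532) (nat_lit 0) (XT.lf (nat_lit 0) (nat_lit 1161655528) (nat_lit 380) (nat_lit 8631556639) (nat_lit 456) (nat_lit 1236512198) (nat_lit 144) (nat_lit 5) (nat_lit 149) (nat_lit 5) (nat_lit 150) (nat_lit 5) (nat_lit 462) (nat_lit 374) (nat_lit 304)) (XT.nd (nat_lit 78) (nat_lit 456) (nat_lit 0) (XT.lf (nat_lit 0) (nat_lit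 1615702023) (nat_lit 456) (nat_lit 3571038731) (nat_lit 76) (nat_lit 5973025914) (nat_lit 143) (nat_lit 5) (nat_lit 149) (nat_lit 5) (nat_lit 144) (nat_lit 5) (nat_lit 463) (nat_lit 374) (nat_lit 303)) (XT.lf (nat_lit 0) (nat_lit 2839285056) (nat_lit 456) (nat_lit 1658451549) (nat_lit 532) (nat_lit 6794738272) (nat_lit 137) (nat_lit 5) (nat_lit 143) (nat_lit 5) (nat_lit 144) (nat_lit 5) (nat_lit 464) (nat_lit 374) (nat_lit 302)))) (XT.nd (nat_lit 156) (nat_lit 456) (nat_lit 0) (XT.nd (nat_lit 78) (nat_lit 380) (nat_lit 0) (XT.lf (nat_lit 0) (nat_lit 7445235625) (nat_lit 532) (nat_lit 2055824231) (nat_lit 76) (nat_lit 1926635807) (nat_lit 137) (nat_lit 5) (nat_lit 144) (nat_lit 5) (nat_lit 138) (nat_lit 5) (nat_lit 465) (nat_lit 374) (nat_lit 301)) (XT.lf (nat_lit 0) (nat_lit 4476101745) (nat_lit 380) (nat_lit 5987297540) (nat_lit 456) (nat_lit 1102001881) (nat_lit 132) (nat_lit 5) (nat_lit 137) (nat_lit 5) (nat_lit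 138) (nat_lit 5) (nat_lit 466) (nat_lit 374) (nat_lit 300))) (XT.nd (nat_lit 78) (nat_lit 380) (nat_lit 0) (XT.lf (nat_lit 0) (nat_lit 1797632381) (nat_lit 456) (nat_lit 592291254) (nat_lit 76) (nat_lit 9315999808) (nat_lit 131) (nat_lit 5) (nat_lit 137) (nat_lit 5) (nat_lit 132) (nat_lit 5) (nat_lit 467) (nat_lit 374) (nat_lit 299)) (XT.lf (nat_lit 0) (nat_lit 4760752252) (nat_lit 456) (nat_lit 5790919968) (nat_lit 76) (nat_lit 1297047042) (nat_lit 126) (nat_lit 5) (nat_lit 132) (nat_lit 5) (nat_lit 127) (nat_lit 5) (nat_lit 468) (nat_lit 374) (nat_lit 298)))))) (XT.nd (nat_lit 546) (nat_lit 1292) (nat_lit 0) (XT.nd (nat_lit 234) (nat_lit 760) (nat_lit 0) (XT.nd (nat_lit 78) (nat_lit 456) (nat_lit 0) (XT.lf (nat_lit 0) (nat_lit 808750048) (nat_lit 304) (nat_lit 6971976981) (nat_lit 380) (nat_lit 4213705600) (nat_lit 122) (nat_lit 5) (nat_lit 126) (nat_lit 5) (nat_lit 127) (nat_lit 5) (nat_lit 469) (nat_lit 374)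 (nat_lit 297)) (XT.nd (nat_lit 78) (nat_lit 456) (nat_lit 0) (XT.lf (nat_lit 0) (nat_lit 7578546191) (nat_lit 304) (nat_lit 3294205465) (nat_lit 380) (nat_lit 1270088822) (nat_lit 122) (nat_lit 5) (nat_lit 126) (nat_lit 5) (nat_lit 127) (nat_lit 5) (nat_lit 470) (nat_lit 374) (nat_lit 296)) (XT.lf (nat_lit 0) (nat_lit 1699932502) (nat_lit 456) (nat_lit 10130562689) (nat_lit 76) (nat_lit 463703980) (nat_lit 116) (nat_lit 5) (nat_lit 122) (nat_lit 5) (nat_lit 117) (nat_lit 5) (nat_lit 471) (nat_lit 374) (nat_lit 295)))) (XT.nd (nat_lit 156) (nat_lit 456) (nat_lit 0) (XT.nd (nat_lit 78) (nat_lit 304) (nat_lit 0) (XT.lf (nat_lit 0) (nat_lit 4738329750) (nat_lit 456) (nat_lit 3430545989) (nat_lit 76) (nat_lit 4279034213) (nat_lit 116) (nat_lit 5) (nat_lit 122) (nat_lit 5) (nat_lit 117) (nat_lit 5) (nat_lit 472) (nat_lit 374) (nat_lit 294)) (XT.lf (nat_lit 0) (nat_lit 3408825810) (nat_lit 304) (nat_lit 4424643158)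 (nat_lit 380) (nat_lit 4771318710) (nat_lit 112) (nat_lit 5) (nat_lit 116) (nat_lit 5) (nat_lit 117) (nat_lit 5) (nat_lit 473) (nat_lit 374) (nat_lit 293))) (XT.nd (nat_lit 78) (nat_lit 456) (nat_lit 0) (XT.lf (nat_lit 0) (nat_lit 10392393302) (nat_lit 304) (nat_lit 595239196) (nat_lit 380) (nat_lit 1777240007) (nat_lit 112) (nat_lit 5) (nat_lit 116) (nat_lit 5) (nat_lit 117) (nat_lit 5) (nat_lit 474) (nat_lit 374) (nat_lit 292)) (XT.lf (nat_lit 0) (nat_lit 1285939666) (nat_lit 456) (nat_lit 8348735728) (nat_lit 76) (nat_lit 3292810079) (nat_lit 106) (nat_lit 5) (nat_lit 112) (nat_lit 5) (nat_lit 107) (nat_lit 5) (nat_lit 475) (nat_lit 374) (nat_lit 291))))) (XT.nd (nat_lit 312) (nat_lit 608) (nat_lit 0) (XT.nd (nat_lit 156) (nat_lit 380) (nat_lit 0) (XT.nd (nat_lit 78) (nat_lit 304) (nat_lit 0) (XT.lf (nat_lit 0) (nat_lit 4381171614) (nat_lit 456) (nat_lit 1446543262) (nat_lit 76) (nat_lit 7265520437) (nat_lit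 106) (nat_lit 5) (nat_lit 112) (nat_lit 5) (nat_lit 107) (nat_lit 5) (nat_lit 476) (nat_lit 374) (nat_lit 290)) (XT.lf (nat_lit 0) (nat_lit 5629429314) (nat_lit 304) (nat_lit 1920522679) (nat_lit 380) (nat_lit 5712126343) (nat_lit 102) (nat_lit 5) (nat_lit 106) (nat_lit 5) (nat_lit 107) (nat_lit 5) (nat_lit 477) (nat_lit 374) (nat_lit 289))) (XT.nd (nat_lit 78) (nat_lit 380) (nat_lit 0) (XT.lf (nat_lit 0) (nat_lit 10780536345) (nat_lit 380) (nat_lit 619307516) (nat_lit 76) (nat_lit 2034496635) (nat_lit 102) (nat_lit 5) (nat_lit 107) (nat_lit 5) (nat_lit 103) (nat_lit 5) (nat_lit 478) (nat_lit 374) (nat_lit 288)) (XT.lf (nat_lit 0) (nat_lit 490885699) (nat_lit 380) (nat_lit 7042426165) (nat_lit 76) (nat_lit 6076059815) (nat_lit 97) (nat_lit 5) (nat_lit 102) (nat_lit 5) (nat_lit 98) (nat_lit 5) (nat_lit 479) (nat_lit 374) (nat_lit 287)))) (XT.nd (nat_lit 156) (nat_lit 304) (nat_lit 0) (XT.nd (nat_lit 78) (nat_lit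 0) (nat_lit 0) (XT.lf (nat_lit 0) (nat_lit 63126233) (nat_lit 304) (nat_lit 3580235686) (nat_lit 380) (nat_lit 10144592412) (nat_lit 93) (nat_lit 5) (nat_lit 97) (nat_lit 5) (nat_lit 98) (nat_lit 5) (nat_lit 480) (nat_lit 374) (nat_lit 286)) (XT.lf (nat_lit 0) (nat_lit 6885338711) (nat_lit 380) (nat_lit 6603911403) (nat_lit 76) (nat_lit 480339519) (nat_lit 93) (nat_lit 5) (nat_lit 98) (nat_lit 5) (nat_lit 94) (nat_lit 5) (nat_lit 481) (nat_lit 374) (nat_lit 285))) (XT.nd (nat_lit 78) (nat_lit 0) (nat_lit 0) (XT.lf (nat_lit 0) (nat_lit 606657586) (nat_lit 304) (nat_lit 9589563743) (nat_lit 380) (nat_lit 3958564810) (nat_lit 89) (nat_lit 5) (nat_lit 93) (nat_lit 5) (nat_lit 94) (nat_lit 5) (nat_lit 482) (nat_lit 374) (nat_lit 284)) (XT.lf (nat_lit 0) (nat_lit 8014186923) (nat_lit 304) (nat_lit 5580091374) (nat_lit 380) (nat_lit 748998773) (nat_lit 89) (nat_lit 5) (nat_lit 93) (nat_lit 5) (nat_lit 94) (nat_lit 5)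 (nat_lit 483) (nat_lit 374) (nat_lit 283))))))))
noncomputable def xc88 : XT := (XT.nd (nat_lit 2184) (nat_lit 1368) (nat_lit 0) (XT.nd (nat_lit 1092) (nat_lit 1444) (nat_lit 0) (XT.nd (nat_lit 546) (nat_lit 760) (nat_lit 0) (XT.nd (nat_lit 234) (nat_lit 608) (nat_lit 0) (XT.nd (nat_lit 78) (nat_lit 304) (nat_lit 0) (XT.lf (nat_lit 0) (nat_lit 994617637) (nat_lit 228) (nat_lit 1480424017) (nat_lit 304) (nat_lit 12060509659) (nat_lit 85) (nat_lit 5) (nat_lit 88) (nat_lit 5) (nat_lit 89) (nat_lit 5) (nat_lit 484) (nat_lit 374) (nat_lit 282)) (XT.nd (nat_lit 78) (nat_lit 304) (nat_lit 0) (XT.lf (nat_lit 0) (nat_lit 5790903634) (nat_lit 304) (nat_lit 6239513372) (nat_lit 76) (nat_lit 2700416695) (nat_lit 85) (nat_lit 5) (nat_lit 89) (nat_lit 5) (nat_lit 86) (nat_lit 5) (nat_lit 485) (nat_lit 374) (nat_lit 281)) (XT.lf (nat_lit 0) (nat_lit 1177789823) (nat_lit 304) (nat_lit 7990263220) (nat_lit 380) (nat_lit 5762078186)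 (nat_lit 81) (nat_lit 5) (nat_lit 85) (nat_lit 5) (nat_lit 86) (nat_lit 5) (nat_lit 486) (nat_lit 374) (nat_lit 280)))) (XT.nd (nat_lit 156) (nat_lit 304) (nat_lit 0) (XT.nd (nat_lit 78) (nat_lit 304) (nat_lit 0) (XT.lf (nat_lit 0) (nat_lit 8792464468) (nat_lit 304) (nat_lit 3839880426) (nat_lit 380) (nat_lit 2500686546) (nat_lit 81) (nat_lit 5) (nat_lit 85) (nat_lit 5) (nat_lit 86) (nat_lit 5) (nat_lit 487) (nat_lit 374) (nat_lit 279)) (XT.lf (nat_lit 0) (nat_lit 803425734) (nat_lit 304) (nat_lit 14148140322) (nat_lit 76) (nat_lit 388558232) (nat_lit 77) (nat_lit 5) (nat_lit 81) (nat_lit 5) (nat_lit 78) (nat_lit 5) (nat_lit 488) (nat_lit 374) (nat_lit 278))) (XT.nd (nat_lit 78) (nat_lit 304) (nat_lit 0) (XT.lf (nat_lit 0) (nat_lit 4186559084) (nat_lit 304) (nat_lit 6666929917) (nat_lit 76) (nat_lit 4696619160) (nat_lit 77) (nat_lit 5) (nat_lit 81) (nat_lit 5) (nat_lit 78) (nat_lit 5) (nat_lit 489) (nat_lit 374)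 (nat_lit 277)) (XT.lf (nat_lit 0) (nat_lit 941663023) (nat_lit 304) (nat_lit 6680366493) (nat_lit 380) (nat_lit 8142576765) (nat_lit 73) (nat_lit 5) (nat_lit 77) (nat_lit 5) (nat_lit 78) (nat_lit 5) (nat_lit 490) (nat_lit 374) (nat_lit 276))))) (XT.nd (nat_lit 234) (nat_lit 456) (nat_lit 0) (XT.nd (nat_lit 78) (nat_lit 304) (nat_lit 0) (XT.lf (nat_lit 0) (nat_lit 8758435637) (nat_lit 304) (nat_lit 2391270109) (nat_lit 380) (nat_lit 4833226589) (nat_lit 73) (nat_lit 5) (nat_lit 77) (nat_lit 5) (nat_lit 78) (nat_lit 5) (nat_lit 491) (nat_lit 374) (nat_lit 275)) (XT.nd (nat_lit 78) (nat_lit 76) (nat_lit 0) (XT.lf (nat_lit 0) (nat_lit 485374567) (nat_lit 228) (nat_lit 14257681978) (nat_lit 304) (nat_lit 1462673690) (nat_lit 70) (nat_lit 5) (nat_lit 73) (nat_lit 5) (nat_lit 74) (nat_lit 5) (nat_lit 492) (nat_lit 374) (nat_lit 274)) (XT.lf (nat_lit 0) (nat_lit 1993157992) (nat_lit 304) (nat_lit 8047715377) (nat_lit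 76) (nat_lit 6390986188) (nat_lit 69) (nat_lit 5) (nat_lit 73) (nat_lit 5) (nat_lit 70) (nat_lit 5) (nat_lit 493) (nat_lit 374) (nat_lit 273)))) (XT.nd (nat_lit 156) (nat_lit 228) (nat_lit 0) (XT.nd (nat_lit 78) (nat_lit 228) (nat_lit 0) (XT.lf (nat_lit 0) (nat_lit 5478085054) (nat_lit 304) (nat_lit 264732312) (nat_lit 76) (nat_lit 10919916754) (nat_lit 69) (nat_lit 5) (nat_lit 73) (nat_lit 5) (nat_lit 70) (nat_lit 5) (nat_lit 494) (nat_lit 374) (nat_lit 272)) (XT.lf (nat_lit 0) (nat_lit 7742689084) (nat_lit 228) (nat_lit 1320238952) (nat_lit 304) (nat_lit 7834700948) (nat_lit 66) (nat_lit 5) (nat_lit 69) (nat_lit 5) (nat_lit 70) (nat_lit 5) (nat_lit 495) (nat_lit 374) (nat_lit 271))) (XT.nd (nat_lit 78) (nat_lit 228) (nat_lit 0) (XT.lf (nat_lit 0) (nat_lit 12722019087) (nat_lit 304) (nat_lit 1276941904) (nat_lit 76) (nat_lit 3138216742) (nat_lit 66) (nat_lit 5) (nat_lit 70) (nat_lit 5) (nat_lit 67) (nat_lit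 5) (nat_lit 496) (nat_lit 374) (nat_lit 270)) (XT.lf (nat_lit 0) (nat_lit 6806916663) (nat_lit 228) (nat_lit 9680751088) (nat_lit 304) (nat_lit 893189068) (nat_lit 63) (nat_lit 5) (nat_lit 66) (nat_lit 5) (nat_lit 67) (nat_lit 5) (nat_lit 497) (nat_lit 374) (nat_lit 269)))))) (XT.nd (nat_lit 546) (nat_lit 608) (nat_lit 0) (XT.nd (nat_lit 234) (nat_lit 532) (nat_lit 0) (XT.nd (nat_lit 78) (nat_lit 228) (nat_lit 0) (XT.lf (nat_lit 0) (nat_lit 2652922972) (nat_lit 304) (nat_lit 2609342321) (nat_lit 76) (nat_lit 12367018226) (nat_lit 62) (nat_lit 5) (nat_lit 66) (nat_lit 5) (nat_lit 63) (nat_lit 5) (nat_lit 498) (nat_lit 374) (nat_lit 268)) (XT.nd (nat_lit 78) (nat_lit 0) (nat_lit 0) (XT.lf (nat_lit 0) (nat_lit 5549767504) (nat_lit 228) (nat_lit 725134804) (nat_lit 304) (nat_lit 11607326747) (nat_lit 59) (nat_lit 5) (nat_lit 62) (nat_lit 5) (nat_lit 63) (nat_lit 5) (nat_lit 499) (nat_lit 374) (nat_lit 267)) (XT.lf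 (nat_lit 0) (nat_lit 9993237460) (nat_lit 304) (nat_lit 4289656073) (nat_lit 76) (nat_lit 3856868000) (nat_lit 59) (nat_lit 5) (nat_lit 63) (nat_lit 5) (nat_lit 60) (nat_lit 5) (nat_lit 500) (nat_lit 374) (nat_lit 266)))) (XT.nd (nat_lit 156) (nat_lit 304) (nat_lit 0) (XT.nd (nat_lit 78) (nat_lit 0) (nat_lit 0) (XT.lf (nat_lit 0) (nat_lit 3929615925) (nat_lit 228) (nat_lit 9867963828) (nat_lit 304) (nat_lit 4604638326) (nat_lit 56) (nat_lit 5) (nat_lit 59) (nat_lit 5) (nat_lit 60) (nat_lit 5) (nat_lit 501) (nat_lit 374) (nat_lit 265)) (XT.lf (nat_lit 0) (nat_lit 12340500557) (nat_lit 228) (nat_lit 5347784165) (nat_lit 304) (nat_lit 981439624) (nat_lit 56) (nat_lit 5) (nat_lit 59) (nat_lit 5) (nat_lit 60) (nat_lit 5) (nat_lit 502) (nat_lit 374) (nat_lit 264))) (XT.nd (nat_lit 78) (nat_lit 0) (nat_lit 0) (XT.lf (nat_lit 0) (nat_lit 1954470178) (nat_lit 228) (nat_lit 718571900) (nat_lit 304) (nat_lit 16269303750)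 (nat_lit 52) (nat_lit 5) (nat_lit 55) (nat_lit 5) (nat_lit 56) (nat_lit 5) (nat_lit 503) (nat_lit 374) (nat_lit 263)) (XT.lf (nat_lit 0) (nat_lit 6438037981) (nat_lit 304) (nat_lit 8793360481) (nat_lit 76) (nat_lit 3987885964) (nat_lit 52) (nat_lit 5) (nat_lit 56) (nat_lit 5) (nat_lit 53) (nat_lit 5) (nat_lit 504) (nat_lit 374) (nat_lit 262))))) (XT.nd (nat_lit 234) (nat_lit 456) (nat_lit 0) (XT.nd (nat_lit 78) (nat_lit 152) (nat_lit 0) (XT.lf (nat_lit 0) (nat_lit 10265257723) (nat_lit 304) (nat_lit 469762828) (nat_lit 76) (nat_lit 8767008408) (nat_lit 52) (nat_lit 5) (nat_lit 56) (nat_lit 5) (nat_lit 53) (nat_lit 5) (nat_lit 505) (nat_lit 374) (nat_lit 261)) (XT.nd (nat_lit 78) (nat_lit 0) (nat_lit 0) (XT.lf (nat_lit 0) (nat_lit 8097041060) (nat_lit 152) (nat_lit 6107067033) (nat_lit 228) (nat_lit 5585624097) (nat_lit 50) (nat_lit 5) (nat_lit 52) (nat_lit 5) (nat_lit 53) (nat_lit 5) (nat_lit 506) (nat_lit 374)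 (nat_lit 260)) (XT.lf (nat_lit 0) (nat_lit 16812282731) (nat_lit 152) (nat_lit 1395272795) (nat_lit 228) (nat_lit 1875922979) (nat_lit 50) (nat_lit 5) (nat_lit 52) (nat_lit 5) (nat_lit 53) (nat_lit 5) (nat_lit 507) (nat_lit 374) (nat_lit 259)))) (XT.nd (nat_lit 156) (nat_lit 152) (nat_lit 0) (XT.nd (nat_lit 78) (nat_lit 0) (nat_lit 0) (XT.lf (nat_lit 0) (nat_lit 1922938543) (nat_lit 304) (nat_lit 15057334223) (nat_lit 76) (nat_lit 3401784643) (nat_lit 46) (nat_lit 5) (nat_lit 50) (nat_lit 5) (nat_lit 47) (nat_lit 5) (nat_lit 508) (nat_lit 374) (nat_lit 258)) (XT.lf (nat_lit 0) (nat_lit 5786981467) (nat_lit 304) (nat_lit 6600077745) (nat_lit 76) (nat_lit 8299019335) (nat_lit 46) (nat_lit 5) (nat_lit 50) (nat_lit 5) (nat_lit 47) (nat_lit 5) (nat_lit 509) (nat_lit 374) (nat_lit 257))) (XT.nd (nat_lit 78) (nat_lit 0) (nat_lit 0) (XT.lf (nat_lit 0) (nat_lit 2024441036) (nat_lit 152) (nat_lit 7700304562) (nat_lit 228)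 (nat_lit 11271510712) (nat_lit 44) (nat_lit 5) (nat_lit 46) (nat_lit 5) (nat_lit 47) (nat_lit 5) (nat_lit 510) (nat_lit 374) (nat_lit 256)) (XT.lf (nat_lit 0) (nat_lit 10882669315) (nat_lit 152) (nat_lit 2886326156) (nat_lit 228) (nat_lit 7543092460) (nat_lit 44) (nat_lit 5) (nat_lit 46) (nat_lit 5) (nat_lit 47) (nat_lit 5) (nat_lit 511) (nat_lit 374) (nat_lit 255))))))) (XT.nd (nat_lit 1092) (nat_lit 304) (nat_lit 0) (XT.nd (nat_lit 546) (nat_lit 456) (nat_lit 0) (XT.nd (nat_lit 234) (nat_lit 304) (nat_lit 0) (XT.nd (nat_lit 78) (nat_lit 304) (nat_lit 0) (XT.lf (nat_lit 0) (nat_lit 17890961817) (nat_lit 228) (nat_lit 1757262667) (nat_lit 76) (nat_lit 1986079887) (nat_lit 44) (nat_lit 5) (nat_lit 47) (nat_lit 5) (nat_lit 45) (nat_lit 5) (nat_lit 512) (nat_lit 374) (nat_lit 254)) (XT.nd (nat_lit 78) (nat_lit 0) (nat_lit 0) (XT.lf (nat_lit 0) (nat_lit 180441786) (nat_lit 304) (nat_lit 14827764086) (nat_lit 76)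 (nat_lit 6953751184) (nat_lit 40) (nat_lit 5) (nat_lit 44) (nat_lit 5) (nat_lit 41) (nat_lit 5) (nat_lit 513) (nat_lit 374) (nat_lit 253)) (XT.lf (nat_lit 0) (nat_lit 4128533356) (nat_lit 304) (nat_lit 6120933853) (nat_lit 76) (nat_lit 12046286155) (nat_lit 40) (nat_lit 5) (nat_lit 44) (nat_lit 5) (nat_lit 41) (nat_lit 5) (nat_lit 514) (nat_lit 374) (nat_lit 252)))) (XT.nd (nat_lit 156) (nat_lit 152) (nat_lit 0) (XT.nd (nat_lit 78) (nat_lit 0) (nat_lit 0) (XT.lf (nat_lit 0) (nat_lit 2769456533) (nat_lit 152) (nat_lit 5388462151) (nat_lit 228) (nat_lit 14478264724) (nat_lit 38) (nat_lit 5) (nat_lit 40) (nat_lit 5) (nat_lit 41) (nat_lit 5) (nat_lit 515) (nat_lit 374) (nat_lit 251)) (XT.lf (nat_lit 0) (nat_lit 11893904190) (nat_lit 152) (nat_lit 399546350) (nat_lit 228) (nat_lit 10689464698) (nat_lit 38) (nat_lit 5) (nat_lit 40) (nat_lit 5) (nat_lit 41) (nat_lit 5) (nat_lit 516) (nat_lit 374) (nat_lit 250))) (XT.nd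 (nat_lit 78) (nat_lit 152) (nat_lit 0) (XT.lf (nat_lit 0) (nat_lit 16526855130) (nat_lit 228) (nat_lit 2192620603) (nat_lit 76) (nat_lit 4616807006) (nat_lit 38) (nat_lit 5) (nat_lit 41) (nat_lit 5) (nat_lit 39) (nat_lit 5) (nat_lit 517) (nat_lit 374) (nat_lit 249)) (XT.lf (nat_lit 0) (nat_lit 6944209897) (nat_lit 152) (nat_lit 13933467037) (nat_lit 228) (nat_lit 2818389866) (nat_lit 36) (nat_lit 5) (nat_lit 38) (nat_lit 5) (nat_lit 39) (nat_lit 5) (nat_lit 518) (nat_lit 374) (nat_lit 248))))) (XT.nd (nat_lit 234) (nat_lit 228) (nat_lit 0) (XT.nd (nat_lit 78) (nat_lit 152) (nat_lit 0) (XT.lf (nat_lit 0) (nat_lit 1235894251) (nat_lit 228) (nat_lit 7803431649) (nat_lit 76) (nat_lit 15023564993) (nat_lit 35) (nat_lit 5) (nat_lit 38) (nat_lit 5) (nat_lit 36) (nat_lit 5) (nat_lit 519) (nat_lit 374) (nat_lit 247)) (XT.nd (nat_lit 78) (nat_lit 0) (nat_lit 0) (XT.lf (nat_lit 0) (nat_lit 1296866065) (nat_lit 152) (nat_lit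 4030449344) (nat_lit 228) (nat_lit 19109491626) (nat_lit 33) (nat_lit 5) (nat_lit 35) (nat_lit 5) (nat_lit 36) (nat_lit 5) (nat_lit 520) (nat_lit 374) (nat_lit 246)) (XT.lf (nat_lit 0) (nat_lit 9545667950) (nat_lit 228) (nat_lit 14165054227) (nat_lit 76) (nat_lit 1106581137) (nat_lit 33) (nat_lit 5) (nat_lit 36) (nat_lit 5) (nat_lit 34) (nat_lit 5) (nat_lit 521) (nat_lit 374) (nat_lit 245)))) (XT.nd (nat_lit 156) (nat_lit 76) (nat_lit 0) (XT.nd (nat_lit 78) (nat_lit 152) (nat_lit 0) (XT.lf (nat_lit 0) (nat_lit 13860753786) (nat_lit 228) (nat_lit 5062359042) (nat_lit 76) (nat_lit 6282053163) (nat_lit 33) (nat_lit 5) (nat_lit 36) (nat_lit 5) (nat_lit 34) (nat_lit 5) (nat_lit 522) (nat_lit 374) (nat_lit 244)) (XT.lf (nat_lit 0) (nat_lit 4253670271) (nat_lit 152) (nat_lit 14022044136) (nat_lit 228) (nat_lit 7324803775) (nat_lit 31) (nat_lit 5) (nat_lit 33) (nat_lit 5) (nat_lit 34) (nat_lit 5) (nat_lit 523) (nat_lit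 374) (nat_lit 243))) (XT.nd (nat_lit 78) (nat_lit 76) (nat_lit 0) (XT.lf (nat_lit 0) (nat_lit 13800295586) (nat_lit 152) (nat_lit 8998722480) (nat_lit 228) (nat_lit 3204362123) (nat_lit 31) (nat_lit 5) (nat_lit 33) (nat_lit 5) (nat_lit 34) (nat_lit 5) (nat_lit 524) (nat_lit 374) (nat_lit 242)) (XT.lf (nat_lit 0) (nat_lit 971644867) (nat_lit 228) (nat_lit 2906983908) (nat_lit 76) (nat_lit 22535819475) (nat_lit 30) (nat_lit 5) (nat_lit 33) (nat_lit 5) (nat_lit 31) (nat_lit 5) (nat_lit 525) (nat_lit 374) (nat_lit 241)))))) (XT.nd (nat_lit 48984) (nat_lit 0) (nat_lit 43016) (XT.nd (nat_lit 234) (nat_lit 152) (nat_lit 0) (XT.nd (nat_lit 78) (nat_lit 0) (nat_lit 0) (XT.lf (nat_lit 0) (nat_lit 5226873916) (nat_lit 228) (nat_lit 20224793868) (nat_lit 76) (nat_lit 1380877543) (nat_lit 28) (nat_lit 5) (nat_lit 31) (nat_lit 5) (nat_lit 29) (nat_lit 5) (nat_lit 526) (nat_lit 374) (nat_lit 240)) (XT.nd (nat_lit 78) (nat_lit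 0) (nat_lit 0) (XT.lf (nat_lit 0) (nat_lit 9599098688) (nat_lit 228) (nat_lit 10955876783) (nat_lit 76) (nat_lit 6703394425) (nat_lit 28) (nat_lit 5) (nat_lit 31) (nat_lit 5) (nat_lit 29) (nat_lit 5) (nat_lit 527) (nat_lit 374) (nat_lit 239)) (XT.lf (nat_lit 0) (nat_lit 14045599599) (nat_lit 228) (nat_lit 1524751533) (nat_lit 76) (nat_lit 12122626495) (nat_lit 28) (nat_lit 5) (nat_lit 31) (nat_lit 5) (nat_lit 29) (nat_lit 5) (nat_lit 528) (nat_lit 374) (nat_lit 238)))) (XT.nd (nat_lit 48594) (nat_lit 0) (nat_lit 45068) (XT.nd (nat_lit 48516) (nat_lit 0) (nat_lit 45980) (XT.lf (nat_lit 0) (nat_lit 8179556718) (nat_lit 152) (nat_lit 10441670765) (nat_lit 228) (nat_lit 9514249332) (nat_lit 26) (nat_lit 5) (nat_lit 28) (nat_lit 5) (nat_lit 29) (nat_lit 5) (nat_lit 529) (nat_lit 374) (nat_lit 237)) (XT.lf (nat_lit 0) (nat_lit 1593473772) (nat_lit 380) (nat_lit 59092214) (nat_lit 0) (nat_lit 1593473772) (nat_lit 631)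 (nat_lit 5) (nat_lit 636) (nat_lit 4) (nat_lit 631) (nat_lit 4) (nat_lit 390) (nat_lit 375) (nat_lit 375))) (XT.nd (nat_lit 78) (nat_lit 532) (nat_lit 0) (XT.lf (nat_lit 0) (nat_lit 3363194617) (nat_lit 380) (nat_lit 2848193680) (nat_lit 380) (nat_lit 291358701) (nat_lit 626) (nat_lit 4) (nat_lit 631) (nat_lit 5) (nat_lit 631) (nat_lit 4) (nat_lit 391) (nat_lit 375) (nat_lit 374)) (XT.lf (nat_lit 0) (nat_lit 342124101) (nat_lit 456) (nat_lit 2333945225) (nat_lit 532) (nat_lit 3838699310) (nat_lit 619) (nat_lit 5) (nat_lit 625) (nat_lit 5) (nat_lit 626) (nat_lit 4) (nat_lit 392) (nat_lit 375) (nat_lit 373))))) (XT.nd (nat_lit 234) (nat_lit 1444) (nat_lit 0) (XT.nd (nat_lit 78) (nat_lit 608) (nat_lit 0) (XT.lf (nat_lit 0) (nat_lit 3887860314) (nat_lit 456) (nat_lit 1760132861) (nat_lit 532) (nat_lit 880115729) (nat_lit 619) (nat_lit 5) (nat_lit 625) (nat_lit 5) (nat_lit 626) (nat_lit 4) (nat_lit 393) (nat_lit 375)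 (nat_lit 372)) (XT.nd (nat_lit 78) (nat_lit 0) (nat_lit 0) (XT.lf (nat_lit 0) (nat_lit 914601203) (nat_lit 532) (nat_lit 1129780455) (nat_lit 608) (nat_lit 4498455081) (nat_lit 611) (nat_lit 5) (nat_lit 618) (nat_lit 5) (nat_lit 619) (nat_lit 5) (nat_lit 394) (nat_lit 375) (nat_lit 371)) (XT.lf (nat_lit 0) (nat_lit 4524425634) (nat_lit 532) (nat_lit 438784808) (nat_lit 608) (nat_lit 1595671864) (nat_lit 611) (nat_lit 5) (nat_lit 618) (nat_lit 5) (nat_lit 619) (nat_lit 5) (nat_lit 395) (nat_lit 375) (nat_lit 370)))) (XT.nd (nat_lit 156) (nat_lit 760) (nat_lit 0) (XT.nd (nat_lit 78) (nat_lit 0) (nat_lit 0) (XT.lf (nat_lit 0) (nat_lit 1290403140) (nat_lit 684) (nat_lit 4981172739) (nat_lit 76) (nat_lit 304721304) (nat_lit 602) (nat_lit 5) (nat_lit 611) (nat_lit 5) (nat_lit 603) (nat_lit 5) (nat_lit 396) (nat_lit 375) (nat_lit 369)) (XT.lf (nat_lit 0) (nat_lit 4161473347) (nat_lit 684) (nat_lit 1329880307) (nat_lit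 76) (nat_lit 1103609703) (nat_lit 602) (nat_lit 5) (nat_lit 611) (nat_lit 5) (nat_lit 603) (nat_lit 5) (nat_lit 397) (nat_lit 375) (nat_lit 368))) (XT.nd (nat_lit 78) (nat_lit 0) (nat_lit 0) (XT.lf (nat_lit 0) (nat_lit 418048711) (nat_lit 760) (nat_lit 4238696649) (nat_lit 76) (nat_lit 1958312485) (nat_lit 592) (nat_lit 5) (nat_lit 602) (nat_lit 5) (nat_lit 593) (nat_lit 5) (nat_lit 398) (nat_lit 375) (nat_lit 367)) (XT.lf (nat_lit 0) (nat_lit 3236843349) (nat_lit 760) (nat_lit 523926712) (nat_lit 76) (nat_lit 2875688004) (nat_lit 592) (nat_lit 5) (nat_lit 602) (nat_lit 5) (nat_lit 593) (nat_lit 5) (nat_lit 399) (nat_lit 375) (nat_lit 366))))))))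
noncomputable def xc89 : XT := (XT.nd (nat_lit 2184) (nat_lit 11400) (nat_lit 0) (XT.nd (nat_lit 1092) (nat_lit 10336) (nat_lit 0) (XT.nd (nat_lit 546) (nat_lit 6308) (nat_lit 0) (XT.nd (nat_lit 234) (nat_lit 2052) (nat_lit 0) (XT.nd (nat_lit 78) (nat_lit 912) (nat_lit 0) (XT.lf (nat_lit 0) (nat_lit 3261710214) (nat_lit 760) (nat_lit 2806574787) (nat_lit 836) (nat_lit 590956003) (nat_lit 582) (nat_lit 5) (nat_lit 592) (nat_lit 5) (nat_lit 593) (nat_lit 5) (nat_lit 400) (nat_lit 375) (nat_lit 365)) (XT.nd (nat_lit 78) (nat_lit 0) (nat_lit 0) (XT.lf (nat_lit 0) (nat_lit 391261595) (nat_lit 836) (nat_lit 1794439089) (nat_lit 912) (nat_lit 4497727732) (nat_lit 570) (nat_lit 5) (nat_lit 581) (nat_lit 5) (nat_lit 582) (nat_lit 5) (nat_lit 401) (nat_lit 375) (nat_lit 364)) (XT.lf (nat_lit 0) (nat_lit 4251391123) (nat_lit 836) (nat_lit 717896296) (nat_lit 912) (nat_lit 1739623351) (nat_lit 570) (nat_lit 5) (nat_lit 581)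 (nat_lit 5) (nat_lit 582) (nat_lit 5) (nat_lit 402) (nat_lit 375) (nat_lit 363)))) (XT.nd (nat_lit 156) (nat_lit 1064) (nat_lit 0) (XT.nd (nat_lit 78) (nat_lit 0) (nat_lit 0) (XT.lf (nat_lit 0) (nat_lit 1008743756) (nat_lit 988) (nat_lit 5319648473) (nat_lit 76) (nat_lit 407460076) (nat_lit 557) (nat_lit 5) (nat_lit 570) (nat_lit 5) (nat_lit 558) (nat_lit 5) (nat_lit 403) (nat_lit 375) (nat_lit 362)) (XT.lf (nat_lit 0) (nat_lit 3748480137) (nat_lit 988) (nat_lit 1426295917) (nat_lit 76) (nat_lit 1589203890) (nat_lit 557) (nat_lit 5) (nat_lit 570) (nat_lit 5) (nat_lit 558) (nat_lit 5) (nat_lit 404) (nat_lit 375) (nat_lit 361))) (XT.nd (nat_lit 78) (nat_lit 76) (nat_lit 0) (XT.lf (nat_lit 0) (nat_lit 2531434695) (nat_lit 988) (nat_lit 3967540704) (nat_lit 1064) (nat_lit 294645217) (nat_lit 544) (nat_lit 5) (nat_lit 557) (nat_lit 5) (nat_lit 558) (nat_lit 5) (nat_lit 405) (nat_lit 375) (nat_lit 360)) (XT.lf (nat_lit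 0) (nat_lit 2397678043) (nat_lit 1064) (nat_lit 299425328) (nat_lit 76) (nat_lit 4127503959) (nat_lit 543) (nat_lit 5) (nat_lit 557) (nat_lit 5) (nat_lit 544) (nat_lit 5) (nat_lit 406) (nat_lit 375) (nat_lit 359))))) (XT.nd (nat_lit 234) (nat_lit 4028) (nat_lit 0) (XT.nd (nat_lit 78) (nat_lit 1216) (nat_lit 0) (XT.lf (nat_lit 0) (nat_lit 3743414018) (nat_lit 1064) (nat_lit 1361925161) (nat_lit 1140) (nat_lit 1751592655) (nat_lit 529) (nat_lit 5) (nat_lit 543) (nat_lit 5) (nat_lit 544) (nat_lit 5) (nat_lit 407) (nat_lit 375) (nat_lit 358)) (XT.nd (nat_lit 78) (nat_lit 0) (nat_lit 0) (XT.lf (nat_lit 0) (nat_lit 914269358) (nat_lit 1216) (nat_lit 5950590989) (nat_lit 76) (nat_lit 25982060) (nat_lit 513) (nat_lit 5) (nat_lit 529) (nat_lit 5) (nat_lit 514) (nat_lit 5) (nat_lit 408) (nat_lit 375) (nat_lit 357)) (XT.lf (nat_lit 0) (nat_lit 3582519866) (nat_lit 1216) (nat_lit 1876304506) (nat_lit 76) (nat_lit 1466986705)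 (nat_lit 513) (nat_lit 5) (nat_lit 529) (nat_lit 5) (nat_lit 514) (nat_lit 5) (nat_lit 409) (nat_lit 375) (nat_lit 356)))) (XT.nd (nat_lit 156) (nat_lit 2736) (nat_lit 0) (XT.nd (nat_lit 78) (nat_lit 76) (nat_lit 0) (XT.lf (nat_lit 0) (nat_lit 2262241246) (nat_lit 1216) (nat_lit 4000162574) (nat_lit 1292) (nat_lit 699970667) (nat_lit 497) (nat_lit 5) (nat_lit 513) (nat_lit 5) (nat_lit 514) (nat_lit 5) (nat_lit 410) (nat_lit 375) (nat_lit 355)) (XT.lf (nat_lit 0) (nat_lit 1926667102) (nat_lit 1292) (nat_lit 550860561) (nat_lit 76) (nat_lit 4522808031) (nat_lit 496) (nat_lit 5) (nat_lit 513) (nat_lit 5) (nat_lit 497) (nat_lit 5) (nat_lit 411) (nat_lit 375) (nat_lit 354))) (XT.nd (nat_lit 78) (nat_lit 1444) (nat_lit 0) (XT.lf (nat_lit 0) (nat_lit 3678545230) (nat_lit 1292) (nat_lit 886868159) (nat_lit 1368) (nat_lit 2474228465) (nat_lit 479) (nat_lit 5) (nat_lit 496) (nat_lit 5) (nat_lit 497) (nat_lit 5) (nat_lit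 412) (nat_lit 375) (nat_lit 353)) (XT.lf (nat_lit 0) (nat_lit 134651429) (nat_lit 1444) (nat_lit 6201738175) (nat_lit 76) (nat_lit 744181031) (nat_lit 460) (nat_lit 5) (nat_lit 479) (nat_lit 5) (nat_lit 461) (nat_lit 5) (nat_lit 413) (nat_lit 375) (nat_lit 352)))))) (XT.nd (nat_lit 546) (nat_lit 3952) (nat_lit 0) (XT.nd (nat_lit 234) (nat_lit 4864) (nat_lit 0) (XT.nd (nat_lit 78) (nat_lit 1520) (nat_lit 0) (XT.lf (nat_lit 0) (nat_lit 2737421108) (nat_lit 1444) (nat_lit 1942958800) (nat_lit 76) (nat_lit 2442168079) (nat_lit 460) (nat_lit 5) (nat_lit 479) (nat_lit 5) (nat_lit 461) (nat_lit 5) (nat_lit 414) (nat_lit 375) (nat_lit 351)) (XT.nd (nat_lit 78) (nat_lit 76) (nat_lit 0) (XT.lf (nat_lit 0) (nat_lit 2385414346) (nat_lit 1444) (nat_lit 2969607507) (nat_lit 1520) (nat_lit 1811140393) (nat_lit 441) (nat_lit 5) (nat_lit 460) (nat_lit 5) (nat_lit 461) (nat_lit 5) (nat_lit 415) (nat_lit 375) (nat_lit 350)) (XT.lf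 (nat_lit 0) (nat_lit 764394276) (nat_lit 1520) (nat_lit 436374729) (nat_lit 76) (nat_lit 6010609893) (nat_lit 440) (nat_lit 5) (nat_lit 460) (nat_lit 5) (nat_lit 441) (nat_lit 5) (nat_lit 416) (nat_lit 375) (nat_lit 349)))) (XT.nd (nat_lit 156) (nat_lit 1748) (nat_lit 0) (XT.nd (nat_lit 78) (nat_lit 1596) (nat_lit 0) (XT.lf (nat_lit 0) (nat_lit 3345961293) (nat_lit 1596) (nat_lit 3273192170) (nat_lit 76) (nat_lit 638581353) (nat_lit 420) (nat_lit 5) (nat_lit 441) (nat_lit 5) (nat_lit 421) (nat_lit 5) (nat_lit 417) (nat_lit 375) (nat_lit 348)) (XT.lf (nat_lit 0) (nat_lit 1154844596) (nat_lit 1596) (nat_lit 4792101099) (nat_lit 1672) (nat_lit 1358765284) (nat_lit 399) (nat_lit 5) (nat_lit 420) (nat_lit 5) (nat_lit 421) (nat_lit 5) (nat_lit 418) (nat_lit 375) (nat_lit 347))) (XT.nd (nat_lit 78) (nat_lit 1672) (nat_lit 0) (XT.lf (nat_lit 0) (nat_lit 1200779569) (nat_lit 1672) (nat_lit 1694196373) (nat_lit 76) (nat_lit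 4460119787) (nat_lit 398) (nat_lit 5) (nat_lit 420) (nat_lit 5) (nat_lit 399) (nat_lit 5) (nat_lit 419) (nat_lit 375) (nat_lit 346)) (XT.lf (nat_lit 0) (nat_lit 2833129029) (nat_lit 1672) (nat_lit 929288806) (nat_lit 1748) (nat_lit 3643534813) (nat_lit 376) (nat_lit 5) (nat_lit 398) (nat_lit 5) (nat_lit 399) (nat_lit 5) (nat_lit 420) (nat_lit 375) (nat_lit 345))))) (XT.nd (nat_lit 234) (nat_lit 1748) (nat_lit 0) (XT.nd (nat_lit 78) (nat_lit 2204) (nat_lit 0) (XT.lf (nat_lit 0) (nat_lit 6345083386) (nat_lit 1748) (nat_lit 38055540) (nat_lit 76) (nat_lit 1075337016) (nat_lit 376) (nat_lit 5) (nat_lit 399) (nat_lit 5) (nat_lit 377) (nat_lit 5) (nat_lit 421) (nat_lit 375) (nat_lit 344)) (XT.nd (nat_lit 78) (nat_lit 836) (nat_lit 0) (XT.lf (nat_lit 0) (nat_lit 1436295080) (nat_lit 1368) (nat_lit 2926692273) (nat_lit 76) (nat_lit 3149151439) (nat_lit 358) (nat_lit 5) (nat_lit 376) (nat_lit 5) (nat_lit 359) (nat_lit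 5) (nat_lit 422) (nat_lit 375) (nat_lit 343)) (XT.lf (nat_lit 0) (nat_lit 1703226483) (nat_lit 836) (nat_lit 2282771833) (nat_lit 912) (nat_lit 3581493313) (nat_lit 347) (nat_lit 5) (nat_lit 358) (nat_lit 5) (nat_lit 359) (nat_lit 5) (nat_lit 423) (nat_lit 375) (nat_lit 342)))) (XT.nd (nat_lit 156) (nat_lit 836) (nat_lit 0) (XT.nd (nat_lit 78) (nat_lit 912) (nat_lit 0) (XT.lf (nat_lit 0) (nat_lit 6418922436) (nat_lit 836) (nat_lit 140641059) (nat_lit 912) (nat_lit 1064972360) (nat_lit 347) (nat_lit 5) (nat_lit 358) (nat_lit 5) (nat_lit 359) (nat_lit 5) (nat_lit 424) (nat_lit 375) (nat_lit 341)) (XT.lf (nat_lit 0) (nat_lit 1472434481) (nat_lit 912) (nat_lit 4159912577) (nat_lit 76) (nat_lit 2050413897) (nat_lit 335) (nat_lit 5) (nat_lit 347) (nat_lit 5) (nat_lit 336) (nat_lit 5) (nat_lit 425) (nat_lit 375) (nat_lit 340))) (XT.nd (nat_lit 78) (nat_lit 0) (nat_lit 0) (XT.lf (nat_lit 0) (nat_lit 572827661) (nat_lit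 836) (nat_lit 3440716345) (nat_lit 912) (nat_lit 3729160756) (nat_lit 324) (nat_lit 5) (nat_lit 335) (nat_lit 5) (nat_lit 336) (nat_lit 5) (nat_lit 426) (nat_lit 375) (nat_lit 339)) (XT.lf (nat_lit 0) (nat_lit 5410039465) (nat_lit 836) (nat_lit 1178349813) (nat_lit 912) (nat_lit 1215838411) (nat_lit 324) (nat_lit 5) (nat_lit 335) (nat_lit 5) (nat_lit 336) (nat_lit 5) (nat_lit 427) (nat_lit 375) (nat_lit 338))))))) (XT.nd (nat_lit 1092) (nat_lit 4636) (nat_lit 0) (XT.nd (nat_lit 546) (nat_lit 2736) (nat_lit 0) (XT.nd (nat_lit 234) (nat_lit 2356) (nat_lit 0) (XT.nd (nat_lit 78) (nat_lit 760) (nat_lit 0) (XT.lf (nat_lit 0) (nat_lit 1309043220) (nat_lit 912) (nat_lit 5420732598) (nat_lit 76) (nat_lit 1137487890) (nat_lit 312) (nat_lit 5) (nat_lit 324) (nat_lit 5) (nat_lit 313) (nat_lit 5) (nat_lit 428) (nat_lit 375) (nat_lit 337)) (XT.nd (nat_lit 78) (nat_lit 760) (nat_lit 0) (XT.lf (nat_lit 0) (nat_lit 3848244545)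 (nat_lit 912) (nat_lit 577564496) (nat_lit 76) (nat_lit 3506024922) (nat_lit 312) (nat_lit 5) (nat_lit 324) (nat_lit 5) (nat_lit 313) (nat_lit 5) (nat_lit 429) (nat_lit 375) (nat_lit 336)) (XT.lf (nat_lit 0) (nat_lit 4373868182) (nat_lit 760) (nat_lit 2049730959) (nat_lit 836) (nat_lit 1574424680) (nat_lit 302) (nat_lit 5) (nat_lit 312) (nat_lit 5) (nat_lit 313) (nat_lit 5) (nat_lit 430) (nat_lit 375) (nat_lit 335)))) (XT.nd (nat_lit 156) (nat_lit 1520) (nat_lit 0) (XT.nd (nat_lit 78) (nat_lit 0) (nat_lit 0) (XT.lf (nat_lit 0) (nat_lit 944285179) (nat_lit 836) (nat_lit 6737101846) (nat_lit 76) (nat_lit 384611171) (nat_lit 291) (nat_lit 5) (nat_lit 302) (nat_lit 5) (nat_lit 292) (nat_lit 5) (nat_lit 431) (nat_lit 375) (nat_lit 334)) (XT.lf (nat_lit 0) (nat_lit 3488082228) (nat_lit 836) (nat_lit 1775685659) (nat_lit 76) (nat_lit 2871473671) (nat_lit 291) (nat_lit 5) (nat_lit 302) (nat_lit 5) (nat_lit 292) (nat_lit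 5) (nat_lit 432) (nat_lit 375) (nat_lit 333))) (XT.nd (nat_lit 78) (nat_lit 836) (nat_lit 0) (XT.lf (nat_lit 0) (nat_lit 3282108534) (nat_lit 684) (nat_lit 2780504742) (nat_lit 760) (nat_lit 2143692223) (nat_lit 282) (nat_lit 5) (nat_lit 291) (nat_lit 5) (nat_lit 292) (nat_lit 5) (nat_lit 433) (nat_lit 375) (nat_lit 332)) (XT.lf (nat_lit 0) (nat_lit 139492230) (nat_lit 760) (nat_lit 236639477) (nat_lit 836) (nat_lit 7903204133) (nat_lit 271) (nat_lit 5) (nat_lit 281) (nat_lit 5) (nat_lit 282) (nat_lit 5) (nat_lit 434) (nat_lit 375) (nat_lit 331))))) (XT.nd (nat_lit 234) (nat_lit 2052) (nat_lit 0) (XT.nd (nat_lit 78) (nat_lit 684) (nat_lit 0) (XT.lf (nat_lit 0) (nat_lit 2925487731) (nat_lit 836) (nat_lit 3058369545) (nat_lit 76) (nat_lit 2369560300) (nat_lit 271) (nat_lit 5) (nat_lit 282) (nat_lit 5) (nat_lit 272) (nat_lit 5) (nat_lit 435) (nat_lit 375) (nat_lit 330)) (XT.nd (nat_lit 78) (nat_lit 0) (nat_lit 0)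 (XT.lf (nat_lit 0) (nat_lit 2105007949) (nat_lit 684) (nat_lit 3396096068) (nat_lit 760) (nat_lit 2928401835) (nat_lit 262) (nat_lit 5) (nat_lit 271) (nat_lit 5) (nat_lit 272) (nat_lit 5) (nat_lit 436) (nat_lit 375) (nat_lit 329)) (XT.lf (nat_lit 0) (nat_lit 7367644632) (nat_lit 684) (nat_lit 741638512) (nat_lit 760) (nat_lit 398241512) (nat_lit 262) (nat_lit 5) (nat_lit 271) (nat_lit 5) (nat_lit 272) (nat_lit 5) (nat_lit 437) (nat_lit 375) (nat_lit 328)))) (XT.nd (nat_lit 156) (nat_lit 684) (nat_lit 0) (XT.nd (nat_lit 78) (nat_lit 608) (nat_lit 0) (XT.lf (nat_lit 0) (nat_lit 2154812352) (nat_lit 760) (nat_lit 4456605062) (nat_lit 76) (nat_lit 1975413342) (nat_lit 252) (nat_lit 5) (nat_lit 262) (nat_lit 5) (nat_lit 253) (nat_lit 5) (nat_lit 438) (nat_lit 375) (nat_lit 327)) (XT.lf (nat_lit 0) (nat_lit 811071717) (nat_lit 608) (nat_lit 3921853995) (nat_lit 684) (nat_lit 3935186058) (nat_lit 244) (nat_lit 5) (nat_lit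 252) (nat_lit 5) (nat_lit 253) (nat_lit 5) (nat_lit 439) (nat_lit 375) (nat_lit 326))) (XT.nd (nat_lit 78) (nat_lit 684) (nat_lit 0) (XT.lf (nat_lit 0) (nat_lit 6199231350) (nat_lit 608) (nat_lit 1155186576) (nat_lit 684) (nat_lit 1396791651) (nat_lit 244) (nat_lit 5) (nat_lit 252) (nat_lit 5) (nat_lit 253) (nat_lit 5) (nat_lit 440) (nat_lit 375) (nat_lit 325)) (XT.lf (nat_lit 0) (nat_lit 1168528015) (nat_lit 684) (nat_lit 6003351414) (nat_lit 76) (nat_lit 1664125606) (nat_lit 235) (nat_lit 5) (nat_lit 244) (nat_lit 5) (nat_lit 236) (nat_lit 5) (nat_lit 441) (nat_lit 375) (nat_lit 324)))))) (XT.nd (nat_lit 546) (nat_lit 2204) (nat_lit 0) (XT.nd (nat_lit 234) (nat_lit 1216) (nat_lit 0) (XT.nd (nat_lit 78) (nat_lit 1216) (nat_lit 0) (XT.lf (nat_lit 0) (nat_lit 3754140097) (nat_lit 684) (nat_lit 624941965) (nat_lit 76) (nat_lit 4543501823) (nat_lit 235) (nat_lit 5) (nat_lit 244) (nat_lit 5) (nat_lit 236) (nat_lit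 5) (nat_lit 442) (nat_lit 375) (nat_lit 323)) (XT.nd (nat_lit 78) (nat_lit 608) (nat_lit 0) (XT.lf (nat_lit 0) (nat_lit 4880589620) (nat_lit 608) (nat_lit 1506075383) (nat_lit 684) (nat_lit 2624350708) (nat_lit 227) (nat_lit 5) (nat_lit 235) (nat_lit 5) (nat_lit 236) (nat_lit 5) (nat_lit 443) (nat_lit 375) (nat_lit 322)) (XT.lf (nat_lit 0) (nat_lit 1367371386) (nat_lit 608) (nat_lit 7690705097) (nat_lit 684) (nat_lit 43439881) (nat_lit 219) (nat_lit 5) (nat_lit 227) (nat_lit 5) (nat_lit 228) (nat_lit 5) (nat_lit 444) (nat_lit 375) (nat_lit 321)))) (XT.nd (nat_lit 156) (nat_lit 608) (nat_lit 0) (XT.nd (nat_lit 78) (nat_lit 532) (nat_lit 0) (XT.lf (nat_lit 0) (nat_lit 2557054593) (nat_lit 684) (nat_lit 2234189999) (nat_lit 76) (nat_lit 4402231747) (nat_lit 218) (nat_lit 5) (nat_lit 227) (nat_lit 5) (nat_lit 219) (nat_lit 5) (nat_lit 445) (nat_lit 375) (nat_lit 320)) (XT.lf (nat_lit 0) (nat_lit 3375567683) (nat_lit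 532) (nat_lit 1820078447) (nat_lit 608) (nat_lit 4091913741) (nat_lit 211) (nat_lit 5) (nat_lit 218) (nat_lit 5) (nat_lit 219) (nat_lit 5) (nat_lit 446) (nat_lit 375) (nat_lit 319))) (XT.nd (nat_lit 78) (nat_lit 608) (nat_lit 0) (XT.lf (nat_lit 0) (nat_lit 7875060122) (nat_lit 608) (nat_lit 307928745) (nat_lit 76) (nat_lit 1200798208) (nat_lit 211) (nat_lit 5) (nat_lit 219) (nat_lit 5) (nat_lit 212) (nat_lit 5) (nat_lit 447) (nat_lit 375) (nat_lit 318)) (XT.lf (nat_lit 0) (nat_lit 1124469269) (nat_lit 608) (nat_lit 4065480826) (nat_lit 76) (nat_lit 4291602321) (nat_lit 203) (nat_lit 5) (nat_lit 211) (nat_lit 5) (nat_lit 204) (nat_lit 5) (nat_lit 448) (nat_lit 375) (nat_lit 317))))) (XT.nd (nat_lit 234) (nat_lit 1140) (nat_lit 0) (XT.nd (nat_lit 78) (nat_lit 532) (nat_lit 0) (XT.lf (nat_lit 0) (nat_lit 1645202154) (nat_lit 532) (nat_lit 2123633060) (nat_lit 608) (nat_lit 5812685930) (nat_lit 196) (nat_lit 5) (nat_lit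 203) (nat_lit 5) (nat_lit 204) (nat_lit 5) (nat_lit 449) (nat_lit 375) (nat_lit 316)) (XT.nd (nat_lit 78) (nat_lit 532) (nat_lit 0) (XT.lf (nat_lit 0) (nat_lit 6466317326) (nat_lit 608) (nat_lit 2208641742) (nat_lit 76) (nat_lit 1008546865) (nat_lit 196) (nat_lit 5) (nat_lit 204) (nat_lit 5) (nat_lit 197) (nat_lit 5) (nat_lit 450) (nat_lit 375) (nat_lit 315)) (XT.lf (nat_lit 0) (nat_lit 3623711460) (nat_lit 532) (nat_lit 5598538714) (nat_lit 608) (nat_lit 565211068) (nat_lit 189) (nat_lit 5) (nat_lit 196) (nat_lit 5) (nat_lit 197) (nat_lit 5) (nat_lit 451) (nat_lit 375) (nat_lit 314)))) (XT.nd (nat_lit 156) (nat_lit 608) (nat_lit 0) (XT.nd (nat_lit 78) (nat_lit 456) (nat_lit 0) (XT.lf (nat_lit 0) (nat_lit 2093703571) (nat_lit 608) (nat_lit 348052303) (nat_lit 76) (nat_lit 7451842729) (nat_lit 188) (nat_lit 5) (nat_lit 196) (nat_lit 5) (nat_lit 189) (nat_lit 5) (nat_lit 452) (nat_lit 375) (nat_lit 313)) (XT.lf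 (nat_lit 0) (nat_lit 4807606337) (nat_lit 532) (nat_lit 4395824237) (nat_lit 76) (nat_lit 798185499) (nat_lit 182) (nat_lit 5) (nat_lit 189) (nat_lit 5) (nat_lit 183) (nat_lit 5) (nat_lit 453) (nat_lit 375) (nat_lit 312))) (XT.nd (nat_lit 78) (nat_lit 76) (nat_lit 0) (XT.lf (nat_lit 0) (nat_lit 1532629167) (nat_lit 532) (nat_lit 6039609630) (nat_lit 608) (nat_lit 2539645322) (nat_lit 175) (nat_lit 5) (nat_lit 182) (nat_lit 5) (nat_lit 183) (nat_lit 5) (nat_lit 454) (nat_lit 375) (nat_lit 311)) (XT.lf (nat_lit 0) (nat_lit 163400702) (nat_lit 608) (nat_lit 2628943084) (nat_lit 76) (nat_lit 7432054559) (nat_lit 174) (nat_lit 5) (nat_lit 182) (nat_lit 5) (nat_lit 175) (nat_lit 5) (nat_lit 455) (nat_lit 375) (nat_lit 310))))))))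
noncomputable def xc90 : XT := (XT.nd (nat_lit 2184) (nat_lit 3420) (nat_lit 0) (XT.nd (nat_lit 1092) (nat_lit 2812) (nat_lit 0) (XT.nd (nat_lit 546) (nat_lit 1748) (nat_lit 0) (XT.nd (nat_lit 234) (nat_lit 988) (nat_lit 0) (XT.nd (nat_lit 78) (nat_lit 456) (nat_lit 0) (XT.lf (nat_lit 0) (nat_lit 2881068288) (nat_lit 532) (nat_lit 6916379397) (nat_lit 76) (nat_lit 541506245) (nat_lit 168) (nat_lit 5) (nat_lit 175) (nat_lit 5) (nat_lit 169) (nat_lit 5) (nat_lit 456) (nat_lit 375) (nat_lit 309)) (XT.nd (nat_lit 78) (nat_lit 456) (nat_lit 0) (XT.lf (nat_lit 0) (nat_lit 5658335522) (nat_lit 532) (nat_lit 885868018) (nat_lit 76) (nat_lit 3911509954) (nat_lit 168) (nat_lit 5) (nat_lit 175) (nat_lit 5) (nat_lit 169) (nat_lit 5) (nat_lit 457) (nat_lit 375) (nat_lit 308)) (XT.lf (nat_lit 0) (nat_lit 5292936533) (nat_lit 456) (nat_lit 3202180282) (nat_lit 532) (nat_lit 2079629503) (nat_lit 162) (nat_lit 5) (nat_lit 168)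 (nat_lit 5) (nat_lit 169) (nat_lit 5) (nat_lit 458) (nat_lit 375) (nat_lit 307)))) (XT.nd (nat_lit 156) (nat_lit 456) (nat_lit 0) (XT.nd (nat_lit 78) (nat_lit 0) (nat_lit 0) (XT.lf (nat_lit 0) (nat_lit 666153961) (nat_lit 532) (nat_lit 9821469426) (nat_lit 76) (nat_lit 208808018) (nat_lit 155) (nat_lit 5) (nat_lit 162) (nat_lit 5) (nat_lit 156) (nat_lit 5) (nat_lit 459) (nat_lit 375) (nat_lit 306)) (XT.lf (nat_lit 0) (nat_lit 3465880227) (nat_lit 532) (nat_lit 3670733527) (nat_lit 76) (nat_lit 3683140482) (nat_lit 155) (nat_lit 5) (nat_lit 162) (nat_lit 5) (nat_lit 156) (nat_lit 5) (nat_lit 460) (nat_lit 375) (nat_lit 305))) (XT.nd (nat_lit 78) (nat_lit 0) (nat_lit 0) (XT.lf (nat_lit 0) (nat_lit 2595742969) (nat_lit 456) (nat_lit 3713262705) (nat_lit 532) (nat_lit 4636805872) (nat_lit 149) (nat_lit 5) (nat_lit 155) (nat_lit 5) (nat_lit 156) (nat_lit 5) (nat_lit 461) (nat_lit 375) (nat_lit 304)) (XT.lf (nat_lit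 0) (nat_lit 8996260826) (nat_lit 456) (nat_lit 208227656) (nat_lit 532) (nat_lit 1870007421) (nat_lit 149) (nat_lit 5) (nat_lit 155) (nat_lit 5) (nat_lit 156) (nat_lit 5) (nat_lit 462) (nat_lit 375) (nat_lit 303))))) (XT.nd (nat_lit 234) (nat_lit 836) (nat_lit 0) (XT.nd (nat_lit 78) (nat_lit 456) (nat_lit 0) (XT.lf (nat_lit 0) (nat_lit 960985737) (nat_lit 456) (nat_lit 6898678909) (nat_lit 76) (nat_lit 3345553929) (nat_lit 143) (nat_lit 5) (nat_lit 149) (nat_lit 5) (nat_lit 144) (nat_lit 5) (nat_lit 463) (nat_lit 375) (nat_lit 302)) (XT.nd (nat_lit 78) (nat_lit 456) (nat_lit 0) (XT.lf (nat_lit 0) (nat_lit 3810454062) (nat_lit 456) (nat_lit 545829621) (nat_lit 76) (nat_lit 6982301795) (nat_lit 143) (nat_lit 5) (nat_lit 149) (nat_lit 5) (nat_lit 144) (nat_lit 5) (nat_lit 464) (nat_lit 375) (nat_lit 301)) (XT.lf (nat_lit 0) (nat_lit 5972328077) (nat_lit 456) (nat_lit 755373617) (nat_lit 532) (nat_lit 4746716824)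 (nat_lit 137) (nat_lit 5) (nat_lit 143) (nat_lit 5) (nat_lit 144) (nat_lit 5) (nat_lit 465) (nat_lit 375) (nat_lit 300)))) (XT.nd (nat_lit 156) (nat_lit 380) (nat_lit 0) (XT.nd (nat_lit 78) (nat_lit 76) (nat_lit 0) (XT.lf (nat_lit 0) (nat_lit 968789088) (nat_lit 380) (nat_lit 8735650185) (nat_lit 456) (nat_lit 1908520354) (nat_lit 132) (nat_lit 5) (nat_lit 137) (nat_lit 5) (nat_lit 138) (nat_lit 5) (nat_lit 466) (nat_lit 375) (nat_lit 299)) (XT.lf (nat_lit 0) (nat_lit 987985586) (nat_lit 456) (nat_lit 4161935408) (nat_lit 76) (nat_lit 6603946567) (nat_lit 131) (nat_lit 5) (nat_lit 137) (nat_lit 5) (nat_lit 132) (nat_lit 5) (nat_lit 467) (nat_lit 375) (nat_lit 298))) (XT.nd (nat_lit 78) (nat_lit 0) (nat_lit 0) (XT.lf (nat_lit 0) (nat_lit 2429542469) (nat_lit 380) (nat_lit 1475979010) (nat_lit 456) (nat_lit 7992060255) (nat_lit 126) (nat_lit 5) (nat_lit 131) (nat_lit 5) (nat_lit 132) (nat_lit 5) (nat_lit 468) (nat_lit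 375) (nat_lit 297)) (XT.lf (nat_lit 0) (nat_lit 6897321838) (nat_lit 456) (nat_lit 2889113575) (nat_lit 76) (nat_lit 2257429721) (nat_lit 126) (nat_lit 5) (nat_lit 132) (nat_lit 5) (nat_lit 127) (nat_lit 5) (nat_lit 469) (nat_lit 375) (nat_lit 296)))))) (XT.nd (nat_lit 546) (nat_lit 1292) (nat_lit 0) (XT.nd (nat_lit 234) (nat_lit 760) (nat_lit 0) (XT.nd (nat_lit 78) (nat_lit 456) (nat_lit 0) (XT.lf (nat_lit 0) (nat_lit 3822697047) (nat_lit 304) (nat_lit 6134436029) (nat_lit 380) (nat_lit 2235790590) (nat_lit 122) (nat_lit 5) (nat_lit 126) (nat_lit 5) (nat_lit 127) (nat_lit 5) (nat_lit 470) (nat_lit 375) (nat_lit 295)) (XT.nd (nat_lit 78) (nat_lit 380) (nat_lit 0) (XT.lf (nat_lit 0) (nat_lit 716738366) (nat_lit 380) (nat_lit 1680717504) (nat_lit 76) (nat_lit 9947561210) (nat_lit 121) (nat_lit 5) (nat_lit 126) (nat_lit 5) (nat_lit 122) (nat_lit 5) (nat_lit 471) (nat_lit 375) (nat_lit 294)) (XT.lf (nat_lit 0) (nat_lit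 3715489492) (nat_lit 456) (nat_lit 7352117267) (nat_lit 76) (nat_lit 1431920070) (nat_lit 116) (nat_lit 5) (nat_lit 122) (nat_lit 5) (nat_lit 117) (nat_lit 5) (nat_lit 472) (nat_lit 375) (nat_lit 293)))) (XT.nd (nat_lit 156) (nat_lit 456) (nat_lit 0) (XT.nd (nat_lit 78) (nat_lit 304) (nat_lit 0) (XT.lf (nat_lit 0) (nat_lit 6775800600) (nat_lit 456) (nat_lit 576552325) (nat_lit 76) (nat_lit 5304754123) (nat_lit 116) (nat_lit 5) (nat_lit 122) (nat_lit 5) (nat_lit 117) (nat_lit 5) (nat_lit 473) (nat_lit 375) (nat_lit 292)) (XT.lf (nat_lit 0) (nat_lit 6380379249) (nat_lit 304) (nat_lit 3533221763) (nat_lit 380) (nat_lit 2903923934) (nat_lit 112) (nat_lit 5) (nat_lit 116) (nat_lit 5) (nat_lit 117) (nat_lit 5) (nat_lit 474) (nat_lit 375) (nat_lit 291))) (XT.nd (nat_lit 78) (nat_lit 0) (nat_lit 0) (XT.lf (nat_lit 0) (nat_lit 115462353) (nat_lit 456) (nat_lit 12513275107) (nat_lit 76) (nat_lit 352723745) (nat_lit 106)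 (nat_lit 5) (nat_lit 112) (nat_lit 5) (nat_lit 107) (nat_lit 5) (nat_lit 475) (nat_lit 375) (nat_lit 290)) (XT.lf (nat_lit 0) (nat_lit 3198364500) (nat_lit 456) (nat_lit 5629941411) (nat_lit 76) (nat_lit 4319157205) (nat_lit 106) (nat_lit 5) (nat_lit 112) (nat_lit 5) (nat_lit 107) (nat_lit 5) (nat_lit 476) (nat_lit 375) (nat_lit 289))))) (XT.nd (nat_lit 234) (nat_lit 684) (nat_lit 0) (XT.nd (nat_lit 78) (nat_lit 304) (nat_lit 0) (XT.lf (nat_lit 0) (nat_lit 1371701306) (nat_lit 304) (nat_lit 4955711540) (nat_lit 380) (nat_lit 6989693303) (nat_lit 102) (nat_lit 5) (nat_lit 106) (nat_lit 5) (nat_lit 107) (nat_lit 5) (nat_lit 477) (nat_lit 375) (nat_lit 288)) (XT.nd (nat_lit 78) (nat_lit 304) (nat_lit 0) (XT.lf (nat_lit 0) (nat_lit 8552590164) (nat_lit 304) (nat_lit 980051915) (nat_lit 380) (nat_lit 3957238597) (nat_lit 102) (nat_lit 5) (nat_lit 106) (nat_lit 5) (nat_lit 107) (nat_lit 5) (nat_lit 478) (nat_lit 375)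 (nat_lit 287)) (XT.lf (nat_lit 0) (nat_lit 2182872295) (nat_lit 304) (nat_lit 10629453894) (nat_lit 380) (nat_lit 853587922) (nat_lit 98) (nat_lit 5) (nat_lit 102) (nat_lit 5) (nat_lit 103) (nat_lit 5) (nat_lit 479) (nat_lit 375) (nat_lit 286)))) (XT.nd (nat_lit 156) (nat_lit 304) (nat_lit 0) (XT.nd (nat_lit 78) (nat_lit 304) (nat_lit 0) (XT.lf (nat_lit 0) (nat_lit 2297928367) (nat_lit 380) (nat_lit 4391022896) (nat_lit 76) (nat_lit 7155904398) (nat_lit 97) (nat_lit 5) (nat_lit 102) (nat_lit 5) (nat_lit 98) (nat_lit 5) (nat_lit 480) (nat_lit 375) (nat_lit 285)) (XT.lf (nat_lit 0) (nat_lit 2838270472) (nat_lit 304) (nat_lit 2657953815) (nat_lit 380) (nat_lit 8531145157) (nat_lit 93) (nat_lit 5) (nat_lit 97) (nat_lit 5) (nat_lit 98) (nat_lit 5) (nat_lit 481) (nat_lit 375) (nat_lit 284))) (XT.nd (nat_lit 78) (nat_lit 304) (nat_lit 0) (XT.lf (nat_lit 0) (nat_lit 8774465192) (nat_lit 380) (nat_lit 3987192850) (nat_lit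 76) (nat_lit 1451565509) (nat_lit 93) (nat_lit 5) (nat_lit 98) (nat_lit 5) (nat_lit 94) (nat_lit 5) (nat_lit 482) (nat_lit 375) (nat_lit 283)) (XT.lf (nat_lit 0) (nat_lit 3349503329) (nat_lit 304) (nat_lit 8785450167) (nat_lit 380) (nat_lit 2267517033) (nat_lit 89) (nat_lit 5) (nat_lit 93) (nat_lit 5) (nat_lit 94) (nat_lit 5) (nat_lit 483) (nat_lit 375) (nat_lit 282))))))) (XT.nd (nat_lit 1092) (nat_lit 1444) (nat_lit 0) (XT.nd (nat_lit 546) (nat_lit 1064) (nat_lit 0) (XT.nd (nat_lit 234) (nat_lit 608) (nat_lit 0) (XT.nd (nat_lit 78) (nat_lit 228) (nat_lit 0) (XT.lf (nat_lit 0) (nat_lit 958788353) (nat_lit 380) (nat_lit 3750093568) (nat_lit 76) (nat_lit 9886417541) (nat_lit 88) (nat_lit 5) (nat_lit 93) (nat_lit 5) (nat_lit 89) (nat_lit 5) (nat_lit 484) (nat_lit 375) (nat_lit 281)) (XT.nd (nat_lit 78) (nat_lit 0) (nat_lit 0) (XT.lf (nat_lit 0) (nat_lit 3697360890) (nat_lit 228) (nat_lit 523764546) (nat_lit 304)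 (nat_lit 10570531316) (nat_lit 85) (nat_lit 5) (nat_lit 88) (nat_lit 5) (nat_lit 89) (nat_lit 5) (nat_lit 485) (nat_lit 375) (nat_lit 280)) (XT.lf (nat_lit 0) (nat_lit 7576316271) (nat_lit 304) (nat_lit 3706408559) (nat_lit 76) (nat_lit 3708672941) (nat_lit 85) (nat_lit 5) (nat_lit 89) (nat_lit 5) (nat_lit 86) (nat_lit 5) (nat_lit 486) (nat_lit 375) (nat_lit 279)))) (XT.nd (nat_lit 156) (nat_lit 304) (nat_lit 0) (XT.nd (nat_lit 78) (nat_lit 0) (nat_lit 0) (XT.lf (nat_lit 0) (nat_lit 3841754548) (nat_lit 304) (nat_lit 7163660258) (nat_lit 380) (nat_lit 4189591276) (nat_lit 81) (nat_lit 5) (nat_lit 85) (nat_lit 5) (nat_lit 86) (nat_lit 5) (nat_lit 487) (nat_lit 375) (nat_lit 278)) (XT.lf (nat_lit 0) (nat_lit 11556949962) (nat_lit 304) (nat_lit 2949611146) (nat_lit 380) (nat_lit 896064518) (nat_lit 81) (nat_lit 5) (nat_lit 85) (nat_lit 5) (nat_lit 86) (nat_lit 5) (nat_lit 488) (nat_lit 375) (nat_lit 277))) (XT.nd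 (nat_lit 78) (nat_lit 0) (nat_lit 0) (XT.lf (nat_lit 0) (nat_lit 2443588388) (nat_lit 304) (nat_lit 11810692302) (nat_lit 76) (nat_lit 1359553804) (nat_lit 77) (nat_lit 5) (nat_lit 81) (nat_lit 5) (nat_lit 78) (nat_lit 5) (nat_lit 489) (nat_lit 375) (nat_lit 276)) (XT.lf (nat_lit 0) (nat_lit 5862539423) (nat_lit 304) (nat_lit 4231238294) (nat_lit 76) (nat_lit 5734889197) (nat_lit 77) (nat_lit 5) (nat_lit 81) (nat_lit 5) (nat_lit 78) (nat_lit 5) (nat_lit 490) (nat_lit 375) (nat_lit 275))))) (XT.nd (nat_lit 234) (nat_lit 456) (nat_lit 0) (XT.nd (nat_lit 78) (nat_lit 304) (nat_lit 0) (XT.lf (nat_lit 0) (nat_lit 3512624990) (nat_lit 304) (nat_lit 5839443813) (nat_lit 380) (nat_lit 6695690935) (nat_lit 73) (nat_lit 5) (nat_lit 77) (nat_lit 5) (nat_lit 78) (nat_lit 5) (nat_lit 491) (nat_lit 375) (nat_lit 274)) (XT.nd (nat_lit 78) (nat_lit 304) (nat_lit 0) (XT.lf (nat_lit 0) (nat_lit 11435691318) (nat_lit 304) (nat_lit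 1483673933) (nat_lit 380) (nat_lit 3351717233) (nat_lit 73) (nat_lit 5) (nat_lit 77) (nat_lit 5) (nat_lit 78) (nat_lit 5) (nat_lit 492) (nat_lit 375) (nat_lit 273)) (XT.lf (nat_lit 0) (nat_lit 77108220) (nat_lit 304) (nat_lit 13493167069) (nat_lit 76) (nat_lit 2928221056) (nat_lit 69) (nat_lit 5) (nat_lit 73) (nat_lit 5) (nat_lit 70) (nat_lit 5) (nat_lit 493) (nat_lit 375) (nat_lit 272)))) (XT.nd (nat_lit 156) (nat_lit 228) (nat_lit 0) (XT.nd (nat_lit 78) (nat_lit 228) (nat_lit 0) (XT.lf (nat_lit 0) (nat_lit 3552107909) (nat_lit 304) (nat_lit 5726405830) (nat_lit 76) (nat_lit 7451059259) (nat_lit 69) (nat_lit 5) (nat_lit 73) (nat_lit 5) (nat_lit 70) (nat_lit 5) (nat_lit 494) (nat_lit 375) (nat_lit 271)) (XT.lf (nat_lit 0) (nat_lit 2192317696) (nat_lit 228) (nat_lit 4898863782) (nat_lit 304) (nat_lit 9874205243) (nat_lit 66) (nat_lit 5) (nat_lit 69) (nat_lit 5) (nat_lit 70) (nat_lit 5) (nat_lit 495) (nat_lit 375)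 (nat_lit 270))) (XT.nd (nat_lit 78) (nat_lit 228) (nat_lit 0) (XT.lf (nat_lit 0) (nat_lit 10315124406) (nat_lit 228) (nat_lit 404857500) (nat_lit 304) (nat_lit 6485562782) (nat_lit 66) (nat_lit 5) (nat_lit 69) (nat_lit 5) (nat_lit 70) (nat_lit 5) (nat_lit 496) (nat_lit 375) (nat_lit 269)) (XT.lf (nat_lit 0) (nat_lit 1105651163) (nat_lit 228) (nat_lit 13330839878) (nat_lit 304) (nat_lit 3013718862) (nat_lit 63) (nat_lit 5) (nat_lit 66) (nat_lit 5) (nat_lit 67) (nat_lit 5) (nat_lit 497) (nat_lit 375) (nat_lit 268)))))) (XT.nd (nat_lit 546) (nat_lit 608) (nat_lit 0) (XT.nd (nat_lit 234) (nat_lit 532) (nat_lit 0) (XT.nd (nat_lit 78) (nat_lit 228) (nat_lit 0) (XT.lf (nat_lit 0) (nat_lit 550729508) (nat_lit 304) (nat_lit 8381861834) (nat_lit 76) (nat_lit 8766513323) (nat_lit 62) (nat_lit 5) (nat_lit 66) (nat_lit 5) (nat_lit 63) (nat_lit 5) (nat_lit 498) (nat_lit 375) (nat_lit 267)) (XT.nd (nat_lit 78) (nat_lit 228)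 (nat_lit 0) (XT.lf (nat_lit 0) (nat_lit 4127387055) (nat_lit 304) (nat_lit 310899789) (nat_lit 76) (nat_lit 13514672939) (nat_lit 62) (nat_lit 5) (nat_lit 66) (nat_lit 5) (nat_lit 63) (nat_lit 5) (nat_lit 499) (nat_lit 375) (nat_lit 266)) (XT.lf (nat_lit 0) (nat_lit 7810309748) (nat_lit 304) (nat_lit 10216513316) (nat_lit 76) (nat_lit 184380528) (nat_lit 59) (nat_lit 5) (nat_lit 63) (nat_lit 5) (nat_lit 60) (nat_lit 5) (nat_lit 500) (nat_lit 375) (nat_lit 265)))) (XT.nd (nat_lit 156) (nat_lit 304) (nat_lit 0) (XT.nd (nat_lit 78) (nat_lit 228) (nat_lit 0) (XT.lf (nat_lit 0) (nat_lit 11580074376) (nat_lit 304) (nat_lit 2063885224) (nat_lit 76) (nat_lit 4830395115) (nat_lit 59) (nat_lit 5) (nat_lit 63) (nat_lit 5) (nat_lit 60) (nat_lit 5) (nat_lit 501) (nat_lit 375) (nat_lit 264)) (XT.lf (nat_lit 0) (nat_lit 6304564556) (nat_lit 228) (nat_lit 9143652895) (nat_lit 304) (nat_lit 3294097734) (nat_lit 56) (nat_lit 5)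 (nat_lit 59) (nat_lit 5) (nat_lit 60) (nat_lit 5) (nat_lit 502) (nat_lit 375) (nat_lit 263))) (XT.nd (nat_lit 78) (nat_lit 228) (nat_lit 0) (XT.lf (nat_lit 0) (nat_lit 369156431) (nat_lit 304) (nat_lit 4179507938) (nat_lit 76) (nat_lit 14467006620) (nat_lit 55) (nat_lit 5) (nat_lit 59) (nat_lit 5) (nat_lit 56) (nat_lit 5) (nat_lit 503) (nat_lit 375) (nat_lit 262)) (XT.lf (nat_lit 0) (nat_lit 4072776848) (nat_lit 304) (nat_lit 15046583332) (nat_lit 76) (nat_lit 174479710) (nat_lit 52) (nat_lit 5) (nat_lit 56) (nat_lit 5) (nat_lit 53) (nat_lit 5) (nat_lit 504) (nat_lit 375) (nat_lit 261))))) (XT.nd (nat_lit 234) (nat_lit 456) (nat_lit 0) (XT.nd (nat_lit 78) (nat_lit 152) (nat_lit 0) (XT.lf (nat_lit 0) (nat_lit 7891340586) (nat_lit 304) (nat_lit 6737569772) (nat_lit 76) (nat_lit 4947849924) (nat_lit 52) (nat_lit 5) (nat_lit 56) (nat_lit 5) (nat_lit 53) (nat_lit 5) (nat_lit 505) (nat_lit 375) (nat_lit 260)) (XT.nd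 (nat_lit 78) (nat_lit 0) (nat_lit 0) (XT.lf (nat_lit 0) (nat_lit 1731450115) (nat_lit 152) (nat_lit 10048924922) (nat_lit 228) (nat_lit 8085087478) (nat_lit 50) (nat_lit 5) (nat_lit 52) (nat_lit 5) (nat_lit 53) (nat_lit 5) (nat_lit 506) (nat_lit 375) (nat_lit 259)) (XT.lf (nat_lit 0) (nat_lit 10432487723) (nat_lit 152) (nat_lit 5342922645) (nat_lit 228) (nat_lit 4383969338) (nat_lit 50) (nat_lit 5) (nat_lit 52) (nat_lit 5) (nat_lit 53) (nat_lit 5) (nat_lit 507) (nat_lit 375) (nat_lit 258)))) (XT.nd (nat_lit 156) (nat_lit 152) (nat_lit 0) (XT.nd (nat_lit 78) (nat_lit 304) (nat_lit 0) (XT.lf (nat_lit 0) (nat_lit 19279416466) (nat_lit 152) (nat_lit 554270674) (nat_lit 228) (nat_lit 625826497) (nat_lit 50) (nat_lit 5) (nat_lit 52) (nat_lit 5) (nat_lit 53) (nat_lit 5) (nat_lit 508) (nat_lit 375) (nat_lit 257)) (XT.lf (nat_lit 0) (nat_lit 3226741206) (nat_lit 304) (nat_lit 13204555194) (nat_lit 76) (nat_lit 4332715781)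 (nat_lit 46) (nat_lit 5) (nat_lit 50) (nat_lit 5) (nat_lit 47) (nat_lit 5) (nat_lit 509) (nat_lit 375) (nat_lit 256))) (XT.nd (nat_lit 78) (nat_lit 152) (nat_lit 0) (XT.lf (nat_lit 0) (nat_lit 7143254324) (nat_lit 304) (nat_lit 4620387424) (nat_lit 76) (nat_lit 9310975649) (nat_lit 46) (nat_lit 5) (nat_lit 50) (nat_lit 5) (nat_lit 47) (nat_lit 5) (nat_lit 510) (nat_lit 375) (nat_lit 255)) (XT.lf (nat_lit 0) (nat_lit 4162729023) (nat_lit 152) (nat_lit 6986340838) (nat_lit 228) (nat_lit 10242150227) (nat_lit 44) (nat_lit 5) (nat_lit 46) (nat_lit 5) (nat_lit 47) (nat_lit 5) (nat_lit 511) (nat_lit 375) (nat_lit 254))))))))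
noncomputable def xc91 : XT := (XT.nd (nat_lit 50544) (nat_lit 0) (nat_lit 22496) (XT.nd (nat_lit 1092) (nat_lit 228) (nat_lit 0) (XT.nd (nat_lit 546) (nat_lit 532) (nat_lit 0) (XT.nd (nat_lit 234) (nat_lit 152) (nat_lit 0) (XT.nd (nat_lit 78) (nat_lit 304) (nat_lit 0) (XT.lf (nat_lit 0) (nat_lit 13156988551) (nat_lit 152) (nat_lit 2093101880) (nat_lit 228) (nat_lit 6463767350) (nat_lit 44) (nat_lit 5) (nat_lit 46) (nat_lit 5) (nat_lit 47) (nat_lit 5) (nat_lit 512) (nat_lit 375) (nat_lit 253)) (XT.nd (nat_lit 78) (nat_lit 76) (nat_lit 0) (XT.lf (nat_lit 0) (nat_lit 245729395) (nat_lit 228) (nat_lit 19192137279) (nat_lit 304) (nat_lit 2604991475) (nat_lit 41) (nat_lit 5) (nat_lit 44) (nat_lit 5) (nat_lit 45) (nat_lit 5) (nat_lit 513) (nat_lit 375) (nat_lit 252)) (XT.lf (nat_lit 0) (nat_lit 1369517887) (nat_lit 304) (nat_lit 13086701214) (nat_lit 76) (nat_lit 7920930768) (nat_lit 40) (nat_lit 5) (nat_lit 44) (nat_lit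 5) (nat_lit 41) (nat_lit 5) (nat_lit 514) (nat_lit 375) (nat_lit 251)))) (XT.nd (nat_lit 156) (nat_lit 0) (nat_lit 0) (XT.nd (nat_lit 78) (nat_lit 152) (nat_lit 0) (XT.lf (nat_lit 0) (nat_lit 5373326832) (nat_lit 304) (nat_lit 4245687673) (nat_lit 76) (nat_lit 13099079095) (nat_lit 40) (nat_lit 5) (nat_lit 44) (nat_lit 5) (nat_lit 41) (nat_lit 5) (nat_lit 515) (nat_lit 375) (nat_lit 250)) (XT.lf (nat_lit 0) (nat_lit 4809367989) (nat_lit 152) (nat_lit 4664028031) (nat_lit 228) (nat_lit 13592140781) (nat_lit 38) (nat_lit 5) (nat_lit 40) (nat_lit 5) (nat_lit 41) (nat_lit 5) (nat_lit 516) (nat_lit 375) (nat_lit 249))) (XT.nd (nat_lit 78) (nat_lit 0) (nat_lit 0) (XT.lf (nat_lit 0) (nat_lit 13671695292) (nat_lit 228) (nat_lit 9344920380) (nat_lit 76) (nat_lit 402992809) (nat_lit 38) (nat_lit 5) (nat_lit 41) (nat_lit 5) (nat_lit 39) (nat_lit 5) (nat_lit 517) (nat_lit 375) (nat_lit 248)) (XT.lf (nat_lit 0) (nat_lit 17970158647)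 (nat_lit 228) (nat_lit 311742734) (nat_lit 76) (nat_lit 5498540365) (nat_lit 38) (nat_lit 5) (nat_lit 41) (nat_lit 5) (nat_lit 39) (nat_lit 5) (nat_lit 518) (nat_lit 375) (nat_lit 247))))) (XT.nd (nat_lit 234) (nat_lit 152) (nat_lit 0) (XT.nd (nat_lit 78) (nat_lit 228) (nat_lit 0) (XT.lf (nat_lit 0) (nat_lit 8995161677) (nat_lit 152) (nat_lit 13403430671) (nat_lit 228) (nat_lit 1749023334) (nat_lit 36) (nat_lit 5) (nat_lit 38) (nat_lit 5) (nat_lit 39) (nat_lit 5) (nat_lit 519) (nat_lit 375) (nat_lit 246)) (XT.nd (nat_lit 78) (nat_lit 152) (nat_lit 0) (XT.lf (nat_lit 0) (nat_lit 2349798530) (nat_lit 228) (nat_lit 6070156143) (nat_lit 76) (nat_lit 16102116947) (nat_lit 35) (nat_lit 5) (nat_lit 38) (nat_lit 5) (nat_lit 36) (nat_lit 5) (nat_lit 520) (nat_lit 375) (nat_lit 245)) (XT.lf (nat_lit 0) (nat_lit 3199717630) (nat_lit 152) (nat_lit 3314160057) (nat_lit 228) (nat_lit 18389777558) (nat_lit 33) (nat_lit 5) (nat_lit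 35) (nat_lit 5) (nat_lit 36) (nat_lit 5) (nat_lit 521) (nat_lit 375) (nat_lit 244)))) (XT.nd (nat_lit 156) (nat_lit 152) (nat_lit 0) (XT.nd (nat_lit 78) (nat_lit 0) (nat_lit 0) (XT.lf (nat_lit 0) (nat_lit 10800493036) (nat_lit 228) (nat_lit 12591857095) (nat_lit 76) (nat_lit 1899739044) (nat_lit 33) (nat_lit 5) (nat_lit 36) (nat_lit 5) (nat_lit 34) (nat_lit 5) (nat_lit 522) (nat_lit 375) (nat_lit 243)) (XT.lf (nat_lit 0) (nat_lit 15181019575) (nat_lit 228) (nat_lit 3343509931) (nat_lit 76) (nat_lit 7163602347) (nat_lit 33) (nat_lit 5) (nat_lit 36) (nat_lit 5) (nat_lit 34) (nat_lit 5) (nat_lit 523) (nat_lit 375) (nat_lit 242))) (XT.nd (nat_lit 78) (nat_lit 0) (nat_lit 0) (XT.lf (nat_lit 0) (nat_lit 6146865650) (nat_lit 152) (nat_lit 13528701311) (nat_lit 228) (nat_lit 6416003797) (nat_lit 31) (nat_lit 5) (nat_lit 33) (nat_lit 5) (nat_lit 34) (nat_lit 5) (nat_lit 524) (nat_lit 375) (nat_lit 241)) (XT.lf (nat_lit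 0) (nat_lit 15848970099) (nat_lit 152) (nat_lit 8420085451) (nat_lit 228) (nat_lit 2233845391) (nat_lit 31) (nat_lit 5) (nat_lit 33) (nat_lit 5) (nat_lit 34) (nat_lit 5) (nat_lit 525) (nat_lit 375) (nat_lit 240)))))) (XT.nd (nat_lit 48906) (nat_lit 0) (nat_lit 42864) (XT.nd (nat_lit 48594) (nat_lit 0) (nat_lit 45372) (XT.nd (nat_lit 78) (nat_lit 152) (nat_lit 0) (XT.lf (nat_lit 0) (nat_lit 1992092428) (nat_lit 228) (nat_lit 1213654844) (nat_lit 76) (nat_lit 23716714260) (nat_lit 30) (nat_lit 5) (nat_lit 33) (nat_lit 5) (nat_lit 31) (nat_lit 5) (nat_lit 526) (nat_lit 375) (nat_lit 239)) (XT.nd (nat_lit 78) (nat_lit 0) (nat_lit 0) (XT.lf (nat_lit 0) (nat_lit 6328946924) (nat_lit 228) (nat_lit 18874091486) (nat_lit 76) (nat_lit 2145956731) (nat_lit 28) (nat_lit 5) (nat_lit 31) (nat_lit 5) (nat_lit 29) (nat_lit 5) (nat_lit 527) (nat_lit 375) (nat_lit 238)) (XT.lf (nat_lit 0) (nat_lit 10769056671) (nat_lit 228) (nat_lit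 9454211711) (nat_lit 76) (nat_lit 7560463918) (nat_lit 28) (nat_lit 5) (nat_lit 31) (nat_lit 5) (nat_lit 29) (nat_lit 5) (nat_lit 528) (nat_lit 375) (nat_lit 237)))) (XT.nd (nat_lit 156) (nat_lit 456) (nat_lit 0) (XT.nd (nat_lit 78) (nat_lit 380) (nat_lit 0) (XT.lf (nat_lit 0) (nat_lit 3024102976) (nat_lit 228) (nat_lit 106511797) (nat_lit 228) (nat_lit 106511797) (nat_lit 636) (nat_lit 4) (nat_lit 639) (nat_lit 5) (nat_lit 639) (nat_lit 4) (nat_lit 388) (nat_lit 376) (nat_lit 376)) (XT.lf (nat_lit 0) (nat_lit 2778919994) (nat_lit 380) (nat_lit 3532871749) (nat_lit 0) (nat_lit 170948315) (nat_lit 631) (nat_lit 5) (nat_lit 636) (nat_lit 4) (nat_lit 631) (nat_lit 4) (nat_lit 389) (nat_lit 376) (nat_lit 375))) (XT.nd (nat_lit 78) (nat_lit 456) (nat_lit 0) (XT.lf (nat_lit 0) (nat_lit 5758426871) (nat_lit 380) (nat_lit 140813598) (nat_lit 0) (nat_lit 593620214) (nat_lit 631) (nat_lit 5) (nat_lit 636) (nat_lit 4) (nat_lit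 631) (nat_lit 4) (nat_lit 390) (nat_lit 376) (nat_lit 374)) (XT.lf (nat_lit 0) (nat_lit 2213085324) (nat_lit 456) (nat_lit 3201075261) (nat_lit 76) (nat_lit 1089848132) (nat_lit 625) (nat_lit 5) (nat_lit 631) (nat_lit 5) (nat_lit 626) (nat_lit 4) (nat_lit 391) (nat_lit 376) (nat_lit 373))))) (XT.nd (nat_lit 234) (nat_lit 1444) (nat_lit 0) (XT.nd (nat_lit 78) (nat_lit 608) (nat_lit 0) (XT.lf (nat_lit 0) (nat_lit 255007331) (nat_lit 456) (nat_lit 4885618861) (nat_lit 532) (nat_lit 1376136007) (nat_lit 619) (nat_lit 5) (nat_lit 625) (nat_lit 5) (nat_lit 626) (nat_lit 4) (nat_lit 392) (nat_lit 376) (nat_lit 372)) (XT.nd (nat_lit 78) (nat_lit 532) (nat_lit 0) (XT.lf (nat_lit 0) (nat_lit 1526465501) (nat_lit 532) (nat_lit 2762559091) (nat_lit 76) (nat_lit 2241623430) (nat_lit 618) (nat_lit 5) (nat_lit 625) (nat_lit 5) (nat_lit 619) (nat_lit 5) (nat_lit 393) (nat_lit 376) (nat_lit 371)) (XT.lf (nat_lit 0) (nat_lit 762099984)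 (nat_lit 532) (nat_lit 3641792647) (nat_lit 608) (nat_lit 2142125059) (nat_lit 611) (nat_lit 5) (nat_lit 618) (nat_lit 5) (nat_lit 619) (nat_lit 5) (nat_lit 394) (nat_lit 376) (nat_lit 370)))) (XT.nd (nat_lit 156) (nat_lit 760) (nat_lit 0) (XT.nd (nat_lit 78) (nat_lit 608) (nat_lit 0) (XT.lf (nat_lit 0) (nat_lit 716407685) (nat_lit 608) (nat_lit 2217905300) (nat_lit 76) (nat_lit 3628380786) (nat_lit 610) (nat_lit 5) (nat_lit 618) (nat_lit 5) (nat_lit 611) (nat_lit 5) (nat_lit 395) (nat_lit 376) (nat_lit 369)) (XT.lf (nat_lit 0) (nat_lit 1378107302) (nat_lit 608) (nat_lit 2166418565) (nat_lit 684) (nat_lit 3036159105) (nat_lit 602) (nat_lit 5) (nat_lit 610) (nat_lit 5) (nat_lit 611) (nat_lit 5) (nat_lit 396) (nat_lit 376) (nat_lit 368))) (XT.nd (nat_lit 78) (nat_lit 760) (nat_lit 0) (XT.lf (nat_lit 0) (nat_lit 5031193951) (nat_lit 608) (nat_lit 1346058538) (nat_lit 684) (nat_lit 222907630) (nat_lit 602) (nat_lit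 5) (nat_lit 610) (nat_lit 5) (nat_lit 611) (nat_lit 5) (nat_lit 397) (nat_lit 376) (nat_lit 367)) (XT.lf (nat_lit 0) (nat_lit 2102722290) (nat_lit 684) (nat_lit 456785164) (nat_lit 760) (nat_lit 4061303196) (nat_lit 592) (nat_lit 5) (nat_lit 601) (nat_lit 5) (nat_lit 602) (nat_lit 5) (nat_lit 398) (nat_lit 376) (nat_lit 366))))))) (XT.nd (nat_lit 1092) (nat_lit 11780) (nat_lit 0) (XT.nd (nat_lit 546) (nat_lit 4864) (nat_lit 0) (XT.nd (nat_lit 234) (nat_lit 2052) (nat_lit 0) (XT.nd (nat_lit 78) (nat_lit 1672) (nat_lit 0) (XT.lf (nat_lit 0) (nat_lit 5343204625) (nat_lit 760) (nat_lit 823227089) (nat_lit 76) (nat_lit 476520776) (nat_lit 592) (nat_lit 5) (nat_lit 602) (nat_lit 5) (nat_lit 593) (nat_lit 5) (nat_lit 399) (nat_lit 376) (nat_lit 365)) (XT.nd (nat_lit 78) (nat_lit 836) (nat_lit 0) (XT.lf (nat_lit 0) (nat_lit 1455241887) (nat_lit 836) (nat_lit 3740312287) (nat_lit 76) (nat_lit 1470701037) (nat_lit 581)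 (nat_lit 5) (nat_lit 592) (nat_lit 5) (nat_lit 582) (nat_lit 5) (nat_lit 400) (nat_lit 376) (nat_lit 364)) (XT.lf (nat_lit 0) (nat_lit 17003426) (nat_lit 836) (nat_lit 4173442956) (nat_lit 912) (nat_lit 2500630921) (nat_lit 570) (nat_lit 5) (nat_lit 581) (nat_lit 5) (nat_lit 582) (nat_lit 5) (nat_lit 401) (nat_lit 376) (nat_lit 363)))) (XT.nd (nat_lit 156) (nat_lit 1064) (nat_lit 0) (XT.nd (nat_lit 78) (nat_lit 912) (nat_lit 0) (XT.lf (nat_lit 0) (nat_lit 223051260) (nat_lit 912) (nat_lit 2864128684) (nat_lit 76) (nat_lit 3630003120) (nat_lit 569) (nat_lit 5) (nat_lit 581) (nat_lit 5) (nat_lit 570) (nat_lit 5) (nat_lit 402) (nat_lit 376) (nat_lit 362)) (XT.lf (nat_lit 0) (nat_lit 972601782) (nat_lit 912) (nat_lit 1939985888) (nat_lit 988) (nat_lit 3832066566) (nat_lit 557) (nat_lit 5) (nat_lit 569) (nat_lit 5) (nat_lit 570) (nat_lit 5) (nat_lit 403) (nat_lit 376) (nat_lit 361))) (XT.nd (nat_lit 78) (nat_lit 1064)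 (nat_lit 0) (XT.lf (nat_lit 0) (nat_lit 4879581926) (nat_lit 912) (nat_lit 734982005) (nat_lit 988) (nat_lit 1159007682) (nat_lit 557) (nat_lit 5) (nat_lit 569) (nat_lit 5) (nat_lit 570) (nat_lit 5) (nat_lit 404) (nat_lit 376) (nat_lit 360)) (XT.lf (nat_lit 0) (nat_lit 1503766407) (nat_lit 1064) (nat_lit 4774486149) (nat_lit 76) (nat_lit 525542045) (nat_lit 543) (nat_lit 5) (nat_lit 557) (nat_lit 5) (nat_lit 544) (nat_lit 5) (nat_lit 405) (nat_lit 376) (nat_lit 359))))) (XT.nd (nat_lit 234) (nat_lit 2584) (nat_lit 0) (XT.nd (nat_lit 78) (nat_lit 2280) (nat_lit 0) (XT.lf (nat_lit 0) (nat_lit 4163080935) (nat_lit 1064) (nat_lit 836569634) (nat_lit 76) (nat_lit 1835707920) (nat_lit 543) (nat_lit 5) (nat_lit 557) (nat_lit 5) (nat_lit 544) (nat_lit 5) (nat_lit 406) (nat_lit 376) (nat_lit 358)) (XT.nd (nat_lit 78) (nat_lit 1216) (nat_lit 0) (XT.lf (nat_lit 0) (nat_lit 3176351163) (nat_lit 1064) (nat_lit 3662136209)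 (nat_lit 1140) (nat_lit 29872620) (nat_lit 529) (nat_lit 5) (nat_lit 543) (nat_lit 5) (nat_lit 544) (nat_lit 5) (nat_lit 407) (nat_lit 376) (nat_lit 357)) (XT.lf (nat_lit 0) (nat_lit 319876319) (nat_lit 1140) (nat_lit 2260957405) (nat_lit 1216) (nat_lit 4321895437) (nat_lit 513) (nat_lit 5) (nat_lit 528) (nat_lit 5) (nat_lit 529) (nat_lit 5) (nat_lit 408) (nat_lit 376) (nat_lit 356)))) (XT.nd (nat_lit 156) (nat_lit 1292) (nat_lit 0) (XT.nd (nat_lit 78) (nat_lit 1292) (nat_lit 0) (XT.lf (nat_lit 0) (nat_lit 4416209715) (nat_lit 1140) (nat_lit 795428872) (nat_lit 1216) (nat_lit 1726838225) (nat_lit 513) (nat_lit 5) (nat_lit 528) (nat_lit 5) (nat_lit 529) (nat_lit 5) (nat_lit 409) (nat_lit 376) (nat_lit 355)) (XT.lf (nat_lit 0) (nat_lit 867276166) (nat_lit 1292) (nat_lit 5391649667) (nat_lit 76) (nat_lit 716768007) (nat_lit 496) (nat_lit 5) (nat_lit 513) (nat_lit 5) (nat_lit 497) (nat_lit 5) (nat_lit 410) (nat_lit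 376) (nat_lit 354))) (XT.nd (nat_lit 78) (nat_lit 1292) (nat_lit 0) (XT.lf (nat_lit 0) (nat_lit 3457533720) (nat_lit 1292) (nat_lit 1269922431) (nat_lit 76) (nat_lit 2286680334) (nat_lit 496) (nat_lit 5) (nat_lit 513) (nat_lit 5) (nat_lit 497) (nat_lit 5) (nat_lit 411) (nat_lit 376) (nat_lit 353)) (XT.lf (nat_lit 0) (nat_lit 2927077957) (nat_lit 1292) (nat_lit 3137656386) (nat_lit 1368) (nat_lit 989366991) (nat_lit 479) (nat_lit 5) (nat_lit 496) (nat_lit 5) (nat_lit 497) (nat_lit 5) (nat_lit 412) (nat_lit 376) (nat_lit 352)))))) (XT.nd (nat_lit 546) (nat_lit 5624) (nat_lit 0) (XT.nd (nat_lit 234) (nat_lit 3268) (nat_lit 0) (XT.nd (nat_lit 78) (nat_lit 1444) (nat_lit 0) (XT.lf (nat_lit 0) (nat_lit 74869068) (nat_lit 1368) (nat_lit 1488531208) (nat_lit 1444) (nat_lit 5532196492) (nat_lit 460) (nat_lit 5) (nat_lit 478) (nat_lit 5) (nat_lit 479) (nat_lit 5) (nat_lit 413) (nat_lit 376) (nat_lit 351)) (XT.nd (nat_lit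 78) (nat_lit 1444) (nat_lit 0) (XT.lf (nat_lit 0) (nat_lit 4130410365) (nat_lit 1444) (nat_lit 2775485256) (nat_lit 76) (nat_lit 232419867) (nat_lit 460) (nat_lit 5) (nat_lit 479) (nat_lit 5) (nat_lit 461) (nat_lit 5) (nat_lit 414) (nat_lit 376) (nat_lit 350)) (XT.lf (nat_lit 0) (nat_lit 1518775232) (nat_lit 1444) (nat_lit 5198025691) (nat_lit 1520) (nat_lit 465778688) (nat_lit 441) (nat_lit 5) (nat_lit 460) (nat_lit 5) (nat_lit 461) (nat_lit 5) (nat_lit 415) (nat_lit 376) (nat_lit 349)))) (XT.nd (nat_lit 156) (nat_lit 1672) (nat_lit 0) (XT.nd (nat_lit 78) (nat_lit 1520) (nat_lit 0) (XT.lf (nat_lit 0) (nat_lit 2066690946) (nat_lit 1520) (nat_lit 1351125559) (nat_lit 76) (nat_lit 3810338129) (nat_lit 440) (nat_lit 5) (nat_lit 460) (nat_lit 5) (nat_lit 441) (nat_lit 5) (nat_lit 416) (nat_lit 376) (nat_lit 348)) (XT.lf (nat_lit 0) (nat_lit 3039112153) (nat_lit 1520) (nat_lit 1573856497) (nat_lit 1596) (nat_lit 2662271871)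 (nat_lit 420) (nat_lit 5) (nat_lit 440) (nat_lit 5) (nat_lit 441) (nat_lit 5) (nat_lit 417) (nat_lit 376) (nat_lit 347))) (XT.nd (nat_lit 78) (nat_lit 76) (nat_lit 0) (XT.lf (nat_lit 0) (nat_lit 166270822) (nat_lit 1596) (nat_lit 7006481176) (nat_lit 1672) (nat_lit 151312413) (nat_lit 399) (nat_lit 5) (nat_lit 420) (nat_lit 5) (nat_lit 421) (nat_lit 5) (nat_lit 418) (nat_lit 376) (nat_lit 346)) (XT.lf (nat_lit 0) (nat_lit 2367983025) (nat_lit 1672) (nat_lit 2732050569) (nat_lit 76) (nat_lit 2273769832) (nat_lit 398) (nat_lit 5) (nat_lit 420) (nat_lit 5) (nat_lit 399) (nat_lit 5) (nat_lit 419) (nat_lit 376) (nat_lit 345))))) (XT.nd (nat_lit 312) (nat_lit 1748) (nat_lit 0) (XT.nd (nat_lit 156) (nat_lit 2204) (nat_lit 0) (XT.nd (nat_lit 78) (nat_lit 0) (nat_lit 0) (XT.lf (nat_lit 0) (nat_lit 1758546783) (nat_lit 1672) (nat_lit 3140162848) (nat_lit 1748) (nat_lit 2526591287) (nat_lit 376) (nat_lit 5) (nat_lit 398)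 (nat_lit 5) (nat_lit 399) (nat_lit 5) (nat_lit 420) (nat_lit 376) (nat_lit 344)) (XT.lf (nat_lit 0) (nat_lit 6330568435) (nat_lit 1672) (nat_lit 1120120718) (nat_lit 1748) (nat_lit 27770681) (nat_lit 376) (nat_lit 5) (nat_lit 398) (nat_lit 5) (nat_lit 399) (nat_lit 5) (nat_lit 421) (nat_lit 376) (nat_lit 343))) (XT.nd (nat_lit 78) (nat_lit 836) (nat_lit 0) (XT.lf (nat_lit 0) (nat_lit 2469591355) (nat_lit 1368) (nat_lit 4094303741) (nat_lit 76) (nat_lit 968869418) (nat_lit 358) (nat_lit 5) (nat_lit 376) (nat_lit 5) (nat_lit 359) (nat_lit 5) (nat_lit 422) (nat_lit 376) (nat_lit 342)) (XT.lf (nat_lit 0) (nat_lit 497081607) (nat_lit 836) (nat_lit 4491376989) (nat_lit 912) (nat_lit 2600296113) (nat_lit 347) (nat_lit 5) (nat_lit 358) (nat_lit 5) (nat_lit 359) (nat_lit 5) (nat_lit 423) (nat_lit 376) (nat_lit 341)))) (XT.nd (nat_lit 156) (nat_lit 836) (nat_lit 0) (XT.nd (nat_lit 78) (nat_lit 912) (nat_lit 0) (XT.lf (nat_lit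 0) (nat_lit 5190212396) (nat_lit 836) (nat_lit 2349111044) (nat_lit 912) (nat_lit 106949735) (nat_lit 347) (nat_lit 5) (nat_lit 358) (nat_lit 5) (nat_lit 359) (nat_lit 5) (nat_lit 424) (nat_lit 376) (nat_lit 340)) (XT.lf (nat_lit 0) (nat_lit 2240501452) (nat_lit 836) (nat_lit 133064075) (nat_lit 912) (nat_lit 5331714332) (nat_lit 335) (nat_lit 5) (nat_lit 346) (nat_lit 5) (nat_lit 347) (nat_lit 5) (nat_lit 425) (nat_lit 376) (nat_lit 339))) (XT.nd (nat_lit 78) (nat_lit 836) (nat_lit 0) (XT.lf (nat_lit 0) (nat_lit 4887963584) (nat_lit 912) (nat_lit 761440011) (nat_lit 76) (nat_lit 2116373368) (nat_lit 335) (nat_lit 5) (nat_lit 347) (nat_lit 5) (nat_lit 336) (nat_lit 5) (nat_lit 426) (nat_lit 376) (nat_lit 338)) (XT.lf (nat_lit 0) (nat_lit 4043049302) (nat_lit 836) (nat_lit 3392908862) (nat_lit 912) (nat_lit 391897433) (nat_lit 324) (nat_lit 5) (nat_lit 335) (nat_lit 5) (nat_lit 336) (nat_lit 5) (nat_lit 427) (nat_lit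 376) (nat_lit 337))))))))
noncomputable def xc92 : XT := (XT.nd (nat_lit 2184) (nat_lit 6232) (nat_lit 0) (XT.nd (nat_lit 1092) (nat_lit 4560) (nat_lit 0) (XT.nd (nat_lit 546) (nat_lit 3496) (nat_lit 0) (XT.nd (nat_lit 234) (nat_lit 1596) (nat_lit 0) (XT.nd (nat_lit 78) (nat_lit 760) (nat_lit 0) (XT.lf (nat_lit 0) (nat_lit 1016881581) (nat_lit 836) (nat_lit 1066908363) (nat_lit 912) (nat_lit 5807780410) (nat_lit 312) (nat_lit 5) (nat_lit 323) (nat_lit 5) (nat_lit 324) (nat_lit 5) (nat_lit 428) (nat_lit 376) (nat_lit 336)) (XT.nd (nat_lit 78) (nat_lit 760) (nat_lit 0) (XT.lf (nat_lit 0) (nat_lit 4594762803) (nat_lit 912) (nat_lit 2047347482) (nat_lit 76) (nat_lit 1314612509) (nat_lit 312) (nat_lit 5) (nat_lit 324) (nat_lit 5) (nat_lit 313) (nat_lit 5) (nat_lit 429) (nat_lit 376) (nat_lit 335)) (XT.lf (nat_lit 0) (nat_lit 2861948364) (nat_lit 760) (nat_lit 4277468933) (nat_lit 836) (nat_lit 884126626) (nat_lit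 302) (nat_lit 5) (nat_lit 312) (nat_lit 5) (nat_lit 313) (nat_lit 5) (nat_lit 430) (nat_lit 376) (nat_lit 334)))) (XT.nd (nat_lit 156) (nat_lit 760) (nat_lit 0) (XT.nd (nat_lit 78) (nat_lit 760) (nat_lit 0) (XT.lf (nat_lit 0) (nat_lit 1593583313) (nat_lit 836) (nat_lit 250360672) (nat_lit 76) (nat_lit 6248140206) (nat_lit 301) (nat_lit 5) (nat_lit 312) (nat_lit 5) (nat_lit 302) (nat_lit 5) (nat_lit 431) (nat_lit 376) (nat_lit 333)) (XT.lf (nat_lit 0) (nat_lit 4103229658) (nat_lit 836) (nat_lit 3395126438) (nat_lit 76) (nat_lit 663670743) (nat_lit 291) (nat_lit 5) (nat_lit 302) (nat_lit 5) (nat_lit 292) (nat_lit 5) (nat_lit 432) (nat_lit 376) (nat_lit 332))) (XT.nd (nat_lit 78) (nat_lit 76) (nat_lit 0) (XT.lf (nat_lit 0) (nat_lit 1618575044) (nat_lit 684) (nat_lit 5028266686) (nat_lit 760) (nat_lit 1586883383) (nat_lit 282) (nat_lit 5) (nat_lit 291) (nat_lit 5) (nat_lit 292) (nat_lit 5) (nat_lit 433) (nat_lit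 376) (nat_lit 331)) (XT.lf (nat_lit 0) (nat_lit 904717802) (nat_lit 760) (nat_lit 1579315450) (nat_lit 76) (nat_lit 5823083636) (nat_lit 281) (nat_lit 5) (nat_lit 291) (nat_lit 5) (nat_lit 282) (nat_lit 5) (nat_lit 434) (nat_lit 376) (nat_lit 330))))) (XT.nd (nat_lit 234) (nat_lit 1976) (nat_lit 0) (XT.nd (nat_lit 78) (nat_lit 760) (nat_lit 0) (XT.lf (nat_lit 0) (nat_lit 3409240482) (nat_lit 836) (nat_lit 4834150632) (nat_lit 76) (nat_lit 138719210) (nat_lit 271) (nat_lit 5) (nat_lit 282) (nat_lit 5) (nat_lit 272) (nat_lit 5) (nat_lit 435) (nat_lit 376) (nat_lit 329)) (XT.nd (nat_lit 78) (nat_lit 76) (nat_lit 0) (XT.lf (nat_lit 0) (nat_lit 283120059) (nat_lit 684) (nat_lit 5670512972) (nat_lit 760) (nat_lit 2505204784) (nat_lit 262) (nat_lit 5) (nat_lit 271) (nat_lit 5) (nat_lit 272) (nat_lit 5) (nat_lit 436) (nat_lit 376) (nat_lit 328)) (XT.lf (nat_lit 0) (nat_lit 5329297) (nat_lit 760) (nat_lit 3013598827)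 (nat_lit 76) (nat_lit 5518325400) (nat_lit 261) (nat_lit 5) (nat_lit 271) (nat_lit 5) (nat_lit 262) (nat_lit 5) (nat_lit 437) (nat_lit 376) (nat_lit 327)))) (XT.nd (nat_lit 156) (nat_lit 1292) (nat_lit 0) (XT.nd (nat_lit 78) (nat_lit 0) (nat_lit 0) (XT.lf (nat_lit 0) (nat_lit 2220052242) (nat_lit 684) (nat_lit 288703056) (nat_lit 760) (nat_lit 6108654600) (nat_lit 252) (nat_lit 5) (nat_lit 261) (nat_lit 5) (nat_lit 262) (nat_lit 5) (nat_lit 438) (nat_lit 376) (nat_lit 326)) (XT.lf (nat_lit 0) (nat_lit 5061017506) (nat_lit 760) (nat_lit 1160566185) (nat_lit 76) (nat_lit 2477637859) (nat_lit 252) (nat_lit 5) (nat_lit 262) (nat_lit 5) (nat_lit 253) (nat_lit 5) (nat_lit 439) (nat_lit 376) (nat_lit 325))) (XT.nd (nat_lit 78) (nat_lit 684) (nat_lit 0) (XT.lf (nat_lit 0) (nat_lit 4190193267) (nat_lit 608) (nat_lit 3466194654) (nat_lit 684) (nat_lit 1126467224) (nat_lit 244) (nat_lit 5) (nat_lit 252) (nat_lit 5) (nat_lit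 253) (nat_lit 5) (nat_lit 440) (nat_lit 376) (nat_lit 324)) (XT.lf (nat_lit 0) (nat_lit 752147934) (nat_lit 608) (nat_lit 640373472) (nat_lit 684) (nat_lit 7475962638) (nat_lit 235) (nat_lit 5) (nat_lit 243) (nat_lit 5) (nat_lit 244) (nat_lit 5) (nat_lit 441) (nat_lit 376) (nat_lit 323)))))) (XT.nd (nat_lit 546) (nat_lit 2128) (nat_lit 0) (XT.nd (nat_lit 234) (nat_lit 1748) (nat_lit 0) (XT.nd (nat_lit 78) (nat_lit 684) (nat_lit 0) (XT.lf (nat_lit 0) (nat_lit 3955912669) (nat_lit 684) (nat_lit 2755776786) (nat_lit 76) (nat_lit 2243830436) (nat_lit 235) (nat_lit 5) (nat_lit 244) (nat_lit 5) (nat_lit 236) (nat_lit 5) (nat_lit 442) (nat_lit 376) (nat_lit 322)) (XT.nd (nat_lit 78) (nat_lit 76) (nat_lit 0) (XT.lf (nat_lit 0) (nat_lit 2699574062) (nat_lit 608) (nat_lit 3856994002) (nat_lit 684) (nat_lit 2488033377) (nat_lit 227) (nat_lit 5) (nat_lit 235) (nat_lit 5) (nat_lit 236) (nat_lit 5) (nat_lit 443) (nat_lit 376)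 (nat_lit 321)) (XT.lf (nat_lit 0) (nat_lit 55809665) (nat_lit 684) (nat_lit 878103629) (nat_lit 76) (nat_lit 8201905587) (nat_lit 226) (nat_lit 5) (nat_lit 235) (nat_lit 5) (nat_lit 227) (nat_lit 5) (nat_lit 444) (nat_lit 376) (nat_lit 320)))) (XT.nd (nat_lit 156) (nat_lit 608) (nat_lit 0) (XT.nd (nat_lit 78) (nat_lit 532) (nat_lit 0) (XT.lf (nat_lit 0) (nat_lit 2626406006) (nat_lit 684) (nat_lit 4541804039) (nat_lit 76) (nat_lit 2060161361) (nat_lit 218) (nat_lit 5) (nat_lit 227) (nat_lit 5) (nat_lit 219) (nat_lit 5) (nat_lit 445) (nat_lit 376) (nat_lit 319)) (XT.lf (nat_lit 0) (nat_lit 1015559324) (nat_lit 532) (nat_lit 4217008055) (nat_lit 608) (nat_lit 4090547556) (nat_lit 211) (nat_lit 5) (nat_lit 218) (nat_lit 5) (nat_lit 219) (nat_lit 5) (nat_lit 446) (nat_lit 376) (nat_lit 318))) (XT.nd (nat_lit 78) (nat_lit 608) (nat_lit 0) (XT.lf (nat_lit 0) (nat_lit 6702606642) (nat_lit 532) (nat_lit 1184564454) (nat_lit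 608) (nat_lit 1532678419) (nat_lit 211) (nat_lit 5) (nat_lit 218) (nat_lit 5) (nat_lit 219) (nat_lit 5) (nat_lit 447) (nat_lit 376) (nat_lit 317)) (XT.lf (nat_lit 0) (nat_lit 1060317397) (nat_lit 608) (nat_lit 6556956301) (nat_lit 76) (nat_lit 1901165295) (nat_lit 203) (nat_lit 5) (nat_lit 211) (nat_lit 5) (nat_lit 204) (nat_lit 5) (nat_lit 448) (nat_lit 376) (nat_lit 316))))) (XT.nd (nat_lit 234) (nat_lit 1064) (nat_lit 0) (XT.nd (nat_lit 78) (nat_lit 1064) (nat_lit 0) (XT.lf (nat_lit 0) (nat_lit 3677464507) (nat_lit 608) (nat_lit 889139495) (nat_lit 76) (nat_lit 5052358622) (nat_lit 203) (nat_lit 5) (nat_lit 211) (nat_lit 5) (nat_lit 204) (nat_lit 5) (nat_lit 449) (nat_lit 376) (nat_lit 315)) (XT.nd (nat_lit 78) (nat_lit 532) (nat_lit 0) (XT.lf (nat_lit 0) (nat_lit 4914325232) (nat_lit 532) (nat_lit 1431786458) (nat_lit 608) (nat_lit 3375422741) (nat_lit 196) (nat_lit 5) (nat_lit 203) (nat_lit 5) (nat_lit 204)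 (nat_lit 5) (nat_lit 450) (nat_lit 376) (nat_lit 314)) (XT.lf (nat_lit 0) (nat_lit 978716049) (nat_lit 532) (nat_lit 8080799213) (nat_lit 608) (nat_lit 766835181) (nat_lit 189) (nat_lit 5) (nat_lit 196) (nat_lit 5) (nat_lit 197) (nat_lit 5) (nat_lit 451) (nat_lit 376) (nat_lit 313)))) (XT.nd (nat_lit 156) (nat_lit 532) (nat_lit 0) (XT.nd (nat_lit 78) (nat_lit 456) (nat_lit 0) (XT.lf (nat_lit 0) (nat_lit 1878727963) (nat_lit 608) (nat_lit 3051746223) (nat_lit 76) (nat_lit 5002369440) (nat_lit 188) (nat_lit 5) (nat_lit 196) (nat_lit 5) (nat_lit 189) (nat_lit 5) (nat_lit 452) (nat_lit 376) (nat_lit 312)) (XT.lf (nat_lit 0) (nat_lit 2850544043) (nat_lit 456) (nat_lit 1703229605) (nat_lit 532) (nat_lit 5487874125) (nat_lit 182) (nat_lit 5) (nat_lit 188) (nat_lit 5) (nat_lit 189) (nat_lit 5) (nat_lit 453) (nat_lit 376) (nat_lit 311))) (XT.nd (nat_lit 78) (nat_lit 532) (nat_lit 0) (XT.lf (nat_lit 0) (nat_lit 7281855681)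 (nat_lit 532) (nat_lit 1292547283) (nat_lit 76) (nat_lit 1578253211) (nat_lit 182) (nat_lit 5) (nat_lit 189) (nat_lit 5) (nat_lit 183) (nat_lit 5) (nat_lit 454) (nat_lit 376) (nat_lit 310)) (XT.lf (nat_lit 0) (nat_lit 4733480496) (nat_lit 532) (nat_lit 5342253970) (nat_lit 608) (nat_lit 189944086) (nat_lit 175) (nat_lit 5) (nat_lit 182) (nat_lit 5) (nat_lit 183) (nat_lit 5) (nat_lit 455) (nat_lit 376) (nat_lit 309))))))) (XT.nd (nat_lit 1092) (nat_lit 2508) (nat_lit 0) (XT.nd (nat_lit 546) (nat_lit 1748) (nat_lit 0) (XT.nd (nat_lit 234) (nat_lit 988) (nat_lit 0) (XT.nd (nat_lit 78) (nat_lit 456) (nat_lit 0) (XT.lf (nat_lit 0) (nat_lit 464825694) (nat_lit 456) (nat_lit 2027421008) (nat_lit 532) (nat_lit 7888780269) (nat_lit 168) (nat_lit 5) (nat_lit 174) (nat_lit 5) (nat_lit 175) (nat_lit 5) (nat_lit 456) (nat_lit 376) (nat_lit 308)) (XT.nd (nat_lit 78) (nat_lit 456) (nat_lit 0) (XT.lf (nat_lit 0) (nat_lit 5241302782)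 (nat_lit 532) (nat_lit 3893187362) (nat_lit 76) (nat_lit 1363869248) (nat_lit 168) (nat_lit 5) (nat_lit 175) (nat_lit 5) (nat_lit 169) (nat_lit 5) (nat_lit 457) (nat_lit 376) (nat_lit 307)) (XT.lf (nat_lit 0) (nat_lit 2225126598) (nat_lit 456) (nat_lit 5818286482) (nat_lit 532) (nat_lit 2574681021) (nat_lit 162) (nat_lit 5) (nat_lit 168) (nat_lit 5) (nat_lit 169) (nat_lit 5) (nat_lit 458) (nat_lit 376) (nat_lit 306)))) (XT.nd (nat_lit 156) (nat_lit 456) (nat_lit 0) (XT.nd (nat_lit 78) (nat_lit 456) (nat_lit 0) (XT.lf (nat_lit 0) (nat_lit 155832508) (nat_lit 532) (nat_lit 2263399913) (nat_lit 76) (nat_lit 8321054442) (nat_lit 161) (nat_lit 5) (nat_lit 168) (nat_lit 5) (nat_lit 162) (nat_lit 5) (nat_lit 459) (nat_lit 376) (nat_lit 305)) (XT.lf (nat_lit 0) (nat_lit 2910283579) (nat_lit 532) (nat_lit 6887976547) (nat_lit 76) (nat_lit 1066263049) (nat_lit 155) (nat_lit 5) (nat_lit 162) (nat_lit 5) (nat_lit 156) (nat_lit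 5) (nat_lit 460) (nat_lit 376) (nat_lit 304))) (XT.nd (nat_lit 78) (nat_lit 456) (nat_lit 0) (XT.lf (nat_lit 0) (nat_lit 5722263066) (nat_lit 532) (nat_lit 675596955) (nat_lit 76) (nat_lit 4593351204) (nat_lit 155) (nat_lit 5) (nat_lit 162) (nat_lit 5) (nat_lit 156) (nat_lit 5) (nat_lit 461) (nat_lit 376) (nat_lit 303)) (XT.lf (nat_lit 0) (nat_lit 5696021234) (nat_lit 456) (nat_lit 2903138153) (nat_lit 532) (nat_lit 2521115593) (nat_lit 149) (nat_lit 5) (nat_lit 155) (nat_lit 5) (nat_lit 156) (nat_lit 5) (nat_lit 462) (nat_lit 376) (nat_lit 302))))) (XT.nd (nat_lit 234) (nat_lit 836) (nat_lit 0) (XT.nd (nat_lit 78) (nat_lit 456) (nat_lit 0) (XT.lf (nat_lit 0) (nat_lit 264629021) (nat_lit 456) (nat_lit 10333750158) (nat_lit 76) (nat_lit 653786151) (nat_lit 143) (nat_lit 5) (nat_lit 149) (nat_lit 5) (nat_lit 144) (nat_lit 5) (nat_lit 463) (nat_lit 376) (nat_lit 301)) (XT.nd (nat_lit 78) (nat_lit 456) (nat_lit 0)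 (XT.lf (nat_lit 0) (nat_lit 3100242705) (nat_lit 456) (nat_lit 4000740836) (nat_lit 76) (nat_lit 4284833011) (nat_lit 143) (nat_lit 5) (nat_lit 149) (nat_lit 5) (nat_lit 144) (nat_lit 5) (nat_lit 464) (nat_lit 376) (nat_lit 300)) (XT.lf (nat_lit 0) (nat_lit 2451793470) (nat_lit 456) (nat_lit 3529256238) (nat_lit 532) (nat_lit 5541335778) (nat_lit 137) (nat_lit 5) (nat_lit 143) (nat_lit 5) (nat_lit 144) (nat_lit 5) (nat_lit 465) (nat_lit 376) (nat_lit 299)))) (XT.nd (nat_lit 156) (nat_lit 380) (nat_lit 0) (XT.nd (nat_lit 78) (nat_lit 456) (nat_lit 0) (XT.lf (nat_lit 0) (nat_lit 8920007091) (nat_lit 532) (nat_lit 2613969030) (nat_lit 76) (nat_lit 127713023) (nat_lit 137) (nat_lit 5) (nat_lit 144) (nat_lit 5) (nat_lit 138) (nat_lit 5) (nat_lit 466) (nat_lit 376) (nat_lit 298)) (XT.lf (nat_lit 0) (nat_lit 135002687) (nat_lit 456) (nat_lit 7842599079) (nat_lit 76) (nat_lit 3825725143) (nat_lit 131) (nat_lit 5) (nat_lit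 137) (nat_lit 5) (nat_lit 132) (nat_lit 5) (nat_lit 467) (nat_lit 376) (nat_lit 297))) (XT.nd (nat_lit 78) (nat_lit 380) (nat_lit 0) (XT.lf (nat_lit 0) (nat_lit 3023590641) (nat_lit 456) (nat_lit 1302217583) (nat_lit 76) (nat_lit 7621818360) (nat_lit 131) (nat_lit 5) (nat_lit 137) (nat_lit 5) (nat_lit 132) (nat_lit 5) (nat_lit 468) (nat_lit 376) (nat_lit 296)) (XT.lf (nat_lit 0) (nat_lit 5401728295) (nat_lit 380) (nat_lit 577204494) (nat_lit 456) (nat_lit 6115712776) (nat_lit 126) (nat_lit 5) (nat_lit 131) (nat_lit 5) (nat_lit 132) (nat_lit 5) (nat_lit 469) (nat_lit 376) (nat_lit 295)))))) (XT.nd (nat_lit 546) (nat_lit 988) (nat_lit 0) (XT.nd (nat_lit 234) (nat_lit 760) (nat_lit 0) (XT.nd (nat_lit 78) (nat_lit 760) (nat_lit 0) (XT.lf (nat_lit 0) (nat_lit 8997354532) (nat_lit 456) (nat_lit 46449103) (nat_lit 76) (nat_lit 3200734542) (nat_lit 126) (nat_lit 5) (nat_lit 132) (nat_lit 5) (nat_lit 127) (nat_lit 5)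 (nat_lit 470) (nat_lit 376) (nat_lit 294)) (XT.nd (nat_lit 78) (nat_lit 456) (nat_lit 0) (XT.lf (nat_lit 0) (nat_lit 6780515845) (nat_lit 304) (nat_lit 5318081602) (nat_lit 380) (nat_lit 298394596) (nat_lit 122) (nat_lit 5) (nat_lit 126) (nat_lit 5) (nat_lit 127) (nat_lit 5) (nat_lit 471) (nat_lit 376) (nat_lit 293)) (XT.lf (nat_lit 0) (nat_lit 1152037886) (nat_lit 380) (nat_lit 1504275877) (nat_lit 456) (nat_lit 9896191829) (nat_lit 116) (nat_lit 5) (nat_lit 121) (nat_lit 5) (nat_lit 122) (nat_lit 5) (nat_lit 472) (nat_lit 376) (nat_lit 292)))) (XT.nd (nat_lit 156) (nat_lit 456) (nat_lit 0) (XT.nd (nat_lit 78) (nat_lit 304) (nat_lit 0) (XT.lf (nat_lit 0) (nat_lit 5694411297) (nat_lit 456) (nat_lit 4633861001) (nat_lit 76) (nat_lit 2382263594) (nat_lit 116) (nat_lit 5) (nat_lit 122) (nat_lit 5) (nat_lit 117) (nat_lit 5) (nat_lit 473) (nat_lit 376) (nat_lit 291)) (XT.lf (nat_lit 0) (nat_lit 2250549272) (nat_lit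 304) (nat_lit 6542646079) (nat_lit 380) (nat_lit 4078544464) (nat_lit 112) (nat_lit 5) (nat_lit 116) (nat_lit 5) (nat_lit 117) (nat_lit 5) (nat_lit 474) (nat_lit 376) (nat_lit 290))) (XT.nd (nat_lit 78) (nat_lit 456) (nat_lit 0) (XT.lf (nat_lit 0) (nat_lit 9298622092) (nat_lit 304) (nat_lit 2662023205) (nat_lit 380) (nat_lit 1075400000) (nat_lit 112) (nat_lit 5) (nat_lit 116) (nat_lit 5) (nat_lit 117) (nat_lit 5) (nat_lit 475) (nat_lit 376) (nat_lit 289)) (XT.lf (nat_lit 0) (nat_lit 1967483405) (nat_lit 456) (nat_lit 9934355284) (nat_lit 76) (nat_lit 1301435989) (nat_lit 106) (nat_lit 5) (nat_lit 112) (nat_lit 5) (nat_lit 107) (nat_lit 5) (nat_lit 476) (nat_lit 376) (nat_lit 288))))) (XT.nd (nat_lit 234) (nat_lit 684) (nat_lit 0) (XT.nd (nat_lit 78) (nat_lit 304) (nat_lit 0) (XT.lf (nat_lit 0) (nat_lit 5075774737) (nat_lit 456) (nat_lit 2968829137) (nat_lit 76) (nat_lit 5328734240) (nat_lit 106) (nat_lit 5) (nat_lit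 112) (nat_lit 5) (nat_lit 107) (nat_lit 5) (nat_lit 477) (nat_lit 376) (nat_lit 287)) (XT.nd (nat_lit 78) (nat_lit 0) (nat_lit 0) (XT.lf (nat_lit 0) (nat_lit 4154598335) (nat_lit 304) (nat_lit 4095138303) (nat_lit 380) (nat_lit 5297006510) (nat_lit 102) (nat_lit 5) (nat_lit 106) (nat_lit 5) (nat_lit 107) (nat_lit 5) (nat_lit 478) (nat_lit 376) (nat_lit 286)) (XT.lf (nat_lit 0) (nat_lit 11425076284) (nat_lit 304) (nat_lit 58782887) (nat_lit 380) (nat_lit 2239833702) (nat_lit 102) (nat_lit 5) (nat_lit 106) (nat_lit 5) (nat_lit 107) (nat_lit 5) (nat_lit 479) (nat_lit 376) (nat_lit 285)))) (XT.nd (nat_lit 156) (nat_lit 304) (nat_lit 0) (XT.nd (nat_lit 78) (nat_lit 0) (nat_lit 0) (XT.lf (nat_lit 0) (nat_lit 902744427) (nat_lit 380) (nat_lit 8969547995) (nat_lit 76) (nat_lit 4031069253) (nat_lit 97) (nat_lit 5) (nat_lit 102) (nat_lit 5) (nat_lit 98) (nat_lit 5) (nat_lit 480) (nat_lit 376) (nat_lit 284)) (XT.lf (nat_lit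 0) (nat_lit 4071323453) (nat_lit 380) (nat_lit 1795018102) (nat_lit 76) (nat_lit 8220133007) (nat_lit 97) (nat_lit 5) (nat_lit 102) (nat_lit 5) (nat_lit 98) (nat_lit 5) (nat_lit 481) (nat_lit 376) (nat_lit 283))) (XT.nd (nat_lit 78) (nat_lit 0) (nat_lit 0) (XT.lf (nat_lit 0) (nat_lit 5561204388) (nat_lit 304) (nat_lit 1755820133) (nat_lit 380) (nat_lit 6955959619) (nat_lit 93) (nat_lit 5) (nat_lit 97) (nat_lit 5) (nat_lit 98) (nat_lit 5) (nat_lit 482) (nat_lit 376) (nat_lit 282)) (XT.lf (nat_lit 0) (nat_lit 10633364440) (nat_lit 380) (nat_lit 1424879055) (nat_lit 76) (nat_lit 2404875173) (nat_lit 93) (nat_lit 5) (nat_lit 98) (nat_lit 5) (nat_lit 94) (nat_lit 5) (nat_lit 483) (nat_lit 376) (nat_lit 281))))))))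
noncomputable def xc93 : XT := (XT.nd (nat_lit 2184) (nat_lit 1368) (nat_lit 0) (XT.nd (nat_lit 1092) (nat_lit 1520) (nat_lit 0) (XT.nd (nat_lit 546) (nat_lit 836) (nat_lit 0) (XT.nd (nat_lit 234) (nat_lit 608) (nat_lit 0) (XT.nd (nat_lit 78) (nat_lit 304) (nat_lit 0) (XT.lf (nat_lit 0) (nat_lit 6041169090) (nat_lit 304) (nat_lit 8003926518) (nat_lit 380) (nat_lit 611388064) (nat_lit 89) (nat_lit 5) (nat_lit 93) (nat_lit 5) (nat_lit 94) (nat_lit 5) (nat_lit 484) (nat_lit 376) (nat_lit 280)) (XT.nd (nat_lit 78) (nat_lit 228) (nat_lit 0) (XT.lf (nat_lit 0) (nat_lit 2624203436) (nat_lit 380) (nat_lit 1229345607) (nat_lit 76) (nat_lit 11000070909) (nat_lit 88) (nat_lit 5) (nat_lit 93) (nat_lit 5) (nat_lit 89) (nat_lit 5) (nat_lit 485) (nat_lit 376) (nat_lit 279)) (XT.lf (nat_lit 0) (nat_lit 5938936722) (nat_lit 304) (nat_lit 8706933650) (nat_lit 76) (nat_lit 408303982) (nat_lit 85) (nat_lit 5) (nat_lit 89) (nat_lit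 5) (nat_lit 86) (nat_lit 5) (nat_lit 486) (nat_lit 376) (nat_lit 278)))) (XT.nd (nat_lit 156) (nat_lit 304) (nat_lit 0) (XT.nd (nat_lit 78) (nat_lit 304) (nat_lit 0) (XT.lf (nat_lit 0) (nat_lit 9332604768) (nat_lit 304) (nat_lit 1225850955) (nat_lit 76) (nat_lit 4700039702) (nat_lit 85) (nat_lit 5) (nat_lit 89) (nat_lit 5) (nat_lit 86) (nat_lit 5) (nat_lit 487) (nat_lit 376) (nat_lit 277)) (XT.lf (nat_lit 0) (nat_lit 6456468271) (nat_lit 304) (nat_lit 6358828670) (nat_lit 380) (nat_lit 2651191181) (nat_lit 81) (nat_lit 5) (nat_lit 85) (nat_lit 5) (nat_lit 86) (nat_lit 5) (nat_lit 488) (nat_lit 376) (nat_lit 276))) (XT.nd (nat_lit 78) (nat_lit 228) (nat_lit 0) (XT.lf (nat_lit 0) (nat_lit 667527339) (nat_lit 380) (nat_lit 1407082066) (nat_lit 76) (nat_lit 13604198468) (nat_lit 80) (nat_lit 5) (nat_lit 85) (nat_lit 5) (nat_lit 81) (nat_lit 5) (nat_lit 489) (nat_lit 376) (nat_lit 275)) (XT.lf (nat_lit 0) (nat_lit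 4053488741) (nat_lit 304) (nat_lit 9528249068) (nat_lit 76) (nat_lit 2312566109) (nat_lit 77) (nat_lit 5) (nat_lit 81) (nat_lit 5) (nat_lit 78) (nat_lit 5) (nat_lit 490) (nat_lit 376) (nat_lit 274))))) (XT.nd (nat_lit 234) (nat_lit 532) (nat_lit 0) (XT.nd (nat_lit 78) (nat_lit 304) (nat_lit 0) (XT.lf (nat_lit 0) (nat_lit 7510210392) (nat_lit 304) (nat_lit 1846591412) (nat_lit 76) (nat_lit 6757254852) (nat_lit 77) (nat_lit 5) (nat_lit 81) (nat_lit 5) (nat_lit 78) (nat_lit 5) (nat_lit 491) (nat_lit 376) (nat_lit 273)) (XT.nd (nat_lit 78) (nat_lit 0) (nat_lit 0) (XT.lf (nat_lit 0) (nat_lit 6035903929) (nat_lit 304) (nat_lit 5019544867) (nat_lit 380) (nat_lit 5282375451) (nat_lit 73) (nat_lit 5) (nat_lit 77) (nat_lit 5) (nat_lit 78) (nat_lit 5) (nat_lit 492) (nat_lit 376) (nat_lit 272)) (XT.lf (nat_lit 0) (nat_lit 14069333026) (nat_lit 304) (nat_lit 595026017) (nat_lit 380) (nat_lit 1901860105) (nat_lit 73) (nat_lit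 5) (nat_lit 77) (nat_lit 5) (nat_lit 78) (nat_lit 5) (nat_lit 493) (nat_lit 376) (nat_lit 271)))) (XT.nd (nat_lit 156) (nat_lit 228) (nat_lit 0) (XT.nd (nat_lit 78) (nat_lit 0) (nat_lit 0) (XT.lf (nat_lit 0) (nat_lit 1567951127) (nat_lit 304) (nat_lit 11329438396) (nat_lit 76) (nat_lit 3900759347) (nat_lit 69) (nat_lit 5) (nat_lit 73) (nat_lit 5) (nat_lit 70) (nat_lit 5) (nat_lit 494) (nat_lit 376) (nat_lit 270)) (XT.lf (nat_lit 0) (nat_lit 5083248834) (nat_lit 304) (nat_lit 3455059423) (nat_lit 76) (nat_lit 8496133258) (nat_lit 69) (nat_lit 5) (nat_lit 73) (nat_lit 5) (nat_lit 70) (nat_lit 5) (nat_lit 495) (nat_lit 376) (nat_lit 269))) (XT.nd (nat_lit 78) (nat_lit 0) (nat_lit 0) (XT.lf (nat_lit 0) (nat_lit 4606342031) (nat_lit 228) (nat_lit 4073521224) (nat_lit 304) (nat_lit 8595383285) (nat_lit 66) (nat_lit 5) (nat_lit 69) (nat_lit 5) (nat_lit 70) (nat_lit 5) (nat_lit 496) (nat_lit 376) (nat_lit 268)) (XT.lf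 (nat_lit 0) (nat_lit 12356066008) (nat_lit 304) (nat_lit 4678850363) (nat_lit 76) (nat_lit 485804783) (nat_lit 66) (nat_lit 5) (nat_lit 70) (nat_lit 5) (nat_lit 67) (nat_lit 5) (nat_lit 497) (nat_lit 376) (nat_lit 267)))))) (XT.nd (nat_lit 546) (nat_lit 684) (nat_lit 0) (XT.nd (nat_lit 234) (nat_lit 304) (nat_lit 0) (XT.nd (nat_lit 78) (nat_lit 304) (nat_lit 0) (XT.lf (nat_lit 0) (nat_lit 3459022539) (nat_lit 228) (nat_lit 12677771299) (nat_lit 304) (nat_lit 1633697884) (nat_lit 63) (nat_lit 5) (nat_lit 66) (nat_lit 5) (nat_lit 67) (nat_lit 5) (nat_lit 498) (nat_lit 376) (nat_lit 266)) (XT.nd (nat_lit 78) (nat_lit 228) (nat_lit 0) (XT.lf (nat_lit 0) (nat_lit 1955279023) (nat_lit 304) (nat_lit 6244960463) (nat_lit 76) (nat_lit 9824504716) (nat_lit 62) (nat_lit 5) (nat_lit 66) (nat_lit 5) (nat_lit 63) (nat_lit 5) (nat_lit 499) (nat_lit 376) (nat_lit 265)) (XT.lf (nat_lit 0) (nat_lit 1968045055) (nat_lit 228) (nat_lit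 3620878305) (nat_lit 304) (nat_lit 12695053243) (nat_lit 59) (nat_lit 5) (nat_lit 62) (nat_lit 5) (nat_lit 63) (nat_lit 5) (nat_lit 500) (nat_lit 376) (nat_lit 264)))) (XT.nd (nat_lit 156) (nat_lit 76) (nat_lit 0) (XT.nd (nat_lit 78) (nat_lit 228) (nat_lit 0) (XT.lf (nat_lit 0) (nat_lit 9326292577) (nat_lit 304) (nat_lit 8154604397) (nat_lit 76) (nat_lit 1066881624) (nat_lit 59) (nat_lit 5) (nat_lit 63) (nat_lit 5) (nat_lit 60) (nat_lit 5) (nat_lit 501) (nat_lit 376) (nat_lit 263)) (XT.lf (nat_lit 0) (nat_lit 118190281) (nat_lit 228) (nat_lit 13027367299) (nat_lit 304) (nat_lit 5671161954) (nat_lit 56) (nat_lit 5) (nat_lit 59) (nat_lit 5) (nat_lit 60) (nat_lit 5) (nat_lit 502) (nat_lit 376) (nat_lit 262))) (XT.nd (nat_lit 78) (nat_lit 76) (nat_lit 0) (XT.lf (nat_lit 0) (nat_lit 8637841845) (nat_lit 228) (nat_lit 8440645321) (nat_lit 304) (nat_lit 2011812293) (nat_lit 56) (nat_lit 5) (nat_lit 59) (nat_lit 5) (nat_lit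 60) (nat_lit 5) (nat_lit 503) (nat_lit 376) (nat_lit 261)) (XT.lf (nat_lit 0) (nat_lit 1680937538) (nat_lit 304) (nat_lit 2081436498) (nat_lit 76) (nat_lit 15607103419) (nat_lit 55) (nat_lit 5) (nat_lit 59) (nat_lit 5) (nat_lit 56) (nat_lit 5) (nat_lit 504) (nat_lit 376) (nat_lit 260))))) (XT.nd (nat_lit 234) (nat_lit 304) (nat_lit 0) (XT.nd (nat_lit 78) (nat_lit 152) (nat_lit 0) (XT.lf (nat_lit 0) (nat_lit 5452802822) (nat_lit 304) (nat_lit 13159615079) (nat_lit 76) (nat_lit 1040916599) (nat_lit 52) (nat_lit 5) (nat_lit 56) (nat_lit 5) (nat_lit 53) (nat_lit 5) (nat_lit 505) (nat_lit 376) (nat_lit 259)) (XT.nd (nat_lit 78) (nat_lit 152) (nat_lit 0) (XT.lf (nat_lit 0) (nat_lit 9322275669) (nat_lit 304) (nat_lit 4727321245) (nat_lit 76) (nat_lit 5892833682) (nat_lit 52) (nat_lit 5) (nat_lit 56) (nat_lit 5) (nat_lit 53) (nat_lit 5) (nat_lit 506) (nat_lit 376) (nat_lit 258)) (XT.lf (nat_lit 0) (nat_lit 3896967197)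 (nat_lit 152) (nat_lit 9380995844) (nat_lit 228) (nat_lit 6959174286) (nat_lit 50) (nat_lit 5) (nat_lit 52) (nat_lit 5) (nat_lit 53) (nat_lit 5) (nat_lit 507) (nat_lit 376) (nat_lit 257)))) (XT.nd (nat_lit 156) (nat_lit 0) (nat_lit 0) (XT.nd (nat_lit 78) (nat_lit 304) (nat_lit 0) (XT.lf (nat_lit 0) (nat_lit 12730243438) (nat_lit 152) (nat_lit 4597910924) (nat_lit 228) (nat_lit 3209281135) (nat_lit 50) (nat_lit 5) (nat_lit 52) (nat_lit 5) (nat_lit 53) (nat_lit 5) (nat_lit 508) (nat_lit 376) (nat_lit 256)) (XT.lf (nat_lit 0) (nat_lit 598920000) (nat_lit 304) (nat_lit 19968998402) (nat_lit 76) (nat_lit 275918522) (nat_lit 46) (nat_lit 5) (nat_lit 50) (nat_lit 5) (nat_lit 47) (nat_lit 5) (nat_lit 509) (nat_lit 376) (nat_lit 255))) (XT.nd (nat_lit 78) (nat_lit 0) (nat_lit 0) (XT.lf (nat_lit 0) (nat_lit 4507485078) (nat_lit 304) (nat_lit 11398360145) (nat_lit 76) (nat_lit 5248758260) (nat_lit 46) (nat_lit 5) (nat_lit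 50) (nat_lit 5) (nat_lit 47) (nat_lit 5) (nat_lit 510) (nat_lit 376) (nat_lit 254)) (XT.lf (nat_lit 0) (nat_lit 8478481222) (nat_lit 304) (nat_lit 2683102866) (nat_lit 76) (nat_lit 10310320812) (nat_lit 46) (nat_lit 5) (nat_lit 50) (nat_lit 5) (nat_lit 47) (nat_lit 5) (nat_lit 511) (nat_lit 376) (nat_lit 253))))))) (XT.nd (nat_lit 1092) (nat_lit 228) (nat_lit 0) (XT.nd (nat_lit 546) (nat_lit 532) (nat_lit 0) (XT.nd (nat_lit 234) (nat_lit 228) (nat_lit 0) (XT.nd (nat_lit 78) (nat_lit 228) (nat_lit 0) (XT.lf (nat_lit 0) (nat_lit 6262322671) (nat_lit 152) (nat_lit 6291802166) (nat_lit 228) (nat_lit 9240927585) (nat_lit 44) (nat_lit 5) (nat_lit 46) (nat_lit 5) (nat_lit 47) (nat_lit 5) (nat_lit 512) (nat_lit 376) (nat_lit 252)) (XT.nd (nat_lit 78) (nat_lit 228) (nat_lit 0) (XT.lf (nat_lit 0) (nat_lit 15396931329) (nat_lit 152) (nat_lit 1317056576) (nat_lit 228) (nat_lit 5410625396) (nat_lit 44) (nat_lit 5) (nat_lit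 46) (nat_lit 5) (nat_lit 47) (nat_lit 5) (nat_lit 513) (nat_lit 376) (nat_lit 251)) (XT.lf (nat_lit 0) (nat_lit 2232533136) (nat_lit 228) (nat_lit 18748337103) (nat_lit 304) (nat_lit 1479423166) (nat_lit 41) (nat_lit 5) (nat_lit 44) (nat_lit 5) (nat_lit 45) (nat_lit 5) (nat_lit 514) (nat_lit 376) (nat_lit 250)))) (XT.nd (nat_lit 156) (nat_lit 152) (nat_lit 0) (XT.nd (nat_lit 78) (nat_lit 0) (nat_lit 0) (XT.lf (nat_lit 0) (nat_lit 2536342371) (nat_lit 304) (nat_lit 11389940280) (nat_lit 76) (nat_lit 8875297635) (nat_lit 40) (nat_lit 5) (nat_lit 44) (nat_lit 5) (nat_lit 41) (nat_lit 5) (nat_lit 515) (nat_lit 376) (nat_lit 249)) (XT.lf (nat_lit 0) (nat_lit 6597885650) (nat_lit 304) (nat_lit 2410508331) (nat_lit 76) (nat_lit 14141402100) (nat_lit 40) (nat_lit 5) (nat_lit 44) (nat_lit 5) (nat_lit 41) (nat_lit 5) (nat_lit 516) (nat_lit 376) (nat_lit 248))) (XT.nd (nat_lit 78) (nat_lit 0) (nat_lit 0) (XT.lf (nat_lit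 0) (nat_lit 6813016253) (nat_lit 152) (nat_lit 3957420699) (nat_lit 228) (nat_lit 12733947804) (nat_lit 38) (nat_lit 5) (nat_lit 40) (nat_lit 5) (nat_lit 41) (nat_lit 5) (nat_lit 517) (nat_lit 376) (nat_lit 247)) (XT.lf (nat_lit 0) (nat_lit 15036076664) (nat_lit 228) (nat_lit 7644828316) (nat_lit 76) (nat_lit 1184971508) (nat_lit 38) (nat_lit 5) (nat_lit 41) (nat_lit 5) (nat_lit 39) (nat_lit 5) (nat_lit 518) (nat_lit 376) (nat_lit 246))))) (XT.nd (nat_lit 234) (nat_lit 304) (nat_lit 0) (XT.nd (nat_lit 78) (nat_lit 76) (nat_lit 0) (XT.lf (nat_lit 0) (nat_lit 1552372717) (nat_lit 152) (nat_lit 17856824475) (nat_lit 228) (nat_lit 4824961451) (nat_lit 36) (nat_lit 5) (nat_lit 38) (nat_lit 5) (nat_lit 39) (nat_lit 5) (nat_lit 519) (nat_lit 376) (nat_lit 245)) (XT.nd (nat_lit 78) (nat_lit 76) (nat_lit 0) (XT.lf (nat_lit 0) (nat_lit 11012884578) (nat_lit 152) (nat_lit 12894196607) (nat_lit 228) (nat_lit 701983107) (nat_lit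 36) (nat_lit 5) (nat_lit 38) (nat_lit 5) (nat_lit 39) (nat_lit 5) (nat_lit 520) (nat_lit 376) (nat_lit 244)) (XT.lf (nat_lit 0) (nat_lit 3443686459) (nat_lit 228) (nat_lit 4375580663) (nat_lit 76) (nat_lit 17172026119) (nat_lit 35) (nat_lit 5) (nat_lit 38) (nat_lit 5) (nat_lit 36) (nat_lit 5) (nat_lit 521) (nat_lit 376) (nat_lit 243)))) (XT.nd (nat_lit 156) (nat_lit 152) (nat_lit 0) (XT.nd (nat_lit 78) (nat_lit 0) (nat_lit 0) (XT.lf (nat_lit 0) (nat_lit 5067743358) (nat_lit 152) (nat_lit 2614489516) (nat_lit 228) (nat_lit 17698457481) (nat_lit 33) (nat_lit 5) (nat_lit 35) (nat_lit 5) (nat_lit 36) (nat_lit 5) (nat_lit 522) (nat_lit 376) (nat_lit 242)) (XT.lf (nat_lit 0) (nat_lit 12039101635) (nat_lit 228) (nat_lit 11059286108) (nat_lit 76) (nat_lit 2678820218) (nat_lit 33) (nat_lit 5) (nat_lit 36) (nat_lit 5) (nat_lit 34) (nat_lit 5) (nat_lit 523) (nat_lit 376) (nat_lit 241))) (XT.nd (nat_lit 78) (nat_lit 152)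 (nat_lit 0) (XT.lf (nat_lit 0) (nat_lit 16487187749) (nat_lit 228) (nat_lit 1660960396) (nat_lit 76) (nat_lit 8033429682) (nat_lit 33) (nat_lit 5) (nat_lit 36) (nat_lit 5) (nat_lit 34) (nat_lit 5) (nat_lit 524) (nat_lit 376) (nat_lit 240)) (XT.lf (nat_lit 0) (nat_lit 8007713357) (nat_lit 152) (nat_lit 13055538593) (nat_lit 228) (nat_lit 5530006251) (nat_lit 31) (nat_lit 5) (nat_lit 33) (nat_lit 5) (nat_lit 34) (nat_lit 5) (nat_lit 525) (nat_lit 376) (nat_lit 239)))))) (XT.nd (nat_lit 48750) (nat_lit 0) (nat_lit 43548) (XT.nd (nat_lit 48438) (nat_lit 0) (nat_lit 45828) (XT.nd (nat_lit 78) (nat_lit 228) (nat_lit 0) (XT.lf (nat_lit 0) (nat_lit 17869783221) (nat_lit 152) (nat_lit 7859333490) (nat_lit 228) (nat_lit 1284093258) (nat_lit 31) (nat_lit 5) (nat_lit 33) (nat_lit 5) (nat_lit 34) (nat_lit 5) (nat_lit 526) (nat_lit 376) (nat_lit 238)) (XT.nd (nat_lit 78) (nat_lit 0) (nat_lit 0) (XT.lf (nat_lit 0) (nat_lit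 451449983) (nat_lit 152) (nat_lit 2545559450) (nat_lit 228) (nat_lit 24444354353) (nat_lit 28) (nat_lit 5) (nat_lit 30) (nat_lit 5) (nat_lit 31) (nat_lit 5) (nat_lit 527) (nat_lit 376) (nat_lit 237)) (XT.lf (nat_lit 0) (nat_lit 7414325871) (nat_lit 228) (nat_lit 17564531544) (nat_lit 76) (nat_lit 2897700968) (nat_lit 28) (nat_lit 5) (nat_lit 31) (nat_lit 5) (nat_lit 29) (nat_lit 5) (nat_lit 528) (nat_lit 376) (nat_lit 236)))) (XT.nd (nat_lit 156) (nat_lit 380) (nat_lit 0) (XT.nd (nat_lit 78) (nat_lit 228) (nat_lit 0) (XT.lf (nat_lit 0) (nat_lit 1469039662) (nat_lit 228) (nat_lit 291970275) (nat_lit 0) (nat_lit 1469039662) (nat_lit 639) (nat_lit 5) (nat_lit 642) (nat_lit 4) (nat_lit 639) (nat_lit 4) (nat_lit 386) (nat_lit 377) (nat_lit 377)) (XT.lf (nat_lit 0) (nat_lit 2706161108) (nat_lit 228) (nat_lit 3236959058) (nat_lit 228) (nat_lit 523625324) (nat_lit 636) (nat_lit 4) (nat_lit 639) (nat_lit 5) (nat_lit 639)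 (nat_lit 4) (nat_lit 387) (nat_lit 377) (nat_lit 376))) (XT.nd (nat_lit 78) (nat_lit 304) (nat_lit 0) (XT.lf (nat_lit 0) (nat_lit 2430341691) (nat_lit 304) (nat_lit 464174629) (nat_lit 76) (nat_lit 3580208021) (nat_lit 635) (nat_lit 5) (nat_lit 639) (nat_lit 5) (nat_lit 636) (nat_lit 4) (nat_lit 388) (nat_lit 377) (nat_lit 375)) (XT.lf (nat_lit 0) (nat_lit 2889230124) (nat_lit 304) (nat_lit 2492288018) (nat_lit 380) (nat_lit 1102476241) (nat_lit 631) (nat_lit 5) (nat_lit 635) (nat_lit 5) (nat_lit 636) (nat_lit 4) (nat_lit 389) (nat_lit 377) (nat_lit 374))))) (XT.nd (nat_lit 312) (nat_lit 1292) (nat_lit 0) (XT.nd (nat_lit 156) (nat_lit 532) (nat_lit 0) (XT.nd (nat_lit 78) (nat_lit 380) (nat_lit 0) (XT.lf (nat_lit 0) (nat_lit 1803467516) (nat_lit 380) (nat_lit 233881296) (nat_lit 76) (nat_lit 4457352252) (nat_lit 630) (nat_lit 5) (nat_lit 635) (nat_lit 5) (nat_lit 631) (nat_lit 5) (nat_lit 390) (nat_lit 377) (nat_lit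 373)) (XT.lf (nat_lit 0) (nat_lit 3185417737) (nat_lit 380) (nat_lit 1516437925) (nat_lit 456) (nat_lit 1804736403) (nat_lit 625) (nat_lit 5) (nat_lit 630) (nat_lit 5) (nat_lit 631) (nat_lit 5) (nat_lit 391) (nat_lit 377) (nat_lit 372))) (XT.nd (nat_lit 78) (nat_lit 0) (nat_lit 0) (XT.lf (nat_lit 0) (nat_lit 107554386) (nat_lit 456) (nat_lit 948225521) (nat_lit 532) (nat_lit 5464262229) (nat_lit 618) (nat_lit 5) (nat_lit 624) (nat_lit 5) (nat_lit 625) (nat_lit 5) (nat_lit 392) (nat_lit 377) (nat_lit 371)) (XT.lf (nat_lit 0) (nat_lit 3594024952) (nat_lit 456) (nat_lit 307611659) (nat_lit 532) (nat_lit 2632932154) (nat_lit 618) (nat_lit 5) (nat_lit 624) (nat_lit 5) (nat_lit 625) (nat_lit 5) (nat_lit 393) (nat_lit 377) (nat_lit 370)))) (XT.nd (nat_lit 156) (nat_lit 684) (nat_lit 0) (XT.nd (nat_lit 78) (nat_lit 0) (nat_lit 0) (XT.lf (nat_lit 0) (nat_lit 188670060) (nat_lit 608) (nat_lit 5990522333) (nat_lit 76) (nat_lit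 371509092) (nat_lit 610) (nat_lit 5) (nat_lit 618) (nat_lit 5) (nat_lit 611) (nat_lit 5) (nat_lit 394) (nat_lit 377) (nat_lit 369)) (XT.lf (nat_lit 0) (nat_lit 2985506191) (nat_lit 608) (nat_lit 2460798181) (nat_lit 76) (nat_lit 1121510020) (nat_lit 610) (nat_lit 5) (nat_lit 618) (nat_lit 5) (nat_lit 611) (nat_lit 5) (nat_lit 395) (nat_lit 377) (nat_lit 368))) (XT.nd (nat_lit 78) (nat_lit 76) (nat_lit 0) (XT.lf (nat_lit 0) (nat_lit 1109753584) (nat_lit 608) (nat_lit 4669185069) (nat_lit 684) (nat_lit 807602755) (nat_lit 602) (nat_lit 5) (nat_lit 610) (nat_lit 5) (nat_lit 611) (nat_lit 5) (nat_lit 396) (nat_lit 377) (nat_lit 367)) (XT.lf (nat_lit 0) (nat_lit 1946649753) (nat_lit 684) (nat_lit 1878470262) (nat_lit 76) (nat_lit 2781330455) (nat_lit 601) (nat_lit 5) (nat_lit 610) (nat_lit 5) (nat_lit 602) (nat_lit 5) (nat_lit 397) (nat_lit 377) (nat_lit 366))))))))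
noncomputable def xc94 : XT := (XT.nd (nat_lit 2184) (nat_lit 11172) (nat_lit 0) (XT.nd (nat_lit 1092) (nat_lit 12236) (nat_lit 0) (XT.nd (nat_lit 546) (nat_lit 4560) (nat_lit 0) (XT.nd (nat_lit 234) (nat_lit 1900) (nat_lit 0) (XT.nd (nat_lit 78) (nat_lit 836) (nat_lit 0) (XT.lf (nat_lit 0) (nat_lit 1765513140) (nat_lit 684) (nat_lit 2926385385) (nat_lit 760) (nat_lit 1935898060) (nat_lit 592) (nat_lit 5) (nat_lit 601) (nat_lit 5) (nat_lit 602) (nat_lit 5) (nat_lit 398) (nat_lit 377) (nat_lit 365)) (XT.nd (nat_lit 78) (nat_lit 760) (nat_lit 0) (XT.lf (nat_lit 0) (nat_lit 779859638) (nat_lit 760) (nat_lit 1191779616) (nat_lit 76) (nat_lit 4678929469) (nat_lit 591) (nat_lit 5) (nat_lit 601) (nat_lit 5) (nat_lit 592) (nat_lit 5) (nat_lit 399) (nat_lit 377) (nat_lit 364)) (XT.lf (nat_lit 0) (nat_lit 2528606276) (nat_lit 760) (nat_lit 948843509) (nat_lit 836) (nat_lit 3197097329) (nat_lit 581) (nat_lit 5) (nat_lit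 591) (nat_lit 5) (nat_lit 592) (nat_lit 5) (nat_lit 400) (nat_lit 377) (nat_lit 363)))) (XT.nd (nat_lit 156) (nat_lit 988) (nat_lit 0) (XT.nd (nat_lit 78) (nat_lit 912) (nat_lit 0) (XT.lf (nat_lit 0) (nat_lit 6175724768) (nat_lit 836) (nat_lit 404973224) (nat_lit 76) (nat_lit 119446455) (nat_lit 581) (nat_lit 5) (nat_lit 592) (nat_lit 5) (nat_lit 582) (nat_lit 5) (nat_lit 401) (nat_lit 377) (nat_lit 362)) (XT.lf (nat_lit 0) (nat_lit 2140225539) (nat_lit 912) (nat_lit 3335999593) (nat_lit 76) (nat_lit 1250466057) (nat_lit 569) (nat_lit 5) (nat_lit 581) (nat_lit 5) (nat_lit 570) (nat_lit 5) (nat_lit 402) (nat_lit 377) (nat_lit 361))) (XT.nd (nat_lit 78) (nat_lit 76) (nat_lit 0) (XT.lf (nat_lit 0) (nat_lit 472029783) (nat_lit 912) (nat_lit 4324642263) (nat_lit 988) (nat_lit 1958186651) (nat_lit 557) (nat_lit 5) (nat_lit 569) (nat_lit 5) (nat_lit 570) (nat_lit 5) (nat_lit 403) (nat_lit 377) (nat_lit 360)) (XT.lf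 (nat_lit 0) (nat_lit 675870914) (nat_lit 988) (nat_lit 2431824842) (nat_lit 76) (nat_lit 3676613198) (nat_lit 556) (nat_lit 5) (nat_lit 569) (nat_lit 5) (nat_lit 557) (nat_lit 5) (nat_lit 404) (nat_lit 377) (nat_lit 359))))) (XT.nd (nat_lit 234) (nat_lit 2432) (nat_lit 0) (XT.nd (nat_lit 78) (nat_lit 1140) (nat_lit 0) (XT.lf (nat_lit 0) (nat_lit 1457957576) (nat_lit 988) (nat_lit 1829252088) (nat_lit 1064) (nat_lit 3527929017) (nat_lit 543) (nat_lit 5) (nat_lit 556) (nat_lit 5) (nat_lit 557) (nat_lit 5) (nat_lit 405) (nat_lit 377) (nat_lit 358)) (XT.nd (nat_lit 78) (nat_lit 1140) (nat_lit 0) (XT.lf (nat_lit 0) (nat_lit 5414396755) (nat_lit 988) (nat_lit 494890929) (nat_lit 1064) (nat_lit 938191521) (nat_lit 543) (nat_lit 5) (nat_lit 556) (nat_lit 5) (nat_lit 557) (nat_lit 5) (nat_lit 406) (nat_lit 377) (nat_lit 357)) (XT.lf (nat_lit 0) (nat_lit 1646323725) (nat_lit 1140) (nat_lit 4339215199) (nat_lit 76) (nat_lit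 895461928) (nat_lit 528) (nat_lit 5) (nat_lit 543) (nat_lit 5) (nat_lit 529) (nat_lit 5) (nat_lit 407) (nat_lit 377) (nat_lit 356)))) (XT.nd (nat_lit 156) (nat_lit 1292) (nat_lit 0) (XT.nd (nat_lit 78) (nat_lit 1140) (nat_lit 0) (XT.lf (nat_lit 0) (nat_lit 4226742765) (nat_lit 1140) (nat_lit 354014601) (nat_lit 76) (nat_lit 2335236753) (nat_lit 528) (nat_lit 5) (nat_lit 543) (nat_lit 5) (nat_lit 529) (nat_lit 5) (nat_lit 408) (nat_lit 377) (nat_lit 355)) (XT.lf (nat_lit 0) (nat_lit 3715465442) (nat_lit 1140) (nat_lit 3112336129) (nat_lit 1216) (nat_lit 124564596) (nat_lit 513) (nat_lit 5) (nat_lit 528) (nat_lit 5) (nat_lit 529) (nat_lit 5) (nat_lit 409) (nat_lit 377) (nat_lit 354))) (XT.nd (nat_lit 78) (nat_lit 0) (nat_lit 0) (XT.lf (nat_lit 0) (nat_lit 831785638) (nat_lit 1216) (nat_lit 1580033128) (nat_lit 1292) (nat_lit 4578319039) (nat_lit 496) (nat_lit 5) (nat_lit 512) (nat_lit 5) (nat_lit 513) (nat_lit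 5) (nat_lit 410) (nat_lit 377) (nat_lit 353)) (XT.lf (nat_lit 0) (nat_lit 4965151057) (nat_lit 1292) (nat_lit 2048916084) (nat_lit 76) (nat_lit 15279592) (nat_lit 496) (nat_lit 5) (nat_lit 513) (nat_lit 5) (nat_lit 497) (nat_lit 5) (nat_lit 411) (nat_lit 377) (nat_lit 352)))))) (XT.nd (nat_lit 546) (nat_lit 6384) (nat_lit 0) (XT.nd (nat_lit 234) (nat_lit 3116) (nat_lit 0) (XT.nd (nat_lit 78) (nat_lit 1368) (nat_lit 0) (XT.lf (nat_lit 0) (nat_lit 464793551) (nat_lit 1368) (nat_lit 4957694483) (nat_lit 76) (nat_lit 1647417906) (nat_lit 478) (nat_lit 5) (nat_lit 496) (nat_lit 5) (nat_lit 479) (nat_lit 5) (nat_lit 412) (nat_lit 377) (nat_lit 351)) (XT.nd (nat_lit 78) (nat_lit 1368) (nat_lit 0) (XT.lf (nat_lit 0) (nat_lit 2978128223) (nat_lit 1368) (nat_lit 785541075) (nat_lit 76) (nat_lit 3348158915) (nat_lit 478) (nat_lit 5) (nat_lit 496) (nat_lit 5) (nat_lit 479) (nat_lit 5) (nat_lit 413) (nat_lit 377) (nat_lit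 350)) (XT.lf (nat_lit 0) (nat_lit 3471353761) (nat_lit 1368) (nat_lit 2041481849) (nat_lit 1444) (nat_lit 1642383038) (nat_lit 460) (nat_lit 5) (nat_lit 478) (nat_lit 5) (nat_lit 479) (nat_lit 5) (nat_lit 414) (nat_lit 377) (nat_lit 349)))) (XT.nd (nat_lit 156) (nat_lit 1596) (nat_lit 0) (XT.nd (nat_lit 78) (nat_lit 0) (nat_lit 0) (XT.lf (nat_lit 0) (nat_lit 581755884) (nat_lit 1444) (nat_lit 263205331) (nat_lit 1520) (nat_lit 6355289025) (nat_lit 440) (nat_lit 5) (nat_lit 459) (nat_lit 5) (nat_lit 460) (nat_lit 5) (nat_lit 415) (nat_lit 377) (nat_lit 348)) (XT.lf (nat_lit 0) (nat_lit 3344691241) (nat_lit 1520) (nat_lit 2329639965) (nat_lit 76) (nat_lit 1571990374) (nat_lit 440) (nat_lit 5) (nat_lit 460) (nat_lit 5) (nat_lit 441) (nat_lit 5) (nat_lit 416) (nat_lit 377) (nat_lit 347))) (XT.nd (nat_lit 78) (nat_lit 76) (nat_lit 0) (XT.lf (nat_lit 0) (nat_lit 2025232705) (nat_lit 1520) (nat_lit 3834720191) (nat_lit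 1596) (nat_lit 1434098597) (nat_lit 420) (nat_lit 5) (nat_lit 440) (nat_lit 5) (nat_lit 441) (nat_lit 5) (nat_lit 417) (nat_lit 377) (nat_lit 346)) (XT.lf (nat_lit 0) (nat_lit 1035275856) (nat_lit 1596) (nat_lit 895756854) (nat_lit 76) (nat_lit 5412274861) (nat_lit 419) (nat_lit 5) (nat_lit 440) (nat_lit 5) (nat_lit 420) (nat_lit 5) (nat_lit 418) (nat_lit 377) (nat_lit 345))))) (XT.nd (nat_lit 234) (nat_lit 3040) (nat_lit 0) (XT.nd (nat_lit 78) (nat_lit 1748) (nat_lit 0) (XT.lf (nat_lit 0) (nat_lit 3510182336) (nat_lit 1672) (nat_lit 3836383965) (nat_lit 76) (nat_lit 47331066) (nat_lit 398) (nat_lit 5) (nat_lit 420) (nat_lit 5) (nat_lit 399) (nat_lit 5) (nat_lit 419) (nat_lit 377) (nat_lit 344)) (XT.nd (nat_lit 78) (nat_lit 76) (nat_lit 0) (XT.lf (nat_lit 0) (nat_lit 617051579) (nat_lit 1672) (nat_lit 5392980569) (nat_lit 1748) (nat_lit 1436002149) (nat_lit 376) (nat_lit 5) (nat_lit 398) (nat_lit 5) (nat_lit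 399) (nat_lit 5) (nat_lit 420) (nat_lit 377) (nat_lit 343)) (XT.lf (nat_lit 0) (nat_lit 1025556436) (nat_lit 1748) (nat_lit 2339396405) (nat_lit 76) (nat_lit 4134589872) (nat_lit 375) (nat_lit 5) (nat_lit 398) (nat_lit 5) (nat_lit 376) (nat_lit 5) (nat_lit 421) (nat_lit 377) (nat_lit 342)))) (XT.nd (nat_lit 156) (nat_lit 1748) (nat_lit 0) (XT.nd (nat_lit 78) (nat_lit 0) (nat_lit 0) (XT.lf (nat_lit 0) (nat_lit 2215211523) (nat_lit 1292) (nat_lit 1270118580) (nat_lit 1368) (nat_lit 4069278805) (nat_lit 358) (nat_lit 5) (nat_lit 375) (nat_lit 5) (nat_lit 376) (nat_lit 5) (nat_lit 422) (nat_lit 377) (nat_lit 341)) (XT.lf (nat_lit 0) (nat_lit 5970169684) (nat_lit 1368) (nat_lit 768554117) (nat_lit 76) (nat_lit 872576090) (nat_lit 358) (nat_lit 5) (nat_lit 376) (nat_lit 5) (nat_lit 359) (nat_lit 5) (nat_lit 423) (nat_lit 377) (nat_lit 340))) (XT.nd (nat_lit 78) (nat_lit 836) (nat_lit 0) (XT.lf (nat_lit 0) (nat_lit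 813527247) (nat_lit 912) (nat_lit 3782496296) (nat_lit 76) (nat_lit 3073253838) (nat_lit 346) (nat_lit 5) (nat_lit 358) (nat_lit 5) (nat_lit 347) (nat_lit 5) (nat_lit 424) (nat_lit 377) (nat_lit 339)) (XT.lf (nat_lit 0) (nat_lit 873442185) (nat_lit 836) (nat_lit 2388339263) (nat_lit 912) (nat_lit 4467124965) (nat_lit 335) (nat_lit 5) (nat_lit 346) (nat_lit 5) (nat_lit 347) (nat_lit 5) (nat_lit 425) (nat_lit 377) (nat_lit 338))))))) (XT.nd (nat_lit 1092) (nat_lit 4864) (nat_lit 0) (XT.nd (nat_lit 546) (nat_lit 2964) (nat_lit 0) (XT.nd (nat_lit 234) (nat_lit 2432) (nat_lit 0) (XT.nd (nat_lit 78) (nat_lit 912) (nat_lit 0) (XT.lf (nat_lit 0) (nat_lit 5629624267) (nat_lit 836) (nat_lit 110938317) (nat_lit 912) (nat_lit 2049571963) (nat_lit 335) (nat_lit 5) (nat_lit 346) (nat_lit 5) (nat_lit 347) (nat_lit 5) (nat_lit 426) (nat_lit 377) (nat_lit 337)) (XT.nd (nat_lit 78) (nat_lit 0) (nat_lit 0) (XT.lf (nat_lit 0) (nat_lit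 399062748) (nat_lit 912) (nat_lit 5251527747) (nat_lit 76) (nat_lit 2202215163) (nat_lit 323) (nat_lit 5) (nat_lit 335) (nat_lit 5) (nat_lit 324) (nat_lit 5) (nat_lit 427) (nat_lit 377) (nat_lit 336)) (XT.lf (nat_lit 0) (nat_lit 2841858196) (nat_lit 912) (nat_lit 487745235) (nat_lit 76) (nat_lit 4587438752) (nat_lit 323) (nat_lit 5) (nat_lit 335) (nat_lit 5) (nat_lit 324) (nat_lit 5) (nat_lit 428) (nat_lit 377) (nat_lit 335)))) (XT.nd (nat_lit 156) (nat_lit 836) (nat_lit 0) (XT.nd (nat_lit 78) (nat_lit 760) (nat_lit 0) (XT.lf (nat_lit 0) (nat_lit 4385208934) (nat_lit 836) (nat_lit 934887293) (nat_lit 912) (nat_lit 2662770361) (nat_lit 312) (nat_lit 5) (nat_lit 323) (nat_lit 5) (nat_lit 324) (nat_lit 5) (nat_lit 429) (nat_lit 377) (nat_lit 334)) (XT.lf (nat_lit 0) (nat_lit 1275024989) (nat_lit 760) (nat_lit 6552878235) (nat_lit 836) (nat_lit 222538375) (nat_lit 302) (nat_lit 5) (nat_lit 312) (nat_lit 5) (nat_lit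 313) (nat_lit 5) (nat_lit 430) (nat_lit 377) (nat_lit 333))) (XT.nd (nat_lit 78) (nat_lit 760) (nat_lit 0) (XT.lf (nat_lit 0) (nat_lit 2226130629) (nat_lit 836) (nat_lit 1890490536) (nat_lit 76) (nat_lit 4002698346) (nat_lit 301) (nat_lit 5) (nat_lit 312) (nat_lit 5) (nat_lit 302) (nat_lit 5) (nat_lit 431) (nat_lit 377) (nat_lit 332)) (XT.lf (nat_lit 0) (nat_lit 3087559136) (nat_lit 760) (nat_lit 1612954480) (nat_lit 836) (nat_lit 3489469765) (nat_lit 291) (nat_lit 5) (nat_lit 301) (nat_lit 5) (nat_lit 302) (nat_lit 5) (nat_lit 432) (nat_lit 377) (nat_lit 331))))) (XT.nd (nat_lit 234) (nat_lit 1444) (nat_lit 0) (XT.nd (nat_lit 78) (nat_lit 1520) (nat_lit 0) (XT.lf (nat_lit 0) (nat_lit 7203420718) (nat_lit 836) (nat_lit 121316697) (nat_lit 76) (nat_lit 937773982) (nat_lit 291) (nat_lit 5) (nat_lit 302) (nat_lit 5) (nat_lit 292) (nat_lit 5) (nat_lit 433) (nat_lit 377) (nat_lit 330)) (XT.nd (nat_lit 78) (nat_lit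 760) (nat_lit 0) (XT.lf (nat_lit 0) (nat_lit 1405163007) (nat_lit 760) (nat_lit 3375013696) (nat_lit 76) (nat_lit 3556081475) (nat_lit 281) (nat_lit 5) (nat_lit 291) (nat_lit 5) (nat_lit 282) (nat_lit 5) (nat_lit 434) (nat_lit 377) (nat_lit 329)) (XT.lf (nat_lit 0) (nat_lit 1707502455) (nat_lit 760) (nat_lit 2170077855) (nat_lit 836) (nat_lit 4534328151) (nat_lit 271) (nat_lit 5) (nat_lit 281) (nat_lit 5) (nat_lit 282) (nat_lit 5) (nat_lit 435) (nat_lit 377) (nat_lit 328)))) (XT.nd (nat_lit 156) (nat_lit 684) (nat_lit 0) (XT.nd (nat_lit 78) (nat_lit 760) (nat_lit 0) (XT.lf (nat_lit 0) (nat_lit 6387030530) (nat_lit 836) (nat_lit 1598535778) (nat_lit 76) (nat_lit 503782940) (nat_lit 271) (nat_lit 5) (nat_lit 282) (nat_lit 5) (nat_lit 272) (nat_lit 5) (nat_lit 436) (nat_lit 377) (nat_lit 327)) (XT.lf (nat_lit 0) (nat_lit 373424575) (nat_lit 760) (nat_lit 4971665229) (nat_lit 76) (nat_lit 3223226864) (nat_lit 261)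 (nat_lit 5) (nat_lit 271) (nat_lit 5) (nat_lit 262) (nat_lit 5) (nat_lit 437) (nat_lit 377) (nat_lit 326))) (XT.nd (nat_lit 78) (nat_lit 0) (nat_lit 0) (XT.lf (nat_lit 0) (nat_lit 214209297) (nat_lit 684) (nat_lit 2631068473) (nat_lit 760) (nat_lit 5803840345) (nat_lit 252) (nat_lit 5) (nat_lit 261) (nat_lit 5) (nat_lit 262) (nat_lit 5) (nat_lit 438) (nat_lit 377) (nat_lit 325)) (XT.lf (nat_lit 0) (nat_lit 5363987980) (nat_lit 760) (nat_lit 3204597793) (nat_lit 76) (nat_lit 163028384) (nat_lit 252) (nat_lit 5) (nat_lit 262) (nat_lit 5) (nat_lit 253) (nat_lit 5) (nat_lit 439) (nat_lit 377) (nat_lit 324)))))) (XT.nd (nat_lit 546) (nat_lit 2280) (nat_lit 0) (XT.nd (nat_lit 234) (nat_lit 1292) (nat_lit 0) (XT.nd (nat_lit 78) (nat_lit 684) (nat_lit 0) (XT.lf (nat_lit 0) (nat_lit 2097451608) (nat_lit 608) (nat_lit 5830335194) (nat_lit 684) (nat_lit 888105469) (nat_lit 244) (nat_lit 5) (nat_lit 252) (nat_lit 5) (nat_lit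 253) (nat_lit 5) (nat_lit 440) (nat_lit 377) (nat_lit 323)) (XT.nd (nat_lit 78) (nat_lit 608) (nat_lit 0) (XT.lf (nat_lit 0) (nat_lit 1604974582) (nat_lit 684) (nat_lit 1406416934) (nat_lit 76) (nat_lit 5890566932) (nat_lit 243) (nat_lit 5) (nat_lit 252) (nat_lit 5) (nat_lit 244) (nat_lit 5) (nat_lit 441) (nat_lit 377) (nat_lit 322)) (XT.lf (nat_lit 0) (nat_lit 4016311670) (nat_lit 608) (nat_lit 110353508) (nat_lit 684) (nat_lit 4863175461) (nat_lit 235) (nat_lit 5) (nat_lit 243) (nat_lit 5) (nat_lit 244) (nat_lit 5) (nat_lit 442) (nat_lit 377) (nat_lit 321)))) (XT.nd (nat_lit 156) (nat_lit 608) (nat_lit 0) (XT.nd (nat_lit 78) (nat_lit 76) (nat_lit 0) (XT.lf (nat_lit 0) (nat_lit 431640751) (nat_lit 608) (nat_lit 6262876728) (nat_lit 684) (nat_lit 2385072864) (nat_lit 227) (nat_lit 5) (nat_lit 235) (nat_lit 5) (nat_lit 236) (nat_lit 5) (nat_lit 443) (nat_lit 377) (nat_lit 320)) (XT.lf (nat_lit 0) (nat_lit 140136816)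 (nat_lit 684) (nat_lit 3202949729) (nat_lit 76) (nat_lit 5828065151) (nat_lit 226) (nat_lit 5) (nat_lit 235) (nat_lit 5) (nat_lit 227) (nat_lit 5) (nat_lit 444) (nat_lit 377) (nat_lit 319))) (XT.nd (nat_lit 78) (nat_lit 0) (nat_lit 0) (XT.lf (nat_lit 0) (nat_lit 2323534492) (nat_lit 608) (nat_lit 341268700) (nat_lit 684) (nat_lit 6599831021) (nat_lit 218) (nat_lit 5) (nat_lit 226) (nat_lit 5) (nat_lit 227) (nat_lit 5) (nat_lit 445) (nat_lit 377) (nat_lit 318)) (XT.lf (nat_lit 0) (nat_lit 5245383154) (nat_lit 684) (nat_lit 1415861805) (nat_lit 76) (nat_lit 2698655581) (nat_lit 218) (nat_lit 5) (nat_lit 227) (nat_lit 5) (nat_lit 219) (nat_lit 5) (nat_lit 446) (nat_lit 377) (nat_lit 317))))) (XT.nd (nat_lit 234) (nat_lit 1140) (nat_lit 0) (XT.nd (nat_lit 78) (nat_lit 608) (nat_lit 0) (XT.lf (nat_lit 0) (nat_lit 4231485809) (nat_lit 532) (nat_lit 3642607469) (nat_lit 608) (nat_lit 1583070666) (nat_lit 211) (nat_lit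 5) (nat_lit 218) (nat_lit 5) (nat_lit 219) (nat_lit 5) (nat_lit 447) (nat_lit 377) (nat_lit 316)) (XT.nd (nat_lit 78) (nat_lit 0) (nat_lit 0) (XT.lf (nat_lit 0) (nat_lit 411823609) (nat_lit 532) (nat_lit 553245991) (nat_lit 608) (nat_lit 8591611221) (nat_lit 203) (nat_lit 5) (nat_lit 210) (nat_lit 5) (nat_lit 211) (nat_lit 5) (nat_lit 448) (nat_lit 377) (nat_lit 315)) (XT.lf (nat_lit 0) (nat_lit 3562411835) (nat_lit 608) (nat_lit 3494319987) (nat_lit 76) (nat_lit 2600879047) (nat_lit 203) (nat_lit 5) (nat_lit 211) (nat_lit 5) (nat_lit 204) (nat_lit 5) (nat_lit 449) (nat_lit 377) (nat_lit 314)))) (XT.nd (nat_lit 156) (nat_lit 608) (nat_lit 0) (XT.nd (nat_lit 78) (nat_lit 0) (nat_lit 0) (XT.lf (nat_lit 0) (nat_lit 2253788954) (nat_lit 532) (nat_lit 3944101162) (nat_lit 608) (nat_lit 3562966058) (nat_lit 196) (nat_lit 5) (nat_lit 203) (nat_lit 5) (nat_lit 204) (nat_lit 5) (nat_lit 450) (nat_lit 377) (nat_lit 313))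 (XT.lf (nat_lit 0) (nat_lit 8123164441) (nat_lit 532) (nat_lit 754617436) (nat_lit 608) (nat_lit 988570463) (nat_lit 196) (nat_lit 5) (nat_lit 203) (nat_lit 5) (nat_lit 204) (nat_lit 5) (nat_lit 451) (nat_lit 377) (nat_lit 312))) (XT.nd (nat_lit 78) (nat_lit 0) (nat_lit 0) (XT.lf (nat_lit 0) (nat_lit 1627774824) (nat_lit 608) (nat_lit 5851336708) (nat_lit 76) (nat_lit 2494414838) (nat_lit 188) (nat_lit 5) (nat_lit 196) (nat_lit 5) (nat_lit 189) (nat_lit 5) (nat_lit 452) (nat_lit 377) (nat_lit 311)) (XT.lf (nat_lit 0) (nat_lit 4268938193) (nat_lit 608) (nat_lit 6730172) (nat_lit 76) (nat_lit 5807349145) (nat_lit 188) (nat_lit 5) (nat_lit 196) (nat_lit 5) (nat_lit 189) (nat_lit 5) (nat_lit 453) (nat_lit 377) (nat_lit 310))))))))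
noncomputable def xc95 : XT := (XT.nd (nat_lit 2184) (nat_lit 3876) (nat_lit 0) (XT.nd (nat_lit 1092) (nat_lit 2660) (nat_lit 0) (XT.nd (nat_lit 546) (nat_lit 1748) (nat_lit 0) (XT.nd (nat_lit 234) (nat_lit 1444) (nat_lit 0) (XT.nd (nat_lit 78) (nat_lit 608) (nat_lit 0) (XT.lf (nat_lit 0) (nat_lit 5993171354) (nat_lit 456) (nat_lit 978217196) (nat_lit 532) (nat_lit 3223159159) (nat_lit 182) (nat_lit 5) (nat_lit 188) (nat_lit 5) (nat_lit 189) (nat_lit 5) (nat_lit 454) (nat_lit 377) (nat_lit 309)) (XT.nd (nat_lit 78) (nat_lit 76) (nat_lit 0) (XT.lf (nat_lit 0) (nat_lit 1772118938) (nat_lit 532) (nat_lit 7952632431) (nat_lit 608) (nat_lit 583638021) (nat_lit 175) (nat_lit 5) (nat_lit 182) (nat_lit 5) (nat_lit 183) (nat_lit 5) (nat_lit 455) (nat_lit 377) (nat_lit 308)) (XT.lf (nat_lit 0) (nat_lit 2085817641) (nat_lit 608) (nat_lit 2562906299) (nat_lit 76) (nat_lit 5775431595) (nat_lit 174) (nat_lit 5) (nat_lit 182)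 (nat_lit 5) (nat_lit 175) (nat_lit 5) (nat_lit 456) (nat_lit 377) (nat_lit 307)))) (XT.nd (nat_lit 156) (nat_lit 988) (nat_lit 0) (XT.nd (nat_lit 78) (nat_lit 0) (nat_lit 0) (XT.lf (nat_lit 0) (nat_lit 3532545560) (nat_lit 456) (nat_lit 1261775581) (nat_lit 532) (nat_lit 5747986333) (nat_lit 168) (nat_lit 5) (nat_lit 174) (nat_lit 5) (nat_lit 175) (nat_lit 5) (nat_lit 457) (nat_lit 377) (nat_lit 306)) (XT.lf (nat_lit 0) (nat_lit 7559328691) (nat_lit 532) (nat_lit 932297146) (nat_lit 76) (nat_lit 2171166701) (nat_lit 168) (nat_lit 5) (nat_lit 175) (nat_lit 5) (nat_lit 169) (nat_lit 5) (nat_lit 458) (nat_lit 377) (nat_lit 305))) (XT.nd (nat_lit 78) (nat_lit 532) (nat_lit 0) (XT.lf (nat_lit 0) (nat_lit 5288391291) (nat_lit 456) (nat_lit 5105293636) (nat_lit 532) (nat_lit 391737844) (nat_lit 162) (nat_lit 5) (nat_lit 168) (nat_lit 5) (nat_lit 169) (nat_lit 5) (nat_lit 459) (nat_lit 377) (nat_lit 304)) (XT.lf (nat_lit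 0) (nat_lit 689877929) (nat_lit 456) (nat_lit 1635444253) (nat_lit 532) (nat_lit 8585246166) (nat_lit 155) (nat_lit 5) (nat_lit 161) (nat_lit 5) (nat_lit 162) (nat_lit 5) (nat_lit 460) (nat_lit 377) (nat_lit 303))))) (XT.nd (nat_lit 234) (nat_lit 1292) (nat_lit 0) (XT.nd (nat_lit 78) (nat_lit 456) (nat_lit 0) (XT.lf (nat_lit 0) (nat_lit 5112670853) (nat_lit 532) (nat_lit 4017352506) (nat_lit 76) (nat_lit 1907733323) (nat_lit 155) (nat_lit 5) (nat_lit 162) (nat_lit 5) (nat_lit 156) (nat_lit 5) (nat_lit 461) (nat_lit 377) (nat_lit 302)) (XT.nd (nat_lit 78) (nat_lit 0) (nat_lit 0) (XT.lf (nat_lit 0) (nat_lit 2290324784) (nat_lit 456) (nat_lit 5663392676) (nat_lit 532) (nat_lit 3213827489) (nat_lit 149) (nat_lit 5) (nat_lit 155) (nat_lit 5) (nat_lit 156) (nat_lit 5) (nat_lit 462) (nat_lit 377) (nat_lit 301)) (XT.lf (nat_lit 0) (nat_lit 8739933398) (nat_lit 456) (nat_lit 2111153044) (nat_lit 532) (nat_lit 448867398)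 (nat_lit 149) (nat_lit 5) (nat_lit 155) (nat_lit 5) (nat_lit 156) (nat_lit 5) (nat_lit 463) (nat_lit 377) (nat_lit 300)))) (XT.nd (nat_lit 156) (nat_lit 836) (nat_lit 0) (XT.nd (nat_lit 78) (nat_lit 0) (nat_lit 0) (XT.lf (nat_lit 0) (nat_lit 2348389497) (nat_lit 456) (nat_lit 7564041189) (nat_lit 76) (nat_lit 1522124622) (nat_lit 143) (nat_lit 5) (nat_lit 149) (nat_lit 5) (nat_lit 144) (nat_lit 5) (nat_lit 464) (nat_lit 377) (nat_lit 299)) (XT.lf (nat_lit 0) (nat_lit 5199961182) (nat_lit 456) (nat_lit 1162732151) (nat_lit 76) (nat_lit 5209022561) (nat_lit 143) (nat_lit 5) (nat_lit 149) (nat_lit 5) (nat_lit 144) (nat_lit 5) (nat_lit 465) (nat_lit 377) (nat_lit 298))) (XT.nd (nat_lit 78) (nat_lit 380) (nat_lit 0) (XT.lf (nat_lit 0) (nat_lit 5399655318) (nat_lit 456) (nat_lit 2717594939) (nat_lit 532) (nat_lit 3594209469) (nat_lit 137) (nat_lit 5) (nat_lit 143) (nat_lit 5) (nat_lit 144) (nat_lit 5) (nat_lit 466)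 (nat_lit 377) (nat_lit 297)) (XT.lf (nat_lit 0) (nat_lit 213484138) (nat_lit 380) (nat_lit 10868963767) (nat_lit 456) (nat_lit 771772759) (nat_lit 132) (nat_lit 5) (nat_lit 137) (nat_lit 5) (nat_lit 138) (nat_lit 5) (nat_lit 467) (nat_lit 377) (nat_lit 296)))))) (XT.nd (nat_lit 546) (nat_lit 1444) (nat_lit 0) (XT.nd (nat_lit 234) (nat_lit 760) (nat_lit 0) (XT.nd (nat_lit 78) (nat_lit 380) (nat_lit 0) (XT.lf (nat_lit 0) (nat_lit 2114021704) (nat_lit 456) (nat_lit 5114199558) (nat_lit 76) (nat_lit 4770664020) (nat_lit 131) (nat_lit 5) (nat_lit 137) (nat_lit 5) (nat_lit 132) (nat_lit 5) (nat_lit 468) (nat_lit 377) (nat_lit 295)) (XT.nd (nat_lit 78) (nat_lit 0) (nat_lit 0) (XT.lf (nat_lit 0) (nat_lit 1520355747) (nat_lit 380) (nat_lit 3511145475) (nat_lit 456) (nat_lit 7115166583) (nat_lit 126) (nat_lit 5) (nat_lit 131) (nat_lit 5) (nat_lit 132) (nat_lit 5) (nat_lit 469) (nat_lit 377) (nat_lit 294)) (XT.lf (nat_lit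 0) (nat_lit 8018302877) (nat_lit 456) (nat_lit 3979377830) (nat_lit 76) (nat_lit 299518279) (nat_lit 126) (nat_lit 5) (nat_lit 132) (nat_lit 5) (nat_lit 127) (nat_lit 5) (nat_lit 470) (nat_lit 377) (nat_lit 293)))) (XT.nd (nat_lit 156) (nat_lit 380) (nat_lit 0) (XT.nd (nat_lit 78) (nat_lit 76) (nat_lit 0) (XT.lf (nat_lit 0) (nat_lit 2776859792) (nat_lit 304) (nat_lit 8304367102) (nat_lit 380) (nat_lit 1369198382) (nat_lit 122) (nat_lit 5) (nat_lit 126) (nat_lit 5) (nat_lit 127) (nat_lit 5) (nat_lit 471) (nat_lit 377) (nat_lit 292)) (XT.lf (nat_lit 0) (nat_lit 1579786961) (nat_lit 380) (nat_lit 2931476111) (nat_lit 76) (nat_lit 8095215947) (nat_lit 121) (nat_lit 5) (nat_lit 126) (nat_lit 5) (nat_lit 122) (nat_lit 5) (nat_lit 472) (nat_lit 377) (nat_lit 291))) (XT.nd (nat_lit 78) (nat_lit 0) (nat_lit 0) (XT.lf (nat_lit 0) (nat_lit 3952041648) (nat_lit 380) (nat_lit 618720121) (nat_lit 456) (nat_lit 8194695703)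 (nat_lit 116) (nat_lit 5) (nat_lit 121) (nat_lit 5) (nat_lit 122) (nat_lit 5) (nat_lit 473) (nat_lit 377) (nat_lit 290)) (XT.lf (nat_lit 0) (nat_lit 7638953132) (nat_lit 456) (nat_lit 1972502646) (nat_lit 76) (nat_lit 3315823056) (nat_lit 116) (nat_lit 5) (nat_lit 122) (nat_lit 5) (nat_lit 117) (nat_lit 5) (nat_lit 474) (nat_lit 377) (nat_lit 289))))) (XT.nd (nat_lit 234) (nat_lit 684) (nat_lit 0) (XT.nd (nat_lit 78) (nat_lit 456) (nat_lit 0) (XT.lf (nat_lit 0) (nat_lit 5031477177) (nat_lit 304) (nat_lit 5750103909) (nat_lit 380) (nat_lit 2310505145) (nat_lit 112) (nat_lit 5) (nat_lit 116) (nat_lit 5) (nat_lit 117) (nat_lit 5) (nat_lit 475) (nat_lit 377) (nat_lit 288)) (XT.nd (nat_lit 78) (nat_lit 380) (nat_lit 0) (XT.lf (nat_lit 0) (nat_lit 707039163) (nat_lit 380) (nat_lit 1098190595) (nat_lit 76) (nat_lit 11455082255) (nat_lit 111) (nat_lit 5) (nat_lit 116) (nat_lit 5) (nat_lit 112) (nat_lit 5) (nat_lit 476)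 (nat_lit 377) (nat_lit 287)) (XT.lf (nat_lit 0) (nat_lit 3784718314) (nat_lit 456) (nat_lit 7413717780) (nat_lit 76) (nat_lit 2232556759) (nat_lit 106) (nat_lit 5) (nat_lit 112) (nat_lit 5) (nat_lit 107) (nat_lit 5) (nat_lit 477) (nat_lit 377) (nat_lit 286)))) (XT.nd (nat_lit 156) (nat_lit 380) (nat_lit 0) (XT.nd (nat_lit 78) (nat_lit 304) (nat_lit 0) (XT.lf (nat_lit 0) (nat_lit 6920314978) (nat_lit 456) (nat_lit 362201200) (nat_lit 76) (nat_lit 6322654072) (nat_lit 106) (nat_lit 5) (nat_lit 112) (nat_lit 5) (nat_lit 107) (nat_lit 5) (nat_lit 478) (nat_lit 377) (nat_lit 285)) (XT.lf (nat_lit 0) (nat_lit 6886155318) (nat_lit 304) (nat_lit 3254619434) (nat_lit 380) (nat_lit 3641623438) (nat_lit 102) (nat_lit 5) (nat_lit 106) (nat_lit 5) (nat_lit 107) (nat_lit 5) (nat_lit 479) (nat_lit 377) (nat_lit 284))) (XT.nd (nat_lit 78) (nat_lit 76) (nat_lit 0) (XT.lf (nat_lit 0) (nat_lit 284786237) (nat_lit 304) (nat_lit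 13128280783) (nat_lit 380) (nat_lit 550365025) (nat_lit 98) (nat_lit 5) (nat_lit 102) (nat_lit 5) (nat_lit 103) (nat_lit 5) (nat_lit 480) (nat_lit 377) (nat_lit 283)) (XT.lf (nat_lit 0) (nat_lit 2614364530) (nat_lit 380) (nat_lit 6517737728) (nat_lit 76) (nat_lit 5014740169) (nat_lit 97) (nat_lit 5) (nat_lit 102) (nat_lit 5) (nat_lit 98) (nat_lit 5) (nat_lit 481) (nat_lit 377) (nat_lit 282))))))) (XT.nd (nat_lit 1092) (nat_lit 1748) (nat_lit 0) (XT.nd (nat_lit 546) (nat_lit 912) (nat_lit 0) (XT.nd (nat_lit 234) (nat_lit 608) (nat_lit 0) (XT.nd (nat_lit 78) (nat_lit 304) (nat_lit 0) (XT.lf (nat_lit 0) (nat_lit 758640285) (nat_lit 304) (nat_lit 5059393287) (nat_lit 380) (nat_lit 8516163655) (nat_lit 93) (nat_lit 5) (nat_lit 97) (nat_lit 5) (nat_lit 98) (nat_lit 5) (nat_lit 482) (nat_lit 377) (nat_lit 281)) (XT.nd (nat_lit 78) (nat_lit 304) (nat_lit 0) (XT.lf (nat_lit 0) (nat_lit 8235066410) (nat_lit 304) (nat_lit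 872738961) (nat_lit 380) (nat_lit 5417062239) (nat_lit 93) (nat_lit 5) (nat_lit 97) (nat_lit 5) (nat_lit 98) (nat_lit 5) (nat_lit 483) (nat_lit 377) (nat_lit 280)) (XT.lf (nat_lit 0) (nat_lit 1100520217) (nat_lit 304) (nat_lit 11370697903) (nat_lit 380) (nat_lit 2247985266) (nat_lit 89) (nat_lit 5) (nat_lit 93) (nat_lit 5) (nat_lit 94) (nat_lit 5) (nat_lit 484) (nat_lit 377) (nat_lit 279)))) (XT.nd (nat_lit 156) (nat_lit 304) (nat_lit 0) (XT.nd (nat_lit 78) (nat_lit 228) (nat_lit 0) (XT.lf (nat_lit 0) (nat_lit 998523120) (nat_lit 380) (nat_lit 6238719170) (nat_lit 76) (nat_lit 7679525073) (nat_lit 88) (nat_lit 5) (nat_lit 93) (nat_lit 5) (nat_lit 89) (nat_lit 5) (nat_lit 485) (nat_lit 377) (nat_lit 278)) (XT.lf (nat_lit 0) (nat_lit 1257513700) (nat_lit 228) (nat_lit 3009652253) (nat_lit 304) (nat_lit 10851081771) (nat_lit 85) (nat_lit 5) (nat_lit 88) (nat_lit 5) (nat_lit 89) (nat_lit 5) (nat_lit 486) (nat_lit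 377) (nat_lit 277))) (XT.nd (nat_lit 78) (nat_lit 304) (nat_lit 0) (XT.lf (nat_lit 0) (nat_lit 7631011704) (nat_lit 304) (nat_lit 6376478426) (nat_lit 76) (nat_lit 1315679181) (nat_lit 85) (nat_lit 5) (nat_lit 89) (nat_lit 5) (nat_lit 86) (nat_lit 5) (nat_lit 487) (nat_lit 377) (nat_lit 276)) (XT.lf (nat_lit 0) (nat_lit 1221131599) (nat_lit 304) (nat_lit 9848500962) (nat_lit 380) (nat_lit 4462414862) (nat_lit 81) (nat_lit 5) (nat_lit 85) (nat_lit 5) (nat_lit 86) (nat_lit 5) (nat_lit 488) (nat_lit 377) (nat_lit 275))))) (XT.nd (nat_lit 234) (nat_lit 608) (nat_lit 0) (XT.nd (nat_lit 78) (nat_lit 304) (nat_lit 0) (XT.lf (nat_lit 0) (nat_lit 9024927348) (nat_lit 304) (nat_lit 5574716514) (nat_lit 380) (nat_lit 1145014773) (nat_lit 81) (nat_lit 5) (nat_lit 85) (nat_lit 5) (nat_lit 86) (nat_lit 5) (nat_lit 489) (nat_lit 377) (nat_lit 274)) (XT.nd (nat_lit 78) (nat_lit 0) (nat_lit 0) (XT.lf (nat_lit 0) (nat_lit 989881906)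 (nat_lit 228) (nat_lit 1206002400) (nat_lit 304) (nat_lit 13765624405) (nat_lit 77) (nat_lit 5) (nat_lit 80) (nat_lit 5) (nat_lit 81) (nat_lit 5) (nat_lit 490) (nat_lit 377) (nat_lit 273)) (XT.lf (nat_lit 0) (nat_lit 5634970458) (nat_lit 304) (nat_lit 7297959493) (nat_lit 76) (nat_lit 3248687894) (nat_lit 77) (nat_lit 5) (nat_lit 81) (nat_lit 5) (nat_lit 78) (nat_lit 5) (nat_lit 491) (nat_lit 377) (nat_lit 272)))) (XT.nd (nat_lit 156) (nat_lit 304) (nat_lit 0) (XT.nd (nat_lit 78) (nat_lit 0) (nat_lit 0) (XT.lf (nat_lit 0) (nat_lit 496373608) (nat_lit 304) (nat_lit 8638255879) (nat_lit 380) (nat_lit 7271671150) (nat_lit 73) (nat_lit 5) (nat_lit 77) (nat_lit 5) (nat_lit 78) (nat_lit 5) (nat_lit 492) (nat_lit 377) (nat_lit 271)) (XT.lf (nat_lit 0) (nat_lit 8514394441) (nat_lit 304) (nat_lit 4219620672) (nat_lit 380) (nat_lit 3900874458) (nat_lit 73) (nat_lit 5) (nat_lit 77) (nat_lit 5) (nat_lit 78) (nat_lit 5) (nat_lit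 493) (nat_lit 377) (nat_lit 270))) (XT.nd (nat_lit 78) (nat_lit 304) (nat_lit 0) (XT.lf (nat_lit 0) (nat_lit 16388316226) (nat_lit 380) (nat_lit 207963518) (nat_lit 76) (nat_lit 272118999) (nat_lit 73) (nat_lit 5) (nat_lit 78) (nat_lit 5) (nat_lit 74) (nat_lit 5) (nat_lit 494) (nat_lit 377) (nat_lit 269)) (XT.lf (nat_lit 0) (nat_lit 3030779529) (nat_lit 304) (nat_lit 9216934493) (nat_lit 76) (nat_lit 4857257685) (nat_lit 69) (nat_lit 5) (nat_lit 73) (nat_lit 5) (nat_lit 70) (nat_lit 5) (nat_lit 495) (nat_lit 377) (nat_lit 268)))))) (XT.nd (nat_lit 546) (nat_lit 988) (nat_lit 0) (XT.nd (nat_lit 234) (nat_lit 532) (nat_lit 0) (XT.nd (nat_lit 78) (nat_lit 228) (nat_lit 0) (XT.lf (nat_lit 0) (nat_lit 6588315163) (nat_lit 304) (nat_lit 1230932503) (nat_lit 76) (nat_lit 9527313914) (nat_lit 69) (nat_lit 5) (nat_lit 73) (nat_lit 5) (nat_lit 70) (nat_lit 5) (nat_lit 496) (nat_lit 377) (nat_lit 267)) (XT.nd (nat_lit 78)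 (nat_lit 0) (nat_lit 0) (XT.lf (nat_lit 0) (nat_lit 6976609953) (nat_lit 228) (nat_lit 3267525448) (nat_lit 304) (nat_lit 7348311652) (nat_lit 66) (nat_lit 5) (nat_lit 69) (nat_lit 5) (nat_lit 70) (nat_lit 5) (nat_lit 497) (nat_lit 377) (nat_lit 266)) (XT.lf (nat_lit 0) (nat_lit 13972243114) (nat_lit 304) (nat_lit 2516855332) (nat_lit 76) (nat_lit 1354174723) (nat_lit 66) (nat_lit 5) (nat_lit 70) (nat_lit 5) (nat_lit 67) (nat_lit 5) (nat_lit 498) (nat_lit 377) (nat_lit 265)))) (XT.nd (nat_lit 156) (nat_lit 228) (nat_lit 0) (XT.nd (nat_lit 78) (nat_lit 76) (nat_lit 0) (XT.lf (nat_lit 0) (nat_lit 5768935739) (nat_lit 228) (nat_lit 12047353854) (nat_lit 304) (nat_lit 282004910) (nat_lit 63) (nat_lit 5) (nat_lit 66) (nat_lit 5) (nat_lit 67) (nat_lit 5) (nat_lit 499) (nat_lit 377) (nat_lit 264)) (XT.lf (nat_lit 0) (nat_lit 3333806868) (nat_lit 304) (nat_lit 4154809109) (nat_lit 76) (nat_lit 10869381130) (nat_lit 62)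 (nat_lit 5) (nat_lit 66) (nat_lit 5) (nat_lit 63) (nat_lit 5) (nat_lit 500) (nat_lit 377) (nat_lit 263))) (XT.nd (nat_lit 78) (nat_lit 0) (nat_lit 0) (XT.lf (nat_lit 0) (nat_lit 4207883819) (nat_lit 228) (nat_lit 2820264053) (nat_lit 304) (nat_lit 11594514700) (nat_lit 59) (nat_lit 5) (nat_lit 62) (nat_lit 5) (nat_lit 63) (nat_lit 5) (nat_lit 501) (nat_lit 377) (nat_lit 262)) (XT.lf (nat_lit 0) (nat_lit 10819793279) (nat_lit 304) (nat_lit 6139458128) (nat_lit 76) (nat_lit 1932907343) (nat_lit 59) (nat_lit 5) (nat_lit 63) (nat_lit 5) (nat_lit 60) (nat_lit 5) (nat_lit 502) (nat_lit 377) (nat_lit 261))))) (XT.nd (nat_lit 312) (nat_lit 456) (nat_lit 0) (XT.nd (nat_lit 156) (nat_lit 304) (nat_lit 0) (XT.nd (nat_lit 78) (nat_lit 0) (nat_lit 0) (XT.lf (nat_lit 0) (nat_lit 2284461928) (nat_lit 228) (nat_lit 12419404221) (nat_lit 304) (nat_lit 4462852452) (nat_lit 56) (nat_lit 5) (nat_lit 59) (nat_lit 5) (nat_lit 60)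 (nat_lit 5) (nat_lit 503) (nat_lit 377) (nat_lit 260)) (XT.lf (nat_lit 0) (nat_lit 10932076957) (nat_lit 228) (nat_lit 7757977419) (nat_lit 304) (nat_lit 756232126) (nat_lit 56) (nat_lit 5) (nat_lit 59) (nat_lit 5) (nat_lit 60) (nat_lit 5) (nat_lit 504) (nat_lit 377) (nat_lit 259))) (XT.nd (nat_lit 78) (nat_lit 228) (nat_lit 0) (XT.lf (nat_lit 0) (nat_lit 2968302904) (nat_lit 304) (nat_lit 26120207) (nat_lit 76) (nat_lit 16736966234) (nat_lit 55) (nat_lit 5) (nat_lit 59) (nat_lit 5) (nat_lit 56) (nat_lit 5) (nat_lit 505) (nat_lit 377) (nat_lit 258)) (XT.lf (nat_lit 0) (nat_lit 6810004243) (nat_lit 304) (nat_lit 11319866280) (nat_lit 76) (nat_lit 1891172931) (nat_lit 52) (nat_lit 5) (nat_lit 56) (nat_lit 5) (nat_lit 53) (nat_lit 5) (nat_lit 506) (nat_lit 377) (nat_lit 257)))) (XT.nd (nat_lit 156) (nat_lit 304) (nat_lit 0) (XT.nd (nat_lit 78) (nat_lit 152) (nat_lit 0) (XT.lf (nat_lit 0) (nat_lit 10732393108) (nat_lit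 304) (nat_lit 2760160710) (nat_lit 76) (nat_lit 6823864865) (nat_lit 52) (nat_lit 5) (nat_lit 56) (nat_lit 5) (nat_lit 53) (nat_lit 5) (nat_lit 507) (nat_lit 377) (nat_lit 256)) (XT.lf (nat_lit 0) (nat_lit 6023049640) (nat_lit 152) (nat_lit 8733448923) (nat_lit 228) (nat_lit 5860742487) (nat_lit 50) (nat_lit 5) (nat_lit 52) (nat_lit 5) (nat_lit 53) (nat_lit 5) (nat_lit 508) (nat_lit 377) (nat_lit 255))) (XT.nd (nat_lit 78) (nat_lit 304) (nat_lit 0) (XT.lf (nat_lit 0) (nat_lit 14992831737) (nat_lit 152) (nat_lit 3871078126) (nat_lit 228) (nat_lit 2060118439) (nat_lit 50) (nat_lit 5) (nat_lit 52) (nat_lit 5) (nat_lit 53) (nat_lit 5) (nat_lit 509) (nat_lit 377) (nat_lit 254)) (XT.lf (nat_lit 0) (nat_lit 1803260211) (nat_lit 304) (nat_lit 18338686063) (nat_lit 76) (nat_lit 1094562543) (nat_lit 46) (nat_lit 5) (nat_lit 50) (nat_lit 5) (nat_lit 47) (nat_lit 5) (nat_lit 510) (nat_lit 377) (nat_lit 253))))))))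
noncomputable def xc96 : XT := (XT.nd (nat_lit 50232) (nat_lit 0) (nat_lit 26372) (XT.nd (nat_lit 1092) (nat_lit 380) (nat_lit 0) (XT.nd (nat_lit 546) (nat_lit 532) (nat_lit 0) (XT.nd (nat_lit 234) (nat_lit 304) (nat_lit 0) (XT.nd (nat_lit 78) (nat_lit 152) (nat_lit 0) (XT.lf (nat_lit 0) (nat_lit 5766616947) (nat_lit 304) (nat_lit 9636432930) (nat_lit 76) (nat_lit 6150915436) (nat_lit 46) (nat_lit 5) (nat_lit 50) (nat_lit 5) (nat_lit 47) (nat_lit 5) (nat_lit 511) (nat_lit 377) (nat_lit 252)) (XT.nd (nat_lit 78) (nat_lit 152) (nat_lit 0) (XT.lf (nat_lit 0) (nat_lit 9794111795) (nat_lit 304) (nat_lit 785888043) (nat_lit 76) (nat_lit 11298078219) (nat_lit 46) (nat_lit 5) (nat_lit 50) (nat_lit 5) (nat_lit 47) (nat_lit 5) (nat_lit 512) (nat_lit 377) (nat_lit 251)) (XT.lf (nat_lit 0) (nat_lit 8325611289) (nat_lit 152) (nat_lit 5615768265) (nat_lit 228) (nat_lit 8266513489) (nat_lit 44) (nat_lit 5) (nat_lit 46) (nat_lit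 5) (nat_lit 47) (nat_lit 5) (nat_lit 513) (nat_lit 377) (nat_lit 250)))) (XT.nd (nat_lit 156) (nat_lit 76) (nat_lit 0) (XT.nd (nat_lit 78) (nat_lit 228) (nat_lit 0) (XT.lf (nat_lit 0) (nat_lit 17604911293) (nat_lit 152) (nat_lit 557250704) (nat_lit 228) (nat_lit 4382335308) (nat_lit 44) (nat_lit 5) (nat_lit 46) (nat_lit 5) (nat_lit 47) (nat_lit 5) (nat_lit 514) (nat_lit 377) (nat_lit 249)) (XT.lf (nat_lit 0) (nat_lit 4182113780) (nat_lit 228) (nat_lit 18327799308) (nat_lit 304) (nat_lit 377073780) (nat_lit 41) (nat_lit 5) (nat_lit 44) (nat_lit 5) (nat_lit 45) (nat_lit 5) (nat_lit 515) (nat_lit 377) (nat_lit 248))) (XT.nd (nat_lit 78) (nat_lit 0) (nat_lit 0) (XT.lf (nat_lit 0) (nat_lit 3682257729) (nat_lit 304) (nat_lit 9735294874) (nat_lit 76) (nat_lit 9817844199) (nat_lit 40) (nat_lit 5) (nat_lit 44) (nat_lit 5) (nat_lit 41) (nat_lit 5) (nat_lit 516) (nat_lit 377) (nat_lit 247)) (XT.lf (nat_lit 0) (nat_lit 7803557589)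 (nat_lit 304) (nat_lit 613184957) (nat_lit 76) (nat_lit 15174269956) (nat_lit 40) (nat_lit 5) (nat_lit 44) (nat_lit 5) (nat_lit 41) (nat_lit 5) (nat_lit 517) (nat_lit 377) (nat_lit 246))))) (XT.nd (nat_lit 234) (nat_lit 228) (nat_lit 0) (XT.nd (nat_lit 78) (nat_lit 152) (nat_lit 0) (XT.lf (nat_lit 0) (nat_lit 8782668451) (nat_lit 152) (nat_lit 3267741843) (nat_lit 228) (nat_lit 11902471635) (nat_lit 38) (nat_lit 5) (nat_lit 40) (nat_lit 5) (nat_lit 41) (nat_lit 5) (nat_lit 518) (nat_lit 377) (nat_lit 245)) (XT.nd (nat_lit 78) (nat_lit 152) (nat_lit 0) (XT.lf (nat_lit 0) (nat_lit 16385382843) (nat_lit 228) (nat_lit 5984008550) (nat_lit 76) (nat_lit 1952537568) (nat_lit 38) (nat_lit 5) (nat_lit 41) (nat_lit 5) (nat_lit 39) (nat_lit 5) (nat_lit 519) (nat_lit 377) (nat_lit 244)) (XT.lf (nat_lit 0) (nat_lit 3385204160) (nat_lit 152) (nat_lit 17451899515) (nat_lit 228) (nat_lit 3860656078) (nat_lit 36) (nat_lit 5)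 (nat_lit 38) (nat_lit 5) (nat_lit 39) (nat_lit 5) (nat_lit 520) (nat_lit 377) (nat_lit 243)))) (XT.nd (nat_lit 156) (nat_lit 152) (nat_lit 0) (XT.nd (nat_lit 78) (nat_lit 0) (nat_lit 0) (XT.lf (nat_lit 0) (nat_lit 319732662) (nat_lit 228) (nat_lit 12083083234) (nat_lit 76) (nat_lit 12677718923) (nat_lit 35) (nat_lit 5) (nat_lit 38) (nat_lit 5) (nat_lit 36) (nat_lit 5) (nat_lit 521) (nat_lit 377) (nat_lit 242)) (XT.lf (nat_lit 0) (nat_lit 4518800055) (nat_lit 228) (nat_lit 2717630335) (nat_lit 76) (nat_lit 18234292895) (nat_lit 35) (nat_lit 5) (nat_lit 38) (nat_lit 5) (nat_lit 36) (nat_lit 5) (nat_lit 522) (nat_lit 377) (nat_lit 241))) (XT.nd (nat_lit 78) (nat_lit 0) (nat_lit 0) (XT.lf (nat_lit 0) (nat_lit 6903076864) (nat_lit 152) (nat_lit 1930568482) (nat_lit 228) (nat_lit 17034437752) (nat_lit 33) (nat_lit 5) (nat_lit 35) (nat_lit 5) (nat_lit 36) (nat_lit 5) (nat_lit 523) (nat_lit 377) (nat_lit 240)) (XT.lf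 (nat_lit 0) (nat_lit 13262773651) (nat_lit 228) (nat_lit 9565354443) (nat_lit 76) (nat_lit 3444705728) (nat_lit 33) (nat_lit 5) (nat_lit 36) (nat_lit 5) (nat_lit 34) (nat_lit 5) (nat_lit 524) (nat_lit 377) (nat_lit 239)))))) (XT.nd (nat_lit 48594) (nat_lit 0) (nat_lit 44840) (XT.nd (nat_lit 234) (nat_lit 228) (nat_lit 0) (XT.nd (nat_lit 78) (nat_lit 152) (nat_lit 0) (XT.lf (nat_lit 0) (nat_lit 17780549134) (nat_lit 228) (nat_lit 12691970) (nat_lit 76) (nat_lit 8892440536) (nat_lit 33) (nat_lit 5) (nat_lit 36) (nat_lit 5) (nat_lit 34) (nat_lit 5) (nat_lit 525) (nat_lit 377) (nat_lit 238)) (XT.nd (nat_lit 78) (nat_lit 0) (nat_lit 0) (XT.lf (nat_lit 0) (nat_lit 9838292839) (nat_lit 152) (nat_lit 12601792825) (nat_lit 228) (nat_lit 4665675944) (nat_lit 31) (nat_lit 5) (nat_lit 33) (nat_lit 5) (nat_lit 34) (nat_lit 5) (nat_lit 526) (nat_lit 377) (nat_lit 237)) (XT.lf (nat_lit 0) (nat_lit 19864850665) (nat_lit 152)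 (nat_lit 7315680415) (nat_lit 228) (nat_lit 353960975) (nat_lit 31) (nat_lit 5) (nat_lit 33) (nat_lit 5) (nat_lit 34) (nat_lit 5) (nat_lit 527) (nat_lit 377) (nat_lit 236)))) (XT.nd (nat_lit 48204) (nat_lit 0) (nat_lit 46436) (XT.nd (nat_lit 48126) (nat_lit 0) (nat_lit 46664) (XT.lf (nat_lit 0) (nat_lit 2100068885) (nat_lit 152) (nat_lit 1892308859) (nat_lit 228) (nat_lit 23978868813) (nat_lit 28) (nat_lit 5) (nat_lit 30) (nat_lit 5) (nat_lit 31) (nat_lit 5) (nat_lit 528) (nat_lit 377) (nat_lit 235)) (XT.lf (nat_lit 0) (nat_lit 2947868267) (nat_lit 76) (nat_lit 138646968) (nat_lit 76) (nat_lit 138646968) (nat_lit 642) (nat_lit 4) (nat_lit 643) (nat_lit 5) (nat_lit 643) (nat_lit 4) (nat_lit 384) (nat_lit 378) (nat_lit 378))) (XT.nd (nat_lit 78) (nat_lit 0) (nat_lit 0) (XT.lf (nat_lit 0) (nat_lit 2637103839) (nat_lit 152) (nat_lit 65894307) (nat_lit 228) (nat_lit 3751824197) (nat_lit 639) (nat_lit 5) (nat_lit 641)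 (nat_lit 5) (nat_lit 642) (nat_lit 4) (nat_lit 385) (nat_lit 378) (nat_lit 377)) (XT.lf (nat_lit 0) (nat_lit 5668204013) (nat_lit 228) (nat_lit 605429292) (nat_lit 0) (nat_lit 187269869) (nat_lit 639) (nat_lit 5) (nat_lit 642) (nat_lit 4) (nat_lit 639) (nat_lit 4) (nat_lit 386) (nat_lit 378) (nat_lit 376))))) (XT.nd (nat_lit 234) (nat_lit 912) (nat_lit 0) (XT.nd (nat_lit 78) (nat_lit 380) (nat_lit 0) (XT.lf (nat_lit 0) (nat_lit 2139448556) (nat_lit 304) (nat_lit 3819379172) (nat_lit 76) (nat_lit 509234042) (nat_lit 635) (nat_lit 5) (nat_lit 639) (nat_lit 5) (nat_lit 636) (nat_lit 4) (nat_lit 387) (nat_lit 378) (nat_lit 375)) (XT.nd (nat_lit 78) (nat_lit 380) (nat_lit 0) (XT.lf (nat_lit 0) (nat_lit 5050100649) (nat_lit 304) (nat_lit 547833621) (nat_lit 76) (nat_lit 878818625) (nat_lit 635) (nat_lit 5) (nat_lit 639) (nat_lit 5) (nat_lit 636) (nat_lit 4) (nat_lit 388) (nat_lit 378) (nat_lit 374)) (XT.lf (nat_lit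 0) (nat_lit 1458668815) (nat_lit 380) (nat_lit 3713262109) (nat_lit 76) (nat_lit 1314678831) (nat_lit 630) (nat_lit 5) (nat_lit 635) (nat_lit 5) (nat_lit 631) (nat_lit 5) (nat_lit 389) (nat_lit 378) (nat_lit 373)))) (XT.nd (nat_lit 156) (nat_lit 456) (nat_lit 0) (XT.nd (nat_lit 78) (nat_lit 456) (nat_lit 0) (XT.lf (nat_lit 0) (nat_lit 4314703907) (nat_lit 380) (nat_lit 380961781) (nat_lit 76) (nat_lit 1802264938) (nat_lit 630) (nat_lit 5) (nat_lit 635) (nat_lit 5) (nat_lit 631) (nat_lit 5) (nat_lit 390) (nat_lit 378) (nat_lit 372)) (XT.lf (nat_lit 0) (nat_lit 657902405) (nat_lit 456) (nat_lit 3499815595) (nat_lit 76) (nat_lit 2352781676) (nat_lit 624) (nat_lit 5) (nat_lit 630) (nat_lit 5) (nat_lit 625) (nat_lit 5) (nat_lit 391) (nat_lit 378) (nat_lit 371))) (XT.nd (nat_lit 78) (nat_lit 456) (nat_lit 0) (XT.lf (nat_lit 0) (nat_lit 3459570118) (nat_lit 456) (nat_lit 105585174) (nat_lit 76) (nat_lit 2959309259)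 (nat_lit 624) (nat_lit 5) (nat_lit 630) (nat_lit 5) (nat_lit 625) (nat_lit 5) (nat_lit 392) (nat_lit 378) (nat_lit 370)) (XT.lf (nat_lit 0) (nat_lit 3358252661) (nat_lit 456) (nat_lit 2912536938) (nat_lit 532) (nat_lit 268939003) (nat_lit 618) (nat_lit 5) (nat_lit 624) (nat_lit 5) (nat_lit 625) (nat_lit 5) (nat_lit 393) (nat_lit 378) (nat_lit 369))))))) (XT.nd (nat_lit 1092) (nat_lit 11628) (nat_lit 0) (XT.nd (nat_lit 546) (nat_lit 4028) (nat_lit 0) (XT.nd (nat_lit 234) (nat_lit 1520) (nat_lit 0) (XT.nd (nat_lit 78) (nat_lit 684) (nat_lit 0) (XT.lf (nat_lit 0) (nat_lit 281400533) (nat_lit 532) (nat_lit 2202447495) (nat_lit 608) (nat_lit 4072505483) (nat_lit 610) (nat_lit 5) (nat_lit 617) (nat_lit 5) (nat_lit 618) (nat_lit 5) (nat_lit 394) (nat_lit 378) (nat_lit 368)) (XT.nd (nat_lit 78) (nat_lit 684) (nat_lit 0) (XT.lf (nat_lit 0) (nat_lit 3812108664) (nat_lit 532) (nat_lit 1430620894) (nat_lit 608) (nat_lit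 1331538052) (nat_lit 610) (nat_lit 5) (nat_lit 617) (nat_lit 5) (nat_lit 618) (nat_lit 5) (nat_lit 395) (nat_lit 378) (nat_lit 367)) (XT.lf (nat_lit 0) (nat_lit 778730936) (nat_lit 608) (nat_lit 605461285) (nat_lit 684) (nat_lit 5209456427) (nat_lit 601) (nat_lit 5) (nat_lit 609) (nat_lit 5) (nat_lit 610) (nat_lit 5) (nat_lit 396) (nat_lit 378) (nat_lit 366)))) (XT.nd (nat_lit 156) (nat_lit 760) (nat_lit 0) (XT.nd (nat_lit 78) (nat_lit 760) (nat_lit 0) (XT.lf (nat_lit 0) (nat_lit 4091868364) (nat_lit 684) (nat_lit 2239747819) (nat_lit 76) (nat_lit 282596018) (nat_lit 601) (nat_lit 5) (nat_lit 610) (nat_lit 5) (nat_lit 602) (nat_lit 5) (nat_lit 397) (nat_lit 378) (nat_lit 365)) (XT.lf (nat_lit 0) (nat_lit 164709552) (nat_lit 760) (nat_lit 5259616865) (nat_lit 76) (nat_lit 1211927974) (nat_lit 591) (nat_lit 5) (nat_lit 601) (nat_lit 5) (nat_lit 592) (nat_lit 5) (nat_lit 398) (nat_lit 378) (nat_lit 364))) (XT.nd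 (nat_lit 78) (nat_lit 760) (nat_lit 0) (XT.lf (nat_lit 0) (nat_lit 2823888169) (nat_lit 760) (nat_lit 1623400300) (nat_lit 76) (nat_lit 2212147850) (nat_lit 591) (nat_lit 5) (nat_lit 601) (nat_lit 5) (nat_lit 592) (nat_lit 5) (nat_lit 399) (nat_lit 378) (nat_lit 363)) (XT.lf (nat_lit 0) (nat_lit 2069674332) (nat_lit 760) (nat_lit 3418246419) (nat_lit 836) (nat_lit 1196201760) (nat_lit 581) (nat_lit 5) (nat_lit 591) (nat_lit 5) (nat_lit 592) (nat_lit 5) (nat_lit 400) (nat_lit 378) (nat_lit 362))))) (XT.nd (nat_lit 234) (nat_lit 3116) (nat_lit 0) (XT.nd (nat_lit 78) (nat_lit 836) (nat_lit 0) (XT.lf (nat_lit 0) (nat_lit 1425970062) (nat_lit 836) (nat_lit 903866564) (nat_lit 76) (nat_lit 4380349553) (nat_lit 580) (nat_lit 5) (nat_lit 591) (nat_lit 5) (nat_lit 581) (nat_lit 5) (nat_lit 401) (nat_lit 378) (nat_lit 361)) (XT.nd (nat_lit 78) (nat_lit 0) (nat_lit 0) (XT.lf (nat_lit 0) (nat_lit 2867859105) (nat_lit 836)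 (nat_lit 1175238111) (nat_lit 912) (nat_lit 2694414949) (nat_lit 569) (nat_lit 5) (nat_lit 580) (nat_lit 5) (nat_lit 581) (nat_lit 5) (nat_lit 402) (nat_lit 378) (nat_lit 360)) (XT.lf (nat_lit 0) (nat_lit 6659593805) (nat_lit 912) (nat_lit 81885971) (nat_lit 76) (nat_lit 25032753) (nat_lit 569) (nat_lit 5) (nat_lit 581) (nat_lit 5) (nat_lit 570) (nat_lit 5) (nat_lit 403) (nat_lit 378) (nat_lit 359)))) (XT.nd (nat_lit 156) (nat_lit 1140) (nat_lit 0) (XT.nd (nat_lit 78) (nat_lit 988) (nat_lit 0) (XT.lf (nat_lit 0) (nat_lit 2473272092) (nat_lit 988) (nat_lit 3032487234) (nat_lit 76) (nat_lit 1290587353) (nat_lit 556) (nat_lit 5) (nat_lit 569) (nat_lit 5) (nat_lit 557) (nat_lit 5) (nat_lit 404) (nat_lit 378) (nat_lit 358)) (XT.lf (nat_lit 0) (nat_lit 827479571) (nat_lit 988) (nat_lit 4224562550) (nat_lit 1064) (nat_lit 1775817567) (nat_lit 543) (nat_lit 5) (nat_lit 556) (nat_lit 5) (nat_lit 557) (nat_lit 5) (nat_lit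 405) (nat_lit 378) (nat_lit 357))) (XT.nd (nat_lit 78) (nat_lit 1064) (nat_lit 0) (XT.lf (nat_lit 0) (nat_lit 774972673) (nat_lit 1064) (nat_lit 2103377391) (nat_lit 76) (nat_lit 3982340577) (nat_lit 542) (nat_lit 5) (nat_lit 556) (nat_lit 5) (nat_lit 543) (nat_lit 5) (nat_lit 406) (nat_lit 378) (nat_lit 356)) (XT.lf (nat_lit 0) (nat_lit 1840751630) (nat_lit 1064) (nat_lit 1468231764) (nat_lit 1140) (nat_lit 3585901132) (nat_lit 528) (nat_lit 5) (nat_lit 542) (nat_lit 5) (nat_lit 543) (nat_lit 5) (nat_lit 407) (nat_lit 378) (nat_lit 355)))))) (XT.nd (nat_lit 546) (nat_lit 6460) (nat_lit 0) (XT.nd (nat_lit 234) (nat_lit 2736) (nat_lit 0) (XT.nd (nat_lit 78) (nat_lit 2432) (nat_lit 0) (XT.lf (nat_lit 0) (nat_lit 5849364079) (nat_lit 1064) (nat_lit 3253537) (nat_lit 1140) (nat_lit 1078025351) (nat_lit 528) (nat_lit 5) (nat_lit 542) (nat_lit 5) (nat_lit 543) (nat_lit 5) (nat_lit 408) (nat_lit 378) (nat_lit 354))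 (XT.nd (nat_lit 78) (nat_lit 1216) (nat_lit 0) (XT.lf (nat_lit 0) (nat_lit 1435240179) (nat_lit 1216) (nat_lit 4020276780) (nat_lit 76) (nat_lit 1511971809) (nat_lit 512) (nat_lit 5) (nat_lit 528) (nat_lit 5) (nat_lit 513) (nat_lit 5) (nat_lit 409) (nat_lit 378) (nat_lit 353)) (XT.lf (nat_lit 0) (nat_lit 15222150) (nat_lit 1216) (nat_lit 3922911176) (nat_lit 1292) (nat_lit 3067775810) (nat_lit 496) (nat_lit 5) (nat_lit 512) (nat_lit 5) (nat_lit 513) (nat_lit 5) (nat_lit 410) (nat_lit 378) (nat_lit 352)))) (XT.nd (nat_lit 156) (nat_lit 1368) (nat_lit 0) (XT.nd (nat_lit 78) (nat_lit 1368) (nat_lit 0) (XT.lf (nat_lit 0) (nat_lit 4142442957) (nat_lit 1216) (nat_lit 2322748199) (nat_lit 1292) (nat_lit 580479630) (nat_lit 496) (nat_lit 5) (nat_lit 512) (nat_lit 5) (nat_lit 513) (nat_lit 5) (nat_lit 411) (nat_lit 378) (nat_lit 351)) (XT.lf (nat_lit 0) (nat_lit 1225977745) (nat_lit 1292) (nat_lit 660652758) (nat_lit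 1368) (nat_lit 5200281398) (nat_lit 478) (nat_lit 5) (nat_lit 495) (nat_lit 5) (nat_lit 496) (nat_lit 5) (nat_lit 412) (nat_lit 378) (nat_lit 350))) (XT.nd (nat_lit 78) (nat_lit 1368) (nat_lit 0) (XT.lf (nat_lit 0) (nat_lit 4370214240) (nat_lit 1368) (nat_lit 1706386930) (nat_lit 76) (nat_lit 1052853683) (nat_lit 478) (nat_lit 5) (nat_lit 496) (nat_lit 5) (nat_lit 479) (nat_lit 5) (nat_lit 413) (nat_lit 378) (nat_lit 349)) (XT.lf (nat_lit 0) (nat_lit 2516518820) (nat_lit 1368) (nat_lit 4357241091) (nat_lit 1444) (nat_lit 299733770) (nat_lit 460) (nat_lit 5) (nat_lit 478) (nat_lit 5) (nat_lit 479) (nat_lit 5) (nat_lit 414) (nat_lit 378) (nat_lit 348))))) (XT.nd (nat_lit 234) (nat_lit 3420) (nat_lit 0) (XT.nd (nat_lit 78) (nat_lit 2964) (nat_lit 0) (XT.lf (nat_lit 0) (nat_lit 2141425629) (nat_lit 1444) (nat_lit 429380062) (nat_lit 76) (nat_lit 4648140931) (nat_lit 459) (nat_lit 5) (nat_lit 478) (nat_lit 5) (nat_lit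 460) (nat_lit 5) (nat_lit 415) (nat_lit 378) (nat_lit 347)) (XT.nd (nat_lit 78) (nat_lit 1520) (nat_lit 0) (XT.lf (nat_lit 0) (nat_lit 3888852169) (nat_lit 1444) (nat_lit 714684371) (nat_lit 1520) (nat_lit 2662257511) (nat_lit 440) (nat_lit 5) (nat_lit 459) (nat_lit 5) (nat_lit 460) (nat_lit 5) (nat_lit 416) (nat_lit 378) (nat_lit 346)) (XT.lf (nat_lit 0) (nat_lit 946791920) (nat_lit 1520) (nat_lit 6136409932) (nat_lit 1596) (nat_lit 231057282) (nat_lit 420) (nat_lit 5) (nat_lit 440) (nat_lit 5) (nat_lit 441) (nat_lit 5) (nat_lit 417) (nat_lit 378) (nat_lit 345)))) (XT.nd (nat_lit 156) (nat_lit 1748) (nat_lit 0) (XT.nd (nat_lit 78) (nat_lit 1596) (nat_lit 0) (XT.lf (nat_lit 0) (nat_lit 2198736087) (nat_lit 1596) (nat_lit 2024047683) (nat_lit 76) (nat_lit 3141073622) (nat_lit 419) (nat_lit 5) (nat_lit 440) (nat_lit 5) (nat_lit 420) (nat_lit 5) (nat_lit 418) (nat_lit 378) (nat_lit 344)) (XT.lf (nat_lit 0) (nat_lit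 2392857966) (nat_lit 1596) (nat_lit 2249573180) (nat_lit 1672) (nat_lit 2772662174) (nat_lit 398) (nat_lit 5) (nat_lit 419) (nat_lit 5) (nat_lit 420) (nat_lit 5) (nat_lit 419) (nat_lit 378) (nat_lit 343))) (XT.nd (nat_lit 78) (nat_lit 1748) (nat_lit 0) (XT.lf (nat_lit 0) (nat_lit 6882587814) (nat_lit 1596) (nat_lit 219500917) (nat_lit 1672) (nat_lit 365966835) (nat_lit 398) (nat_lit 5) (nat_lit 419) (nat_lit 5) (nat_lit 420) (nat_lit 5) (nat_lit 420) (nat_lit 378) (nat_lit 342)) (XT.lf (nat_lit 0) (nat_lit 2053389977) (nat_lit 1748) (nat_lit 3599228483) (nat_lit 76) (nat_lit 1869390573) (nat_lit 375) (nat_lit 5) (nat_lit 398) (nat_lit 5) (nat_lit 376) (nat_lit 5) (nat_lit 421) (nat_lit 378) (nat_lit 341))))))))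
noncomputable def xc97 : XT := (XT.nd (nat_lit 2184) (nat_lit 7372) (nat_lit 0) (XT.nd (nat_lit 1092) (nat_lit 5928) (nat_lit 0) (XT.nd (nat_lit 546) (nat_lit 3192) (nat_lit 0) (XT.nd (nat_lit 234) (nat_lit 1748) (nat_lit 0) (XT.nd (nat_lit 78) (nat_lit 912) (nat_lit 0) (XT.lf (nat_lit 0) (nat_lit 916844105) (nat_lit 1292) (nat_lit 3565472371) (nat_lit 1368) (nat_lit 3095395930) (nat_lit 358) (nat_lit 5) (nat_lit 375) (nat_lit 5) (nat_lit 376) (nat_lit 5) (nat_lit 422) (nat_lit 378) (nat_lit 340)) (XT.nd (nat_lit 78) (nat_lit 912) (nat_lit 0) (XT.lf (nat_lit 0) (nat_lit 5528868277) (nat_lit 1292) (nat_lit 1410430677) (nat_lit 1368) (nat_lit 695681414) (nat_lit 358) (nat_lit 5) (nat_lit 375) (nat_lit 5) (nat_lit 376) (nat_lit 5) (nat_lit 423) (nat_lit 378) (nat_lit 339)) (XT.lf (nat_lit 0) (nat_lit 1706578317) (nat_lit 912) (nat_lit 5180609071) (nat_lit 76) (nat_lit 806466728) (nat_lit 346) (nat_lit 5) (nat_lit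 358) (nat_lit 5) (nat_lit 347) (nat_lit 5) (nat_lit 424) (nat_lit 378) (nat_lit 338)))) (XT.nd (nat_lit 156) (nat_lit 912) (nat_lit 0) (XT.nd (nat_lit 78) (nat_lit 836) (nat_lit 0) (XT.lf (nat_lit 0) (nat_lit 4127610041) (nat_lit 912) (nat_lit 557694699) (nat_lit 76) (nat_lit 3068541549) (nat_lit 346) (nat_lit 5) (nat_lit 358) (nat_lit 5) (nat_lit 347) (nat_lit 5) (nat_lit 425) (nat_lit 378) (nat_lit 337)) (XT.lf (nat_lit 0) (nat_lit 4169649054) (nat_lit 836) (nat_lit 2411805029) (nat_lit 912) (nat_lit 1234137409) (nat_lit 335) (nat_lit 5) (nat_lit 346) (nat_lit 5) (nat_lit 347) (nat_lit 5) (nat_lit 426) (nat_lit 378) (nat_lit 336))) (XT.nd (nat_lit 78) (nat_lit 0) (nat_lit 0) (XT.lf (nat_lit 0) (nat_lit 1083931841) (nat_lit 836) (nat_lit 74428218) (nat_lit 912) (nat_lit 6720723125) (nat_lit 323) (nat_lit 5) (nat_lit 334) (nat_lit 5) (nat_lit 335) (nat_lit 5) (nat_lit 427) (nat_lit 378) (nat_lit 335)) (XT.lf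 (nat_lit 0) (nat_lit 3579937117) (nat_lit 912) (nat_lit 2052478067) (nat_lit 76) (nat_lit 2311346162) (nat_lit 323) (nat_lit 5) (nat_lit 335) (nat_lit 5) (nat_lit 324) (nat_lit 5) (nat_lit 428) (nat_lit 378) (nat_lit 334))))) (XT.nd (nat_lit 234) (nat_lit 1520) (nat_lit 0) (XT.nd (nat_lit 78) (nat_lit 836) (nat_lit 0) (XT.lf (nat_lit 0) (nat_lit 2778231209) (nat_lit 836) (nat_lit 3249181794) (nat_lit 912) (nat_lit 1982804923) (nat_lit 312) (nat_lit 5) (nat_lit 323) (nat_lit 5) (nat_lit 324) (nat_lit 5) (nat_lit 429) (nat_lit 378) (nat_lit 333)) (XT.nd (nat_lit 78) (nat_lit 760) (nat_lit 0) (XT.lf (nat_lit 0) (nat_lit 413016085) (nat_lit 912) (nat_lit 390393288) (nat_lit 76) (nat_lit 7275108673) (nat_lit 311) (nat_lit 5) (nat_lit 323) (nat_lit 5) (nat_lit 312) (nat_lit 5) (nat_lit 430) (nat_lit 378) (nat_lit 332)) (XT.lf (nat_lit 0) (nat_lit 2831000016) (nat_lit 836) (nat_lit 3607018050) (nat_lit 76) (nat_lit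 1709920278) (nat_lit 301) (nat_lit 5) (nat_lit 312) (nat_lit 5) (nat_lit 302) (nat_lit 5) (nat_lit 431) (nat_lit 378) (nat_lit 331)))) (XT.nd (nat_lit 156) (nat_lit 760) (nat_lit 0) (XT.nd (nat_lit 78) (nat_lit 0) (nat_lit 0) (XT.lf (nat_lit 0) (nat_lit 1326780151) (nat_lit 760) (nat_lit 3947597384) (nat_lit 836) (nat_lit 2944860430) (nat_lit 291) (nat_lit 5) (nat_lit 301) (nat_lit 5) (nat_lit 302) (nat_lit 5) (nat_lit 432) (nat_lit 378) (nat_lit 330)) (XT.lf (nat_lit 0) (nat_lit 6365689334) (nat_lit 760) (nat_lit 1386099732) (nat_lit 836) (nat_lit 540502160) (nat_lit 291) (nat_lit 5) (nat_lit 301) (nat_lit 5) (nat_lit 302) (nat_lit 5) (nat_lit 433) (nat_lit 378) (nat_lit 329))) (XT.nd (nat_lit 78) (nat_lit 0) (nat_lit 0) (XT.lf (nat_lit 0) (nat_lit 1876757898) (nat_lit 760) (nat_lit 5250136169) (nat_lit 76) (nat_lit 1239895184) (nat_lit 281) (nat_lit 5) (nat_lit 291) (nat_lit 5) (nat_lit 282) (nat_lit 5) (nat_lit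 434) (nat_lit 378) (nat_lit 328)) (XT.lf (nat_lit 0) (nat_lit 4319228928) (nat_lit 760) (nat_lit 211131604) (nat_lit 76) (nat_lit 3912692378) (nat_lit 281) (nat_lit 5) (nat_lit 291) (nat_lit 5) (nat_lit 282) (nat_lit 5) (nat_lit 435) (nat_lit 378) (nat_lit 327)))))) (XT.nd (nat_lit 546) (nat_lit 2432) (nat_lit 0) (XT.nd (nat_lit 234) (nat_lit 1976) (nat_lit 0) (XT.nd (nat_lit 78) (nat_lit 760) (nat_lit 0) (XT.lf (nat_lit 0) (nat_lit 4951775776) (nat_lit 760) (nat_lit 1853573548) (nat_lit 836) (nat_lit 1715625137) (nat_lit 271) (nat_lit 5) (nat_lit 281) (nat_lit 5) (nat_lit 282) (nat_lit 5) (nat_lit 436) (nat_lit 378) (nat_lit 326)) (XT.nd (nat_lit 78) (nat_lit 0) (nat_lit 0) (XT.lf (nat_lit 0) (nat_lit 711411682) (nat_lit 760) (nat_lit 7012261453) (nat_lit 76) (nat_lit 877104848) (nat_lit 261) (nat_lit 5) (nat_lit 271) (nat_lit 5) (nat_lit 262) (nat_lit 5) (nat_lit 437) (nat_lit 378) (nat_lit 325)) (XT.lf (nat_lit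 0) (nat_lit 3163688261) (nat_lit 760) (nat_lit 1850244899) (nat_lit 76) (nat_lit 3668051151) (nat_lit 261) (nat_lit 5) (nat_lit 271) (nat_lit 5) (nat_lit 262) (nat_lit 5) (nat_lit 438) (nat_lit 378) (nat_lit 324)))) (XT.nd (nat_lit 156) (nat_lit 1292) (nat_lit 0) (XT.nd (nat_lit 78) (nat_lit 0) (nat_lit 0) (XT.lf (nat_lit 0) (nat_lit 3418157292) (nat_lit 684) (nat_lit 2233030956) (nat_lit 760) (nat_lit 3113929399) (nat_lit 252) (nat_lit 5) (nat_lit 261) (nat_lit 5) (nat_lit 262) (nat_lit 5) (nat_lit 439) (nat_lit 378) (nat_lit 323)) (XT.lf (nat_lit 0) (nat_lit 8169239209) (nat_lit 760) (nat_lit 78767530) (nat_lit 76) (nat_lit 602316809) (nat_lit 252) (nat_lit 5) (nat_lit 262) (nat_lit 5) (nat_lit 253) (nat_lit 5) (nat_lit 440) (nat_lit 378) (nat_lit 322))) (XT.nd (nat_lit 78) (nat_lit 608) (nat_lit 0) (XT.lf (nat_lit 0) (nat_lit 1791210934) (nat_lit 684) (nat_lit 3640420010) (nat_lit 76) (nat_lit 3505105626)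 (nat_lit 243) (nat_lit 5) (nat_lit 252) (nat_lit 5) (nat_lit 244) (nat_lit 5) (nat_lit 441) (nat_lit 378) (nat_lit 321)) (XT.lf (nat_lit 0) (nat_lit 1731802901) (nat_lit 608) (nat_lit 2549062142) (nat_lit 684) (nat_lit 4744406539) (nat_lit 235) (nat_lit 5) (nat_lit 243) (nat_lit 5) (nat_lit 244) (nat_lit 5) (nat_lit 442) (nat_lit 378) (nat_lit 320))))) (XT.nd (nat_lit 234) (nat_lit 1748) (nat_lit 0) (XT.nd (nat_lit 78) (nat_lit 684) (nat_lit 0) (XT.lf (nat_lit 0) (nat_lit 6813059879) (nat_lit 684) (nat_lit 1898864783) (nat_lit 76) (nat_lit 403821627) (nat_lit 235) (nat_lit 5) (nat_lit 244) (nat_lit 5) (nat_lit 236) (nat_lit 5) (nat_lit 443) (nat_lit 378) (nat_lit 319)) (XT.nd (nat_lit 78) (nat_lit 0) (nat_lit 0) (XT.lf (nat_lit 0) (nat_lit 191923358) (nat_lit 684) (nat_lit 5616386777) (nat_lit 76) (nat_lit 3399588591) (nat_lit 226) (nat_lit 5) (nat_lit 235) (nat_lit 5) (nat_lit 227) (nat_lit 5) (nat_lit 444)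 (nat_lit 378) (nat_lit 318)) (XT.lf (nat_lit 0) (nat_lit 2684891912) (nat_lit 684) (nat_lit 140806153) (nat_lit 76) (nat_lit 6476328306) (nat_lit 226) (nat_lit 5) (nat_lit 235) (nat_lit 5) (nat_lit 227) (nat_lit 5) (nat_lit 445) (nat_lit 378) (nat_lit 317)))) (XT.nd (nat_lit 156) (nat_lit 608) (nat_lit 0) (XT.nd (nat_lit 78) (nat_lit 532) (nat_lit 0) (XT.lf (nat_lit 0) (nat_lit 5231965697) (nat_lit 684) (nat_lit 3923957429) (nat_lit 76) (nat_lit 242050646) (nat_lit 218) (nat_lit 5) (nat_lit 227) (nat_lit 5) (nat_lit 219) (nat_lit 5) (nat_lit 446) (nat_lit 378) (nat_lit 316)) (XT.lf (nat_lit 0) (nat_lit 1669584754) (nat_lit 532) (nat_lit 6158336799) (nat_lit 608) (nat_lit 1667981446) (nat_lit 211) (nat_lit 5) (nat_lit 218) (nat_lit 5) (nat_lit 219) (nat_lit 5) (nat_lit 447) (nat_lit 378) (nat_lit 315))) (XT.nd (nat_lit 78) (nat_lit 532) (nat_lit 0) (XT.lf (nat_lit 0) (nat_lit 862547751) (nat_lit 608) (nat_lit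 2213962677) (nat_lit 76) (nat_lit 6519305286) (nat_lit 210) (nat_lit 5) (nat_lit 218) (nat_lit 5) (nat_lit 211) (nat_lit 5) (nat_lit 448) (nat_lit 378) (nat_lit 314)) (XT.lf (nat_lit 0) (nat_lit 3412950338) (nat_lit 608) (nat_lit 6192938085) (nat_lit 76) (nat_lit 91806251) (nat_lit 203) (nat_lit 5) (nat_lit 211) (nat_lit 5) (nat_lit 204) (nat_lit 5) (nat_lit 449) (nat_lit 378) (nat_lit 313))))))) (XT.nd (nat_lit 1092) (nat_lit 3268) (nat_lit 0) (XT.nd (nat_lit 546) (nat_lit 1900) (nat_lit 0) (XT.nd (nat_lit 234) (nat_lit 1064) (nat_lit 0) (XT.nd (nat_lit 78) (nat_lit 1140) (nat_lit 0) (XT.lf (nat_lit 0) (nat_lit 6018212254) (nat_lit 608) (nat_lit 494449140) (nat_lit 76) (nat_lit 3288892828) (nat_lit 203) (nat_lit 5) (nat_lit 211) (nat_lit 5) (nat_lit 204) (nat_lit 5) (nat_lit 450) (nat_lit 378) (nat_lit 312)) (XT.nd (nat_lit 78) (nat_lit 608) (nat_lit 0) (XT.lf (nat_lit 0) (nat_lit 5348426208) (nat_lit 532) (nat_lit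 3331017743) (nat_lit 608) (nat_lit 1227989365) (nat_lit 196) (nat_lit 5) (nat_lit 203) (nat_lit 5) (nat_lit 204) (nat_lit 5) (nat_lit 451) (nat_lit 378) (nat_lit 311)) (XT.lf (nat_lit 0) (nat_lit 1267251252) (nat_lit 532) (nat_lit 73974781) (nat_lit 608) (nat_lit 8674427148) (nat_lit 188) (nat_lit 5) (nat_lit 195) (nat_lit 5) (nat_lit 196) (nat_lit 5) (nat_lit 452) (nat_lit 378) (nat_lit 310)))) (XT.nd (nat_lit 156) (nat_lit 608) (nat_lit 0) (XT.nd (nat_lit 78) (nat_lit 456) (nat_lit 0) (XT.lf (nat_lit 0) (nat_lit 3966835880) (nat_lit 608) (nat_lit 2923215426) (nat_lit 76) (nat_lit 3235413248) (nat_lit 188) (nat_lit 5) (nat_lit 196) (nat_lit 5) (nat_lit 189) (nat_lit 5) (nat_lit 453) (nat_lit 378) (nat_lit 309)) (XT.lf (nat_lit 0) (nat_lit 3018158142) (nat_lit 456) (nat_lit 3617034660) (nat_lit 532) (nat_lit 3602492804) (nat_lit 182) (nat_lit 5) (nat_lit 188) (nat_lit 5) (nat_lit 189) (nat_lit 5) (nat_lit 454)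 (nat_lit 378) (nat_lit 308))) (XT.nd (nat_lit 78) (nat_lit 608) (nat_lit 0) (XT.lf (nat_lit 0) (nat_lit 9078832964) (nat_lit 456) (nat_lit 268180423) (nat_lit 532) (nat_lit 1005353552) (nat_lit 182) (nat_lit 5) (nat_lit 188) (nat_lit 5) (nat_lit 189) (nat_lit 5) (nat_lit 455) (nat_lit 378) (nat_lit 307)) (XT.lf (nat_lit 0) (nat_lit 1644869019) (nat_lit 608) (nat_lit 5684819129) (nat_lit 76) (nat_lit 3139003444) (nat_lit 174) (nat_lit 5) (nat_lit 182) (nat_lit 5) (nat_lit 175) (nat_lit 5) (nat_lit 456) (nat_lit 378) (nat_lit 306))))) (XT.nd (nat_lit 234) (nat_lit 988) (nat_lit 0) (XT.nd (nat_lit 78) (nat_lit 456) (nat_lit 0) (XT.lf (nat_lit 0) (nat_lit 349548972) (nat_lit 456) (nat_lit 3968854714) (nat_lit 532) (nat_lit 6269147521) (nat_lit 168) (nat_lit 5) (nat_lit 174) (nat_lit 5) (nat_lit 175) (nat_lit 5) (nat_lit 457) (nat_lit 378) (nat_lit 305)) (XT.nd (nat_lit 78) (nat_lit 456) (nat_lit 0) (XT.lf (nat_lit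 0) (nat_lit 6542857517) (nat_lit 456) (nat_lit 512122736) (nat_lit 532) (nat_lit 3653632776) (nat_lit 168) (nat_lit 5) (nat_lit 174) (nat_lit 5) (nat_lit 175) (nat_lit 5) (nat_lit 458) (nat_lit 378) (nat_lit 304)) (XT.lf (nat_lit 0) (nat_lit 1995990122) (nat_lit 456) (nat_lit 7854743040) (nat_lit 532) (nat_lit 981290142) (nat_lit 162) (nat_lit 5) (nat_lit 168) (nat_lit 5) (nat_lit 169) (nat_lit 5) (nat_lit 459) (nat_lit 378) (nat_lit 303)))) (XT.nd (nat_lit 156) (nat_lit 456) (nat_lit 0) (XT.nd (nat_lit 78) (nat_lit 456) (nat_lit 0) (XT.lf (nat_lit 0) (nat_lit 1725171668) (nat_lit 532) (nat_lit 2673497458) (nat_lit 76) (nat_lit 6558950585) (nat_lit 161) (nat_lit 5) (nat_lit 168) (nat_lit 5) (nat_lit 162) (nat_lit 5) (nat_lit 460) (nat_lit 378) (nat_lit 302)) (XT.lf (nat_lit 0) (nat_lit 3615273742) (nat_lit 456) (nat_lit 853403816) (nat_lit 532) (nat_lit 6617014860) (nat_lit 155) (nat_lit 5) (nat_lit 161) (nat_lit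 5) (nat_lit 162) (nat_lit 5) (nat_lit 461) (nat_lit 378) (nat_lit 301))) (XT.nd (nat_lit 78) (nat_lit 456) (nat_lit 0) (XT.lf (nat_lit 0) (nat_lit 7275844687) (nat_lit 532) (nat_lit 1206135186) (nat_lit 76) (nat_lit 2734185771) (nat_lit 155) (nat_lit 5) (nat_lit 162) (nat_lit 5) (nat_lit 156) (nat_lit 5) (nat_lit 462) (nat_lit 378) (nat_lit 300)) (XT.lf (nat_lit 0) (nat_lit 5208672201) (nat_lit 456) (nat_lit 4943280262) (nat_lit 532) (nat_lit 1197054521) (nat_lit 149) (nat_lit 5) (nat_lit 155) (nat_lit 5) (nat_lit 156) (nat_lit 5) (nat_lit 463) (nat_lit 378) (nat_lit 299)))))) (XT.nd (nat_lit 546) (nat_lit 1520) (nat_lit 0) (XT.nd (nat_lit 234) (nat_lit 836) (nat_lit 0) (XT.nd (nat_lit 78) (nat_lit 456) (nat_lit 0) (XT.lf (nat_lit 0) (nat_lit 238922775) (nat_lit 380) (nat_lit 1324274888) (nat_lit 456) (nat_lit 9921451235) (nat_lit 143) (nat_lit 5) (nat_lit 148) (nat_lit 5) (nat_lit 149) (nat_lit 5) (nat_lit 464)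 (nat_lit 378) (nat_lit 298)) (XT.nd (nat_lit 78) (nat_lit 456) (nat_lit 0) (XT.lf (nat_lit 0) (nat_lit 4393115740) (nat_lit 456) (nat_lit 4854514658) (nat_lit 76) (nat_lit 2374618968) (nat_lit 143) (nat_lit 5) (nat_lit 149) (nat_lit 5) (nat_lit 144) (nat_lit 5) (nat_lit 465) (nat_lit 378) (nat_lit 297)) (XT.lf (nat_lit 0) (nat_lit 1640238319) (nat_lit 456) (nat_lit 5632958321) (nat_lit 532) (nat_lit 4489547397) (nat_lit 137) (nat_lit 5) (nat_lit 143) (nat_lit 5) (nat_lit 144) (nat_lit 5) (nat_lit 466) (nat_lit 378) (nat_lit 296)))) (XT.nd (nat_lit 156) (nat_lit 380) (nat_lit 0) (XT.nd (nat_lit 78) (nat_lit 456) (nat_lit 0) (XT.lf (nat_lit 0) (nat_lit 8293909458) (nat_lit 456) (nat_lit 1923959118) (nat_lit 532) (nat_lit 1688053458) (nat_lit 137) (nat_lit 5) (nat_lit 143) (nat_lit 5) (nat_lit 144) (nat_lit 5) (nat_lit 467) (nat_lit 378) (nat_lit 295)) (XT.lf (nat_lit 0) (nat_lit 1160683773) (nat_lit 456) (nat_lit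 9039762235) (nat_lit 76) (nat_lit 1851247403) (nat_lit 131) (nat_lit 5) (nat_lit 137) (nat_lit 5) (nat_lit 132) (nat_lit 5) (nat_lit 468) (nat_lit 378) (nat_lit 294))) (XT.nd (nat_lit 78) (nat_lit 380) (nat_lit 0) (XT.lf (nat_lit 0) (nat_lit 4055878227) (nat_lit 456) (nat_lit 2443269879) (nat_lit 76) (nat_lit 5700779698) (nat_lit 131) (nat_lit 5) (nat_lit 137) (nat_lit 5) (nat_lit 132) (nat_lit 5) (nat_lit 469) (nat_lit 378) (nat_lit 293)) (XT.lf (nat_lit 0) (nat_lit 4305731705) (nat_lit 380) (nat_lit 2706616126) (nat_lit 456) (nat_lit 5338723841) (nat_lit 126) (nat_lit 5) (nat_lit 131) (nat_lit 5) (nat_lit 132) (nat_lit 5) (nat_lit 470) (nat_lit 378) (nat_lit 292))))) (XT.nd (nat_lit 234) (nat_lit 1140) (nat_lit 0) (XT.nd (nat_lit 78) (nat_lit 380) (nat_lit 0) (XT.lf (nat_lit 0) (nat_lit 10027586636) (nat_lit 456) (nat_lit 1325809640) (nat_lit 76) (nat_lit 1151861317) (nat_lit 126) (nat_lit 5) (nat_lit 132)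 (nat_lit 5) (nat_lit 127) (nat_lit 5) (nat_lit 471) (nat_lit 378) (nat_lit 291)) (XT.nd (nat_lit 78) (nat_lit 0) (nat_lit 0) (XT.lf (nat_lit 0) (nat_lit 465025923) (nat_lit 380) (nat_lit 7117426621) (nat_lit 76) (nat_lit 5079424955) (nat_lit 121) (nat_lit 5) (nat_lit 126) (nat_lit 5) (nat_lit 122) (nat_lit 5) (nat_lit 472) (nat_lit 378) (nat_lit 290)) (XT.lf (nat_lit 0) (nat_lit 3418531568) (nat_lit 380) (nat_lit 303299129) (nat_lit 76) (nat_lit 9099780222) (nat_lit 121) (nat_lit 5) (nat_lit 126) (nat_lit 5) (nat_lit 122) (nat_lit 5) (nat_lit 473) (nat_lit 378) (nat_lit 289)))) (XT.nd (nat_lit 156) (nat_lit 456) (nat_lit 0) (XT.nd (nat_lit 78) (nat_lit 304) (nat_lit 0) (XT.lf (nat_lit 0) (nat_lit 6452837961) (nat_lit 456) (nat_lit 6285551779) (nat_lit 76) (nat_lit 245725717) (nat_lit 116) (nat_lit 5) (nat_lit 122) (nat_lit 5) (nat_lit 117) (nat_lit 5) (nat_lit 474) (nat_lit 378) (nat_lit 288)) (XT.lf (nat_lit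 0) (nat_lit 643580997) (nat_lit 304) (nat_lit 8911896850) (nat_lit 380) (nat_lit 3594250137) (nat_lit 112) (nat_lit 5) (nat_lit 116) (nat_lit 5) (nat_lit 117) (nat_lit 5) (nat_lit 475) (nat_lit 378) (nat_lit 287))) (XT.nd (nat_lit 78) (nat_lit 456) (nat_lit 0) (XT.lf (nat_lit 0) (nat_lit 7761784652) (nat_lit 304) (nat_lit 4977567452) (nat_lit 380) (nat_lit 578927658) (nat_lit 112) (nat_lit 5) (nat_lit 116) (nat_lit 5) (nat_lit 117) (nat_lit 5) (nat_lit 476) (nat_lit 378) (nat_lit 286)) (XT.lf (nat_lit 0) (nat_lit 1501283777) (nat_lit 380) (nat_lit 949713682) (nat_lit 456) (nat_lit 11039150313) (nat_lit 106) (nat_lit 5) (nat_lit 111) (nat_lit 5) (nat_lit 112) (nat_lit 5) (nat_lit 477) (nat_lit 378) (nat_lit 285))))))))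
noncomputable def xc98 : XT := (XT.nd (nat_lit 2184) (nat_lit 1900) (nat_lit 0) (XT.nd (nat_lit 1092) (nat_lit 1672) (nat_lit 0) (XT.nd (nat_lit 546) (nat_lit 1216) (nat_lit 0) (XT.nd (nat_lit 234) (nat_lit 684) (nat_lit 0) (XT.nd (nat_lit 78) (nat_lit 304) (nat_lit 0) (XT.lf (nat_lit 0) (nat_lit 5569260471) (nat_lit 456) (nat_lit 4948262214) (nat_lit 76) (nat_lit 3147154117) (nat_lit 106) (nat_lit 5) (nat_lit 112) (nat_lit 5) (nat_lit 107) (nat_lit 5) (nat_lit 478) (nat_lit 378) (nat_lit 284)) (XT.nd (nat_lit 78) (nat_lit 0) (nat_lit 0) (XT.lf (nat_lit 0) (nat_lit 2222179373) (nat_lit 304) (nat_lit 6526310738) (nat_lit 380) (nat_lit 5094244097) (nat_lit 102) (nat_lit 5) (nat_lit 106) (nat_lit 5) (nat_lit 107) (nat_lit 5) (nat_lit 479) (nat_lit 378) (nat_lit 283)) (XT.lf (nat_lit 0) (nat_lit 9569500317) (nat_lit 304) (nat_lit 2433108945) (nat_lit 380) (nat_lit 2021527031) (nat_lit 102) (nat_lit 5) (nat_lit 106)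 (nat_lit 5) (nat_lit 107) (nat_lit 5) (nat_lit 480) (nat_lit 378) (nat_lit 282)))) (XT.nd (nat_lit 156) (nat_lit 304) (nat_lit 0) (XT.nd (nat_lit 78) (nat_lit 0) (nat_lit 0) (XT.lf (nat_lit 0) (nat_lit 1106348226) (nat_lit 380) (nat_lit 11368964878) (nat_lit 76) (nat_lit 1733552164) (nat_lit 97) (nat_lit 5) (nat_lit 102) (nat_lit 5) (nat_lit 98) (nat_lit 5) (nat_lit 481) (nat_lit 378) (nat_lit 281)) (XT.lf (nat_lit 0) (nat_lit 4294453834) (nat_lit 380) (nat_lit 4119064006) (nat_lit 76) (nat_lit 5983017989) (nat_lit 97) (nat_lit 5) (nat_lit 102) (nat_lit 5) (nat_lit 98) (nat_lit 5) (nat_lit 482) (nat_lit 378) (nat_lit 280))) (XT.nd (nat_lit 78) (nat_lit 0) (nat_lit 0) (XT.lf (nat_lit 0) (nat_lit 3286203222) (nat_lit 304) (nat_lit 4260387451) (nat_lit 380) (nat_lit 7041372642) (nat_lit 93) (nat_lit 5) (nat_lit 97) (nat_lit 5) (nat_lit 98) (nat_lit 5) (nat_lit 483) (nat_lit 378) (nat_lit 279)) (XT.lf (nat_lit 0)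 (nat_lit 10862895318) (nat_lit 304) (nat_lit 7650895) (nat_lit 380) (nat_lit 3912546340) (nat_lit 93) (nat_lit 5) (nat_lit 97) (nat_lit 5) (nat_lit 98) (nat_lit 5) (nat_lit 484) (nat_lit 378) (nat_lit 278))))) (XT.nd (nat_lit 234) (nat_lit 608) (nat_lit 0) (XT.nd (nat_lit 78) (nat_lit 304) (nat_lit 0) (XT.lf (nat_lit 0) (nat_lit 3595821148) (nat_lit 304) (nat_lit 10696090154) (nat_lit 380) (nat_lit 689603017) (nat_lit 89) (nat_lit 5) (nat_lit 93) (nat_lit 5) (nat_lit 94) (nat_lit 5) (nat_lit 485) (nat_lit 378) (nat_lit 277)) (XT.nd (nat_lit 78) (nat_lit 228) (nat_lit 0) (XT.lf (nat_lit 0) (nat_lit 2569781658) (nat_lit 380) (nat_lit 3917460512) (nat_lit 76) (nat_lit 8696212174) (nat_lit 88) (nat_lit 5) (nat_lit 93) (nat_lit 5) (nat_lit 89) (nat_lit 5) (nat_lit 486) (nat_lit 378) (nat_lit 276)) (XT.lf (nat_lit 0) (nat_lit 3712604694) (nat_lit 228) (nat_lit 2176552028) (nat_lit 304) (nat_lit 9500112612) (nat_lit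 85) (nat_lit 5) (nat_lit 88) (nat_lit 5) (nat_lit 89) (nat_lit 5) (nat_lit 487) (nat_lit 378) (nat_lit 275)))) (XT.nd (nat_lit 156) (nat_lit 304) (nat_lit 0) (XT.nd (nat_lit 78) (nat_lit 304) (nat_lit 0) (XT.lf (nat_lit 0) (nat_lit 9295835174) (nat_lit 304) (nat_lit 4096670531) (nat_lit 76) (nat_lit 2206284499) (nat_lit 85) (nat_lit 5) (nat_lit 89) (nat_lit 5) (nat_lit 86) (nat_lit 5) (nat_lit 488) (nat_lit 378) (nat_lit 274)) (XT.lf (nat_lit 0) (nat_lit 3637053948) (nat_lit 304) (nat_lit 9152050659) (nat_lit 380) (nat_lit 3023035481) (nat_lit 81) (nat_lit 5) (nat_lit 85) (nat_lit 5) (nat_lit 86) (nat_lit 5) (nat_lit 489) (nat_lit 378) (nat_lit 273))) (XT.nd (nat_lit 78) (nat_lit 228) (nat_lit 0) (XT.lf (nat_lit 0) (nat_lit 326401808) (nat_lit 380) (nat_lit 4481716431) (nat_lit 76) (nat_lit 11221441324) (nat_lit 80) (nat_lit 5) (nat_lit 85) (nat_lit 5) (nat_lit 81) (nat_lit 5) (nat_lit 490) (nat_lit 378) (nat_lit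 272)) (XT.lf (nat_lit 0) (nat_lit 3358948078) (nat_lit 228) (nat_lit 346106396) (nat_lit 304) (nat_lit 12545826506) (nat_lit 77) (nat_lit 5) (nat_lit 80) (nat_lit 5) (nat_lit 81) (nat_lit 5) (nat_lit 491) (nat_lit 378) (nat_lit 271)))))) (XT.nd (nat_lit 546) (nat_lit 836) (nat_lit 0) (XT.nd (nat_lit 234) (nat_lit 532) (nat_lit 0) (XT.nd (nat_lit 78) (nat_lit 304) (nat_lit 0) (XT.lf (nat_lit 0) (nat_lit 7189818985) (nat_lit 304) (nat_lit 5117068859) (nat_lit 76) (nat_lit 4168977360) (nat_lit 77) (nat_lit 5) (nat_lit 81) (nat_lit 5) (nat_lit 78) (nat_lit 5) (nat_lit 492) (nat_lit 378) (nat_lit 270)) (XT.nd (nat_lit 78) (nat_lit 0) (nat_lit 0) (XT.lf (nat_lit 0) (nat_lit 2817842681) (nat_lit 304) (nat_lit 7928359141) (nat_lit 380) (nat_lit 5959115845) (nat_lit 73) (nat_lit 5) (nat_lit 77) (nat_lit 5) (nat_lit 78) (nat_lit 5) (nat_lit 493) (nat_lit 378) (nat_lit 269)) (XT.lf (nat_lit 0) (nat_lit 10950899586) (nat_lit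 304) (nat_lit 3438658325) (nat_lit 380) (nat_lit 2549491234) (nat_lit 73) (nat_lit 5) (nat_lit 77) (nat_lit 5) (nat_lit 78) (nat_lit 5) (nat_lit 494) (nat_lit 378) (nat_lit 268)))) (XT.nd (nat_lit 156) (nat_lit 228) (nat_lit 0) (XT.nd (nat_lit 78) (nat_lit 0) (nat_lit 0) (XT.lf (nat_lit 0) (nat_lit 918734693) (nat_lit 304) (nat_lit 15124319714) (nat_lit 76) (nat_lit 1134235229) (nat_lit 69) (nat_lit 5) (nat_lit 73) (nat_lit 5) (nat_lit 70) (nat_lit 5) (nat_lit 495) (nat_lit 378) (nat_lit 267)) (XT.lf (nat_lit 0) (nat_lit 4467278799) (nat_lit 304) (nat_lit 7153010331) (nat_lit 76) (nat_lit 5798773417) (nat_lit 69) (nat_lit 5) (nat_lit 73) (nat_lit 5) (nat_lit 70) (nat_lit 5) (nat_lit 496) (nat_lit 378) (nat_lit 266))) (XT.nd (nat_lit 78) (nat_lit 0) (nat_lit 0) (XT.lf (nat_lit 0) (nat_lit 961234881) (nat_lit 228) (nat_lit 7113993127) (nat_lit 304) (nat_lit 9590680579) (nat_lit 66) (nat_lit 5) (nat_lit 69) (nat_lit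 5) (nat_lit 70) (nat_lit 5) (nat_lit 497) (nat_lit 378) (nat_lit 265)) (XT.lf (nat_lit 0) (nat_lit 9305820239) (nat_lit 228) (nat_lit 2479871152) (nat_lit 304) (nat_lit 6131399281) (nat_lit 66) (nat_lit 5) (nat_lit 69) (nat_lit 5) (nat_lit 70) (nat_lit 5) (nat_lit 498) (nat_lit 378) (nat_lit 264))))) (XT.nd (nat_lit 234) (nat_lit 532) (nat_lit 0) (XT.nd (nat_lit 78) (nat_lit 304) (nat_lit 0) (XT.lf (nat_lit 0) (nat_lit 15567581656) (nat_lit 304) (nat_lit 399207010) (nat_lit 76) (nat_lit 2206569486) (nat_lit 66) (nat_lit 5) (nat_lit 70) (nat_lit 5) (nat_lit 67) (nat_lit 5) (nat_lit 499) (nat_lit 378) (nat_lit 263)) (XT.nd (nat_lit 78) (nat_lit 0) (nat_lit 0) (XT.lf (nat_lit 0) (nat_lit 1029286591) (nat_lit 304) (nat_lit 10402460156) (nat_lit 76) (nat_lit 7001843173) (nat_lit 62) (nat_lit 5) (nat_lit 66) (nat_lit 5) (nat_lit 63) (nat_lit 5) (nat_lit 500) (nat_lit 378) (nat_lit 262)) (XT.lf (nat_lit 0) (nat_lit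 4687893872) (nat_lit 304) (nat_lit 2108867840) (nat_lit 76) (nat_lit 11902211197) (nat_lit 62) (nat_lit 5) (nat_lit 66) (nat_lit 5) (nat_lit 63) (nat_lit 5) (nat_lit 501) (nat_lit 378) (nat_lit 261)))) (XT.nd (nat_lit 156) (nat_lit 304) (nat_lit 0) (XT.nd (nat_lit 78) (nat_lit 0) (nat_lit 0) (XT.lf (nat_lit 0) (nat_lit 6407072121) (nat_lit 228) (nat_lit 2037538406) (nat_lit 304) (nat_lit 10524559927) (nat_lit 59) (nat_lit 5) (nat_lit 62) (nat_lit 5) (nat_lit 63) (nat_lit 5) (nat_lit 502) (nat_lit 378) (nat_lit 260)) (XT.lf (nat_lit 0) (nat_lit 12292412568) (nat_lit 304) (nat_lit 4168592584) (nat_lit 76) (nat_lit 2783453308) (nat_lit 59) (nat_lit 5) (nat_lit 63) (nat_lit 5) (nat_lit 60) (nat_lit 5) (nat_lit 503) (nat_lit 378) (nat_lit 259))) (XT.nd (nat_lit 78) (nat_lit 76) (nat_lit 0) (XT.lf (nat_lit 0) (nat_lit 4410031828) (nat_lit 228) (nat_lit 11833007200) (nat_lit 304) (nat_lit 3281701254) (nat_lit 56) (nat_lit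 5) (nat_lit 59) (nat_lit 5) (nat_lit 60) (nat_lit 5) (nat_lit 504) (nat_lit 378) (nat_lit 258)) (XT.lf (nat_lit 0) (nat_lit 467923061) (nat_lit 304) (nat_lit 6623657126) (nat_lit 76) (nat_lit 12718754113) (nat_lit 55) (nat_lit 5) (nat_lit 59) (nat_lit 5) (nat_lit 56) (nat_lit 5) (nat_lit 505) (nat_lit 378) (nat_lit 257))))))) (XT.nd (nat_lit 1092) (nat_lit 608) (nat_lit 0) (XT.nd (nat_lit 546) (nat_lit 608) (nat_lit 0) (XT.nd (nat_lit 234) (nat_lit 456) (nat_lit 0) (XT.nd (nat_lit 78) (nat_lit 0) (nat_lit 0) (XT.lf (nat_lit 0) (nat_lit 2015306585) (nat_lit 228) (nat_lit 2230509190) (nat_lit 304) (nat_lit 15855451335) (nat_lit 52) (nat_lit 5) (nat_lit 55) (nat_lit 5) (nat_lit 56) (nat_lit 5) (nat_lit 506) (nat_lit 378) (nat_lit 256)) (XT.nd (nat_lit 78) (nat_lit 0) (nat_lit 0) (XT.lf (nat_lit 0) (nat_lit 8145882686) (nat_lit 304) (nat_lit 9524982272) (nat_lit 76) (nat_lit 2726226301) (nat_lit 52) (nat_lit 5) (nat_lit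 56) (nat_lit 5) (nat_lit 53) (nat_lit 5) (nat_lit 507) (nat_lit 378) (nat_lit 255)) (XT.lf (nat_lit 0) (nat_lit 12123196224) (nat_lit 304) (nat_lit 833715557) (nat_lit 76) (nat_lit 7741940114) (nat_lit 52) (nat_lit 5) (nat_lit 56) (nat_lit 5) (nat_lit 53) (nat_lit 5) (nat_lit 508) (nat_lit 378) (nat_lit 254)))) (XT.nd (nat_lit 156) (nat_lit 304) (nat_lit 0) (XT.nd (nat_lit 78) (nat_lit 0) (nat_lit 0) (XT.lf (nat_lit 0) (nat_lit 8112121840) (nat_lit 152) (nat_lit 8105381611) (nat_lit 228) (nat_lit 4788400162) (nat_lit 50) (nat_lit 5) (nat_lit 52) (nat_lit 5) (nat_lit 53) (nat_lit 5) (nat_lit 509) (nat_lit 378) (nat_lit 253)) (XT.lf (nat_lit 0) (nat_lit 17222699359) (nat_lit 152) (nat_lit 3161503325) (nat_lit 228) (nat_lit 935088284) (nat_lit 50) (nat_lit 5) (nat_lit 52) (nat_lit 5) (nat_lit 53) (nat_lit 5) (nat_lit 510) (nat_lit 378) (nat_lit 252))) (XT.nd (nat_lit 78) (nat_lit 0) (nat_lit 0) (XT.lf (nat_lit 0)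 (nat_lit 2985386364) (nat_lit 304) (nat_lit 16754582904) (nat_lit 76) (nat_lit 1898004784) (nat_lit 46) (nat_lit 5) (nat_lit 50) (nat_lit 5) (nat_lit 47) (nat_lit 5) (nat_lit 511) (nat_lit 378) (nat_lit 251)) (XT.lf (nat_lit 0) (nat_lit 7005538452) (nat_lit 304) (nat_lit 7916537196) (nat_lit 76) (nat_lit 7040160206) (nat_lit 46) (nat_lit 5) (nat_lit 50) (nat_lit 5) (nat_lit 47) (nat_lit 5) (nat_lit 512) (nat_lit 378) (nat_lit 250))))) (XT.nd (nat_lit 234) (nat_lit 456) (nat_lit 0) (XT.nd (nat_lit 78) (nat_lit 0) (nat_lit 0) (XT.lf (nat_lit 0) (nat_lit 1087782614) (nat_lit 152) (nat_lit 10010832028) (nat_lit 228) (nat_lit 11194522189) (nat_lit 44) (nat_lit 5) (nat_lit 46) (nat_lit 5) (nat_lit 47) (nat_lit 5) (nat_lit 513) (nat_lit 378) (nat_lit 249)) (XT.nd (nat_lit 78) (nat_lit 0) (nat_lit 0) (XT.lf (nat_lit 0) (nat_lit 10354909140) (nat_lit 152) (nat_lit 4957351274) (nat_lit 228) (nat_lit 7317625528) (nat_lit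 44) (nat_lit 5) (nat_lit 46) (nat_lit 5) (nat_lit 47) (nat_lit 5) (nat_lit 514) (nat_lit 378) (nat_lit 248)) (XT.lf (nat_lit 0) (nat_lit 19597261281) (nat_lit 228) (nat_lit 3191602544) (nat_lit 76) (nat_lit 184768759) (nat_lit 44) (nat_lit 5) (nat_lit 47) (nat_lit 5) (nat_lit 45) (nat_lit 5) (nat_lit 515) (nat_lit 378) (nat_lit 247)))) (XT.nd (nat_lit 156) (nat_lit 152) (nat_lit 0) (XT.nd (nat_lit 78) (nat_lit 0) (nat_lit 0) (XT.lf (nat_lit 0) (nat_lit 694143268) (nat_lit 304) (nat_lit 17230939831) (nat_lit 76) (nat_lit 5397913948) (nat_lit 40) (nat_lit 5) (nat_lit 44) (nat_lit 5) (nat_lit 41) (nat_lit 5) (nat_lit 516) (nat_lit 378) (nat_lit 246)) (XT.lf (nat_lit 0) (nat_lit 4808563890) (nat_lit 304) (nat_lit 8120654163) (nat_lit 76) (nat_lit 10749534235) (nat_lit 40) (nat_lit 5) (nat_lit 44) (nat_lit 5) (nat_lit 41) (nat_lit 5) (nat_lit 517) (nat_lit 378) (nat_lit 245))) (XT.nd (nat_lit 78) (nat_lit 0) (nat_lit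 0) (XT.lf (nat_lit 0) (nat_lit 1163682472) (nat_lit 152) (nat_lit 7835522261) (nat_lit 228) (nat_lit 15042543136) (nat_lit 38) (nat_lit 5) (nat_lit 40) (nat_lit 5) (nat_lit 41) (nat_lit 5) (nat_lit 518) (nat_lit 378) (nat_lit 244)) (XT.lf (nat_lit 0) (nat_lit 10720520852) (nat_lit 152) (nat_lit 2594123909) (nat_lit 228) (nat_lit 11096542670) (nat_lit 38) (nat_lit 5) (nat_lit 40) (nat_lit 5) (nat_lit 41) (nat_lit 5) (nat_lit 519) (nat_lit 378) (nat_lit 243)))))) (XT.nd (nat_lit 546) (nat_lit 76) (nat_lit 0) (XT.nd (nat_lit 234) (nat_lit 304) (nat_lit 0) (XT.nd (nat_lit 78) (nat_lit 228) (nat_lit 0) (XT.lf (nat_lit 0) (nat_lit 17720957326) (nat_lit 228) (nat_lit 4360401204) (nat_lit 76) (nat_lit 2706569702) (nat_lit 38) (nat_lit 5) (nat_lit 41) (nat_lit 5) (nat_lit 39) (nat_lit 5) (nat_lit 520) (nat_lit 378) (nat_lit 242)) (XT.nd (nat_lit 78) (nat_lit 76) (nat_lit 0) (XT.lf (nat_lit 0) (nat_lit 5184726763) (nat_lit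 152) (nat_lit 17068467831) (nat_lit 228) (nat_lit 2918256934) (nat_lit 36) (nat_lit 5) (nat_lit 38) (nat_lit 5) (nat_lit 39) (nat_lit 5) (nat_lit 521) (nat_lit 378) (nat_lit 241)) (XT.lf (nat_lit 0) (nat_lit 1312636990) (nat_lit 228) (nat_lit 10613507702) (nat_lit 76) (nat_lit 13636004922) (nat_lit 35) (nat_lit 5) (nat_lit 38) (nat_lit 5) (nat_lit 36) (nat_lit 5) (nat_lit 522) (nat_lit 378) (nat_lit 240)))) (XT.nd (nat_lit 156) (nat_lit 152) (nat_lit 0) (XT.nd (nat_lit 78) (nat_lit 152) (nat_lit 0) (XT.lf (nat_lit 0) (nat_lit 5576342404) (nat_lit 228) (nat_lit 1094299416) (nat_lit 76) (nat_lit 19289892106) (nat_lit 35) (nat_lit 5) (nat_lit 38) (nat_lit 5) (nat_lit 36) (nat_lit 5) (nat_lit 523) (nat_lit 378) (nat_lit 239)) (XT.lf (nat_lit 0) (nat_lit 8707784536) (nat_lit 152) (nat_lit 1261556990) (nat_lit 228) (nat_lit 16396667377) (nat_lit 33) (nat_lit 5) (nat_lit 35) (nat_lit 5) (nat_lit 36) (nat_lit 5) (nat_lit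 524) (nat_lit 378) (nat_lit 238))) (XT.nd (nat_lit 78) (nat_lit 152) (nat_lit 0) (XT.lf (nat_lit 0) (nat_lit 14472752291) (nat_lit 228) (nat_lit 8108144244) (nat_lit 76) (nat_lit 4198249117) (nat_lit 33) (nat_lit 5) (nat_lit 36) (nat_lit 5) (nat_lit 34) (nat_lit 5) (nat_lit 525) (nat_lit 378) (nat_lit 237)) (XT.lf (nat_lit 0) (nat_lit 1624553927) (nat_lit 152) (nat_lit 17448353055) (nat_lit 228) (nat_lit 8127507880) (nat_lit 31) (nat_lit 5) (nat_lit 33) (nat_lit 5) (nat_lit 34) (nat_lit 5) (nat_lit 526) (nat_lit 378) (nat_lit 236))))) (XT.nd (nat_lit 48126) (nat_lit 0) (nat_lit 46208) (XT.nd (nat_lit 78) (nat_lit 76) (nat_lit 0) (XT.lf (nat_lit 0) (nat_lit 11640619264) (nat_lit 152) (nat_lit 12166730893) (nat_lit 228) (nat_lit 3821916768) (nat_lit 31) (nat_lit 5) (nat_lit 33) (nat_lit 5) (nat_lit 34) (nat_lit 5) (nat_lit 527) (nat_lit 378) (nat_lit 235)) (XT.nd (nat_lit 47970) (nat_lit 0) (nat_lit 46588) (XT.lf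 (nat_lit 0) (nat_lit 550344734) (nat_lit 228) (nat_lit 6234330903) (nat_lit 76) (nat_lit 21282188830) (nat_lit 30) (nat_lit 5) (nat_lit 33) (nat_lit 5) (nat_lit 31) (nat_lit 5) (nat_lit 528) (nat_lit 378) (nat_lit 234)) (XT.lf (nat_lit 0) (nat_lit 1517907573) (nat_lit 76) (nat_lit 186285133) (nat_lit 0) (nat_lit 1517907573) (nat_lit 643) (nat_lit 5) (nat_lit 644) (nat_lit 0) (nat_lit 643) (nat_lit 4) (nat_lit 382) (nat_lit 379) (nat_lit 379)))) (XT.nd (nat_lit 156) (nat_lit 228) (nat_lit 0) (XT.nd (nat_lit 78) (nat_lit 76) (nat_lit 0) (XT.lf (nat_lit 0) (nat_lit 2738224046) (nat_lit 76) (nat_lit 3294016515) (nat_lit 76) (nat_lit 414605049) (nat_lit 642) (nat_lit 4) (nat_lit 643) (nat_lit 5) (nat_lit 643) (nat_lit 4) (nat_lit 383) (nat_lit 379) (nat_lit 378)) (XT.lf (nat_lit 0) (nat_lit 2529788617) (nat_lit 152) (nat_lit 592190875) (nat_lit 76) (nat_lit 3328826605) (nat_lit 641) (nat_lit 5) (nat_lit 643) (nat_lit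 5) (nat_lit 642) (nat_lit 4) (nat_lit 384) (nat_lit 379) (nat_lit 377))) (XT.nd (nat_lit 78) (nat_lit 76) (nat_lit 0) (XT.lf (nat_lit 0) (nat_lit 2576604722) (nat_lit 152) (nat_lit 2891993799) (nat_lit 228) (nat_lit 987480875) (nat_lit 639) (nat_lit 5) (nat_lit 641) (nat_lit 5) (nat_lit 642) (nat_lit 4) (nat_lit 385) (nat_lit 379) (nat_lit 376)) (XT.lf (nat_lit 0) (nat_lit 1907399564) (nat_lit 228) (nat_lit 699461197) (nat_lit 76) (nat_lit 3855863510) (nat_lit 638) (nat_lit 5) (nat_lit 641) (nat_lit 5) (nat_lit 639) (nat_lit 5) (nat_lit 386) (nat_lit 379) (nat_lit 375))))))))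
noncomputable def xc99 : XT := (XT.nd (nat_lit 2184) (nat_lit 17024) (nat_lit 0) (XT.nd (nat_lit 1092) (nat_lit 9196) (nat_lit 0) (XT.nd (nat_lit 546) (nat_lit 2812) (nat_lit 0) (XT.nd (nat_lit 234) (nat_lit 988) (nat_lit 0) (XT.nd (nat_lit 78) (nat_lit 380) (nat_lit 0) (XT.lf (nat_lit 0) (nat_lit 2529768051) (nat_lit 228) (nat_lit 2260060974) (nat_lit 304) (nat_lit 1680788664) (nat_lit 635) (nat_lit 5) (nat_lit 638) (nat_lit 5) (nat_lit 639) (nat_lit 5) (nat_lit 387) (nat_lit 379) (nat_lit 374)) (XT.nd (nat_lit 78) (nat_lit 304) (nat_lit 0) (XT.lf (nat_lit 0) (nat_lit 1166587362) (nat_lit 304) (nat_lit 695489463) (nat_lit 76) (nat_lit 4617894126) (nat_lit 634) (nat_lit 5) (nat_lit 638) (nat_lit 5) (nat_lit 635) (nat_lit 5) (nat_lit 388) (nat_lit 379) (nat_lit 373)) (XT.lf (nat_lit 0) (nat_lit 2596700435) (nat_lit 304) (nat_lit 1397050584) (nat_lit 380) (nat_lit 2496728827) (nat_lit 630) (nat_lit 5) (nat_lit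 634) (nat_lit 5) (nat_lit 635) (nat_lit 5) (nat_lit 389) (nat_lit 379) (nat_lit 372)))) (XT.nd (nat_lit 156) (nat_lit 532) (nat_lit 0) (XT.nd (nat_lit 78) (nat_lit 380) (nat_lit 0) (XT.lf (nat_lit 0) (nat_lit 305065124) (nat_lit 380) (nat_lit 581187480) (nat_lit 76) (nat_lit 5616316536) (nat_lit 629) (nat_lit 5) (nat_lit 634) (nat_lit 5) (nat_lit 630) (nat_lit 5) (nat_lit 390) (nat_lit 379) (nat_lit 371)) (XT.lf (nat_lit 0) (nat_lit 2776586360) (nat_lit 380) (nat_lit 301370193) (nat_lit 456) (nat_lit 3437735794) (nat_lit 624) (nat_lit 5) (nat_lit 629) (nat_lit 5) (nat_lit 630) (nat_lit 5) (nat_lit 391) (nat_lit 379) (nat_lit 370))) (XT.nd (nat_lit 78) (nat_lit 532) (nat_lit 0) (XT.lf (nat_lit 0) (nat_lit 5843862824) (nat_lit 456) (nat_lit 363870001) (nat_lit 76) (nat_lit 322684302) (nat_lit 624) (nat_lit 5) (nat_lit 630) (nat_lit 5) (nat_lit 625) (nat_lit 5) (nat_lit 392) (nat_lit 379) (nat_lit 369)) (XT.lf (nat_lit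 0) (nat_lit 2046484808) (nat_lit 532) (nat_lit 3484166151) (nat_lit 76) (nat_lit 1015504271) (nat_lit 617) (nat_lit 5) (nat_lit 624) (nat_lit 5) (nat_lit 618) (nat_lit 5) (nat_lit 393) (nat_lit 379) (nat_lit 368))))) (XT.nd (nat_lit 234) (nat_lit 1596) (nat_lit 0) (XT.nd (nat_lit 78) (nat_lit 1216) (nat_lit 0) (XT.lf (nat_lit 0) (nat_lit 4761034631) (nat_lit 532) (nat_lit 47610713) (nat_lit 76) (nat_lit 1754836175) (nat_lit 617) (nat_lit 5) (nat_lit 624) (nat_lit 5) (nat_lit 618) (nat_lit 5) (nat_lit 394) (nat_lit 379) (nat_lit 367)) (XT.nd (nat_lit 78) (nat_lit 608) (nat_lit 0) (XT.lf (nat_lit 0) (nat_lit 893268325) (nat_lit 608) (nat_lit 3126249576) (nat_lit 76) (nat_lit 2562455179) (nat_lit 609) (nat_lit 5) (nat_lit 617) (nat_lit 5) (nat_lit 610) (nat_lit 5) (nat_lit 395) (nat_lit 379) (nat_lit 366)) (XT.lf (nat_lit 0) (nat_lit 379960260) (nat_lit 608) (nat_lit 3176997610) (nat_lit 684) (nat_lit 3044954562)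 (nat_lit 601) (nat_lit 5) (nat_lit 609) (nat_lit 5) (nat_lit 610) (nat_lit 5) (nat_lit 396) (nat_lit 379) (nat_lit 365)))) (XT.nd (nat_lit 156) (nat_lit 836) (nat_lit 0) (XT.nd (nat_lit 78) (nat_lit 760) (nat_lit 0) (XT.lf (nat_lit 0) (nat_lit 3956922081) (nat_lit 608) (nat_lit 2274357496) (nat_lit 684) (nat_lit 391902392) (nat_lit 601) (nat_lit 5) (nat_lit 609) (nat_lit 5) (nat_lit 610) (nat_lit 5) (nat_lit 397) (nat_lit 379) (nat_lit 364)) (XT.lf (nat_lit 0) (nat_lit 915688616) (nat_lit 684) (nat_lit 1311254138) (nat_lit 760) (nat_lit 4418847486) (nat_lit 591) (nat_lit 5) (nat_lit 600) (nat_lit 5) (nat_lit 601) (nat_lit 5) (nat_lit 398) (nat_lit 379) (nat_lit 363))) (XT.nd (nat_lit 78) (nat_lit 836) (nat_lit 0) (XT.lf (nat_lit 0) (nat_lit 4561221696) (nat_lit 684) (nat_lit 287676054) (nat_lit 760) (nat_lit 1820855542) (nat_lit 591) (nat_lit 5) (nat_lit 600) (nat_lit 5) (nat_lit 601) (nat_lit 5) (nat_lit 399)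 (nat_lit 379) (nat_lit 362)) (XT.lf (nat_lit 0) (nat_lit 772325075) (nat_lit 836) (nat_lit 5141423461) (nat_lit 76) (nat_lit 781328515) (nat_lit 580) (nat_lit 5) (nat_lit 591) (nat_lit 5) (nat_lit 581) (nat_lit 5) (nat_lit 400) (nat_lit 379) (nat_lit 361)))))) (XT.nd (nat_lit 546) (nat_lit 5244) (nat_lit 0) (XT.nd (nat_lit 234) (nat_lit 3040) (nat_lit 0) (XT.nd (nat_lit 78) (nat_lit 912) (nat_lit 0) (XT.lf (nat_lit 0) (nat_lit 3349053061) (nat_lit 836) (nat_lit 1459775806) (nat_lit 76) (nat_lit 1912786165) (nat_lit 580) (nat_lit 5) (nat_lit 591) (nat_lit 5) (nat_lit 581) (nat_lit 5) (nat_lit 401) (nat_lit 379) (nat_lit 360)) (XT.nd (nat_lit 78) (nat_lit 76) (nat_lit 0) (XT.lf (nat_lit 0) (nat_lit 2283533956) (nat_lit 836) (nat_lit 3649680438) (nat_lit 912) (nat_lit 816419801) (nat_lit 569) (nat_lit 5) (nat_lit 580) (nat_lit 5) (nat_lit 581) (nat_lit 5) (nat_lit 402) (nat_lit 379) (nat_lit 359)) (XT.lf (nat_lit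 0) (nat_lit 1718725759) (nat_lit 912) (nat_lit 710699589) (nat_lit 76) (nat_lit 4349594230) (nat_lit 568) (nat_lit 5) (nat_lit 580) (nat_lit 5) (nat_lit 569) (nat_lit 5) (nat_lit 403) (nat_lit 379) (nat_lit 358)))) (XT.nd (nat_lit 156) (nat_lit 1140) (nat_lit 0) (XT.nd (nat_lit 78) (nat_lit 988) (nat_lit 0) (XT.lf (nat_lit 0) (nat_lit 3113583511) (nat_lit 912) (nat_lit 1142938513) (nat_lit 988) (nat_lit 2553169573) (nat_lit 556) (nat_lit 5) (nat_lit 568) (nat_lit 5) (nat_lit 569) (nat_lit 5) (nat_lit 404) (nat_lit 379) (nat_lit 357)) (XT.lf (nat_lit 0) (nat_lit 141153854) (nat_lit 988) (nat_lit 6654344500) (nat_lit 1064) (nat_lit 46533406) (nat_lit 543) (nat_lit 5) (nat_lit 556) (nat_lit 5) (nat_lit 557) (nat_lit 5) (nat_lit 405) (nat_lit 379) (nat_lit 356))) (XT.nd (nat_lit 78) (nat_lit 1064) (nat_lit 0) (XT.lf (nat_lit 0) (nat_lit 2453858775) (nat_lit 1064) (nat_lit 2836486586) (nat_lit 76) (nat_lit 1584877229)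 (nat_lit 542) (nat_lit 5) (nat_lit 556) (nat_lit 5) (nat_lit 543) (nat_lit 5) (nat_lit 406) (nat_lit 379) (nat_lit 355)) (XT.lf (nat_lit 0) (nat_lit 1076656737) (nat_lit 1064) (nat_lit 3879077057) (nat_lit 1140) (nat_lit 1954354872) (nat_lit 528) (nat_lit 5) (nat_lit 542) (nat_lit 5) (nat_lit 543) (nat_lit 5) (nat_lit 407) (nat_lit 379) (nat_lit 354))))) (XT.nd (nat_lit 234) (nat_lit 4028) (nat_lit 0) (XT.nd (nat_lit 78) (nat_lit 1140) (nat_lit 0) (XT.lf (nat_lit 0) (nat_lit 519278457) (nat_lit 1140) (nat_lit 1885385199) (nat_lit 76) (nat_lit 4541679565) (nat_lit 527) (nat_lit 5) (nat_lit 542) (nat_lit 5) (nat_lit 528) (nat_lit 5) (nat_lit 408) (nat_lit 379) (nat_lit 353)) (XT.nd (nat_lit 78) (nat_lit 0) (nat_lit 0) (XT.lf (nat_lit 0) (nat_lit 2114399490) (nat_lit 1140) (nat_lit 862131922) (nat_lit 1216) (nat_lit 4007382883) (nat_lit 512) (nat_lit 5) (nat_lit 527) (nat_lit 5) (nat_lit 528) (nat_lit 5) (nat_lit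 409) (nat_lit 379) (nat_lit 352)) (XT.lf (nat_lit 0) (nat_lit 5447694023) (nat_lit 1216) (nat_lit 849862395) (nat_lit 76) (nat_lit 725440088) (nat_lit 512) (nat_lit 5) (nat_lit 528) (nat_lit 5) (nat_lit 513) (nat_lit 5) (nat_lit 410) (nat_lit 379) (nat_lit 351)))) (XT.nd (nat_lit 156) (nat_lit 1444) (nat_lit 0) (XT.nd (nat_lit 78) (nat_lit 1292) (nat_lit 0) (XT.lf (nat_lit 0) (nat_lit 868547496) (nat_lit 1292) (nat_lit 3824164481) (nat_lit 76) (nat_lit 2370583633) (nat_lit 495) (nat_lit 5) (nat_lit 512) (nat_lit 5) (nat_lit 496) (nat_lit 5) (nat_lit 411) (nat_lit 379) (nat_lit 350)) (XT.lf (nat_lit 0) (nat_lit 267650217) (nat_lit 1292) (nat_lit 3028822210) (nat_lit 1368) (nat_lit 3808646024) (nat_lit 478) (nat_lit 5) (nat_lit 495) (nat_lit 5) (nat_lit 496) (nat_lit 5) (nat_lit 412) (nat_lit 379) (nat_lit 349))) (XT.nd (nat_lit 78) (nat_lit 1444) (nat_lit 0) (XT.lf (nat_lit 0) (nat_lit 4450890729) (nat_lit 1292)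 (nat_lit 1297250022) (nat_lit 1368) (nat_lit 1400184120) (nat_lit 478) (nat_lit 5) (nat_lit 495) (nat_lit 5) (nat_lit 496) (nat_lit 5) (nat_lit 413) (nat_lit 379) (nat_lit 348)) (XT.lf (nat_lit 0) (nat_lit 1005645058) (nat_lit 1444) (nat_lit 5700283797) (nat_lit 76) (nat_lit 487117158) (nat_lit 459) (nat_lit 5) (nat_lit 478) (nat_lit 5) (nat_lit 460) (nat_lit 5) (nat_lit 414) (nat_lit 379) (nat_lit 347))))))) (XT.nd (nat_lit 1092) (nat_lit 6688) (nat_lit 0) (XT.nd (nat_lit 546) (nat_lit 3952) (nat_lit 0) (XT.nd (nat_lit 234) (nat_lit 4864) (nat_lit 0) (XT.nd (nat_lit 78) (nat_lit 1520) (nat_lit 0) (XT.lf (nat_lit 0) (nat_lit 3418561018) (nat_lit 1444) (nat_lit 1495888764) (nat_lit 76) (nat_lit 2324520204) (nat_lit 459) (nat_lit 5) (nat_lit 478) (nat_lit 5) (nat_lit 460) (nat_lit 5) (nat_lit 415) (nat_lit 379) (nat_lit 346)) (XT.nd (nat_lit 78) (nat_lit 76) (nat_lit 0) (XT.lf (nat_lit 0) (nat_lit 2787056258) (nat_lit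 1444) (nat_lit 3062626419) (nat_lit 1520) (nat_lit 1436777766) (nat_lit 440) (nat_lit 5) (nat_lit 459) (nat_lit 5) (nat_lit 460) (nat_lit 5) (nat_lit 416) (nat_lit 379) (nat_lit 345)) (XT.lf (nat_lit 0) (nat_lit 943752077) (nat_lit 1520) (nat_lit 207780770) (nat_lit 76) (nat_lit 6184038456) (nat_lit 439) (nat_lit 5) (nat_lit 459) (nat_lit 5) (nat_lit 440) (nat_lit 5) (nat_lit 417) (nat_lit 379) (nat_lit 344)))) (XT.nd (nat_lit 156) (nat_lit 1748) (nat_lit 0) (XT.nd (nat_lit 78) (nat_lit 1596) (nat_lit 0) (XT.lf (nat_lit 0) (nat_lit 3338326288) (nat_lit 1596) (nat_lit 3218139183) (nat_lit 76) (nat_lit 829339766) (nat_lit 419) (nat_lit 5) (nat_lit 440) (nat_lit 5) (nat_lit 420) (nat_lit 5) (nat_lit 418) (nat_lit 379) (nat_lit 343)) (XT.lf (nat_lit 0) (nat_lit 1161635037) (nat_lit 1596) (nat_lit 4589513711) (nat_lit 1672) (nat_lit 1686531339) (nat_lit 398) (nat_lit 5) (nat_lit 419) (nat_lit 5) (nat_lit 420) (nat_lit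 5) (nat_lit 419) (nat_lit 379) (nat_lit 342))) (XT.nd (nat_lit 78) (nat_lit 1672) (nat_lit 0) (XT.lf (nat_lit 0) (nat_lit 687983280) (nat_lit 1672) (nat_lit 1865121683) (nat_lit 76) (nat_lit 4937919207) (nat_lit 397) (nat_lit 5) (nat_lit 419) (nat_lit 5) (nat_lit 398) (nat_lit 5) (nat_lit 420) (nat_lit 379) (nat_lit 341)) (XT.lf (nat_lit 0) (nat_lit 2615228427) (nat_lit 1672) (nat_lit 444152537) (nat_lit 1748) (nat_lit 4486432574) (nat_lit 375) (nat_lit 5) (nat_lit 397) (nat_lit 5) (nat_lit 398) (nat_lit 5) (nat_lit 421) (nat_lit 379) (nat_lit 340))))) (XT.nd (nat_lit 234) (nat_lit 1748) (nat_lit 0) (XT.nd (nat_lit 78) (nat_lit 2204) (nat_lit 0) (XT.lf (nat_lit 0) (nat_lit 5457493220) (nat_lit 1748) (nat_lit 444738676) (nat_lit 76) (nat_lit 1699921136) (nat_lit 375) (nat_lit 5) (nat_lit 398) (nat_lit 5) (nat_lit 376) (nat_lit 5) (nat_lit 422) (nat_lit 379) (nat_lit 339)) (XT.nd (nat_lit 78) (nat_lit 836) (nat_lit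 0) (XT.lf (nat_lit 0) (nat_lit 226918723) (nat_lit 1368) (nat_lit 3520996944) (nat_lit 76) (nat_lit 3911987091) (nat_lit 357) (nat_lit 5) (nat_lit 375) (nat_lit 5) (nat_lit 358) (nat_lit 5) (nat_lit 423) (nat_lit 379) (nat_lit 338)) (XT.lf (nat_lit 0) (nat_lit 1059075949) (nat_lit 836) (nat_lit 1524780291) (nat_lit 912) (nat_lit 5135372587) (nat_lit 346) (nat_lit 5) (nat_lit 357) (nat_lit 5) (nat_lit 358) (nat_lit 5) (nat_lit 424) (nat_lit 379) (nat_lit 337)))) (XT.nd (nat_lit 156) (nat_lit 912) (nat_lit 0) (XT.nd (nat_lit 78) (nat_lit 836) (nat_lit 0) (XT.lf (nat_lit 0) (nat_lit 4973859147) (nat_lit 912) (nat_lit 2048484465) (nat_lit 76) (nat_lit 757716292) (nat_lit 346) (nat_lit 5) (nat_lit 358) (nat_lit 5) (nat_lit 347) (nat_lit 5) (nat_lit 425) (nat_lit 379) (nat_lit 336)) (XT.lf (nat_lit 0) (nat_lit 2638040752) (nat_lit 836) (nat_lit 4759003580) (nat_lit 912) (nat_lit 445391919) (nat_lit 335) (nat_lit 5)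 (nat_lit 346) (nat_lit 5) (nat_lit 347) (nat_lit 5) (nat_lit 426) (nat_lit 379) (nat_lit 335))) (XT.nd (nat_lit 78) (nat_lit 836) (nat_lit 0) (XT.lf (nat_lit 0) (nat_lit 1909128459) (nat_lit 912) (nat_lit 514744032) (nat_lit 76) (nat_lit 5482522951) (nat_lit 334) (nat_lit 5) (nat_lit 346) (nat_lit 5) (nat_lit 335) (nat_lit 5) (nat_lit 427) (nat_lit 379) (nat_lit 334)) (XT.lf (nat_lit 0) (nat_lit 4280528690) (nat_lit 836) (nat_lit 11258289) (nat_lit 912) (nat_lit 3680081927) (nat_lit 323) (nat_lit 5) (nat_lit 334) (nat_lit 5) (nat_lit 335) (nat_lit 5) (nat_lit 428) (nat_lit 379) (nat_lit 333)))))) (XT.nd (nat_lit 546) (nat_lit 3496) (nat_lit 0) (XT.nd (nat_lit 234) (nat_lit 1520) (nat_lit 0) (XT.nd (nat_lit 78) (nat_lit 836) (nat_lit 0) (XT.lf (nat_lit 0) (nat_lit 1096633691) (nat_lit 836) (nat_lit 5611708050) (nat_lit 912) (nat_lit 1330618766) (nat_lit 312) (nat_lit 5) (nat_lit 323) (nat_lit 5) (nat_lit 324)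 (nat_lit 5) (nat_lit 429) (nat_lit 379) (nat_lit 332)) (XT.nd (nat_lit 78) (nat_lit 760) (nat_lit 0) (XT.lf (nat_lit 0) (nat_lit 1036829297) (nat_lit 912) (nat_lit 2125864627) (nat_lit 76) (nat_lit 4944894356) (nat_lit 311) (nat_lit 5) (nat_lit 323) (nat_lit 5) (nat_lit 312) (nat_lit 5) (nat_lit 430) (nat_lit 379) (nat_lit 331)) (XT.lf (nat_lit 0) (nat_lit 2773100584) (nat_lit 760) (nat_lit 639480022) (nat_lit 836) (nat_lit 4765288267) (nat_lit 301) (nat_lit 5) (nat_lit 311) (nat_lit 5) (nat_lit 312) (nat_lit 5) (nat_lit 431) (nat_lit 379) (nat_lit 330)))) (XT.nd (nat_lit 156) (nat_lit 760) (nat_lit 0) (XT.nd (nat_lit 78) (nat_lit 760) (nat_lit 0) (XT.lf (nat_lit 0) (nat_lit 5824002328) (nat_lit 836) (nat_lit 504962785) (nat_lit 76) (nat_lit 1920857832) (nat_lit 301) (nat_lit 5) (nat_lit 312) (nat_lit 5) (nat_lit 302) (nat_lit 5) (nat_lit 432) (nat_lit 379) (nat_lit 329)) (XT.lf (nat_lit 0) (nat_lit 4506628514)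 (nat_lit 760) (nat_lit 3772516157) (nat_lit 836) (nat_lit 44191952) (nat_lit 291) (nat_lit 5) (nat_lit 301) (nat_lit 5) (nat_lit 302) (nat_lit 5) (nat_lit 433) (nat_lit 379) (nat_lit 328))) (XT.nd (nat_lit 78) (nat_lit 0) (nat_lit 0) (XT.lf (nat_lit 0) (nat_lit 1185745245) (nat_lit 684) (nat_lit 1141352587) (nat_lit 760) (nat_lit 6071476040) (nat_lit 281) (nat_lit 5) (nat_lit 290) (nat_lit 5) (nat_lit 291) (nat_lit 5) (nat_lit 434) (nat_lit 379) (nat_lit 327)) (XT.lf (nat_lit 0) (nat_lit 4743668214) (nat_lit 760) (nat_lit 2187116965) (nat_lit 76) (nat_lit 1544584533) (nat_lit 281) (nat_lit 5) (nat_lit 291) (nat_lit 5) (nat_lit 282) (nat_lit 5) (nat_lit 435) (nat_lit 379) (nat_lit 326))))) (XT.nd (nat_lit 312) (nat_lit 1292) (nat_lit 0) (XT.nd (nat_lit 156) (nat_lit 1368) (nat_lit 0) (XT.nd (nat_lit 78) (nat_lit 76) (nat_lit 0) (XT.lf (nat_lit 0) (nat_lit 2928963496) (nat_lit 760) (nat_lit 4269563997) (nat_lit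 836) (nat_lit 1355402880) (nat_lit 271) (nat_lit 5) (nat_lit 281) (nat_lit 5) (nat_lit 282) (nat_lit 5) (nat_lit 436) (nat_lit 379) (nat_lit 325)) (XT.lf (nat_lit 0) (nat_lit 1032752062) (nat_lit 836) (nat_lit 505032366) (nat_lit 76) (nat_lit 7096599191) (nat_lit 270) (nat_lit 5) (nat_lit 281) (nat_lit 5) (nat_lit 271) (nat_lit 5) (nat_lit 437) (nat_lit 379) (nat_lit 324))) (XT.nd (nat_lit 78) (nat_lit 684) (nat_lit 0) (XT.lf (nat_lit 0) (nat_lit 3453870498) (nat_lit 760) (nat_lit 3994807040) (nat_lit 76) (nat_lit 1267548660) (nat_lit 261) (nat_lit 5) (nat_lit 271) (nat_lit 5) (nat_lit 262) (nat_lit 5) (nat_lit 438) (nat_lit 379) (nat_lit 323)) (XT.lf (nat_lit 0) (nat_lit 1224594948) (nat_lit 684) (nat_lit 4685053826) (nat_lit 760) (nat_lit 2890358025) (nat_lit 252) (nat_lit 5) (nat_lit 261) (nat_lit 5) (nat_lit 262) (nat_lit 5) (nat_lit 439) (nat_lit 379) (nat_lit 322)))) (XT.nd (nat_lit 156) (nat_lit 608) (nat_lit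 0) (XT.nd (nat_lit 78) (nat_lit 684) (nat_lit 0) (XT.lf (nat_lit 0) (nat_lit 6561937401) (nat_lit 684) (nat_lit 1844532323) (nat_lit 760) (nat_lit 479180158) (nat_lit 252) (nat_lit 5) (nat_lit 261) (nat_lit 5) (nat_lit 262) (nat_lit 5) (nat_lit 440) (nat_lit 379) (nat_lit 321)) (XT.lf (nat_lit 0) (nat_lit 1946420053) (nat_lit 684) (nat_lit 5960601926) (nat_lit 76) (nat_lit 1065907737) (nat_lit 243) (nat_lit 5) (nat_lit 252) (nat_lit 5) (nat_lit 244) (nat_lit 5) (nat_lit 441) (nat_lit 379) (nat_lit 320))) (XT.nd (nat_lit 78) (nat_lit 608) (nat_lit 0) (XT.lf (nat_lit 0) (nat_lit 4407963542) (nat_lit 684) (nat_lit 631233049) (nat_lit 76) (nat_lit 4022842206) (nat_lit 243) (nat_lit 5) (nat_lit 252) (nat_lit 5) (nat_lit 244) (nat_lit 5) (nat_lit 442) (nat_lit 379) (nat_lit 319)) (XT.lf (nat_lit 0) (nat_lit 4828158035) (nat_lit 608) (nat_lit 2088524971) (nat_lit 684) (nat_lit 2236311626) (nat_lit 235) (nat_lit 5) (nat_lit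 243) (nat_lit 5) (nat_lit 244) (nat_lit 5) (nat_lit 443) (nat_lit 379) (nat_lit 318))))))))
noncomputable def xc100 : XT := (XT.nd (nat_lit 2184) (nat_lit 4560) (nat_lit 0) (XT.nd (nat_lit 1092) (nat_lit 3648) (nat_lit 0) (XT.nd (nat_lit 546) (nat_lit 2204) (nat_lit 0) (XT.nd (nat_lit 234) (nat_lit 1140) (nat_lit 0) (XT.nd (nat_lit 78) (nat_lit 608) (nat_lit 0) (XT.lf (nat_lit 0) (nat_lit 211189601) (nat_lit 684) (nat_lit 8119361217) (nat_lit 76) (nat_lit 915523563) (nat_lit 226) (nat_lit 5) (nat_lit 235) (nat_lit 5) (nat_lit 227) (nat_lit 5) (nat_lit 444) (nat_lit 379) (nat_lit 317)) (XT.nd (nat_lit 78) (nat_lit 608) (nat_lit 0) (XT.lf (nat_lit 0) (nat_lit 2687871982) (nat_lit 684) (nat_lit 2663810030) (nat_lit 76) (nat_lit 3988856688) (nat_lit 226) (nat_lit 5) (nat_lit 235) (nat_lit 5) (nat_lit 227) (nat_lit 5) (nat_lit 445) (nat_lit 379) (nat_lit 316)) (XT.lf (nat_lit 0) (nat_lit 2899209695) (nat_lit 608)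 (nat_lit 2301448899) (nat_lit 684) (nat_lit 4236523989) (nat_lit 218) (nat_lit 5) (nat_lit 226) (nat_lit 5) (nat_lit 227) (nat_lit 5) (nat_lit 446) (nat_lit 379) (nat_lit 315)))) (XT.nd (nat_lit 156) (nat_lit 532) (nat_lit 0) (XT.nd (nat_lit 78) (nat_lit 608) (nat_lit 0) (XT.lf (nat_lit 0) (nat_lit 7755027251) (nat_lit 684) (nat_lit 971194526) (nat_lit 76) (nat_lit 809732302) (nat_lit 218) (nat_lit 5) (nat_lit 227) (nat_lit 5) (nat_lit 219) (nat_lit 5) (nat_lit 447) (nat_lit 379) (nat_lit 314)) (XT.lf (nat_lit 0) (nat_lit 728915780) (nat_lit 608) (nat_lit 4926950229) (nat_lit 76) (nat_lit 3980468929) (nat_lit 210) (nat_lit 5) (nat_lit 218) (nat_lit 5) (nat_lit 211) (nat_lit 5) (nat_lit 448) (nat_lit 379) (nat_lit 313))) (XT.nd (nat_lit 78) (nat_lit 0) (nat_lit 0) (XT.lf (nat_lit 0) (nat_lit 736563473) (nat_lit 532) (nat_lit 2508746375) (nat_lit 608) (nat_lit 6493594138) (nat_lit 203) (nat_lit 5) (nat_lit 210)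 (nat_lit 5) (nat_lit 211) (nat_lit 5) (nat_lit 449) (nat_lit 379) (nat_lit 312)) (XT.lf (nat_lit 0) (nat_lit 5819005602) (nat_lit 608) (nat_lit 3307230918) (nat_lit 76) (nat_lit 717168062) (nat_lit 203) (nat_lit 5) (nat_lit 211) (nat_lit 5) (nat_lit 204) (nat_lit 5) (nat_lit 450) (nat_lit 379) (nat_lit 311))))) (XT.nd (nat_lit 234) (nat_lit 1064) (nat_lit 0) (XT.nd (nat_lit 78) (nat_lit 608) (nat_lit 0) (XT.lf (nat_lit 0) (nat_lit 2478725640) (nat_lit 532) (nat_lit 5967901505) (nat_lit 608) (nat_lit 1503338268) (nat_lit 196) (nat_lit 5) (nat_lit 203) (nat_lit 5) (nat_lit 204) (nat_lit 5) (nat_lit 451) (nat_lit 379) (nat_lit 310)) (XT.nd (nat_lit 78) (nat_lit 532) (nat_lit 0) (XT.lf (nat_lit 0) (nat_lit 1046344416) (nat_lit 608) (nat_lit 1679176579) (nat_lit 76) (nat_lit 7333172080) (nat_lit 195) (nat_lit 5) (nat_lit 203) (nat_lit 5) (nat_lit 196) (nat_lit 5) (nat_lit 452) (nat_lit 379) (nat_lit 309)) (XT.lf (nat_lit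 0) (nat_lit 3628840615) (nat_lit 608) (nat_lit 5937440837) (nat_lit 76) (nat_lit 603094253) (nat_lit 188) (nat_lit 5) (nat_lit 196) (nat_lit 5) (nat_lit 189) (nat_lit 5) (nat_lit 453) (nat_lit 379) (nat_lit 308)))) (XT.nd (nat_lit 156) (nat_lit 608) (nat_lit 0) (XT.nd (nat_lit 78) (nat_lit 456) (nat_lit 0) (XT.lf (nat_lit 0) (nat_lit 6263113735) (nat_lit 608) (nat_lit 54778528) (nat_lit 76) (nat_lit 3964394978) (nat_lit 188) (nat_lit 5) (nat_lit 196) (nat_lit 5) (nat_lit 189) (nat_lit 5) (nat_lit 454) (nat_lit 379) (nat_lit 307)) (XT.lf (nat_lit 0) (nat_lit 5986166582) (nat_lit 456) (nat_lit 2974080141) (nat_lit 532) (nat_lit 1437024239) (nat_lit 182) (nat_lit 5) (nat_lit 188) (nat_lit 5) (nat_lit 189) (nat_lit 5) (nat_lit 455) (nat_lit 379) (nat_lit 306))) (XT.nd (nat_lit 78) (nat_lit 0) (nat_lit 0) (XT.lf (nat_lit 0) (nat_lit 1166209956) (nat_lit 608) (nat_lit 8908233349) (nat_lit 76) (nat_lit 440269659) (nat_lit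 174) (nat_lit 5) (nat_lit 182) (nat_lit 5) (nat_lit 175) (nat_lit 5) (nat_lit 456) (nat_lit 379) (nat_lit 305)) (XT.lf (nat_lit 0) (nat_lit 3823452859) (nat_lit 608) (nat_lit 2897408649) (nat_lit 76) (nat_lit 3913045044) (nat_lit 174) (nat_lit 5) (nat_lit 182) (nat_lit 5) (nat_lit 175) (nat_lit 5) (nat_lit 457) (nat_lit 379) (nat_lit 304)))))) (XT.nd (nat_lit 546) (nat_lit 1672) (nat_lit 0) (XT.nd (nat_lit 234) (nat_lit 988) (nat_lit 0) (XT.nd (nat_lit 78) (nat_lit 532) (nat_lit 0) (XT.lf (nat_lit 0) (nat_lit 3238560584) (nat_lit 456) (nat_lit 3288537341) (nat_lit 532) (nat_lit 4228537055) (nat_lit 168) (nat_lit 5) (nat_lit 174) (nat_lit 5) (nat_lit 175) (nat_lit 5) (nat_lit 458) (nat_lit 379) (nat_lit 303)) (XT.nd (nat_lit 78) (nat_lit 532) (nat_lit 0) (XT.lf (nat_lit 0) (nat_lit 9278235970) (nat_lit 532) (nat_lit 1382193353) (nat_lit 76) (nat_lit 219516053) (nat_lit 168) (nat_lit 5) (nat_lit 175) (nat_lit 5)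 (nat_lit 169) (nat_lit 5) (nat_lit 459) (nat_lit 379) (nat_lit 302)) (XT.lf (nat_lit 0) (nat_lit 1090156152) (nat_lit 532) (nat_lit 6132843117) (nat_lit 76) (nat_lit 3783085257) (nat_lit 161) (nat_lit 5) (nat_lit 168) (nat_lit 5) (nat_lit 162) (nat_lit 5) (nat_lit 460) (nat_lit 379) (nat_lit 301)))) (XT.nd (nat_lit 156) (nat_lit 532) (nat_lit 0) (XT.nd (nat_lit 78) (nat_lit 0) (nat_lit 0) (XT.lf (nat_lit 0) (nat_lit 91300723) (nat_lit 456) (nat_lit 3706168051) (nat_lit 532) (nat_lit 7337419695) (nat_lit 155) (nat_lit 5) (nat_lit 161) (nat_lit 5) (nat_lit 162) (nat_lit 5) (nat_lit 461) (nat_lit 379) (nat_lit 300)) (XT.lf (nat_lit 0) (nat_lit 6486116562) (nat_lit 456) (nat_lit 87360281) (nat_lit 532) (nat_lit 4692515259) (nat_lit 155) (nat_lit 5) (nat_lit 161) (nat_lit 5) (nat_lit 162) (nat_lit 5) (nat_lit 462) (nat_lit 379) (nat_lit 299))) (XT.nd (nat_lit 78) (nat_lit 76) (nat_lit 0) (XT.lf (nat_lit 0) (nat_lit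 1569609218) (nat_lit 456) (nat_lit 7842835672) (nat_lit 532) (nat_lit 1987138430) (nat_lit 149) (nat_lit 5) (nat_lit 155) (nat_lit 5) (nat_lit 156) (nat_lit 5) (nat_lit 463) (nat_lit 379) (nat_lit 298)) (XT.lf (nat_lit 0) (nat_lit 769024287) (nat_lit 532) (nat_lit 3466941927) (nat_lit 76) (nat_lit 7299657455) (nat_lit 148) (nat_lit 5) (nat_lit 155) (nat_lit 5) (nat_lit 149) (nat_lit 5) (nat_lit 464) (nat_lit 379) (nat_lit 297))))) (XT.nd (nat_lit 234) (nat_lit 836) (nat_lit 0) (XT.nd (nat_lit 78) (nat_lit 456) (nat_lit 0) (XT.lf (nat_lit 0) (nat_lit 3013629376) (nat_lit 380) (nat_lit 534116769) (nat_lit 456) (nat_lit 8126508592) (nat_lit 143) (nat_lit 5) (nat_lit 148) (nat_lit 5) (nat_lit 149) (nat_lit 5) (nat_lit 465) (nat_lit 379) (nat_lit 296)) (XT.nd (nat_lit 78) (nat_lit 456) (nat_lit 0) (XT.lf (nat_lit 0) (nat_lit 6401161114) (nat_lit 456) (nat_lit 2201886232) (nat_lit 76) (nat_lit 3212241925) (nat_lit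 143) (nat_lit 5) (nat_lit 149) (nat_lit 5) (nat_lit 144) (nat_lit 5) (nat_lit 466) (nat_lit 379) (nat_lit 295)) (XT.lf (nat_lit 0) (nat_lit 4404671549) (nat_lit 456) (nat_lit 4914256977) (nat_lit 532) (nat_lit 2640083247) (nat_lit 137) (nat_lit 5) (nat_lit 143) (nat_lit 5) (nat_lit 144) (nat_lit 5) (nat_lit 467) (nat_lit 379) (nat_lit 294)))) (XT.nd (nat_lit 156) (nat_lit 380) (nat_lit 0) (XT.nd (nat_lit 78) (nat_lit 380) (nat_lit 0) (XT.lf (nat_lit 0) (nat_lit 177062888) (nat_lit 532) (nat_lit 969127902) (nat_lit 76) (nat_lit 10959603694) (nat_lit 136) (nat_lit 5) (nat_lit 143) (nat_lit 5) (nat_lit 137) (nat_lit 5) (nat_lit 468) (nat_lit 379) (nat_lit 293)) (XT.lf (nat_lit 0) (nat_lit 3046226948) (nat_lit 456) (nat_lit 6501720548) (nat_lit 76) (nat_lit 2706608035) (nat_lit 131) (nat_lit 5) (nat_lit 137) (nat_lit 5) (nat_lit 132) (nat_lit 5) (nat_lit 469) (nat_lit 379) (nat_lit 292))) (XT.nd (nat_lit 78) (nat_lit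 0) (nat_lit 0) (XT.lf (nat_lit 0) (nat_lit 175695403) (nat_lit 380) (nat_lit 5788254354) (nat_lit 456) (nat_lit 6442530506) (nat_lit 126) (nat_lit 5) (nat_lit 131) (nat_lit 5) (nat_lit 132) (nat_lit 5) (nat_lit 470) (nat_lit 379) (nat_lit 291)) (XT.lf (nat_lit 0) (nat_lit 7039836385) (nat_lit 380) (nat_lit 1919963885) (nat_lit 456) (nat_lit 3601259491) (nat_lit 126) (nat_lit 5) (nat_lit 131) (nat_lit 5) (nat_lit 132) (nat_lit 5) (nat_lit 471) (nat_lit 379) (nat_lit 290))))))) (XT.nd (nat_lit 1092) (nat_lit 2052) (nat_lit 0) (XT.nd (nat_lit 546) (nat_lit 988) (nat_lit 0) (XT.nd (nat_lit 234) (nat_lit 760) (nat_lit 0) (XT.nd (nat_lit 78) (nat_lit 456) (nat_lit 0) (XT.lf (nat_lit 0) (nat_lit 1291638212) (nat_lit 304) (nat_lit 10722008303) (nat_lit 380) (nat_lit 705134270) (nat_lit 122) (nat_lit 5) (nat_lit 126) (nat_lit 5) (nat_lit 127) (nat_lit 5) (nat_lit 472) (nat_lit 379) (nat_lit 289)) (XT.nd (nat_lit 78) (nat_lit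 380) (nat_lit 0) (XT.lf (nat_lit 0) (nat_lit 2246041017) (nat_lit 380) (nat_lit 4625651129) (nat_lit 76) (nat_lit 6007150666) (nat_lit 121) (nat_lit 5) (nat_lit 126) (nat_lit 5) (nat_lit 122) (nat_lit 5) (nat_lit 473) (nat_lit 379) (nat_lit 288)) (XT.lf (nat_lit 0) (nat_lit 2303317849) (nat_lit 380) (nat_lit 2935514092) (nat_lit 456) (nat_lit 7803351087) (nat_lit 116) (nat_lit 5) (nat_lit 121) (nat_lit 5) (nat_lit 122) (nat_lit 5) (nat_lit 474) (nat_lit 379) (nat_lit 287)))) (XT.nd (nat_lit 156) (nat_lit 456) (nat_lit 0) (XT.nd (nat_lit 78) (nat_lit 304) (nat_lit 0) (XT.lf (nat_lit 0) (nat_lit 8306960503) (nat_lit 456) (nat_lit 3816073583) (nat_lit 76) (nat_lit 1085456959) (nat_lit 116) (nat_lit 5) (nat_lit 122) (nat_lit 5) (nat_lit 117) (nat_lit 5) (nat_lit 475) (nat_lit 379) (nat_lit 286)) (XT.lf (nat_lit 0) (nat_lit 3234568235) (nat_lit 304) (nat_lit 8219998969) (nat_lit 380) (nat_lit 1923206130) (nat_lit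 112) (nat_lit 5) (nat_lit 116) (nat_lit 5) (nat_lit 117) (nat_lit 5) (nat_lit 476) (nat_lit 379) (nat_lit 285))) (XT.nd (nat_lit 78) (nat_lit 380) (nat_lit 0) (XT.lf (nat_lit 0) (nat_lit 1103581699) (nat_lit 380) (nat_lit 3113057155) (nat_lit 76) (nat_lit 9333597363) (nat_lit 111) (nat_lit 5) (nat_lit 116) (nat_lit 5) (nat_lit 112) (nat_lit 5) (nat_lit 477) (nat_lit 379) (nat_lit 284)) (XT.lf (nat_lit 0) (nat_lit 4065262207) (nat_lit 380) (nat_lit 104485063) (nat_lit 456) (nat_lit 9556064788) (nat_lit 106) (nat_lit 5) (nat_lit 111) (nat_lit 5) (nat_lit 112) (nat_lit 5) (nat_lit 478) (nat_lit 379) (nat_lit 283))))) (XT.nd (nat_lit 234) (nat_lit 684) (nat_lit 0) (XT.nd (nat_lit 78) (nat_lit 304) (nat_lit 0) (XT.lf (nat_lit 0) (nat_lit 7323136829) (nat_lit 456) (nat_lit 2534991855) (nat_lit 76) (nat_lit 4046262350) (nat_lit 106) (nat_lit 5) (nat_lit 112) (nat_lit 5) (nat_lit 107) (nat_lit 5) (nat_lit 479) (nat_lit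 379) (nat_lit 282)) (XT.nd (nat_lit 78) (nat_lit 0) (nat_lit 0) (XT.lf (nat_lit 0) (nat_lit 4762330697) (nat_lit 304) (nat_lit 5787618445) (nat_lit 380) (nat_lit 3536394787) (nat_lit 102) (nat_lit 5) (nat_lit 106) (nat_lit 5) (nat_lit 107) (nat_lit 5) (nat_lit 480) (nat_lit 379) (nat_lit 281)) (XT.lf (nat_lit 0) (nat_lit 12207662614) (nat_lit 304) (nat_lit 1629596116) (nat_lit 380) (nat_lit 434767187) (nat_lit 102) (nat_lit 5) (nat_lit 106) (nat_lit 5) (nat_lit 107) (nat_lit 5) (nat_lit 481) (nat_lit 379) (nat_lit 280)))) (XT.nd (nat_lit 156) (nat_lit 304) (nat_lit 0) (XT.nd (nat_lit 78) (nat_lit 0) (nat_lit 0) (XT.lf (nat_lit 0) (nat_lit 2724359517) (nat_lit 380) (nat_lit 9116904492) (nat_lit 76) (nat_lit 2619186949) (nat_lit 97) (nat_lit 5) (nat_lit 102) (nat_lit 5) (nat_lit 98) (nat_lit 5) (nat_lit 482) (nat_lit 379) (nat_lit 279)) (XT.lf (nat_lit 0) (nat_lit 5944935387) (nat_lit 380) (nat_lit 1770622067)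 (nat_lit 76) (nat_lit 6936956527) (nat_lit 97) (nat_lit 5) (nat_lit 102) (nat_lit 5) (nat_lit 98) (nat_lit 5) (nat_lit 483) (nat_lit 379) (nat_lit 278))) (XT.nd (nat_lit 78) (nat_lit 0) (nat_lit 0) (XT.lf (nat_lit 0) (nat_lit 5766758247) (nat_lit 304) (nat_lit 3480357117) (nat_lit 380) (nat_lit 5600967601) (nat_lit 93) (nat_lit 5) (nat_lit 97) (nat_lit 5) (nat_lit 98) (nat_lit 5) (nat_lit 484) (nat_lit 379) (nat_lit 277)) (XT.lf (nat_lit 0) (nat_lit 12612622722) (nat_lit 380) (nat_lit 1605557495) (nat_lit 76) (nat_lit 829445818) (nat_lit 93) (nat_lit 5) (nat_lit 98) (nat_lit 5) (nat_lit 94) (nat_lit 5) (nat_lit 485) (nat_lit 379) (nat_lit 276)))))) (XT.nd (nat_lit 546) (nat_lit 836) (nat_lit 0) (XT.nd (nat_lit 234) (nat_lit 608) (nat_lit 0) (XT.nd (nat_lit 78) (nat_lit 228) (nat_lit 0) (XT.lf (nat_lit 0) (nat_lit 826700737) (nat_lit 380) (nat_lit 9210768518) (nat_lit 76) (nat_lit 5212738879) (nat_lit 88) (nat_lit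 5) (nat_lit 93) (nat_lit 5) (nat_lit 89) (nat_lit 5) (nat_lit 486) (nat_lit 379) (nat_lit 275)) (XT.nd (nat_lit 78) (nat_lit 228) (nat_lit 0) (XT.lf (nat_lit 0) (nat_lit 4112226959) (nat_lit 380) (nat_lit 1644759125) (nat_lit 76) (nat_lit 9699717925) (nat_lit 88) (nat_lit 5) (nat_lit 93) (nat_lit 5) (nat_lit 89) (nat_lit 5) (nat_lit 487) (nat_lit 379) (nat_lit 274)) (XT.lf (nat_lit 0) (nat_lit 6122439947) (nat_lit 228) (nat_lit 1361477465) (nat_lit 304) (nat_lit 8183011062) (nat_lit 85) (nat_lit 5) (nat_lit 88) (nat_lit 5) (nat_lit 89) (nat_lit 5) (nat_lit 488) (nat_lit 379) (nat_lit 273)))) (XT.nd (nat_lit 156) (nat_lit 304) (nat_lit 0) (XT.nd (nat_lit 78) (nat_lit 304) (nat_lit 0) (XT.lf (nat_lit 0) (nat_lit 10935234419) (nat_lit 304) (nat_lit 1864746325) (nat_lit 76) (nat_lit 3081140421) (nat_lit 85) (nat_lit 5) (nat_lit 89) (nat_lit 5) (nat_lit 86) (nat_lit 5) (nat_lit 489) (nat_lit 379) (nat_lit 272)) (XT.lf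 (nat_lit 0) (nat_lit 6008429895) (nat_lit 304) (nat_lit 8476363950) (nat_lit 380) (nat_lit 1614226989) (nat_lit 81) (nat_lit 5) (nat_lit 85) (nat_lit 5) (nat_lit 86) (nat_lit 5) (nat_lit 490) (nat_lit 379) (nat_lit 271))) (XT.nd (nat_lit 78) (nat_lit 228) (nat_lit 0) (XT.lf (nat_lit 0) (nat_lit 1754497954) (nat_lit 380) (nat_lit 2298353256) (nat_lit 76) (nat_lit 12268326167) (nat_lit 80) (nat_lit 5) (nat_lit 85) (nat_lit 5) (nat_lit 81) (nat_lit 5) (nat_lit 491) (nat_lit 379) (nat_lit 270)) (XT.lf (nat_lit 0) (nat_lit 5190735153) (nat_lit 304) (nat_lit 10866254149) (nat_lit 76) (nat_lit 490146319) (nat_lit 77) (nat_lit 5) (nat_lit 81) (nat_lit 5) (nat_lit 78) (nat_lit 5) (nat_lit 492) (nat_lit 379) (nat_lit 269))))) (XT.nd (nat_lit 234) (nat_lit 532) (nat_lit 0) (XT.nd (nat_lit 78) (nat_lit 304) (nat_lit 0) (XT.lf (nat_lit 0) (nat_lit 8719764075) (nat_lit 304) (nat_lit 2982914828) (nat_lit 76) (nat_lit 5074459664)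 (nat_lit 77) (nat_lit 5) (nat_lit 81) (nat_lit 5) (nat_lit 78) (nat_lit 5) (nat_lit 493) (nat_lit 379) (nat_lit 268)) (XT.nd (nat_lit 78) (nat_lit 0) (nat_lit 0) (XT.lf (nat_lit 0) (nat_lit 5095981158) (nat_lit 304) (nat_lit 7238539304) (nat_lit 380) (nat_lit 4676924914) (nat_lit 73) (nat_lit 5) (nat_lit 77) (nat_lit 5) (nat_lit 78) (nat_lit 5) (nat_lit 494) (nat_lit 379) (nat_lit 267)) (XT.lf (nat_lit 0) (nat_lit 13348134855) (nat_lit 304) (nat_lit 2675679511) (nat_lit 380) (nat_lit 1226585716) (nat_lit 73) (nat_lit 5) (nat_lit 77) (nat_lit 5) (nat_lit 78) (nat_lit 5) (nat_lit 495) (nat_lit 379) (nat_lit 266)))) (XT.nd (nat_lit 156) (nat_lit 228) (nat_lit 0) (XT.nd (nat_lit 78) (nat_lit 0) (nat_lit 0) (XT.lf (nat_lit 0) (nat_lit 2286014954) (nat_lit 304) (nat_lit 13222626842) (nat_lit 76) (nat_lit 1984734227) (nat_lit 69) (nat_lit 5) (nat_lit 73) (nat_lit 5) (nat_lit 70) (nat_lit 5) (nat_lit 496) (nat_lit 379)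 (nat_lit 265)) (XT.lf (nat_lit 0) (nat_lit 5879080813) (nat_lit 304) (nat_lit 5135110473) (nat_lit 76) (nat_lit 6726331526) (nat_lit 69) (nat_lit 5) (nat_lit 73) (nat_lit 5) (nat_lit 70) (nat_lit 5) (nat_lit 497) (nat_lit 379) (nat_lit 264))) (XT.nd (nat_lit 78) (nat_lit 0) (nat_lit 0) (XT.lf (nat_lit 0) (nat_lit 3127202801) (nat_lit 228) (nat_lit 6419993768) (nat_lit 304) (nat_lit 8445358304) (nat_lit 66) (nat_lit 5) (nat_lit 69) (nat_lit 5) (nat_lit 70) (nat_lit 5) (nat_lit 498) (nat_lit 379) (nat_lit 263)) (XT.lf (nat_lit 0) (nat_lit 11596586862) (nat_lit 228) (nat_lit 1709586985) (nat_lit 304) (nat_lit 4943109731) (nat_lit 66) (nat_lit 5) (nat_lit 69) (nat_lit 5) (nat_lit 70) (nat_lit 5) (nat_lit 499) (nat_lit 379) (nat_lit 262))))))))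
noncomputable def xc101 : XT := (XT.nd (nat_lit 2184) (nat_lit 0) (nat_lit 0) (XT.nd (nat_lit 1092) (nat_lit 1140) (nat_lit 0) (XT.nd (nat_lit 546) (nat_lit 684) (nat_lit 0) (XT.nd (nat_lit 234) (nat_lit 532) (nat_lit 0) (XT.nd (nat_lit 78) (nat_lit 76) (nat_lit 0) (XT.lf (nat_lit 0) (nat_lit 1698890008) (nat_lit 228) (nat_lit 15455869527) (nat_lit 304) (nat_lit 1356104615) (nat_lit 63) (nat_lit 5) (nat_lit 66) (nat_lit 5) (nat_lit 67) (nat_lit 5) (nat_lit 500) (nat_lit 379) (nat_lit 261)) (XT.nd (nat_lit 78) (nat_lit 0) (nat_lit 0) (XT.lf (nat_lit 0) (nat_lit 2312039839) (nat_lit 304) (nat_lit 8523217741) (nat_lit 76) (nat_lit 7941333414) (nat_lit 62) (nat_lit 5) (nat_lit 66) (nat_lit 5) (nat_lit 63) (nat_lit 5) (nat_lit 501) (nat_lit 379) (nat_lit 260)) (XT.lf (nat_lit 0) (nat_lit 6019070883) (nat_lit 304) (nat_lit 104680864) (nat_lit 76) (nat_lit 12924033242) (nat_lit 62) (nat_lit 5) (nat_lit 66) (nat_lit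 5) (nat_lit 63) (nat_lit 5) (nat_lit 502) (nat_lit 379) (nat_lit 259)))) (XT.nd (nat_lit 156) (nat_lit 304) (nat_lit 0) (XT.nd (nat_lit 78) (nat_lit 0) (nat_lit 0) (XT.lf (nat_lit 0) (nat_lit 8568114973) (nat_lit 228) (nat_lit 1271742723) (nat_lit 304) (nat_lit 9483758289) (nat_lit 59) (nat_lit 5) (nat_lit 62) (nat_lit 5) (nat_lit 63) (nat_lit 5) (nat_lit 503) (nat_lit 379) (nat_lit 258)) (XT.lf (nat_lit 0) (nat_lit 13745703557) (nat_lit 304) (nat_lit 2239608893) (nat_lit 76) (nat_lit 3619483600) (nat_lit 59) (nat_lit 5) (nat_lit 63) (nat_lit 5) (nat_lit 60) (nat_lit 5) (nat_lit 504) (nat_lit 379) (nat_lit 257))) (XT.nd (nat_lit 78) (nat_lit 76) (nat_lit 0) (XT.lf (nat_lit 0) (nat_lit 6497348826) (nat_lit 228) (nat_lit 11267297962) (nat_lit 304) (nat_lit 2126258532) (nat_lit 56) (nat_lit 5) (nat_lit 59) (nat_lit 5) (nat_lit 60) (nat_lit 5) (nat_lit 505) (nat_lit 379) (nat_lit 256)) (XT.lf (nat_lit 0) (nat_lit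 1658714960) (nat_lit 304) (nat_lit 4780132142) (nat_lit 76) (nat_lit 13743685719) (nat_lit 55) (nat_lit 5) (nat_lit 59) (nat_lit 5) (nat_lit 56) (nat_lit 5) (nat_lit 506) (nat_lit 379) (nat_lit 255))))) (XT.nd (nat_lit 234) (nat_lit 304) (nat_lit 0) (XT.nd (nat_lit 78) (nat_lit 152) (nat_lit 0) (XT.lf (nat_lit 0) (nat_lit 4018610856) (nat_lit 228) (nat_lit 1483134396) (nat_lit 304) (nat_lit 14977754881) (nat_lit 52) (nat_lit 5) (nat_lit 55) (nat_lit 5) (nat_lit 56) (nat_lit 5) (nat_lit 507) (nat_lit 379) (nat_lit 254)) (XT.nd (nat_lit 78) (nat_lit 152) (nat_lit 0) (XT.lf (nat_lit 0) (nat_lit 9461893726) (nat_lit 304) (nat_lit 7772689401) (nat_lit 76) (nat_lit 3547023329) (nat_lit 52) (nat_lit 5) (nat_lit 56) (nat_lit 5) (nat_lit 53) (nat_lit 5) (nat_lit 508) (nat_lit 379) (nat_lit 253)) (XT.lf (nat_lit 0) (nat_lit 1068319883) (nat_lit 152) (nat_lit 12434760218) (nat_lit 228) (nat_lit 7586642825) (nat_lit 50)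 (nat_lit 5) (nat_lit 52) (nat_lit 5) (nat_lit 53) (nat_lit 5) (nat_lit 509) (nat_lit 379) (nat_lit 252)))) (XT.nd (nat_lit 156) (nat_lit 228) (nat_lit 0) (XT.nd (nat_lit 78) (nat_lit 76) (nat_lit 0) (XT.lf (nat_lit 0) (nat_lit 10166531910) (nat_lit 152) (nat_lit 7495924181) (nat_lit 228) (nat_lit 3740802946) (nat_lit 50) (nat_lit 5) (nat_lit 52) (nat_lit 5) (nat_lit 53) (nat_lit 5) (nat_lit 510) (nat_lit 379) (nat_lit 251)) (XT.lf (nat_lit 0) (nat_lit 164963959) (nat_lit 228) (nat_lit 2302226101) (nat_lit 76) (nat_lit 19256148699) (nat_lit 49) (nat_lit 5) (nat_lit 52) (nat_lit 5) (nat_lit 50) (nat_lit 5) (nat_lit 511) (nat_lit 379) (nat_lit 250))) (XT.nd (nat_lit 78) (nat_lit 0) (nat_lit 0) (XT.lf (nat_lit 0) (nat_lit 4146652097) (nat_lit 304) (nat_lit 15214552608) (nat_lit 76) (nat_lit 2687167293) (nat_lit 46) (nat_lit 5) (nat_lit 50) (nat_lit 5) (nat_lit 47) (nat_lit 5) (nat_lit 512) (nat_lit 379) (nat_lit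 249)) (XT.lf (nat_lit 0) (nat_lit 8225608050) (nat_lit 304) (nat_lit 6236513083) (nat_lit 76) (nat_lit 7917436364) (nat_lit 46) (nat_lit 5) (nat_lit 50) (nat_lit 5) (nat_lit 47) (nat_lit 5) (nat_lit 513) (nat_lit 379) (nat_lit 248)))))) (XT.nd (nat_lit 546) (nat_lit 532) (nat_lit 0) (XT.nd (nat_lit 234) (nat_lit 456) (nat_lit 0) (XT.nd (nat_lit 78) (nat_lit 0) (nat_lit 0) (XT.lf (nat_lit 0) (nat_lit 2935798683) (nat_lit 152) (nat_lit 9455428712) (nat_lit 228) (nat_lit 10326041817) (nat_lit 44) (nat_lit 5) (nat_lit 46) (nat_lit 5) (nat_lit 47) (nat_lit 5) (nat_lit 514) (nat_lit 379) (nat_lit 247)) (XT.nd (nat_lit 78) (nat_lit 0) (nat_lit 0) (XT.lf (nat_lit 0) (nat_lit 12352458712) (nat_lit 152) (nat_lit 4315694420) (nat_lit 228) (nat_lit 6393026259) (nat_lit 44) (nat_lit 5) (nat_lit 46) (nat_lit 5) (nat_lit 47) (nat_lit 5) (nat_lit 515) (nat_lit 379) (nat_lit 246)) (XT.lf (nat_lit 0) (nat_lit 21022988173) (nat_lit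 228) (nat_lit 1483919037) (nat_lit 76) (nat_lit 905217177) (nat_lit 44) (nat_lit 5) (nat_lit 47) (nat_lit 5) (nat_lit 45) (nat_lit 5) (nat_lit 516) (nat_lit 379) (nat_lit 245)))) (XT.nd (nat_lit 156) (nat_lit 152) (nat_lit 0) (XT.nd (nat_lit 78) (nat_lit 0) (nat_lit 0) (XT.lf (nat_lit 0) (nat_lit 1740046728) (nat_lit 304) (nat_lit 15801689404) (nat_lit 76) (nat_lit 6226787082) (nat_lit 40) (nat_lit 5) (nat_lit 44) (nat_lit 5) (nat_lit 41) (nat_lit 5) (nat_lit 517) (nat_lit 379) (nat_lit 244)) (XT.lf (nat_lit 0) (nat_lit 5916520064) (nat_lit 304) (nat_lit 6543979772) (nat_lit 76) (nat_lit 11671304189) (nat_lit 40) (nat_lit 5) (nat_lit 44) (nat_lit 5) (nat_lit 41) (nat_lit 5) (nat_lit 518) (nat_lit 379) (nat_lit 243))) (XT.nd (nat_lit 78) (nat_lit 0) (nat_lit 0) (XT.lf (nat_lit 0) (nat_lit 2914602231) (nat_lit 152) (nat_lit 7267749597) (nat_lit 228) (nat_lit 14319885766) (nat_lit 38) (nat_lit 5) (nat_lit 40) (nat_lit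 5) (nat_lit 41) (nat_lit 5) (nat_lit 519) (nat_lit 379) (nat_lit 242)) (XT.lf (nat_lit 0) (nat_lit 12628701965) (nat_lit 152) (nat_lit 1935728829) (nat_lit 228) (nat_lit 10315034079) (nat_lit 38) (nat_lit 5) (nat_lit 40) (nat_lit 5) (nat_lit 41) (nat_lit 5) (nat_lit 520) (nat_lit 379) (nat_lit 241))))) (XT.nd (nat_lit 234) (nat_lit 304) (nat_lit 0) (XT.nd (nat_lit 78) (nat_lit 228) (nat_lit 0) (XT.lf (nat_lit 0) (nat_lit 19044106601) (nat_lit 228) (nat_lit 2772015690) (nat_lit 76) (nat_lit 3447918880) (nat_lit 38) (nat_lit 5) (nat_lit 41) (nat_lit 5) (nat_lit 39) (nat_lit 5) (nat_lit 521) (nat_lit 379) (nat_lit 240)) (XT.nd (nat_lit 78) (nat_lit 76) (nat_lit 0) (XT.lf (nat_lit 0) (nat_lit 6952991194) (nat_lit 152) (nat_lit 16705810204) (nat_lit 228) (nat_lit 1996602594) (nat_lit 36) (nat_lit 5) (nat_lit 38) (nat_lit 5) (nat_lit 39) (nat_lit 5) (nat_lit 522) (nat_lit 379) (nat_lit 239)) (XT.lf (nat_lit 0) (nat_lit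 2287092031) (nat_lit 228) (nat_lit 9180990085) (nat_lit 76) (nat_lit 14586091054) (nat_lit 35) (nat_lit 5) (nat_lit 38) (nat_lit 5) (nat_lit 36) (nat_lit 5) (nat_lit 523) (nat_lit 379) (nat_lit 238)))) (XT.nd (nat_lit 156) (nat_lit 152) (nat_lit 0) (XT.nd (nat_lit 78) (nat_lit 0) (nat_lit 0) (XT.lf (nat_lit 0) (nat_lit 502947877) (nat_lit 152) (nat_lit 6117796945) (nat_lit 228) (nat_lit 19840091888) (nat_lit 33) (nat_lit 5) (nat_lit 35) (nat_lit 5) (nat_lit 36) (nat_lit 5) (nat_lit 524) (nat_lit 379) (nat_lit 237)) (XT.lf (nat_lit 0) (nat_lit 10483868460) (nat_lit 152) (nat_lit 606643127) (nat_lit 228) (nat_lit 15784136356) (nat_lit 33) (nat_lit 5) (nat_lit 35) (nat_lit 5) (nat_lit 36) (nat_lit 5) (nat_lit 525) (nat_lit 379) (nat_lit 236))) (XT.nd (nat_lit 78) (nat_lit 152) (nat_lit 0) (XT.lf (nat_lit 0) (nat_lit 15670245752) (nat_lit 228) (nat_lit 6685803776) (nat_lit 76) (nat_lit 4940277608) (nat_lit 33) (nat_lit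 5) (nat_lit 36) (nat_lit 5) (nat_lit 34) (nat_lit 5) (nat_lit 526) (nat_lit 379) (nat_lit 235)) (XT.lf (nat_lit 0) (nat_lit 3231123994) (nat_lit 152) (nat_lit 17123694833) (nat_lit 228) (nat_lit 7371359317) (nat_lit 31) (nat_lit 5) (nat_lit 33) (nat_lit 5) (nat_lit 34) (nat_lit 5) (nat_lit 527) (nat_lit 379) (nat_lit 234))))))) (XT.nd (nat_lit 48828) (nat_lit 0) (nat_lit 38836) (XT.nd (nat_lit 48282) (nat_lit 0) (nat_lit 44992) (XT.nd (nat_lit 47970) (nat_lit 0) (nat_lit 46132) (XT.nd (nat_lit 47814) (nat_lit 0) (nat_lit 46512) (XT.lf (nat_lit 0) (nat_lit 13416646344) (nat_lit 152) (nat_lit 11749648566) (nat_lit 228) (nat_lit 2997670083) (nat_lit 31) (nat_lit 5) (nat_lit 33) (nat_lit 5) (nat_lit 34) (nat_lit 5) (nat_lit 528) (nat_lit 379) (nat_lit 233)) (XT.nd (nat_lit 78) (nat_lit 76) (nat_lit 0) (XT.lf (nat_lit 0) (nat_lit 1073741823) (nat_lit 0) (nat_lit 0) (nat_lit 0) (nat_lit 0) (nat_lit 644) (nat_lit 0)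 (nat_lit 1) (nat_lit 0) (nat_lit 1) (nat_lit 0) (nat_lit 380) (nat_lit 380) (nat_lit 380)) (XT.lf (nat_lit 0) (nat_lit 2976289359) (nat_lit 76) (nat_lit 3427319876) (nat_lit 0) (nat_lit 39289664) (nat_lit 643) (nat_lit 5) (nat_lit 644) (nat_lit 0) (nat_lit 643) (nat_lit 4) (nat_lit 381) (nat_lit 380) (nat_lit 379)))) (XT.nd (nat_lit 156) (nat_lit 228) (nat_lit 0) (XT.nd (nat_lit 78) (nat_lit 152) (nat_lit 0) (XT.lf (nat_lit 0) (nat_lit 5934295562) (nat_lit 76) (nat_lit 392848776) (nat_lit 0) (nat_lit 117884402) (nat_lit 643) (nat_lit 5) (nat_lit 644) (nat_lit 0) (nat_lit 643) (nat_lit 4) (nat_lit 382) (nat_lit 380) (nat_lit 378)) (XT.lf (nat_lit 0) (nat_lit 2412145609) (nat_lit 152) (nat_lit 3766829447) (nat_lit 76) (nat_lit 269198572) (nat_lit 641) (nat_lit 5) (nat_lit 643) (nat_lit 5) (nat_lit 642) (nat_lit 4) (nat_lit 383) (nat_lit 380) (nat_lit 377))) (XT.nd (nat_lit 78) (nat_lit 228) (nat_lit 0) (XT.lf (nat_lit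 0) (nat_lit 5313649037) (nat_lit 152) (nat_lit 673392931) (nat_lit 76) (nat_lit 465841822) (nat_lit 641) (nat_lit 5) (nat_lit 643) (nat_lit 5) (nat_lit 642) (nat_lit 4) (nat_lit 384) (nat_lit 380) (nat_lit 376)) (XT.lf (nat_lit 0) (nat_lit 1733085566) (nat_lit 228) (nat_lit 3996205214) (nat_lit 76) (nat_lit 729439334) (nat_lit 638) (nat_lit 5) (nat_lit 641) (nat_lit 5) (nat_lit 639) (nat_lit 5) (nat_lit 385) (nat_lit 380) (nat_lit 375))))) (XT.nd (nat_lit 234) (nat_lit 836) (nat_lit 0) (XT.nd (nat_lit 78) (nat_lit 304) (nat_lit 0) (XT.lf (nat_lit 0) (nat_lit 4578597437) (nat_lit 228) (nat_lit 842911658) (nat_lit 76) (nat_lit 1044517338) (nat_lit 638) (nat_lit 5) (nat_lit 641) (nat_lit 5) (nat_lit 639) (nat_lit 5) (nat_lit 386) (nat_lit 380) (nat_lit 374)) (XT.nd (nat_lit 78) (nat_lit 0) (nat_lit 0) (XT.lf (nat_lit 0) (nat_lit 937089490) (nat_lit 304) (nat_lit 4116634516) (nat_lit 76) (nat_lit 1420858422) (nat_lit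 634) (nat_lit 5) (nat_lit 638) (nat_lit 5) (nat_lit 635) (nat_lit 5) (nat_lit 387) (nat_lit 380) (nat_lit 373)) (XT.lf (nat_lit 0) (nat_lit 3727008470) (nat_lit 304) (nat_lit 902485463) (nat_lit 76) (nat_lit 1854980126) (nat_lit 634) (nat_lit 5) (nat_lit 638) (nat_lit 5) (nat_lit 635) (nat_lit 5) (nat_lit 388) (nat_lit 380) (nat_lit 372)))) (XT.nd (nat_lit 156) (nat_lit 456) (nat_lit 0) (XT.nd (nat_lit 78) (nat_lit 0) (nat_lit 0) (XT.lf (nat_lit 0) (nat_lit 21914730) (nat_lit 380) (nat_lit 4129109992) (nat_lit 76) (nat_lit 2344726992) (nat_lit 629) (nat_lit 5) (nat_lit 634) (nat_lit 5) (nat_lit 630) (nat_lit 5) (nat_lit 389) (nat_lit 380) (nat_lit 371)) (XT.lf (nat_lit 0) (nat_lit 2756525073) (nat_lit 380) (nat_lit 853001119) (nat_lit 76) (nat_lit 2898724948) (nat_lit 629) (nat_lit 5) (nat_lit 634) (nat_lit 5) (nat_lit 630) (nat_lit 5) (nat_lit 390) (nat_lit 380) (nat_lit 370))) (XT.nd (nat_lit 78) (nat_lit 76)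 (nat_lit 0) (XT.lf (nat_lit 0) (nat_lit 2481021194) (nat_lit 380) (nat_lit 3012713009) (nat_lit 456) (nat_lit 1028398469) (nat_lit 624) (nat_lit 5) (nat_lit 629) (nat_lit 5) (nat_lit 630) (nat_lit 5) (nat_lit 391) (nat_lit 380) (nat_lit 369)) (XT.lf (nat_lit 0) (nat_lit 1664558677) (nat_lit 456) (nat_lit 695156381) (nat_lit 76) (nat_lit 4177674221) (nat_lit 623) (nat_lit 5) (nat_lit 629) (nat_lit 5) (nat_lit 624) (nat_lit 5) (nat_lit 392) (nat_lit 380) (nat_lit 368)))))) (XT.nd (nat_lit 546) (nat_lit 3648) (nat_lit 0) (XT.nd (nat_lit 234) (nat_lit 1444) (nat_lit 0) (XT.nd (nat_lit 78) (nat_lit 608) (nat_lit 0) (XT.lf (nat_lit 0) (nat_lit 2706333146) (nat_lit 456) (nat_lit 1642526963) (nat_lit 532) (nat_lit 2205014890) (nat_lit 617) (nat_lit 5) (nat_lit 623) (nat_lit 5) (nat_lit 624) (nat_lit 5) (nat_lit 393) (nat_lit 380) (nat_lit 367)) (XT.nd (nat_lit 78) (nat_lit 532) (nat_lit 0) (XT.lf (nat_lit 0) (nat_lit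 448282100) (nat_lit 532) (nat_lit 429464502) (nat_lit 76) (nat_lit 5694180659) (nat_lit 616) (nat_lit 5) (nat_lit 623) (nat_lit 5) (nat_lit 617) (nat_lit 5) (nat_lit 394) (nat_lit 380) (nat_lit 366)) (XT.lf (nat_lit 0) (nat_lit 3042310600) (nat_lit 532) (nat_lit 38078500) (nat_lit 608) (nat_lit 3510634717) (nat_lit 609) (nat_lit 5) (nat_lit 616) (nat_lit 5) (nat_lit 617) (nat_lit 5) (nat_lit 395) (nat_lit 380) (nat_lit 365)))) (XT.nd (nat_lit 156) (nat_lit 760) (nat_lit 0) (XT.nd (nat_lit 78) (nat_lit 684) (nat_lit 0) (XT.lf (nat_lit 0) (nat_lit 5710003399) (nat_lit 608) (nat_lit 67636326) (nat_lit 76) (nat_lit 834043842) (nat_lit 609) (nat_lit 5) (nat_lit 617) (nat_lit 5) (nat_lit 610) (nat_lit 5) (nat_lit 396) (nat_lit 380) (nat_lit 364)) (XT.lf (nat_lit 0) (nat_lit 1696834700) (nat_lit 684) (nat_lit 3156617174) (nat_lit 76) (nat_lit 1779942548) (nat_lit 600) (nat_lit 5) (nat_lit 609) (nat_lit 5) (nat_lit 601)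 (nat_lit 5) (nat_lit 397) (nat_lit 380) (nat_lit 363))) (XT.nd (nat_lit 78) (nat_lit 76) (nat_lit 0) (XT.lf (nat_lit 0) (nat_lit 395659020) (nat_lit 684) (nat_lit 3880994955) (nat_lit 760) (nat_lit 2380012199) (nat_lit 591) (nat_lit 5) (nat_lit 600) (nat_lit 5) (nat_lit 601) (nat_lit 5) (nat_lit 398) (nat_lit 380) (nat_lit 362)) (XT.lf (nat_lit 0) (nat_lit 184844104) (nat_lit 760) (nat_lit 2661463921) (nat_lit 76) (nat_lit 3834933658) (nat_lit 590) (nat_lit 5) (nat_lit 600) (nat_lit 5) (nat_lit 591) (nat_lit 5) (nat_lit 399) (nat_lit 380) (nat_lit 361))))) (XT.nd (nat_lit 234) (nat_lit 1976) (nat_lit 0) (XT.nd (nat_lit 78) (nat_lit 912) (nat_lit 0) (XT.lf (nat_lit 0) (nat_lit 966160974) (nat_lit 760) (nat_lit 1749311012) (nat_lit 836) (nat_lit 3991664987) (nat_lit 580) (nat_lit 5) (nat_lit 590) (nat_lit 5) (nat_lit 591) (nat_lit 5) (nat_lit 400) (nat_lit 380) (nat_lit 360)) (XT.nd (nat_lit 78) (nat_lit 912) (nat_lit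 0) (XT.lf (nat_lit 0) (nat_lit 4661864851) (nat_lit 760) (nat_lit 593659873) (nat_lit 836) (nat_lit 1478917596) (nat_lit 580) (nat_lit 5) (nat_lit 590) (nat_lit 5) (nat_lit 591) (nat_lit 5) (nat_lit 401) (nat_lit 380) (nat_lit 359)) (XT.lf (nat_lit 0) (nat_lit 1026226959) (nat_lit 912) (nat_lit 5124099773) (nat_lit 76) (nat_lit 612764806) (nat_lit 568) (nat_lit 5) (nat_lit 580) (nat_lit 5) (nat_lit 569) (nat_lit 5) (nat_lit 402) (nat_lit 380) (nat_lit 358)))) (XT.nd (nat_lit 156) (nat_lit 1064) (nat_lit 0) (XT.nd (nat_lit 78) (nat_lit 912) (nat_lit 0) (XT.lf (nat_lit 0) (nat_lit 3522275911) (nat_lit 912) (nat_lit 1394620662) (nat_lit 76) (nat_lit 1876074022) (nat_lit 568) (nat_lit 5) (nat_lit 580) (nat_lit 5) (nat_lit 569) (nat_lit 5) (nat_lit 403) (nat_lit 380) (nat_lit 357)) (XT.lf (nat_lit 0) (nat_lit 2400088350) (nat_lit 912) (nat_lit 3627518876) (nat_lit 988) (nat_lit 796715968) (nat_lit 556) (nat_lit 5)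 (nat_lit 568) (nat_lit 5) (nat_lit 569) (nat_lit 5) (nat_lit 404) (nat_lit 380) (nat_lit 356))) (XT.nd (nat_lit 78) (nat_lit 988) (nat_lit 0) (XT.lf (nat_lit 0) (nat_lit 1657705897) (nat_lit 988) (nat_lit 619163844) (nat_lit 76) (nat_lit 4580197412) (nat_lit 555) (nat_lit 5) (nat_lit 568) (nat_lit 5) (nat_lit 556) (nat_lit 5) (nat_lit 405) (nat_lit 380) (nat_lit 355)) (XT.lf (nat_lit 0) (nat_lit 3258913716) (nat_lit 988) (nat_lit 858087278) (nat_lit 1064) (nat_lit 2774090159) (nat_lit 542) (nat_lit 5) (nat_lit 555) (nat_lit 5) (nat_lit 556) (nat_lit 5) (nat_lit 406) (nat_lit 380) (nat_lit 354))))))))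
noncomputable def xc102 : XT := (XT.nd (nat_lit 2184) (nat_lit 10260) (nat_lit 0) (XT.nd (nat_lit 1092) (nat_lit 8132) (nat_lit 0) (XT.nd (nat_lit 546) (nat_lit 6156) (nat_lit 0) (XT.nd (nat_lit 234) (nat_lit 2584) (nat_lit 0) (XT.nd (nat_lit 78) (nat_lit 1216) (nat_lit 0) (XT.lf (nat_lit 0) (nat_lit 255210351) (nat_lit 1064) (nat_lit 6326119162) (nat_lit 1140) (nat_lit 345407546) (nat_lit 528) (nat_lit 5) (nat_lit 542) (nat_lit 5) (nat_lit 543) (nat_lit 5) (nat_lit 407) (nat_lit 380) (nat_lit 353)) (XT.nd (nat_lit 78) (nat_lit 1140) (nat_lit 0) (XT.lf (nat_lit 0) (nat_lit 2080670300) (nat_lit 1140) (nat_lit 2754723834) (nat_lit 76) (nat_lit 2127945405) (nat_lit 527) (nat_lit 5) (nat_lit 542) (nat_lit 5) (nat_lit 528) (nat_lit 5) (nat_lit 408) (nat_lit 380) (nat_lit 352)) (XT.lf (nat_lit 0) (nat_lit 1212847124) (nat_lit 1140) (nat_lit 3293287510) (nat_lit 1216) (nat_lit 2495438984) (nat_lit 512) (nat_lit 5) (nat_lit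 527) (nat_lit 5) (nat_lit 528) (nat_lit 5) (nat_lit 409) (nat_lit 380) (nat_lit 351)))) (XT.nd (nat_lit 156) (nat_lit 1292) (nat_lit 0) (XT.nd (nat_lit 78) (nat_lit 1292) (nat_lit 0) (XT.lf (nat_lit 0) (nat_lit 5256194264) (nat_lit 1140) (nat_lit 1690772223) (nat_lit 1216) (nat_lit 94322657) (nat_lit 512) (nat_lit 5) (nat_lit 527) (nat_lit 5) (nat_lit 528) (nat_lit 5) (nat_lit 410) (nat_lit 380) (nat_lit 350)) (XT.lf (nat_lit 0) (nat_lit 2272278078) (nat_lit 1216) (nat_lit 15404728) (nat_lit 1292) (nat_lit 4794587216) (nat_lit 495) (nat_lit 5) (nat_lit 511) (nat_lit 5) (nat_lit 512) (nat_lit 5) (nat_lit 411) (nat_lit 380) (nat_lit 349))) (XT.nd (nat_lit 78) (nat_lit 1292) (nat_lit 0) (XT.lf (nat_lit 0) (nat_lit 4688917007) (nat_lit 1292) (nat_lit 742228077) (nat_lit 76) (nat_lit 1693506753) (nat_lit 495) (nat_lit 5) (nat_lit 512) (nat_lit 5) (nat_lit 496) (nat_lit 5) (nat_lit 412) (nat_lit 380) (nat_lit 348))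 (XT.lf (nat_lit 0) (nat_lit 3410643839) (nat_lit 1292) (nat_lit 3700559643) (nat_lit 1368) (nat_lit 57267076) (nat_lit 478) (nat_lit 5) (nat_lit 495) (nat_lit 5) (nat_lit 496) (nat_lit 5) (nat_lit 413) (nat_lit 380) (nat_lit 347))))) (XT.nd (nat_lit 234) (nat_lit 3268) (nat_lit 0) (XT.nd (nat_lit 78) (nat_lit 1444) (nat_lit 0) (XT.lf (nat_lit 0) (nat_lit 391991617) (nat_lit 1368) (nat_lit 1904383684) (nat_lit 1444) (nat_lit 4917357207) (nat_lit 459) (nat_lit 5) (nat_lit 477) (nat_lit 5) (nat_lit 478) (nat_lit 5) (nat_lit 414) (nat_lit 380) (nat_lit 346)) (XT.nd (nat_lit 78) (nat_lit 1444) (nat_lit 0) (XT.lf (nat_lit 0) (nat_lit 4634327042) (nat_lit 1368) (nat_lit 39017362) (nat_lit 1444) (nat_lit 2587054259) (nat_lit 459) (nat_lit 5) (nat_lit 477) (nat_lit 5) (nat_lit 478) (nat_lit 5) (nat_lit 415) (nat_lit 380) (nat_lit 345)) (XT.lf (nat_lit 0) (nat_lit 1621410688) (nat_lit 1444) (nat_lit 5451865607) (nat_lit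 1520) (nat_lit 235259405) (nat_lit 440) (nat_lit 5) (nat_lit 459) (nat_lit 5) (nat_lit 460) (nat_lit 5) (nat_lit 416) (nat_lit 380) (nat_lit 344)))) (XT.nd (nat_lit 156) (nat_lit 1672) (nat_lit 0) (XT.nd (nat_lit 78) (nat_lit 1520) (nat_lit 0) (XT.lf (nat_lit 0) (nat_lit 2106295809) (nat_lit 1520) (nat_lit 1423927081) (nat_lit 76) (nat_lit 3827753881) (nat_lit 439) (nat_lit 5) (nat_lit 459) (nat_lit 5) (nat_lit 440) (nat_lit 5) (nat_lit 417) (nat_lit 380) (nat_lit 343)) (XT.lf (nat_lit 0) (nat_lit 2920434364) (nat_lit 1520) (nat_lit 1544084211) (nat_lit 1596) (nat_lit 2944440632) (nat_lit 419) (nat_lit 5) (nat_lit 439) (nat_lit 5) (nat_lit 440) (nat_lit 5) (nat_lit 418) (nat_lit 380) (nat_lit 342))) (XT.nd (nat_lit 78) (nat_lit 1672) (nat_lit 0) (XT.lf (nat_lit 0) (nat_lit 6837343632) (nat_lit 1596) (nat_lit 134532729) (nat_lit 76) (nat_lit 489778696) (nat_lit 419) (nat_lit 5) (nat_lit 440) (nat_lit 5) (nat_lit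 420) (nat_lit 5) (nat_lit 419) (nat_lit 380) (nat_lit 341)) (XT.lf (nat_lit 0) (nat_lit 1713091202) (nat_lit 1672) (nat_lit 3214714147) (nat_lit 76) (nat_lit 2587539706) (nat_lit 397) (nat_lit 5) (nat_lit 419) (nat_lit 5) (nat_lit 398) (nat_lit 5) (nat_lit 420) (nat_lit 380) (nat_lit 340)))))) (XT.nd (nat_lit 546) (nat_lit 3344) (nat_lit 0) (XT.nd (nat_lit 234) (nat_lit 1748) (nat_lit 0) (XT.nd (nat_lit 78) (nat_lit 1368) (nat_lit 0) (XT.lf (nat_lit 0) (nat_lit 1227083741) (nat_lit 1672) (nat_lit 2826539603) (nat_lit 1748) (nat_lit 3517148228) (nat_lit 375) (nat_lit 5) (nat_lit 397) (nat_lit 5) (nat_lit 398) (nat_lit 5) (nat_lit 421) (nat_lit 380) (nat_lit 339)) (XT.nd (nat_lit 78) (nat_lit 1368) (nat_lit 0) (XT.lf (nat_lit 0) (nat_lit 5760464440) (nat_lit 1672) (nat_lit 658531934) (nat_lit 1748) (nat_lit 1208788924) (nat_lit 375) (nat_lit 5) (nat_lit 397) (nat_lit 5) (nat_lit 398) (nat_lit 5) (nat_lit 422) (nat_lit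 380) (nat_lit 338)) (XT.lf (nat_lit 0) (nat_lit 1115401540) (nat_lit 1368) (nat_lit 5010881823) (nat_lit 76) (nat_lit 1559851108) (nat_lit 357) (nat_lit 5) (nat_lit 375) (nat_lit 5) (nat_lit 358) (nat_lit 5) (nat_lit 423) (nat_lit 380) (nat_lit 337)))) (XT.nd (nat_lit 156) (nat_lit 912) (nat_lit 0) (XT.nd (nat_lit 78) (nat_lit 836) (nat_lit 0) (XT.lf (nat_lit 0) (nat_lit 3444465522) (nat_lit 1368) (nat_lit 465129481) (nat_lit 76) (nat_lit 3836441333) (nat_lit 357) (nat_lit 5) (nat_lit 375) (nat_lit 5) (nat_lit 358) (nat_lit 5) (nat_lit 424) (nat_lit 380) (nat_lit 336)) (XT.lf (nat_lit 0) (nat_lit 4185977189) (nat_lit 836) (nat_lit 1619728827) (nat_lit 912) (nat_lit 2001754612) (nat_lit 346) (nat_lit 5) (nat_lit 357) (nat_lit 5) (nat_lit 358) (nat_lit 5) (nat_lit 425) (nat_lit 380) (nat_lit 335))) (XT.nd (nat_lit 78) (nat_lit 0) (nat_lit 0) (XT.lf (nat_lit 0) (nat_lit 312816651) (nat_lit 912) (nat_lit 6838538625)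 (nat_lit 76) (nat_lit 719282915) (nat_lit 334) (nat_lit 5) (nat_lit 346) (nat_lit 5) (nat_lit 335) (nat_lit 5) (nat_lit 426) (nat_lit 380) (nat_lit 334)) (XT.lf (nat_lit 0) (nat_lit 2641304508) (nat_lit 912) (nat_lit 2172255206) (nat_lit 76) (nat_lit 3121400586) (nat_lit 334) (nat_lit 5) (nat_lit 346) (nat_lit 5) (nat_lit 335) (nat_lit 5) (nat_lit 427) (nat_lit 380) (nat_lit 333))))) (XT.nd (nat_lit 234) (nat_lit 1596) (nat_lit 0) (XT.nd (nat_lit 78) (nat_lit 912) (nat_lit 0) (XT.lf (nat_lit 0) (nat_lit 2580648509) (nat_lit 836) (nat_lit 2412482549) (nat_lit 912) (nat_lit 3007935944) (nat_lit 323) (nat_lit 5) (nat_lit 334) (nat_lit 5) (nat_lit 335) (nat_lit 5) (nat_lit 428) (nat_lit 380) (nat_lit 332)) (XT.nd (nat_lit 78) (nat_lit 912) (nat_lit 0) (XT.lf (nat_lit 0) (nat_lit 7367436208) (nat_lit 912) (nat_lit 651583862) (nat_lit 76) (nat_lit 49999798) (nat_lit 323) (nat_lit 5) (nat_lit 335) (nat_lit 5) (nat_lit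 324) (nat_lit 5) (nat_lit 429) (nat_lit 380) (nat_lit 331)) (XT.lf (nat_lit 0) (nat_lit 1633868580) (nat_lit 912) (nat_lit 3937429282) (nat_lit 76) (nat_lit 2566758657) (nat_lit 311) (nat_lit 5) (nat_lit 323) (nat_lit 5) (nat_lit 312) (nat_lit 5) (nat_lit 430) (nat_lit 380) (nat_lit 330)))) (XT.nd (nat_lit 156) (nat_lit 836) (nat_lit 0) (XT.nd (nat_lit 78) (nat_lit 0) (nat_lit 0) (XT.lf (nat_lit 0) (nat_lit 917108897) (nat_lit 760) (nat_lit 3061410869) (nat_lit 836) (nat_lit 4230454683) (nat_lit 301) (nat_lit 5) (nat_lit 311) (nat_lit 5) (nat_lit 312) (nat_lit 5) (nat_lit 431) (nat_lit 380) (nat_lit 329)) (XT.lf (nat_lit 0) (nat_lit 5881805215) (nat_lit 760) (nat_lit 476693231) (nat_lit 836) (nat_lit 1923073969) (nat_lit 301) (nat_lit 5) (nat_lit 311) (nat_lit 5) (nat_lit 312) (nat_lit 5) (nat_lit 432) (nat_lit 380) (nat_lit 328))) (XT.nd (nat_lit 78) (nat_lit 0) (nat_lit 0) (XT.lf (nat_lit 0) (nat_lit 418184171)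 (nat_lit 836) (nat_lit 5788958213) (nat_lit 76) (nat_lit 2148585746) (nat_lit 290) (nat_lit 5) (nat_lit 301) (nat_lit 5) (nat_lit 291) (nat_lit 5) (nat_lit 433) (nat_lit 380) (nat_lit 327)) (XT.lf (nat_lit 0) (nat_lit 2762849536) (nat_lit 836) (nat_lit 822408012) (nat_lit 76) (nat_lit 4846237156) (nat_lit 290) (nat_lit 5) (nat_lit 301) (nat_lit 5) (nat_lit 291) (nat_lit 5) (nat_lit 434) (nat_lit 380) (nat_lit 326))))))) (XT.nd (nat_lit 1092) (nat_lit 4180) (nat_lit 0) (XT.nd (nat_lit 546) (nat_lit 2508) (nat_lit 0) (XT.nd (nat_lit 234) (nat_lit 2052) (nat_lit 0) (XT.nd (nat_lit 78) (nat_lit 836) (nat_lit 0) (XT.lf (nat_lit 0) (nat_lit 4259602131) (nat_lit 684) (nat_lit 886129586) (nat_lit 760) (nat_lit 3363246479) (nat_lit 281) (nat_lit 5) (nat_lit 290) (nat_lit 5) (nat_lit 291) (nat_lit 5) (nat_lit 435) (nat_lit 380) (nat_lit 325)) (XT.nd (nat_lit 78) (nat_lit 76) (nat_lit 0) (XT.lf (nat_lit 0) (nat_lit 824964021)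 (nat_lit 760) (nat_lit 6738440842) (nat_lit 836) (nat_lit 1024891335) (nat_lit 271) (nat_lit 5) (nat_lit 281) (nat_lit 5) (nat_lit 282) (nat_lit 5) (nat_lit 436) (nat_lit 380) (nat_lit 324)) (XT.lf (nat_lit 0) (nat_lit 1341247368) (nat_lit 836) (nat_lit 2665560099) (nat_lit 76) (nat_lit 4662265777) (nat_lit 270) (nat_lit 5) (nat_lit 281) (nat_lit 5) (nat_lit 271) (nat_lit 5) (nat_lit 437) (nat_lit 380) (nat_lit 323)))) (XT.nd (nat_lit 156) (nat_lit 1368) (nat_lit 0) (XT.nd (nat_lit 78) (nat_lit 0) (nat_lit 0) (XT.lf (nat_lit 0) (nat_lit 2520800223) (nat_lit 684) (nat_lit 1201548516) (nat_lit 760) (nat_lit 5029380257) (nat_lit 261) (nat_lit 5) (nat_lit 270) (nat_lit 5) (nat_lit 271) (nat_lit 5) (nat_lit 438) (nat_lit 380) (nat_lit 322)) (XT.lf (nat_lit 0) (nat_lit 6145237972) (nat_lit 760) (nat_lit 1039620864) (nat_lit 76) (nat_lit 1651321121) (nat_lit 261) (nat_lit 5) (nat_lit 271) (nat_lit 5) (nat_lit 262) (nat_lit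 5) (nat_lit 439) (nat_lit 380) (nat_lit 321))) (XT.nd (nat_lit 78) (nat_lit 684) (nat_lit 0) (XT.lf (nat_lit 0) (nat_lit 4264201517) (nat_lit 684) (nat_lit 4354088969) (nat_lit 760) (nat_lit 304020256) (nat_lit 252) (nat_lit 5) (nat_lit 261) (nat_lit 5) (nat_lit 262) (nat_lit 5) (nat_lit 440) (nat_lit 380) (nat_lit 320)) (XT.lf (nat_lit 0) (nat_lit 633097005) (nat_lit 608) (nat_lit 1446960427) (nat_lit 684) (nat_lit 6930306759) (nat_lit 243) (nat_lit 5) (nat_lit 251) (nat_lit 5) (nat_lit 252) (nat_lit 5) (nat_lit 441) (nat_lit 380) (nat_lit 319))))) (XT.nd (nat_lit 234) (nat_lit 1824) (nat_lit 0) (XT.nd (nat_lit 78) (nat_lit 684) (nat_lit 0) (XT.lf (nat_lit 0) (nat_lit 4515670404) (nat_lit 684) (nat_lit 3058249885) (nat_lit 76) (nat_lit 1526083213) (nat_lit 243) (nat_lit 5) (nat_lit 252) (nat_lit 5) (nat_lit 244) (nat_lit 5) (nat_lit 442) (nat_lit 380) (nat_lit 318)) (XT.nd (nat_lit 78) (nat_lit 76) (nat_lit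 0) (XT.lf (nat_lit 0) (nat_lit 2349271128) (nat_lit 608) (nat_lit 4642812505) (nat_lit 684) (nat_lit 2199533224) (nat_lit 235) (nat_lit 5) (nat_lit 243) (nat_lit 5) (nat_lit 244) (nat_lit 5) (nat_lit 443) (nat_lit 380) (nat_lit 317)) (XT.lf (nat_lit 0) (nat_lit 217971455) (nat_lit 684) (nat_lit 1419205781) (nat_lit 76) (nat_lit 7648115831) (nat_lit 234) (nat_lit 5) (nat_lit 243) (nat_lit 5) (nat_lit 235) (nat_lit 5) (nat_lit 444) (nat_lit 380) (nat_lit 316)))) (XT.nd (nat_lit 156) (nat_lit 608) (nat_lit 0) (XT.nd (nat_lit 78) (nat_lit 608) (nat_lit 0) (XT.lf (nat_lit 0) (nat_lit 2658658645) (nat_lit 684) (nat_lit 5276940126) (nat_lit 76) (nat_lit 1444889254) (nat_lit 226) (nat_lit 5) (nat_lit 235) (nat_lit 5) (nat_lit 227) (nat_lit 5) (nat_lit 445) (nat_lit 380) (nat_lit 315)) (XT.lf (nat_lit 0) (nat_lit 231844962) (nat_lit 608) (nat_lit 4906628234) (nat_lit 684) (nat_lit 4339328681) (nat_lit 218) (nat_lit 5)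 (nat_lit 226) (nat_lit 5) (nat_lit 227) (nat_lit 5) (nat_lit 446) (nat_lit 380) (nat_lit 314))) (XT.nd (nat_lit 78) (nat_lit 608) (nat_lit 0) (XT.lf (nat_lit 0) (nat_lit 5883703536) (nat_lit 608) (nat_lit 1788340133) (nat_lit 684) (nat_lit 1904955987) (nat_lit 218) (nat_lit 5) (nat_lit 226) (nat_lit 5) (nat_lit 227) (nat_lit 5) (nat_lit 447) (nat_lit 380) (nat_lit 313)) (XT.lf (nat_lit 0) (nat_lit 561447449) (nat_lit 608) (nat_lit 7733604101) (nat_lit 76) (nat_lit 1383256304) (nat_lit 210) (nat_lit 5) (nat_lit 218) (nat_lit 5) (nat_lit 211) (nat_lit 5) (nat_lit 448) (nat_lit 380) (nat_lit 312)))))) (XT.nd (nat_lit 546) (nat_lit 2052) (nat_lit 0) (XT.nd (nat_lit 234) (nat_lit 1596) (nat_lit 0) (XT.nd (nat_lit 78) (nat_lit 532) (nat_lit 0) (XT.lf (nat_lit 0) (nat_lit 3057934177) (nat_lit 608) (nat_lit 2098876250) (nat_lit 76) (nat_lit 4624474347) (nat_lit 210) (nat_lit 5) (nat_lit 218) (nat_lit 5) (nat_lit 211)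 (nat_lit 5) (nat_lit 449) (nat_lit 380) (nat_lit 311)) (XT.nd (nat_lit 78) (nat_lit 0) (nat_lit 0) (XT.lf (nat_lit 0) (nat_lit 3658653693) (nat_lit 532) (nat_lit 1939497759) (nat_lit 608) (nat_lit 4288313024) (nat_lit 203) (nat_lit 5) (nat_lit 210) (nat_lit 5) (nat_lit 211) (nat_lit 5) (nat_lit 450) (nat_lit 380) (nat_lit 310)) (XT.lf (nat_lit 0) (nat_lit 8182402494) (nat_lit 608) (nat_lit 480674721) (nat_lit 76) (nat_lit 1330824848) (nat_lit 203) (nat_lit 5) (nat_lit 211) (nat_lit 5) (nat_lit 204) (nat_lit 5) (nat_lit 451) (nat_lit 380) (nat_lit 309)))) (XT.nd (nat_lit 156) (nat_lit 456) (nat_lit 0) (XT.nd (nat_lit 78) (nat_lit 532) (nat_lit 0) (XT.lf (nat_lit 0) (nat_lit 724417773) (nat_lit 608) (nat_lit 4705926047) (nat_lit 76) (nat_lit 4672691044) (nat_lit 195) (nat_lit 5) (nat_lit 203) (nat_lit 5) (nat_lit 196) (nat_lit 5) (nat_lit 452) (nat_lit 380) (nat_lit 308)) (XT.lf (nat_lit 0) (nat_lit 1150150436)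 (nat_lit 532) (nat_lit 2118423627) (nat_lit 608) (nat_lit 6945919037) (nat_lit 188) (nat_lit 5) (nat_lit 195) (nat_lit 5) (nat_lit 196) (nat_lit 5) (nat_lit 453) (nat_lit 380) (nat_lit 307))) (XT.nd (nat_lit 78) (nat_lit 456) (nat_lit 0) (XT.lf (nat_lit 0) (nat_lit 5874889131) (nat_lit 608) (nat_lit 3186678667) (nat_lit 76) (nat_lit 1266404634) (nat_lit 188) (nat_lit 5) (nat_lit 196) (nat_lit 5) (nat_lit 189) (nat_lit 5) (nat_lit 454) (nat_lit 380) (nat_lit 306)) (XT.lf (nat_lit 0) (nat_lit 2794015988) (nat_lit 456) (nat_lit 5743355238) (nat_lit 532) (nat_lit 1906286411) (nat_lit 182) (nat_lit 5) (nat_lit 188) (nat_lit 5) (nat_lit 189) (nat_lit 5) (nat_lit 455) (nat_lit 380) (nat_lit 305))))) (XT.nd (nat_lit 234) (nat_lit 1444) (nat_lit 0) (XT.nd (nat_lit 78) (nat_lit 532) (nat_lit 0) (XT.lf (nat_lit 0) (nat_lit 675885960) (nat_lit 532) (nat_lit 1665620805) (nat_lit 76) (nat_lit 8220206271) (nat_lit 181) (nat_lit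 5) (nat_lit 188) (nat_lit 5) (nat_lit 182) (nat_lit 5) (nat_lit 456) (nat_lit 380) (nat_lit 304)) (XT.nd (nat_lit 78) (nat_lit 0) (nat_lit 0) (XT.lf (nat_lit 0) (nat_lit 3293148331) (nat_lit 608) (nat_lit 6242175602) (nat_lit 76) (nat_lit 1146390280) (nat_lit 174) (nat_lit 5) (nat_lit 182) (nat_lit 5) (nat_lit 175) (nat_lit 5) (nat_lit 457) (nat_lit 380) (nat_lit 303)) (XT.lf (nat_lit 0) (nat_lit 5962288755) (nat_lit 608) (nat_lit 166903475) (nat_lit 76) (nat_lit 4674948325) (nat_lit 174) (nat_lit 5) (nat_lit 182) (nat_lit 5) (nat_lit 175) (nat_lit 5) (nat_lit 458) (nat_lit 380) (nat_lit 302)))) (XT.nd (nat_lit 156) (nat_lit 456) (nat_lit 0) (XT.nd (nat_lit 78) (nat_lit 532) (nat_lit 0) (XT.lf (nat_lit 0) (nat_lit 6073440056) (nat_lit 456) (nat_lit 2624113483) (nat_lit 532) (nat_lit 2231222545) (nat_lit 168) (nat_lit 5) (nat_lit 174) (nat_lit 5) (nat_lit 175) (nat_lit 5) (nat_lit 459) (nat_lit 380) (nat_lit 301))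 (XT.lf (nat_lit 0) (nat_lit 415547463) (nat_lit 532) (nat_lit 9698563526) (nat_lit 76) (nat_lit 941960393) (nat_lit 161) (nat_lit 5) (nat_lit 168) (nat_lit 5) (nat_lit 162) (nat_lit 5) (nat_lit 460) (nat_lit 380) (nat_lit 300))) (XT.nd (nat_lit 78) (nat_lit 456) (nat_lit 0) (XT.lf (nat_lit 0) (nat_lit 3109215047) (nat_lit 532) (nat_lit 3493665955) (nat_lit 76) (nat_lit 4582274449) (nat_lit 161) (nat_lit 5) (nat_lit 168) (nat_lit 5) (nat_lit 162) (nat_lit 5) (nat_lit 461) (nat_lit 380) (nat_lit 299)) (XT.lf (nat_lit 0) (nat_lit 2836790801) (nat_lit 456) (nat_lit 3012534930) (nat_lit 532) (nat_lit 5467658385) (nat_lit 155) (nat_lit 5) (nat_lit 161) (nat_lit 5) (nat_lit 162) (nat_lit 5) (nat_lit 462) (nat_lit 380) (nat_lit 298))))))))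
noncomputable def xc103 : XT := (XT.nd (nat_lit 2184) (nat_lit 3116) (nat_lit 0) (XT.nd (nat_lit 1092) (nat_lit 2660) (nat_lit 0) (XT.nd (nat_lit 546) (nat_lit 1140) (nat_lit 0) (XT.nd (nat_lit 234) (nat_lit 1292) (nat_lit 0) (XT.nd (nat_lit 78) (nat_lit 532) (nat_lit 0) (XT.lf (nat_lit 0) (nat_lit 8646419174) (nat_lit 532) (nat_lit 2150108818) (nat_lit 76) (nat_lit 654891780) (nat_lit 155) (nat_lit 5) (nat_lit 162) (nat_lit 5) (nat_lit 156) (nat_lit 5) (nat_lit 463) (nat_lit 380) (nat_lit 297)) (XT.nd (nat_lit 78) (nat_lit 76) (nat_lit 0) (XT.lf (nat_lit 0) (nat_lit 4307860869) (nat_lit 456) (nat_lit 7214379547) (nat_lit 532) (nat_lit 65861759) (nat_lit 149) (nat_lit 5) (nat_lit 155) (nat_lit 5) (nat_lit 156) (nat_lit 5) (nat_lit 464) (nat_lit 380) (nat_lit 296)) (XT.lf (nat_lit 0) (nat_lit 2681758025) (nat_lit 532) (nat_lit 856280727) (nat_lit 76) (nat_lit 8189348905) (nat_lit 148) (nat_lit 5) (nat_lit 155)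 (nat_lit 5) (nat_lit 149) (nat_lit 5) (nat_lit 465) (nat_lit 380) (nat_lit 295)))) (XT.nd (nat_lit 156) (nat_lit 456) (nat_lit 0) (XT.nd (nat_lit 78) (nat_lit 456) (nat_lit 0) (XT.lf (nat_lit 0) (nat_lit 5497696281) (nat_lit 456) (nat_lit 6134498006) (nat_lit 76) (nat_lit 236983854) (nat_lit 143) (nat_lit 5) (nat_lit 149) (nat_lit 5) (nat_lit 144) (nat_lit 5) (nat_lit 466) (nat_lit 380) (nat_lit 294)) (XT.lf (nat_lit 0) (nat_lit 402296016) (nat_lit 456) (nat_lit 7975120302) (nat_lit 532) (nat_lit 3636251563) (nat_lit 137) (nat_lit 5) (nat_lit 143) (nat_lit 5) (nat_lit 144) (nat_lit 5) (nat_lit 467) (nat_lit 380) (nat_lit 293))) (XT.nd (nat_lit 78) (nat_lit 456) (nat_lit 0) (XT.lf (nat_lit 0) (nat_lit 7118320982) (nat_lit 456) (nat_lit 4213464349) (nat_lit 532) (nat_lit 828933452) (nat_lit 137) (nat_lit 5) (nat_lit 143) (nat_lit 5) (nat_lit 144) (nat_lit 5) (nat_lit 468) (nat_lit 380) (nat_lit 292)) (XT.lf (nat_lit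 0) (nat_lit 1631839663) (nat_lit 380) (nat_lit 362796136) (nat_lit 456) (nat_lit 10316086925) (nat_lit 131) (nat_lit 5) (nat_lit 136) (nat_lit 5) (nat_lit 137) (nat_lit 5) (nat_lit 469) (nat_lit 380) (nat_lit 291))))) (XT.nd (nat_lit 234) (nat_lit 760) (nat_lit 0) (XT.nd (nat_lit 78) (nat_lit 380) (nat_lit 0) (XT.lf (nat_lit 0) (nat_lit 4897164462) (nat_lit 456) (nat_lit 4018493779) (nat_lit 76) (nat_lit 3547298908) (nat_lit 131) (nat_lit 5) (nat_lit 137) (nat_lit 5) (nat_lit 132) (nat_lit 5) (nat_lit 470) (nat_lit 380) (nat_lit 290)) (XT.nd (nat_lit 78) (nat_lit 0) (nat_lit 0) (XT.lf (nat_lit 0) (nat_lit 2775277983) (nat_lit 380) (nat_lit 5079720850) (nat_lit 456) (nat_lit 4763303835) (nat_lit 126) (nat_lit 5) (nat_lit 131) (nat_lit 5) (nat_lit 132) (nat_lit 5) (nat_lit 471) (nat_lit 380) (nat_lit 289)) (XT.lf (nat_lit 0) (nat_lit 9725798477) (nat_lit 380) (nat_lit 1150227289) (nat_lit 456) (nat_lit 1900659897)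 (nat_lit 126) (nat_lit 5) (nat_lit 131) (nat_lit 5) (nat_lit 132) (nat_lit 5) (nat_lit 472) (nat_lit 380) (nat_lit 288)))) (XT.nd (nat_lit 156) (nat_lit 380) (nat_lit 0) (XT.nd (nat_lit 78) (nat_lit 0) (nat_lit 0) (XT.lf (nat_lit 0) (nat_lit 1027171040) (nat_lit 380) (nat_lit 9068541128) (nat_lit 76) (nat_lit 2841976612) (nat_lit 121) (nat_lit 5) (nat_lit 126) (nat_lit 5) (nat_lit 122) (nat_lit 5) (nat_lit 473) (nat_lit 380) (nat_lit 287)) (XT.lf (nat_lit 0) (nat_lit 3993878577) (nat_lit 380) (nat_lit 2186326373) (nat_lit 76) (nat_lit 6921350977) (nat_lit 121) (nat_lit 5) (nat_lit 126) (nat_lit 5) (nat_lit 122) (nat_lit 5) (nat_lit 474) (nat_lit 380) (nat_lit 286))) (XT.nd (nat_lit 78) (nat_lit 0) (nat_lit 0) (XT.lf (nat_lit 0) (nat_lit 4864565157) (nat_lit 380) (nat_lit 2164899861) (nat_lit 456) (nat_lit 6239054928) (nat_lit 116) (nat_lit 5) (nat_lit 121) (nat_lit 5) (nat_lit 122) (nat_lit 5) (nat_lit 475) (nat_lit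 380) (nat_lit 285)) (XT.lf (nat_lit 0) (nat_lit 10131179089) (nat_lit 456) (nat_lit 1397980183) (nat_lit 76) (nat_lit 1909565875) (nat_lit 116) (nat_lit 5) (nat_lit 122) (nat_lit 5) (nat_lit 117) (nat_lit 5) (nat_lit 476) (nat_lit 380) (nat_lit 284)))))) (XT.nd (nat_lit 546) (nat_lit 1216) (nat_lit 0) (XT.nd (nat_lit 234) (nat_lit 684) (nat_lit 0) (XT.nd (nat_lit 78) (nat_lit 456) (nat_lit 0) (XT.lf (nat_lit 0) (nat_lit 5777263847) (nat_lit 304) (nat_lit 7548051564) (nat_lit 380) (nat_lit 286421300) (nat_lit 112) (nat_lit 5) (nat_lit 116) (nat_lit 5) (nat_lit 117) (nat_lit 5) (nat_lit 477) (nat_lit 380) (nat_lit 283)) (XT.nd (nat_lit 78) (nat_lit 380) (nat_lit 0) (XT.lf (nat_lit 0) (nat_lit 2746513883) (nat_lit 380) (nat_lit 723632505) (nat_lit 76) (nat_lit 10317947861) (nat_lit 111) (nat_lit 5) (nat_lit 116) (nat_lit 5) (nat_lit 112) (nat_lit 5) (nat_lit 478) (nat_lit 380) (nat_lit 282)) (XT.lf (nat_lit 0) (nat_lit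 5862735702) (nat_lit 456) (nat_lit 7390092813) (nat_lit 76) (nat_lit 714592738) (nat_lit 106) (nat_lit 5) (nat_lit 112) (nat_lit 5) (nat_lit 107) (nat_lit 5) (nat_lit 479) (nat_lit 380) (nat_lit 281)))) (XT.nd (nat_lit 156) (nat_lit 380) (nat_lit 0) (XT.nd (nat_lit 78) (nat_lit 304) (nat_lit 0) (XT.lf (nat_lit 0) (nat_lit 9048310781) (nat_lit 456) (nat_lit 171009259) (nat_lit 76) (nat_lit 4930883435) (nat_lit 106) (nat_lit 5) (nat_lit 112) (nat_lit 5) (nat_lit 107) (nat_lit 5) (nat_lit 480) (nat_lit 380) (nat_lit 280)) (XT.lf (nat_lit 0) (nat_lit 7256373676) (nat_lit 304) (nat_lit 5067905120) (nat_lit 380) (nat_lit 2011837992) (nat_lit 102) (nat_lit 5) (nat_lit 106) (nat_lit 5) (nat_lit 107) (nat_lit 5) (nat_lit 481) (nat_lit 380) (nat_lit 279))) (XT.nd (nat_lit 78) (nat_lit 0) (nat_lit 0) (XT.lf (nat_lit 0) (nat_lit 273753059) (nat_lit 304) (nat_lit 833870283) (nat_lit 380) (nat_lit 13418334571) (nat_lit 97)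 (nat_lit 5) (nat_lit 101) (nat_lit 5) (nat_lit 102) (nat_lit 5) (nat_lit 482) (nat_lit 380) (nat_lit 278)) (XT.lf (nat_lit 0) (nat_lit 4312760901) (nat_lit 380) (nat_lit 6916082564) (nat_lit 76) (nat_lit 3489490471) (nat_lit 97) (nat_lit 5) (nat_lit 102) (nat_lit 5) (nat_lit 98) (nat_lit 5) (nat_lit 483) (nat_lit 380) (nat_lit 277))))) (XT.nd (nat_lit 234) (nat_lit 608) (nat_lit 0) (XT.nd (nat_lit 78) (nat_lit 304) (nat_lit 0) (XT.lf (nat_lit 0) (nat_lit 537445577) (nat_lit 304) (nat_lit 7033715416) (nat_lit 380) (nat_lit 7343621674) (nat_lit 93) (nat_lit 5) (nat_lit 97) (nat_lit 5) (nat_lit 98) (nat_lit 5) (nat_lit 484) (nat_lit 380) (nat_lit 276)) (XT.nd (nat_lit 78) (nat_lit 304) (nat_lit 0) (XT.lf (nat_lit 0) (nat_lit 8203153543) (nat_lit 304) (nat_lit 2718324425) (nat_lit 380) (nat_lit 4193155644) (nat_lit 93) (nat_lit 5) (nat_lit 97) (nat_lit 5) (nat_lit 98) (nat_lit 5) (nat_lit 485) (nat_lit 380) (nat_lit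 275)) (XT.lf (nat_lit 0) (nat_lit 671204503) (nat_lit 304) (nat_lit 13663538239) (nat_lit 380) (nat_lit 983828065) (nat_lit 89) (nat_lit 5) (nat_lit 93) (nat_lit 5) (nat_lit 94) (nat_lit 5) (nat_lit 486) (nat_lit 380) (nat_lit 274)))) (XT.nd (nat_lit 156) (nat_lit 304) (nat_lit 0) (XT.nd (nat_lit 78) (nat_lit 228) (nat_lit 0) (XT.lf (nat_lit 0) (nat_lit 2305048152) (nat_lit 380) (nat_lit 7090032322) (nat_lit 76) (nat_lit 6130308860) (nat_lit 88) (nat_lit 5) (nat_lit 93) (nat_lit 5) (nat_lit 89) (nat_lit 5) (nat_lit 487) (nat_lit 380) (nat_lit 273)) (XT.lf (nat_lit 0) (nat_lit 589837960) (nat_lit 228) (nat_lit 5041613550) (nat_lit 304) (nat_lit 10105071788) (nat_lit 85) (nat_lit 5) (nat_lit 88) (nat_lit 5) (nat_lit 89) (nat_lit 5) (nat_lit 488) (nat_lit 380) (nat_lit 272))) (XT.nd (nat_lit 78) (nat_lit 304) (nat_lit 0) (XT.lf (nat_lit 0) (nat_lit 8489778365) (nat_lit 228) (nat_lit 563442112) (nat_lit 304) (nat_lit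 6898090160) (nat_lit 85) (nat_lit 5) (nat_lit 88) (nat_lit 5) (nat_lit 89) (nat_lit 5) (nat_lit 489) (nat_lit 380) (nat_lit 271)) (XT.lf (nat_lit 0) (nat_lit 326245216) (nat_lit 304) (nat_lit 12226854134) (nat_lit 380) (nat_lit 3617108178) (nat_lit 81) (nat_lit 5) (nat_lit 85) (nat_lit 5) (nat_lit 86) (nat_lit 5) (nat_lit 490) (nat_lit 380) (nat_lit 270))))))) (XT.nd (nat_lit 1092) (nat_lit 1444) (nat_lit 0) (XT.nd (nat_lit 546) (nat_lit 760) (nat_lit 0) (XT.nd (nat_lit 234) (nat_lit 608) (nat_lit 0) (XT.nd (nat_lit 78) (nat_lit 304) (nat_lit 0) (XT.lf (nat_lit 0) (nat_lit 8337974568) (nat_lit 304) (nat_lit 7820508950) (nat_lit 380) (nat_lit 234295841) (nat_lit 81) (nat_lit 5) (nat_lit 85) (nat_lit 5) (nat_lit 86) (nat_lit 5) (nat_lit 491) (nat_lit 380) (nat_lit 269)) (XT.nd (nat_lit 78) (nat_lit 228) (nat_lit 0) (XT.lf (nat_lit 0) (nat_lit 3155954801) (nat_lit 380) (nat_lit 159586081) (nat_lit 76) (nat_lit 13304211737)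 (nat_lit 80) (nat_lit 5) (nat_lit 85) (nat_lit 5) (nat_lit 81) (nat_lit 5) (nat_lit 492) (nat_lit 380) (nat_lit 268)) (XT.lf (nat_lit 0) (nat_lit 6653519179) (nat_lit 304) (nat_lit 8890936674) (nat_lit 76) (nat_lit 1305932340) (nat_lit 77) (nat_lit 5) (nat_lit 81) (nat_lit 5) (nat_lit 78) (nat_lit 5) (nat_lit 493) (nat_lit 380) (nat_lit 267)))) (XT.nd (nat_lit 156) (nat_lit 304) (nat_lit 0) (XT.nd (nat_lit 78) (nat_lit 304) (nat_lit 0) (XT.lf (nat_lit 0) (nat_lit 10226482222) (nat_lit 304) (nat_lit 892923558) (nat_lit 76) (nat_lit 5966128361) (nat_lit 77) (nat_lit 5) (nat_lit 81) (nat_lit 5) (nat_lit 78) (nat_lit 5) (nat_lit 494) (nat_lit 380) (nat_lit 266)) (XT.lf (nat_lit 0) (nat_lit 7333407916) (nat_lit 304) (nat_lit 6567866972) (nat_lit 380) (nat_lit 3423507194) (nat_lit 73) (nat_lit 5) (nat_lit 77) (nat_lit 5) (nat_lit 78) (nat_lit 5) (nat_lit 495) (nat_lit 380) (nat_lit 265))) (XT.nd (nat_lit 78) (nat_lit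 228) (nat_lit 0) (XT.lf (nat_lit 0) (nat_lit 68517320) (nat_lit 380) (nat_lit 1860761956) (nat_lit 76) (nat_lit 15639754890) (nat_lit 72) (nat_lit 5) (nat_lit 77) (nat_lit 5) (nat_lit 73) (nat_lit 5) (nat_lit 496) (nat_lit 380) (nat_lit 264)) (XT.lf (nat_lit 0) (nat_lit 3628261174) (nat_lit 304) (nat_lit 11368491080) (nat_lit 76) (nat_lit 2820098167) (nat_lit 69) (nat_lit 5) (nat_lit 73) (nat_lit 5) (nat_lit 70) (nat_lit 5) (nat_lit 497) (nat_lit 380) (nat_lit 263))))) (XT.nd (nat_lit 234) (nat_lit 532) (nat_lit 0) (XT.nd (nat_lit 78) (nat_lit 228) (nat_lit 0) (XT.lf (nat_lit 0) (nat_lit 7267766273) (nat_lit 304) (nat_lit 3160765331) (nat_lit 76) (nat_lit 7640926054) (nat_lit 69) (nat_lit 5) (nat_lit 73) (nat_lit 5) (nat_lit 70) (nat_lit 5) (nat_lit 498) (nat_lit 380) (nat_lit 262)) (XT.nd (nat_lit 78) (nat_lit 0) (nat_lit 0) (XT.lf (nat_lit 0) (nat_lit 5253129424) (nat_lit 228) (nat_lit 5744588164) (nat_lit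 304) (nat_lit 7329052200) (nat_lit 66) (nat_lit 5) (nat_lit 69) (nat_lit 5) (nat_lit 70) (nat_lit 5) (nat_lit 499) (nat_lit 380) (nat_lit 261)) (XT.lf (nat_lit 0) (nat_lit 13851442684) (nat_lit 228) (nat_lit 955734137) (nat_lit 304) (nat_lit 3781958916) (nat_lit 66) (nat_lit 5) (nat_lit 69) (nat_lit 5) (nat_lit 70) (nat_lit 5) (nat_lit 500) (nat_lit 380) (nat_lit 260)))) (XT.nd (nat_lit 156) (nat_lit 228) (nat_lit 0) (XT.nd (nat_lit 78) (nat_lit 76) (nat_lit 0) (XT.lf (nat_lit 0) (nat_lit 3762368495) (nat_lit 228) (nat_lit 14964345453) (nat_lit 304) (nat_lit 129362925) (nat_lit 63) (nat_lit 5) (nat_lit 66) (nat_lit 5) (nat_lit 67) (nat_lit 5) (nat_lit 501) (nat_lit 380) (nat_lit 259)) (XT.lf (nat_lit 0) (nat_lit 3571436649) (nat_lit 304) (nat_lit 6687442554) (nat_lit 76) (nat_lit 8868569710) (nat_lit 62) (nat_lit 5) (nat_lit 66) (nat_lit 5) (nat_lit 63) (nat_lit 5) (nat_lit 502) (nat_lit 380) (nat_lit 258)))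 (XT.nd (nat_lit 78) (nat_lit 0) (nat_lit 0) (XT.lf (nat_lit 0) (nat_lit 1884847138) (nat_lit 228) (nat_lit 5456211481) (nat_lit 304) (nat_lit 12063247219) (nat_lit 59) (nat_lit 5) (nat_lit 62) (nat_lit 5) (nat_lit 63) (nat_lit 5) (nat_lit 503) (nat_lit 380) (nat_lit 257)) (XT.lf (nat_lit 0) (nat_lit 10693438642) (nat_lit 228) (nat_lit 521950308) (nat_lit 304) (nat_lit 8470729844) (nat_lit 59) (nat_lit 5) (nat_lit 62) (nat_lit 5) (nat_lit 63) (nat_lit 5) (nat_lit 504) (nat_lit 380) (nat_lit 256)))))) (XT.nd (nat_lit 546) (nat_lit 760) (nat_lit 0) (XT.nd (nat_lit 234) (nat_lit 380) (nat_lit 0) (XT.nd (nat_lit 78) (nat_lit 304) (nat_lit 0) (XT.lf (nat_lit 0) (nat_lit 15181173892) (nat_lit 304) (nat_lit 350187747) (nat_lit 76) (nat_lit 4441932119) (nat_lit 59) (nat_lit 5) (nat_lit 63) (nat_lit 5) (nat_lit 60) (nat_lit 5) (nat_lit 505) (nat_lit 380) (nat_lit 255)) (XT.nd (nat_lit 78) (nat_lit 76) (nat_lit 0) (XT.lf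 (nat_lit 0) (nat_lit 8548784039) (nat_lit 228) (nat_lit 10721431519) (nat_lit 304) (nat_lit 995122853) (nat_lit 56) (nat_lit 5) (nat_lit 59) (nat_lit 5) (nat_lit 60) (nat_lit 5) (nat_lit 506) (nat_lit 380) (nat_lit 254)) (XT.lf (nat_lit 0) (nat_lit 2827446196) (nat_lit 304) (nat_lit 2976467073) (nat_lit 76) (nat_lit 14759194308) (nat_lit 55) (nat_lit 5) (nat_lit 59) (nat_lit 5) (nat_lit 56) (nat_lit 5) (nat_lit 507) (nat_lit 380) (nat_lit 253)))) (XT.nd (nat_lit 156) (nat_lit 152) (nat_lit 0) (XT.nd (nat_lit 78) (nat_lit 0) (nat_lit 0) (XT.lf (nat_lit 0) (nat_lit 5985755602) (nat_lit 228) (nat_lit 751565848) (nat_lit 304) (nat_lit 14128900250) (nat_lit 52) (nat_lit 5) (nat_lit 55) (nat_lit 5) (nat_lit 56) (nat_lit 5) (nat_lit 508) (nat_lit 380) (nat_lit 252)) (XT.lf (nat_lit 0) (nat_lit 10759448964) (nat_lit 304) (nat_lit 6060791674) (nat_lit 76) (nat_lit 4354481002) (nat_lit 52) (nat_lit 5) (nat_lit 56) (nat_lit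 5) (nat_lit 53) (nat_lit 5) (nat_lit 509) (nat_lit 380) (nat_lit 251))) (XT.nd (nat_lit 78) (nat_lit 0) (nat_lit 0) (XT.lf (nat_lit 0) (nat_lit 2944752589) (nat_lit 152) (nat_lit 11927019086) (nat_lit 228) (nat_lit 6617429388) (nat_lit 50) (nat_lit 5) (nat_lit 52) (nat_lit 5) (nat_lit 53) (nat_lit 5) (nat_lit 510) (nat_lit 380) (nat_lit 250)) (XT.lf (nat_lit 0) (nat_lit 12188555007) (nat_lit 152) (nat_lit 6904238414) (nat_lit 228) (nat_lit 2716652050) (nat_lit 50) (nat_lit 5) (nat_lit 52) (nat_lit 5) (nat_lit 53) (nat_lit 5) (nat_lit 511) (nat_lit 380) (nat_lit 249))))) (XT.nd (nat_lit 312) (nat_lit 304) (nat_lit 0) (XT.nd (nat_lit 156) (nat_lit 152) (nat_lit 0) (XT.nd (nat_lit 78) (nat_lit 228) (nat_lit 0) (XT.lf (nat_lit 0) (nat_lit 1231551283) (nat_lit 228) (nat_lit 550784366) (nat_lit 76) (nat_lit 20353880228) (nat_lit 49) (nat_lit 5) (nat_lit 52) (nat_lit 5) (nat_lit 50) (nat_lit 5) (nat_lit 512) (nat_lit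 380) (nat_lit 248)) (XT.lf (nat_lit 0) (nat_lit 5288368305) (nat_lit 304) (nat_lit 13716534978) (nat_lit 76) (nat_lit 3462942947) (nat_lit 46) (nat_lit 5) (nat_lit 50) (nat_lit 5) (nat_lit 47) (nat_lit 5) (nat_lit 513) (nat_lit 380) (nat_lit 247))) (XT.nd (nat_lit 78) (nat_lit 152) (nat_lit 0) (XT.lf (nat_lit 0) (nat_lit 9428142922) (nat_lit 304) (nat_lit 4594274048) (nat_lit 76) (nat_lit 8783659903) (nat_lit 46) (nat_lit 5) (nat_lit 50) (nat_lit 5) (nat_lit 47) (nat_lit 5) (nat_lit 514) (nat_lit 380) (nat_lit 246)) (XT.lf (nat_lit 0) (nat_lit 4749859156) (nat_lit 152) (nat_lit 8918258973) (nat_lit 228) (nat_lit 9482609929) (nat_lit 44) (nat_lit 5) (nat_lit 46) (nat_lit 5) (nat_lit 47) (nat_lit 5) (nat_lit 515) (nat_lit 380) (nat_lit 245)))) (XT.nd (nat_lit 156) (nat_lit 76) (nat_lit 0) (XT.nd (nat_lit 78) (nat_lit 228) (nat_lit 0) (XT.lf (nat_lit 0) (nat_lit 14320433866) (nat_lit 152) (nat_lit 3689970747) (nat_lit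 228) (nat_lit 5491521368) (nat_lit 44) (nat_lit 5) (nat_lit 46) (nat_lit 5) (nat_lit 47) (nat_lit 5) (nat_lit 516) (nat_lit 380) (nat_lit 244)) (XT.lf (nat_lit 0) (nat_lit 191641442) (nat_lit 228) (nat_lit 22246689421) (nat_lit 304) (nat_lit 1421844989) (nat_lit 41) (nat_lit 5) (nat_lit 44) (nat_lit 5) (nat_lit 45) (nat_lit 5) (nat_lit 517) (nat_lit 380) (nat_lit 243))) (XT.nd (nat_lit 78) (nat_lit 0) (nat_lit 0) (XT.lf (nat_lit 0) (nat_lit 2766793639) (nat_lit 304) (nat_lit 14412735472) (nat_lit 76) (nat_lit 7044243676) (nat_lit 40) (nat_lit 5) (nat_lit 44) (nat_lit 5) (nat_lit 41) (nat_lit 5) (nat_lit 518) (nat_lit 380) (nat_lit 242)) (XT.lf (nat_lit 0) (nat_lit 7007346521) (nat_lit 304) (nat_lit 5003302779) (nat_lit 76) (nat_lit 12584064441) (nat_lit 40) (nat_lit 5) (nat_lit 44) (nat_lit 5) (nat_lit 41) (nat_lit 5) (nat_lit 519) (nat_lit 380) (nat_lit 241))))))))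
noncomputable def xc104 : XT := (XT.nd (nat_lit 49998) (nat_lit 0) (nat_lit 23028) (XT.nd (nat_lit 48906) (nat_lit 0) (nat_lit 42484) (XT.nd (nat_lit 546) (nat_lit 152) (nat_lit 0) (XT.nd (nat_lit 234) (nat_lit 380) (nat_lit 0) (XT.nd (nat_lit 78) (nat_lit 0) (nat_lit 0) (XT.lf (nat_lit 0) (nat_lit 4633453782) (nat_lit 152) (nat_lit 6716754043) (nat_lit 228) (nat_lit 13622519320) (nat_lit 38) (nat_lit 5) (nat_lit 40) (nat_lit 5) (nat_lit 41) (nat_lit 5) (nat_lit 520) (nat_lit 380) (nat_lit 240)) (XT.nd (nat_lit 78) (nat_lit 0) (nat_lit 0) (XT.lf (nat_lit 0) (nat_lit 14509275519) (nat_lit 152) (nat_lit 1291746792) (nat_lit 228) (nat_lit 9556860093) (nat_lit 38) (nat_lit 5) (nat_lit 40) (nat_lit 5) (nat_lit 41) (nat_lit 5) (nat_lit 521) (nat_lit 380) (nat_lit 239)) (XT.lf (nat_lit 0) (nat_lit 20356101890) (nat_lit 228) (nat_lit 1216927805) (nat_lit 76) (nat_lit 4177409537) (nat_lit 38) (nat_lit 5) (nat_lit 41)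 (nat_lit 5) (nat_lit 39) (nat_lit 5) (nat_lit 522) (nat_lit 380) (nat_lit 238)))) (XT.nd (nat_lit 156) (nat_lit 152) (nat_lit 0) (XT.nd (nat_lit 78) (nat_lit 76) (nat_lit 0) (XT.lf (nat_lit 0) (nat_lit 8691983636) (nat_lit 152) (nat_lit 16363237650) (nat_lit 228) (nat_lit 1094570518) (nat_lit 36) (nat_lit 5) (nat_lit 38) (nat_lit 5) (nat_lit 39) (nat_lit 5) (nat_lit 523) (nat_lit 380) (nat_lit 237)) (XT.lf (nat_lit 0) (nat_lit 3244216322) (nat_lit 228) (nat_lit 7783691230) (nat_lit 76) (nat_lit 15528875959) (nat_lit 35) (nat_lit 5) (nat_lit 38) (nat_lit 5) (nat_lit 36) (nat_lit 5) (nat_lit 524) (nat_lit 380) (nat_lit 236))) (XT.nd (nat_lit 78) (nat_lit 0) (nat_lit 0) (XT.lf (nat_lit 0) (nat_lit 2083524711) (nat_lit 152) (nat_lit 5573344057) (nat_lit 228) (nat_lit 19314869835) (nat_lit 33) (nat_lit 5) (nat_lit 35) (nat_lit 5) (nat_lit 36) (nat_lit 5) (nat_lit 525) (nat_lit 380) (nat_lit 235)) (XT.lf (nat_lit 0)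 (nat_lit 12198538055) (nat_lit 228) (nat_lit 15161142909) (nat_lit 76) (nat_lit 34499671) (nat_lit 33) (nat_lit 5) (nat_lit 36) (nat_lit 5) (nat_lit 34) (nat_lit 5) (nat_lit 526) (nat_lit 380) (nat_lit 234))))) (XT.nd (nat_lit 48048) (nat_lit 0) (nat_lit 46056) (XT.nd (nat_lit 78) (nat_lit 152) (nat_lit 0) (XT.lf (nat_lit 0) (nat_lit 16856428843) (nat_lit 228) (nat_lit 5296544696) (nat_lit 76) (nat_lit 5671593261) (nat_lit 33) (nat_lit 5) (nat_lit 36) (nat_lit 5) (nat_lit 34) (nat_lit 5) (nat_lit 527) (nat_lit 380) (nat_lit 233)) (XT.nd (nat_lit 47892) (nat_lit 0) (nat_lit 46512) (XT.lf (nat_lit 0) (nat_lit 4808702056) (nat_lit 152) (nat_lit 16818701137) (nat_lit 228) (nat_lit 6635761974) (nat_lit 31) (nat_lit 5) (nat_lit 33) (nat_lit 5) (nat_lit 34) (nat_lit 5) (nat_lit 528) (nat_lit 380) (nat_lit 232)) (XT.lf (nat_lit 0) (nat_lit 1478354254) (nat_lit 0) (nat_lit 1478354254) (nat_lit 76) (nat_lit 265385434)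 (nat_lit 643) (nat_lit 5) (nat_lit 643) (nat_lit 3) (nat_lit 644) (nat_lit 0) (nat_lit 381) (nat_lit 381) (nat_lit 378)))) (XT.nd (nat_lit 156) (nat_lit 228) (nat_lit 0) (XT.nd (nat_lit 78) (nat_lit 0) (nat_lit 0) (XT.lf (nat_lit 0) (nat_lit 2354585485) (nat_lit 228) (nat_lit 487739799) (nat_lit 228) (nat_lit 3604507371) (nat_lit 640) (nat_lit 3) (nat_lit 643) (nat_lit 3) (nat_lit 643) (nat_lit 5) (nat_lit 382) (nat_lit 381) (nat_lit 377)) (XT.lf (nat_lit 76) (nat_lit 2563469128) (nat_lit 0) (nat_lit 2668084463) (nat_lit 228) (nat_lit 1219196339) (nat_lit 641) (nat_lit 5) (nat_lit 640) (nat_lit 3) (nat_lit 643) (nat_lit 5) (nat_lit 383) (nat_lit 381) (nat_lit 376))) (XT.nd (nat_lit 78) (nat_lit 0) (nat_lit 0) (XT.lf (nat_lit 0) (nat_lit 1617161984) (nat_lit 228) (nat_lit 822978202) (nat_lit 304) (nat_lit 4015923071) (nat_lit 637) (nat_lit 5) (nat_lit 640) (nat_lit 3) (nat_lit 641) (nat_lit 5) (nat_lit 384) (nat_lit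 381) (nat_lit 375)) (XT.lf (nat_lit 76) (nat_lit 2285810096) (nat_lit 0) (nat_lit 2149435281) (nat_lit 304) (nat_lit 2027353502) (nat_lit 638) (nat_lit 5) (nat_lit 637) (nat_lit 5) (nat_lit 641) (nat_lit 5) (nat_lit 385) (nat_lit 381) (nat_lit 374)))))) (XT.nd (nat_lit 546) (nat_lit 2508) (nat_lit 0) (XT.nd (nat_lit 234) (nat_lit 760) (nat_lit 0) (XT.nd (nat_lit 78) (nat_lit 0) (nat_lit 0) (XT.lf (nat_lit 0) (nat_lit 762041575) (nat_lit 304) (nat_lit 1046237181) (nat_lit 380) (nat_lit 4662324194) (nat_lit 633) (nat_lit 5) (nat_lit 637) (nat_lit 5) (nat_lit 638) (nat_lit 5) (nat_lit 386) (nat_lit 381) (nat_lit 373)) (XT.nd (nat_lit 78) (nat_lit 0) (nat_lit 0) (XT.lf (nat_lit 76) (nat_lit 2122593255) (nat_lit 0) (nat_lit 1399801000) (nat_lit 380) (nat_lit 2957356200) (nat_lit 634) (nat_lit 5) (nat_lit 633) (nat_lit 5) (nat_lit 638) (nat_lit 5) (nat_lit 387) (nat_lit 381) (nat_lit 372)) (XT.lf (nat_lit 76) (nat_lit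 5330493007) (nat_lit 0) (nat_lit 944142968) (nat_lit 380) (nat_lit 215807066) (nat_lit 634) (nat_lit 5) (nat_lit 633) (nat_lit 5) (nat_lit 638) (nat_lit 5) (nat_lit 388) (nat_lit 381) (nat_lit 371)))) (XT.nd (nat_lit 156) (nat_lit 380) (nat_lit 0) (XT.nd (nat_lit 78) (nat_lit 0) (nat_lit 76) (XT.lf (nat_lit 76) (nat_lit 2072882295) (nat_lit 0) (nat_lit 417795628) (nat_lit 456) (nat_lit 4011549521) (nat_lit 629) (nat_lit 5) (nat_lit 628) (nat_lit 5) (nat_lit 634) (nat_lit 5) (nat_lit 389) (nat_lit 381) (nat_lit 370)) (XT.lf (nat_lit 0) (nat_lit 5188812366) (nat_lit 380) (nat_lit 1170398806) (nat_lit 76) (nat_lit 156289893) (nat_lit 629) (nat_lit 5) (nat_lit 634) (nat_lit 5) (nat_lit 630) (nat_lit 5) (nat_lit 390) (nat_lit 381) (nat_lit 369))) (XT.nd (nat_lit 78) (nat_lit 0) (nat_lit 0) (XT.lf (nat_lit 0) (nat_lit 1342727004) (nat_lit 456) (nat_lit 4399305402) (nat_lit 76) (nat_lit 787923670) (nat_lit 623) (nat_lit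 5) (nat_lit 629) (nat_lit 5) (nat_lit 624) (nat_lit 5) (nat_lit 391) (nat_lit 381) (nat_lit 368)) (XT.lf (nat_lit 0) (nat_lit 3989360489) (nat_lit 456) (nat_lit 1079863058) (nat_lit 76) (nat_lit 1476554417) (nat_lit 623) (nat_lit 5) (nat_lit 629) (nat_lit 5) (nat_lit 624) (nat_lit 5) (nat_lit 392) (nat_lit 381) (nat_lit 367))))) (XT.nd (nat_lit 234) (nat_lit 1444) (nat_lit 0) (XT.nd (nat_lit 78) (nat_lit 532) (nat_lit 0) (XT.lf (nat_lit 0) (nat_lit 74814601) (nat_lit 532) (nat_lit 4266685473) (nat_lit 76) (nat_lit 2221492063) (nat_lit 616) (nat_lit 5) (nat_lit 623) (nat_lit 5) (nat_lit 617) (nat_lit 5) (nat_lit 393) (nat_lit 381) (nat_lit 366)) (XT.nd (nat_lit 78) (nat_lit 532) (nat_lit 0) (XT.lf (nat_lit 0) (nat_lit 2667256247) (nat_lit 532) (nat_lit 882707460) (nat_lit 76) (nat_lit 3031472757) (nat_lit 616) (nat_lit 5) (nat_lit 623) (nat_lit 5) (nat_lit 617) (nat_lit 5) (nat_lit 394) (nat_lit 381) (nat_lit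 365)) (XT.lf (nat_lit 0) (nat_lit 2563391512) (nat_lit 532) (nat_lit 2701552297) (nat_lit 608) (nat_lit 1336316495) (nat_lit 609) (nat_lit 5) (nat_lit 616) (nat_lit 5) (nat_lit 617) (nat_lit 5) (nat_lit 395) (nat_lit 381) (nat_lit 364)))) (XT.nd (nat_lit 156) (nat_lit 760) (nat_lit 0) (XT.nd (nat_lit 78) (nat_lit 608) (nat_lit 0) (XT.lf (nat_lit 0) (nat_lit 1219360807) (nat_lit 608) (nat_lit 579248857) (nat_lit 76) (nat_lit 4823914245) (nat_lit 608) (nat_lit 5) (nat_lit 616) (nat_lit 5) (nat_lit 609) (nat_lit 5) (nat_lit 396) (nat_lit 381) (nat_lit 363)) (XT.lf (nat_lit 0) (nat_lit 2939193135) (nat_lit 608) (nat_lit 826648440) (nat_lit 684) (nat_lit 2879116922) (nat_lit 600) (nat_lit 5) (nat_lit 608) (nat_lit 5) (nat_lit 609) (nat_lit 5) (nat_lit 397) (nat_lit 381) (nat_lit 362))) (XT.nd (nat_lit 78) (nat_lit 760) (nat_lit 0) (XT.lf (nat_lit 0) (nat_lit 6307813422) (nat_lit 684) (nat_lit 173220509) (nat_lit 76)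 (nat_lit 187989199) (nat_lit 600) (nat_lit 5) (nat_lit 609) (nat_lit 5) (nat_lit 601) (nat_lit 5) (nat_lit 398) (nat_lit 381) (nat_lit 361)) (XT.lf (nat_lit 0) (nat_lit 2146339347) (nat_lit 760) (nat_lit 3278332445) (nat_lit 76) (nat_lit 1269315841) (nat_lit 590) (nat_lit 5) (nat_lit 600) (nat_lit 5) (nat_lit 591) (nat_lit 5) (nat_lit 399) (nat_lit 381) (nat_lit 360))))))) (XT.nd (nat_lit 1092) (nat_lit 10868) (nat_lit 0) (XT.nd (nat_lit 546) (nat_lit 4940) (nat_lit 0) (XT.nd (nat_lit 234) (nat_lit 1976) (nat_lit 0) (XT.nd (nat_lit 78) (nat_lit 912) (nat_lit 0) (XT.lf (nat_lit 0) (nat_lit 321020156) (nat_lit 760) (nat_lit 4322657279) (nat_lit 836) (nat_lit 2076905144) (nat_lit 580) (nat_lit 5) (nat_lit 590) (nat_lit 5) (nat_lit 591) (nat_lit 5) (nat_lit 400) (nat_lit 381) (nat_lit 359)) (XT.nd (nat_lit 78) (nat_lit 836) (nat_lit 0) (XT.lf (nat_lit 0) (nat_lit 401245263) (nat_lit 836) (nat_lit 2754090846) (nat_lit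 76) (nat_lit 3593105382) (nat_lit 579) (nat_lit 5) (nat_lit 590) (nat_lit 5) (nat_lit 580) (nat_lit 5) (nat_lit 401) (nat_lit 381) (nat_lit 358)) (XT.lf (nat_lit 0) (nat_lit 922838731) (nat_lit 836) (nat_lit 1927132489) (nat_lit 912) (nat_lit 3927699800) (nat_lit 568) (nat_lit 5) (nat_lit 579) (nat_lit 5) (nat_lit 580) (nat_lit 5) (nat_lit 402) (nat_lit 381) (nat_lit 357)))) (XT.nd (nat_lit 156) (nat_lit 988) (nat_lit 0) (XT.nd (nat_lit 78) (nat_lit 988) (nat_lit 0) (XT.lf (nat_lit 0) (nat_lit 4671100882) (nat_lit 836) (nat_lit 638721607) (nat_lit 912) (nat_lit 1498482824) (nat_lit 568) (nat_lit 5) (nat_lit 579) (nat_lit 5) (nat_lit 580) (nat_lit 5) (nat_lit 403) (nat_lit 381) (nat_lit 356)) (XT.lf (nat_lit 0) (nat_lit 926008347) (nat_lit 988) (nat_lit 5214754504) (nat_lit 76) (nat_lit 699532330) (nat_lit 555) (nat_lit 5) (nat_lit 568) (nat_lit 5) (nat_lit 556) (nat_lit 5) (nat_lit 404) (nat_lit 381) (nat_lit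 355))) (XT.nd (nat_lit 78) (nat_lit 988) (nat_lit 0) (XT.lf (nat_lit 0) (nat_lit 3342893922) (nat_lit 988) (nat_lit 1434935438) (nat_lit 76) (nat_lit 2095677546) (nat_lit 555) (nat_lit 5) (nat_lit 568) (nat_lit 5) (nat_lit 556) (nat_lit 5) (nat_lit 405) (nat_lit 381) (nat_lit 354)) (XT.lf (nat_lit 0) (nat_lit 2412353921) (nat_lit 988) (nat_lit 3357782574) (nat_lit 1064) (nat_lit 1138064360) (nat_lit 542) (nat_lit 5) (nat_lit 555) (nat_lit 5) (nat_lit 556) (nat_lit 5) (nat_lit 406) (nat_lit 381) (nat_lit 353))))) (XT.nd (nat_lit 234) (nat_lit 2660) (nat_lit 0) (XT.nd (nat_lit 78) (nat_lit 2204) (nat_lit 0) (XT.lf (nat_lit 0) (nat_lit 1241693384) (nat_lit 1064) (nat_lit 636142266) (nat_lit 76) (nat_lit 5066511259) (nat_lit 541) (nat_lit 5) (nat_lit 555) (nat_lit 5) (nat_lit 542) (nat_lit 5) (nat_lit 407) (nat_lit 381) (nat_lit 352)) (XT.nd (nat_lit 78) (nat_lit 1140) (nat_lit 0) (XT.lf (nat_lit 0) (nat_lit 3296982948)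 (nat_lit 1064) (nat_lit 326034873) (nat_lit 1140) (nat_lit 3358718417) (nat_lit 527) (nat_lit 5) (nat_lit 541) (nat_lit 5) (nat_lit 542) (nat_lit 5) (nat_lit 408) (nat_lit 381) (nat_lit 351)) (XT.lf (nat_lit 0) (nat_lit 252347466) (nat_lit 1140) (nat_lit 5762355040) (nat_lit 1216) (nat_lit 1005970101) (nat_lit 512) (nat_lit 5) (nat_lit 527) (nat_lit 5) (nat_lit 528) (nat_lit 5) (nat_lit 409) (nat_lit 381) (nat_lit 350)))) (XT.nd (nat_lit 156) (nat_lit 1368) (nat_lit 0) (XT.nd (nat_lit 78) (nat_lit 1216) (nat_lit 0) (XT.lf (nat_lit 0) (nat_lit 1351599874) (nat_lit 1216) (nat_lit 2793971343) (nat_lit 76) (nat_lit 2915166387) (nat_lit 511) (nat_lit 5) (nat_lit 527) (nat_lit 5) (nat_lit 512) (nat_lit 5) (nat_lit 410) (nat_lit 381) (nat_lit 349)) (XT.lf (nat_lit 0) (nat_lit 1229287054) (nat_lit 1216) (nat_lit 2471555751) (nat_lit 1292) (nat_lit 3401519097) (nat_lit 495) (nat_lit 5) (nat_lit 511) (nat_lit 5) (nat_lit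 512) (nat_lit 5) (nat_lit 411) (nat_lit 381) (nat_lit 348))) (XT.nd (nat_lit 78) (nat_lit 1368) (nat_lit 0) (XT.lf (nat_lit 0) (nat_lit 5331104334) (nat_lit 1216) (nat_lit 735435004) (nat_lit 1292) (nat_lit 1078939797) (nat_lit 495) (nat_lit 5) (nat_lit 511) (nat_lit 5) (nat_lit 512) (nat_lit 5) (nat_lit 412) (nat_lit 381) (nat_lit 347)) (XT.lf (nat_lit 0) (nat_lit 1246407844) (nat_lit 1368) (nat_lit 4889253885) (nat_lit 76) (nat_lit 1054212619) (nat_lit 477) (nat_lit 5) (nat_lit 495) (nat_lit 5) (nat_lit 478) (nat_lit 5) (nat_lit 413) (nat_lit 381) (nat_lit 346)))))) (XT.nd (nat_lit 546) (nat_lit 4788) (nat_lit 0) (XT.nd (nat_lit 234) (nat_lit 3192) (nat_lit 0) (XT.nd (nat_lit 78) (nat_lit 2888) (nat_lit 0) (XT.lf (nat_lit 0) (nat_lit 3573027294) (nat_lit 1368) (nat_lit 764995511) (nat_lit 76) (nat_lit 2897654736) (nat_lit 477) (nat_lit 5) (nat_lit 495) (nat_lit 5) (nat_lit 478) (nat_lit 5) (nat_lit 414) (nat_lit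 381) (nat_lit 345)) (XT.nd (nat_lit 78) (nat_lit 1520) (nat_lit 0) (XT.lf (nat_lit 0) (nat_lit 3447258305) (nat_lit 1368) (nat_lit 2474314362) (nat_lit 1444) (nat_lit 1361362288) (nat_lit 459) (nat_lit 5) (nat_lit 477) (nat_lit 5) (nat_lit 478) (nat_lit 5) (nat_lit 415) (nat_lit 381) (nat_lit 344)) (XT.lf (nat_lit 0) (nat_lit 381556333) (nat_lit 1444) (nat_lit 552434609) (nat_lit 1520) (nat_lit 6397843381) (nat_lit 439) (nat_lit 5) (nat_lit 458) (nat_lit 5) (nat_lit 459) (nat_lit 5) (nat_lit 416) (nat_lit 381) (nat_lit 343)))) (XT.nd (nat_lit 156) (nat_lit 1672) (nat_lit 0) (XT.nd (nat_lit 78) (nat_lit 1520) (nat_lit 0) (XT.lf (nat_lit 0) (nat_lit 3246112644) (nat_lit 1520) (nat_lit 2705240775) (nat_lit 76) (nat_lit 1430439860) (nat_lit 439) (nat_lit 5) (nat_lit 459) (nat_lit 5) (nat_lit 440) (nat_lit 5) (nat_lit 417) (nat_lit 381) (nat_lit 342)) (XT.lf (nat_lit 0) (nat_lit 1602005683) (nat_lit 1520) (nat_lit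 3971454638) (nat_lit 1596) (nat_lit 1859953945) (nat_lit 419) (nat_lit 5) (nat_lit 439) (nat_lit 5) (nat_lit 440) (nat_lit 5) (nat_lit 418) (nat_lit 381) (nat_lit 341))) (XT.nd (nat_lit 78) (nat_lit 1596) (nat_lit 0) (XT.lf (nat_lit 0) (nat_lit 428725028) (nat_lit 1596) (nat_lit 1497168684) (nat_lit 76) (nat_lit 5560685182) (nat_lit 418) (nat_lit 5) (nat_lit 439) (nat_lit 5) (nat_lit 419) (nat_lit 5) (nat_lit 419) (nat_lit 381) (nat_lit 340)) (XT.lf (nat_lit 0) (nat_lit 2714558654) (nat_lit 1672) (nat_lit 4632398299) (nat_lit 76) (nat_lit 194118329) (nat_lit 397) (nat_lit 5) (nat_lit 419) (nat_lit 5) (nat_lit 398) (nat_lit 5) (nat_lit 420) (nat_lit 381) (nat_lit 339))))) (XT.nd (nat_lit 234) (nat_lit 1748) (nat_lit 0) (XT.nd (nat_lit 78) (nat_lit 3040) (nat_lit 0) (XT.lf (nat_lit 0) (nat_lit 5025699454) (nat_lit 1672) (nat_lit 226641338) (nat_lit 76) (nat_lit 2344768281) (nat_lit 397) (nat_lit 5) (nat_lit 419)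 (nat_lit 5) (nat_lit 398) (nat_lit 5) (nat_lit 421) (nat_lit 381) (nat_lit 338)) (XT.nd (nat_lit 78) (nat_lit 1368) (nat_lit 0) (XT.lf (nat_lit 0) (nat_lit 4283911145) (nat_lit 1672) (nat_lit 3084537401) (nat_lit 1748) (nat_lit 286145799) (nat_lit 375) (nat_lit 5) (nat_lit 397) (nat_lit 5) (nat_lit 398) (nat_lit 5) (nat_lit 422) (nat_lit 381) (nat_lit 337)) (XT.lf (nat_lit 0) (nat_lit 1136323250) (nat_lit 1292) (nat_lit 848424731) (nat_lit 1368) (nat_lit 5728917977) (nat_lit 357) (nat_lit 5) (nat_lit 374) (nat_lit 5) (nat_lit 375) (nat_lit 5) (nat_lit 423) (nat_lit 381) (nat_lit 336)))) (XT.nd (nat_lit 156) (nat_lit 912) (nat_lit 0) (XT.nd (nat_lit 78) (nat_lit 836) (nat_lit 0) (XT.lf (nat_lit 0) (nat_lit 4287717830) (nat_lit 1368) (nat_lit 2046111811) (nat_lit 76) (nat_lit 1440278033) (nat_lit 357) (nat_lit 5) (nat_lit 375) (nat_lit 5) (nat_lit 358) (nat_lit 5) (nat_lit 424) (nat_lit 381) (nat_lit 335)) (XT.lf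 (nat_lit 0) (nat_lit 2564086232) (nat_lit 836) (nat_lit 4054159741) (nat_lit 912) (nat_lit 1217917854) (nat_lit 346) (nat_lit 5) (nat_lit 357) (nat_lit 5) (nat_lit 358) (nat_lit 5) (nat_lit 425) (nat_lit 381) (nat_lit 334))) (XT.nd (nat_lit 78) (nat_lit 836) (nat_lit 0) (XT.lf (nat_lit 0) (nat_lit 1054846900) (nat_lit 912) (nat_lit 652148070) (nat_lit 76) (nat_lit 6192892093) (nat_lit 345) (nat_lit 5) (nat_lit 357) (nat_lit 5) (nat_lit 346) (nat_lit 5) (nat_lit 426) (nat_lit 381) (nat_lit 333)) (XT.lf (nat_lit 0) (nat_lit 3348137732) (nat_lit 912) (nat_lit 3903467645) (nat_lit 76) (nat_lit 713324335) (nat_lit 334) (nat_lit 5) (nat_lit 346) (nat_lit 5) (nat_lit 335) (nat_lit 5) (nat_lit 427) (nat_lit 381) (nat_lit 332))))))))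
noncomputable def xc105 : XT := (XT.nd (nat_lit 2184) (nat_lit 6916) (nat_lit 0) (XT.nd (nat_lit 1092) (nat_lit 4788) (nat_lit 0) (XT.nd (nat_lit 546) (nat_lit 2964) (nat_lit 0) (XT.nd (nat_lit 234) (nat_lit 1596) (nat_lit 0) (XT.nd (nat_lit 78) (nat_lit 912) (nat_lit 0) (XT.lf (nat_lit 0) (nat_lit 806486466) (nat_lit 836) (nat_lit 4862551700) (nat_lit 912) (nat_lit 2362633044) (nat_lit 323) (nat_lit 5) (nat_lit 334) (nat_lit 5) (nat_lit 335) (nat_lit 5) (nat_lit 428) (nat_lit 381) (nat_lit 331)) (XT.nd (nat_lit 78) (nat_lit 912) (nat_lit 0) (XT.lf (nat_lit 0) (nat_lit 5624057820) (nat_lit 836) (nat_lit 2399803058) (nat_lit 912) (nat_lit 76168800) (nat_lit 323) (nat_lit 5) (nat_lit 334) (nat_lit 5) (nat_lit 335) (nat_lit 5) (nat_lit 429) (nat_lit 381) (nat_lit 330)) (XT.lf (nat_lit 0) (nat_lit 2204368065) (nat_lit 912) (nat_lit 5825797671) (nat_lit 76) (nat_lit 139768975) (nat_lit 311) (nat_lit 5) (nat_lit 323)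 (nat_lit 5) (nat_lit 312) (nat_lit 5) (nat_lit 430) (nat_lit 381) (nat_lit 329)))) (XT.nd (nat_lit 156) (nat_lit 836) (nat_lit 0) (XT.nd (nat_lit 78) (nat_lit 760) (nat_lit 0) (XT.lf (nat_lit 0) (nat_lit 4524388504) (nat_lit 912) (nat_lit 1002979074) (nat_lit 76) (nat_lit 2713992711) (nat_lit 311) (nat_lit 5) (nat_lit 323) (nat_lit 5) (nat_lit 312) (nat_lit 5) (nat_lit 431) (nat_lit 381) (nat_lit 328)) (XT.lf (nat_lit 0) (nat_lit 3928826193) (nat_lit 760) (nat_lit 2950505369) (nat_lit 836) (nat_lit 1435142146) (nat_lit 301) (nat_lit 5) (nat_lit 311) (nat_lit 5) (nat_lit 312) (nat_lit 5) (nat_lit 432) (nat_lit 381) (nat_lit 327))) (XT.nd (nat_lit 78) (nat_lit 0) (nat_lit 0) (XT.lf (nat_lit 0) (nat_lit 546013507) (nat_lit 760) (nat_lit 308144506) (nat_lit 836) (nat_lit 7535333390) (nat_lit 290) (nat_lit 5) (nat_lit 300) (nat_lit 5) (nat_lit 301) (nat_lit 5) (nat_lit 433) (nat_lit 381) (nat_lit 326)) (XT.lf (nat_lit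 0) (nat_lit 3178836238) (nat_lit 836) (nat_lit 2894598556) (nat_lit 76) (nat_lit 2392236815) (nat_lit 290) (nat_lit 5) (nat_lit 301) (nat_lit 5) (nat_lit 291) (nat_lit 5) (nat_lit 434) (nat_lit 381) (nat_lit 325))))) (XT.nd (nat_lit 234) (nat_lit 1444) (nat_lit 0) (XT.nd (nat_lit 78) (nat_lit 836) (nat_lit 0) (XT.lf (nat_lit 0) (nat_lit 2140331146) (nat_lit 684) (nat_lit 3389993774) (nat_lit 760) (nat_lit 3013471668) (nat_lit 281) (nat_lit 5) (nat_lit 290) (nat_lit 5) (nat_lit 291) (nat_lit 5) (nat_lit 435) (nat_lit 381) (nat_lit 324)) (XT.nd (nat_lit 78) (nat_lit 836) (nat_lit 0) (XT.lf (nat_lit 0) (nat_lit 7276495425) (nat_lit 684) (nat_lit 636599146) (nat_lit 760) (nat_lit 710731438) (nat_lit 281) (nat_lit 5) (nat_lit 290) (nat_lit 5) (nat_lit 291) (nat_lit 5) (nat_lit 436) (nat_lit 381) (nat_lit 323)) (XT.lf (nat_lit 0) (nat_lit 1620896233) (nat_lit 836) (nat_lit 4908938972) (nat_lit 76) (nat_lit 2175347702)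 (nat_lit 270) (nat_lit 5) (nat_lit 281) (nat_lit 5) (nat_lit 271) (nat_lit 5) (nat_lit 437) (nat_lit 381) (nat_lit 322)))) (XT.nd (nat_lit 156) (nat_lit 760) (nat_lit 0) (XT.nd (nat_lit 78) (nat_lit 0) (nat_lit 0) (XT.lf (nat_lit 0) (nat_lit 228113078) (nat_lit 684) (nat_lit 3742003953) (nat_lit 760) (nat_lit 4818371819) (nat_lit 261) (nat_lit 5) (nat_lit 270) (nat_lit 5) (nat_lit 271) (nat_lit 5) (nat_lit 438) (nat_lit 381) (nat_lit 321)) (XT.lf (nat_lit 0) (nat_lit 5495840490) (nat_lit 684) (nat_lit 869516035) (nat_lit 760) (nat_lit 2508148615) (nat_lit 261) (nat_lit 5) (nat_lit 270) (nat_lit 5) (nat_lit 271) (nat_lit 5) (nat_lit 439) (nat_lit 381) (nat_lit 320))) (XT.nd (nat_lit 78) (nat_lit 76) (nat_lit 0) (XT.lf (nat_lit 0) (nat_lit 1881489158) (nat_lit 684) (nat_lit 6919332794) (nat_lit 760) (nat_lit 159577806) (nat_lit 252) (nat_lit 5) (nat_lit 261) (nat_lit 5) (nat_lit 262) (nat_lit 5) (nat_lit 440) (nat_lit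 381) (nat_lit 319)) (XT.lf (nat_lit 0) (nat_lit 2202104094) (nat_lit 760) (nat_lit 1816113738) (nat_lit 76) (nat_lit 5030638268) (nat_lit 251) (nat_lit 5) (nat_lit 261) (nat_lit 5) (nat_lit 252) (nat_lit 5) (nat_lit 441) (nat_lit 381) (nat_lit 318)))))) (XT.nd (nat_lit 546) (nat_lit 2204) (nat_lit 0) (XT.nd (nat_lit 234) (nat_lit 1292) (nat_lit 0) (XT.nd (nat_lit 78) (nat_lit 684) (nat_lit 0) (XT.lf (nat_lit 0) (nat_lit 3559606235) (nat_lit 608) (nat_lit 1039929533) (nat_lit 684) (nat_lit 4539734664) (nat_lit 243) (nat_lit 5) (nat_lit 251) (nat_lit 5) (nat_lit 252) (nat_lit 5) (nat_lit 442) (nat_lit 381) (nat_lit 317)) (XT.nd (nat_lit 78) (nat_lit 684) (nat_lit 0) (XT.lf (nat_lit 0) (nat_lit 7038050278) (nat_lit 684) (nat_lit 215181819) (nat_lit 76) (nat_lit 1978420834) (nat_lit 243) (nat_lit 5) (nat_lit 252) (nat_lit 5) (nat_lit 244) (nat_lit 5) (nat_lit 443) (nat_lit 381) (nat_lit 316)) (XT.lf (nat_lit 0) (nat_lit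 206579832) (nat_lit 684) (nat_lit 4045687437) (nat_lit 76) (nat_lit 5073416726) (nat_lit 234) (nat_lit 5) (nat_lit 243) (nat_lit 5) (nat_lit 235) (nat_lit 5) (nat_lit 444) (nat_lit 381) (nat_lit 315)))) (XT.nd (nat_lit 156) (nat_lit 684) (nat_lit 0) (XT.nd (nat_lit 78) (nat_lit 0) (nat_lit 0) (XT.lf (nat_lit 0) (nat_lit 1432907612) (nat_lit 608) (nat_lit 1171941856) (nat_lit 684) (nat_lit 6816888364) (nat_lit 226) (nat_lit 5) (nat_lit 234) (nat_lit 5) (nat_lit 235) (nat_lit 5) (nat_lit 445) (nat_lit 381) (nat_lit 314)) (XT.lf (nat_lit 0) (nat_lit 5060202880) (nat_lit 684) (nat_lit 2494350982) (nat_lit 76) (nat_lit 1964997363) (nat_lit 226) (nat_lit 5) (nat_lit 235) (nat_lit 5) (nat_lit 227) (nat_lit 5) (nat_lit 446) (nat_lit 381) (nat_lit 313))) (XT.nd (nat_lit 78) (nat_lit 76) (nat_lit 0) (XT.lf (nat_lit 0) (nat_lit 3105608965) (nat_lit 608) (nat_lit 4456586540) (nat_lit 684) (nat_lit 2057195174) (nat_lit 218)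 (nat_lit 5) (nat_lit 226) (nat_lit 5) (nat_lit 227) (nat_lit 5) (nat_lit 447) (nat_lit 381) (nat_lit 312)) (XT.lf (nat_lit 0) (nat_lit 374439456) (nat_lit 684) (nat_lit 909729050) (nat_lit 76) (nat_lit 8437295175) (nat_lit 217) (nat_lit 5) (nat_lit 226) (nat_lit 5) (nat_lit 218) (nat_lit 5) (nat_lit 448) (nat_lit 381) (nat_lit 311))))) (XT.nd (nat_lit 234) (nat_lit 1140) (nat_lit 0) (XT.nd (nat_lit 78) (nat_lit 532) (nat_lit 0) (XT.lf (nat_lit 0) (nat_lit 2841735302) (nat_lit 608) (nat_lit 5019047769) (nat_lit 76) (nat_lit 1964250881) (nat_lit 210) (nat_lit 5) (nat_lit 218) (nat_lit 5) (nat_lit 211) (nat_lit 5) (nat_lit 449) (nat_lit 381) (nat_lit 310)) (XT.nd (nat_lit 78) (nat_lit 0) (nat_lit 0) (XT.lf (nat_lit 0) (nat_lit 681047316) (nat_lit 532) (nat_lit 4667034908) (nat_lit 608) (nat_lit 4582818183) (nat_lit 203) (nat_lit 5) (nat_lit 210) (nat_lit 5) (nat_lit 211) (nat_lit 5) (nat_lit 450) (nat_lit 381) (nat_lit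 309)) (XT.lf (nat_lit 0) (nat_lit 6526289425) (nat_lit 532) (nat_lit 1382917142) (nat_lit 608) (nat_lit 2129603125) (nat_lit 203) (nat_lit 5) (nat_lit 210) (nat_lit 5) (nat_lit 211) (nat_lit 5) (nat_lit 451) (nat_lit 381) (nat_lit 308)))) (XT.nd (nat_lit 156) (nat_lit 532) (nat_lit 0) (XT.nd (nat_lit 78) (nat_lit 0) (nat_lit 0) (XT.lf (nat_lit 0) (nat_lit 367092021) (nat_lit 608) (nat_lit 7830804341) (nat_lit 76) (nat_lit 1950964129) (nat_lit 195) (nat_lit 5) (nat_lit 203) (nat_lit 5) (nat_lit 196) (nat_lit 5) (nat_lit 452) (nat_lit 381) (nat_lit 307)) (XT.lf (nat_lit 0) (nat_lit 2889724971) (nat_lit 608) (nat_lit 2008058179) (nat_lit 76) (nat_lit 5362974680) (nat_lit 195) (nat_lit 5) (nat_lit 203) (nat_lit 5) (nat_lit 196) (nat_lit 5) (nat_lit 453) (nat_lit 381) (nat_lit 306))) (XT.nd (nat_lit 78) (nat_lit 0) (nat_lit 0) (XT.lf (nat_lit 0) (nat_lit 3946771502) (nat_lit 532) (nat_lit 1513828134) (nat_lit 608)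 (nat_lit 4914354799) (nat_lit 188) (nat_lit 5) (nat_lit 195) (nat_lit 5) (nat_lit 196) (nat_lit 5) (nat_lit 454) (nat_lit 381) (nat_lit 305)) (XT.lf (nat_lit 0) (nat_lit 8081460062) (nat_lit 608) (nat_lit 492327862) (nat_lit 76) (nat_lit 1917692449) (nat_lit 188) (nat_lit 5) (nat_lit 196) (nat_lit 5) (nat_lit 189) (nat_lit 5) (nat_lit 455) (nat_lit 381) (nat_lit 304))))))) (XT.nd (nat_lit 1092) (nat_lit 2964) (nat_lit 0) (XT.nd (nat_lit 546) (nat_lit 1900) (nat_lit 0) (XT.nd (nat_lit 234) (nat_lit 988) (nat_lit 0) (XT.nd (nat_lit 78) (nat_lit 532) (nat_lit 0) (XT.lf (nat_lit 0) (nat_lit 161899878) (nat_lit 532) (nat_lit 5021197376) (nat_lit 76) (nat_lit 5426849082) (nat_lit 181) (nat_lit 5) (nat_lit 188) (nat_lit 5) (nat_lit 182) (nat_lit 5) (nat_lit 456) (nat_lit 381) (nat_lit 303)) (XT.nd (nat_lit 78) (nat_lit 0) (nat_lit 0) (XT.lf (nat_lit 0) (nat_lit 1029085669) (nat_lit 532) (nat_lit 1707010010) (nat_lit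 608) (nat_lit 7994720987) (nat_lit 174) (nat_lit 5) (nat_lit 181) (nat_lit 5) (nat_lit 182) (nat_lit 5) (nat_lit 457) (nat_lit 381) (nat_lit 302)) (XT.lf (nat_lit 0) (nat_lit 5380939572) (nat_lit 608) (nat_lit 3633241322) (nat_lit 76) (nat_lit 1839555713) (nat_lit 174) (nat_lit 5) (nat_lit 182) (nat_lit 5) (nat_lit 175) (nat_lit 5) (nat_lit 458) (nat_lit 381) (nat_lit 301)))) (XT.nd (nat_lit 156) (nat_lit 532) (nat_lit 0) (XT.nd (nat_lit 78) (nat_lit 0) (nat_lit 0) (XT.lf (nat_lit 0) (nat_lit 2543288445) (nat_lit 456) (nat_lit 5537041421) (nat_lit 532) (nat_lit 2898767275) (nat_lit 168) (nat_lit 5) (nat_lit 174) (nat_lit 5) (nat_lit 175) (nat_lit 5) (nat_lit 459) (nat_lit 381) (nat_lit 300)) (XT.lf (nat_lit 0) (nat_lit 8857450436) (nat_lit 456) (nat_lit 1974755493) (nat_lit 532) (nat_lit 274803885) (nat_lit 168) (nat_lit 5) (nat_lit 174) (nat_lit 5) (nat_lit 175) (nat_lit 5) (nat_lit 460) (nat_lit 381) (nat_lit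 299))) (XT.nd (nat_lit 78) (nat_lit 0) (nat_lit 0) (XT.lf (nat_lit 0) (nat_lit 2381952307) (nat_lit 532) (nat_lit 7184854380) (nat_lit 76) (nat_lit 1670140274) (nat_lit 161) (nat_lit 5) (nat_lit 168) (nat_lit 5) (nat_lit 162) (nat_lit 5) (nat_lit 461) (nat_lit 381) (nat_lit 298)) (XT.lf (nat_lit 0) (nat_lit 5091099245) (nat_lit 532) (nat_lit 908950630) (nat_lit 76) (nat_lit 5369351971) (nat_lit 161) (nat_lit 5) (nat_lit 168) (nat_lit 5) (nat_lit 162) (nat_lit 5) (nat_lit 462) (nat_lit 381) (nat_lit 297))))) (XT.nd (nat_lit 234) (nat_lit 912) (nat_lit 0) (XT.nd (nat_lit 78) (nat_lit 532) (nat_lit 0) (XT.lf (nat_lit 0) (nat_lit 5530650861) (nat_lit 456) (nat_lit 2334842066) (nat_lit 532) (nat_lit 3638805379) (nat_lit 155) (nat_lit 5) (nat_lit 161) (nat_lit 5) (nat_lit 162) (nat_lit 5) (nat_lit 463) (nat_lit 381) (nat_lit 296)) (XT.nd (nat_lit 78) (nat_lit 76) (nat_lit 0) (XT.lf (nat_lit 0) (nat_lit 431527505) (nat_lit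 456) (nat_lit 10257260934) (nat_lit 532) (nat_lit 953249461) (nat_lit 149) (nat_lit 5) (nat_lit 155) (nat_lit 5) (nat_lit 156) (nat_lit 5) (nat_lit 464) (nat_lit 381) (nat_lit 295)) (XT.lf (nat_lit 0) (nat_lit 1793852316) (nat_lit 532) (nat_lit 4797958944) (nat_lit 76) (nat_lit 5189876891) (nat_lit 148) (nat_lit 5) (nat_lit 155) (nat_lit 5) (nat_lit 149) (nat_lit 5) (nat_lit 465) (nat_lit 381) (nat_lit 294)))) (XT.nd (nat_lit 156) (nat_lit 532) (nat_lit 0) (XT.nd (nat_lit 78) (nat_lit 0) (nat_lit 0) (XT.lf (nat_lit 0) (nat_lit 1725151703) (nat_lit 380) (nat_lit 2845119024) (nat_lit 456) (nat_lit 7354004597) (nat_lit 143) (nat_lit 5) (nat_lit 148) (nat_lit 5) (nat_lit 149) (nat_lit 5) (nat_lit 466) (nat_lit 381) (nat_lit 293)) (XT.lf (nat_lit 0) (nat_lit 7417081589) (nat_lit 456) (nat_lit 3666066603) (nat_lit 76) (nat_lit 986281222) (nat_lit 143) (nat_lit 5) (nat_lit 149) (nat_lit 5) (nat_lit 144) (nat_lit 5)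 (nat_lit 467) (nat_lit 381) (nat_lit 292))) (XT.nd (nat_lit 78) (nat_lit 76) (nat_lit 0) (XT.lf (nat_lit 0) (nat_lit 2984416448) (nat_lit 456) (nat_lit 7351213131) (nat_lit 532) (nat_lit 1881573203) (nat_lit 137) (nat_lit 5) (nat_lit 143) (nat_lit 5) (nat_lit 144) (nat_lit 5) (nat_lit 468) (nat_lit 381) (nat_lit 291)) (XT.lf (nat_lit 0) (nat_lit 933652086) (nat_lit 532) (nat_lit 2589767648) (nat_lit 76) (nat_lit 8844372480) (nat_lit 136) (nat_lit 5) (nat_lit 143) (nat_lit 5) (nat_lit 137) (nat_lit 5) (nat_lit 469) (nat_lit 381) (nat_lit 290)))))) (XT.nd (nat_lit 546) (nat_lit 1444) (nat_lit 0) (XT.nd (nat_lit 234) (nat_lit 760) (nat_lit 0) (XT.nd (nat_lit 78) (nat_lit 380) (nat_lit 0) (XT.lf (nat_lit 0) (nat_lit 3787040573) (nat_lit 456) (nat_lit 8328037335) (nat_lit 76) (nat_lit 405937231) (nat_lit 131) (nat_lit 5) (nat_lit 137) (nat_lit 5) (nat_lit 132) (nat_lit 5) (nat_lit 470) (nat_lit 381) (nat_lit 289))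 (XT.nd (nat_lit 78) (nat_lit 380) (nat_lit 0) (XT.lf (nat_lit 0) (nat_lit 6715612341) (nat_lit 456) (nat_lit 1587078591) (nat_lit 76) (nat_lit 4374260564) (nat_lit 131) (nat_lit 5) (nat_lit 137) (nat_lit 5) (nat_lit 132) (nat_lit 5) (nat_lit 471) (nat_lit 381) (nat_lit 288)) (XT.lf (nat_lit 0) (nat_lit 5326043704) (nat_lit 380) (nat_lit 4389025195) (nat_lit 456) (nat_lit 3120702476) (nat_lit 126) (nat_lit 5) (nat_lit 131) (nat_lit 5) (nat_lit 132) (nat_lit 5) (nat_lit 472) (nat_lit 381) (nat_lit 287)))) (XT.nd (nat_lit 156) (nat_lit 380) (nat_lit 0) (XT.nd (nat_lit 78) (nat_lit 380) (nat_lit 0) (XT.lf (nat_lit 0) (nat_lit 12366647939) (nat_lit 380) (nat_lit 396476863) (nat_lit 456) (nat_lit 234881491) (nat_lit 126) (nat_lit 5) (nat_lit 131) (nat_lit 5) (nat_lit 132) (nat_lit 5) (nat_lit 473) (nat_lit 381) (nat_lit 286)) (XT.lf (nat_lit 0) (nat_lit 2717240677) (nat_lit 380) (nat_lit 6767718050) (nat_lit 76) (nat_lit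 3677303691) (nat_lit 121) (nat_lit 5) (nat_lit 126) (nat_lit 5) (nat_lit 122) (nat_lit 5) (nat_lit 474) (nat_lit 381) (nat_lit 285))) (XT.nd (nat_lit 78) (nat_lit 0) (nat_lit 0) (XT.lf (nat_lit 0) (nat_lit 206174546) (nat_lit 380) (nat_lit 5505710631) (nat_lit 456) (nat_lit 7618165156) (nat_lit 116) (nat_lit 5) (nat_lit 121) (nat_lit 5) (nat_lit 122) (nat_lit 5) (nat_lit 475) (nat_lit 381) (nat_lit 284)) (XT.lf (nat_lit 0) (nat_lit 7379369869) (nat_lit 380) (nat_lit 1411077028) (nat_lit 456) (nat_lit 4710276644) (nat_lit 116) (nat_lit 5) (nat_lit 121) (nat_lit 5) (nat_lit 122) (nat_lit 5) (nat_lit 476) (nat_lit 381) (nat_lit 283))))) (XT.nd (nat_lit 234) (nat_lit 684) (nat_lit 0) (XT.nd (nat_lit 78) (nat_lit 456) (nat_lit 0) (XT.lf (nat_lit 0) (nat_lit 984526151) (nat_lit 304) (nat_lit 10949362848) (nat_lit 380) (nat_lit 1740864853) (nat_lit 112) (nat_lit 5) (nat_lit 116) (nat_lit 5) (nat_lit 117) (nat_lit 5)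 (nat_lit 477) (nat_lit 381) (nat_lit 282)) (XT.nd (nat_lit 78) (nat_lit 380) (nat_lit 0) (XT.lf (nat_lit 0) (nat_lit 1300760840) (nat_lit 380) (nat_lit 5585651969) (nat_lit 76) (nat_lit 6965099816) (nat_lit 111) (nat_lit 5) (nat_lit 116) (nat_lit 5) (nat_lit 112) (nat_lit 5) (nat_lit 478) (nat_lit 381) (nat_lit 281)) (XT.lf (nat_lit 0) (nat_lit 1639886091) (nat_lit 380) (nat_lit 2730125857) (nat_lit 456) (nat_lit 9661771676) (nat_lit 106) (nat_lit 5) (nat_lit 111) (nat_lit 5) (nat_lit 112) (nat_lit 5) (nat_lit 479) (nat_lit 381) (nat_lit 280)))) (XT.nd (nat_lit 156) (nat_lit 380) (nat_lit 0) (XT.nd (nat_lit 78) (nat_lit 304) (nat_lit 0) (XT.lf (nat_lit 0) (nat_lit 7527746509) (nat_lit 456) (nat_lit 5170558951) (nat_lit 76) (nat_lit 1516821689) (nat_lit 106) (nat_lit 5) (nat_lit 112) (nat_lit 5) (nat_lit 107) (nat_lit 5) (nat_lit 480) (nat_lit 381) (nat_lit 279)) (XT.lf (nat_lit 0) (nat_lit 2175013621) (nat_lit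 304) (nat_lit 8585792941) (nat_lit 380) (nat_lit 3641096464) (nat_lit 102) (nat_lit 5) (nat_lit 106) (nat_lit 5) (nat_lit 107) (nat_lit 5) (nat_lit 481) (nat_lit 381) (nat_lit 278))) (XT.nd (nat_lit 78) (nat_lit 380) (nat_lit 0) (XT.lf (nat_lit 0) (nat_lit 9707149327) (nat_lit 304) (nat_lit 4366239680) (nat_lit 380) (nat_lit 518736911) (nat_lit 102) (nat_lit 5) (nat_lit 106) (nat_lit 5) (nat_lit 107) (nat_lit 5) (nat_lit 482) (nat_lit 381) (nat_lit 277)) (XT.lf (nat_lit 0) (nat_lit 2590328755) (nat_lit 304) (nat_lit 38008957) (nat_lit 380) (nat_lit 12157533063) (nat_lit 97) (nat_lit 5) (nat_lit 101) (nat_lit 5) (nat_lit 102) (nat_lit 5) (nat_lit 483) (nat_lit 381) (nat_lit 276))))))))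
noncomputable def xc106 : XT := (XT.nd (nat_lit 2184) (nat_lit 1292) (nat_lit 0) (XT.nd (nat_lit 1092) (nat_lit 1444) (nat_lit 0) (XT.nd (nat_lit 546) (nat_lit 1216) (nat_lit 0) (XT.nd (nat_lit 234) (nat_lit 608) (nat_lit 0) (XT.nd (nat_lit 78) (nat_lit 304) (nat_lit 0) (XT.lf (nat_lit 0) (nat_lit 5873366554) (nat_lit 380) (nat_lit 4763785205) (nat_lit 76) (nat_lit 4345439241) (nat_lit 97) (nat_lit 5) (nat_lit 102) (nat_lit 5) (nat_lit 98) (nat_lit 5) (nat_lit 484) (nat_lit 381) (nat_lit 275)) (XT.nd (nat_lit 78) (nat_lit 0) (nat_lit 0) (XT.lf (nat_lit 0) (nat_lit 2823743637) (nat_lit 304) (nat_lit 6359056554) (nat_lit 380) (nat_lit 6000463413) (nat_lit 93) (nat_lit 5) (nat_lit 97) (nat_lit 5) (nat_lit 98) (nat_lit 5) (nat_lit 485) (nat_lit 381) (nat_lit 274)) (XT.lf (nat_lit 0) (nat_lit 10598147152) (nat_lit 304) (nat_lit 1973344668) (nat_lit 380) (nat_lit 2816204351) (nat_lit 93) (nat_lit 5) (nat_lit 97) (nat_lit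 5) (nat_lit 98) (nat_lit 5) (nat_lit 486) (nat_lit 381) (nat_lit 273)))) (XT.nd (nat_lit 156) (nat_lit 228) (nat_lit 0) (XT.nd (nat_lit 78) (nat_lit 0) (nat_lit 0) (XT.lf (nat_lit 0) (nat_lit 442806909) (nat_lit 380) (nat_lit 12674041776) (nat_lit 76) (nat_lit 2478985648) (nat_lit 88) (nat_lit 5) (nat_lit 93) (nat_lit 5) (nat_lit 89) (nat_lit 5) (nat_lit 487) (nat_lit 381) (nat_lit 272)) (XT.lf (nat_lit 0) (nat_lit 3756198519) (nat_lit 380) (nat_lit 5016385480) (nat_lit 76) (nat_lit 7034648219) (nat_lit 88) (nat_lit 5) (nat_lit 93) (nat_lit 5) (nat_lit 89) (nat_lit 5) (nat_lit 488) (nat_lit 381) (nat_lit 271))) (XT.nd (nat_lit 78) (nat_lit 0) (nat_lit 0) (XT.lf (nat_lit 0) (nat_lit 2802506895) (nat_lit 228) (nat_lit 4333362583) (nat_lit 304) (nat_lit 8886995652) (nat_lit 85) (nat_lit 5) (nat_lit 88) (nat_lit 5) (nat_lit 89) (nat_lit 5) (nat_lit 489) (nat_lit 381) (nat_lit 270)) (XT.lf (nat_lit 0) (nat_lit 10600202544)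 (nat_lit 304) (nat_lit 5426631802) (nat_lit 76) (nat_lit 215642134) (nat_lit 85) (nat_lit 5) (nat_lit 89) (nat_lit 5) (nat_lit 86) (nat_lit 5) (nat_lit 490) (nat_lit 381) (nat_lit 269))))) (XT.nd (nat_lit 234) (nat_lit 608) (nat_lit 0) (XT.nd (nat_lit 78) (nat_lit 304) (nat_lit 0) (XT.lf (nat_lit 0) (nat_lit 2498825096) (nat_lit 304) (nat_lit 11662192905) (nat_lit 380) (nat_lit 2304925157) (nat_lit 81) (nat_lit 5) (nat_lit 85) (nat_lit 5) (nat_lit 86) (nat_lit 5) (nat_lit 491) (nat_lit 381) (nat_lit 268)) (XT.nd (nat_lit 78) (nat_lit 228) (nat_lit 0) (XT.lf (nat_lit 0) (nat_lit 1103727910) (nat_lit 380) (nat_lit 6072452945) (nat_lit 76) (nat_lit 9517182863) (nat_lit 80) (nat_lit 5) (nat_lit 85) (nat_lit 5) (nat_lit 81) (nat_lit 5) (nat_lit 492) (nat_lit 381) (nat_lit 267)) (XT.lf (nat_lit 0) (nat_lit 1962863856) (nat_lit 228) (nat_lit 2582263450) (nat_lit 304) (nat_lit 12379998558) (nat_lit 77) (nat_lit 5) (nat_lit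 80) (nat_lit 5) (nat_lit 81) (nat_lit 5) (nat_lit 493) (nat_lit 381) (nat_lit 266)))) (XT.nd (nat_lit 156) (nat_lit 304) (nat_lit 0) (XT.nd (nat_lit 78) (nat_lit 304) (nat_lit 0) (XT.lf (nat_lit 0) (nat_lit 8092788451) (nat_lit 304) (nat_lit 6961255833) (nat_lit 76) (nat_lit 2106736776) (nat_lit 77) (nat_lit 5) (nat_lit 81) (nat_lit 5) (nat_lit 78) (nat_lit 5) (nat_lit 494) (nat_lit 381) (nat_lit 265)) (XT.lf (nat_lit 0) (nat_lit 1170748602) (nat_lit 304) (nat_lit 10548451686) (nat_lit 380) (nat_lit 5681799474) (nat_lit 73) (nat_lit 5) (nat_lit 77) (nat_lit 5) (nat_lit 78) (nat_lit 5) (nat_lit 495) (nat_lit 381) (nat_lit 264))) (XT.nd (nat_lit 78) (nat_lit 304) (nat_lit 0) (XT.lf (nat_lit 0) (nat_lit 9532658864) (nat_lit 304) (nat_lit 5915445844) (nat_lit 380) (nat_lit 2197325072) (nat_lit 73) (nat_lit 5) (nat_lit 77) (nat_lit 5) (nat_lit 78) (nat_lit 5) (nat_lit 496) (nat_lit 381) (nat_lit 263)) (XT.lf (nat_lit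 0) (nat_lit 133206093) (nat_lit 228) (nat_lit 1190166699) (nat_lit 304) (nat_lit 16571518822) (nat_lit 69) (nat_lit 5) (nat_lit 72) (nat_lit 5) (nat_lit 73) (nat_lit 5) (nat_lit 497) (nat_lit 381) (nat_lit 262)))))) (XT.nd (nat_lit 546) (nat_lit 684) (nat_lit 0) (XT.nd (nat_lit 234) (nat_lit 532) (nat_lit 0) (XT.nd (nat_lit 78) (nat_lit 228) (nat_lit 0) (XT.lf (nat_lit 0) (nat_lit 4947006636) (nat_lit 304) (nat_lit 9559539968) (nat_lit 76) (nat_lit 3641272578) (nat_lit 69) (nat_lit 5) (nat_lit 73) (nat_lit 5) (nat_lit 70) (nat_lit 5) (nat_lit 498) (nat_lit 381) (nat_lit 261)) (XT.nd (nat_lit 78) (nat_lit 228) (nat_lit 0) (XT.lf (nat_lit 0) (nat_lit 8634866930) (nat_lit 304) (nat_lit 1227587565) (nat_lit 76) (nat_lit 8543521486) (nat_lit 69) (nat_lit 5) (nat_lit 73) (nat_lit 5) (nat_lit 70) (nat_lit 5) (nat_lit 499) (nat_lit 381) (nat_lit 260)) (XT.lf (nat_lit 0) (nat_lit 7341450919) (nat_lit 228) (nat_lit 5086887194)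 (nat_lit 304) (nat_lit 6240326372) (nat_lit 66) (nat_lit 5) (nat_lit 69) (nat_lit 5) (nat_lit 70) (nat_lit 5) (nat_lit 500) (nat_lit 381) (nat_lit 259)))) (XT.nd (nat_lit 156) (nat_lit 228) (nat_lit 0) (XT.nd (nat_lit 78) (nat_lit 304) (nat_lit 0) (XT.lf (nat_lit 0) (nat_lit 16072843015) (nat_lit 228) (nat_lit 217404964) (nat_lit 304) (nat_lit 2646512926) (nat_lit 66) (nat_lit 5) (nat_lit 69) (nat_lit 5) (nat_lit 70) (nat_lit 5) (nat_lit 501) (nat_lit 381) (nat_lit 258)) (XT.lf (nat_lit 0) (nat_lit 1059149006) (nat_lit 304) (nat_lit 13427824326) (nat_lit 76) (nat_lit 4722052114) (nat_lit 62) (nat_lit 5) (nat_lit 66) (nat_lit 5) (nat_lit 63) (nat_lit 5) (nat_lit 502) (nat_lit 381) (nat_lit 257))) (XT.nd (nat_lit 78) (nat_lit 228) (nat_lit 0) (XT.lf (nat_lit 0) (nat_lit 4808913068) (nat_lit 304) (nat_lit 4892856591) (nat_lit 76) (nat_lit 9784512450) (nat_lit 62) (nat_lit 5) (nat_lit 66) (nat_lit 5) (nat_lit 63)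 (nat_lit 5) (nat_lit 503) (nat_lit 381) (nat_lit 256)) (XT.lf (nat_lit 0) (nat_lit 3838192482) (nat_lit 228) (nat_lit 4805308975) (nat_lit 304) (nat_lit 11125390976) (nat_lit 59) (nat_lit 5) (nat_lit 62) (nat_lit 5) (nat_lit 63) (nat_lit 5) (nat_lit 504) (nat_lit 381) (nat_lit 255))))) (XT.nd (nat_lit 234) (nat_lit 380) (nat_lit 0) (XT.nd (nat_lit 78) (nat_lit 304) (nat_lit 0) (XT.lf (nat_lit 0) (nat_lit 12574040363) (nat_lit 304) (nat_lit 7272789558) (nat_lit 76) (nat_lit 209944878) (nat_lit 59) (nat_lit 5) (nat_lit 63) (nat_lit 5) (nat_lit 60) (nat_lit 5) (nat_lit 505) (nat_lit 381) (nat_lit 254)) (XT.nd (nat_lit 78) (nat_lit 76) (nat_lit 0) (XT.lf (nat_lit 0) (nat_lit 1521873606) (nat_lit 228) (nat_lit 15088295226) (nat_lit 304) (nat_lit 3739711316) (nat_lit 56) (nat_lit 5) (nat_lit 59) (nat_lit 5) (nat_lit 60) (nat_lit 5) (nat_lit 506) (nat_lit 381) (nat_lit 253)) (XT.lf (nat_lit 0) (nat_lit 111578043) (nat_lit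 304) (nat_lit 10082268075) (nat_lit 76) (nat_lit 10454307436) (nat_lit 55) (nat_lit 5) (nat_lit 59) (nat_lit 5) (nat_lit 56) (nat_lit 5) (nat_lit 507) (nat_lit 381) (nat_lit 252)))) (XT.nd (nat_lit 156) (nat_lit 152) (nat_lit 0) (XT.nd (nat_lit 78) (nat_lit 228) (nat_lit 0) (XT.lf (nat_lit 0) (nat_lit 3975456997) (nat_lit 304) (nat_lit 1210479583) (nat_lit 76) (nat_lit 15766253314) (nat_lit 55) (nat_lit 5) (nat_lit 59) (nat_lit 5) (nat_lit 56) (nat_lit 5) (nat_lit 508) (nat_lit 381) (nat_lit 251)) (XT.lf (nat_lit 0) (nat_lit 7918977567) (nat_lit 228) (nat_lit 34925466) (nat_lit 304) (nat_lit 13307662677) (nat_lit 52) (nat_lit 5) (nat_lit 55) (nat_lit 5) (nat_lit 56) (nat_lit 5) (nat_lit 509) (nat_lit 381) (nat_lit 250))) (XT.nd (nat_lit 78) (nat_lit 152) (nat_lit 0) (XT.lf (nat_lit 0) (nat_lit 12039917994) (nat_lit 304) (nat_lit 4387167527) (nat_lit 76) (nat_lit 5149487968) (nat_lit 52) (nat_lit 5) (nat_lit 56)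 (nat_lit 5) (nat_lit 53) (nat_lit 5) (nat_lit 510) (nat_lit 381) (nat_lit 249)) (XT.lf (nat_lit 0) (nat_lit 4786679463) (nat_lit 152) (nat_lit 11438496477) (nat_lit 228) (nat_lit 5672359393) (nat_lit 50) (nat_lit 5) (nat_lit 52) (nat_lit 5) (nat_lit 53) (nat_lit 5) (nat_lit 511) (nat_lit 381) (nat_lit 248))))))) (XT.nd (nat_lit 1092) (nat_lit 152) (nat_lit 0) (XT.nd (nat_lit 546) (nat_lit 456) (nat_lit 0) (XT.nd (nat_lit 234) (nat_lit 380) (nat_lit 0) (XT.nd (nat_lit 78) (nat_lit 304) (nat_lit 0) (XT.lf (nat_lit 0) (nat_lit 14180396521) (nat_lit 152) (nat_lit 6329516329) (nat_lit 228) (nat_lit 1714692362) (nat_lit 50) (nat_lit 5) (nat_lit 52) (nat_lit 5) (nat_lit 53) (nat_lit 5) (nat_lit 512) (nat_lit 381) (nat_lit 247)) (XT.nd (nat_lit 78) (nat_lit 0) (nat_lit 0) (XT.lf (nat_lit 0) (nat_lit 1181381655) (nat_lit 228) (nat_lit 1104470240) (nat_lit 304) (nat_lit 20272183588) (nat_lit 46) (nat_lit 5) (nat_lit 49)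 (nat_lit 5) (nat_lit 50) (nat_lit 5) (nat_lit 513) (nat_lit 381) (nat_lit 246)) (XT.lf (nat_lit 0) (nat_lit 6411804996) (nat_lit 304) (nat_lit 12258542837) (nat_lit 76) (nat_lit 4226196719) (nat_lit 46) (nat_lit 5) (nat_lit 50) (nat_lit 5) (nat_lit 47) (nat_lit 5) (nat_lit 514) (nat_lit 381) (nat_lit 245)))) (XT.nd (nat_lit 156) (nat_lit 228) (nat_lit 0) (XT.nd (nat_lit 78) (nat_lit 152) (nat_lit 0) (XT.lf (nat_lit 0) (nat_lit 10614420805) (nat_lit 304) (nat_lit 2987803803) (nat_lit 76) (nat_lit 9639720271) (nat_lit 46) (nat_lit 5) (nat_lit 50) (nat_lit 5) (nat_lit 47) (nat_lit 5) (nat_lit 515) (nat_lit 381) (nat_lit 244)) (XT.lf (nat_lit 0) (nat_lit 6532038672) (nat_lit 152) (nat_lit 8398548111) (nat_lit 228) (nat_lit 8663080347) (nat_lit 44) (nat_lit 5) (nat_lit 46) (nat_lit 5) (nat_lit 47) (nat_lit 5) (nat_lit 516) (nat_lit 381) (nat_lit 243))) (XT.nd (nat_lit 78) (nat_lit 228) (nat_lit 0) (XT.lf (nat_lit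 0) (nat_lit 16260942869) (nat_lit 152) (nat_lit 3079381886) (nat_lit 228) (nat_lit 4611957892) (nat_lit 44) (nat_lit 5) (nat_lit 46) (nat_lit 5) (nat_lit 47) (nat_lit 5) (nat_lit 517) (nat_lit 381) (nat_lit 242)) (XT.lf (nat_lit 0) (nat_lit 1853830456) (nat_lit 228) (nat_lit 21999088637) (nat_lit 304) (nat_lit 464861873) (nat_lit 41) (nat_lit 5) (nat_lit 44) (nat_lit 5) (nat_lit 45) (nat_lit 5) (nat_lit 518) (nat_lit 381) (nat_lit 241))))) (XT.nd (nat_lit 234) (nat_lit 228) (nat_lit 0) (XT.nd (nat_lit 78) (nat_lit 152) (nat_lit 0) (XT.lf (nat_lit 0) (nat_lit 3775557017) (nat_lit 304) (nat_lit 13062209212) (nat_lit 76) (nat_lit 7851142440) (nat_lit 40) (nat_lit 5) (nat_lit 44) (nat_lit 5) (nat_lit 41) (nat_lit 5) (nat_lit 519) (nat_lit 381) (nat_lit 240)) (XT.nd (nat_lit 78) (nat_lit 152) (nat_lit 0) (XT.lf (nat_lit 0) (nat_lit 8082226300) (nat_lit 304) (nat_lit 3496720825) (nat_lit 76) (nat_lit 13488700525) (nat_lit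 40) (nat_lit 5) (nat_lit 44) (nat_lit 5) (nat_lit 41) (nat_lit 5) (nat_lit 520) (nat_lit 381) (nat_lit 239)) (XT.lf (nat_lit 0) (nat_lit 6322200813) (nat_lit 152) (nat_lit 6181778718) (nat_lit 228) (nat_lit 12949406307) (nat_lit 38) (nat_lit 5) (nat_lit 40) (nat_lit 5) (nat_lit 41) (nat_lit 5) (nat_lit 521) (nat_lit 381) (nat_lit 238)))) (XT.nd (nat_lit 156) (nat_lit 76) (nat_lit 0) (XT.nd (nat_lit 78) (nat_lit 152) (nat_lit 0) (XT.lf (nat_lit 0) (nat_lit 16364243340) (nat_lit 152) (nat_lit 661395055) (nat_lit 228) (nat_lit 8820974354) (nat_lit 38) (nat_lit 5) (nat_lit 40) (nat_lit 5) (nat_lit 41) (nat_lit 5) (nat_lit 522) (nat_lit 381) (nat_lit 237)) (XT.lf (nat_lit 0) (nat_lit 310799251) (nat_lit 152) (nat_lit 21349399490) (nat_lit 228) (nat_lit 4587059397) (nat_lit 36) (nat_lit 5) (nat_lit 38) (nat_lit 5) (nat_lit 39) (nat_lit 5) (nat_lit 523) (nat_lit 381) (nat_lit 236))) (XT.nd (nat_lit 78) (nat_lit 76)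 (nat_lit 0) (XT.lf (nat_lit 0) (nat_lit 10403628594) (nat_lit 152) (nat_lit 16040090294) (nat_lit 228) (nat_lit 211075415) (nat_lit 36) (nat_lit 5) (nat_lit 38) (nat_lit 5) (nat_lit 39) (nat_lit 5) (nat_lit 524) (nat_lit 381) (nat_lit 235)) (XT.lf (nat_lit 0) (nat_lit 4185093007) (nat_lit 228) (nat_lit 6419835396) (nat_lit 76) (nat_lit 16465234990) (nat_lit 35) (nat_lit 5) (nat_lit 38) (nat_lit 5) (nat_lit 36) (nat_lit 5) (nat_lit 525) (nat_lit 381) (nat_lit 234)))))) (XT.nd (nat_lit 48438) (nat_lit 0) (nat_lit 44764) (XT.nd (nat_lit 48126) (nat_lit 0) (nat_lit 45600) (XT.nd (nat_lit 78) (nat_lit 0) (nat_lit 0) (XT.lf (nat_lit 0) (nat_lit 3634727959) (nat_lit 152) (nat_lit 5043895111) (nat_lit 228) (nat_lit 18814946652) (nat_lit 33) (nat_lit 5) (nat_lit 35) (nat_lit 5) (nat_lit 36) (nat_lit 5) (nat_lit 526) (nat_lit 381) (nat_lit 233)) (XT.nd (nat_lit 78) (nat_lit 0) (nat_lit 0) (XT.lf (nat_lit 0) (nat_lit 13298173696)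 (nat_lit 228) (nat_lit 13971252869) (nat_lit 76) (nat_lit 655297607) (nat_lit 33) (nat_lit 5) (nat_lit 36) (nat_lit 5) (nat_lit 34) (nat_lit 5) (nat_lit 527) (nat_lit 381) (nat_lit 232)) (XT.lf (nat_lit 0) (nat_lit 18032444557) (nat_lit 228) (nat_lit 3938639415) (nat_lit 76) (nat_lit 6392974089) (nat_lit 33) (nat_lit 5) (nat_lit 36) (nat_lit 5) (nat_lit 34) (nat_lit 5) (nat_lit 528) (nat_lit 381) (nat_lit 231)))) (XT.nd (nat_lit 156) (nat_lit 304) (nat_lit 0) (XT.nd (nat_lit 78) (nat_lit 228) (nat_lit 0) (XT.lf (nat_lit 0) (nat_lit 2597767882) (nat_lit 228) (nat_lit 313669024) (nat_lit 228) (nat_lit 313669024) (nat_lit 640) (nat_lit 3) (nat_lit 643) (nat_lit 3) (nat_lit 643) (nat_lit 5) (nat_lit 382) (nat_lit 382) (nat_lit 376)) (XT.lf (nat_lit 0) (nat_lit 1559094282) (nat_lit 228) (nat_lit 4062177410) (nat_lit 304) (nat_lit 833460742) (nat_lit 637) (nat_lit 5) (nat_lit 640) (nat_lit 3) (nat_lit 641) (nat_lit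 5) (nat_lit 383) (nat_lit 382) (nat_lit 375))) (XT.nd (nat_lit 78) (nat_lit 304) (nat_lit 0) (XT.lf (nat_lit 0) (nat_lit 4343059997) (nat_lit 228) (nat_lit 1024951540) (nat_lit 304) (nat_lit 1092655280) (nat_lit 637) (nat_lit 5) (nat_lit 640) (nat_lit 3) (nat_lit 641) (nat_lit 5) (nat_lit 384) (nat_lit 382) (nat_lit 374)) (XT.lf (nat_lit 0) (nat_lit 647402954) (nat_lit 304) (nat_lit 4410137011) (nat_lit 380) (nat_lit 1410370429) (nat_lit 633) (nat_lit 5) (nat_lit 637) (nat_lit 5) (nat_lit 638) (nat_lit 5) (nat_lit 385) (nat_lit 382) (nat_lit 373))))) (XT.nd (nat_lit 234) (nat_lit 456) (nat_lit 0) (XT.nd (nat_lit 78) (nat_lit 380) (nat_lit 0) (XT.lf (nat_lit 0) (nat_lit 3374817493) (nat_lit 304) (nat_lit 1311928633) (nat_lit 380) (nat_lit 1789661269) (nat_lit 633) (nat_lit 5) (nat_lit 637) (nat_lit 5) (nat_lit 638) (nat_lit 5) (nat_lit 386) (nat_lit 382) (nat_lit 372)) (XT.nd (nat_lit 78) (nat_lit 380) (nat_lit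 0) (XT.lf (nat_lit 76) (nat_lit 1834316787) (nat_lit 0) (nat_lit 4264284219) (nat_lit 380) (nat_lit 387732687) (nat_lit 634) (nat_lit 5) (nat_lit 633) (nat_lit 5) (nat_lit 638) (nat_lit 5) (nat_lit 387) (nat_lit 382) (nat_lit 371)) (XT.lf (nat_lit 0) (nat_lit 2288535337) (nat_lit 380) (nat_lit 1489275650) (nat_lit 456) (nat_lit 2719643420) (nat_lit 628) (nat_lit 5) (nat_lit 633) (nat_lit 5) (nat_lit 634) (nat_lit 5) (nat_lit 388) (nat_lit 382) (nat_lit 370)))) (XT.nd (nat_lit 156) (nat_lit 0) (nat_lit 0) (XT.nd (nat_lit 78) (nat_lit 456) (nat_lit 0) (XT.lf (nat_lit 76) (nat_lit 1718703166) (nat_lit 0) (nat_lit 3237451578) (nat_lit 456) (nat_lit 1553821425) (nat_lit 629) (nat_lit 5) (nat_lit 628) (nat_lit 5) (nat_lit 634) (nat_lit 5) (nat_lit 389) (nat_lit 382) (nat_lit 369)) (XT.lf (nat_lit 0) (nat_lit 1081712022) (nat_lit 456) (nat_lit 1557806171) (nat_lit 532) (nat_lit 3884317543) (nat_lit 622) (nat_lit 5)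 (nat_lit 628) (nat_lit 5) (nat_lit 629) (nat_lit 5) (nat_lit 390) (nat_lit 382) (nat_lit 368))) (XT.nd (nat_lit 78) (nat_lit 0) (nat_lit 0) (XT.lf (nat_lit 76) (nat_lit 1714560291) (nat_lit 0) (nat_lit 1979480630) (nat_lit 532) (nat_lit 2844913392) (nat_lit 623) (nat_lit 5) (nat_lit 622) (nat_lit 5) (nat_lit 629) (nat_lit 5) (nat_lit 391) (nat_lit 382) (nat_lit 367)) (XT.lf (nat_lit 76) (nat_lit 5035774069) (nat_lit 0) (nat_lit 1268089324) (nat_lit 532) (nat_lit 251690302) (nat_lit 623) (nat_lit 5) (nat_lit 622) (nat_lit 5) (nat_lit 629) (nat_lit 5) (nat_lit 392) (nat_lit 382) (nat_lit 366))))))))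
noncomputable def xc107 : XT := (XT.nd (nat_lit 2184) (nat_lit 14212) (nat_lit 0) (XT.nd (nat_lit 1092) (nat_lit 10944) (nat_lit 0) (XT.nd (nat_lit 546) (nat_lit 3724) (nat_lit 0) (XT.nd (nat_lit 234) (nat_lit 1368) (nat_lit 0) (XT.nd (nat_lit 78) (nat_lit 532) (nat_lit 0) (XT.lf (nat_lit 76) (nat_lit 1821361663) (nat_lit 0) (nat_lit 488039063) (nat_lit 608) (nat_lit 4263905821) (nat_lit 616) (nat_lit 5) (nat_lit 615) (nat_lit 5) (nat_lit 623) (nat_lit 5) (nat_lit 393) (nat_lit 382) (nat_lit 365)) (XT.nd (nat_lit 78) (nat_lit 608) (nat_lit 0) (XT.lf (nat_lit 0) (nat_lit 4867363722) (nat_lit 532) (nat_lit 1384193218) (nat_lit 76) (nat_lit 340922402) (nat_lit 616) (nat_lit 5) (nat_lit 623) (nat_lit 5) (nat_lit 617) (nat_lit 5) (nat_lit 394) (nat_lit 382) (nat_lit 364)) (XT.lf (nat_lit 0) (nat_lit 807180160) (nat_lit 608) (nat_lit 4582360266) (nat_lit 76) (nat_lit 1223377086) (nat_lit 608) (nat_lit 5) (nat_lit 616)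 (nat_lit 5) (nat_lit 609) (nat_lit 5) (nat_lit 395) (nat_lit 382) (nat_lit 363)))) (XT.nd (nat_lit 156) (nat_lit 760) (nat_lit 0) (XT.nd (nat_lit 78) (nat_lit 608) (nat_lit 0) (XT.lf (nat_lit 0) (nat_lit 3314877610) (nat_lit 608) (nat_lit 1151747579) (nat_lit 76) (nat_lit 2168028132) (nat_lit 608) (nat_lit 5) (nat_lit 616) (nat_lit 5) (nat_lit 609) (nat_lit 5) (nat_lit 396) (nat_lit 382) (nat_lit 362)) (XT.lf (nat_lit 0) (nat_lit 2339882389) (nat_lit 608) (nat_lit 3487728177) (nat_lit 684) (nat_lit 830188230) (nat_lit 600) (nat_lit 5) (nat_lit 608) (nat_lit 5) (nat_lit 609) (nat_lit 5) (nat_lit 397) (nat_lit 382) (nat_lit 361))) (XT.nd (nat_lit 78) (nat_lit 684) (nat_lit 0) (XT.lf (nat_lit 0) (nat_lit 1634716356) (nat_lit 684) (nat_lit 814339865) (nat_lit 76) (nat_lit 4233239947) (nat_lit 599) (nat_lit 5) (nat_lit 608) (nat_lit 5) (nat_lit 600) (nat_lit 5) (nat_lit 398) (nat_lit 382) (nat_lit 360)) (XT.lf (nat_lit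 0) (nat_lit 2751766784) (nat_lit 684) (nat_lit 1345247705) (nat_lit 760) (nat_lit 2611043410) (nat_lit 590) (nat_lit 5) (nat_lit 599) (nat_lit 5) (nat_lit 600) (nat_lit 5) (nat_lit 399) (nat_lit 382) (nat_lit 359))))) (XT.nd (nat_lit 234) (nat_lit 2052) (nat_lit 0) (XT.nd (nat_lit 78) (nat_lit 1672) (nat_lit 0) (XT.lf (nat_lit 0) (nat_lit 6362351631) (nat_lit 684) (nat_lit 193910927) (nat_lit 760) (nat_lit 179185283) (nat_lit 590) (nat_lit 5) (nat_lit 599) (nat_lit 5) (nat_lit 600) (nat_lit 5) (nat_lit 400) (nat_lit 382) (nat_lit 358)) (XT.nd (nat_lit 78) (nat_lit 836) (nat_lit 0) (XT.lf (nat_lit 0) (nat_lit 2242031810) (nat_lit 836) (nat_lit 3498828935) (nat_lit 76) (nat_lit 1022872378) (nat_lit 579) (nat_lit 5) (nat_lit 590) (nat_lit 5) (nat_lit 580) (nat_lit 5) (nat_lit 401) (nat_lit 382) (nat_lit 357)) (XT.lf (nat_lit 0) (nat_lit 148629977) (nat_lit 836) (nat_lit 4509341757) (nat_lit 912) (nat_lit 2135677919)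 (nat_lit 568) (nat_lit 5) (nat_lit 579) (nat_lit 5) (nat_lit 580) (nat_lit 5) (nat_lit 402) (nat_lit 382) (nat_lit 356)))) (XT.nd (nat_lit 156) (nat_lit 1064) (nat_lit 0) (XT.nd (nat_lit 78) (nat_lit 912) (nat_lit 0) (XT.lf (nat_lit 0) (nat_lit 262138269) (nat_lit 912) (nat_lit 2948883566) (nat_lit 76) (nat_lit 3613805079) (nat_lit 567) (nat_lit 5) (nat_lit 579) (nat_lit 5) (nat_lit 568) (nat_lit 5) (nat_lit 403) (nat_lit 382) (nat_lit 355)) (XT.lf (nat_lit 0) (nat_lit 778453502) (nat_lit 912) (nat_lit 1851379797) (nat_lit 988) (nat_lit 4227561244) (nat_lit 555) (nat_lit 5) (nat_lit 567) (nat_lit 5) (nat_lit 568) (nat_lit 5) (nat_lit 404) (nat_lit 382) (nat_lit 354))) (XT.nd (nat_lit 78) (nat_lit 1064) (nat_lit 0) (XT.lf (nat_lit 0) (nat_lit 4581777629) (nat_lit 912) (nat_lit 429151096) (nat_lit 988) (nat_lit 1880422244) (nat_lit 555) (nat_lit 5) (nat_lit 567) (nat_lit 5) (nat_lit 568) (nat_lit 5) (nat_lit 405)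 (nat_lit 382) (nat_lit 353)) (XT.lf (nat_lit 0) (nat_lit 470467533) (nat_lit 1064) (nat_lit 5420502128) (nat_lit 76) (nat_lit 1035735377) (nat_lit 541) (nat_lit 5) (nat_lit 555) (nat_lit 5) (nat_lit 542) (nat_lit 5) (nat_lit 406) (nat_lit 382) (nat_lit 352)))))) (XT.nd (nat_lit 546) (nat_lit 6080) (nat_lit 0) (XT.nd (nat_lit 234) (nat_lit 3724) (nat_lit 0) (XT.nd (nat_lit 78) (nat_lit 1140) (nat_lit 0) (XT.lf (nat_lit 0) (nat_lit 2809452713) (nat_lit 1064) (nat_lit 1587729707) (nat_lit 76) (nat_lit 2566065056) (nat_lit 541) (nat_lit 5) (nat_lit 555) (nat_lit 5) (nat_lit 542) (nat_lit 5) (nat_lit 407) (nat_lit 382) (nat_lit 351)) (XT.nd (nat_lit 78) (nat_lit 76) (nat_lit 0) (XT.lf (nat_lit 0) (nat_lit 2313334804) (nat_lit 1064) (nat_lit 2845715998) (nat_lit 1140) (nat_lit 1842247226) (nat_lit 527) (nat_lit 5) (nat_lit 541) (nat_lit 5) (nat_lit 542) (nat_lit 5) (nat_lit 408) (nat_lit 382) (nat_lit 350)) (XT.lf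 (nat_lit 0) (nat_lit 468676395) (nat_lit 1140) (nat_lit 768547255) (nat_lit 76) (nat_lit 5803672707) (nat_lit 526) (nat_lit 5) (nat_lit 541) (nat_lit 5) (nat_lit 527) (nat_lit 5) (nat_lit 409) (nat_lit 382) (nat_lit 349)))) (XT.nd (nat_lit 156) (nat_lit 1368) (nat_lit 0) (XT.nd (nat_lit 78) (nat_lit 1216) (nat_lit 0) (XT.lf (nat_lit 0) (nat_lit 2775176614) (nat_lit 1216) (nat_lit 3863692732) (nat_lit 76) (nat_lit 442744063) (nat_lit 511) (nat_lit 5) (nat_lit 527) (nat_lit 5) (nat_lit 512) (nat_lit 5) (nat_lit 410) (nat_lit 382) (nat_lit 348)) (XT.lf (nat_lit 0) (nat_lit 125656907) (nat_lit 1216) (nat_lit 4967328822) (nat_lit 1292) (nat_lit 2030905321) (nat_lit 495) (nat_lit 5) (nat_lit 511) (nat_lit 5) (nat_lit 512) (nat_lit 5) (nat_lit 411) (nat_lit 382) (nat_lit 347))) (XT.nd (nat_lit 78) (nat_lit 1292) (nat_lit 0) (XT.lf (nat_lit 0) (nat_lit 263748542) (nat_lit 1292) (nat_lit 2961078414) (nat_lit 76) (nat_lit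 3942649160) (nat_lit 494) (nat_lit 5) (nat_lit 511) (nat_lit 5) (nat_lit 495) (nat_lit 5) (nat_lit 412) (nat_lit 382) (nat_lit 346)) (XT.lf (nat_lit 0) (nat_lit 1119132500) (nat_lit 1292) (nat_lit 1417533121) (nat_lit 1368) (nat_lit 4675854448) (nat_lit 477) (nat_lit 5) (nat_lit 494) (nat_lit 5) (nat_lit 495) (nat_lit 5) (nat_lit 413) (nat_lit 382) (nat_lit 345))))) (XT.nd (nat_lit 234) (nat_lit 4636) (nat_lit 0) (XT.nd (nat_lit 78) (nat_lit 1444) (nat_lit 0) (XT.lf (nat_lit 0) (nat_lit 4830819945) (nat_lit 1368) (nat_lit 1979579658) (nat_lit 76) (nat_lit 448595748) (nat_lit 477) (nat_lit 5) (nat_lit 495) (nat_lit 5) (nat_lit 478) (nat_lit 5) (nat_lit 414) (nat_lit 382) (nat_lit 344)) (XT.nd (nat_lit 78) (nat_lit 76) (nat_lit 0) (XT.lf (nat_lit 0) (nat_lit 2197008250) (nat_lit 1368) (nat_lit 4951434165) (nat_lit 1444) (nat_lit 158451149) (nat_lit 459) (nat_lit 5) (nat_lit 477) (nat_lit 5) (nat_lit 478) (nat_lit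 5) (nat_lit 415) (nat_lit 382) (nat_lit 343)) (XT.lf (nat_lit 0) (nat_lit 2095995297) (nat_lit 1444) (nat_lit 924931013) (nat_lit 76) (nat_lit 4335234499) (nat_lit 458) (nat_lit 5) (nat_lit 477) (nat_lit 5) (nat_lit 459) (nat_lit 5) (nat_lit 416) (nat_lit 382) (nat_lit 342)))) (XT.nd (nat_lit 156) (nat_lit 1672) (nat_lit 0) (XT.nd (nat_lit 78) (nat_lit 1520) (nat_lit 0) (XT.lf (nat_lit 0) (nat_lit 3348035964) (nat_lit 1444) (nat_lit 1022250733) (nat_lit 1520) (nat_lit 3036610725) (nat_lit 439) (nat_lit 5) (nat_lit 458) (nat_lit 5) (nat_lit 459) (nat_lit 5) (nat_lit 417) (nat_lit 382) (nat_lit 341)) (XT.lf (nat_lit 0) (nat_lit 217428288) (nat_lit 1520) (nat_lit 6442701937) (nat_lit 1596) (nat_lit 799158906) (nat_lit 419) (nat_lit 5) (nat_lit 439) (nat_lit 5) (nat_lit 440) (nat_lit 5) (nat_lit 418) (nat_lit 382) (nat_lit 340))) (XT.nd (nat_lit 78) (nat_lit 1596) (nat_lit 0) (XT.lf (nat_lit 0) (nat_lit 1453870897)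 (nat_lit 1596) (nat_lit 2934124033) (nat_lit 76) (nat_lit 3124775650) (nat_lit 418) (nat_lit 5) (nat_lit 439) (nat_lit 5) (nat_lit 419) (nat_lit 5) (nat_lit 419) (nat_lit 382) (nat_lit 339)) (XT.lf (nat_lit 0) (nat_lit 1434441236) (nat_lit 1596) (nat_lit 2273095576) (nat_lit 1672) (nat_lit 3860392959) (nat_lit 397) (nat_lit 5) (nat_lit 418) (nat_lit 5) (nat_lit 419) (nat_lit 5) (nat_lit 420) (nat_lit 382) (nat_lit 338))))))) (XT.nd (nat_lit 1092) (nat_lit 6080) (nat_lit 0) (XT.nd (nat_lit 546) (nat_lit 3344) (nat_lit 0) (XT.nd (nat_lit 234) (nat_lit 3040) (nat_lit 0) (XT.nd (nat_lit 78) (nat_lit 1748) (nat_lit 0) (XT.lf (nat_lit 0) (nat_lit 5891559418) (nat_lit 1596) (nat_lit 91952551) (nat_lit 1672) (nat_lit 1641173973) (nat_lit 397) (nat_lit 5) (nat_lit 418) (nat_lit 5) (nat_lit 419) (nat_lit 5) (nat_lit 421) (nat_lit 382) (nat_lit 337)) (XT.nd (nat_lit 78) (nat_lit 0) (nat_lit 0) (XT.lf (nat_lit 0) (nat_lit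 604194589) (nat_lit 1748) (nat_lit 4948206528) (nat_lit 76) (nat_lit 2130333745) (nat_lit 374) (nat_lit 5) (nat_lit 397) (nat_lit 5) (nat_lit 375) (nat_lit 5) (nat_lit 422) (nat_lit 382) (nat_lit 336)) (XT.lf (nat_lit 0) (nat_lit 2843492888) (nat_lit 1748) (nat_lit 477297723) (nat_lit 76) (nat_lit 4421553526) (nat_lit 374) (nat_lit 5) (nat_lit 397) (nat_lit 5) (nat_lit 375) (nat_lit 5) (nat_lit 423) (nat_lit 382) (nat_lit 335)))) (XT.nd (nat_lit 156) (nat_lit 912) (nat_lit 0) (XT.nd (nat_lit 78) (nat_lit 836) (nat_lit 0) (XT.lf (nat_lit 0) (nat_lit 4098487377) (nat_lit 1292) (nat_lit 1015171415) (nat_lit 1368) (nat_lit 2689800755) (nat_lit 357) (nat_lit 5) (nat_lit 374) (nat_lit 5) (nat_lit 375) (nat_lit 5) (nat_lit 424) (nat_lit 382) (nat_lit 334)) (XT.lf (nat_lit 0) (nat_lit 870351207) (nat_lit 836) (nat_lit 6536461475) (nat_lit 912) (nat_lit 459467771) (nat_lit 346) (nat_lit 5) (nat_lit 357) (nat_lit 5) (nat_lit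 358) (nat_lit 5) (nat_lit 425) (nat_lit 382) (nat_lit 333))) (XT.nd (nat_lit 78) (nat_lit 836) (nat_lit 0) (XT.lf (nat_lit 0) (nat_lit 1783681333) (nat_lit 912) (nat_lit 2400327598) (nat_lit 76) (nat_lit 3746306241) (nat_lit 345) (nat_lit 5) (nat_lit 357) (nat_lit 5) (nat_lit 346) (nat_lit 5) (nat_lit 426) (nat_lit 382) (nat_lit 332)) (XT.lf (nat_lit 0) (nat_lit 2275561075) (nat_lit 836) (nat_lit 1765809048) (nat_lit 912) (nat_lit 3954716011) (nat_lit 334) (nat_lit 5) (nat_lit 345) (nat_lit 5) (nat_lit 346) (nat_lit 5) (nat_lit 427) (nat_lit 382) (nat_lit 331))))) (XT.nd (nat_lit 234) (nat_lit 1596) (nat_lit 0) (XT.nd (nat_lit 78) (nat_lit 1748) (nat_lit 0) (XT.lf (nat_lit 0) (nat_lit 6326542960) (nat_lit 912) (nat_lit 1028978604) (nat_lit 76) (nat_lit 708036574) (nat_lit 334) (nat_lit 5) (nat_lit 346) (nat_lit 5) (nat_lit 335) (nat_lit 5) (nat_lit 428) (nat_lit 382) (nat_lit 330)) (XT.nd (nat_lit 78) (nat_lit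 836) (nat_lit 0) (XT.lf (nat_lit 0) (nat_lit 516510787) (nat_lit 912) (nat_lit 4380091434) (nat_lit 76) (nat_lit 3235773016) (nat_lit 322) (nat_lit 5) (nat_lit 334) (nat_lit 5) (nat_lit 323) (nat_lit 5) (nat_lit 429) (nat_lit 382) (nat_lit 329)) (XT.lf (nat_lit 0) (nat_lit 395842351) (nat_lit 836) (nat_lit 2368084302) (nat_lit 912) (nat_lit 5439001201) (nat_lit 311) (nat_lit 5) (nat_lit 322) (nat_lit 5) (nat_lit 323) (nat_lit 5) (nat_lit 430) (nat_lit 382) (nat_lit 328)))) (XT.nd (nat_lit 156) (nat_lit 836) (nat_lit 0) (XT.nd (nat_lit 78) (nat_lit 760) (nat_lit 0) (XT.lf (nat_lit 0) (nat_lit 5050261851) (nat_lit 912) (nat_lit 2988197160) (nat_lit 76) (nat_lit 236582865) (nat_lit 311) (nat_lit 5) (nat_lit 323) (nat_lit 5) (nat_lit 312) (nat_lit 5) (nat_lit 431) (nat_lit 382) (nat_lit 327)) (XT.lf (nat_lit 0) (nat_lit 1898047186) (nat_lit 760) (nat_lit 5476021512) (nat_lit 836) (nat_lit 974723770) (nat_lit 301)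 (nat_lit 5) (nat_lit 311) (nat_lit 5) (nat_lit 312) (nat_lit 5) (nat_lit 432) (nat_lit 382) (nat_lit 326))) (XT.nd (nat_lit 78) (nat_lit 760) (nat_lit 0) (XT.lf (nat_lit 0) (nat_lit 1287140356) (nat_lit 836) (nat_lit 1548288176) (nat_lit 76) (nat_lit 5588763685) (nat_lit 300) (nat_lit 5) (nat_lit 311) (nat_lit 5) (nat_lit 301) (nat_lit 5) (nat_lit 433) (nat_lit 382) (nat_lit 325)) (XT.lf (nat_lit 0) (nat_lit 3453320446) (nat_lit 760) (nat_lit 114948300) (nat_lit 836) (nat_lit 4932988291) (nat_lit 290) (nat_lit 5) (nat_lit 300) (nat_lit 5) (nat_lit 301) (nat_lit 5) (nat_lit 434) (nat_lit 382) (nat_lit 324)))))) (XT.nd (nat_lit 546) (nat_lit 3116) (nat_lit 0) (XT.nd (nat_lit 234) (nat_lit 1444) (nat_lit 0) (XT.nd (nat_lit 78) (nat_lit 1520) (nat_lit 0) (XT.lf (nat_lit 0) (nat_lit 5887826633) (nat_lit 836) (nat_lit 59239065) (nat_lit 76) (nat_lit 2632968283) (nat_lit 290) (nat_lit 5) (nat_lit 301) (nat_lit 5) (nat_lit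 291) (nat_lit 5) (nat_lit 435) (nat_lit 382) (nat_lit 323)) (XT.nd (nat_lit 78) (nat_lit 836) (nat_lit 0) (XT.lf (nat_lit 0) (nat_lit 5057354681) (nat_lit 684) (nat_lit 3195780874) (nat_lit 760) (nat_lit 407290149) (nat_lit 281) (nat_lit 5) (nat_lit 290) (nat_lit 5) (nat_lit 291) (nat_lit 5) (nat_lit 436) (nat_lit 382) (nat_lit 322)) (XT.lf (nat_lit 0) (nat_lit 1504227812) (nat_lit 760) (nat_lit 369982684) (nat_lit 836) (nat_lit 6868468230) (nat_lit 270) (nat_lit 5) (nat_lit 280) (nat_lit 5) (nat_lit 281) (nat_lit 5) (nat_lit 437) (nat_lit 382) (nat_lit 321)))) (XT.nd (nat_lit 156) (nat_lit 760) (nat_lit 0) (XT.nd (nat_lit 78) (nat_lit 684) (nat_lit 0) (XT.lf (nat_lit 0) (nat_lit 4202886369) (nat_lit 836) (nat_lit 2120850461) (nat_lit 76) (nat_lit 2502671072) (nat_lit 270) (nat_lit 5) (nat_lit 281) (nat_lit 5) (nat_lit 271) (nat_lit 5) (nat_lit 438) (nat_lit 382) (nat_lit 320)) (XT.lf (nat_lit 0) (nat_lit 3099954029)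 (nat_lit 684) (nat_lit 3467762217) (nat_lit 760) (nat_lit 2344328229) (nat_lit 261) (nat_lit 5) (nat_lit 270) (nat_lit 5) (nat_lit 271) (nat_lit 5) (nat_lit 439) (nat_lit 382) (nat_lit 319))) (XT.nd (nat_lit 78) (nat_lit 760) (nat_lit 0) (XT.lf (nat_lit 0) (nat_lit 8416814839) (nat_lit 684) (nat_lit 544669282) (nat_lit 760) (nat_lit 38300777) (nat_lit 261) (nat_lit 5) (nat_lit 270) (nat_lit 5) (nat_lit 271) (nat_lit 5) (nat_lit 440) (nat_lit 382) (nat_lit 318)) (XT.lf (nat_lit 0) (nat_lit 2298323945) (nat_lit 760) (nat_lit 4343800347) (nat_lit 76) (nat_lit 2446581926) (nat_lit 251) (nat_lit 5) (nat_lit 261) (nat_lit 5) (nat_lit 252) (nat_lit 5) (nat_lit 441) (nat_lit 382) (nat_lit 317))))) (XT.nd (nat_lit 312) (nat_lit 1824) (nat_lit 0) (XT.nd (nat_lit 156) (nat_lit 684) (nat_lit 0) (XT.nd (nat_lit 78) (nat_lit 0) (nat_lit 0) (XT.lf (nat_lit 0) (nat_lit 979659116) (nat_lit 608) (nat_lit 3683591341) (nat_lit 684)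 (nat_lit 4516531368) (nat_lit 243) (nat_lit 5) (nat_lit 251) (nat_lit 5) (nat_lit 252) (nat_lit 5) (nat_lit 442) (nat_lit 382) (nat_lit 316)) (XT.lf (nat_lit 0) (nat_lit 6431497408) (nat_lit 608) (nat_lit 641687272) (nat_lit 684) (nat_lit 2199562200) (nat_lit 243) (nat_lit 5) (nat_lit 251) (nat_lit 5) (nat_lit 252) (nat_lit 5) (nat_lit 443) (nat_lit 382) (nat_lit 315))) (XT.nd (nat_lit 78) (nat_lit 0) (nat_lit 0) (XT.lf (nat_lit 0) (nat_lit 163631828) (nat_lit 684) (nat_lit 6762475771) (nat_lit 76) (nat_lit 2441422978) (nat_lit 234) (nat_lit 5) (nat_lit 243) (nat_lit 5) (nat_lit 235) (nat_lit 5) (nat_lit 444) (nat_lit 382) (nat_lit 314)) (XT.lf (nat_lit 0) (nat_lit 2537392996) (nat_lit 684) (nat_lit 1321008373) (nat_lit 76) (nat_lit 5605683534) (nat_lit 234) (nat_lit 5) (nat_lit 243) (nat_lit 5) (nat_lit 235) (nat_lit 5) (nat_lit 445) (nat_lit 382) (nat_lit 313)))) (XT.nd (nat_lit 156) (nat_lit 608) (nat_lit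 0) (XT.nd (nat_lit 78) (nat_lit 608) (nat_lit 0) (XT.lf (nat_lit 0) (nat_lit 4248700729) (nat_lit 608) (nat_lit 707402017) (nat_lit 684) (nat_lit 4606538540) (nat_lit 226) (nat_lit 5) (nat_lit 234) (nat_lit 5) (nat_lit 235) (nat_lit 5) (nat_lit 446) (nat_lit 382) (nat_lit 312)) (XT.lf (nat_lit 0) (nat_lit 234820123) (nat_lit 608) (nat_lit 7185292372) (nat_lit 684) (nat_lit 2243137822) (nat_lit 218) (nat_lit 5) (nat_lit 226) (nat_lit 5) (nat_lit 227) (nat_lit 5) (nat_lit 447) (nat_lit 382) (nat_lit 311))) (XT.nd (nat_lit 78) (nat_lit 532) (nat_lit 0) (XT.lf (nat_lit 0) (nat_lit 176250669) (nat_lit 684) (nat_lit 3841396883) (nat_lit 76) (nat_lit 5748003143) (nat_lit 217) (nat_lit 5) (nat_lit 226) (nat_lit 5) (nat_lit 218) (nat_lit 5) (nat_lit 448) (nat_lit 382) (nat_lit 310)) (XT.lf (nat_lit 0) (nat_lit 1830432483) (nat_lit 532) (nat_lit 766389607) (nat_lit 608) (nat_lit 7273342711) (nat_lit 210) (nat_lit 5) (nat_lit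 217) (nat_lit 5) (nat_lit 218) (nat_lit 5) (nat_lit 449) (nat_lit 382) (nat_lit 309))))))))
noncomputable def xc108 : XT := (XT.nd (nat_lit 2184) (nat_lit 4332) (nat_lit 0) (XT.nd (nat_lit 1092) (nat_lit 2964) (nat_lit 0) (XT.nd (nat_lit 546) (nat_lit 2052) (nat_lit 0) (XT.nd (nat_lit 234) (nat_lit 1596) (nat_lit 0) (XT.nd (nat_lit 78) (nat_lit 532) (nat_lit 0) (XT.lf (nat_lit 0) (nat_lit 5079518589) (nat_lit 608) (nat_lit 2361615946) (nat_lit 76) (nat_lit 2535378893) (nat_lit 210) (nat_lit 5) (nat_lit 218) (nat_lit 5) (nat_lit 211) (nat_lit 5) (nat_lit 450) (nat_lit 382) (nat_lit 308)) (XT.nd (nat_lit 78) (nat_lit 0) (nat_lit 0) (XT.lf (nat_lit 0) (nat_lit 3434337535) (nat_lit 532) (nat_lit 4176678967) (nat_lit 608) (nat_lit 2474007723) (nat_lit 203) (nat_lit 5) (nat_lit 210) (nat_lit 5) (nat_lit 211) (nat_lit 5) (nat_lit 451) (nat_lit 382) (nat_lit 307)) (XT.lf (nat_lit 0) (nat_lit 9342765481) (nat_lit 532)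 (nat_lit 838323877) (nat_lit 608) (nat_lit 14874772) (nat_lit 203) (nat_lit 5) (nat_lit 210) (nat_lit 5) (nat_lit 211) (nat_lit 5) (nat_lit 452) (nat_lit 382) (nat_lit 306)))) (XT.nd (nat_lit 156) (nat_lit 456) (nat_lit 0) (XT.nd (nat_lit 78) (nat_lit 532) (nat_lit 0) (XT.lf (nat_lit 0) (nat_lit 2483079786) (nat_lit 608) (nat_lit 5250178869) (nat_lit 76) (nat_lit 2575110682) (nat_lit 195) (nat_lit 5) (nat_lit 203) (nat_lit 5) (nat_lit 196) (nat_lit 5) (nat_lit 453) (nat_lit 382) (nat_lit 305)) (XT.lf (nat_lit 0) (nat_lit 643794290) (nat_lit 532) (nat_lit 4375205045) (nat_lit 608) (nat_lit 5404274010) (nat_lit 188) (nat_lit 5) (nat_lit 195) (nat_lit 5) (nat_lit 196) (nat_lit 5) (nat_lit 454) (nat_lit 382) (nat_lit 304))) (XT.nd (nat_lit 78) (nat_lit 456) (nat_lit 0) (XT.lf (nat_lit 0) (nat_lit 6691622020) (nat_lit 532) (nat_lit 922263131) (nat_lit 608) (nat_lit 2926441761) (nat_lit 188) (nat_lit 5) (nat_lit 195)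 (nat_lit 5) (nat_lit 196) (nat_lit 5) (nat_lit 455) (nat_lit 382) (nat_lit 303)) (XT.lf (nat_lit 0) (nat_lit 2177366736) (nat_lit 456) (nat_lit 8087811328) (nat_lit 532) (nat_lit 394469413) (nat_lit 182) (nat_lit 5) (nat_lit 188) (nat_lit 5) (nat_lit 189) (nat_lit 5) (nat_lit 456) (nat_lit 382) (nat_lit 302))))) (XT.nd (nat_lit 234) (nat_lit 1444) (nat_lit 0) (XT.nd (nat_lit 78) (nat_lit 532) (nat_lit 0) (XT.lf (nat_lit 0) (nat_lit 2165148163) (nat_lit 532) (nat_lit 2460325002) (nat_lit 76) (nat_lit 6155498567) (nat_lit 181) (nat_lit 5) (nat_lit 188) (nat_lit 5) (nat_lit 182) (nat_lit 5) (nat_lit 457) (nat_lit 382) (nat_lit 301)) (XT.nd (nat_lit 78) (nat_lit 0) (nat_lit 0) (XT.lf (nat_lit 0) (nat_lit 3693455175) (nat_lit 532) (nat_lit 1075322040) (nat_lit 608) (nat_lit 6135946273) (nat_lit 174) (nat_lit 5) (nat_lit 181) (nat_lit 5) (nat_lit 182) (nat_lit 5) (nat_lit 458) (nat_lit 382) (nat_lit 300)) (XT.lf (nat_lit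 0) (nat_lit 7431972698) (nat_lit 608) (nat_lit 1078284281) (nat_lit 76) (nat_lit 2520558311) (nat_lit 174) (nat_lit 5) (nat_lit 182) (nat_lit 5) (nat_lit 175) (nat_lit 5) (nat_lit 459) (nat_lit 382) (nat_lit 299)))) (XT.nd (nat_lit 156) (nat_lit 456) (nat_lit 0) (XT.nd (nat_lit 78) (nat_lit 532) (nat_lit 0) (XT.lf (nat_lit 0) (nat_lit 5204489096) (nat_lit 456) (nat_lit 4959703565) (nat_lit 532) (nat_lit 994935649) (nat_lit 168) (nat_lit 5) (nat_lit 174) (nat_lit 5) (nat_lit 175) (nat_lit 5) (nat_lit 460) (nat_lit 382) (nat_lit 298)) (XT.lf (nat_lit 0) (nat_lit 296598786) (nat_lit 456) (nat_lit 1326818366) (nat_lit 532) (nat_lit 9666705723) (nat_lit 161) (nat_lit 5) (nat_lit 167) (nat_lit 5) (nat_lit 168) (nat_lit 5) (nat_lit 461) (nat_lit 382) (nat_lit 297))) (XT.nd (nat_lit 78) (nat_lit 456) (nat_lit 0) (XT.lf (nat_lit 0) (nat_lit 4311650075) (nat_lit 532) (nat_lit 4726013582) (nat_lit 76) (nat_lit 2385339190)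 (nat_lit 161) (nat_lit 5) (nat_lit 168) (nat_lit 5) (nat_lit 162) (nat_lit 5) (nat_lit 462) (nat_lit 382) (nat_lit 296)) (XT.lf (nat_lit 0) (nat_lit 1645965217) (nat_lit 456) (nat_lit 5402798320) (nat_lit 532) (nat_lit 4509888050) (nat_lit 155) (nat_lit 5) (nat_lit 161) (nat_lit 5) (nat_lit 162) (nat_lit 5) (nat_lit 463) (nat_lit 382) (nat_lit 295)))))) (XT.nd (nat_lit 546) (nat_lit 1520) (nat_lit 0) (XT.nd (nat_lit 234) (nat_lit 912) (nat_lit 0) (XT.nd (nat_lit 78) (nat_lit 532) (nat_lit 0) (XT.lf (nat_lit 0) (nat_lit 8175985375) (nat_lit 456) (nat_lit 1672250592) (nat_lit 532) (nat_lit 1848638220) (nat_lit 155) (nat_lit 5) (nat_lit 161) (nat_lit 5) (nat_lit 162) (nat_lit 5) (nat_lit 464) (nat_lit 382) (nat_lit 294)) (XT.nd (nat_lit 78) (nat_lit 0) (nat_lit 0) (XT.lf (nat_lit 0) (nat_lit 864114340) (nat_lit 532) (nat_lit 8852475323) (nat_lit 76) (nat_lit 2120979184) (nat_lit 148) (nat_lit 5) (nat_lit 155) (nat_lit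 5) (nat_lit 149) (nat_lit 5) (nat_lit 465) (nat_lit 382) (nat_lit 293)) (XT.lf (nat_lit 0) (nat_lit 3617647708) (nat_lit 532) (nat_lit 2368494231) (nat_lit 76) (nat_lit 5994477948) (nat_lit 148) (nat_lit 5) (nat_lit 155) (nat_lit 5) (nat_lit 149) (nat_lit 5) (nat_lit 466) (nat_lit 382) (nat_lit 292)))) (XT.nd (nat_lit 156) (nat_lit 532) (nat_lit 0) (XT.nd (nat_lit 78) (nat_lit 0) (nat_lit 0) (XT.lf (nat_lit 0) (nat_lit 4268463999) (nat_lit 380) (nat_lit 2162362119) (nat_lit 456) (nat_lit 5695626554) (nat_lit 143) (nat_lit 5) (nat_lit 148) (nat_lit 5) (nat_lit 149) (nat_lit 5) (nat_lit 467) (nat_lit 382) (nat_lit 291)) (XT.lf (nat_lit 0) (nat_lit 9304592177) (nat_lit 456) (nat_lit 1248882974) (nat_lit 76) (nat_lit 1721652455) (nat_lit 143) (nat_lit 5) (nat_lit 149) (nat_lit 5) (nat_lit 144) (nat_lit 5) (nat_lit 468) (nat_lit 382) (nat_lit 290))) (XT.nd (nat_lit 78) (nat_lit 76) (nat_lit 0) (XT.lf (nat_lit 0) (nat_lit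 5518224838) (nat_lit 456) (nat_lit 6745248566) (nat_lit 532) (nat_lit 162761576) (nat_lit 137) (nat_lit 5) (nat_lit 143) (nat_lit 5) (nat_lit 144) (nat_lit 5) (nat_lit 469) (nat_lit 382) (nat_lit 289)) (XT.lf (nat_lit 0) (nat_lit 2651743779) (nat_lit 532) (nat_lit 192516015) (nat_lit 76) (nat_lit 9736045188) (nat_lit 136) (nat_lit 5) (nat_lit 143) (nat_lit 5) (nat_lit 137) (nat_lit 5) (nat_lit 470) (nat_lit 382) (nat_lit 288))))) (XT.nd (nat_lit 234) (nat_lit 760) (nat_lit 0) (XT.nd (nat_lit 78) (nat_lit 380) (nat_lit 0) (XT.lf (nat_lit 0) (nat_lit 5549550590) (nat_lit 456) (nat_lit 6032063705) (nat_lit 76) (nat_lit 1155247818) (nat_lit 131) (nat_lit 5) (nat_lit 137) (nat_lit 5) (nat_lit 132) (nat_lit 5) (nat_lit 471) (nat_lit 382) (nat_lit 287)) (XT.nd (nat_lit 78) (nat_lit 0) (nat_lit 0) (XT.lf (nat_lit 0) (nat_lit 806000060) (nat_lit 380) (nat_lit 7702852914) (nat_lit 456) (nat_lit 4387637471) (nat_lit 126)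 (nat_lit 5) (nat_lit 131) (nat_lit 5) (nat_lit 132) (nat_lit 5) (nat_lit 472) (nat_lit 382) (nat_lit 286)) (XT.lf (nat_lit 0) (nat_lit 7830930747) (nat_lit 380) (nat_lit 3715281216) (nat_lit 456) (nat_lit 1512732600) (nat_lit 126) (nat_lit 5) (nat_lit 131) (nat_lit 5) (nat_lit 132) (nat_lit 5) (nat_lit 473) (nat_lit 382) (nat_lit 285)))) (XT.nd (nat_lit 156) (nat_lit 380) (nat_lit 0) (XT.nd (nat_lit 78) (nat_lit 0) (nat_lit 0) (XT.lf (nat_lit 0) (nat_lit 1393462930) (nat_lit 380) (nat_lit 11472862233) (nat_lit 76) (nat_lit 358300235) (nat_lit 121) (nat_lit 5) (nat_lit 126) (nat_lit 5) (nat_lit 122) (nat_lit 5) (nat_lit 474) (nat_lit 382) (nat_lit 284)) (XT.lf (nat_lit 0) (nat_lit 4376281968) (nat_lit 380) (nat_lit 4517265125) (nat_lit 76) (nat_lit 4499107691) (nat_lit 121) (nat_lit 5) (nat_lit 126) (nat_lit 5) (nat_lit 122) (nat_lit 5) (nat_lit 475) (nat_lit 382) (nat_lit 283))) (XT.nd (nat_lit 78) (nat_lit 0)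 (nat_lit 0) (XT.lf (nat_lit 0) (nat_lit 2580409223) (nat_lit 380) (nat_lit 4834333833) (nat_lit 456) (nat_lit 6149391810) (nat_lit 116) (nat_lit 5) (nat_lit 121) (nat_lit 5) (nat_lit 122) (nat_lit 5) (nat_lit 476) (nat_lit 382) (nat_lit 282)) (XT.lf (nat_lit 0) (nat_lit 9850595684) (nat_lit 380) (nat_lit 673130911) (nat_lit 456) (nat_lit 3215132521) (nat_lit 116) (nat_lit 5) (nat_lit 121) (nat_lit 5) (nat_lit 122) (nat_lit 5) (nat_lit 477) (nat_lit 382) (nat_lit 281))))))) (XT.nd (nat_lit 1092) (nat_lit 1976) (nat_lit 0) (XT.nd (nat_lit 546) (nat_lit 912) (nat_lit 0) (XT.nd (nat_lit 234) (nat_lit 684) (nat_lit 0) (XT.nd (nat_lit 78) (nat_lit 456) (nat_lit 0) (XT.lf (nat_lit 0) (nat_lit 3339295422) (nat_lit 304) (nat_lit 10380241285) (nat_lit 380) (nat_lit 197057646) (nat_lit 112) (nat_lit 5) (nat_lit 116) (nat_lit 5) (nat_lit 117) (nat_lit 5) (nat_lit 478) (nat_lit 382) (nat_lit 280)) (XT.nd (nat_lit 78) (nat_lit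 380) (nat_lit 0) (XT.lf (nat_lit 0) (nat_lit 2854149154) (nat_lit 380) (nat_lit 3387086728) (nat_lit 76) (nat_lit 7856072127) (nat_lit 111) (nat_lit 5) (nat_lit 116) (nat_lit 5) (nat_lit 112) (nat_lit 5) (nat_lit 479) (nat_lit 382) (nat_lit 279)) (XT.lf (nat_lit 0) (nat_lit 3967762894) (nat_lit 380) (nat_lit 2001975074) (nat_lit 456) (nat_lit 8311760885) (nat_lit 106) (nat_lit 5) (nat_lit 111) (nat_lit 5) (nat_lit 112) (nat_lit 5) (nat_lit 480) (nat_lit 382) (nat_lit 278)))) (XT.nd (nat_lit 156) (nat_lit 380) (nat_lit 0) (XT.nd (nat_lit 78) (nat_lit 304) (nat_lit 0) (XT.lf (nat_lit 0) (nat_lit 9165956277) (nat_lit 456) (nat_lit 2998560943) (nat_lit 76) (nat_lit 2304498662) (nat_lit 106) (nat_lit 5) (nat_lit 112) (nat_lit 5) (nat_lit 107) (nat_lit 5) (nat_lit 481) (nat_lit 382) (nat_lit 277)) (XT.lf (nat_lit 0) (nat_lit 4478953283) (nat_lit 304) (nat_lit 7970230817) (nat_lit 380) (nat_lit 2210646000) (nat_lit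 102) (nat_lit 5) (nat_lit 106) (nat_lit 5) (nat_lit 107) (nat_lit 5) (nat_lit 482) (nat_lit 382) (nat_lit 276))) (XT.nd (nat_lit 78) (nat_lit 304) (nat_lit 0) (XT.lf (nat_lit 0) (nat_lit 932295103) (nat_lit 380) (nat_lit 2743172019) (nat_lit 76) (nat_lit 11178858068) (nat_lit 101) (nat_lit 5) (nat_lit 106) (nat_lit 5) (nat_lit 102) (nat_lit 5) (nat_lit 483) (nat_lit 382) (nat_lit 275)) (XT.lf (nat_lit 0) (nat_lit 4126094356) (nat_lit 380) (nat_lit 10193496234) (nat_lit 76) (nat_lit 732483406) (nat_lit 97) (nat_lit 5) (nat_lit 102) (nat_lit 5) (nat_lit 98) (nat_lit 5) (nat_lit 484) (nat_lit 382) (nat_lit 274))))) (XT.nd (nat_lit 234) (nat_lit 608) (nat_lit 0) (XT.nd (nat_lit 78) (nat_lit 304) (nat_lit 0) (XT.lf (nat_lit 0) (nat_lit 7407933497) (nat_lit 380) (nat_lit 2657389426) (nat_lit 76) (nat_lit 5187979476) (nat_lit 97) (nat_lit 5) (nat_lit 102) (nat_lit 5) (nat_lit 98) (nat_lit 5) (nat_lit 485) (nat_lit 382)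 (nat_lit 273)) (XT.nd (nat_lit 78) (nat_lit 0) (nat_lit 0) (XT.lf (nat_lit 0) (nat_lit 5067405311) (nat_lit 304) (nat_lit 5702564895) (nat_lit 380) (nat_lit 4688301694) (nat_lit 93) (nat_lit 5) (nat_lit 97) (nat_lit 5) (nat_lit 98) (nat_lit 5) (nat_lit 486) (nat_lit 382) (nat_lit 272)) (XT.lf (nat_lit 0) (nat_lit 12954410881) (nat_lit 304) (nat_lit 1244504905) (nat_lit 380) (nat_lit 1468439235) (nat_lit 93) (nat_lit 5) (nat_lit 97) (nat_lit 5) (nat_lit 98) (nat_lit 5) (nat_lit 487) (nat_lit 382) (nat_lit 271)))) (XT.nd (nat_lit 156) (nat_lit 228) (nat_lit 0) (XT.nd (nat_lit 78) (nat_lit 0) (nat_lit 0) (XT.lf (nat_lit 0) (nat_lit 1829162463) (nat_lit 380) (nat_lit 10755515271) (nat_lit 76) (nat_lit 3294970442) (nat_lit 88) (nat_lit 5) (nat_lit 93) (nat_lit 5) (nat_lit 89) (nat_lit 5) (nat_lit 488) (nat_lit 382) (nat_lit 270)) (XT.lf (nat_lit 0) (nat_lit 5181812113) (nat_lit 380) (nat_lit 2987294228) (nat_lit 76)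 (nat_lit 7926718714) (nat_lit 88) (nat_lit 5) (nat_lit 93) (nat_lit 5) (nat_lit 89) (nat_lit 5) (nat_lit 489) (nat_lit 382) (nat_lit 269))) (XT.nd (nat_lit 78) (nat_lit 0) (nat_lit 0) (XT.lf (nat_lit 0) (nat_lit 4973966659) (nat_lit 228) (nat_lit 3642364286) (nat_lit 304) (nat_lit 7699705218) (nat_lit 85) (nat_lit 5) (nat_lit 88) (nat_lit 5) (nat_lit 89) (nat_lit 5) (nat_lit 490) (nat_lit 382) (nat_lit 268)) (XT.lf (nat_lit 0) (nat_lit 12128670514) (nat_lit 304) (nat_lit 3439432306) (nat_lit 76) (nat_lit 972372943) (nat_lit 85) (nat_lit 5) (nat_lit 89) (nat_lit 5) (nat_lit 86) (nat_lit 5) (nat_lit 491) (nat_lit 382) (nat_lit 267)))))) (XT.nd (nat_lit 546) (nat_lit 760) (nat_lit 0) (XT.nd (nat_lit 234) (nat_lit 608) (nat_lit 0) (XT.nd (nat_lit 78) (nat_lit 304) (nat_lit 0) (XT.lf (nat_lit 0) (nat_lit 4630746019) (nat_lit 304) (nat_lit 11117660608) (nat_lit 380) (nat_lit 1020261276) (nat_lit 81) (nat_lit 5) (nat_lit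 85) (nat_lit 5) (nat_lit 86) (nat_lit 5) (nat_lit 492) (nat_lit 382) (nat_lit 266)) (XT.nd (nat_lit 78) (nat_lit 228) (nat_lit 0) (XT.lf (nat_lit 0) (nat_lit 2413360504) (nat_lit 380) (nat_lit 4135178134) (nat_lit 76) (nat_lit 10452450274) (nat_lit 80) (nat_lit 5) (nat_lit 85) (nat_lit 5) (nat_lit 81) (nat_lit 5) (nat_lit 493) (nat_lit 382) (nat_lit 265)) (XT.lf (nat_lit 0) (nat_lit 4047300767) (nat_lit 228) (nat_lit 1864319547) (nat_lit 304) (nat_lit 11326014964) (nat_lit 77) (nat_lit 5) (nat_lit 80) (nat_lit 5) (nat_lit 81) (nat_lit 5) (nat_lit 494) (nat_lit 382) (nat_lit 264)))) (XT.nd (nat_lit 156) (nat_lit 304) (nat_lit 0) (XT.nd (nat_lit 78) (nat_lit 304) (nat_lit 0) (XT.lf (nat_lit 0) (nat_lit 9510121814) (nat_lit 304) (nat_lit 5074818151) (nat_lit 76) (nat_lit 2893475307) (nat_lit 77) (nat_lit 5) (nat_lit 81) (nat_lit 5) (nat_lit 78) (nat_lit 5) (nat_lit 495) (nat_lit 382) (nat_lit 263)) (XT.lf (nat_lit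 0) (nat_lit 3206499643) (nat_lit 304) (nat_lit 9991010457) (nat_lit 380) (nat_lit 4526168536) (nat_lit 73) (nat_lit 5) (nat_lit 77) (nat_lit 5) (nat_lit 78) (nat_lit 5) (nat_lit 496) (nat_lit 382) (nat_lit 262))) (XT.nd (nat_lit 78) (nat_lit 304) (nat_lit 0) (XT.lf (nat_lit 0) (nat_lit 11696190541) (nat_lit 304) (nat_lit 5280411366) (nat_lit 380) (nat_lit 996892233) (nat_lit 73) (nat_lit 5) (nat_lit 77) (nat_lit 5) (nat_lit 78) (nat_lit 5) (nat_lit 497) (nat_lit 382) (nat_lit 261)) (XT.lf (nat_lit 0) (nat_lit 2112423854) (nat_lit 228) (nat_lit 454228983) (nat_lit 304) (nat_lit 15661364434) (nat_lit 69) (nat_lit 5) (nat_lit 72) (nat_lit 5) (nat_lit 73) (nat_lit 5) (nat_lit 498) (nat_lit 382) (nat_lit 260))))) (XT.nd (nat_lit 234) (nat_lit 532) (nat_lit 0) (XT.nd (nat_lit 78) (nat_lit 228) (nat_lit 0) (XT.lf (nat_lit 0) (nat_lit 6243736310) (nat_lit 304) (nat_lit 7793482658) (nat_lit 76) (nat_lit 4449173432) (nat_lit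 69) (nat_lit 5) (nat_lit 73) (nat_lit 5) (nat_lit 70) (nat_lit 5) (nat_lit 499) (nat_lit 382) (nat_lit 259)) (XT.nd (nat_lit 78) (nat_lit 0) (nat_lit 0) (XT.lf (nat_lit 0) (nat_lit 675591887) (nat_lit 228) (nat_lit 9310662244) (nat_lit 304) (nat_lit 8763848578) (nat_lit 66) (nat_lit 5) (nat_lit 69) (nat_lit 5) (nat_lit 70) (nat_lit 5) (nat_lit 500) (nat_lit 382) (nat_lit 258)) (XT.lf (nat_lit 0) (nat_lit 9394526484) (nat_lit 228) (nat_lit 4446032922) (nat_lit 304) (nat_lit 5177794499) (nat_lit 66) (nat_lit 5) (nat_lit 69) (nat_lit 5) (nat_lit 70) (nat_lit 5) (nat_lit 501) (nat_lit 382) (nat_lit 257)))) (XT.nd (nat_lit 156) (nat_lit 228) (nat_lit 0) (XT.nd (nat_lit 78) (nat_lit 304) (nat_lit 0) (XT.lf (nat_lit 0) (nat_lit 17760177808) (nat_lit 304) (nat_lit 1032394698) (nat_lit 76) (nat_lit 499638393) (nat_lit 66) (nat_lit 5) (nat_lit 70) (nat_lit 5) (nat_lit 67) (nat_lit 5) (nat_lit 502) (nat_lit 382) (nat_lit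 256)) (XT.lf (nat_lit 0) (nat_lit 2223515993) (nat_lit 304) (nat_lit 11805856485) (nat_lit 76) (nat_lit 5540582711) (nat_lit 62) (nat_lit 5) (nat_lit 66) (nat_lit 5) (nat_lit 63) (nat_lit 5) (nat_lit 503) (nat_lit 382) (nat_lit 255))) (XT.nd (nat_lit 78) (nat_lit 228) (nat_lit 0) (XT.lf (nat_lit 0) (nat_lit 6025859963) (nat_lit 304) (nat_lit 3137258499) (nat_lit 76) (nat_lit 10690094419) (nat_lit 62) (nat_lit 5) (nat_lit 66) (nat_lit 5) (nat_lit 63) (nat_lit 5) (nat_lit 504) (nat_lit 382) (nat_lit 254)) (XT.lf (nat_lit 0) (nat_lit 5756217771) (nat_lit 228) (nat_lit 4170901184) (nat_lit 304) (nat_lit 10214564322) (nat_lit 59) (nat_lit 5) (nat_lit 62) (nat_lit 5) (nat_lit 63) (nat_lit 5) (nat_lit 505) (nat_lit 382) (nat_lit 253))))))))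
noncomputable def xc109 : XT := (XT.nd (nat_lit 50154) (nat_lit 0) (nat_lit 32300) (XT.nd (nat_lit 1092) (nat_lit 532) (nat_lit 0) (XT.nd (nat_lit 546) (nat_lit 760) (nat_lit 0) (XT.nd (nat_lit 234) (nat_lit 380) (nat_lit 0) (XT.nd (nat_lit 78) (nat_lit 304) (nat_lit 0) (XT.lf (nat_lit 0) (nat_lit 13919139259) (nat_lit 304) (nat_lit 5595592934) (nat_lit 76) (nat_lit 920940980) (nat_lit 59) (nat_lit 5) (nat_lit 63) (nat_lit 5) (nat_lit 60) (nat_lit 5) (nat_lit 506) (nat_lit 382) (nat_lit 252)) (XT.nd (nat_lit 78) (nat_lit 76) (nat_lit 0) (XT.lf (nat_lit 0) (nat_lit 3362972359) (nat_lit 228) (nat_lit 14663330460) (nat_lit 304) (nat_lit 2708538711) (nat_lit 56) (nat_lit 5) (nat_lit 59) (nat_lit 5) (nat_lit 60) (nat_lit 5) (nat_lit 507) (nat_lit 382) (nat_lit 251)) (XT.lf (nat_lit 0) (nat_lit 1183870268) (nat_lit 304) (nat_lit 8494191053) (nat_lit 76) (nat_lit 11361310369) (nat_lit 55) (nat_lit 5) (nat_lit 59) (nat_lit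 5) (nat_lit 56) (nat_lit 5) (nat_lit 508) (nat_lit 382) (nat_lit 250)))) (XT.nd (nat_lit 156) (nat_lit 152) (nat_lit 0) (XT.nd (nat_lit 78) (nat_lit 0) (nat_lit 0) (XT.lf (nat_lit 0) (nat_lit 526850349) (nat_lit 228) (nat_lit 4580615531) (nat_lit 304) (nat_lit 16242380834) (nat_lit 52) (nat_lit 5) (nat_lit 55) (nat_lit 5) (nat_lit 56) (nat_lit 5) (nat_lit 509) (nat_lit 382) (nat_lit 249)) (XT.lf (nat_lit 0) (nat_lit 9157142006) (nat_lit 304) (nat_lit 11849561573) (nat_lit 76) (nat_lit 658879852) (nat_lit 52) (nat_lit 5) (nat_lit 56) (nat_lit 5) (nat_lit 53) (nat_lit 5) (nat_lit 510) (nat_lit 382) (nat_lit 248))) (XT.nd (nat_lit 78) (nat_lit 152) (nat_lit 0) (XT.lf (nat_lit 0) (nat_lit 13304630281) (nat_lit 304) (nat_lit 2749766722) (nat_lit 76) (nat_lit 5932905780) (nat_lit 52) (nat_lit 5) (nat_lit 56) (nat_lit 5) (nat_lit 53) (nat_lit 5) (nat_lit 511) (nat_lit 382) (nat_lit 247)) (XT.lf (nat_lit 0) (nat_lit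 6596207575) (nat_lit 152) (nat_lit 10968436158) (nat_lit 228) (nat_lit 4750225474) (nat_lit 50) (nat_lit 5) (nat_lit 52) (nat_lit 5) (nat_lit 53) (nat_lit 5) (nat_lit 512) (nat_lit 382) (nat_lit 246))))) (XT.nd (nat_lit 234) (nat_lit 456) (nat_lit 0) (XT.nd (nat_lit 78) (nat_lit 304) (nat_lit 0) (XT.lf (nat_lit 0) (nat_lit 16144195161) (nat_lit 152) (nat_lit 5770978960) (nat_lit 228) (nat_lit 733710615) (nat_lit 50) (nat_lit 5) (nat_lit 52) (nat_lit 5) (nat_lit 53) (nat_lit 5) (nat_lit 513) (nat_lit 382) (nat_lit 245)) (XT.nd (nat_lit 78) (nat_lit 0) (nat_lit 0) (XT.lf (nat_lit 0) (nat_lit 2887677238) (nat_lit 228) (nat_lit 437130488) (nat_lit 304) (nat_lit 19664224460) (nat_lit 46) (nat_lit 5) (nat_lit 49) (nat_lit 5) (nat_lit 50) (nat_lit 5) (nat_lit 514) (nat_lit 382) (nat_lit 244)) (XT.lf (nat_lit 0) (nat_lit 7518193080) (nat_lit 304) (nat_lit 10838659061) (nat_lit 76) (nat_lit 4977766899) (nat_lit 46) (nat_lit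 5) (nat_lit 50) (nat_lit 5) (nat_lit 47) (nat_lit 5) (nat_lit 515) (nat_lit 382) (nat_lit 243)))) (XT.nd (nat_lit 156) (nat_lit 304) (nat_lit 0) (XT.nd (nat_lit 78) (nat_lit 152) (nat_lit 0) (XT.lf (nat_lit 0) (nat_lit 11785681755) (nat_lit 304) (nat_lit 1415153376) (nat_lit 76) (nat_lit 10486481584) (nat_lit 46) (nat_lit 5) (nat_lit 50) (nat_lit 5) (nat_lit 47) (nat_lit 5) (nat_lit 516) (nat_lit 382) (nat_lit 242)) (XT.lf (nat_lit 0) (nat_lit 8284346432) (nat_lit 152) (nat_lit 7895550175) (nat_lit 228) (nat_lit 7866347931) (nat_lit 44) (nat_lit 5) (nat_lit 46) (nat_lit 5) (nat_lit 47) (nat_lit 5) (nat_lit 517) (nat_lit 382) (nat_lit 241))) (XT.nd (nat_lit 78) (nat_lit 304) (nat_lit 0) (XT.lf (nat_lit 0) (nat_lit 18176031321) (nat_lit 152) (nat_lit 2483156878) (nat_lit 228) (nat_lit 3753222518) (nat_lit 44) (nat_lit 5) (nat_lit 46) (nat_lit 5) (nat_lit 47) (nat_lit 5) (nat_lit 518) (nat_lit 382) (nat_lit 240))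 (XT.lf (nat_lit 0) (nat_lit 466792419) (nat_lit 304) (nat_lit 21303502956) (nat_lit 76) (nat_lit 3014942416) (nat_lit 40) (nat_lit 5) (nat_lit 44) (nat_lit 5) (nat_lit 41) (nat_lit 5) (nat_lit 519) (nat_lit 382) (nat_lit 239)))))) (XT.nd (nat_lit 546) (nat_lit 152) (nat_lit 0) (XT.nd (nat_lit 234) (nat_lit 228) (nat_lit 0) (XT.nd (nat_lit 78) (nat_lit 152) (nat_lit 0) (XT.lf (nat_lit 0) (nat_lit 4767472911) (nat_lit 304) (nat_lit 11748308290) (nat_lit 76) (nat_lit 8648317049) (nat_lit 40) (nat_lit 5) (nat_lit 44) (nat_lit 5) (nat_lit 41) (nat_lit 5) (nat_lit 520) (nat_lit 382) (nat_lit 238)) (XT.nd (nat_lit 78) (nat_lit 152) (nat_lit 0) (XT.lf (nat_lit 0) (nat_lit 9142306858) (nat_lit 304) (nat_lit 2022395333) (nat_lit 76) (nat_lit 14386074300) (nat_lit 40) (nat_lit 5) (nat_lit 44) (nat_lit 5) (nat_lit 41) (nat_lit 5) (nat_lit 521) (nat_lit 382) (nat_lit 237)) (XT.lf (nat_lit 0) (nat_lit 7982745134) (nat_lit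 152) (nat_lit 5662094025) (nat_lit 228) (nat_lit 12299548412) (nat_lit 38) (nat_lit 5) (nat_lit 40) (nat_lit 5) (nat_lit 41) (nat_lit 5) (nat_lit 522) (nat_lit 382) (nat_lit 236)))) (XT.nd (nat_lit 156) (nat_lit 76) (nat_lit 0) (XT.nd (nat_lit 78) (nat_lit 152) (nat_lit 0) (XT.lf (nat_lit 0) (nat_lit 18195548112) (nat_lit 152) (nat_lit 43916812) (nat_lit 228) (nat_lit 8106368331) (nat_lit 38) (nat_lit 5) (nat_lit 40) (nat_lit 5) (nat_lit 41) (nat_lit 5) (nat_lit 523) (nat_lit 382) (nat_lit 235)) (XT.lf (nat_lit 0) (nat_lit 1824667476) (nat_lit 152) (nat_lit 21138728549) (nat_lit 228) (nat_lit 3791166749) (nat_lit 36) (nat_lit 5) (nat_lit 38) (nat_lit 5) (nat_lit 39) (nat_lit 5) (nat_lit 524) (nat_lit 382) (nat_lit 234))) (XT.nd (nat_lit 78) (nat_lit 0) (nat_lit 0) (XT.lf (nat_lit 0) (nat_lit 646342772) (nat_lit 228) (nat_lit 15085056214) (nat_lit 76) (nat_lit 11439111525) (nat_lit 35) (nat_lit 5) (nat_lit 38)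 (nat_lit 5) (nat_lit 36) (nat_lit 5) (nat_lit 525) (nat_lit 382) (nat_lit 233)) (XT.lf (nat_lit 0) (nat_lit 5110771375) (nat_lit 228) (nat_lit 5087707633) (nat_lit 76) (nat_lit 17396021342) (nat_lit 35) (nat_lit 5) (nat_lit 38) (nat_lit 5) (nat_lit 36) (nat_lit 5) (nat_lit 526) (nat_lit 382) (nat_lit 232))))) (XT.nd (nat_lit 48204) (nat_lit 0) (nat_lit 45144) (XT.nd (nat_lit 78) (nat_lit 0) (nat_lit 0) (XT.lf (nat_lit 0) (nat_lit 5158338275) (nat_lit 152) (nat_lit 4528744728) (nat_lit 228) (nat_lit 18339438030) (nat_lit 33) (nat_lit 5) (nat_lit 35) (nat_lit 5) (nat_lit 36) (nat_lit 5) (nat_lit 527) (nat_lit 382) (nat_lit 231)) (XT.nd (nat_lit 48048) (nat_lit 0) (nat_lit 45904) (XT.lf (nat_lit 0) (nat_lit 14386575538) (nat_lit 228) (nat_lit 12815544422) (nat_lit 76) (nat_lit 1264431954) (nat_lit 33) (nat_lit 5) (nat_lit 36) (nat_lit 5) (nat_lit 34) (nat_lit 5) (nat_lit 528) (nat_lit 382) (nat_lit 230)) (XT.lf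 (nat_lit 0) (nat_lit 1079280609) (nat_lit 0) (nat_lit 1079280609) (nat_lit 228) (nat_lit 1071402353) (nat_lit 637) (nat_lit 5) (nat_lit 637) (nat_lit 3) (nat_lit 640) (nat_lit 3) (nat_lit 383) (nat_lit 383) (nat_lit 374)))) (XT.nd (nat_lit 156) (nat_lit 380) (nat_lit 0) (XT.nd (nat_lit 78) (nat_lit 0) (nat_lit 0) (XT.lf (nat_lit 0) (nat_lit 589087130) (nat_lit 380) (nat_lit 1284979361) (nat_lit 380) (nat_lit 4592518043) (nat_lit 632) (nat_lit 3) (nat_lit 637) (nat_lit 3) (nat_lit 637) (nat_lit 5) (nat_lit 384) (nat_lit 383) (nat_lit 373)) (XT.lf (nat_lit 76) (nat_lit 1764180089) (nat_lit 0) (nat_lit 1522749568) (nat_lit 380) (nat_lit 3187459725) (nat_lit 633) (nat_lit 5) (nat_lit 632) (nat_lit 3) (nat_lit 637) (nat_lit 5) (nat_lit 385) (nat_lit 383) (nat_lit 372))) (XT.nd (nat_lit 78) (nat_lit 380) (nat_lit 0) (XT.lf (nat_lit 76) (nat_lit 4855479480) (nat_lit 0) (nat_lit 1121562459) (nat_lit 380) (nat_lit 506637901)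 (nat_lit 633) (nat_lit 5) (nat_lit 632) (nat_lit 3) (nat_lit 637) (nat_lit 5) (nat_lit 386) (nat_lit 383) (nat_lit 371)) (XT.lf (nat_lit 76) (nat_lit 1483879860) (nat_lit 0) (nat_lit 654856312) (nat_lit 456) (nat_lit 4355419625) (nat_lit 628) (nat_lit 5) (nat_lit 627) (nat_lit 5) (nat_lit 633) (nat_lit 5) (nat_lit 387) (nat_lit 383) (nat_lit 370))))))) (XT.nd (nat_lit 1092) (nat_lit 9196) (nat_lit 0) (XT.nd (nat_lit 546) (nat_lit 2128) (nat_lit 0) (XT.nd (nat_lit 234) (nat_lit 1140) (nat_lit 0) (XT.nd (nat_lit 78) (nat_lit 380) (nat_lit 0) (XT.lf (nat_lit 76) (nat_lit 4640547243) (nat_lit 0) (nat_lit 132242949) (nat_lit 456) (nat_lit 1733223224) (nat_lit 628) (nat_lit 5) (nat_lit 627) (nat_lit 5) (nat_lit 633) (nat_lit 5) (nat_lit 388) (nat_lit 383) (nat_lit 369)) (XT.nd (nat_lit 78) (nat_lit 0) (nat_lit 0) (XT.lf (nat_lit 0) (nat_lit 872975381) (nat_lit 456) (nat_lit 5205352912) (nat_lit 532) (nat_lit 440866288)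 (nat_lit 622) (nat_lit 5) (nat_lit 628) (nat_lit 5) (nat_lit 629) (nat_lit 5) (nat_lit 389) (nat_lit 383) (nat_lit 368)) (XT.lf (nat_lit 0) (nat_lit 3455327676) (nat_lit 456) (nat_lit 2000769699) (nat_lit 532) (nat_lit 1077453154) (nat_lit 622) (nat_lit 5) (nat_lit 628) (nat_lit 5) (nat_lit 629) (nat_lit 5) (nat_lit 390) (nat_lit 383) (nat_lit 367)))) (XT.nd (nat_lit 156) (nat_lit 608) (nat_lit 0) (XT.nd (nat_lit 78) (nat_lit 532) (nat_lit 0) (XT.lf (nat_lit 76) (nat_lit 1247038483) (nat_lit 0) (nat_lit 4785423312) (nat_lit 532) (nat_lit 516952481) (nat_lit 623) (nat_lit 5) (nat_lit 622) (nat_lit 5) (nat_lit 629) (nat_lit 5) (nat_lit 391) (nat_lit 383) (nat_lit 366)) (XT.lf (nat_lit 0) (nat_lit 2017142829) (nat_lit 532) (nat_lit 2030010912) (nat_lit 608) (nat_lit 2519267921) (nat_lit 615) (nat_lit 5) (nat_lit 622) (nat_lit 5) (nat_lit 623) (nat_lit 5) (nat_lit 392) (nat_lit 383) (nat_lit 365))) (XT.nd (nat_lit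 78) (nat_lit 608) (nat_lit 0) (XT.lf (nat_lit 76) (nat_lit 1284048308) (nat_lit 0) (nat_lit 3256124310) (nat_lit 608) (nat_lit 2044703313) (nat_lit 616) (nat_lit 5) (nat_lit 615) (nat_lit 5) (nat_lit 623) (nat_lit 5) (nat_lit 393) (nat_lit 383) (nat_lit 364)) (XT.lf (nat_lit 0) (nat_lit 454330432) (nat_lit 608) (nat_lit 1952755647) (nat_lit 684) (nat_lit 4197601399) (nat_lit 607) (nat_lit 5) (nat_lit 615) (nat_lit 5) (nat_lit 616) (nat_lit 5) (nat_lit 394) (nat_lit 383) (nat_lit 363))))) (XT.nd (nat_lit 234) (nat_lit 1520) (nat_lit 0) (XT.nd (nat_lit 78) (nat_lit 608) (nat_lit 0) (XT.lf (nat_lit 76) (nat_lit 1430404919) (nat_lit 0) (nat_lit 1493444993) (nat_lit 684) (nat_lit 3701891399) (nat_lit 608) (nat_lit 5) (nat_lit 607) (nat_lit 5) (nat_lit 616) (nat_lit 5) (nat_lit 395) (nat_lit 383) (nat_lit 362)) (XT.nd (nat_lit 78) (nat_lit 608) (nat_lit 0) (XT.lf (nat_lit 76) (nat_lit 4870851055) (nat_lit 0) (nat_lit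 524548902) (nat_lit 684) (nat_lit 1252836042) (nat_lit 608) (nat_lit 5) (nat_lit 607) (nat_lit 5) (nat_lit 616) (nat_lit 5) (nat_lit 396) (nat_lit 383) (nat_lit 361)) (XT.lf (nat_lit 0) (nat_lit 1183359280) (nat_lit 684) (nat_lit 4989385478) (nat_lit 76) (nat_lit 499254096) (nat_lit 599) (nat_lit 5) (nat_lit 608) (nat_lit 5) (nat_lit 600) (nat_lit 5) (nat_lit 397) (nat_lit 383) (nat_lit 360)))) (XT.nd (nat_lit 156) (nat_lit 836) (nat_lit 0) (XT.nd (nat_lit 78) (nat_lit 684) (nat_lit 0) (XT.lf (nat_lit 0) (nat_lit 3608333715) (nat_lit 684) (nat_lit 1510076991) (nat_lit 76) (nat_lit 1578592419) (nat_lit 599) (nat_lit 5) (nat_lit 608) (nat_lit 5) (nat_lit 600) (nat_lit 5) (nat_lit 398) (nat_lit 383) (nat_lit 359)) (XT.lf (nat_lit 0) (nat_lit 2028029951) (nat_lit 684) (nat_lit 4009430284) (nat_lit 760) (nat_lit 686001249) (nat_lit 590) (nat_lit 5) (nat_lit 599) (nat_lit 5) (nat_lit 600) (nat_lit 5) (nat_lit 399)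 (nat_lit 383) (nat_lit 358))) (XT.nd (nat_lit 78) (nat_lit 760) (nat_lit 0) (XT.lf (nat_lit 0) (nat_lit 1694708159) (nat_lit 760) (nat_lit 1142365249) (nat_lit 76) (nat_lit 3914148249) (nat_lit 589) (nat_lit 5) (nat_lit 599) (nat_lit 5) (nat_lit 590) (nat_lit 5) (nat_lit 400) (nat_lit 383) (nat_lit 357)) (XT.lf (nat_lit 0) (nat_lit 2472427411) (nat_lit 760) (nat_lit 1601530980) (nat_lit 836) (nat_lit 2706348898) (nat_lit 579) (nat_lit 5) (nat_lit 589) (nat_lit 5) (nat_lit 590) (nat_lit 5) (nat_lit 401) (nat_lit 383) (nat_lit 356)))))) (XT.nd (nat_lit 546) (nat_lit 5244) (nat_lit 0) (XT.nd (nat_lit 234) (nat_lit 3040) (nat_lit 0) (XT.nd (nat_lit 78) (nat_lit 912) (nat_lit 0) (XT.lf (nat_lit 0) (nat_lit 6138027620) (nat_lit 760) (nat_lit 315339831) (nat_lit 836) (nat_lit 357617653) (nat_lit 579) (nat_lit 5) (nat_lit 589) (nat_lit 5) (nat_lit 590) (nat_lit 5) (nat_lit 402) (nat_lit 383) (nat_lit 355)) (XT.nd (nat_lit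 78) (nat_lit 0) (nat_lit 0) (XT.lf (nat_lit 0) (nat_lit 1983364133) (nat_lit 912) (nat_lit 3825507770) (nat_lit 76) (nat_lit 1033759348) (nat_lit 567) (nat_lit 5) (nat_lit 579) (nat_lit 5) (nat_lit 568) (nat_lit 5) (nat_lit 403) (nat_lit 383) (nat_lit 354)) (XT.lf (nat_lit 0) (nat_lit 4319523795) (nat_lit 912) (nat_lit 127205612) (nat_lit 76) (nat_lit 2429129078) (nat_lit 567) (nat_lit 5) (nat_lit 579) (nat_lit 5) (nat_lit 568) (nat_lit 5) (nat_lit 404) (nat_lit 383) (nat_lit 353)))) (XT.nd (nat_lit 156) (nat_lit 1064) (nat_lit 0) (XT.nd (nat_lit 78) (nat_lit 1064) (nat_lit 0) (XT.lf (nat_lit 0) (nat_lit 3655726516) (nat_lit 912) (nat_lit 3017972510) (nat_lit 988) (nat_lit 236682623) (nat_lit 555) (nat_lit 5) (nat_lit 567) (nat_lit 5) (nat_lit 568) (nat_lit 5) (nat_lit 405) (nat_lit 383) (nat_lit 352)) (XT.lf (nat_lit 0) (nat_lit 525744668) (nat_lit 988) (nat_lit 1527910943) (nat_lit 1064) (nat_lit 4892673765)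 (nat_lit 541) (nat_lit 5) (nat_lit 554) (nat_lit 5) (nat_lit 555) (nat_lit 5) (nat_lit 406) (nat_lit 383) (nat_lit 351))) (XT.nd (nat_lit 78) (nat_lit 1064) (nat_lit 0) (XT.lf (nat_lit 0) (nat_lit 4357380730) (nat_lit 1064) (nat_lit 2597052056) (nat_lit 76) (nat_lit 29170927) (nat_lit 541) (nat_lit 5) (nat_lit 555) (nat_lit 5) (nat_lit 542) (nat_lit 5) (nat_lit 407) (nat_lit 383) (nat_lit 350)) (XT.lf (nat_lit 0) (nat_lit 1271565165) (nat_lit 1064) (nat_lit 5403806806) (nat_lit 1140) (nat_lit 346940607) (nat_lit 527) (nat_lit 5) (nat_lit 541) (nat_lit 5) (nat_lit 542) (nat_lit 5) (nat_lit 408) (nat_lit 383) (nat_lit 349))))) (XT.nd (nat_lit 234) (nat_lit 4028) (nat_lit 0) (XT.nd (nat_lit 78) (nat_lit 1140) (nat_lit 0) (XT.lf (nat_lit 0) (nat_lit 1919707344) (nat_lit 1140) (nat_lit 1860053615) (nat_lit 76) (nat_lit 3282474225) (nat_lit 526) (nat_lit 5) (nat_lit 541) (nat_lit 5) (nat_lit 527) (nat_lit 5) (nat_lit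 409) (nat_lit 383) (nat_lit 348)) (XT.nd (nat_lit 78) (nat_lit 0) (nat_lit 0) (XT.lf (nat_lit 0) (nat_lit 2095991259) (nat_lit 1140) (nat_lit 2095819075) (nat_lit 1216) (nat_lit 2911854511) (nat_lit 511) (nat_lit 5) (nat_lit 526) (nat_lit 5) (nat_lit 527) (nat_lit 5) (nat_lit 410) (nat_lit 383) (nat_lit 347)) (XT.lf (nat_lit 0) (nat_lit 6118963795) (nat_lit 1140) (nat_lit 354743118) (nat_lit 1216) (nat_lit 672978005) (nat_lit 511) (nat_lit 5) (nat_lit 526) (nat_lit 5) (nat_lit 527) (nat_lit 5) (nat_lit 411) (nat_lit 383) (nat_lit 346)))) (XT.nd (nat_lit 156) (nat_lit 2736) (nat_lit 0) (XT.nd (nat_lit 78) (nat_lit 0) (nat_lit 0) (XT.lf (nat_lit 0) (nat_lit 1571129540) (nat_lit 1292) (nat_lit 4176777244) (nat_lit 76) (nat_lit 1442864848) (nat_lit 494) (nat_lit 5) (nat_lit 511) (nat_lit 5) (nat_lit 495) (nat_lit 5) (nat_lit 412) (nat_lit 383) (nat_lit 345)) (XT.lf (nat_lit 0) (nat_lit 3813616224) (nat_lit 1292)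 (nat_lit 130131474) (nat_lit 76) (nat_lit 3292699281) (nat_lit 494) (nat_lit 5) (nat_lit 511) (nat_lit 5) (nat_lit 495) (nat_lit 5) (nat_lit 413) (nat_lit 383) (nat_lit 344))) (XT.nd (nat_lit 78) (nat_lit 1444) (nat_lit 0) (XT.lf (nat_lit 0) (nat_lit 4012669391) (nat_lit 1292) (nat_lit 2068461873) (nat_lit 1368) (nat_lit 1202346123) (nat_lit 477) (nat_lit 5) (nat_lit 494) (nat_lit 5) (nat_lit 495) (nat_lit 5) (nat_lit 414) (nat_lit 383) (nat_lit 343)) (XT.lf (nat_lit 0) (nat_lit 875428710) (nat_lit 1368) (nat_lit 134187722) (nat_lit 1444) (nat_lit 6322517294) (nat_lit 458) (nat_lit 5) (nat_lit 476) (nat_lit 5) (nat_lit 477) (nat_lit 5) (nat_lit 415) (nat_lit 383) (nat_lit 342))))))))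
noncomputable def xc110 : XT := (XT.nd (nat_lit 2184) (nat_lit 8512) (nat_lit 0) (XT.nd (nat_lit 1092) (nat_lit 6004) (nat_lit 0) (XT.nd (nat_lit 546) (nat_lit 3952) (nat_lit 0) (XT.nd (nat_lit 234) (nat_lit 4864) (nat_lit 0) (XT.nd (nat_lit 78) (nat_lit 1520) (nat_lit 0) (XT.lf (nat_lit 0) (nat_lit 3238904633) (nat_lit 1444) (nat_lit 2290991001) (nat_lit 76) (nat_lit 1851967416) (nat_lit 458) (nat_lit 5) (nat_lit 477) (nat_lit 5) (nat_lit 459) (nat_lit 5) (nat_lit 416) (nat_lit 383) (nat_lit 341)) (XT.nd (nat_lit 78) (nat_lit 76) (nat_lit 0) (XT.lf (nat_lit 0) (nat_lit 1944864549) (nat_lit 1444) (nat_lit 3537447738) (nat_lit 1520) (nat_lit 1950925690) (nat_lit 439) (nat_lit 5) (nat_lit 458) (nat_lit 5) (nat_lit 459) (nat_lit 5) (nat_lit 417) (nat_lit 383) (nat_lit 340)) (XT.lf (nat_lit 0) (nat_lit 252994931) (nat_lit 1520) (nat_lit 1228956020) (nat_lit 76) (nat_lit 6004256832) (nat_lit 438) (nat_lit 5) (nat_lit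 458) (nat_lit 5) (nat_lit 439) (nat_lit 5) (nat_lit 418) (nat_lit 383) (nat_lit 339)))) (XT.nd (nat_lit 156) (nat_lit 3344) (nat_lit 0) (XT.nd (nat_lit 78) (nat_lit 0) (nat_lit 0) (XT.lf (nat_lit 0) (nat_lit 2456472590) (nat_lit 1596) (nat_lit 4438665278) (nat_lit 76) (nat_lit 645248461) (nat_lit 418) (nat_lit 5) (nat_lit 439) (nat_lit 5) (nat_lit 419) (nat_lit 5) (nat_lit 419) (nat_lit 383) (nat_lit 338)) (XT.lf (nat_lit 0) (nat_lit 4679932571) (nat_lit 1596) (nat_lit 107766965) (nat_lit 76) (nat_lit 2808469169) (nat_lit 418) (nat_lit 5) (nat_lit 439) (nat_lit 5) (nat_lit 419) (nat_lit 5) (nat_lit 420) (nat_lit 383) (nat_lit 337))) (XT.nd (nat_lit 78) (nat_lit 1748) (nat_lit 0) (XT.lf (nat_lit 0) (nat_lit 4329189086) (nat_lit 1596) (nat_lit 2605405108) (nat_lit 1672) (nat_lit 718775645) (nat_lit 397) (nat_lit 5) (nat_lit 418) (nat_lit 5) (nat_lit 419) (nat_lit 5) (nat_lit 421) (nat_lit 383) (nat_lit 336)) (XT.lf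 (nat_lit 0) (nat_lit 1111658070) (nat_lit 1672) (nat_lit 357840113) (nat_lit 1748) (nat_lit 6242718713) (nat_lit 374) (nat_lit 5) (nat_lit 396) (nat_lit 5) (nat_lit 397) (nat_lit 5) (nat_lit 422) (nat_lit 383) (nat_lit 335))))) (XT.nd (nat_lit 234) (nat_lit 2584) (nat_lit 0) (XT.nd (nat_lit 78) (nat_lit 1368) (nat_lit 0) (XT.lf (nat_lit 0) (nat_lit 3686409553) (nat_lit 1748) (nat_lit 2146284251) (nat_lit 76) (nat_lit 1939597721) (nat_lit 374) (nat_lit 5) (nat_lit 397) (nat_lit 5) (nat_lit 375) (nat_lit 5) (nat_lit 423) (nat_lit 383) (nat_lit 334)) (XT.nd (nat_lit 78) (nat_lit 76) (nat_lit 0) (XT.lf (nat_lit 0) (nat_lit 2388488054) (nat_lit 1292) (nat_lit 3537314763) (nat_lit 1368) (nat_lit 1908236838) (nat_lit 357) (nat_lit 5) (nat_lit 374) (nat_lit 5) (nat_lit 375) (nat_lit 5) (nat_lit 424) (nat_lit 383) (nat_lit 333)) (XT.lf (nat_lit 0) (nat_lit 283864557) (nat_lit 1368) (nat_lit 893667524) (nat_lit 76) (nat_lit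 6719983400) (nat_lit 356) (nat_lit 5) (nat_lit 374) (nat_lit 5) (nat_lit 357) (nat_lit 5) (nat_lit 425) (nat_lit 383) (nat_lit 332)))) (XT.nd (nat_lit 156) (nat_lit 912) (nat_lit 0) (XT.nd (nat_lit 78) (nat_lit 836) (nat_lit 0) (XT.lf (nat_lit 0) (nat_lit 2488141227) (nat_lit 912) (nat_lit 4221897285) (nat_lit 76) (nat_lit 1252125225) (nat_lit 345) (nat_lit 5) (nat_lit 357) (nat_lit 5) (nat_lit 346) (nat_lit 5) (nat_lit 426) (nat_lit 383) (nat_lit 331)) (XT.lf (nat_lit 0) (nat_lit 410885783) (nat_lit 836) (nat_lit 4303932834) (nat_lit 912) (nat_lit 3313752265) (nat_lit 334) (nat_lit 5) (nat_lit 345) (nat_lit 5) (nat_lit 346) (nat_lit 5) (nat_lit 427) (nat_lit 383) (nat_lit 330))) (XT.nd (nat_lit 78) (nat_lit 912) (nat_lit 0) (XT.lf (nat_lit 0) (nat_lit 5156128185) (nat_lit 836) (nat_lit 1820550830) (nat_lit 912) (nat_lit 1119845761) (nat_lit 334) (nat_lit 5) (nat_lit 345) (nat_lit 5) (nat_lit 346) (nat_lit 5)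 (nat_lit 428) (nat_lit 383) (nat_lit 329)) (XT.lf (nat_lit 0) (nat_lit 1082560505) (nat_lit 912) (nat_lit 6361286837) (nat_lit 76) (nat_lit 722289934) (nat_lit 322) (nat_lit 5) (nat_lit 334) (nat_lit 5) (nat_lit 323) (nat_lit 5) (nat_lit 429) (nat_lit 383) (nat_lit 328)))))) (XT.nd (nat_lit 546) (nat_lit 2888) (nat_lit 0) (XT.nd (nat_lit 234) (nat_lit 2280) (nat_lit 0) (XT.nd (nat_lit 78) (nat_lit 836) (nat_lit 0) (XT.lf (nat_lit 0) (nat_lit 3309223172) (nat_lit 912) (nat_lit 1609224953) (nat_lit 76) (nat_lit 3318671571) (nat_lit 322) (nat_lit 5) (nat_lit 334) (nat_lit 5) (nat_lit 323) (nat_lit 5) (nat_lit 430) (nat_lit 383) (nat_lit 327)) (XT.nd (nat_lit 78) (nat_lit 0) (nat_lit 0) (XT.lf (nat_lit 0) (nat_lit 3243421794) (nat_lit 836) (nat_lit 2322046020) (nat_lit 912) (nat_lit 2744382166) (nat_lit 311) (nat_lit 5) (nat_lit 322) (nat_lit 5) (nat_lit 323) (nat_lit 5) (nat_lit 431) (nat_lit 383) (nat_lit 326))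 (XT.lf (nat_lit 0) (nat_lit 7844275954) (nat_lit 912) (nat_lit 208556581) (nat_lit 76) (nat_lit 331682180) (nat_lit 311) (nat_lit 5) (nat_lit 323) (nat_lit 5) (nat_lit 312) (nat_lit 5) (nat_lit 432) (nat_lit 383) (nat_lit 325)))) (XT.nd (nat_lit 156) (nat_lit 684) (nat_lit 0) (XT.nd (nat_lit 78) (nat_lit 760) (nat_lit 0) (XT.lf (nat_lit 0) (nat_lit 1697043414) (nat_lit 836) (nat_lit 3714905028) (nat_lit 76) (nat_lit 3048300890) (nat_lit 300) (nat_lit 5) (nat_lit 311) (nat_lit 5) (nat_lit 301) (nat_lit 5) (nat_lit 433) (nat_lit 383) (nat_lit 324)) (XT.lf (nat_lit 0) (nat_lit 1239353379) (nat_lit 760) (nat_lit 2707284634) (nat_lit 836) (nat_lit 4591320164) (nat_lit 290) (nat_lit 5) (nat_lit 300) (nat_lit 5) (nat_lit 301) (nat_lit 5) (nat_lit 434) (nat_lit 383) (nat_lit 323))) (XT.nd (nat_lit 78) (nat_lit 684) (nat_lit 0) (XT.lf (nat_lit 0) (nat_lit 6232415689) (nat_lit 836) (nat_lit 2311613036) (nat_lit 76) (nat_lit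 73395090) (nat_lit 290) (nat_lit 5) (nat_lit 301) (nat_lit 5) (nat_lit 291) (nat_lit 5) (nat_lit 435) (nat_lit 383) (nat_lit 322)) (XT.lf (nat_lit 0) (nat_lit 2756632870) (nat_lit 684) (nat_lit 5809537219) (nat_lit 760) (nat_lit 132289371) (nat_lit 281) (nat_lit 5) (nat_lit 290) (nat_lit 5) (nat_lit 291) (nat_lit 5) (nat_lit 436) (nat_lit 383) (nat_lit 321))))) (XT.nd (nat_lit 234) (nat_lit 1368) (nat_lit 0) (XT.nd (nat_lit 78) (nat_lit 1444) (nat_lit 0) (XT.lf (nat_lit 0) (nat_lit 2119308958) (nat_lit 760) (nat_lit 874327355) (nat_lit 76) (nat_lit 5787578705) (nat_lit 280) (nat_lit 5) (nat_lit 290) (nat_lit 5) (nat_lit 281) (nat_lit 5) (nat_lit 437) (nat_lit 383) (nat_lit 320)) (XT.nd (nat_lit 78) (nat_lit 684) (nat_lit 0) (XT.lf (nat_lit 0) (nat_lit 4314011569) (nat_lit 760) (nat_lit 95433136) (nat_lit 836) (nat_lit 4456282382) (nat_lit 270) (nat_lit 5) (nat_lit 280) (nat_lit 5) (nat_lit 281) (nat_lit 5) (nat_lit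 438) (nat_lit 383) (nat_lit 319)) (XT.lf (nat_lit 0) (nat_lit 619041381) (nat_lit 684) (nat_lit 6122491157) (nat_lit 760) (nat_lit 2210497817) (nat_lit 261) (nat_lit 5) (nat_lit 270) (nat_lit 5) (nat_lit 271) (nat_lit 5) (nat_lit 439) (nat_lit 383) (nat_lit 318)))) (XT.nd (nat_lit 156) (nat_lit 608) (nat_lit 0) (XT.nd (nat_lit 78) (nat_lit 684) (nat_lit 0) (XT.lf (nat_lit 0) (nat_lit 78342904) (nat_lit 760) (nat_lit 3122722292) (nat_lit 76) (nat_lit 5839023247) (nat_lit 260) (nat_lit 5) (nat_lit 270) (nat_lit 5) (nat_lit 261) (nat_lit 5) (nat_lit 440) (nat_lit 383) (nat_lit 317)) (XT.lf (nat_lit 0) (nat_lit 2169454035) (nat_lit 684) (nat_lit 196465785) (nat_lit 760) (nat_lit 6764067051) (nat_lit 251) (nat_lit 5) (nat_lit 260) (nat_lit 5) (nat_lit 261) (nat_lit 5) (nat_lit 441) (nat_lit 383) (nat_lit 316))) (XT.nd (nat_lit 78) (nat_lit 608) (nat_lit 0) (XT.lf (nat_lit 0) (nat_lit 4707764625) (nat_lit 760) (nat_lit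 1666708977) (nat_lit 76) (nat_lit 2847061460) (nat_lit 251) (nat_lit 5) (nat_lit 261) (nat_lit 5) (nat_lit 252) (nat_lit 5) (nat_lit 442) (nat_lit 383) (nat_lit 315)) (XT.lf (nat_lit 0) (nat_lit 3745035678) (nat_lit 608) (nat_lit 3346438804) (nat_lit 684) (nat_lit 2223560860) (nat_lit 243) (nat_lit 5) (nat_lit 251) (nat_lit 5) (nat_lit 252) (nat_lit 5) (nat_lit 443) (nat_lit 383) (nat_lit 314))))))) (XT.nd (nat_lit 1092) (nat_lit 3800) (nat_lit 0) (XT.nd (nat_lit 546) (nat_lit 2204) (nat_lit 0) (XT.nd (nat_lit 234) (nat_lit 1216) (nat_lit 0) (XT.nd (nat_lit 78) (nat_lit 1216) (nat_lit 0) (XT.lf (nat_lit 0) (nat_lit 91796369) (nat_lit 684) (nat_lit 159339661) (nat_lit 76) (nat_lit 9159659475) (nat_lit 242) (nat_lit 5) (nat_lit 251) (nat_lit 5) (nat_lit 243) (nat_lit 5) (nat_lit 444) (nat_lit 383) (nat_lit 313)) (XT.nd (nat_lit 78) (nat_lit 608) (nat_lit 0) (XT.lf (nat_lit 0) (nat_lit 2447964824) (nat_lit 684)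 (nat_lit 4147144098) (nat_lit 76) (nat_lit 2912602883) (nat_lit 234) (nat_lit 5) (nat_lit 243) (nat_lit 5) (nat_lit 235) (nat_lit 5) (nat_lit 445) (nat_lit 383) (nat_lit 312)) (XT.lf (nat_lit 0) (nat_lit 1367150102) (nat_lit 608) (nat_lit 3466200884) (nat_lit 684) (nat_lit 4773593592) (nat_lit 226) (nat_lit 5) (nat_lit 234) (nat_lit 5) (nat_lit 235) (nat_lit 5) (nat_lit 446) (nat_lit 383) (nat_lit 311)))) (XT.nd (nat_lit 156) (nat_lit 608) (nat_lit 0) (XT.nd (nat_lit 78) (nat_lit 608) (nat_lit 0) (XT.lf (nat_lit 0) (nat_lit 7012581861) (nat_lit 608) (nat_lit 252520187) (nat_lit 684) (nat_lit 2443106459) (nat_lit 226) (nat_lit 5) (nat_lit 234) (nat_lit 5) (nat_lit 235) (nat_lit 5) (nat_lit 447) (nat_lit 383) (nat_lit 310)) (XT.lf (nat_lit 0) (nat_lit 2943159077) (nat_lit 608) (nat_lit 6812441372) (nat_lit 684) (nat_lit 55714278) (nat_lit 218) (nat_lit 5) (nat_lit 226) (nat_lit 5) (nat_lit 227) (nat_lit 5) (nat_lit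 448) (nat_lit 383) (nat_lit 309))) (XT.nd (nat_lit 78) (nat_lit 532) (nat_lit 0) (XT.lf (nat_lit 0) (nat_lit 2339588882) (nat_lit 684) (nat_lit 1237489856) (nat_lit 76) (nat_lit 6339286475) (nat_lit 217) (nat_lit 5) (nat_lit 226) (nat_lit 5) (nat_lit 218) (nat_lit 5) (nat_lit 449) (nat_lit 383) (nat_lit 308)) (XT.lf (nat_lit 0) (nat_lit 4530139683) (nat_lit 532) (nat_lit 253373372) (nat_lit 608) (nat_lit 5239985215) (nat_lit 210) (nat_lit 5) (nat_lit 217) (nat_lit 5) (nat_lit 218) (nat_lit 5) (nat_lit 450) (nat_lit 383) (nat_lit 307))))) (XT.nd (nat_lit 234) (nat_lit 1064) (nat_lit 0) (XT.nd (nat_lit 78) (nat_lit 608) (nat_lit 0) (XT.lf (nat_lit 0) (nat_lit 245089676) (nat_lit 532) (nat_lit 7033870259) (nat_lit 608) (nat_lit 2853778961) (nat_lit 203) (nat_lit 5) (nat_lit 210) (nat_lit 5) (nat_lit 211) (nat_lit 5) (nat_lit 451) (nat_lit 383) (nat_lit 306)) (XT.nd (nat_lit 78) (nat_lit 608) (nat_lit 0) (XT.lf (nat_lit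 0) (nat_lit 6136308862) (nat_lit 532) (nat_lit 3699181559) (nat_lit 608) (nat_lit 408467863) (nat_lit 203) (nat_lit 5) (nat_lit 210) (nat_lit 5) (nat_lit 211) (nat_lit 5) (nat_lit 452) (nat_lit 383) (nat_lit 305)) (XT.lf (nat_lit 0) (nat_lit 1763075495) (nat_lit 532) (nat_lit 279752344) (nat_lit 608) (nat_lit 8314631478) (nat_lit 195) (nat_lit 5) (nat_lit 202) (nat_lit 5) (nat_lit 203) (nat_lit 5) (nat_lit 453) (nat_lit 383) (nat_lit 304)))) (XT.nd (nat_lit 156) (nat_lit 532) (nat_lit 0) (XT.nd (nat_lit 78) (nat_lit 532) (nat_lit 0) (XT.lf (nat_lit 0) (nat_lit 4559506015) (nat_lit 608) (nat_lit 2724231314) (nat_lit 76) (nat_lit 3189018960) (nat_lit 195) (nat_lit 5) (nat_lit 203) (nat_lit 5) (nat_lit 196) (nat_lit 5) (nat_lit 454) (nat_lit 383) (nat_lit 303)) (XT.lf (nat_lit 0) (nat_lit 3270312419) (nat_lit 532) (nat_lit 3853060551) (nat_lit 608) (nat_lit 3467065241) (nat_lit 188) (nat_lit 5) (nat_lit 195) (nat_lit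 5) (nat_lit 196) (nat_lit 5) (nat_lit 455) (nat_lit 383) (nat_lit 302))) (XT.nd (nat_lit 78) (nat_lit 532) (nat_lit 0) (XT.lf (nat_lit 0) (nat_lit 9387848817) (nat_lit 532) (nat_lit 343013693) (nat_lit 608) (nat_lit 979780156) (nat_lit 188) (nat_lit 5) (nat_lit 195) (nat_lit 5) (nat_lit 196) (nat_lit 5) (nat_lit 456) (nat_lit 383) (nat_lit 301)) (XT.lf (nat_lit 0) (nat_lit 1563712605) (nat_lit 532) (nat_lit 6040199936) (nat_lit 76) (nat_lit 3228613927) (nat_lit 181) (nat_lit 5) (nat_lit 188) (nat_lit 5) (nat_lit 182) (nat_lit 5) (nat_lit 457) (nat_lit 383) (nat_lit 300)))))) (XT.nd (nat_lit 546) (nat_lit 1824) (nat_lit 0) (XT.nd (nat_lit 234) (nat_lit 988) (nat_lit 0) (XT.nd (nat_lit 78) (nat_lit 456) (nat_lit 0) (XT.lf (nat_lit 0) (nat_lit 49066960) (nat_lit 532) (nat_lit 4082050191) (nat_lit 608) (nat_lit 6825892932) (nat_lit 174) (nat_lit 5) (nat_lit 181) (nat_lit 5) (nat_lit 182) (nat_lit 5) (nat_lit 458)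 (nat_lit 383) (nat_lit 299)) (XT.nd (nat_lit 78) (nat_lit 456) (nat_lit 0) (XT.lf (nat_lit 0) (nat_lit 6308450569) (nat_lit 532) (nat_lit 456855231) (nat_lit 608) (nat_lit 4318383447) (nat_lit 174) (nat_lit 5) (nat_lit 181) (nat_lit 5) (nat_lit 182) (nat_lit 5) (nat_lit 459) (nat_lit 383) (nat_lit 298)) (XT.lf (nat_lit 0) (nat_lit 1444685450) (nat_lit 456) (nat_lit 8013255745) (nat_lit 532) (nat_lit 1754859848) (nat_lit 168) (nat_lit 5) (nat_lit 174) (nat_lit 5) (nat_lit 175) (nat_lit 5) (nat_lit 460) (nat_lit 383) (nat_lit 297)))) (XT.nd (nat_lit 156) (nat_lit 456) (nat_lit 0) (XT.nd (nat_lit 78) (nat_lit 456) (nat_lit 0) (XT.lf (nat_lit 0) (nat_lit 859372642) (nat_lit 532) (nat_lit 3532398400) (nat_lit 76) (nat_lit 6952411790) (nat_lit 167) (nat_lit 5) (nat_lit 174) (nat_lit 5) (nat_lit 168) (nat_lit 5) (nat_lit 461) (nat_lit 383) (nat_lit 296)) (XT.lf (nat_lit 0) (nat_lit 2820599431) (nat_lit 456) (nat_lit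 676044123) (nat_lit 532) (nat_lit 7981445166) (nat_lit 161) (nat_lit 5) (nat_lit 167) (nat_lit 5) (nat_lit 168) (nat_lit 5) (nat_lit 462) (nat_lit 383) (nat_lit 295))) (XT.nd (nat_lit 78) (nat_lit 456) (nat_lit 0) (XT.lf (nat_lit 0) (nat_lit 6206859165) (nat_lit 532) (nat_lit 2319055686) (nat_lit 76) (nat_lit 3088367111) (nat_lit 161) (nat_lit 5) (nat_lit 168) (nat_lit 5) (nat_lit 162) (nat_lit 5) (nat_lit 463) (nat_lit 383) (nat_lit 294)) (XT.lf (nat_lit 0) (nat_lit 4163905596) (nat_lit 456) (nat_lit 4815473586) (nat_lit 532) (nat_lit 2773670844) (nat_lit 155) (nat_lit 5) (nat_lit 161) (nat_lit 5) (nat_lit 162) (nat_lit 5) (nat_lit 464) (nat_lit 383) (nat_lit 293))))) (XT.nd (nat_lit 234) (nat_lit 912) (nat_lit 0) (XT.nd (nat_lit 78) (nat_lit 912) (nat_lit 0) (XT.lf (nat_lit 0) (nat_lit 10775800253) (nat_lit 456) (nat_lit 1023949819) (nat_lit 532) (nat_lit 95008076) (nat_lit 155) (nat_lit 5) (nat_lit 161) (nat_lit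 5) (nat_lit 162) (nat_lit 5) (nat_lit 465) (nat_lit 383) (nat_lit 292)) (XT.nd (nat_lit 78) (nat_lit 380) (nat_lit 0) (XT.lf (nat_lit 0) (nat_lit 2634257750) (nat_lit 532) (nat_lit 6553619052) (nat_lit 76) (nat_lit 2850461041) (nat_lit 148) (nat_lit 5) (nat_lit 155) (nat_lit 5) (nat_lit 149) (nat_lit 5) (nat_lit 466) (nat_lit 383) (nat_lit 291)) (XT.lf (nat_lit 0) (nat_lit 11647244) (nat_lit 380) (nat_lit 5396920336) (nat_lit 456) (nat_lit 6776386347) (nat_lit 143) (nat_lit 5) (nat_lit 148) (nat_lit 5) (nat_lit 149) (nat_lit 5) (nat_lit 467) (nat_lit 383) (nat_lit 290)))) (XT.nd (nat_lit 156) (nat_lit 456) (nat_lit 0) (XT.nd (nat_lit 78) (nat_lit 456) (nat_lit 0) (XT.lf (nat_lit 0) (nat_lit 6765222419) (nat_lit 380) (nat_lit 1494671948) (nat_lit 456) (nat_lit 4074189090) (nat_lit 143) (nat_lit 5) (nat_lit 148) (nat_lit 5) (nat_lit 149) (nat_lit 5) (nat_lit 468) (nat_lit 383) (nat_lit 289)) (XT.lf (nat_lit 0)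 (nat_lit 1134818331) (nat_lit 456) (nat_lit 10034868588) (nat_lit 532) (nat_lit 1316491382) (nat_lit 137) (nat_lit 5) (nat_lit 143) (nat_lit 5) (nat_lit 144) (nat_lit 5) (nat_lit 469) (nat_lit 383) (nat_lit 288))) (XT.nd (nat_lit 78) (nat_lit 380) (nat_lit 0) (XT.lf (nat_lit 0) (nat_lit 1502257249) (nat_lit 532) (nat_lit 4644065997) (nat_lit 76) (nat_lit 6494298112) (nat_lit 136) (nat_lit 5) (nat_lit 143) (nat_lit 5) (nat_lit 137) (nat_lit 5) (nat_lit 470) (nat_lit 383) (nat_lit 287)) (XT.lf (nat_lit 0) (nat_lit 2186254288) (nat_lit 380) (nat_lit 2166147132) (nat_lit 456) (nat_lit 8445735691) (nat_lit 131) (nat_lit 5) (nat_lit 136) (nat_lit 5) (nat_lit 137) (nat_lit 5) (nat_lit 471) (nat_lit 383) (nat_lit 286))))))))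
noncomputable def xc111 : XT := (XT.nd (nat_lit 2184) (nat_lit 2584) (nat_lit 0) (XT.nd (nat_lit 1092) (nat_lit 2128) (nat_lit 0) (XT.nd (nat_lit 546) (nat_lit 1444) (nat_lit 0) (XT.nd (nat_lit 234) (nat_lit 684) (nat_lit 0) (XT.nd (nat_lit 78) (nat_lit 456) (nat_lit 0) (XT.lf (nat_lit 0) (nat_lit 7281811504) (nat_lit 456) (nat_lit 3785793815) (nat_lit 76) (nat_lit 1890763233) (nat_lit 131) (nat_lit 5) (nat_lit 137) (nat_lit 5) (nat_lit 132) (nat_lit 5) (nat_lit 472) (nat_lit 383) (nat_lit 285)) (XT.nd (nat_lit 78) (nat_lit 76) (nat_lit 0) (XT.lf (nat_lit 0) (nat_lit 3173459442) (nat_lit 380) (nat_lit 7110317342) (nat_lit 456) (nat_lit 2837758921) (nat_lit 126) (nat_lit 5) (nat_lit 131) (nat_lit 5) (nat_lit 132) (nat_lit 5) (nat_lit 473) (nat_lit 383) (nat_lit 284)) (XT.lf (nat_lit 0) (nat_lit 61713489) (nat_lit 456) (nat_lit 2995505662) (nat_lit 76) (nat_lit 10230656430) (nat_lit 125) (nat_lit 5) (nat_lit 131)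 (nat_lit 5) (nat_lit 126) (nat_lit 5) (nat_lit 474) (nat_lit 383) (nat_lit 283)))) (XT.nd (nat_lit 156) (nat_lit 380) (nat_lit 0) (XT.nd (nat_lit 78) (nat_lit 0) (nat_lit 0) (XT.lf (nat_lit 0) (nat_lit 2994564029) (nat_lit 380) (nat_lit 9363292727) (nat_lit 76) (nat_lit 1099052442) (nat_lit 121) (nat_lit 5) (nat_lit 126) (nat_lit 5) (nat_lit 122) (nat_lit 5) (nat_lit 475) (nat_lit 383) (nat_lit 282)) (XT.lf (nat_lit 0) (nat_lit 6006191765) (nat_lit 380) (nat_lit 2314446947) (nat_lit 76) (nat_lit 5308292004) (nat_lit 121) (nat_lit 5) (nat_lit 126) (nat_lit 5) (nat_lit 122) (nat_lit 5) (nat_lit 476) (nat_lit 383) (nat_lit 281))) (XT.nd (nat_lit 78) (nat_lit 0) (nat_lit 0) (XT.lf (nat_lit 0) (nat_lit 4910094287) (nat_lit 380) (nat_lit 4179875748) (nat_lit 456) (nat_lit 4714193709) (nat_lit 116) (nat_lit 5) (nat_lit 121) (nat_lit 5) (nat_lit 122) (nat_lit 5) (nat_lit 477) (nat_lit 383) (nat_lit 280)) (XT.lf (nat_lit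 0) (nat_lit 12231516882) (nat_lit 456) (nat_lit 1702302479) (nat_lit 76) (nat_lit 49169467) (nat_lit 116) (nat_lit 5) (nat_lit 122) (nat_lit 5) (nat_lit 117) (nat_lit 5) (nat_lit 478) (nat_lit 383) (nat_lit 279))))) (XT.nd (nat_lit 234) (nat_lit 684) (nat_lit 0) (XT.nd (nat_lit 78) (nat_lit 380) (nat_lit 0) (XT.lf (nat_lit 0) (nat_lit 1299061941) (nat_lit 380) (nat_lit 8522561187) (nat_lit 76) (nat_lit 4342706793) (nat_lit 111) (nat_lit 5) (nat_lit 116) (nat_lit 5) (nat_lit 112) (nat_lit 5) (nat_lit 479) (nat_lit 383) (nat_lit 278)) (XT.nd (nat_lit 78) (nat_lit 380) (nat_lit 0) (XT.lf (nat_lit 0) (nat_lit 4379295476) (nat_lit 380) (nat_lit 1234261103) (nat_lit 76) (nat_lit 8735675610) (nat_lit 111) (nat_lit 5) (nat_lit 116) (nat_lit 5) (nat_lit 112) (nat_lit 5) (nat_lit 480) (nat_lit 383) (nat_lit 277)) (XT.lf (nat_lit 0) (nat_lit 6253076515) (nat_lit 380) (nat_lit 1289656540) (nat_lit 456) (nat_lit 6994676010)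 (nat_lit 106) (nat_lit 5) (nat_lit 111) (nat_lit 5) (nat_lit 112) (nat_lit 5) (nat_lit 481) (nat_lit 383) (nat_lit 276)))) (XT.nd (nat_lit 156) (nat_lit 380) (nat_lit 0) (XT.nd (nat_lit 78) (nat_lit 304) (nat_lit 0) (XT.lf (nat_lit 0) (nat_lit 10779162790) (nat_lit 456) (nat_lit 871479886) (nat_lit 76) (nat_lit 3078520718) (nat_lit 106) (nat_lit 5) (nat_lit 112) (nat_lit 5) (nat_lit 107) (nat_lit 5) (nat_lit 482) (nat_lit 383) (nat_lit 275)) (XT.lf (nat_lit 0) (nat_lit 6741196122) (nat_lit 304) (nat_lit 7372928414) (nat_lit 380) (nat_lit 809960425) (nat_lit 102) (nat_lit 5) (nat_lit 106) (nat_lit 5) (nat_lit 107) (nat_lit 5) (nat_lit 483) (nat_lit 383) (nat_lit 274))) (XT.nd (nat_lit 78) (nat_lit 304) (nat_lit 0) (XT.lf (nat_lit 0) (nat_lit 2348929624) (nat_lit 380) (nat_lit 648795975) (nat_lit 76) (nat_lit 12125127895) (nat_lit 101) (nat_lit 5) (nat_lit 106) (nat_lit 5) (nat_lit 102) (nat_lit 5) (nat_lit 484)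 (nat_lit 383) (nat_lit 273)) (XT.lf (nat_lit 0) (nat_lit 5597929587) (nat_lit 380) (nat_lit 8238864705) (nat_lit 76) (nat_lit 1487948222) (nat_lit 97) (nat_lit 5) (nat_lit 102) (nat_lit 5) (nat_lit 98) (nat_lit 5) (nat_lit 485) (nat_lit 383) (nat_lit 272)))))) (XT.nd (nat_lit 546) (nat_lit 1216) (nat_lit 0) (XT.nd (nat_lit 234) (nat_lit 608) (nat_lit 0) (XT.nd (nat_lit 78) (nat_lit 304) (nat_lit 0) (XT.lf (nat_lit 0) (nat_lit 8918164073) (nat_lit 380) (nat_lit 594359319) (nat_lit 76) (nat_lit 6018028426) (nat_lit 97) (nat_lit 5) (nat_lit 102) (nat_lit 5) (nat_lit 98) (nat_lit 5) (nat_lit 486) (nat_lit 383) (nat_lit 271)) (XT.nd (nat_lit 78) (nat_lit 0) (nat_lit 0) (XT.lf (nat_lit 0) (nat_lit 7271009090) (nat_lit 304) (nat_lit 5063374373) (nat_lit 380) (nat_lit 3405509686) (nat_lit 93) (nat_lit 5) (nat_lit 97) (nat_lit 5) (nat_lit 98) (nat_lit 5) (nat_lit 487) (nat_lit 383) (nat_lit 270)) (XT.lf (nat_lit 0) (nat_lit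 15274534072) (nat_lit 304) (nat_lit 530922631) (nat_lit 380) (nat_lit 148241311) (nat_lit 93) (nat_lit 5) (nat_lit 97) (nat_lit 5) (nat_lit 98) (nat_lit 5) (nat_lit 488) (nat_lit 383) (nat_lit 269)))) (XT.nd (nat_lit 156) (nat_lit 228) (nat_lit 0) (XT.nd (nat_lit 78) (nat_lit 0) (nat_lit 0) (XT.lf (nat_lit 0) (nat_lit 3189755147) (nat_lit 380) (nat_lit 8882959927) (nat_lit 76) (nat_lit 4097514489) (nat_lit 88) (nat_lit 5) (nat_lit 93) (nat_lit 5) (nat_lit 89) (nat_lit 5) (nat_lit 489) (nat_lit 383) (nat_lit 268)) (XT.lf (nat_lit 0) (nat_lit 6583496821) (nat_lit 380) (nat_lit 1000309085) (nat_lit 76) (nat_lit 8807453713) (nat_lit 88) (nat_lit 5) (nat_lit 93) (nat_lit 5) (nat_lit 89) (nat_lit 5) (nat_lit 490) (nat_lit 383) (nat_lit 267))) (XT.nd (nat_lit 78) (nat_lit 0) (nat_lit 0) (XT.lf (nat_lit 0) (nat_lit 7106711685) (nat_lit 228) (nat_lit 2967743724) (nat_lit 304) (nat_lit 6541674768) (nat_lit 85) (nat_lit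 5) (nat_lit 88) (nat_lit 5) (nat_lit 89) (nat_lit 5) (nat_lit 491) (nat_lit 383) (nat_lit 266)) (XT.lf (nat_lit 0) (nat_lit 13636587946) (nat_lit 304) (nat_lit 1493868653) (nat_lit 76) (nat_lit 1715021062) (nat_lit 85) (nat_lit 5) (nat_lit 89) (nat_lit 5) (nat_lit 86) (nat_lit 5) (nat_lit 492) (nat_lit 383) (nat_lit 265))))) (XT.nd (nat_lit 234) (nat_lit 608) (nat_lit 0) (XT.nd (nat_lit 78) (nat_lit 228) (nat_lit 0) (XT.lf (nat_lit 0) (nat_lit 235293825) (nat_lit 380) (nat_lit 10355566890) (nat_lit 76) (nat_lit 6487588150) (nat_lit 80) (nat_lit 5) (nat_lit 85) (nat_lit 5) (nat_lit 81) (nat_lit 5) (nat_lit 493) (nat_lit 383) (nat_lit 264)) (XT.nd (nat_lit 78) (nat_lit 228) (nat_lit 0) (XT.lf (nat_lit 0) (nat_lit 3699188301) (nat_lit 380) (nat_lit 2239100584) (nat_lit 76) (nat_lit 11377496737) (nat_lit 80) (nat_lit 5) (nat_lit 85) (nat_lit 5) (nat_lit 81) (nat_lit 5) (nat_lit 494) (nat_lit 383) (nat_lit 263)) (XT.lf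 (nat_lit 0) (nat_lit 6094009599) (nat_lit 228) (nat_lit 1161900852) (nat_lit 304) (nat_lit 10301493774) (nat_lit 77) (nat_lit 5) (nat_lit 80) (nat_lit 5) (nat_lit 81) (nat_lit 5) (nat_lit 495) (nat_lit 383) (nat_lit 262)))) (XT.nd (nat_lit 156) (nat_lit 304) (nat_lit 0) (XT.nd (nat_lit 78) (nat_lit 304) (nat_lit 0) (XT.lf (nat_lit 0) (nat_lit 10907050119) (nat_lit 304) (nat_lit 3229310672) (nat_lit 76) (nat_lit 3667034735) (nat_lit 77) (nat_lit 5) (nat_lit 81) (nat_lit 5) (nat_lit 78) (nat_lit 5) (nat_lit 496) (nat_lit 383) (nat_lit 261)) (XT.lf (nat_lit 0) (nat_lit 5204824243) (nat_lit 304) (nat_lit 9452258711) (nat_lit 380) (nat_lit 3396712161) (nat_lit 73) (nat_lit 5) (nat_lit 77) (nat_lit 5) (nat_lit 78) (nat_lit 5) (nat_lit 497) (nat_lit 383) (nat_lit 260))) (XT.nd (nat_lit 78) (nat_lit 228) (nat_lit 0) (XT.lf (nat_lit 0) (nat_lit 176877881) (nat_lit 380) (nat_lit 4483864615) (nat_lit 76) (nat_lit 13648318749)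 (nat_lit 72) (nat_lit 5) (nat_lit 77) (nat_lit 5) (nat_lit 73) (nat_lit 5) (nat_lit 498) (nat_lit 383) (nat_lit 259)) (XT.lf (nat_lit 0) (nat_lit 3789281227) (nat_lit 304) (nat_lit 14516026451) (nat_lit 76) (nat_lit 263425037) (nat_lit 69) (nat_lit 5) (nat_lit 73) (nat_lit 5) (nat_lit 70) (nat_lit 5) (nat_lit 499) (nat_lit 383) (nat_lit 258))))))) (XT.nd (nat_lit 1092) (nat_lit 1140) (nat_lit 0) (XT.nd (nat_lit 546) (nat_lit 684) (nat_lit 0) (XT.nd (nat_lit 234) (nat_lit 532) (nat_lit 0) (XT.nd (nat_lit 78) (nat_lit 228) (nat_lit 0) (XT.lf (nat_lit 0) (nat_lit 7519888949) (nat_lit 304) (nat_lit 6068106531) (nat_lit 76) (nat_lit 5244688429) (nat_lit 69) (nat_lit 5) (nat_lit 73) (nat_lit 5) (nat_lit 70) (nat_lit 5) (nat_lit 500) (nat_lit 383) (nat_lit 257)) (XT.nd (nat_lit 78) (nat_lit 0) (nat_lit 0) (XT.lf (nat_lit 0) (nat_lit 2557972888) (nat_lit 228) (nat_lit 8768844101) (nat_lit 304) (nat_lit 7775068293) (nat_lit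 66) (nat_lit 5) (nat_lit 69) (nat_lit 5) (nat_lit 70) (nat_lit 5) (nat_lit 501) (nat_lit 383) (nat_lit 256)) (XT.lf (nat_lit 0) (nat_lit 11414641683) (nat_lit 228) (nat_lit 3821197317) (nat_lit 304) (nat_lit 4140117785) (nat_lit 66) (nat_lit 5) (nat_lit 69) (nat_lit 5) (nat_lit 70) (nat_lit 5) (nat_lit 502) (nat_lit 383) (nat_lit 255)))) (XT.nd (nat_lit 156) (nat_lit 228) (nat_lit 0) (XT.nd (nat_lit 78) (nat_lit 76) (nat_lit 0) (XT.lf (nat_lit 0) (nat_lit 771144326) (nat_lit 228) (nat_lit 18450324784) (nat_lit 304) (nat_lit 434077165) (nat_lit 63) (nat_lit 5) (nat_lit 66) (nat_lit 5) (nat_lit 67) (nat_lit 5) (nat_lit 503) (nat_lit 383) (nat_lit 254)) (XT.lf (nat_lit 0) (nat_lit 3366779091) (nat_lit 304) (nat_lit 10224860650) (nat_lit 76) (nat_lit 6347366640) (nat_lit 62) (nat_lit 5) (nat_lit 66) (nat_lit 5) (nat_lit 63) (nat_lit 5) (nat_lit 504) (nat_lit 383) (nat_lit 253))) (XT.nd (nat_lit 78) (nat_lit 228)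 (nat_lit 0) (XT.lf (nat_lit 0) (nat_lit 7223624984) (nat_lit 304) (nat_lit 1418520370) (nat_lit 76) (nat_lit 11586222067) (nat_lit 62) (nat_lit 5) (nat_lit 66) (nat_lit 5) (nat_lit 63) (nat_lit 5) (nat_lit 505) (nat_lit 383) (nat_lit 252)) (XT.lf (nat_lit 0) (nat_lit 7641105140) (nat_lit 228) (nat_lit 3552171985) (nat_lit 304) (nat_lit 9329529893) (nat_lit 59) (nat_lit 5) (nat_lit 62) (nat_lit 5) (nat_lit 63) (nat_lit 5) (nat_lit 506) (nat_lit 383) (nat_lit 251))))) (XT.nd (nat_lit 234) (nat_lit 380) (nat_lit 0) (XT.nd (nat_lit 78) (nat_lit 304) (nat_lit 0) (XT.lf (nat_lit 0) (nat_lit 15248673609) (nat_lit 304) (nat_lit 3955628192) (nat_lit 76) (nat_lit 1618711207) (nat_lit 59) (nat_lit 5) (nat_lit 63) (nat_lit 5) (nat_lit 60) (nat_lit 5) (nat_lit 507) (nat_lit 383) (nat_lit 250)) (XT.nd (nat_lit 78) (nat_lit 76) (nat_lit 0) (XT.lf (nat_lit 0) (nat_lit 5170582903) (nat_lit 228) (nat_lit 14258086236) (nat_lit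 304) (nat_lit 1699688695) (nat_lit 56) (nat_lit 5) (nat_lit 59) (nat_lit 5) (nat_lit 60) (nat_lit 5) (nat_lit 508) (nat_lit 383) (nat_lit 249)) (XT.lf (nat_lit 0) (nat_lit 2236056577) (nat_lit 304) (nat_lit 6943849592) (nat_lit 76) (nat_lit 12259352401) (nat_lit 55) (nat_lit 5) (nat_lit 59) (nat_lit 5) (nat_lit 56) (nat_lit 5) (nat_lit 509) (nat_lit 383) (nat_lit 248)))) (XT.nd (nat_lit 156) (nat_lit 152) (nat_lit 0) (XT.nd (nat_lit 78) (nat_lit 0) (nat_lit 0) (XT.lf (nat_lit 0) (nat_lit 2246295367) (nat_lit 228) (nat_lit 3982757259) (nat_lit 304) (nat_lit 15527078378) (nat_lit 52) (nat_lit 5) (nat_lit 55) (nat_lit 5) (nat_lit 56) (nat_lit 5) (nat_lit 510) (nat_lit 383) (nat_lit 247)) (XT.lf (nat_lit 0) (nat_lit 10344122030) (nat_lit 304) (nat_lit 10395235004) (nat_lit 76) (nat_lit 1339143775) (nat_lit 52) (nat_lit 5) (nat_lit 56) (nat_lit 5) (nat_lit 53) (nat_lit 5) (nat_lit 511) (nat_lit 383) (nat_lit 246)))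 (XT.nd (nat_lit 78) (nat_lit 152) (nat_lit 0) (XT.lf (nat_lit 0) (nat_lit 14554876989) (nat_lit 304) (nat_lit 1146607351) (nat_lit 76) (nat_lit 6705570098) (nat_lit 52) (nat_lit 5) (nat_lit 56) (nat_lit 5) (nat_lit 53) (nat_lit 5) (nat_lit 512) (nat_lit 383) (nat_lit 245)) (XT.lf (nat_lit 0) (nat_lit 8375377520) (nat_lit 152) (nat_lit 10516111063) (nat_lit 228) (nat_lit 3849861754) (nat_lit 50) (nat_lit 5) (nat_lit 52) (nat_lit 5) (nat_lit 53) (nat_lit 5) (nat_lit 513) (nat_lit 383) (nat_lit 244)))))) (XT.nd (nat_lit 546) (nat_lit 380) (nat_lit 0) (XT.nd (nat_lit 234) (nat_lit 456) (nat_lit 0) (XT.nd (nat_lit 78) (nat_lit 228) (nat_lit 0) (XT.lf (nat_lit 0) (nat_lit 224483115) (nat_lit 228) (nat_lit 5001885673) (nat_lit 76) (nat_lit 17856036405) (nat_lit 49) (nat_lit 5) (nat_lit 52) (nat_lit 5) (nat_lit 50) (nat_lit 5) (nat_lit 514) (nat_lit 383) (nat_lit 243)) (XT.nd (nat_lit 78) (nat_lit 0) (nat_lit 0) (XT.lf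 (nat_lit 0) (nat_lit 4347381511) (nat_lit 304) (nat_lit 18868080640) (nat_lit 76) (nat_lit 213941514) (nat_lit 46) (nat_lit 5) (nat_lit 50) (nat_lit 5) (nat_lit 47) (nat_lit 5) (nat_lit 515) (nat_lit 383) (nat_lit 242)) (XT.lf (nat_lit 0) (nat_lit 8608726093) (nat_lit 304) (nat_lit 9455033709) (nat_lit 76) (nat_lit 5718466263) (nat_lit 46) (nat_lit 5) (nat_lit 50) (nat_lit 5) (nat_lit 47) (nat_lit 5) (nat_lit 516) (nat_lit 383) (nat_lit 241)))) (XT.nd (nat_lit 156) (nat_lit 304) (nat_lit 0) (XT.nd (nat_lit 78) (nat_lit 0) (nat_lit 0) (XT.lf (nat_lit 0) (nat_lit 127230374) (nat_lit 152) (nat_lit 12816725542) (nat_lit 228) (nat_lit 11198379480) (nat_lit 44) (nat_lit 5) (nat_lit 46) (nat_lit 5) (nat_lit 47) (nat_lit 5) (nat_lit 517) (nat_lit 383) (nat_lit 240)) (XT.lf (nat_lit 0) (nat_lit 10008729041) (nat_lit 152) (nat_lit 7408546821) (nat_lit 228) (nat_lit 7091346918) (nat_lit 44) (nat_lit 5) (nat_lit 46) (nat_lit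 5) (nat_lit 47) (nat_lit 5) (nat_lit 518) (nat_lit 383) (nat_lit 239))) (XT.nd (nat_lit 78) (nat_lit 304) (nat_lit 0) (XT.lf (nat_lit 0) (nat_lit 20067684968) (nat_lit 152) (nat_lit 1900551038) (nat_lit 228) (nat_lit 2914239937) (nat_lit 44) (nat_lit 5) (nat_lit 46) (nat_lit 5) (nat_lit 47) (nat_lit 5) (nat_lit 519) (nat_lit 383) (nat_lit 238)) (XT.lf (nat_lit 0) (nat_lit 1374564300) (nat_lit 304) (nat_lit 20185313106) (nat_lit 76) (nat_lit 3702841028) (nat_lit 40) (nat_lit 5) (nat_lit 44) (nat_lit 5) (nat_lit 41) (nat_lit 5) (nat_lit 520) (nat_lit 383) (nat_lit 237))))) (XT.nd (nat_lit 312) (nat_lit 228) (nat_lit 0) (XT.nd (nat_lit 156) (nat_lit 152) (nat_lit 0) (XT.nd (nat_lit 78) (nat_lit 0) (nat_lit 0) (XT.lf (nat_lit 0) (nat_lit 5743642009) (nat_lit 304) (nat_lit 10469294153) (nat_lit 76) (nat_lit 9436577277) (nat_lit 40) (nat_lit 5) (nat_lit 44) (nat_lit 5) (nat_lit 41) (nat_lit 5) (nat_lit 521) (nat_lit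 383) (nat_lit 236)) (XT.lf (nat_lit 0) (nat_lit 10188701662) (nat_lit 304) (nat_lit 578548826) (nat_lit 76) (nat_lit 15277025087) (nat_lit 40) (nat_lit 5) (nat_lit 44) (nat_lit 5) (nat_lit 41) (nat_lit 5) (nat_lit 522) (nat_lit 383) (nat_lit 235))) (XT.nd (nat_lit 78) (nat_lit 0) (nat_lit 0) (XT.lf (nat_lit 0) (nat_lit 9616929356) (nat_lit 152) (nat_lit 5156996548) (nat_lit 228) (nat_lit 11671984959) (nat_lit 38) (nat_lit 5) (nat_lit 40) (nat_lit 5) (nat_lit 41) (nat_lit 5) (nat_lit 523) (nat_lit 383) (nat_lit 234)) (XT.lf (nat_lit 0) (nat_lit 19447301257) (nat_lit 228) (nat_lit 6854294997) (nat_lit 76) (nat_lit 554056784) (nat_lit 38) (nat_lit 5) (nat_lit 41) (nat_lit 5) (nat_lit 39) (nat_lit 5) (nat_lit 524) (nat_lit 383) (nat_lit 233)))) (XT.nd (nat_lit 156) (nat_lit 0) (nat_lit 0) (XT.nd (nat_lit 78) (nat_lit 76) (nat_lit 0) (XT.lf (nat_lit 0) (nat_lit 3310269092) (nat_lit 152) (nat_lit 20948605264) (nat_lit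 228) (nat_lit 3013824151) (nat_lit 36) (nat_lit 5) (nat_lit 38) (nat_lit 5) (nat_lit 39) (nat_lit 5) (nat_lit 525) (nat_lit 383) (nat_lit 232)) (XT.lf (nat_lit 0) (nat_lit 1484736792) (nat_lit 228) (nat_lit 13954870603) (nat_lit 76) (nat_lit 12257581650) (nat_lit 35) (nat_lit 5) (nat_lit 38) (nat_lit 5) (nat_lit 36) (nat_lit 5) (nat_lit 526) (nat_lit 383) (nat_lit 231))) (XT.nd (nat_lit 48204) (nat_lit 0) (nat_lit 45372) (XT.lf (nat_lit 0) (nat_lit 6022268337) (nat_lit 228) (nat_lit 3785651261) (nat_lit 76) (nat_lit 18322067156) (nat_lit 35) (nat_lit 5) (nat_lit 38) (nat_lit 5) (nat_lit 36) (nat_lit 5) (nat_lit 527) (nat_lit 383) (nat_lit 230)) (XT.lf (nat_lit 0) (nat_lit 1628745760) (nat_lit 380) (nat_lit 804057049) (nat_lit 380) (nat_lit 804057049) (nat_lit 632) (nat_lit 3) (nat_lit 637) (nat_lit 3) (nat_lit 637) (nat_lit 5) (nat_lit 384) (nat_lit 384) (nat_lit 372))))))))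
noncomputable def xc112 : XT := (XT.nd (nat_lit 2184) (nat_lit 17784) (nat_lit 0) (XT.nd (nat_lit 1092) (nat_lit 7904) (nat_lit 0) (XT.nd (nat_lit 546) (nat_lit 1216) (nat_lit 0) (XT.nd (nat_lit 234) (nat_lit 988) (nat_lit 0) (XT.nd (nat_lit 78) (nat_lit 380) (nat_lit 0) (XT.lf (nat_lit 76) (nat_lit 1418799831) (nat_lit 0) (nat_lit 4499601407) (nat_lit 380) (nat_lit 563909396) (nat_lit 633) (nat_lit 5) (nat_lit 632) (nat_lit 3) (nat_lit 637) (nat_lit 5) (nat_lit 385) (nat_lit 384) (nat_lit 371)) (XT.nd (nat_lit 78) (nat_lit 0) (nat_lit 0) (XT.lf (nat_lit 0) (nat_lit 2054752445) (nat_lit 380) (nat_lit 2013348193) (nat_lit 456) (nat_lit 2423959063) (nat_lit 627) (nat_lit 5) (nat_lit 632) (nat_lit 3) (nat_lit 633) (nat_lit 5) (nat_lit 386) (nat_lit 384) (nat_lit 370)) (XT.lf (nat_lit 76) (nat_lit 1072297639) (nat_lit 0) (nat_lit 3584790108) (nat_lit 456) (nat_lit 1846154681) (nat_lit 628) (nat_lit 5) (nat_lit 627)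 (nat_lit 5) (nat_lit 633) (nat_lit 5) (nat_lit 387) (nat_lit 384) (nat_lit 369)))) (XT.nd (nat_lit 156) (nat_lit 532) (nat_lit 0) (XT.nd (nat_lit 78) (nat_lit 0) (nat_lit 0) (XT.lf (nat_lit 0) (nat_lit 732425750) (nat_lit 456) (nat_lit 2309291146) (nat_lit 532) (nat_lit 3473994083) (nat_lit 621) (nat_lit 5) (nat_lit 627) (nat_lit 5) (nat_lit 628) (nat_lit 5) (nat_lit 388) (nat_lit 384) (nat_lit 368)) (XT.lf (nat_lit 76) (nat_lit 837675808) (nat_lit 0) (nat_lit 2439423390) (nat_lit 532) (nat_lit 3252385855) (nat_lit 622) (nat_lit 5) (nat_lit 621) (nat_lit 5) (nat_lit 628) (nat_lit 5) (nat_lit 389) (nat_lit 384) (nat_lit 367))) (XT.nd (nat_lit 78) (nat_lit 532) (nat_lit 0) (XT.lf (nat_lit 76) (nat_lit 4043241361) (nat_lit 0) (nat_lit 1779767892) (nat_lit 532) (nat_lit 721601867) (nat_lit 622) (nat_lit 5) (nat_lit 621) (nat_lit 5) (nat_lit 628) (nat_lit 5) (nat_lit 390) (nat_lit 384) (nat_lit 366)) (XT.lf (nat_lit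 76) (nat_lit 714290929) (nat_lit 0) (nat_lit 1061373349) (nat_lit 608) (nat_lit 4785408906) (nat_lit 615) (nat_lit 5) (nat_lit 614) (nat_lit 5) (nat_lit 622) (nat_lit 5) (nat_lit 391) (nat_lit 384) (nat_lit 365))))) (XT.nd (nat_lit 234) (nat_lit 684) (nat_lit 0) (XT.nd (nat_lit 78) (nat_lit 532) (nat_lit 0) (XT.lf (nat_lit 76) (nat_lit 3987684686) (nat_lit 0) (nat_lit 278943241) (nat_lit 608) (nat_lit 2312151445) (nat_lit 615) (nat_lit 5) (nat_lit 614) (nat_lit 5) (nat_lit 622) (nat_lit 5) (nat_lit 392) (nat_lit 384) (nat_lit 364)) (XT.nd (nat_lit 78) (nat_lit 0) (nat_lit 0) (XT.lf (nat_lit 0) (nat_lit 153354876) (nat_lit 608) (nat_lit 5899942771) (nat_lit 684) (nat_lit 544679301) (nat_lit 607) (nat_lit 5) (nat_lit 615) (nat_lit 5) (nat_lit 616) (nat_lit 5) (nat_lit 393) (nat_lit 384) (nat_lit 363)) (XT.lf (nat_lit 0) (nat_lit 2595161527) (nat_lit 608) (nat_lit 2583508635) (nat_lit 684) (nat_lit 1439497682) (nat_lit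 607) (nat_lit 5) (nat_lit 615) (nat_lit 5) (nat_lit 616) (nat_lit 5) (nat_lit 394) (nat_lit 384) (nat_lit 362)))) (XT.nd (nat_lit 156) (nat_lit 0) (nat_lit 0) (XT.nd (nat_lit 78) (nat_lit 684) (nat_lit 0) (XT.lf (nat_lit 76) (nat_lit 773028091) (nat_lit 0) (nat_lit 4257570630) (nat_lit 684) (nat_lit 1609340534) (nat_lit 608) (nat_lit 5) (nat_lit 607) (nat_lit 5) (nat_lit 616) (nat_lit 5) (nat_lit 395) (nat_lit 384) (nat_lit 361)) (XT.lf (nat_lit 0) (nat_lit 799127022) (nat_lit 684) (nat_lit 2472723062) (nat_lit 760) (nat_lit 3391100852) (nat_lit 598) (nat_lit 5) (nat_lit 607) (nat_lit 5) (nat_lit 608) (nat_lit 5) (nat_lit 396) (nat_lit 384) (nat_lit 360))) (XT.nd (nat_lit 78) (nat_lit 0) (nat_lit 0) (XT.lf (nat_lit 76) (nat_lit 954951607) (nat_lit 0) (nat_lit 2226913895) (nat_lit 760) (nat_lit 3505459977) (nat_lit 599) (nat_lit 5) (nat_lit 598) (nat_lit 5) (nat_lit 608) (nat_lit 5) (nat_lit 397) (nat_lit 384)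 (nat_lit 359)) (XT.lf (nat_lit 76) (nat_lit 4448673087) (nat_lit 0) (nat_lit 1122523784) (nat_lit 760) (nat_lit 1141878936) (nat_lit 599) (nat_lit 5) (nat_lit 598) (nat_lit 5) (nat_lit 608) (nat_lit 5) (nat_lit 398) (nat_lit 384) (nat_lit 358)))))) (XT.nd (nat_lit 546) (nat_lit 4560) (nat_lit 0) (XT.nd (nat_lit 234) (nat_lit 1900) (nat_lit 0) (XT.nd (nat_lit 78) (nat_lit 760) (nat_lit 0) (XT.lf (nat_lit 0) (nat_lit 1203718552) (nat_lit 760) (nat_lit 5495611995) (nat_lit 76) (nat_lit 40882511) (nat_lit 589) (nat_lit 5) (nat_lit 599) (nat_lit 5) (nat_lit 590) (nat_lit 5) (nat_lit 399) (nat_lit 384) (nat_lit 357)) (XT.nd (nat_lit 78) (nat_lit 760) (nat_lit 0) (XT.lf (nat_lit 0) (nat_lit 3547733390) (nat_lit 760) (nat_lit 1965424550) (nat_lit 76) (nat_lit 1255311444) (nat_lit 589) (nat_lit 5) (nat_lit 599) (nat_lit 5) (nat_lit 590) (nat_lit 5) (nat_lit 400) (nat_lit 384) (nat_lit 356)) (XT.lf (nat_lit 0) (nat_lit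 1620126438) (nat_lit 760) (nat_lit 4274169028) (nat_lit 836) (nat_lit 903943980) (nat_lit 579) (nat_lit 5) (nat_lit 589) (nat_lit 5) (nat_lit 590) (nat_lit 5) (nat_lit 401) (nat_lit 384) (nat_lit 355)))) (XT.nd (nat_lit 156) (nat_lit 988) (nat_lit 0) (XT.nd (nat_lit 78) (nat_lit 836) (nat_lit 0) (XT.lf (nat_lit 0) (nat_lit 1398893350) (nat_lit 836) (nat_lit 1570903450) (nat_lit 76) (nat_lit 3859501235) (nat_lit 578) (nat_lit 5) (nat_lit 589) (nat_lit 5) (nat_lit 579) (nat_lit 5) (nat_lit 402) (nat_lit 384) (nat_lit 354)) (XT.lf (nat_lit 0) (nat_lit 2093616899) (nat_lit 836) (nat_lit 1602308981) (nat_lit 912) (nat_lit 3165785943) (nat_lit 567) (nat_lit 5) (nat_lit 578) (nat_lit 5) (nat_lit 579) (nat_lit 5) (nat_lit 403) (nat_lit 384) (nat_lit 353))) (XT.nd (nat_lit 78) (nat_lit 988) (nat_lit 0) (XT.lf (nat_lit 0) (nat_lit 5816655339) (nat_lit 836) (nat_lit 180235264) (nat_lit 912) (nat_lit 898780686) (nat_lit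 567) (nat_lit 5) (nat_lit 578) (nat_lit 5) (nat_lit 579) (nat_lit 5) (nat_lit 404) (nat_lit 384) (nat_lit 352)) (XT.lf (nat_lit 0) (nat_lit 1368994170) (nat_lit 988) (nat_lit 4265770624) (nat_lit 76) (nat_lit 1295937229) (nat_lit 554) (nat_lit 5) (nat_lit 567) (nat_lit 5) (nat_lit 555) (nat_lit 5) (nat_lit 405) (nat_lit 384) (nat_lit 351))))) (XT.nd (nat_lit 234) (nat_lit 2432) (nat_lit 0) (XT.nd (nat_lit 78) (nat_lit 2128) (nat_lit 0) (XT.lf (nat_lit 0) (nat_lit 3627551413) (nat_lit 988) (nat_lit 512140494) (nat_lit 76) (nat_lit 2827527345) (nat_lit 554) (nat_lit 5) (nat_lit 567) (nat_lit 5) (nat_lit 555) (nat_lit 5) (nat_lit 406) (nat_lit 384) (nat_lit 350)) (XT.nd (nat_lit 78) (nat_lit 1140) (nat_lit 0) (XT.lf (nat_lit 0) (nat_lit 3323839077) (nat_lit 988) (nat_lit 2578989904) (nat_lit 1064) (nat_lit 1102259735) (nat_lit 541) (nat_lit 5) (nat_lit 554) (nat_lit 5) (nat_lit 555) (nat_lit 5) (nat_lit 407) (nat_lit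 384) (nat_lit 349)) (XT.lf (nat_lit 0) (nat_lit 157427067) (nat_lit 1064) (nat_lit 961814362) (nat_lit 1140) (nat_lit 5925275356) (nat_lit 526) (nat_lit 5) (nat_lit 540) (nat_lit 5) (nat_lit 541) (nat_lit 5) (nat_lit 408) (nat_lit 384) (nat_lit 348)))) (XT.nd (nat_lit 156) (nat_lit 1292) (nat_lit 0) (XT.nd (nat_lit 78) (nat_lit 1140) (nat_lit 0) (XT.lf (nat_lit 0) (nat_lit 3350913618) (nat_lit 1140) (nat_lit 3011044584) (nat_lit 76) (nat_lit 723069313) (nat_lit 526) (nat_lit 5) (nat_lit 541) (nat_lit 5) (nat_lit 527) (nat_lit 5) (nat_lit 409) (nat_lit 384) (nat_lit 347)) (XT.lf (nat_lit 0) (nat_lit 911186031) (nat_lit 1140) (nat_lit 4680431332) (nat_lit 1216) (nat_lit 1535491981) (nat_lit 511) (nat_lit 5) (nat_lit 526) (nat_lit 5) (nat_lit 527) (nat_lit 5) (nat_lit 410) (nat_lit 384) (nat_lit 346))) (XT.nd (nat_lit 78) (nat_lit 1216) (nat_lit 0) (XT.lf (nat_lit 0) (nat_lit 670621672) (nat_lit 1216) (nat_lit 2259028830)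 (nat_lit 76) (nat_lit 4240881576) (nat_lit 510) (nat_lit 5) (nat_lit 526) (nat_lit 5) (nat_lit 511) (nat_lit 5) (nat_lit 411) (nat_lit 384) (nat_lit 345)) (XT.lf (nat_lit 0) (nat_lit 1753208657) (nat_lit 1216) (nat_lit 1111876767) (nat_lit 1292) (nat_lit 4350285118) (nat_lit 494) (nat_lit 5) (nat_lit 510) (nat_lit 5) (nat_lit 511) (nat_lit 5) (nat_lit 412) (nat_lit 384) (nat_lit 344))))))) (XT.nd (nat_lit 1092) (nat_lit 6460) (nat_lit 0) (XT.nd (nat_lit 546) (nat_lit 5548) (nat_lit 0) (XT.nd (nat_lit 234) (nat_lit 4408) (nat_lit 0) (XT.nd (nat_lit 78) (nat_lit 1368) (nat_lit 0) (XT.lf (nat_lit 0) (nat_lit 5077643024) (nat_lit 1292) (nat_lit 1426814252) (nat_lit 76) (nat_lit 757209535) (nat_lit 494) (nat_lit 5) (nat_lit 511) (nat_lit 5) (nat_lit 495) (nat_lit 5) (nat_lit 413) (nat_lit 384) (nat_lit 343)) (XT.nd (nat_lit 78) (nat_lit 0) (nat_lit 0) (XT.lf (nat_lit 0) (nat_lit 4841313) (nat_lit 1368) (nat_lit 4629010243)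 (nat_lit 76) (nat_lit 2675485226) (nat_lit 476) (nat_lit 5) (nat_lit 494) (nat_lit 5) (nat_lit 477) (nat_lit 5) (nat_lit 414) (nat_lit 384) (nat_lit 342)) (XT.lf (nat_lit 0) (nat_lit 2173239218) (nat_lit 1368) (nat_lit 520410936) (nat_lit 76) (nat_lit 4664763804) (nat_lit 476) (nat_lit 5) (nat_lit 494) (nat_lit 5) (nat_lit 477) (nat_lit 5) (nat_lit 415) (nat_lit 384) (nat_lit 341)))) (XT.nd (nat_lit 156) (nat_lit 1596) (nat_lit 0) (XT.nd (nat_lit 78) (nat_lit 1444) (nat_lit 0) (XT.lf (nat_lit 0) (nat_lit 3682315245) (nat_lit 1368) (nat_lit 682807830) (nat_lit 1444) (nat_lit 3043788932) (nat_lit 458) (nat_lit 5) (nat_lit 476) (nat_lit 5) (nat_lit 477) (nat_lit 5) (nat_lit 416) (nat_lit 384) (nat_lit 340)) (XT.lf (nat_lit 0) (nat_lit 476087002) (nat_lit 1444) (nat_lit 6097127711) (nat_lit 1520) (nat_lit 887798775) (nat_lit 439) (nat_lit 5) (nat_lit 458) (nat_lit 5) (nat_lit 459) (nat_lit 5) (nat_lit 417) (nat_lit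 384) (nat_lit 339))) (XT.nd (nat_lit 78) (nat_lit 1520) (nat_lit 0) (XT.lf (nat_lit 0) (nat_lit 1280973548) (nat_lit 1520) (nat_lit 2750933934) (nat_lit 76) (nat_lit 3482381315) (nat_lit 438) (nat_lit 5) (nat_lit 458) (nat_lit 5) (nat_lit 439) (nat_lit 5) (nat_lit 418) (nat_lit 384) (nat_lit 338)) (XT.lf (nat_lit 0) (nat_lit 1545446337) (nat_lit 1520) (nat_lit 1903837925) (nat_lit 1596) (nat_lit 4119905487) (nat_lit 418) (nat_lit 5) (nat_lit 438) (nat_lit 5) (nat_lit 439) (nat_lit 5) (nat_lit 419) (nat_lit 384) (nat_lit 337))))) (XT.nd (nat_lit 234) (nat_lit 3876) (nat_lit 0) (XT.nd (nat_lit 78) (nat_lit 1672) (nat_lit 0) (XT.lf (nat_lit 0) (nat_lit 5639900332) (nat_lit 1596) (nat_lit 1698968437) (nat_lit 76) (nat_lit 286778926) (nat_lit 418) (nat_lit 5) (nat_lit 439) (nat_lit 5) (nat_lit 419) (nat_lit 5) (nat_lit 420) (nat_lit 384) (nat_lit 336)) (XT.nd (nat_lit 78) (nat_lit 0) (nat_lit 0) (XT.lf (nat_lit 0)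 (nat_lit 178046317) (nat_lit 1672) (nat_lit 4986173218) (nat_lit 76) (nat_lit 2519237572) (nat_lit 396) (nat_lit 5) (nat_lit 418) (nat_lit 5) (nat_lit 397) (nat_lit 5) (nat_lit 421) (nat_lit 384) (nat_lit 335)) (XT.lf (nat_lit 0) (nat_lit 2329722326) (nat_lit 1672) (nat_lit 587866198) (nat_lit 76) (nat_lit 4825183339) (nat_lit 396) (nat_lit 5) (nat_lit 418) (nat_lit 5) (nat_lit 397) (nat_lit 5) (nat_lit 422) (nat_lit 384) (nat_lit 334)))) (XT.nd (nat_lit 156) (nat_lit 912) (nat_lit 0) (XT.nd (nat_lit 78) (nat_lit 1292) (nat_lit 0) (XT.lf (nat_lit 0) (nat_lit 3913521153) (nat_lit 1672) (nat_lit 596804465) (nat_lit 1748) (nat_lit 3293264304) (nat_lit 374) (nat_lit 5) (nat_lit 396) (nat_lit 5) (nat_lit 397) (nat_lit 5) (nat_lit 423) (nat_lit 384) (nat_lit 333)) (XT.lf (nat_lit 0) (nat_lit 606992330) (nat_lit 1292) (nat_lit 6108000551) (nat_lit 1368) (nat_lit 1151056623) (nat_lit 357) (nat_lit 5) (nat_lit 374) (nat_lit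 5) (nat_lit 375) (nat_lit 5) (nat_lit 424) (nat_lit 384) (nat_lit 332))) (XT.nd (nat_lit 78) (nat_lit 836) (nat_lit 0) (XT.lf (nat_lit 0) (nat_lit 1011947951) (nat_lit 1368) (nat_lit 2730461737) (nat_lit 76) (nat_lit 4187416919) (nat_lit 356) (nat_lit 5) (nat_lit 374) (nat_lit 5) (nat_lit 357) (nat_lit 5) (nat_lit 425) (nat_lit 384) (nat_lit 331)) (XT.lf (nat_lit 0) (nat_lit 1869212980) (nat_lit 836) (nat_lit 1307780843) (nat_lit 912) (nat_lit 4818281610) (nat_lit 345) (nat_lit 5) (nat_lit 356) (nat_lit 5) (nat_lit 357) (nat_lit 5) (nat_lit 426) (nat_lit 384) (nat_lit 330)))))) (XT.nd (nat_lit 546) (nat_lit 3040) (nat_lit 0) (XT.nd (nat_lit 234) (nat_lit 2508) (nat_lit 0) (XT.nd (nat_lit 78) (nat_lit 912) (nat_lit 0) (XT.lf (nat_lit 0) (nat_lit 5373978478) (nat_lit 912) (nat_lit 1508461610) (nat_lit 76) (nat_lit 1179851985) (nat_lit 345) (nat_lit 5) (nat_lit 357) (nat_lit 5) (nat_lit 346) (nat_lit 5) (nat_lit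 427) (nat_lit 384) (nat_lit 329)) (XT.nd (nat_lit 78) (nat_lit 76) (nat_lit 0) (XT.lf (nat_lit 0) (nat_lit 3198570056) (nat_lit 836) (nat_lit 4409056197) (nat_lit 912) (nat_lit 523199301) (nat_lit 334) (nat_lit 5) (nat_lit 345) (nat_lit 5) (nat_lit 346) (nat_lit 5) (nat_lit 428) (nat_lit 384) (nat_lit 328)) (XT.lf (nat_lit 0) (nat_lit 1636816664) (nat_lit 912) (nat_lit 227832562) (nat_lit 76) (nat_lit 6336417395) (nat_lit 333) (nat_lit 5) (nat_lit 345) (nat_lit 5) (nat_lit 334) (nat_lit 5) (nat_lit 429) (nat_lit 384) (nat_lit 327)))) (XT.nd (nat_lit 156) (nat_lit 836) (nat_lit 0) (XT.nd (nat_lit 78) (nat_lit 836) (nat_lit 0) (XT.lf (nat_lit 0) (nat_lit 3832037371) (nat_lit 912) (nat_lit 3686092663) (nat_lit 76) (nat_lit 754562297) (nat_lit 322) (nat_lit 5) (nat_lit 334) (nat_lit 5) (nat_lit 323) (nat_lit 5) (nat_lit 430) (nat_lit 384) (nat_lit 326)) (XT.lf (nat_lit 0) (nat_lit 1120760017) (nat_lit 836) (nat_lit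 4936263214) (nat_lit 912) (nat_lit 2289038726) (nat_lit 311) (nat_lit 5) (nat_lit 322) (nat_lit 5) (nat_lit 323) (nat_lit 5) (nat_lit 431) (nat_lit 384) (nat_lit 325))) (XT.nd (nat_lit 78) (nat_lit 836) (nat_lit 0) (XT.lf (nat_lit 0) (nat_lit 6037685267) (nat_lit 836) (nat_lit 2278713807) (nat_lit 912) (nat_lit 104730152) (nat_lit 311) (nat_lit 5) (nat_lit 322) (nat_lit 5) (nat_lit 323) (nat_lit 5) (nat_lit 432) (nat_lit 384) (nat_lit 324)) (XT.lf (nat_lit 0) (nat_lit 2080482852) (nat_lit 836) (nat_lit 5961847767) (nat_lit 76) (nat_lit 455417171) (nat_lit 300) (nat_lit 5) (nat_lit 311) (nat_lit 5) (nat_lit 301) (nat_lit 5) (nat_lit 433) (nat_lit 384) (nat_lit 323))))) (XT.nd (nat_lit 234) (nat_lit 1520) (nat_lit 0) (XT.nd (nat_lit 78) (nat_lit 1520) (nat_lit 0) (XT.lf (nat_lit 0) (nat_lit 4305207955) (nat_lit 836) (nat_lit 1041798249) (nat_lit 76) (nat_lit 3228960909) (nat_lit 300) (nat_lit 5) (nat_lit 311) (nat_lit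 5) (nat_lit 301) (nat_lit 5) (nat_lit 434) (nat_lit 384) (nat_lit 322)) (XT.nd (nat_lit 78) (nat_lit 760) (nat_lit 0) (XT.lf (nat_lit 0) (nat_lit 3993470294) (nat_lit 760) (nat_lit 2573569798) (nat_lit 836) (nat_lit 2088884400) (nat_lit 290) (nat_lit 5) (nat_lit 300) (nat_lit 5) (nat_lit 301) (nat_lit 5) (nat_lit 435) (nat_lit 384) (nat_lit 321)) (XT.lf (nat_lit 0) (nat_lit 112878642) (nat_lit 760) (nat_lit 8365257065) (nat_lit 76) (nat_lit 259791629) (nat_lit 280) (nat_lit 5) (nat_lit 290) (nat_lit 5) (nat_lit 281) (nat_lit 5) (nat_lit 436) (nat_lit 384) (nat_lit 320)))) (XT.nd (nat_lit 156) (nat_lit 760) (nat_lit 0) (XT.nd (nat_lit 78) (nat_lit 760) (nat_lit 0) (XT.lf (nat_lit 0) (nat_lit 2346536886) (nat_lit 760) (nat_lit 3316544088) (nat_lit 76) (nat_lit 3157920934) (nat_lit 280) (nat_lit 5) (nat_lit 290) (nat_lit 5) (nat_lit 281) (nat_lit 5) (nat_lit 437) (nat_lit 384) (nat_lit 319)) (XT.lf (nat_lit 0) (nat_lit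 1821529654) (nat_lit 760) (nat_lit 2783072793) (nat_lit 836) (nat_lit 4301564788) (nat_lit 270) (nat_lit 5) (nat_lit 280) (nat_lit 5) (nat_lit 281) (nat_lit 5) (nat_lit 438) (nat_lit 384) (nat_lit 318))) (XT.nd (nat_lit 78) (nat_lit 760) (nat_lit 0) (XT.lf (nat_lit 0) (nat_lit 6899520430) (nat_lit 836) (nat_lit 1922323690) (nat_lit 76) (nat_lit 171381403) (nat_lit 270) (nat_lit 5) (nat_lit 281) (nat_lit 5) (nat_lit 271) (nat_lit 5) (nat_lit 439) (nat_lit 384) (nat_lit 317)) (XT.lf (nat_lit 0) (nat_lit 165251835) (nat_lit 760) (nat_lit 5749632626) (nat_lit 76) (nat_lit 3166962195) (nat_lit 260) (nat_lit 5) (nat_lit 270) (nat_lit 5) (nat_lit 261) (nat_lit 5) (nat_lit 440) (nat_lit 384) (nat_lit 316))))))))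
noncomputable def xc113 : XT := (XT.nd (nat_lit 2184) (nat_lit 5016) (nat_lit 0) (XT.nd (nat_lit 1092) (nat_lit 3952) (nat_lit 0) (XT.nd (nat_lit 546) (nat_lit 2356) (nat_lit 0) (XT.nd (nat_lit 234) (nat_lit 1292) (nat_lit 0) (XT.nd (nat_lit 78) (nat_lit 1292) (nat_lit 0) (XT.lf (nat_lit 0) (nat_lit 2423428106) (nat_lit 760) (nat_lit 503434514) (nat_lit 76) (nat_lit 6245481428) (nat_lit 260) (nat_lit 5) (nat_lit 270) (nat_lit 5) (nat_lit 261) (nat_lit 5) (nat_lit 441) (nat_lit 384) (nat_lit 315)) (XT.nd (nat_lit 78) (nat_lit 608) (nat_lit 0) (XT.lf (nat_lit 0) (nat_lit 4729068689) (nat_lit 760) (nat_lit 4388670457) (nat_lit 76) (nat_lit 146887915) (nat_lit 251) (nat_lit 5) (nat_lit 261) (nat_lit 5) (nat_lit 252) (nat_lit 5) (nat_lit 442) (nat_lit 384) (nat_lit 314)) (XT.lf (nat_lit 0) (nat_lit 969308654) (nat_lit 608) (nat_lit 6110602274) (nat_lit 684) (nat_lit 2278884291) (nat_lit 243) (nat_lit 5) (nat_lit 251)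 (nat_lit 5) (nat_lit 252) (nat_lit 5) (nat_lit 443) (nat_lit 384) (nat_lit 313)))) (XT.nd (nat_lit 156) (nat_lit 608) (nat_lit 0) (XT.nd (nat_lit 78) (nat_lit 608) (nat_lit 0) (XT.lf (nat_lit 0) (nat_lit 22424558) (nat_lit 684) (nat_lit 2995920987) (nat_lit 76) (nat_lit 6436522619) (nat_lit 242) (nat_lit 5) (nat_lit 251) (nat_lit 5) (nat_lit 243) (nat_lit 5) (nat_lit 444) (nat_lit 384) (nat_lit 312)) (XT.lf (nat_lit 0) (nat_lit 2327226496) (nat_lit 684) (nat_lit 7065400690) (nat_lit 76) (nat_lit 160194525) (nat_lit 234) (nat_lit 5) (nat_lit 243) (nat_lit 5) (nat_lit 235) (nat_lit 5) (nat_lit 445) (nat_lit 384) (nat_lit 311))) (XT.nd (nat_lit 78) (nat_lit 608) (nat_lit 0) (XT.lf (nat_lit 0) (nat_lit 4689408126) (nat_lit 684) (nat_lit 1586314211) (nat_lit 76) (nat_lit 3376805964) (nat_lit 234) (nat_lit 5) (nat_lit 243) (nat_lit 5) (nat_lit 235) (nat_lit 5) (nat_lit 446) (nat_lit 384) (nat_lit 310)) (XT.lf (nat_lit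 0) (nat_lit 4020872631) (nat_lit 608) (nat_lit 3075691697) (nat_lit 684) (nat_lit 2657729334) (nat_lit 226) (nat_lit 5) (nat_lit 234) (nat_lit 5) (nat_lit 235) (nat_lit 5) (nat_lit 447) (nat_lit 384) (nat_lit 309))))) (XT.nd (nat_lit 234) (nat_lit 1140) (nat_lit 0) (XT.nd (nat_lit 78) (nat_lit 1216) (nat_lit 0) (XT.lf (nat_lit 0) (nat_lit 9535723794) (nat_lit 684) (nat_lit 132000397) (nat_lit 76) (nat_lit 190711817) (nat_lit 226) (nat_lit 5) (nat_lit 235) (nat_lit 5) (nat_lit 227) (nat_lit 5) (nat_lit 448) (nat_lit 384) (nat_lit 308)) (XT.nd (nat_lit 78) (nat_lit 532) (nat_lit 0) (XT.lf (nat_lit 0) (nat_lit 2061380673) (nat_lit 684) (nat_lit 4376978262) (nat_lit 76) (nat_lit 3525465452) (nat_lit 217) (nat_lit 5) (nat_lit 226) (nat_lit 5) (nat_lit 218) (nat_lit 5) (nat_lit 449) (nat_lit 384) (nat_lit 307)) (XT.lf (nat_lit 0) (nat_lit 1331866777) (nat_lit 532) (nat_lit 3139106265) (nat_lit 608) (nat_lit 5600679845)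 (nat_lit 210) (nat_lit 5) (nat_lit 217) (nat_lit 5) (nat_lit 218) (nat_lit 5) (nat_lit 450) (nat_lit 384) (nat_lit 306)))) (XT.nd (nat_lit 156) (nat_lit 608) (nat_lit 0) (XT.nd (nat_lit 78) (nat_lit 532) (nat_lit 0) (XT.lf (nat_lit 0) (nat_lit 6932661906) (nat_lit 608) (nat_lit 3002799214) (nat_lit 76) (nat_lit 246116189) (nat_lit 210) (nat_lit 5) (nat_lit 218) (nat_lit 5) (nat_lit 211) (nat_lit 5) (nat_lit 451) (nat_lit 384) (nat_lit 305)) (XT.lf (nat_lit 0) (nat_lit 2831643015) (nat_lit 532) (nat_lit 6624517284) (nat_lit 608) (nat_lit 837305506) (nat_lit 203) (nat_lit 5) (nat_lit 210) (nat_lit 5) (nat_lit 211) (nat_lit 5) (nat_lit 452) (nat_lit 384) (nat_lit 304))) (XT.nd (nat_lit 78) (nat_lit 532) (nat_lit 0) (XT.lf (nat_lit 0) (nat_lit 1595056526) (nat_lit 608) (nat_lit 1628159523) (nat_lit 76) (nat_lit 7184305770) (nat_lit 202) (nat_lit 5) (nat_lit 210) (nat_lit 5) (nat_lit 203) (nat_lit 5) (nat_lit 453)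 (nat_lit 384) (nat_lit 303)) (XT.lf (nat_lit 0) (nat_lit 4068855881) (nat_lit 608) (nat_lit 6185054979) (nat_lit 76) (nat_lit 269773486) (nat_lit 195) (nat_lit 5) (nat_lit 203) (nat_lit 5) (nat_lit 196) (nat_lit 5) (nat_lit 454) (nat_lit 384) (nat_lit 302)))))) (XT.nd (nat_lit 546) (nat_lit 1824) (nat_lit 0) (XT.nd (nat_lit 234) (nat_lit 1064) (nat_lit 0) (XT.nd (nat_lit 78) (nat_lit 1064) (nat_lit 0) (XT.lf (nat_lit 0) (nat_lit 6598759027) (nat_lit 608) (nat_lit 249927847) (nat_lit 76) (nat_lit 3793366492) (nat_lit 195) (nat_lit 5) (nat_lit 203) (nat_lit 5) (nat_lit 196) (nat_lit 5) (nat_lit 455) (nat_lit 384) (nat_lit 301)) (XT.nd (nat_lit 78) (nat_lit 532) (nat_lit 0) (XT.lf (nat_lit 0) (nat_lit 5847869997) (nat_lit 532) (nat_lit 3344146566) (nat_lit 608) (nat_lit 1570533565) (nat_lit 188) (nat_lit 5) (nat_lit 195) (nat_lit 5) (nat_lit 196) (nat_lit 5) (nat_lit 456) (nat_lit 384) (nat_lit 300)) (XT.lf (nat_lit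 0) (nat_lit 924871641) (nat_lit 532) (nat_lit 9725439647) (nat_lit 76) (nat_lit 235323432) (nat_lit 181) (nat_lit 5) (nat_lit 188) (nat_lit 5) (nat_lit 182) (nat_lit 5) (nat_lit 457) (nat_lit 384) (nat_lit 299)))) (XT.nd (nat_lit 156) (nat_lit 532) (nat_lit 0) (XT.nd (nat_lit 78) (nat_lit 532) (nat_lit 0) (XT.lf (nat_lit 0) (nat_lit 3479641220) (nat_lit 532) (nat_lit 3653204972) (nat_lit 76) (nat_lit 3877532068) (nat_lit 181) (nat_lit 5) (nat_lit 188) (nat_lit 5) (nat_lit 182) (nat_lit 5) (nat_lit 458) (nat_lit 384) (nat_lit 298)) (XT.lf (nat_lit 0) (nat_lit 2541348584) (nat_lit 532) (nat_lit 3536266440) (nat_lit 608) (nat_lit 5060173780) (nat_lit 174) (nat_lit 5) (nat_lit 181) (nat_lit 5) (nat_lit 182) (nat_lit 5) (nat_lit 459) (nat_lit 384) (nat_lit 297))) (XT.nd (nat_lit 78) (nat_lit 532) (nat_lit 0) (XT.lf (nat_lit 0) (nat_lit 8728909118) (nat_lit 608) (nat_lit 2391651148) (nat_lit 76) (nat_lit 147174105)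 (nat_lit 174) (nat_lit 5) (nat_lit 182) (nat_lit 5) (nat_lit 175) (nat_lit 5) (nat_lit 460) (nat_lit 384) (nat_lit 296)) (XT.lf (nat_lit 0) (nat_lit 57927650) (nat_lit 532) (nat_lit 7466812571) (nat_lit 76) (nat_lit 3875039644) (nat_lit 167) (nat_lit 5) (nat_lit 174) (nat_lit 5) (nat_lit 168) (nat_lit 5) (nat_lit 461) (nat_lit 384) (nat_lit 295))))) (XT.nd (nat_lit 234) (nat_lit 912) (nat_lit 0) (XT.nd (nat_lit 78) (nat_lit 912) (nat_lit 0) (XT.lf (nat_lit 0) (nat_lit 2665196455) (nat_lit 532) (nat_lit 1166728969) (nat_lit 76) (nat_lit 7702366915) (nat_lit 167) (nat_lit 5) (nat_lit 174) (nat_lit 5) (nat_lit 168) (nat_lit 5) (nat_lit 462) (nat_lit 384) (nat_lit 294)) (XT.nd (nat_lit 78) (nat_lit 456) (nat_lit 0) (XT.lf (nat_lit 0) (nat_lit 5297300414) (nat_lit 456) (nat_lit 38555192) (nat_lit 532) (nat_lit 6335427519) (nat_lit 161) (nat_lit 5) (nat_lit 167) (nat_lit 5) (nat_lit 168) (nat_lit 5) (nat_lit 463) (nat_lit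 384) (nat_lit 293)) (XT.lf (nat_lit 0) (nat_lit 39422960) (nat_lit 456) (nat_lit 8030560689) (nat_lit 532) (nat_lit 3740841670) (nat_lit 155) (nat_lit 5) (nat_lit 161) (nat_lit 5) (nat_lit 162) (nat_lit 5) (nat_lit 464) (nat_lit 384) (nat_lit 292)))) (XT.nd (nat_lit 156) (nat_lit 380) (nat_lit 0) (XT.nd (nat_lit 78) (nat_lit 532) (nat_lit 0) (XT.lf (nat_lit 0) (nat_lit 6635708385) (nat_lit 456) (nat_lit 4243404837) (nat_lit 532) (nat_lit 1073651213) (nat_lit 155) (nat_lit 5) (nat_lit 161) (nat_lit 5) (nat_lit 162) (nat_lit 5) (nat_lit 465) (nat_lit 384) (nat_lit 291)) (XT.lf (nat_lit 0) (nat_lit 1240734639) (nat_lit 456) (nat_lit 370183216) (nat_lit 532) (nat_lit 10486709920) (nat_lit 148) (nat_lit 5) (nat_lit 154) (nat_lit 5) (nat_lit 155) (nat_lit 5) (nat_lit 466) (nat_lit 384) (nat_lit 290))) (XT.nd (nat_lit 78) (nat_lit 380) (nat_lit 0) (XT.lf (nat_lit 0) (nat_lit 4371738294) (nat_lit 532) (nat_lit 4304928095)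 (nat_lit 76) (nat_lit 3567853069) (nat_lit 148) (nat_lit 5) (nat_lit 155) (nat_lit 5) (nat_lit 149) (nat_lit 5) (nat_lit 467) (nat_lit 384) (nat_lit 289)) (XT.lf (nat_lit 0) (nat_lit 2375987190) (nat_lit 380) (nat_lit 4807861279) (nat_lit 456) (nat_lit 5210590549) (nat_lit 143) (nat_lit 5) (nat_lit 148) (nat_lit 5) (nat_lit 149) (nat_lit 5) (nat_lit 468) (nat_lit 384) (nat_lit 288))))))) (XT.nd (nat_lit 1092) (nat_lit 2204) (nat_lit 0) (XT.nd (nat_lit 546) (nat_lit 1444) (nat_lit 0) (XT.nd (nat_lit 234) (nat_lit 836) (nat_lit 0) (XT.nd (nat_lit 78) (nat_lit 532) (nat_lit 0) (XT.lf (nat_lit 0) (nat_lit 9218278829) (nat_lit 380) (nat_lit 841234540) (nat_lit 456) (nat_lit 2487708632) (nat_lit 143) (nat_lit 5) (nat_lit 148) (nat_lit 5) (nat_lit 149) (nat_lit 5) (nat_lit 469) (nat_lit 384) (nat_lit 287)) (XT.nd (nat_lit 78) (nat_lit 0) (nat_lit 0) (XT.lf (nat_lit 0) (nat_lit 308218284) (nat_lit 532) (nat_lit 9215721178)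 (nat_lit 76) (nat_lit 3178646698) (nat_lit 136) (nat_lit 5) (nat_lit 143) (nat_lit 5) (nat_lit 137) (nat_lit 5) (nat_lit 470) (nat_lit 384) (nat_lit 286)) (XT.lf (nat_lit 0) (nat_lit 3133702544) (nat_lit 532) (nat_lit 2429155644) (nat_lit 76) (nat_lit 7297742187) (nat_lit 136) (nat_lit 5) (nat_lit 143) (nat_lit 5) (nat_lit 137) (nat_lit 5) (nat_lit 471) (nat_lit 384) (nat_lit 285)))) (XT.nd (nat_lit 156) (nat_lit 456) (nat_lit 0) (XT.nd (nat_lit 78) (nat_lit 0) (nat_lit 0) (XT.lf (nat_lit 0) (nat_lit 4522588207) (nat_lit 380) (nat_lit 1501746527) (nat_lit 456) (nat_lit 6997277800) (nat_lit 131) (nat_lit 5) (nat_lit 136) (nat_lit 5) (nat_lit 137) (nat_lit 5) (nat_lit 472) (nat_lit 384) (nat_lit 284)) (XT.lf (nat_lit 0) (nat_lit 8985761749) (nat_lit 456) (nat_lit 1586508572) (nat_lit 76) (nat_lit 2613325191) (nat_lit 131) (nat_lit 5) (nat_lit 137) (nat_lit 5) (nat_lit 132) (nat_lit 5) (nat_lit 473) (nat_lit 384)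 (nat_lit 283))) (XT.nd (nat_lit 78) (nat_lit 76) (nat_lit 0) (XT.lf (nat_lit 0) (nat_lit 5496962637) (nat_lit 380) (nat_lit 6534922160) (nat_lit 456) (nat_lit 1320474019) (nat_lit 126) (nat_lit 5) (nat_lit 131) (nat_lit 5) (nat_lit 132) (nat_lit 5) (nat_lit 474) (nat_lit 384) (nat_lit 282)) (XT.lf (nat_lit 0) (nat_lit 1585885270) (nat_lit 456) (nat_lit 818727641) (nat_lit 76) (nat_lit 11117831950) (nat_lit 125) (nat_lit 5) (nat_lit 131) (nat_lit 5) (nat_lit 126) (nat_lit 5) (nat_lit 475) (nat_lit 384) (nat_lit 281))))) (XT.nd (nat_lit 234) (nat_lit 760) (nat_lit 0) (XT.nd (nat_lit 78) (nat_lit 380) (nat_lit 0) (XT.lf (nat_lit 0) (nat_lit 4566596641) (nat_lit 380) (nat_lit 7302359090) (nat_lit 76) (nat_lit 1826133647) (nat_lit 121) (nat_lit 5) (nat_lit 126) (nat_lit 5) (nat_lit 122) (nat_lit 5) (nat_lit 476) (nat_lit 384) (nat_lit 280)) (XT.nd (nat_lit 78) (nat_lit 380) (nat_lit 0) (XT.lf (nat_lit 0) (nat_lit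 7608807102) (nat_lit 380) (nat_lit 156618737) (nat_lit 76) (nat_lit 6105732506) (nat_lit 121) (nat_lit 5) (nat_lit 126) (nat_lit 5) (nat_lit 122) (nat_lit 5) (nat_lit 477) (nat_lit 384) (nat_lit 279)) (XT.lf (nat_lit 0) (nat_lit 7197912550) (nat_lit 380) (nat_lit 3541496368) (nat_lit 456) (nat_lit 3310797905) (nat_lit 116) (nat_lit 5) (nat_lit 121) (nat_lit 5) (nat_lit 122) (nat_lit 5) (nat_lit 478) (nat_lit 384) (nat_lit 278)))) (XT.nd (nat_lit 156) (nat_lit 380) (nat_lit 0) (XT.nd (nat_lit 78) (nat_lit 76) (nat_lit 0) (XT.lf (nat_lit 0) (nat_lit 440973168) (nat_lit 304) (nat_lit 13481495019) (nat_lit 380) (nat_lit 310580070) (nat_lit 112) (nat_lit 5) (nat_lit 116) (nat_lit 5) (nat_lit 117) (nat_lit 5) (nat_lit 479) (nat_lit 384) (nat_lit 277)) (XT.lf (nat_lit 0) (nat_lit 2764320962) (nat_lit 380) (nat_lit 6515985588) (nat_lit 76) (nat_lit 5137876655) (nat_lit 111) (nat_lit 5) (nat_lit 116) (nat_lit 5) (nat_lit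 112) (nat_lit 5) (nat_lit 480) (nat_lit 384) (nat_lit 276))) (XT.nd (nat_lit 78) (nat_lit 0) (nat_lit 0) (XT.lf (nat_lit 0) (nat_lit 887027217) (nat_lit 380) (nat_lit 4996669986) (nat_lit 456) (nat_lit 8723548255) (nat_lit 106) (nat_lit 5) (nat_lit 111) (nat_lit 5) (nat_lit 112) (nat_lit 5) (nat_lit 481) (nat_lit 384) (nat_lit 275)) (XT.lf (nat_lit 0) (nat_lit 8498436357) (nat_lit 380) (nat_lit 592306615) (nat_lit 456) (nat_lit 5708848564) (nat_lit 106) (nat_lit 5) (nat_lit 111) (nat_lit 5) (nat_lit 112) (nat_lit 5) (nat_lit 482) (nat_lit 384) (nat_lit 274)))))) (XT.nd (nat_lit 546) (nat_lit 836) (nat_lit 0) (XT.nd (nat_lit 234) (nat_lit 684) (nat_lit 0) (XT.nd (nat_lit 78) (nat_lit 380) (nat_lit 0) (XT.lf (nat_lit 0) (nat_lit 1229339899) (nat_lit 304) (nat_lit 11147750954) (nat_lit 380) (nat_lit 2618398516) (nat_lit 102) (nat_lit 5) (nat_lit 106) (nat_lit 5) (nat_lit 107) (nat_lit 5) (nat_lit 483) (nat_lit 384)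 (nat_lit 273)) (XT.nd (nat_lit 78) (nat_lit 304) (nat_lit 0) (XT.lf (nat_lit 0) (nat_lit 555252674) (nat_lit 380) (nat_lit 6234085106) (nat_lit 76) (nat_lit 8405337924) (nat_lit 101) (nat_lit 5) (nat_lit 106) (nat_lit 5) (nat_lit 102) (nat_lit 5) (nat_lit 484) (nat_lit 384) (nat_lit 272)) (XT.lf (nat_lit 0) (nat_lit 1422668555) (nat_lit 304) (nat_lit 2326179585) (nat_lit 380) (nat_lit 11648828434) (nat_lit 97) (nat_lit 5) (nat_lit 101) (nat_lit 5) (nat_lit 102) (nat_lit 5) (nat_lit 485) (nat_lit 384) (nat_lit 271)))) (XT.nd (nat_lit 156) (nat_lit 380) (nat_lit 0) (XT.nd (nat_lit 78) (nat_lit 304) (nat_lit 0) (XT.lf (nat_lit 0) (nat_lit 7045252793) (nat_lit 380) (nat_lit 6328957788) (nat_lit 76) (nat_lit 2229755578) (nat_lit 97) (nat_lit 5) (nat_lit 102) (nat_lit 5) (nat_lit 98) (nat_lit 5) (nat_lit 486) (nat_lit 384) (nat_lit 270)) (XT.lf (nat_lit 0) (nat_lit 1446731769) (nat_lit 304) (nat_lit 8968369721) (nat_lit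 380) (nat_lit 5399137026) (nat_lit 93) (nat_lit 5) (nat_lit 97) (nat_lit 5) (nat_lit 98) (nat_lit 5) (nat_lit 487) (nat_lit 384) (nat_lit 269))) (XT.nd (nat_lit 78) (nat_lit 380) (nat_lit 0) (XT.lf (nat_lit 0) (nat_lit 9437051794) (nat_lit 304) (nat_lit 4440649338) (nat_lit 380) (nat_lit 2150515264) (nat_lit 93) (nat_lit 5) (nat_lit 97) (nat_lit 5) (nat_lit 98) (nat_lit 5) (nat_lit 488) (nat_lit 384) (nat_lit 268)) (XT.lf (nat_lit 0) (nat_lit 1140721649) (nat_lit 380) (nat_lit 14923557609) (nat_lit 76) (nat_lit 182192489) (nat_lit 88) (nat_lit 5) (nat_lit 93) (nat_lit 5) (nat_lit 89) (nat_lit 5) (nat_lit 489) (nat_lit 384) (nat_lit 267))))) (XT.nd (nat_lit 234) (nat_lit 608) (nat_lit 0) (XT.nd (nat_lit 78) (nat_lit 228) (nat_lit 0) (XT.lf (nat_lit 0) (nat_lit 4526146785) (nat_lit 380) (nat_lit 7054020078) (nat_lit 76) (nat_lit 4887504607) (nat_lit 88) (nat_lit 5) (nat_lit 93) (nat_lit 5) (nat_lit 89) (nat_lit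 5) (nat_lit 490) (nat_lit 384) (nat_lit 266)) (XT.nd (nat_lit 78) (nat_lit 0) (nat_lit 0) (XT.lf (nat_lit 0) (nat_lit 959523018) (nat_lit 228) (nat_lit 7009517261) (nat_lit 304) (nat_lit 8724466324) (nat_lit 85) (nat_lit 5) (nat_lit 88) (nat_lit 5) (nat_lit 89) (nat_lit 5) (nat_lit 491) (nat_lit 384) (nat_lit 265)) (XT.lf (nat_lit 0) (nat_lit 9203157426) (nat_lit 228) (nat_lit 2308655838) (nat_lit 304) (nat_lit 5411431221) (nat_lit 85) (nat_lit 5) (nat_lit 88) (nat_lit 5) (nat_lit 89) (nat_lit 5) (nat_lit 492) (nat_lit 384) (nat_lit 264)))) (XT.nd (nat_lit 156) (nat_lit 228) (nat_lit 0) (XT.nd (nat_lit 78) (nat_lit 76) (nat_lit 0) (XT.lf (nat_lit 0) (nat_lit 417866918) (nat_lit 304) (nat_lit 14710375026) (nat_lit 380) (nat_lit 2029285531) (nat_lit 81) (nat_lit 5) (nat_lit 85) (nat_lit 5) (nat_lit 86) (nat_lit 5) (nat_lit 493) (nat_lit 384) (nat_lit 263)) (XT.lf (nat_lit 0) (nat_lit 1453294395) (nat_lit 380) (nat_lit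 8622696744) (nat_lit 76) (nat_lit 7319298204) (nat_lit 80) (nat_lit 5) (nat_lit 85) (nat_lit 5) (nat_lit 81) (nat_lit 5) (nat_lit 494) (nat_lit 384) (nat_lit 262))) (XT.nd (nat_lit 78) (nat_lit 228) (nat_lit 0) (XT.lf (nat_lit 0) (nat_lit 4962676669) (nat_lit 380) (nat_lit 381939965) (nat_lit 76) (nat_lit 12293241074) (nat_lit 80) (nat_lit 5) (nat_lit 85) (nat_lit 5) (nat_lit 81) (nat_lit 5) (nat_lit 495) (nat_lit 384) (nat_lit 261)) (XT.lf (nat_lit 0) (nat_lit 8105319641) (nat_lit 228) (nat_lit 474157433) (nat_lit 304) (nat_lit 9305061626) (nat_lit 77) (nat_lit 5) (nat_lit 80) (nat_lit 5) (nat_lit 81) (nat_lit 5) (nat_lit 496) (nat_lit 384) (nat_lit 260))))))))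
noncomputable def xc114 : XT := (XT.nd (nat_lit 2184) (nat_lit 228) (nat_lit 0) (XT.nd (nat_lit 1092) (nat_lit 1292) (nat_lit 0) (XT.nd (nat_lit 546) (nat_lit 836) (nat_lit 0) (XT.nd (nat_lit 234) (nat_lit 456) (nat_lit 0) (XT.nd (nat_lit 78) (nat_lit 380) (nat_lit 0) (XT.lf (nat_lit 0) (nat_lit 12285058353) (nat_lit 304) (nat_lit 1422497575) (nat_lit 76) (nat_lit 4428274241) (nat_lit 77) (nat_lit 5) (nat_lit 81) (nat_lit 5) (nat_lit 78) (nat_lit 5) (nat_lit 497) (nat_lit 384) (nat_lit 259)) (XT.nd (nat_lit 78) (nat_lit 76) (nat_lit 0) (XT.lf (nat_lit 0) (nat_lit 7168008201) (nat_lit 304) (nat_lit 8931411579) (nat_lit 380) (nat_lit 2292039959) (nat_lit 73) (nat_lit 5) (nat_lit 77) (nat_lit 5) (nat_lit 78) (nat_lit 5) (nat_lit 498) (nat_lit 384) (nat_lit 258)) (XT.lf (nat_lit 0) (nat_lit 1314952204) (nat_lit 380) (nat_lit 2735418954) (nat_lit 76) (nat_lit 14601769797) (nat_lit 72) (nat_lit 5) (nat_lit 77) (nat_lit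 5) (nat_lit 73) (nat_lit 5) (nat_lit 499) (nat_lit 384) (nat_lit 257)))) (XT.nd (nat_lit 156) (nat_lit 228) (nat_lit 0) (XT.nd (nat_lit 78) (nat_lit 0) (nat_lit 0) (XT.lf (nat_lit 0) (nat_lit 4993770688) (nat_lit 304) (nat_lit 12961988372) (nat_lit 76) (nat_lit 961371506) (nat_lit 69) (nat_lit 5) (nat_lit 73) (nat_lit 5) (nat_lit 70) (nat_lit 5) (nat_lit 500) (nat_lit 384) (nat_lit 256)) (XT.lf (nat_lit 0) (nat_lit 8776859117) (nat_lit 304) (nat_lit 4381273948) (nat_lit 76) (nat_lit 6028678246) (nat_lit 69) (nat_lit 5) (nat_lit 73) (nat_lit 5) (nat_lit 70) (nat_lit 5) (nat_lit 501) (nat_lit 384) (nat_lit 255))) (XT.nd (nat_lit 78) (nat_lit 0) (nat_lit 0) (XT.lf (nat_lit 0) (nat_lit 4405431041) (nat_lit 228) (nat_lit 8244459941) (nat_lit 304) (nat_lit 6811714166) (nat_lit 66) (nat_lit 5) (nat_lit 69) (nat_lit 5) (nat_lit 70) (nat_lit 5) (nat_lit 502) (nat_lit 384) (nat_lit 254)) (XT.lf (nat_lit 0) (nat_lit 13404011669)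 (nat_lit 228) (nat_lit 3211581026) (nat_lit 304) (nat_lit 3126002990) (nat_lit 66) (nat_lit 5) (nat_lit 69) (nat_lit 5) (nat_lit 70) (nat_lit 5) (nat_lit 503) (nat_lit 384) (nat_lit 253))))) (XT.nd (nat_lit 234) (nat_lit 304) (nat_lit 0) (XT.nd (nat_lit 78) (nat_lit 228) (nat_lit 0) (XT.lf (nat_lit 0) (nat_lit 640295973) (nat_lit 304) (nat_lit 17477732007) (nat_lit 76) (nat_lit 1908776998) (nat_lit 62) (nat_lit 5) (nat_lit 66) (nat_lit 5) (nat_lit 63) (nat_lit 5) (nat_lit 504) (nat_lit 384) (nat_lit 252)) (XT.nd (nat_lit 78) (nat_lit 228) (nat_lit 0) (XT.lf (nat_lit 0) (nat_lit 4490239988) (nat_lit 304) (nat_lit 8682805610) (nat_lit 76) (nat_lit 7143260795) (nat_lit 62) (nat_lit 5) (nat_lit 66) (nat_lit 5) (nat_lit 63) (nat_lit 5) (nat_lit 505) (nat_lit 384) (nat_lit 251)) (XT.lf (nat_lit 0) (nat_lit 268942582) (nat_lit 228) (nat_lit 8136318031) (nat_lit 304) (nat_lit 12206580298) (nat_lit 59) (nat_lit 5) (nat_lit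 62) (nat_lit 5) (nat_lit 63) (nat_lit 5) (nat_lit 506) (nat_lit 384) (nat_lit 250)))) (XT.nd (nat_lit 156) (nat_lit 304) (nat_lit 0) (XT.nd (nat_lit 78) (nat_lit 0) (nat_lit 0) (XT.lf (nat_lit 0) (nat_lit 9494968202) (nat_lit 228) (nat_lit 2948333434) (nat_lit 304) (nat_lit 8469094621) (nat_lit 59) (nat_lit 5) (nat_lit 62) (nat_lit 5) (nat_lit 63) (nat_lit 5) (nat_lit 507) (nat_lit 384) (nat_lit 249)) (XT.lf (nat_lit 0) (nat_lit 16563981150) (nat_lit 304) (nat_lit 2350891659) (nat_lit 76) (nat_lit 2304056796) (nat_lit 59) (nat_lit 5) (nat_lit 63) (nat_lit 5) (nat_lit 60) (nat_lit 5) (nat_lit 508) (nat_lit 384) (nat_lit 248))) (XT.nd (nat_lit 78) (nat_lit 76) (nat_lit 0) (XT.lf (nat_lit 0) (nat_lit 6946765704) (nat_lit 228) (nat_lit 13871861155) (nat_lit 304) (nat_lit 711940070) (nat_lit 56) (nat_lit 5) (nat_lit 59) (nat_lit 5) (nat_lit 60) (nat_lit 5) (nat_lit 509) (nat_lit 384) (nat_lit 247)) (XT.lf (nat_lit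 0) (nat_lit 3269348359) (nat_lit 304) (nat_lit 5429299745) (nat_lit 76) (nat_lit 13149306678) (nat_lit 55) (nat_lit 5) (nat_lit 59) (nat_lit 5) (nat_lit 56) (nat_lit 5) (nat_lit 510) (nat_lit 384) (nat_lit 246)))))) (XT.nd (nat_lit 546) (nat_lit 608) (nat_lit 0) (XT.nd (nat_lit 234) (nat_lit 304) (nat_lit 0) (XT.nd (nat_lit 78) (nat_lit 152) (nat_lit 0) (XT.lf (nat_lit 0) (nat_lit 3933770304) (nat_lit 228) (nat_lit 3399714803) (nat_lit 304) (nat_lit 14837860168) (nat_lit 52) (nat_lit 5) (nat_lit 55) (nat_lit 5) (nat_lit 56) (nat_lit 5) (nat_lit 511) (nat_lit 384) (nat_lit 245)) (XT.nd (nat_lit 78) (nat_lit 152) (nat_lit 0) (XT.lf (nat_lit 0) (nat_lit 11515861433) (nat_lit 304) (nat_lit 8977497836) (nat_lit 76) (nat_lit 2007109202) (nat_lit 52) (nat_lit 5) (nat_lit 56) (nat_lit 5) (nat_lit 53) (nat_lit 5) (nat_lit 512) (nat_lit 384) (nat_lit 244)) (XT.lf (nat_lit 0) (nat_lit 429864793) (nat_lit 152) (nat_lit 15364838901)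 (nat_lit 228) (nat_lit 7041218018) (nat_lit 50) (nat_lit 5) (nat_lit 52) (nat_lit 5) (nat_lit 53) (nat_lit 5) (nat_lit 513) (nat_lit 384) (nat_lit 243)))) (XT.nd (nat_lit 156) (nat_lit 228) (nat_lit 0) (XT.nd (nat_lit 78) (nat_lit 76) (nat_lit 0) (XT.lf (nat_lit 0) (nat_lit 10126166302) (nat_lit 152) (nat_lit 10080822155) (nat_lit 228) (nat_lit 2970142120) (nat_lit 50) (nat_lit 5) (nat_lit 52) (nat_lit 5) (nat_lit 53) (nat_lit 5) (nat_lit 514) (nat_lit 384) (nat_lit 242)) (XT.lf (nat_lit 0) (nat_lit 1154629007) (nat_lit 228) (nat_lit 3537103429) (nat_lit 76) (nat_lit 18833525764) (nat_lit 49) (nat_lit 5) (nat_lit 52) (nat_lit 5) (nat_lit 50) (nat_lit 5) (nat_lit 515) (nat_lit 384) (nat_lit 241))) (XT.nd (nat_lit 78) (nat_lit 0) (nat_lit 0) (XT.lf (nat_lit 0) (nat_lit 5356063603) (nat_lit 304) (nat_lit 17676424084) (nat_lit 76) (nat_lit 846792919) (nat_lit 46) (nat_lit 5) (nat_lit 50) (nat_lit 5) (nat_lit 47)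 (nat_lit 5) (nat_lit 516) (nat_lit 384) (nat_lit 240)) (XT.lf (nat_lit 0) (nat_lit 9684561852) (nat_lit 304) (nat_lit 8105881277) (nat_lit 76) (nat_lit 6449083211) (nat_lit 46) (nat_lit 5) (nat_lit 50) (nat_lit 5) (nat_lit 47) (nat_lit 5) (nat_lit 517) (nat_lit 384) (nat_lit 239))))) (XT.nd (nat_lit 234) (nat_lit 456) (nat_lit 0) (XT.nd (nat_lit 78) (nat_lit 0) (nat_lit 0) (XT.lf (nat_lit 0) (nat_lit 1657908002) (nat_lit 152) (nat_lit 12440791074) (nat_lit 228) (nat_lit 10508300038) (nat_lit 44) (nat_lit 5) (nat_lit 46) (nat_lit 5) (nat_lit 47) (nat_lit 5) (nat_lit 518) (nat_lit 384) (nat_lit 238)) (XT.nd (nat_lit 78) (nat_lit 0) (nat_lit 0) (XT.lf (nat_lit 0) (nat_lit 11707073250) (nat_lit 152) (nat_lit 6936846210) (nat_lit 228) (nat_lit 6337049315) (nat_lit 44) (nat_lit 5) (nat_lit 46) (nat_lit 5) (nat_lit 47) (nat_lit 5) (nat_lit 519) (nat_lit 384) (nat_lit 237)) (XT.lf (nat_lit 0) (nat_lit 21937832420) (nat_lit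 152) (nat_lit 1330844855) (nat_lit 228) (nat_lit 2093971264) (nat_lit 44) (nat_lit 5) (nat_lit 46) (nat_lit 5) (nat_lit 47) (nat_lit 5) (nat_lit 520) (nat_lit 384) (nat_lit 236)))) (XT.nd (nat_lit 156) (nat_lit 152) (nat_lit 0) (XT.nd (nat_lit 78) (nat_lit 0) (nat_lit 0) (XT.lf (nat_lit 0) (nat_lit 2265604253) (nat_lit 304) (nat_lit 19104724954) (nat_lit 76) (nat_lit 4380127150) (nat_lit 40) (nat_lit 5) (nat_lit 44) (nat_lit 5) (nat_lit 41) (nat_lit 5) (nat_lit 521) (nat_lit 384) (nat_lit 235)) (XT.lf (nat_lit 0) (nat_lit 6705131189) (nat_lit 304) (nat_lit 9223489434) (nat_lit 76) (nat_lit 10216710097) (nat_lit 40) (nat_lit 5) (nat_lit 44) (nat_lit 5) (nat_lit 41) (nat_lit 5) (nat_lit 522) (nat_lit 384) (nat_lit 234))) (XT.nd (nat_lit 78) (nat_lit 0) (nat_lit 0) (XT.lf (nat_lit 0) (nat_lit 847654795) (nat_lit 152) (nat_lit 10380340456) (nat_lit 228) (nat_lit 15320219502) (nat_lit 38) (nat_lit 5) (nat_lit 40)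 (nat_lit 5) (nat_lit 41) (nat_lit 5) (nat_lit 523) (nat_lit 384) (nat_lit 233)) (XT.lf (nat_lit 0) (nat_lit 11226539492) (nat_lit 152) (nat_lit 4665807993) (nat_lit 228) (nat_lit 11065791419) (nat_lit 38) (nat_lit 5) (nat_lit 40) (nat_lit 5) (nat_lit 41) (nat_lit 5) (nat_lit 524) (nat_lit 384) (nat_lit 232))))))) (XT.nd (nat_lit 49296) (nat_lit 0) (nat_lit 37316) (XT.nd (nat_lit 48750) (nat_lit 0) (nat_lit 42712) (XT.nd (nat_lit 48438) (nat_lit 0) (nat_lit 44460) (XT.nd (nat_lit 78) (nat_lit 228) (nat_lit 0) (XT.lf (nat_lit 0) (nat_lit 20646837319) (nat_lit 228) (nat_lit 5589319181) (nat_lit 76) (nat_lit 1140171019) (nat_lit 38) (nat_lit 5) (nat_lit 41) (nat_lit 5) (nat_lit 39) (nat_lit 5) (nat_lit 525) (nat_lit 384) (nat_lit 231)) (XT.nd (nat_lit 78) (nat_lit 76) (nat_lit 0) (XT.lf (nat_lit 0) (nat_lit 4769312100) (nat_lit 152) (nat_lit 20778479083) (nat_lit 228) (nat_lit 2254064174) (nat_lit 36) (nat_lit 5)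 (nat_lit 38) (nat_lit 5) (nat_lit 39) (nat_lit 5) (nat_lit 526) (nat_lit 384) (nat_lit 230)) (XT.lf (nat_lit 0) (nat_lit 2307844796) (nat_lit 228) (nat_lit 12857683186) (nat_lit 76) (nat_lit 13069522878) (nat_lit 35) (nat_lit 5) (nat_lit 38) (nat_lit 5) (nat_lit 36) (nat_lit 5) (nat_lit 527) (nat_lit 384) (nat_lit 229)))) (XT.nd (nat_lit 156) (nat_lit 532) (nat_lit 0) (XT.nd (nat_lit 78) (nat_lit 0) (nat_lit 0) (XT.lf (nat_lit 0) (nat_lit 505373282) (nat_lit 0) (nat_lit 505373282) (nat_lit 380) (nat_lit 2234986666) (nat_lit 627) (nat_lit 5) (nat_lit 627) (nat_lit 3) (nat_lit 632) (nat_lit 3) (nat_lit 385) (nat_lit 385) (nat_lit 370)) (XT.lf (nat_lit 0) (nat_lit 4052993487) (nat_lit 0) (nat_lit 543006977) (nat_lit 380) (nat_lit 1905921690) (nat_lit 627) (nat_lit 5) (nat_lit 627) (nat_lit 3) (nat_lit 632) (nat_lit 3) (nat_lit 386) (nat_lit 385) (nat_lit 369))) (XT.nd (nat_lit 78) (nat_lit 0) (nat_lit 76) (XT.lf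 (nat_lit 76) (nat_lit 612440485) (nat_lit 0) (nat_lit 24111779) (nat_lit 532) (nat_lit 5877300414) (nat_lit 621) (nat_lit 5) (nat_lit 620) (nat_lit 3) (nat_lit 627) (nat_lit 5) (nat_lit 387) (nat_lit 385) (nat_lit 368)) (XT.lf (nat_lit 0) (nat_lit 3157981103) (nat_lit 456) (nat_lit 2809350759) (nat_lit 532) (nat_lit 559450517) (nat_lit 621) (nat_lit 5) (nat_lit 627) (nat_lit 5) (nat_lit 628) (nat_lit 5) (nat_lit 388) (nat_lit 385) (nat_lit 367))))) (XT.nd (nat_lit 234) (nat_lit 1292) (nat_lit 0) (XT.nd (nat_lit 78) (nat_lit 532) (nat_lit 0) (XT.lf (nat_lit 76) (nat_lit 313325225) (nat_lit 0) (nat_lit 5353785290) (nat_lit 532) (nat_lit 874198093) (nat_lit 622) (nat_lit 5) (nat_lit 621) (nat_lit 5) (nat_lit 628) (nat_lit 5) (nat_lit 389) (nat_lit 385) (nat_lit 366)) (XT.nd (nat_lit 78) (nat_lit 0) (nat_lit 0) (XT.lf (nat_lit 0) (nat_lit 1602988389) (nat_lit 532) (nat_lit 3066062225) (nat_lit 608) (nat_lit 1887846043)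 (nat_lit 614) (nat_lit 5) (nat_lit 621) (nat_lit 5) (nat_lit 622) (nat_lit 5) (nat_lit 390) (nat_lit 385) (nat_lit 365)) (XT.lf (nat_lit 76) (nat_lit 119700804) (nat_lit 0) (nat_lit 3935983159) (nat_lit 608) (nat_lit 2518322082) (nat_lit 615) (nat_lit 5) (nat_lit 614) (nat_lit 5) (nat_lit 622) (nat_lit 5) (nat_lit 391) (nat_lit 385) (nat_lit 364)))) (XT.nd (nat_lit 156) (nat_lit 684) (nat_lit 0) (XT.nd (nat_lit 78) (nat_lit 608) (nat_lit 0) (XT.lf (nat_lit 76) (nat_lit 3375794744) (nat_lit 0) (nat_lit 3140107055) (nat_lit 608) (nat_lit 76463481) (nat_lit 615) (nat_lit 5) (nat_lit 614) (nat_lit 5) (nat_lit 622) (nat_lit 5) (nat_lit 392) (nat_lit 385) (nat_lit 363)) (XT.lf (nat_lit 76) (nat_lit 35560460) (nat_lit 0) (nat_lit 2285873093) (nat_lit 684) (nat_lit 4290641399) (nat_lit 607) (nat_lit 5) (nat_lit 606) (nat_lit 5) (nat_lit 615) (nat_lit 5) (nat_lit 393) (nat_lit 385) (nat_lit 362))) (XT.nd (nat_lit 78)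 (nat_lit 684) (nat_lit 0) (XT.lf (nat_lit 76) (nat_lit 3360903693) (nat_lit 0) (nat_lit 1366553521) (nat_lit 684) (nat_lit 1905560228) (nat_lit 607) (nat_lit 5) (nat_lit 606) (nat_lit 5) (nat_lit 615) (nat_lit 5) (nat_lit 394) (nat_lit 385) (nat_lit 361)) (XT.lf (nat_lit 76) (nat_lit 60650595) (nat_lit 0) (nat_lit 400382955) (nat_lit 760) (nat_lit 6194532021) (nat_lit 598) (nat_lit 5) (nat_lit 597) (nat_lit 5) (nat_lit 607) (nat_lit 5) (nat_lit 395) (nat_lit 385) (nat_lit 360)))))) (XT.nd (nat_lit 546) (nat_lit 3876) (nat_lit 0) (XT.nd (nat_lit 234) (nat_lit 836) (nat_lit 0) (XT.nd (nat_lit 78) (nat_lit 760) (nat_lit 0) (XT.lf (nat_lit 0) (nat_lit 2816799874) (nat_lit 684) (nat_lit 3226528541) (nat_lit 760) (nat_lit 635705607) (nat_lit 598) (nat_lit 5) (nat_lit 607) (nat_lit 5) (nat_lit 608) (nat_lit 5) (nat_lit 396) (nat_lit 385) (nat_lit 359)) (XT.nd (nat_lit 78) (nat_lit 760) (nat_lit 0) (XT.lf (nat_lit 76)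 (nat_lit 173294244) (nat_lit 0) (nat_lit 4992742708) (nat_lit 760) (nat_lit 1538074838) (nat_lit 599) (nat_lit 5) (nat_lit 598) (nat_lit 5) (nat_lit 608) (nat_lit 5) (nat_lit 397) (nat_lit 385) (nat_lit 358)) (XT.lf (nat_lit 0) (nat_lit 786479602) (nat_lit 760) (nat_lit 3086097312) (nat_lit 836) (nat_lit 2857773914) (nat_lit 588) (nat_lit 5) (nat_lit 598) (nat_lit 5) (nat_lit 599) (nat_lit 5) (nat_lit 398) (nat_lit 385) (nat_lit 357)))) (XT.nd (nat_lit 156) (nat_lit 836) (nat_lit 0) (XT.nd (nat_lit 78) (nat_lit 0) (nat_lit 0) (XT.lf (nat_lit 76) (nat_lit 386975085) (nat_lit 0) (nat_lit 2696640038) (nat_lit 836) (nat_lit 3674425682) (nat_lit 589) (nat_lit 5) (nat_lit 588) (nat_lit 5) (nat_lit 599) (nat_lit 5) (nat_lit 399) (nat_lit 385) (nat_lit 356)) (XT.lf (nat_lit 76) (nat_lit 3936143333) (nat_lit 0) (nat_lit 1456278928) (nat_lit 836) (nat_lit 1394609691) (nat_lit 589) (nat_lit 5) (nat_lit 588) (nat_lit 5)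 (nat_lit 599) (nat_lit 5) (nat_lit 400) (nat_lit 385) (nat_lit 355))) (XT.nd (nat_lit 78) (nat_lit 0) (nat_lit 76) (XT.lf (nat_lit 76) (nat_lit 707639745) (nat_lit 0) (nat_lit 161230407) (nat_lit 912) (nat_lit 5948665942) (nat_lit 578) (nat_lit 5) (nat_lit 577) (nat_lit 5) (nat_lit 589) (nat_lit 5) (nat_lit 401) (nat_lit 385) (nat_lit 354)) (XT.lf (nat_lit 0) (nat_lit 3132388350) (nat_lit 836) (nat_lit 2525481841) (nat_lit 76) (nat_lit 1191185286) (nat_lit 578) (nat_lit 5) (nat_lit 589) (nat_lit 5) (nat_lit 579) (nat_lit 5) (nat_lit 402) (nat_lit 385) (nat_lit 353))))) (XT.nd (nat_lit 234) (nat_lit 2128) (nat_lit 0) (XT.nd (nat_lit 78) (nat_lit 988) (nat_lit 0) (XT.lf (nat_lit 0) (nat_lit 1108498047) (nat_lit 836) (nat_lit 4288627837) (nat_lit 912) (nat_lit 1485017614) (nat_lit 567) (nat_lit 5) (nat_lit 578) (nat_lit 5) (nat_lit 579) (nat_lit 5) (nat_lit 403) (nat_lit 385) (nat_lit 352)) (XT.nd (nat_lit 78) (nat_lit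 912) (nat_lit 0) (XT.lf (nat_lit 0) (nat_lit 746030636) (nat_lit 912) (nat_lit 2107516973) (nat_lit 76) (nat_lit 4062995065) (nat_lit 566) (nat_lit 5) (nat_lit 578) (nat_lit 5) (nat_lit 567) (nat_lit 5) (nat_lit 404) (nat_lit 385) (nat_lit 351)) (XT.lf (nat_lit 0) (nat_lit 1607789804) (nat_lit 912) (nat_lit 1353584832) (nat_lit 988) (nat_lit 3990921624) (nat_lit 554) (nat_lit 5) (nat_lit 566) (nat_lit 5) (nat_lit 567) (nat_lit 5) (nat_lit 405) (nat_lit 385) (nat_lit 350)))) (XT.nd (nat_lit 156) (nat_lit 1064) (nat_lit 0) (XT.nd (nat_lit 78) (nat_lit 1064) (nat_lit 0) (XT.lf (nat_lit 0) (nat_lit 5186375496) (nat_lit 988) (nat_lit 1600066128) (nat_lit 76) (nat_lit 203069168) (nat_lit 554) (nat_lit 5) (nat_lit 567) (nat_lit 5) (nat_lit 555) (nat_lit 5) (nat_lit 406) (nat_lit 385) (nat_lit 349)) (XT.lf (nat_lit 0) (nat_lit 396787208) (nat_lit 1064) (nat_lit 4827051885) (nat_lit 76) (nat_lit 1804145729) (nat_lit 540)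 (nat_lit 5) (nat_lit 554) (nat_lit 5) (nat_lit 541) (nat_lit 5) (nat_lit 407) (nat_lit 385) (nat_lit 348))) (XT.nd (nat_lit 78) (nat_lit 1064) (nat_lit 0) (XT.lf (nat_lit 0) (nat_lit 2578706753) (nat_lit 1064) (nat_lit 1015451147) (nat_lit 76) (nat_lit 3473639030) (nat_lit 540) (nat_lit 5) (nat_lit 554) (nat_lit 5) (nat_lit 541) (nat_lit 5) (nat_lit 408) (nat_lit 385) (nat_lit 347)) (XT.lf (nat_lit 0) (nat_lit 2874724862) (nat_lit 1064) (nat_lit 1900470730) (nat_lit 1140) (nat_lit 2333839917) (nat_lit 526) (nat_lit 5) (nat_lit 540) (nat_lit 5) (nat_lit 541) (nat_lit 5) (nat_lit 409) (nat_lit 385) (nat_lit 346))))))))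
noncomputable def xc115 : XT := (XT.nd (nat_lit 2184) (nat_lit 9576) (nat_lit 0) (XT.nd (nat_lit 1092) (nat_lit 7144) (nat_lit 0) (XT.nd (nat_lit 546) (nat_lit 6384) (nat_lit 0) (XT.nd (nat_lit 234) (nat_lit 2736) (nat_lit 0) (XT.nd (nat_lit 78) (nat_lit 2432) (nat_lit 0) (XT.lf (nat_lit 0) (nat_lit 6821342451) (nat_lit 1064) (nat_lit 154060140) (nat_lit 1140) (nat_lit 176548389) (nat_lit 526) (nat_lit 5) (nat_lit 540) (nat_lit 5) (nat_lit 541) (nat_lit 5) (nat_lit 410) (nat_lit 385) (nat_lit 345)) (XT.nd (nat_lit 78) (nat_lit 1216) (nat_lit 0) (XT.lf (nat_lit 0) (nat_lit 1985476442) (nat_lit 1216) (nat_lit 3556039209) (nat_lit 76) (nat_lit 1654229706) (nat_lit 510) (nat_lit 5) (nat_lit 526) (nat_lit 5) (nat_lit 511) (nat_lit 5) (nat_lit 411) (nat_lit 385) (nat_lit 344)) (XT.lf (nat_lit 0) (nat_lit 420952389) (nat_lit 1216) (nat_lit 3727714078) (nat_lit 1292) (nat_lit 3092565169) (nat_lit 494) (nat_lit 5) (nat_lit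 510) (nat_lit 5) (nat_lit 511) (nat_lit 5) (nat_lit 412) (nat_lit 385) (nat_lit 343)))) (XT.nd (nat_lit 156) (nat_lit 1368) (nat_lit 0) (XT.nd (nat_lit 78) (nat_lit 1368) (nat_lit 0) (XT.lf (nat_lit 0) (nat_lit 4490021386) (nat_lit 1216) (nat_lit 1843926172) (nat_lit 1292) (nat_lit 954147778) (nat_lit 494) (nat_lit 5) (nat_lit 510) (nat_lit 5) (nat_lit 511) (nat_lit 5) (nat_lit 413) (nat_lit 385) (nat_lit 342)) (XT.lf (nat_lit 0) (nat_lit 1175422294) (nat_lit 1368) (nat_lit 6059405216) (nat_lit 76) (nat_lit 101662445) (nat_lit 476) (nat_lit 5) (nat_lit 494) (nat_lit 5) (nat_lit 477) (nat_lit 5) (nat_lit 414) (nat_lit 385) (nat_lit 341))) (XT.nd (nat_lit 78) (nat_lit 1368) (nat_lit 0) (XT.lf (nat_lit 0) (nat_lit 3322141962) (nat_lit 1368) (nat_lit 1968795681) (nat_lit 76) (nat_lit 2095083692) (nat_lit 476) (nat_lit 5) (nat_lit 494) (nat_lit 5) (nat_lit 477) (nat_lit 5) (nat_lit 415) (nat_lit 385) (nat_lit 340))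 (XT.lf (nat_lit 0) (nat_lit 2196810812) (nat_lit 1368) (nat_lit 3286316953) (nat_lit 1444) (nat_lit 1954029813) (nat_lit 458) (nat_lit 5) (nat_lit 476) (nat_lit 5) (nat_lit 477) (nat_lit 5) (nat_lit 416) (nat_lit 385) (nat_lit 339))))) (XT.nd (nat_lit 234) (nat_lit 4864) (nat_lit 0) (XT.nd (nat_lit 78) (nat_lit 1444) (nat_lit 0) (XT.lf (nat_lit 0) (nat_lit 166079645) (nat_lit 1444) (nat_lit 1054006839) (nat_lit 76) (nat_lit 6269830438) (nat_lit 457) (nat_lit 5) (nat_lit 476) (nat_lit 5) (nat_lit 458) (nat_lit 5) (nat_lit 417) (nat_lit 385) (nat_lit 338)) (XT.nd (nat_lit 78) (nat_lit 0) (nat_lit 0) (XT.lf (nat_lit 0) (nat_lit 2287517131) (nat_lit 1520) (nat_lit 4340032883) (nat_lit 76) (nat_lit 916259823) (nat_lit 438) (nat_lit 5) (nat_lit 458) (nat_lit 5) (nat_lit 439) (nat_lit 5) (nat_lit 418) (nat_lit 385) (nat_lit 337)) (XT.lf (nat_lit 0) (nat_lit 4425412009) (nat_lit 1520) (nat_lit 81724503) (nat_lit 76)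 (nat_lit 3092201286) (nat_lit 438) (nat_lit 5) (nat_lit 458) (nat_lit 5) (nat_lit 439) (nat_lit 5) (nat_lit 419) (nat_lit 385) (nat_lit 336)))) (XT.nd (nat_lit 156) (nat_lit 1672) (nat_lit 0) (XT.nd (nat_lit 78) (nat_lit 1672) (nat_lit 0) (XT.lf (nat_lit 0) (nat_lit 4282660819) (nat_lit 1520) (nat_lit 2310845934) (nat_lit 1596) (nat_lit 1062757745) (nat_lit 418) (nat_lit 5) (nat_lit 438) (nat_lit 5) (nat_lit 439) (nat_lit 5) (nat_lit 420) (nat_lit 385) (nat_lit 335)) (XT.lf (nat_lit 0) (nat_lit 991447529) (nat_lit 1596) (nat_lit 51772201) (nat_lit 1672) (nat_lit 6671666164) (nat_lit 396) (nat_lit 5) (nat_lit 417) (nat_lit 5) (nat_lit 418) (nat_lit 5) (nat_lit 421) (nat_lit 385) (nat_lit 334))) (XT.nd (nat_lit 78) (nat_lit 1672) (nat_lit 0) (XT.lf (nat_lit 0) (nat_lit 3174997514) (nat_lit 1672) (nat_lit 2342722107) (nat_lit 76) (nat_lit 2256896261) (nat_lit 396) (nat_lit 5) (nat_lit 418) (nat_lit 5) (nat_lit 397)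 (nat_lit 5) (nat_lit 422) (nat_lit 385) (nat_lit 333)) (XT.lf (nat_lit 0) (nat_lit 2117535170) (nat_lit 1672) (nat_lit 3207226389) (nat_lit 1748) (nat_lit 2511306098) (nat_lit 374) (nat_lit 5) (nat_lit 396) (nat_lit 5) (nat_lit 397) (nat_lit 5) (nat_lit 423) (nat_lit 385) (nat_lit 332)))))) (XT.nd (nat_lit 546) (nat_lit 3192) (nat_lit 0) (XT.nd (nat_lit 234) (nat_lit 2584) (nat_lit 0) (XT.nd (nat_lit 78) (nat_lit 1368) (nat_lit 0) (XT.lf (nat_lit 0) (nat_lit 6663485080) (nat_lit 1672) (nat_lit 831546735) (nat_lit 1748) (nat_lit 404199963) (nat_lit 374) (nat_lit 5) (nat_lit 396) (nat_lit 5) (nat_lit 397) (nat_lit 5) (nat_lit 424) (nat_lit 385) (nat_lit 331)) (XT.nd (nat_lit 78) (nat_lit 0) (nat_lit 0) (XT.lf (nat_lit 0) (nat_lit 1716636288) (nat_lit 1368) (nat_lit 4640376635) (nat_lit 76) (nat_lit 1606562393) (nat_lit 356) (nat_lit 5) (nat_lit 374) (nat_lit 5) (nat_lit 357) (nat_lit 5) (nat_lit 425) (nat_lit 385)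 (nat_lit 330)) (XT.lf (nat_lit 0) (nat_lit 3851123973) (nat_lit 1368) (nat_lit 82876078) (nat_lit 76) (nat_lit 4095650897) (nat_lit 356) (nat_lit 5) (nat_lit 374) (nat_lit 5) (nat_lit 357) (nat_lit 5) (nat_lit 426) (nat_lit 385) (nat_lit 329)))) (XT.nd (nat_lit 156) (nat_lit 836) (nat_lit 0) (XT.nd (nat_lit 78) (nat_lit 912) (nat_lit 0) (XT.lf (nat_lit 0) (nat_lit 4591014535) (nat_lit 836) (nat_lit 1430611969) (nat_lit 912) (nat_lit 2075586061) (nat_lit 345) (nat_lit 5) (nat_lit 356) (nat_lit 5) (nat_lit 357) (nat_lit 5) (nat_lit 427) (nat_lit 385) (nat_lit 328)) (XT.lf (nat_lit 0) (nat_lit 47772017) (nat_lit 912) (nat_lit 7000992601) (nat_lit 76) (nat_lit 1117796182) (nat_lit 333) (nat_lit 5) (nat_lit 345) (nat_lit 5) (nat_lit 334) (nat_lit 5) (nat_lit 428) (nat_lit 385) (nat_lit 327))) (XT.nd (nat_lit 78) (nat_lit 836) (nat_lit 0) (XT.lf (nat_lit 0) (nat_lit 2183216805) (nat_lit 912) (nat_lit 2317675159) (nat_lit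 76) (nat_lit 3736210601) (nat_lit 333) (nat_lit 5) (nat_lit 345) (nat_lit 5) (nat_lit 334) (nat_lit 5) (nat_lit 429) (nat_lit 385) (nat_lit 326)) (XT.lf (nat_lit 0) (nat_lit 2456455637) (nat_lit 836) (nat_lit 1885792381) (nat_lit 912) (nat_lit 3967218213) (nat_lit 322) (nat_lit 5) (nat_lit 333) (nat_lit 5) (nat_lit 334) (nat_lit 5) (nat_lit 430) (nat_lit 385) (nat_lit 325))))) (XT.nd (nat_lit 234) (nat_lit 1520) (nat_lit 0) (XT.nd (nat_lit 78) (nat_lit 1672) (nat_lit 0) (XT.lf (nat_lit 0) (nat_lit 6530578979) (nat_lit 912) (nat_lit 1066215986) (nat_lit 76) (nat_lit 786787879) (nat_lit 322) (nat_lit 5) (nat_lit 334) (nat_lit 5) (nat_lit 323) (nat_lit 5) (nat_lit 431) (nat_lit 385) (nat_lit 324)) (XT.nd (nat_lit 78) (nat_lit 760) (nat_lit 0) (XT.lf (nat_lit 0) (nat_lit 302861179) (nat_lit 912) (nat_lit 4642082065) (nat_lit 76) (nat_lit 3514159167) (nat_lit 310) (nat_lit 5) (nat_lit 322) (nat_lit 5) (nat_lit 311)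 (nat_lit 5) (nat_lit 432) (nat_lit 385) (nat_lit 323)) (XT.lf (nat_lit 0) (nat_lit 232002628) (nat_lit 760) (nat_lit 2220020254) (nat_lit 836) (nat_lit 6084391136) (nat_lit 300) (nat_lit 5) (nat_lit 310) (nat_lit 5) (nat_lit 311) (nat_lit 5) (nat_lit 433) (nat_lit 385) (nat_lit 322)))) (XT.nd (nat_lit 156) (nat_lit 760) (nat_lit 0) (XT.nd (nat_lit 78) (nat_lit 760) (nat_lit 0) (XT.lf (nat_lit 0) (nat_lit 4645841208) (nat_lit 836) (nat_lit 3387550526) (nat_lit 76) (nat_lit 581872574) (nat_lit 300) (nat_lit 5) (nat_lit 311) (nat_lit 5) (nat_lit 301) (nat_lit 5) (nat_lit 434) (nat_lit 385) (nat_lit 321)) (XT.lf (nat_lit 0) (nat_lit 1599057512) (nat_lit 760) (nat_lit 5276900174) (nat_lit 836) (nat_lit 1819910894) (nat_lit 290) (nat_lit 5) (nat_lit 300) (nat_lit 5) (nat_lit 301) (nat_lit 5) (nat_lit 435) (nat_lit 385) (nat_lit 320))) (XT.nd (nat_lit 78) (nat_lit 684) (nat_lit 0) (XT.lf (nat_lit 0) (nat_lit 358102721)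 (nat_lit 836) (nat_lit 2083969740) (nat_lit 76) (nat_lit 6336180564) (nat_lit 289) (nat_lit 5) (nat_lit 300) (nat_lit 5) (nat_lit 290) (nat_lit 5) (nat_lit 436) (nat_lit 385) (nat_lit 319)) (XT.lf (nat_lit 0) (nat_lit 2546216947) (nat_lit 760) (nat_lit 5843108338) (nat_lit 76) (nat_lit 472925047) (nat_lit 280) (nat_lit 5) (nat_lit 290) (nat_lit 5) (nat_lit 281) (nat_lit 5) (nat_lit 437) (nat_lit 385) (nat_lit 318))))))) (XT.nd (nat_lit 1092) (nat_lit 4256) (nat_lit 0) (XT.nd (nat_lit 546) (nat_lit 2508) (nat_lit 0) (XT.nd (nat_lit 234) (nat_lit 1292) (nat_lit 0) (XT.nd (nat_lit 78) (nat_lit 1520) (nat_lit 0) (XT.lf (nat_lit 0) (nat_lit 4776880107) (nat_lit 760) (nat_lit 746155492) (nat_lit 76) (nat_lit 3424939730) (nat_lit 280) (nat_lit 5) (nat_lit 290) (nat_lit 5) (nat_lit 281) (nat_lit 5) (nat_lit 438) (nat_lit 385) (nat_lit 317)) (XT.nd (nat_lit 78) (nat_lit 760) (nat_lit 0) (XT.lf (nat_lit 0) (nat_lit 4477332887)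 (nat_lit 760) (nat_lit 2573047219) (nat_lit 836) (nat_lit 1985093264) (nat_lit 270) (nat_lit 5) (nat_lit 280) (nat_lit 5) (nat_lit 281) (nat_lit 5) (nat_lit 439) (nat_lit 385) (nat_lit 316)) (XT.lf (nat_lit 0) (nat_lit 222962421) (nat_lit 760) (nat_lit 8464482548) (nat_lit 76) (nat_lit 437635918) (nat_lit 260) (nat_lit 5) (nat_lit 270) (nat_lit 5) (nat_lit 261) (nat_lit 5) (nat_lit 440) (nat_lit 385) (nat_lit 315)))) (XT.nd (nat_lit 156) (nat_lit 608) (nat_lit 0) (XT.nd (nat_lit 78) (nat_lit 684) (nat_lit 0) (XT.lf (nat_lit 0) (nat_lit 2466123877) (nat_lit 760) (nat_lit 3235466235) (nat_lit 76) (nat_lit 3514299200) (nat_lit 260) (nat_lit 5) (nat_lit 270) (nat_lit 5) (nat_lit 261) (nat_lit 5) (nat_lit 441) (nat_lit 385) (nat_lit 314)) (XT.lf (nat_lit 0) (nat_lit 2091534552) (nat_lit 684) (nat_lit 2646458416) (nat_lit 760) (nat_lit 4570865311) (nat_lit 251) (nat_lit 5) (nat_lit 260) (nat_lit 5) (nat_lit 261) (nat_lit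 5) (nat_lit 442) (nat_lit 385) (nat_lit 313))) (XT.nd (nat_lit 78) (nat_lit 608) (nat_lit 0) (XT.lf (nat_lit 0) (nat_lit 7050804589) (nat_lit 760) (nat_lit 1871895675) (nat_lit 76) (nat_lit 481097107) (nat_lit 251) (nat_lit 5) (nat_lit 261) (nat_lit 5) (nat_lit 252) (nat_lit 5) (nat_lit 443) (nat_lit 385) (nat_lit 312)) (XT.lf (nat_lit 0) (nat_lit 3576107833) (nat_lit 608) (nat_lit 5845685346) (nat_lit 684) (nat_lit 78624088) (nat_lit 243) (nat_lit 5) (nat_lit 251) (nat_lit 5) (nat_lit 252) (nat_lit 5) (nat_lit 444) (nat_lit 385) (nat_lit 311))))) (XT.nd (nat_lit 234) (nat_lit 1216) (nat_lit 0) (XT.nd (nat_lit 78) (nat_lit 1216) (nat_lit 0) (XT.lf (nat_lit 0) (nat_lit 2195797873) (nat_lit 684) (nat_lit 488794903) (nat_lit 76) (nat_lit 6914426194) (nat_lit 242) (nat_lit 5) (nat_lit 251) (nat_lit 5) (nat_lit 243) (nat_lit 5) (nat_lit 445) (nat_lit 385) (nat_lit 310)) (XT.nd (nat_lit 78) (nat_lit 608) (nat_lit 0)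 (XT.lf (nat_lit 0) (nat_lit 4523265149) (nat_lit 684) (nat_lit 4614774617) (nat_lit 76) (nat_lit 561389615) (nat_lit 234) (nat_lit 5) (nat_lit 243) (nat_lit 5) (nat_lit 235) (nat_lit 5) (nat_lit 446) (nat_lit 385) (nat_lit 309)) (XT.lf (nat_lit 0) (nat_lit 935338486) (nat_lit 608) (nat_lit 5961277819) (nat_lit 684) (nat_lit 2905263884) (nat_lit 226) (nat_lit 5) (nat_lit 234) (nat_lit 5) (nat_lit 235) (nat_lit 5) (nat_lit 447) (nat_lit 385) (nat_lit 308)))) (XT.nd (nat_lit 156) (nat_lit 532) (nat_lit 0) (XT.nd (nat_lit 78) (nat_lit 684) (nat_lit 0) (XT.lf (nat_lit 0) (nat_lit 6625684092) (nat_lit 608) (nat_lit 2695228209) (nat_lit 684) (nat_lit 585416668) (nat_lit 226) (nat_lit 5) (nat_lit 234) (nat_lit 5) (nat_lit 235) (nat_lit 5) (nat_lit 448) (nat_lit 385) (nat_lit 307)) (XT.lf (nat_lit 0) (nat_lit 1750203981) (nat_lit 684) (nat_lit 7613270358) (nat_lit 76) (nat_lit 649324284) (nat_lit 217) (nat_lit 5) (nat_lit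 226) (nat_lit 5) (nat_lit 218) (nat_lit 5) (nat_lit 449) (nat_lit 385) (nat_lit 306))) (XT.nd (nat_lit 78) (nat_lit 532) (nat_lit 0) (XT.lf (nat_lit 0) (nat_lit 4137848503) (nat_lit 684) (nat_lit 1938401397) (nat_lit 76) (nat_lit 4044824816) (nat_lit 217) (nat_lit 5) (nat_lit 226) (nat_lit 5) (nat_lit 218) (nat_lit 5) (nat_lit 450) (nat_lit 385) (nat_lit 305)) (XT.lf (nat_lit 0) (nat_lit 3868001356) (nat_lit 532) (nat_lit 2704018014) (nat_lit 608) (nat_lit 3659538593) (nat_lit 210) (nat_lit 5) (nat_lit 217) (nat_lit 5) (nat_lit 218) (nat_lit 5) (nat_lit 451) (nat_lit 385) (nat_lit 304)))))) (XT.nd (nat_lit 546) (nat_lit 2052) (nat_lit 0) (XT.nd (nat_lit 234) (nat_lit 1064) (nat_lit 0) (XT.nd (nat_lit 78) (nat_lit 1140) (nat_lit 0) (XT.lf (nat_lit 0) (nat_lit 9046667469) (nat_lit 608) (nat_lit 565019198) (nat_lit 76) (nat_lit 732745098) (nat_lit 210) (nat_lit 5) (nat_lit 218) (nat_lit 5) (nat_lit 211) (nat_lit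 5) (nat_lit 452) (nat_lit 385) (nat_lit 303)) (XT.nd (nat_lit 78) (nat_lit 532) (nat_lit 0) (XT.lf (nat_lit 0) (nat_lit 1124041066) (nat_lit 608) (nat_lit 5096751625) (nat_lit 76) (nat_lit 4238094771) (nat_lit 202) (nat_lit 5) (nat_lit 210) (nat_lit 5) (nat_lit 203) (nat_lit 5) (nat_lit 453) (nat_lit 385) (nat_lit 302)) (XT.lf (nat_lit 0) (nat_lit 809464689) (nat_lit 532) (nat_lit 2751073690) (nat_lit 608) (nat_lit 7015265473) (nat_lit 195) (nat_lit 5) (nat_lit 202) (nat_lit 5) (nat_lit 203) (nat_lit 5) (nat_lit 454) (nat_lit 385) (nat_lit 301)))) (XT.nd (nat_lit 156) (nat_lit 532) (nat_lit 0) (XT.nd (nat_lit 78) (nat_lit 532) (nat_lit 0) (XT.lf (nat_lit 0) (nat_lit 6060098579) (nat_lit 608) (nat_lit 3829552065) (nat_lit 76) (nat_lit 805136752) (nat_lit 195) (nat_lit 5) (nat_lit 203) (nat_lit 5) (nat_lit 196) (nat_lit 5) (nat_lit 455) (nat_lit 385) (nat_lit 300)) (XT.lf (nat_lit 0) (nat_lit 2204579218) (nat_lit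 532) (nat_lit 6412885816) (nat_lit 608) (nat_lit 2198544465) (nat_lit 188) (nat_lit 5) (nat_lit 195) (nat_lit 5) (nat_lit 196) (nat_lit 5) (nat_lit 456) (nat_lit 385) (nat_lit 299))) (XT.nd (nat_lit 78) (nat_lit 456) (nat_lit 0) (XT.lf (nat_lit 0) (nat_lit 283819685) (nat_lit 608) (nat_lit 2562084167) (nat_lit 76) (nat_lit 8093704564) (nat_lit 187) (nat_lit 5) (nat_lit 195) (nat_lit 5) (nat_lit 188) (nat_lit 5) (nat_lit 457) (nat_lit 385) (nat_lit 298)) (XT.lf (nat_lit 0) (nat_lit 2791069430) (nat_lit 532) (nat_lit 7461322006) (nat_lit 76) (nat_lit 812918001) (nat_lit 181) (nat_lit 5) (nat_lit 188) (nat_lit 5) (nat_lit 182) (nat_lit 5) (nat_lit 458) (nat_lit 385) (nat_lit 297))))) (XT.nd (nat_lit 312) (nat_lit 988) (nat_lit 0) (XT.nd (nat_lit 156) (nat_lit 532) (nat_lit 0) (XT.nd (nat_lit 78) (nat_lit 532) (nat_lit 0) (XT.lf (nat_lit 0) (nat_lit 5360704982) (nat_lit 532) (nat_lit 1315851000) (nat_lit 76) (nat_lit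 4516737709) (nat_lit 181) (nat_lit 5) (nat_lit 188) (nat_lit 5) (nat_lit 182) (nat_lit 5) (nat_lit 459) (nat_lit 385) (nat_lit 296)) (XT.lf (nat_lit 0) (nat_lit 4986735614) (nat_lit 532) (nat_lit 3003930682) (nat_lit 608) (nat_lit 3333006426) (nat_lit 174) (nat_lit 5) (nat_lit 181) (nat_lit 5) (nat_lit 182) (nat_lit 5) (nat_lit 460) (nat_lit 385) (nat_lit 295))) (XT.nd (nat_lit 78) (nat_lit 532) (nat_lit 0) (XT.lf (nat_lit 0) (nat_lit 10663697540) (nat_lit 608) (nat_lit 59566088) (nat_lit 76) (nat_lit 733599776) (nat_lit 174) (nat_lit 5) (nat_lit 182) (nat_lit 5) (nat_lit 175) (nat_lit 5) (nat_lit 461) (nat_lit 385) (nat_lit 294)) (XT.lf (nat_lit 0) (nat_lit 1812651263) (nat_lit 532) (nat_lit 5227602353) (nat_lit 76) (nat_lit 4551468759) (nat_lit 167) (nat_lit 5) (nat_lit 174) (nat_lit 5) (nat_lit 168) (nat_lit 5) (nat_lit 462) (nat_lit 385) (nat_lit 293)))) (XT.nd (nat_lit 156) (nat_lit 532) (nat_lit 0) (XT.nd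 (nat_lit 78) (nat_lit 0) (nat_lit 0) (XT.lf (nat_lit 0) (nat_lit 1166953480) (nat_lit 456) (nat_lit 3278304972) (nat_lit 532) (nat_lit 7284222039) (nat_lit 161) (nat_lit 5) (nat_lit 167) (nat_lit 5) (nat_lit 168) (nat_lit 5) (nat_lit 463) (nat_lit 385) (nat_lit 292)) (XT.lf (nat_lit 0) (nat_lit 7146955958) (nat_lit 532) (nat_lit 4144008287) (nat_lit 76) (nat_lit 578713217) (nat_lit 161) (nat_lit 5) (nat_lit 168) (nat_lit 5) (nat_lit 162) (nat_lit 5) (nat_lit 464) (nat_lit 385) (nat_lit 291))) (XT.nd (nat_lit 78) (nat_lit 76) (nat_lit 0) (XT.lf (nat_lit 0) (nat_lit 2381902280) (nat_lit 456) (nat_lit 7535899138) (nat_lit 532) (nat_lit 2094586888) (nat_lit 155) (nat_lit 5) (nat_lit 161) (nat_lit 5) (nat_lit 162) (nat_lit 5) (nat_lit 465) (nat_lit 385) (nat_lit 290)) (XT.lf (nat_lit 0) (nat_lit 584434054) (nat_lit 532) (nat_lit 3097492739) (nat_lit 76) (nat_lit 8475841992) (nat_lit 154) (nat_lit 5) (nat_lit 161)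 (nat_lit 5) (nat_lit 155) (nat_lit 5) (nat_lit 466) (nat_lit 385) (nat_lit 289))))))))
noncomputable def xc116 : XT := (XT.nd (nat_lit 2184) (nat_lit 3116) (nat_lit 0) (XT.nd (nat_lit 1092) (nat_lit 2280) (nat_lit 0) (XT.nd (nat_lit 546) (nat_lit 1520) (nat_lit 0) (XT.nd (nat_lit 234) (nat_lit 912) (nat_lit 0) (XT.nd (nat_lit 78) (nat_lit 380) (nat_lit 0) (XT.lf (nat_lit 0) (nat_lit 3292444853) (nat_lit 532) (nat_lit 8738478142) (nat_lit 76) (nat_lit 274799364) (nat_lit 148) (nat_lit 5) (nat_lit 155) (nat_lit 5) (nat_lit 149) (nat_lit 5) (nat_lit 467) (nat_lit 385) (nat_lit 288)) (XT.nd (nat_lit 78) (nat_lit 380) (nat_lit 0) (XT.lf (nat_lit 0) (nat_lit 6078545791) (nat_lit 532) (nat_lit 2103672429) (nat_lit 76) (nat_lit 4273949469) (nat_lit 148) (nat_lit 5) (nat_lit 155) (nat_lit 5) (nat_lit 149) (nat_lit 5) (nat_lit 468) (nat_lit 385) (nat_lit 287)) (XT.lf (nat_lit 0) (nat_lit 4695812778) (nat_lit 380) (nat_lit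 4234086301) (nat_lit 456) (nat_lit 3679543301) (nat_lit 143) (nat_lit 5) (nat_lit 148) (nat_lit 5) (nat_lit 149) (nat_lit 5) (nat_lit 469) (nat_lit 385) (nat_lit 286)))) (XT.nd (nat_lit 156) (nat_lit 380) (nat_lit 0) (XT.nd (nat_lit 78) (nat_lit 532) (nat_lit 0) (XT.lf (nat_lit 0) (nat_lit 11630395233) (nat_lit 380) (nat_lit 201262954) (nat_lit 456) (nat_lit 934267649) (nat_lit 143) (nat_lit 5) (nat_lit 148) (nat_lit 5) (nat_lit 149) (nat_lit 5) (nat_lit 470) (nat_lit 385) (nat_lit 285)) (XT.lf (nat_lit 0) (nat_lit 1884382798) (nat_lit 532) (nat_lit 7137494746) (nat_lit 76) (nat_lit 3902570723) (nat_lit 136) (nat_lit 5) (nat_lit 143) (nat_lit 5) (nat_lit 137) (nat_lit 5) (nat_lit 471) (nat_lit 385) (nat_lit 284))) (XT.nd (nat_lit 78) (nat_lit 380) (nat_lit 0) (XT.lf (nat_lit 0) (nat_lit 4735592426) (nat_lit 532) (nat_lit 259561447) (nat_lit 76) (nat_lit 8091100062) (nat_lit 136) (nat_lit 5) (nat_lit 143) (nat_lit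 5) (nat_lit 137) (nat_lit 5) (nat_lit 472) (nat_lit 385) (nat_lit 283)) (XT.lf (nat_lit 0) (nat_lit 6816624009) (nat_lit 380) (nat_lit 851539677) (nat_lit 456) (nat_lit 5582655301) (nat_lit 131) (nat_lit 5) (nat_lit 136) (nat_lit 5) (nat_lit 137) (nat_lit 5) (nat_lit 473) (nat_lit 385) (nat_lit 282))))) (XT.nd (nat_lit 234) (nat_lit 760) (nat_lit 0) (XT.nd (nat_lit 78) (nat_lit 380) (nat_lit 0) (XT.lf (nat_lit 0) (nat_lit 575975329) (nat_lit 380) (nat_lit 10091044051) (nat_lit 456) (nat_lit 2751513122) (nat_lit 126) (nat_lit 5) (nat_lit 131) (nat_lit 5) (nat_lit 132) (nat_lit 5) (nat_lit 474) (nat_lit 385) (nat_lit 281)) (XT.nd (nat_lit 78) (nat_lit 304) (nat_lit 0) (XT.lf (nat_lit 0) (nat_lit 163857110) (nat_lit 456) (nat_lit 5810927739) (nat_lit 76) (nat_lit 7614219344) (nat_lit 125) (nat_lit 5) (nat_lit 131) (nat_lit 5) (nat_lit 126) (nat_lit 5) (nat_lit 475) (nat_lit 385) (nat_lit 280)) (XT.lf (nat_lit 0)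 (nat_lit 1332204717) (nat_lit 304) (nat_lit 1757847806) (nat_lit 380) (nat_lit 10672691089) (nat_lit 121) (nat_lit 5) (nat_lit 125) (nat_lit 5) (nat_lit 126) (nat_lit 5) (nat_lit 476) (nat_lit 385) (nat_lit 279)))) (XT.nd (nat_lit 156) (nat_lit 380) (nat_lit 0) (XT.nd (nat_lit 78) (nat_lit 380) (nat_lit 0) (XT.lf (nat_lit 0) (nat_lit 6111351614) (nat_lit 380) (nat_lit 5287507107) (nat_lit 76) (nat_lit 2540376578) (nat_lit 121) (nat_lit 5) (nat_lit 126) (nat_lit 5) (nat_lit 122) (nat_lit 5) (nat_lit 477) (nat_lit 385) (nat_lit 278)) (XT.lf (nat_lit 0) (nat_lit 1984808602) (nat_lit 380) (nat_lit 7213985884) (nat_lit 456) (nat_lit 4920356873) (nat_lit 116) (nat_lit 5) (nat_lit 121) (nat_lit 5) (nat_lit 122) (nat_lit 5) (nat_lit 478) (nat_lit 385) (nat_lit 277))) (XT.nd (nat_lit 78) (nat_lit 380) (nat_lit 0) (XT.lf (nat_lit 0) (nat_lit 9446461706) (nat_lit 380) (nat_lit 2918384642) (nat_lit 456) (nat_lit 1937490912)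 (nat_lit 116) (nat_lit 5) (nat_lit 121) (nat_lit 5) (nat_lit 122) (nat_lit 5) (nat_lit 479) (nat_lit 385) (nat_lit 276)) (XT.lf (nat_lit 0) (nat_lit 1098419757) (nat_lit 380) (nat_lit 11931519748) (nat_lit 76) (nat_lit 1458954664) (nat_lit 111) (nat_lit 5) (nat_lit 116) (nat_lit 5) (nat_lit 112) (nat_lit 5) (nat_lit 480) (nat_lit 385) (nat_lit 275)))))) (XT.nd (nat_lit 546) (nat_lit 1216) (nat_lit 0) (XT.nd (nat_lit 234) (nat_lit 684) (nat_lit 0) (XT.nd (nat_lit 78) (nat_lit 380) (nat_lit 0) (XT.lf (nat_lit 0) (nat_lit 4202996254) (nat_lit 380) (nat_lit 4553815082) (nat_lit 76) (nat_lit 5921445150) (nat_lit 111) (nat_lit 5) (nat_lit 116) (nat_lit 5) (nat_lit 112) (nat_lit 5) (nat_lit 481) (nat_lit 385) (nat_lit 274)) (XT.nd (nat_lit 78) (nat_lit 0) (nat_lit 0) (XT.lf (nat_lit 0) (nat_lit 2983491597) (nat_lit 380) (nat_lit 4387639605) (nat_lit 456) (nat_lit 7500253567) (nat_lit 106) (nat_lit 5) (nat_lit 111) (nat_lit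 5) (nat_lit 112) (nat_lit 5) (nat_lit 482) (nat_lit 385) (nat_lit 273)) (XT.lf (nat_lit 0) (nat_lit 10616050093) (nat_lit 456) (nat_lit 4362347517) (nat_lit 76) (nat_lit 89717484) (nat_lit 106) (nat_lit 5) (nat_lit 112) (nat_lit 5) (nat_lit 107) (nat_lit 5) (nat_lit 483) (nat_lit 385) (nat_lit 272)))) (XT.nd (nat_lit 156) (nat_lit 304) (nat_lit 0) (XT.nd (nat_lit 78) (nat_lit 76) (nat_lit 0) (XT.lf (nat_lit 0) (nat_lit 3301276296) (nat_lit 304) (nat_lit 10657644048) (nat_lit 380) (nat_lit 1309206364) (nat_lit 102) (nat_lit 5) (nat_lit 106) (nat_lit 5) (nat_lit 107) (nat_lit 5) (nat_lit 484) (nat_lit 385) (nat_lit 271)) (XT.lf (nat_lit 0) (nat_lit 1883713626) (nat_lit 380) (nat_lit 4333490439) (nat_lit 76) (nat_lit 9254454121) (nat_lit 101) (nat_lit 5) (nat_lit 106) (nat_lit 5) (nat_lit 102) (nat_lit 5) (nat_lit 485) (nat_lit 385) (nat_lit 270))) (XT.nd (nat_lit 78) (nat_lit 0) (nat_lit 0) (XT.lf (nat_lit 0) (nat_lit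 3463074108) (nat_lit 304) (nat_lit 1665339314) (nat_lit 380) (nat_lit 10550572061) (nat_lit 97) (nat_lit 5) (nat_lit 101) (nat_lit 5) (nat_lit 102) (nat_lit 5) (nat_lit 486) (nat_lit 385) (nat_lit 269)) (XT.lf (nat_lit 0) (nat_lit 8469668628) (nat_lit 380) (nat_lit 4461415249) (nat_lit 76) (nat_lit 2958749375) (nat_lit 97) (nat_lit 5) (nat_lit 102) (nat_lit 5) (nat_lit 98) (nat_lit 5) (nat_lit 487) (nat_lit 385) (nat_lit 268))))) (XT.nd (nat_lit 234) (nat_lit 532) (nat_lit 0) (XT.nd (nat_lit 78) (nat_lit 380) (nat_lit 0) (XT.lf (nat_lit 0) (nat_lit 3456668878) (nat_lit 304) (nat_lit 8437940525) (nat_lit 380) (nat_lit 4209958378) (nat_lit 93) (nat_lit 5) (nat_lit 97) (nat_lit 5) (nat_lit 98) (nat_lit 5) (nat_lit 488) (nat_lit 385) (nat_lit 267)) (XT.nd (nat_lit 78) (nat_lit 380) (nat_lit 0) (XT.lf (nat_lit 0) (nat_lit 11567952117) (nat_lit 304) (nat_lit 3833583315) (nat_lit 380) (nat_lit 921798718) (nat_lit 93)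 (nat_lit 5) (nat_lit 97) (nat_lit 5) (nat_lit 98) (nat_lit 5) (nat_lit 489) (nat_lit 385) (nat_lit 266)) (XT.lf (nat_lit 0) (nat_lit 2411179744) (nat_lit 380) (nat_lit 13254774793) (nat_lit 76) (nat_lit 879993033) (nat_lit 88) (nat_lit 5) (nat_lit 93) (nat_lit 5) (nat_lit 89) (nat_lit 5) (nat_lit 490) (nat_lit 385) (nat_lit 265)))) (XT.nd (nat_lit 156) (nat_lit 304) (nat_lit 0) (XT.nd (nat_lit 78) (nat_lit 228) (nat_lit 0) (XT.lf (nat_lit 0) (nat_lit 5839849782) (nat_lit 380) (nat_lit 5266420119) (nat_lit 76) (nat_lit 5665800478) (nat_lit 88) (nat_lit 5) (nat_lit 93) (nat_lit 5) (nat_lit 89) (nat_lit 5) (nat_lit 491) (nat_lit 385) (nat_lit 264)) (XT.lf (nat_lit 0) (nat_lit 2894705152) (nat_lit 228) (nat_lit 6445351959) (nat_lit 304) (nat_lit 7662605609) (nat_lit 85) (nat_lit 5) (nat_lit 88) (nat_lit 5) (nat_lit 89) (nat_lit 5) (nat_lit 492) (nat_lit 385) (nat_lit 263))) (XT.nd (nat_lit 78) (nat_lit 304) (nat_lit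 0) (XT.lf (nat_lit 0) (nat_lit 11265643785) (nat_lit 228) (nat_lit 1664284202) (nat_lit 304) (nat_lit 4307551962) (nat_lit 85) (nat_lit 5) (nat_lit 88) (nat_lit 5) (nat_lit 89) (nat_lit 5) (nat_lit 493) (nat_lit 385) (nat_lit 262)) (XT.lf (nat_lit 0) (nat_lit 2311905462) (nat_lit 304) (nat_lit 14300126700) (nat_lit 380) (nat_lit 864558749) (nat_lit 81) (nat_lit 5) (nat_lit 85) (nat_lit 5) (nat_lit 86) (nat_lit 5) (nat_lit 494) (nat_lit 385) (nat_lit 261))))))) (XT.nd (nat_lit 1092) (nat_lit 1444) (nat_lit 0) (XT.nd (nat_lit 546) (nat_lit 760) (nat_lit 0) (XT.nd (nat_lit 234) (nat_lit 608) (nat_lit 0) (XT.nd (nat_lit 78) (nat_lit 228) (nat_lit 0) (XT.lf (nat_lit 0) (nat_lit 2648541265) (nat_lit 380) (nat_lit 6930501041) (nat_lit 76) (nat_lit 8140384563) (nat_lit 80) (nat_lit 5) (nat_lit 85) (nat_lit 5) (nat_lit 81) (nat_lit 5) (nat_lit 495) (nat_lit 385) (nat_lit 260)) (XT.nd (nat_lit 78) (nat_lit 0) (nat_lit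 0) (XT.lf (nat_lit 0) (nat_lit 1457626144) (nat_lit 228) (nat_lit 4757082622) (nat_lit 304) (nat_lit 11752414602) (nat_lit 77) (nat_lit 5) (nat_lit 80) (nat_lit 5) (nat_lit 81) (nat_lit 5) (nat_lit 496) (nat_lit 385) (nat_lit 259)) (XT.lf (nat_lit 0) (nat_lit 9885051238) (nat_lit 304) (nat_lit 8136958119) (nat_lit 76) (nat_lit 197113049) (nat_lit 77) (nat_lit 5) (nat_lit 81) (nat_lit 5) (nat_lit 78) (nat_lit 5) (nat_lit 497) (nat_lit 385) (nat_lit 258)))) (XT.nd (nat_lit 156) (nat_lit 304) (nat_lit 0) (XT.nd (nat_lit 78) (nat_lit 0) (nat_lit 0) (XT.lf (nat_lit 0) (nat_lit 352404921) (nat_lit 304) (nat_lit 13295470819) (nat_lit 380) (nat_lit 4827909712) (nat_lit 73) (nat_lit 5) (nat_lit 77) (nat_lit 5) (nat_lit 78) (nat_lit 5) (nat_lit 498) (nat_lit 385) (nat_lit 257)) (XT.lf (nat_lit 0) (nat_lit 9098265205) (nat_lit 304) (nat_lit 8427713487) (nat_lit 380) (nat_lit 1210808050) (nat_lit 73) (nat_lit 5) (nat_lit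 77) (nat_lit 5) (nat_lit 78) (nat_lit 5) (nat_lit 499) (nat_lit 385) (nat_lit 256))) (XT.nd (nat_lit 78) (nat_lit 228) (nat_lit 0) (XT.lf (nat_lit 0) (nat_lit 2431732569) (nat_lit 380) (nat_lit 1023380934) (nat_lit 76) (nat_lit 15547865816) (nat_lit 72) (nat_lit 5) (nat_lit 77) (nat_lit 5) (nat_lit 73) (nat_lit 5) (nat_lit 500) (nat_lit 385) (nat_lit 255)) (XT.lf (nat_lit 0) (nat_lit 6178520993) (nat_lit 304) (nat_lit 11448488224) (nat_lit 76) (nat_lit 1646379376) (nat_lit 69) (nat_lit 5) (nat_lit 73) (nat_lit 5) (nat_lit 70) (nat_lit 5) (nat_lit 501) (nat_lit 385) (nat_lit 254))))) (XT.nd (nat_lit 234) (nat_lit 532) (nat_lit 0) (XT.nd (nat_lit 78) (nat_lit 228) (nat_lit 0) (XT.lf (nat_lit 0) (nat_lit 10015999134) (nat_lit 304) (nat_lit 2730919118) (nat_lit 76) (nat_lit 6801977732) (nat_lit 69) (nat_lit 5) (nat_lit 73) (nat_lit 5) (nat_lit 70) (nat_lit 5) (nat_lit 502) (nat_lit 385) (nat_lit 253)) (XT.nd (nat_lit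 78) (nat_lit 0) (nat_lit 0) (XT.lf (nat_lit 0) (nat_lit 6220085890) (nat_lit 228) (nat_lit 7736760671) (nat_lit 304) (nat_lit 5872539478) (nat_lit 66) (nat_lit 5) (nat_lit 69) (nat_lit 5) (nat_lit 70) (nat_lit 5) (nat_lit 503) (nat_lit 385) (nat_lit 252)) (XT.lf (nat_lit 0) (nat_lit 15364784283) (nat_lit 228) (nat_lit 2616412188) (nat_lit 304) (nat_lit 2134200529) (nat_lit 66) (nat_lit 5) (nat_lit 69) (nat_lit 5) (nat_lit 70) (nat_lit 5) (nat_lit 504) (nat_lit 385) (nat_lit 251)))) (XT.nd (nat_lit 156) (nat_lit 228) (nat_lit 0) (XT.nd (nat_lit 78) (nat_lit 0) (nat_lit 0) (XT.lf (nat_lit 0) (nat_lit 1688518868) (nat_lit 304) (nat_lit 16114980516) (nat_lit 76) (nat_lit 2602782756) (nat_lit 62) (nat_lit 5) (nat_lit 66) (nat_lit 5) (nat_lit 63) (nat_lit 5) (nat_lit 505) (nat_lit 385) (nat_lit 250)) (XT.lf (nat_lit 0) (nat_lit 5595159470) (nat_lit 304) (nat_lit 7177730221) (nat_lit 76) (nat_lit 7929096814) (nat_lit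 62) (nat_lit 5) (nat_lit 66) (nat_lit 5) (nat_lit 63) (nat_lit 5) (nat_lit 506) (nat_lit 385) (nat_lit 249))) (XT.nd (nat_lit 78) (nat_lit 0) (nat_lit 0) (XT.lf (nat_lit 0) (nat_lit 1942008649) (nat_lit 228) (nat_lit 7637395381) (nat_lit 304) (nat_lit 11424215953) (nat_lit 59) (nat_lit 5) (nat_lit 62) (nat_lit 5) (nat_lit 63) (nat_lit 5) (nat_lit 507) (nat_lit 385) (nat_lit 248)) (XT.lf (nat_lit 0) (nat_lit 11319855031) (nat_lit 228) (nat_lit 2358624603) (nat_lit 304) (nat_lit 7632107934) (nat_lit 59) (nat_lit 5) (nat_lit 62) (nat_lit 5) (nat_lit 63) (nat_lit 5) (nat_lit 508) (nat_lit 385) (nat_lit 247)))))) (XT.nd (nat_lit 546) (nat_lit 760) (nat_lit 0) (XT.nd (nat_lit 234) (nat_lit 380) (nat_lit 0) (XT.nd (nat_lit 78) (nat_lit 304) (nat_lit 0) (XT.lf (nat_lit 0) (nat_lit 17866362338) (nat_lit 304) (nat_lit 779446308) (nat_lit 76) (nat_lit 2977753623) (nat_lit 59) (nat_lit 5) (nat_lit 63) (nat_lit 5) (nat_lit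 60) (nat_lit 5) (nat_lit 509) (nat_lit 385) (nat_lit 246)) (XT.nd (nat_lit 78) (nat_lit 0) (nat_lit 0) (XT.lf (nat_lit 0) (nat_lit 252532006) (nat_lit 304) (nat_lit 13249755711) (nat_lit 76) (nat_lit 8439289789) (nat_lit 55) (nat_lit 5) (nat_lit 59) (nat_lit 5) (nat_lit 56) (nat_lit 5) (nat_lit 510) (nat_lit 385) (nat_lit 245)) (XT.lf (nat_lit 0) (nat_lit 4284918573) (nat_lit 304) (nat_lit 3948663482) (nat_lit 76) (nat_lit 14032022943) (nat_lit 55) (nat_lit 5) (nat_lit 59) (nat_lit 5) (nat_lit 56) (nat_lit 5) (nat_lit 511) (nat_lit 385) (nat_lit 244)))) (XT.nd (nat_lit 156) (nat_lit 152) (nat_lit 0) (XT.nd (nat_lit 78) (nat_lit 0) (nat_lit 0) (XT.lf (nat_lit 0) (nat_lit 5591212560) (nat_lit 228) (nat_lit 2830744855) (nat_lit 304) (nat_lit 14173679484) (nat_lit 52) (nat_lit 5) (nat_lit 55) (nat_lit 5) (nat_lit 56) (nat_lit 5) (nat_lit 512) (nat_lit 385) (nat_lit 243)) (XT.lf (nat_lit 0) (nat_lit 12673569053) (nat_lit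 304) (nat_lit 7594531579) (nat_lit 76) (nat_lit 2663536037) (nat_lit 52) (nat_lit 5) (nat_lit 56) (nat_lit 5) (nat_lit 53) (nat_lit 5) (nat_lit 513) (nat_lit 385) (nat_lit 242))) (XT.nd (nat_lit 78) (nat_lit 0) (nat_lit 0) (XT.lf (nat_lit 0) (nat_lit 1990698591) (nat_lit 152) (nat_lit 15039183592) (nat_lit 228) (nat_lit 6244084664) (nat_lit 50) (nat_lit 5) (nat_lit 52) (nat_lit 5) (nat_lit 53) (nat_lit 5) (nat_lit 514) (nat_lit 385) (nat_lit 241)) (XT.lf (nat_lit 0) (nat_lit 11850490120) (nat_lit 152) (nat_lit 9661897337) (nat_lit 228) (nat_lit 2109978576) (nat_lit 50) (nat_lit 5) (nat_lit 52) (nat_lit 5) (nat_lit 53) (nat_lit 5) (nat_lit 515) (nat_lit 385) (nat_lit 240))))) (XT.nd (nat_lit 234) (nat_lit 456) (nat_lit 0) (XT.nd (nat_lit 78) (nat_lit 228) (nat_lit 0) (XT.lf (nat_lit 0) (nat_lit 2067433458) (nat_lit 228) (nat_lit 2103789406) (nat_lit 76) (nat_lit 19806475240) (nat_lit 49) (nat_lit 5) (nat_lit 52)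 (nat_lit 5) (nat_lit 50) (nat_lit 5) (nat_lit 516) (nat_lit 385) (nat_lit 239)) (XT.nd (nat_lit 78) (nat_lit 0) (nat_lit 0) (XT.lf (nat_lit 0) (nat_lit 6349127264) (nat_lit 304) (nat_lit 16521861284) (nat_lit 76) (nat_lit 1467893114) (nat_lit 46) (nat_lit 5) (nat_lit 50) (nat_lit 5) (nat_lit 47) (nat_lit 5) (nat_lit 517) (nat_lit 385) (nat_lit 238)) (XT.lf (nat_lit 0) (nat_lit 10746824058) (nat_lit 304) (nat_lit 6789478039) (nat_lit 76) (nat_lit 7170382851) (nat_lit 46) (nat_lit 5) (nat_lit 50) (nat_lit 5) (nat_lit 47) (nat_lit 5) (nat_lit 518) (nat_lit 385) (nat_lit 237)))) (XT.nd (nat_lit 156) (nat_lit 304) (nat_lit 0) (XT.nd (nat_lit 78) (nat_lit 0) (nat_lit 0) (XT.lf (nat_lit 0) (nat_lit 3159859915) (nat_lit 152) (nat_lit 12081889693) (nat_lit 228) (nat_lit 9839912567) (nat_lit 44) (nat_lit 5) (nat_lit 46) (nat_lit 5) (nat_lit 47) (nat_lit 5) (nat_lit 519) (nat_lit 385) (nat_lit 236)) (XT.lf (nat_lit 0) (nat_lit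 13381208591) (nat_lit 152) (nat_lit 6479781955) (nat_lit 228) (nat_lit 5602463369) (nat_lit 44) (nat_lit 5) (nat_lit 46) (nat_lit 5) (nat_lit 47) (nat_lit 5) (nat_lit 520) (nat_lit 385) (nat_lit 235))) (XT.nd (nat_lit 78) (nat_lit 304) (nat_lit 0) (XT.lf (nat_lit 0) (nat_lit 23788347770) (nat_lit 152) (nat_lit 773342949) (nat_lit 228) (nat_lit 1291412520) (nat_lit 44) (nat_lit 5) (nat_lit 46) (nat_lit 5) (nat_lit 47) (nat_lit 5) (nat_lit 521) (nat_lit 385) (nat_lit 234)) (XT.lf (nat_lit 0) (nat_lit 3140932357) (nat_lit 304) (nat_lit 18060162000) (nat_lit 76) (nat_lit 5047534865) (nat_lit 40) (nat_lit 5) (nat_lit 44) (nat_lit 5) (nat_lit 41) (nat_lit 5) (nat_lit 522) (nat_lit 385) (nat_lit 233))))))))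
noncomputable def xc117 : XT := (XT.nd (nat_lit 50466) (nat_lit 0) (nat_lit 19228) (XT.nd (nat_lit 49374) (nat_lit 0) (nat_lit 38304) (XT.nd (nat_lit 48828) (nat_lit 0) (nat_lit 42636) (XT.nd (nat_lit 234) (nat_lit 152) (nat_lit 0) (XT.nd (nat_lit 78) (nat_lit 152) (nat_lit 0) (XT.lf (nat_lit 0) (nat_lit 7652975008) (nat_lit 304) (nat_lit 8009275445) (nat_lit 76) (nat_lit 10989480742) (nat_lit 40) (nat_lit 5) (nat_lit 44) (nat_lit 5) (nat_lit 41) (nat_lit 5) (nat_lit 523) (nat_lit 385) (nat_lit 232)) (XT.nd (nat_lit 78) (nat_lit 0) (nat_lit 0) (XT.lf (nat_lit 0) (nat_lit 2254089802) (nat_lit 152) (nat_lit 10005272279) (nat_lit 228) (nat_lit 14803454050) (nat_lit 38) (nat_lit 5) (nat_lit 40) (nat_lit 5) (nat_lit 41) (nat_lit 5) (nat_lit 524) (nat_lit 385) (nat_lit 231)) (XT.lf (nat_lit 0) (nat_lit 12813307449) (nat_lit 152) (nat_lit 4187874165) (nat_lit 228) (nat_lit 10480077991) (nat_lit 38) (nat_lit 5) (nat_lit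 40) (nat_lit 5) (nat_lit 41) (nat_lit 5) (nat_lit 525) (nat_lit 385) (nat_lit 230)))) (XT.nd (nat_lit 48438) (nat_lit 0) (nat_lit 44384) (XT.nd (nat_lit 78) (nat_lit 152) (nat_lit 0) (XT.lf (nat_lit 0) (nat_lit 21838887903) (nat_lit 228) (nat_lit 4353487613) (nat_lit 76) (nat_lit 1715678303) (nat_lit 38) (nat_lit 5) (nat_lit 41) (nat_lit 5) (nat_lit 39) (nat_lit 5) (nat_lit 526) (nat_lit 385) (nat_lit 229)) (XT.lf (nat_lit 0) (nat_lit 6203450385) (nat_lit 152) (nat_lit 20627825783) (nat_lit 228) (nat_lit 1510952013) (nat_lit 36) (nat_lit 5) (nat_lit 38) (nat_lit 5) (nat_lit 39) (nat_lit 5) (nat_lit 527) (nat_lit 385) (nat_lit 228))) (XT.nd (nat_lit 78) (nat_lit 0) (nat_lit 0) (XT.lf (nat_lit 0) (nat_lit 308033626) (nat_lit 532) (nat_lit 1474234175) (nat_lit 532) (nat_lit 1474234175) (nat_lit 620) (nat_lit 3) (nat_lit 627) (nat_lit 3) (nat_lit 627) (nat_lit 5) (nat_lit 386) (nat_lit 386) (nat_lit 368)) (XT.lf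 (nat_lit 76) (nat_lit 76764151) (nat_lit 0) (nat_lit 3020526894) (nat_lit 532) (nat_lit 3428163117) (nat_lit 621) (nat_lit 5) (nat_lit 620) (nat_lit 3) (nat_lit 627) (nat_lit 5) (nat_lit 387) (nat_lit 386) (nat_lit 367))))) (XT.nd (nat_lit 234) (nat_lit 1216) (nat_lit 0) (XT.nd (nat_lit 78) (nat_lit 532) (nat_lit 0) (XT.lf (nat_lit 76) (nat_lit 3168882950) (nat_lit 0) (nat_lit 2413915355) (nat_lit 532) (nat_lit 956345263) (nat_lit 621) (nat_lit 5) (nat_lit 620) (nat_lit 3) (nat_lit 627) (nat_lit 5) (nat_lit 388) (nat_lit 386) (nat_lit 366)) (XT.nd (nat_lit 78) (nat_lit 0) (nat_lit 0) (XT.lf (nat_lit 0) (nat_lit 1480031584) (nat_lit 532) (nat_lit 274285499) (nat_lit 608) (nat_lit 4799953674) (nat_lit 613) (nat_lit 5) (nat_lit 620) (nat_lit 3) (nat_lit 621) (nat_lit 5) (nat_lit 389) (nat_lit 386) (nat_lit 365)) (XT.lf (nat_lit 76) (nat_lit 2881873533) (nat_lit 0) (nat_lit 1026088504) (nat_lit 608) (nat_lit 2662577960)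 (nat_lit 614) (nat_lit 5) (nat_lit 613) (nat_lit 5) (nat_lit 621) (nat_lit 5) (nat_lit 390) (nat_lit 386) (nat_lit 364)))) (XT.nd (nat_lit 156) (nat_lit 684) (nat_lit 0) (XT.nd (nat_lit 78) (nat_lit 532) (nat_lit 0) (XT.lf (nat_lit 76) (nat_lit 6071893704) (nat_lit 0) (nat_lit 252329483) (nat_lit 608) (nat_lit 264193019) (nat_lit 614) (nat_lit 5) (nat_lit 613) (nat_lit 5) (nat_lit 621) (nat_lit 5) (nat_lit 391) (nat_lit 386) (nat_lit 363)) (XT.lf (nat_lit 0) (nat_lit 2113666667) (nat_lit 608) (nat_lit 3904015319) (nat_lit 684) (nat_lit 589556099) (nat_lit 606) (nat_lit 5) (nat_lit 614) (nat_lit 5) (nat_lit 615) (nat_lit 5) (nat_lit 392) (nat_lit 386) (nat_lit 362))) (XT.nd (nat_lit 78) (nat_lit 684) (nat_lit 0) (XT.lf (nat_lit 0) (nat_lit 4480546195) (nat_lit 608) (nat_lit 669906941) (nat_lit 684) (nat_lit 1477120916) (nat_lit 606) (nat_lit 5) (nat_lit 614) (nat_lit 5) (nat_lit 615) (nat_lit 5) (nat_lit 393)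 (nat_lit 386) (nat_lit 361)) (XT.lf (nat_lit 0) (nat_lit 200956028) (nat_lit 684) (nat_lit 4020962163) (nat_lit 760) (nat_lit 2427281479) (nat_lit 597) (nat_lit 5) (nat_lit 606) (nat_lit 5) (nat_lit 607) (nat_lit 5) (nat_lit 394) (nat_lit 386) (nat_lit 360)))))) (XT.nd (nat_lit 546) (nat_lit 2812) (nat_lit 0) (XT.nd (nat_lit 234) (nat_lit 760) (nat_lit 0) (XT.nd (nat_lit 78) (nat_lit 760) (nat_lit 0) (XT.lf (nat_lit 0) (nat_lit 2513204746) (nat_lit 684) (nat_lit 718399385) (nat_lit 760) (nat_lit 3440517151) (nat_lit 597) (nat_lit 5) (nat_lit 606) (nat_lit 5) (nat_lit 607) (nat_lit 5) (nat_lit 395) (nat_lit 386) (nat_lit 359)) (XT.nd (nat_lit 78) (nat_lit 760) (nat_lit 0) (XT.lf (nat_lit 76) (nat_lit 2651252373) (nat_lit 0) (nat_lit 2180308564) (nat_lit 760) (nat_lit 1864810195) (nat_lit 598) (nat_lit 5) (nat_lit 597) (nat_lit 5) (nat_lit 607) (nat_lit 5) (nat_lit 396) (nat_lit 386) (nat_lit 358)) (XT.lf (nat_lit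 0) (nat_lit 416916066) (nat_lit 760) (nat_lit 660423791) (nat_lit 836) (nat_lit 5644809473) (nat_lit 587) (nat_lit 5) (nat_lit 597) (nat_lit 5) (nat_lit 598) (nat_lit 5) (nat_lit 397) (nat_lit 386) (nat_lit 357)))) (XT.nd (nat_lit 156) (nat_lit 836) (nat_lit 0) (XT.nd (nat_lit 78) (nat_lit 0) (nat_lit 0) (XT.lf (nat_lit 0) (nat_lit 2682282908) (nat_lit 760) (nat_lit 3967219471) (nat_lit 836) (nat_lit 99497855) (nat_lit 588) (nat_lit 5) (nat_lit 598) (nat_lit 5) (nat_lit 599) (nat_lit 5) (nat_lit 398) (nat_lit 386) (nat_lit 356)) (XT.lf (nat_lit 0) (nat_lit 4949801031) (nat_lit 760) (nat_lit 516418768) (nat_lit 836) (nat_lit 1311093428) (nat_lit 588) (nat_lit 5) (nat_lit 598) (nat_lit 5) (nat_lit 599) (nat_lit 5) (nat_lit 399) (nat_lit 386) (nat_lit 355))) (XT.nd (nat_lit 78) (nat_lit 0) (nat_lit 0) (XT.lf (nat_lit 0) (nat_lit 416061018) (nat_lit 836) (nat_lit 3800870090) (nat_lit 912) (nat_lit 2589950225) (nat_lit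 577) (nat_lit 5) (nat_lit 588) (nat_lit 5) (nat_lit 589) (nat_lit 5) (nat_lit 400) (nat_lit 386) (nat_lit 354)) (XT.lf (nat_lit 0) (nat_lit 2630292371) (nat_lit 836) (nat_lit 277804880) (nat_lit 912) (nat_lit 3929755187) (nat_lit 577) (nat_lit 5) (nat_lit 588) (nat_lit 5) (nat_lit 589) (nat_lit 5) (nat_lit 401) (nat_lit 386) (nat_lit 353))))) (XT.nd (nat_lit 234) (nat_lit 1900) (nat_lit 0) (XT.nd (nat_lit 78) (nat_lit 912) (nat_lit 0) (XT.lf (nat_lit 76) (nat_lit 3325415689) (nat_lit 0) (nat_lit 1532773460) (nat_lit 912) (nat_lit 2011923431) (nat_lit 578) (nat_lit 5) (nat_lit 577) (nat_lit 5) (nat_lit 589) (nat_lit 5) (nat_lit 402) (nat_lit 386) (nat_lit 352)) (XT.nd (nat_lit 78) (nat_lit 0) (nat_lit 76) (XT.lf (nat_lit 76) (nat_lit 66427074) (nat_lit 0) (nat_lit 108720496) (nat_lit 988) (nat_lit 6728885667) (nat_lit 566) (nat_lit 5) (nat_lit 565) (nat_lit 5) (nat_lit 578) (nat_lit 5) (nat_lit 403) (nat_lit 386)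 (nat_lit 351)) (XT.lf (nat_lit 0) (nat_lit 2360816507) (nat_lit 912) (nat_lit 3197936375) (nat_lit 76) (nat_lit 1380031455) (nat_lit 566) (nat_lit 5) (nat_lit 578) (nat_lit 5) (nat_lit 567) (nat_lit 5) (nat_lit 404) (nat_lit 386) (nat_lit 350)))) (XT.nd (nat_lit 156) (nat_lit 1064) (nat_lit 0) (XT.nd (nat_lit 78) (nat_lit 0) (nat_lit 0) (XT.lf (nat_lit 0) (nat_lit 485471728) (nat_lit 912) (nat_lit 4058698853) (nat_lit 988) (nat_lit 2431033316) (nat_lit 554) (nat_lit 5) (nat_lit 566) (nat_lit 5) (nat_lit 567) (nat_lit 5) (nat_lit 405) (nat_lit 386) (nat_lit 349)) (XT.lf (nat_lit 0) (nat_lit 4251423040) (nat_lit 912) (nat_lit 2492082895) (nat_lit 988) (nat_lit 269451466) (nat_lit 554) (nat_lit 5) (nat_lit 566) (nat_lit 5) (nat_lit 567) (nat_lit 5) (nat_lit 406) (nat_lit 386) (nat_lit 348))) (XT.nd (nat_lit 78) (nat_lit 0) (nat_lit 0) (XT.lf (nat_lit 0) (nat_lit 1007380820) (nat_lit 988) (nat_lit 860587925) (nat_lit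 1064) (nat_lit 5184135952) (nat_lit 540) (nat_lit 5) (nat_lit 553) (nat_lit 5) (nat_lit 554) (nat_lit 5) (nat_lit 407) (nat_lit 386) (nat_lit 347)) (XT.lf (nat_lit 0) (nat_lit 4020670230) (nat_lit 1064) (nat_lit 2245040224) (nat_lit 76) (nat_lit 826814894) (nat_lit 540) (nat_lit 5) (nat_lit 554) (nat_lit 5) (nat_lit 541) (nat_lit 5) (nat_lit 408) (nat_lit 386) (nat_lit 346))))))) (XT.nd (nat_lit 1092) (nat_lit 8132) (nat_lit 0) (XT.nd (nat_lit 546) (nat_lit 6080) (nat_lit 0) (XT.nd (nat_lit 234) (nat_lit 2584) (nat_lit 0) (XT.nd (nat_lit 78) (nat_lit 1216) (nat_lit 0) (XT.lf (nat_lit 0) (nat_lit 1611405763) (nat_lit 1064) (nat_lit 4574383790) (nat_lit 1140) (nat_lit 948625470) (nat_lit 526) (nat_lit 5) (nat_lit 540) (nat_lit 5) (nat_lit 541) (nat_lit 5) (nat_lit 409) (nat_lit 386) (nat_lit 345)) (XT.nd (nat_lit 78) (nat_lit 1140) (nat_lit 0) (XT.lf (nat_lit 0) (nat_lit 1169816457) (nat_lit 1140) (nat_lit 1644531481)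 (nat_lit 76) (nat_lit 4363308349) (nat_lit 525) (nat_lit 5) (nat_lit 540) (nat_lit 5) (nat_lit 526) (nat_lit 5) (nat_lit 410) (nat_lit 386) (nat_lit 344)) (XT.lf (nat_lit 0) (nat_lit 2300998548) (nat_lit 1140) (nat_lit 986333543) (nat_lit 1216) (nat_lit 3934961862) (nat_lit 510) (nat_lit 5) (nat_lit 525) (nat_lit 5) (nat_lit 526) (nat_lit 5) (nat_lit 411) (nat_lit 386) (nat_lit 343)))) (XT.nd (nat_lit 156) (nat_lit 1292) (nat_lit 0) (XT.nd (nat_lit 78) (nat_lit 1292) (nat_lit 0) (XT.lf (nat_lit 0) (nat_lit 5419204853) (nat_lit 1216) (nat_lit 960845356) (nat_lit 76) (nat_lit 888378270) (nat_lit 510) (nat_lit 5) (nat_lit 526) (nat_lit 5) (nat_lit 511) (nat_lit 5) (nat_lit 412) (nat_lit 386) (nat_lit 342)) (XT.lf (nat_lit 0) (nat_lit 257014065) (nat_lit 1292) (nat_lit 4239423584) (nat_lit 76) (nat_lit 2819405766) (nat_lit 493) (nat_lit 5) (nat_lit 510) (nat_lit 5) (nat_lit 494) (nat_lit 5) (nat_lit 413) (nat_lit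 386) (nat_lit 341))) (XT.nd (nat_lit 78) (nat_lit 1292) (nat_lit 0) (XT.lf (nat_lit 0) (nat_lit 2343513557) (nat_lit 1292) (nat_lit 203813938) (nat_lit 76) (nat_lit 4817418414) (nat_lit 493) (nat_lit 5) (nat_lit 510) (nat_lit 5) (nat_lit 494) (nat_lit 5) (nat_lit 414) (nat_lit 386) (nat_lit 340)) (XT.lf (nat_lit 0) (nat_lit 3929830823) (nat_lit 1292) (nat_lit 524667014) (nat_lit 1368) (nat_lit 2960514394) (nat_lit 476) (nat_lit 5) (nat_lit 493) (nat_lit 5) (nat_lit 494) (nat_lit 5) (nat_lit 415) (nat_lit 386) (nat_lit 339))))) (XT.nd (nat_lit 234) (nat_lit 3192) (nat_lit 0) (XT.nd (nat_lit 78) (nat_lit 1520) (nat_lit 0) (XT.lf (nat_lit 0) (nat_lit 646203876) (nat_lit 1368) (nat_lit 5934969264) (nat_lit 1444) (nat_lit 885681381) (nat_lit 458) (nat_lit 5) (nat_lit 476) (nat_lit 5) (nat_lit 477) (nat_lit 5) (nat_lit 416) (nat_lit 386) (nat_lit 338)) (XT.nd (nat_lit 78) (nat_lit 1444) (nat_lit 0) (XT.lf (nat_lit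 0) (nat_lit 1199721866) (nat_lit 1444) (nat_lit 2658718680) (nat_lit 76) (nat_lit 3661467549) (nat_lit 457) (nat_lit 5) (nat_lit 476) (nat_lit 5) (nat_lit 458) (nat_lit 5) (nat_lit 417) (nat_lit 386) (nat_lit 337)) (XT.lf (nat_lit 0) (nat_lit 1566531332) (nat_lit 1444) (nat_lit 1717641136) (nat_lit 1520) (nat_lit 4290386972) (nat_lit 438) (nat_lit 5) (nat_lit 457) (nat_lit 5) (nat_lit 458) (nat_lit 5) (nat_lit 418) (nat_lit 386) (nat_lit 336)))) (XT.nd (nat_lit 156) (nat_lit 1672) (nat_lit 0) (XT.nd (nat_lit 78) (nat_lit 1520) (nat_lit 0) (XT.lf (nat_lit 0) (nat_lit 5390933150) (nat_lit 1520) (nat_lit 1756021669) (nat_lit 76) (nat_lit 483773593) (nat_lit 438) (nat_lit 5) (nat_lit 458) (nat_lit 5) (nat_lit 439) (nat_lit 5) (nat_lit 419) (nat_lit 386) (nat_lit 335)) (XT.lf (nat_lit 0) (nat_lit 2568773949) (nat_lit 1520) (nat_lit 4959535930) (nat_lit 1596) (nat_lit 159977560) (nat_lit 418) (nat_lit 5) (nat_lit 438)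 (nat_lit 5) (nat_lit 439) (nat_lit 5) (nat_lit 420) (nat_lit 386) (nat_lit 334))) (XT.nd (nat_lit 78) (nat_lit 1596) (nat_lit 0) (XT.lf (nat_lit 0) (nat_lit 1908260777) (nat_lit 1596) (nat_lit 790601842) (nat_lit 76) (nat_lit 5048464237) (nat_lit 417) (nat_lit 5) (nat_lit 438) (nat_lit 5) (nat_lit 418) (nat_lit 5) (nat_lit 421) (nat_lit 386) (nat_lit 333)) (XT.lf (nat_lit 0) (nat_lit 3637321235) (nat_lit 1596) (nat_lit 363476299) (nat_lit 1672) (nat_lit 3807061061) (nat_lit 396) (nat_lit 5) (nat_lit 417) (nat_lit 5) (nat_lit 418) (nat_lit 5) (nat_lit 422) (nat_lit 386) (nat_lit 332)))))) (XT.nd (nat_lit 546) (nat_lit 3344) (nat_lit 0) (XT.nd (nat_lit 234) (nat_lit 1748) (nat_lit 0) (XT.nd (nat_lit 78) (nat_lit 1368) (nat_lit 0) (XT.lf (nat_lit 0) (nat_lit 250360739) (nat_lit 1672) (nat_lit 5866915511) (nat_lit 1748) (nat_lit 1752716425) (nat_lit 374) (nat_lit 5) (nat_lit 396) (nat_lit 5) (nat_lit 397) (nat_lit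 5) (nat_lit 423) (nat_lit 386) (nat_lit 331)) (XT.nd (nat_lit 78) (nat_lit 1292) (nat_lit 0) (XT.lf (nat_lit 0) (nat_lit 331058022) (nat_lit 1748) (nat_lit 3156528752) (nat_lit 76) (nat_lit 4445913634) (nat_lit 373) (nat_lit 5) (nat_lit 396) (nat_lit 5) (nat_lit 374) (nat_lit 5) (nat_lit 424) (nat_lit 386) (nat_lit 330)) (XT.lf (nat_lit 0) (nat_lit 1367744798) (nat_lit 1292) (nat_lit 1037195279) (nat_lit 1368) (nat_lit 5593700085) (nat_lit 356) (nat_lit 5) (nat_lit 373) (nat_lit 5) (nat_lit 374) (nat_lit 5) (nat_lit 425) (nat_lit 386) (nat_lit 329)))) (XT.nd (nat_lit 156) (nat_lit 912) (nat_lit 0) (XT.nd (nat_lit 78) (nat_lit 836) (nat_lit 0) (XT.lf (nat_lit 0) (nat_lit 4514632802) (nat_lit 1368) (nat_lit 2083973488) (nat_lit 76) (nat_lit 1466620738) (nat_lit 356) (nat_lit 5) (nat_lit 374) (nat_lit 5) (nat_lit 357) (nat_lit 5) (nat_lit 426) (nat_lit 386) (nat_lit 328)) (XT.lf (nat_lit 0) (nat_lit 2546124655)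 (nat_lit 836) (nat_lit 4108027229) (nat_lit 912) (nat_lit 1479271465) (nat_lit 345) (nat_lit 5) (nat_lit 356) (nat_lit 5) (nat_lit 357) (nat_lit 5) (nat_lit 427) (nat_lit 386) (nat_lit 327))) (XT.nd (nat_lit 78) (nat_lit 836) (nat_lit 0) (XT.lf (nat_lit 0) (nat_lit 603696385) (nat_lit 912) (nat_lit 944398184) (nat_lit 76) (nat_lit 6655265421) (nat_lit 344) (nat_lit 5) (nat_lit 356) (nat_lit 5) (nat_lit 345) (nat_lit 5) (nat_lit 428) (nat_lit 386) (nat_lit 326)) (XT.lf (nat_lit 0) (nat_lit 2705473539) (nat_lit 912) (nat_lit 4484384460) (nat_lit 76) (nat_lit 1084731274) (nat_lit 333) (nat_lit 5) (nat_lit 345) (nat_lit 5) (nat_lit 334) (nat_lit 5) (nat_lit 429) (nat_lit 386) (nat_lit 325))))) (XT.nd (nat_lit 234) (nat_lit 1596) (nat_lit 0) (XT.nd (nat_lit 78) (nat_lit 912) (nat_lit 0) (XT.lf (nat_lit 0) (nat_lit 243704818) (nat_lit 836) (nat_lit 4589411638) (nat_lit 912) (nat_lit 3514478139) (nat_lit 322) (nat_lit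 5) (nat_lit 333) (nat_lit 5) (nat_lit 334) (nat_lit 5) (nat_lit 430) (nat_lit 386) (nat_lit 324)) (XT.nd (nat_lit 78) (nat_lit 912) (nat_lit 0) (XT.lf (nat_lit 0) (nat_lit 5092986885) (nat_lit 836) (nat_lit 1906486618) (nat_lit 912) (nat_lit 1422690800) (nat_lit 322) (nat_lit 5) (nat_lit 333) (nat_lit 5) (nat_lit 334) (nat_lit 5) (nat_lit 431) (nat_lit 386) (nat_lit 323)) (XT.lf (nat_lit 0) (nat_lit 683462627) (nat_lit 912) (nat_lit 6981692678) (nat_lit 76) (nat_lit 833367134) (nat_lit 310) (nat_lit 5) (nat_lit 322) (nat_lit 5) (nat_lit 311) (nat_lit 5) (nat_lit 432) (nat_lit 386) (nat_lit 322)))) (XT.nd (nat_lit 156) (nat_lit 836) (nat_lit 0) (XT.nd (nat_lit 78) (nat_lit 760) (nat_lit 0) (XT.lf (nat_lit 0) (nat_lit 2814742223) (nat_lit 912) (nat_lit 2127689261) (nat_lit 76) (nat_lit 3633773036) (nat_lit 310) (nat_lit 5) (nat_lit 322) (nat_lit 5) (nat_lit 311) (nat_lit 5) (nat_lit 433) (nat_lit 386) (nat_lit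 321)) (XT.lf (nat_lit 0) (nat_lit 2826724268) (nat_lit 760) (nat_lit 2147845619) (nat_lit 836) (nat_lit 3681177317) (nat_lit 300) (nat_lit 5) (nat_lit 310) (nat_lit 5) (nat_lit 311) (nat_lit 5) (nat_lit 434) (nat_lit 386) (nat_lit 320))) (XT.nd (nat_lit 78) (nat_lit 836) (nat_lit 0) (XT.lf (nat_lit 0) (nat_lit 7164506493) (nat_lit 836) (nat_lit 866360557) (nat_lit 76) (nat_lit 706300356) (nat_lit 300) (nat_lit 5) (nat_lit 311) (nat_lit 5) (nat_lit 301) (nat_lit 5) (nat_lit 435) (nat_lit 386) (nat_lit 319)) (XT.lf (nat_lit 0) (nat_lit 580606120) (nat_lit 836) (nat_lit 4620910713) (nat_lit 76) (nat_lit 3618444842) (nat_lit 289) (nat_lit 5) (nat_lit 300) (nat_lit 5) (nat_lit 290) (nat_lit 5) (nat_lit 436) (nat_lit 386) (nat_lit 318))))))))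
noncomputable def xc118 : XT := (XT.nd (nat_lit 2184) (nat_lit 5548) (nat_lit 0) (XT.nd (nat_lit 1092) (nat_lit 4256) (nat_lit 0) (XT.nd (nat_lit 546) (nat_lit 2584) (nat_lit 0) (XT.nd (nat_lit 234) (nat_lit 1444) (nat_lit 0) (XT.nd (nat_lit 78) (nat_lit 760) (nat_lit 0) (XT.lf (nat_lit 0) (nat_lit 434742977) (nat_lit 684) (nat_lit 2298608560) (nat_lit 760) (nat_lit 6171326444) (nat_lit 280) (nat_lit 5) (nat_lit 289) (nat_lit 5) (nat_lit 290) (nat_lit 5) (nat_lit 437) (nat_lit 386) (nat_lit 317)) (XT.nd (nat_lit 78) (nat_lit 760) (nat_lit 0) (XT.lf (nat_lit 0) (nat_lit 4933820191) (nat_lit 760) (nat_lit 3374951408) (nat_lit 76) (nat_lit 682246662) (nat_lit 280) (nat_lit 5) (nat_lit 290) (nat_lit 5) (nat_lit 281) (nat_lit 5) (nat_lit 438) (nat_lit 386) (nat_lit 316)) (XT.lf (nat_lit 0) (nat_lit 1796819455) (nat_lit 760) (nat_lit 5378126068) (nat_lit 836) (nat_lit 1904229443) (nat_lit 270) (nat_lit 5) (nat_lit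 280) (nat_lit 5) (nat_lit 281) (nat_lit 5) (nat_lit 439) (nat_lit 386) (nat_lit 315)))) (XT.nd (nat_lit 156) (nat_lit 684) (nat_lit 0) (XT.nd (nat_lit 78) (nat_lit 684) (nat_lit 0) (XT.lf (nat_lit 0) (nat_lit 280685416) (nat_lit 836) (nat_lit 2086569120) (nat_lit 76) (nat_lit 6801969789) (nat_lit 269) (nat_lit 5) (nat_lit 280) (nat_lit 5) (nat_lit 270) (nat_lit 5) (nat_lit 440) (nat_lit 386) (nat_lit 314)) (XT.lf (nat_lit 0) (nat_lit 2479938340) (nat_lit 760) (nat_lit 6056165293) (nat_lit 76) (nat_lit 724817814) (nat_lit 260) (nat_lit 5) (nat_lit 270) (nat_lit 5) (nat_lit 261) (nat_lit 5) (nat_lit 441) (nat_lit 386) (nat_lit 313))) (XT.nd (nat_lit 78) (nat_lit 684) (nat_lit 0) (XT.lf (nat_lit 0) (nat_lit 4723796032) (nat_lit 760) (nat_lit 773109966) (nat_lit 76) (nat_lit 3857554966) (nat_lit 260) (nat_lit 5) (nat_lit 270) (nat_lit 5) (nat_lit 261) (nat_lit 5) (nat_lit 442) (nat_lit 386) (nat_lit 312)) (XT.lf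 (nat_lit 0) (nat_lit 4643805406) (nat_lit 684) (nat_lit 2370295569) (nat_lit 760) (nat_lit 2435759331) (nat_lit 251) (nat_lit 5) (nat_lit 260) (nat_lit 5) (nat_lit 261) (nat_lit 5) (nat_lit 443) (nat_lit 386) (nat_lit 311))))) (XT.nd (nat_lit 234) (nat_lit 1292) (nat_lit 0) (XT.nd (nat_lit 78) (nat_lit 684) (nat_lit 0) (XT.lf (nat_lit 0) (nat_lit 601971789) (nat_lit 608) (nat_lit 8734428693) (nat_lit 684) (nat_lit 211063420) (nat_lit 243) (nat_lit 5) (nat_lit 251) (nat_lit 5) (nat_lit 252) (nat_lit 5) (nat_lit 444) (nat_lit 386) (nat_lit 310)) (XT.nd (nat_lit 78) (nat_lit 608) (nat_lit 0) (XT.lf (nat_lit 0) (nat_lit 2051173677) (nat_lit 684) (nat_lit 3525564636) (nat_lit 76) (nat_lit 4069632462) (nat_lit 242) (nat_lit 5) (nat_lit 251) (nat_lit 5) (nat_lit 243) (nat_lit 5) (nat_lit 445) (nat_lit 386) (nat_lit 309)) (XT.lf (nat_lit 0) (nat_lit 1994956447) (nat_lit 608) (nat_lit 2346257469) (nat_lit 684) (nat_lit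 5406325156) (nat_lit 234) (nat_lit 5) (nat_lit 242) (nat_lit 5) (nat_lit 243) (nat_lit 5) (nat_lit 446) (nat_lit 386) (nat_lit 308)))) (XT.nd (nat_lit 156) (nat_lit 684) (nat_lit 0) (XT.nd (nat_lit 78) (nat_lit 608) (nat_lit 0) (XT.lf (nat_lit 0) (nat_lit 6679757099) (nat_lit 684) (nat_lit 2215783982) (nat_lit 76) (nat_lit 955154124) (nat_lit 234) (nat_lit 5) (nat_lit 243) (nat_lit 5) (nat_lit 235) (nat_lit 5) (nat_lit 447) (nat_lit 386) (nat_lit 307)) (XT.lf (nat_lit 0) (nat_lit 3428941343) (nat_lit 608) (nat_lit 5647192276) (nat_lit 684) (nat_lit 879577738) (nat_lit 226) (nat_lit 5) (nat_lit 234) (nat_lit 5) (nat_lit 235) (nat_lit 5) (nat_lit 448) (nat_lit 386) (nat_lit 306))) (XT.nd (nat_lit 78) (nat_lit 608) (nat_lit 0) (XT.lf (nat_lit 0) (nat_lit 1426845737) (nat_lit 684) (nat_lit 887897345) (nat_lit 76) (nat_lit 7748145863) (nat_lit 225) (nat_lit 5) (nat_lit 234) (nat_lit 5) (nat_lit 226) (nat_lit 5) (nat_lit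 449) (nat_lit 386) (nat_lit 305)) (XT.lf (nat_lit 0) (nat_lit 3780541606) (nat_lit 684) (nat_lit 5288951029) (nat_lit 76) (nat_lit 1102359843) (nat_lit 217) (nat_lit 5) (nat_lit 226) (nat_lit 5) (nat_lit 218) (nat_lit 5) (nat_lit 450) (nat_lit 386) (nat_lit 304)))))) (XT.nd (nat_lit 546) (nat_lit 2052) (nat_lit 0) (XT.nd (nat_lit 234) (nat_lit 1064) (nat_lit 0) (XT.nd (nat_lit 78) (nat_lit 608) (nat_lit 0) (XT.lf (nat_lit 0) (nat_lit 456846448) (nat_lit 532) (nat_lit 5722934534) (nat_lit 608) (nat_lit 4103261674) (nat_lit 210) (nat_lit 5) (nat_lit 217) (nat_lit 5) (nat_lit 218) (nat_lit 5) (nat_lit 451) (nat_lit 386) (nat_lit 303)) (XT.nd (nat_lit 78) (nat_lit 608) (nat_lit 0) (XT.lf (nat_lit 0) (nat_lit 6357411790) (nat_lit 532) (nat_lit 2279560911) (nat_lit 608) (nat_lit 1759301021) (nat_lit 210) (nat_lit 5) (nat_lit 217) (nat_lit 5) (nat_lit 218) (nat_lit 5) (nat_lit 452) (nat_lit 386) (nat_lit 302)) (XT.lf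 (nat_lit 0) (nat_lit 618149691) (nat_lit 608) (nat_lit 8667184094) (nat_lit 76) (nat_lit 1226471543) (nat_lit 202) (nat_lit 5) (nat_lit 210) (nat_lit 5) (nat_lit 203) (nat_lit 5) (nat_lit 453) (nat_lit 386) (nat_lit 301)))) (XT.nd (nat_lit 156) (nat_lit 532) (nat_lit 0) (XT.nd (nat_lit 78) (nat_lit 532) (nat_lit 0) (XT.lf (nat_lit 0) (nat_lit 3037036731) (nat_lit 608) (nat_lit 2787342414) (nat_lit 76) (nat_lit 4804702445) (nat_lit 202) (nat_lit 5) (nat_lit 210) (nat_lit 5) (nat_lit 203) (nat_lit 5) (nat_lit 454) (nat_lit 386) (nat_lit 300)) (XT.lf (nat_lit 0) (nat_lit 3221134119) (nat_lit 532) (nat_lit 2279613997) (nat_lit 608) (nat_lit 5248041513) (nat_lit 195) (nat_lit 5) (nat_lit 202) (nat_lit 5) (nat_lit 203) (nat_lit 5) (nat_lit 455) (nat_lit 386) (nat_lit 299))) (XT.nd (nat_lit 78) (nat_lit 532) (nat_lit 0) (XT.lf (nat_lit 0) (nat_lit 8017003723) (nat_lit 608) (nat_lit 1523209607) (nat_lit 76) (nat_lit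 1330627988) (nat_lit 195) (nat_lit 5) (nat_lit 203) (nat_lit 5) (nat_lit 196) (nat_lit 5) (nat_lit 456) (nat_lit 386) (nat_lit 298)) (XT.lf (nat_lit 0) (nat_lit 4615927108) (nat_lit 532) (nat_lit 5988966017) (nat_lit 608) (nat_lit 390029338) (nat_lit 188) (nat_lit 5) (nat_lit 195) (nat_lit 5) (nat_lit 196) (nat_lit 5) (nat_lit 457) (nat_lit 386) (nat_lit 297))))) (XT.nd (nat_lit 234) (nat_lit 988) (nat_lit 0) (XT.nd (nat_lit 78) (nat_lit 988) (nat_lit 0) (XT.lf (nat_lit 0) (nat_lit 2081839539) (nat_lit 608) (nat_lit 267604317) (nat_lit 76) (nat_lit 8772047142) (nat_lit 187) (nat_lit 5) (nat_lit 195) (nat_lit 5) (nat_lit 188) (nat_lit 5) (nat_lit 458) (nat_lit 386) (nat_lit 296)) (XT.nd (nat_lit 78) (nat_lit 532) (nat_lit 0) (XT.lf (nat_lit 0) (nat_lit 4622842717) (nat_lit 532) (nat_lit 5247393474) (nat_lit 76) (nat_lit 1379818517) (nat_lit 181) (nat_lit 5) (nat_lit 188) (nat_lit 5) (nat_lit 182) (nat_lit 5) (nat_lit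 459) (nat_lit 386) (nat_lit 295)) (XT.lf (nat_lit 0) (nat_lit 987603173) (nat_lit 532) (nat_lit 6227857396) (nat_lit 608) (nat_lit 4165726716) (nat_lit 174) (nat_lit 5) (nat_lit 181) (nat_lit 5) (nat_lit 182) (nat_lit 5) (nat_lit 460) (nat_lit 386) (nat_lit 294)))) (XT.nd (nat_lit 156) (nat_lit 456) (nat_lit 0) (XT.nd (nat_lit 78) (nat_lit 532) (nat_lit 0) (XT.lf (nat_lit 0) (nat_lit 7388046699) (nat_lit 532) (nat_lit 2484365806) (nat_lit 608) (nat_lit 1642293592) (nat_lit 174) (nat_lit 5) (nat_lit 181) (nat_lit 5) (nat_lit 182) (nat_lit 5) (nat_lit 461) (nat_lit 386) (nat_lit 293)) (XT.lf (nat_lit 0) (nat_lit 920360444) (nat_lit 532) (nat_lit 9400605887) (nat_lit 76) (nat_lit 1329801281) (nat_lit 167) (nat_lit 5) (nat_lit 174) (nat_lit 5) (nat_lit 168) (nat_lit 5) (nat_lit 462) (nat_lit 386) (nat_lit 292))) (XT.nd (nat_lit 78) (nat_lit 456) (nat_lit 0) (XT.lf (nat_lit 0) (nat_lit 3534376280) (nat_lit 532) (nat_lit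 3036358102) (nat_lit 76) (nat_lit 5218169340) (nat_lit 167) (nat_lit 5) (nat_lit 174) (nat_lit 5) (nat_lit 168) (nat_lit 5) (nat_lit 463) (nat_lit 386) (nat_lit 291)) (XT.lf (nat_lit 0) (nat_lit 3470984925) (nat_lit 456) (nat_lit 2730409984) (nat_lit 532) (nat_lit 5728405407) (nat_lit 161) (nat_lit 5) (nat_lit 167) (nat_lit 5) (nat_lit 168) (nat_lit 5) (nat_lit 464) (nat_lit 386) (nat_lit 290))))))) (XT.nd (nat_lit 1092) (nat_lit 2508) (nat_lit 0) (XT.nd (nat_lit 546) (nat_lit 1140) (nat_lit 0) (XT.nd (nat_lit 234) (nat_lit 1368) (nat_lit 0) (XT.nd (nat_lit 78) (nat_lit 532) (nat_lit 0) (XT.lf (nat_lit 0) (nat_lit 8928340454) (nat_lit 532) (nat_lit 1961222606) (nat_lit 76) (nat_lit 1183832025) (nat_lit 161) (nat_lit 5) (nat_lit 168) (nat_lit 5) (nat_lit 162) (nat_lit 5) (nat_lit 465) (nat_lit 386) (nat_lit 289)) (XT.nd (nat_lit 78) (nat_lit 76) (nat_lit 0) (XT.lf (nat_lit 0) (nat_lit 4680300476) (nat_lit 456)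 (nat_lit 7056789396) (nat_lit 532) (nat_lit 482238319) (nat_lit 155) (nat_lit 5) (nat_lit 161) (nat_lit 5) (nat_lit 162) (nat_lit 5) (nat_lit 466) (nat_lit 386) (nat_lit 288)) (XT.lf (nat_lit 0) (nat_lit 2196656704) (nat_lit 532) (nat_lit 930690038) (nat_lit 76) (nat_lit 9240712036) (nat_lit 154) (nat_lit 5) (nat_lit 161) (nat_lit 5) (nat_lit 155) (nat_lit 5) (nat_lit 467) (nat_lit 386) (nat_lit 287)))) (XT.nd (nat_lit 156) (nat_lit 532) (nat_lit 0) (XT.nd (nat_lit 78) (nat_lit 380) (nat_lit 0) (XT.lf (nat_lit 0) (nat_lit 4945914075) (nat_lit 532) (nat_lit 6670743560) (nat_lit 76) (nat_lit 902588820) (nat_lit 148) (nat_lit 5) (nat_lit 155) (nat_lit 5) (nat_lit 149) (nat_lit 5) (nat_lit 468) (nat_lit 386) (nat_lit 286)) (XT.lf (nat_lit 0) (nat_lit 53489115) (nat_lit 380) (nat_lit 7703465392) (nat_lit 456) (nat_lit 4916378265) (nat_lit 143) (nat_lit 5) (nat_lit 148) (nat_lit 5) (nat_lit 149) (nat_lit 5) (nat_lit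 469) (nat_lit 386) (nat_lit 285))) (XT.nd (nat_lit 78) (nat_lit 532) (nat_lit 0) (XT.lf (nat_lit 0) (nat_lit 6973798473) (nat_lit 380) (nat_lit 3674850108) (nat_lit 456) (nat_lit 2181374211) (nat_lit 143) (nat_lit 5) (nat_lit 148) (nat_lit 5) (nat_lit 149) (nat_lit 5) (nat_lit 470) (nat_lit 386) (nat_lit 284)) (XT.lf (nat_lit 0) (nat_lit 589757639) (nat_lit 532) (nat_lit 11969282542) (nat_lit 76) (nat_lit 430949534) (nat_lit 136) (nat_lit 5) (nat_lit 143) (nat_lit 5) (nat_lit 137) (nat_lit 5) (nat_lit 471) (nat_lit 386) (nat_lit 283))))) (XT.nd (nat_lit 234) (nat_lit 760) (nat_lit 0) (XT.nd (nat_lit 78) (nat_lit 380) (nat_lit 0) (XT.lf (nat_lit 0) (nat_lit 3431105582) (nat_lit 532) (nat_lit 5105561004) (nat_lit 76) (nat_lit 4615330991) (nat_lit 136) (nat_lit 5) (nat_lit 143) (nat_lit 5) (nat_lit 137) (nat_lit 5) (nat_lit 472) (nat_lit 386) (nat_lit 282)) (XT.nd (nat_lit 78) (nat_lit 0) (nat_lit 0) (XT.lf (nat_lit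 0) (nat_lit 1892105407) (nat_lit 380) (nat_lit 4429929875) (nat_lit 456) (nat_lit 6995365041) (nat_lit 131) (nat_lit 5) (nat_lit 136) (nat_lit 5) (nat_lit 137) (nat_lit 5) (nat_lit 473) (nat_lit 386) (nat_lit 281)) (XT.lf (nat_lit 0) (nat_lit 9070972674) (nat_lit 380) (nat_lit 214743308) (nat_lit 456) (nat_lit 4200106124) (nat_lit 131) (nat_lit 5) (nat_lit 136) (nat_lit 5) (nat_lit 137) (nat_lit 5) (nat_lit 474) (nat_lit 386) (nat_lit 280)))) (XT.nd (nat_lit 156) (nat_lit 304) (nat_lit 0) (XT.nd (nat_lit 78) (nat_lit 76) (nat_lit 0) (XT.lf (nat_lit 0) (nat_lit 2717175358) (nat_lit 380) (nat_lit 9616652984) (nat_lit 456) (nat_lit 1323290262) (nat_lit 126) (nat_lit 5) (nat_lit 131) (nat_lit 5) (nat_lit 132) (nat_lit 5) (nat_lit 475) (nat_lit 386) (nat_lit 279)) (XT.lf (nat_lit 0) (nat_lit 1602232283) (nat_lit 456) (nat_lit 3819465110) (nat_lit 76) (nat_lit 8409697517) (nat_lit 125) (nat_lit 5) (nat_lit 131) (nat_lit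 5) (nat_lit 126) (nat_lit 5) (nat_lit 476) (nat_lit 386) (nat_lit 278))) (XT.nd (nat_lit 78) (nat_lit 0) (nat_lit 0) (XT.lf (nat_lit 0) (nat_lit 3452663672) (nat_lit 304) (nat_lit 1119743190) (nat_lit 380) (nat_lit 9436506629) (nat_lit 121) (nat_lit 5) (nat_lit 125) (nat_lit 5) (nat_lit 126) (nat_lit 5) (nat_lit 477) (nat_lit 386) (nat_lit 277)) (XT.lf (nat_lit 0) (nat_lit 7630563499) (nat_lit 380) (nat_lit 3316268432) (nat_lit 76) (nat_lit 3242587663) (nat_lit 121) (nat_lit 5) (nat_lit 126) (nat_lit 5) (nat_lit 122) (nat_lit 5) (nat_lit 478) (nat_lit 386) (nat_lit 276)))))) (XT.nd (nat_lit 546) (nat_lit 1064) (nat_lit 0) (XT.nd (nat_lit 234) (nat_lit 684) (nat_lit 0) (XT.nd (nat_lit 78) (nat_lit 380) (nat_lit 0) (XT.lf (nat_lit 0) (nat_lit 4087829191) (nat_lit 380) (nat_lit 6677930648) (nat_lit 456) (nat_lit 3607466999) (nat_lit 116) (nat_lit 5) (nat_lit 121) (nat_lit 5) (nat_lit 122) (nat_lit 5) (nat_lit 479)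 (nat_lit 386) (nat_lit 275)) (XT.nd (nat_lit 78) (nat_lit 380) (nat_lit 0) (XT.lf (nat_lit 0) (nat_lit 11658258016) (nat_lit 380) (nat_lit 2309757282) (nat_lit 456) (nat_lit 592616210) (nat_lit 116) (nat_lit 5) (nat_lit 121) (nat_lit 5) (nat_lit 122) (nat_lit 5) (nat_lit 480) (nat_lit 386) (nat_lit 274)) (XT.lf (nat_lit 0) (nat_lit 2476651752) (nat_lit 380) (nat_lit 10118689145) (nat_lit 76) (nat_lit 2155595486) (nat_lit 111) (nat_lit 5) (nat_lit 116) (nat_lit 5) (nat_lit 112) (nat_lit 5) (nat_lit 481) (nat_lit 386) (nat_lit 273)))) (XT.nd (nat_lit 156) (nat_lit 304) (nat_lit 0) (XT.nd (nat_lit 78) (nat_lit 380) (nat_lit 0) (XT.lf (nat_lit 0) (nat_lit 5616726376) (nat_lit 380) (nat_lit 2633655111) (nat_lit 76) (nat_lit 6694248297) (nat_lit 111) (nat_lit 5) (nat_lit 116) (nat_lit 5) (nat_lit 112) (nat_lit 5) (nat_lit 482) (nat_lit 386) (nat_lit 272)) (XT.lf (nat_lit 0) (nat_lit 5041165883) (nat_lit 380) (nat_lit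 3793958545) (nat_lit 456) (nat_lit 6306769930) (nat_lit 106) (nat_lit 5) (nat_lit 111) (nat_lit 5) (nat_lit 112) (nat_lit 5) (nat_lit 483) (nat_lit 386) (nat_lit 271))) (XT.nd (nat_lit 78) (nat_lit 304) (nat_lit 0) (XT.lf (nat_lit 0) (nat_lit 12123464156) (nat_lit 456) (nat_lit 2468713839) (nat_lit 76) (nat_lit 750822348) (nat_lit 106) (nat_lit 5) (nat_lit 112) (nat_lit 5) (nat_lit 107) (nat_lit 5) (nat_lit 484) (nat_lit 386) (nat_lit 270)) (XT.lf (nat_lit 0) (nat_lit 5335150341) (nat_lit 304) (nat_lit 10185424068) (nat_lit 380) (nat_lit 26701408) (nat_lit 102) (nat_lit 5) (nat_lit 106) (nat_lit 5) (nat_lit 107) (nat_lit 5) (nat_lit 485) (nat_lit 386) (nat_lit 269))))) (XT.nd (nat_lit 234) (nat_lit 684) (nat_lit 0) (XT.nd (nat_lit 78) (nat_lit 304) (nat_lit 0) (XT.lf (nat_lit 0) (nat_lit 3187589262) (nat_lit 380) (nat_lit 2473527829) (nat_lit 76) (nat_lit 10094108217) (nat_lit 101) (nat_lit 5) (nat_lit 106) (nat_lit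 5) (nat_lit 102) (nat_lit 5) (nat_lit 486) (nat_lit 386) (nat_lit 268)) (XT.nd (nat_lit 78) (nat_lit 0) (nat_lit 0) (XT.lf (nat_lit 0) (nat_lit 5466161217) (nat_lit 304) (nat_lit 1018750038) (nat_lit 380) (nat_lit 9482043959) (nat_lit 97) (nat_lit 5) (nat_lit 101) (nat_lit 5) (nat_lit 102) (nat_lit 5) (nat_lit 487) (nat_lit 386) (nat_lit 267)) (XT.lf (nat_lit 0) (nat_lit 9872732491) (nat_lit 380) (nat_lit 2633956035) (nat_lit 76) (nat_lit 3675747013) (nat_lit 97) (nat_lit 5) (nat_lit 102) (nat_lit 5) (nat_lit 98) (nat_lit 5) (nat_lit 488) (nat_lit 386) (nat_lit 266)))) (XT.nd (nat_lit 156) (nat_lit 304) (nat_lit 0) (XT.nd (nat_lit 78) (nat_lit 76) (nat_lit 0) (XT.lf (nat_lit 0) (nat_lit 5429879988) (nat_lit 304) (nat_lit 7924465012) (nat_lit 380) (nat_lit 3047366515) (nat_lit 93) (nat_lit 5) (nat_lit 97) (nat_lit 5) (nat_lit 98) (nat_lit 5) (nat_lit 489) (nat_lit 386) (nat_lit 265)) (XT.lf (nat_lit 0) (nat_lit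 278409538) (nat_lit 380) (nat_lit 2961119988) (nat_lit 76) (nat_lit 13385776222) (nat_lit 92) (nat_lit 5) (nat_lit 97) (nat_lit 5) (nat_lit 93) (nat_lit 5) (nat_lit 490) (nat_lit 386) (nat_lit 264))) (XT.nd (nat_lit 78) (nat_lit 0) (nat_lit 0) (XT.lf (nat_lit 0) (nat_lit 3658599476) (nat_lit 380) (nat_lit 11629007190) (nat_lit 76) (nat_lit 1564794638) (nat_lit 88) (nat_lit 5) (nat_lit 93) (nat_lit 5) (nat_lit 89) (nat_lit 5) (nat_lit 491) (nat_lit 386) (nat_lit 263)) (XT.lf (nat_lit 0) (nat_lit 7132329265) (nat_lit 380) (nat_lit 3517961170) (nat_lit 76) (nat_lit 6433235845) (nat_lit 88) (nat_lit 5) (nat_lit 93) (nat_lit 5) (nat_lit 89) (nat_lit 5) (nat_lit 492) (nat_lit 386) (nat_lit 262))))))))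
noncomputable def xc119 : XT := (XT.nd (nat_lit 2184) (nat_lit 456) (nat_lit 0) (XT.nd (nat_lit 1092) (nat_lit 1368) (nat_lit 0) (XT.nd (nat_lit 546) (nat_lit 836) (nat_lit 0) (XT.nd (nat_lit 234) (nat_lit 532) (nat_lit 0) (XT.nd (nat_lit 78) (nat_lit 380) (nat_lit 0) (XT.lf (nat_lit 0) (nat_lit 4794190637) (nat_lit 228) (nat_lit 5897254339) (nat_lit 304) (nat_lit 6627516659) (nat_lit 85) (nat_lit 5) (nat_lit 88) (nat_lit 5) (nat_lit 89) (nat_lit 5) (nat_lit 493) (nat_lit 386) (nat_lit 261)) (XT.nd (nat_lit 78) (nat_lit 380) (nat_lit 0) (XT.lf (nat_lit 0) (nat_lit 13296438408) (nat_lit 228) (nat_lit 1033839828) (nat_lit 304) (nat_lit 3228662744) (nat_lit 85) (nat_lit 5) (nat_lit 88) (nat_lit 5) (nat_lit 89) (nat_lit 5) (nat_lit 494) (nat_lit 386) (nat_lit 260)) (XT.lf (nat_lit 0) (nat_lit 273030383) (nat_lit 380) (nat_lit 13634165724) (nat_lit 76) (nat_lit 3895738917) (nat_lit 80) (nat_lit 5) (nat_lit 85) (nat_lit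 5) (nat_lit 81) (nat_lit 5) (nat_lit 495) (nat_lit 386) (nat_lit 259)))) (XT.nd (nat_lit 156) (nat_lit 304) (nat_lit 0) (XT.nd (nat_lit 78) (nat_lit 228) (nat_lit 0) (XT.lf (nat_lit 0) (nat_lit 3822408844) (nat_lit 380) (nat_lit 5276868042) (nat_lit 76) (nat_lit 8951693211) (nat_lit 80) (nat_lit 5) (nat_lit 85) (nat_lit 5) (nat_lit 81) (nat_lit 5) (nat_lit 496) (nat_lit 386) (nat_lit 258)) (XT.lf (nat_lit 0) (nat_lit 3267230614) (nat_lit 228) (nat_lit 4182250588) (nat_lit 304) (nat_lit 10854356073) (nat_lit 77) (nat_lit 5) (nat_lit 80) (nat_lit 5) (nat_lit 81) (nat_lit 5) (nat_lit 497) (nat_lit 386) (nat_lit 257))) (XT.nd (nat_lit 78) (nat_lit 304) (nat_lit 0) (XT.lf (nat_lit 0) (nat_lit 11175721061) (nat_lit 304) (nat_lit 6536235914) (nat_lit 76) (nat_lit 849277723) (nat_lit 77) (nat_lit 5) (nat_lit 81) (nat_lit 5) (nat_lit 78) (nat_lit 5) (nat_lit 498) (nat_lit 386) (nat_lit 256)) (XT.lf (nat_lit 0) (nat_lit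 2111312667) (nat_lit 304) (nat_lit 12892432860) (nat_lit 380) (nat_lit 3819494663) (nat_lit 73) (nat_lit 5) (nat_lit 77) (nat_lit 5) (nat_lit 78) (nat_lit 5) (nat_lit 499) (nat_lit 386) (nat_lit 255))))) (XT.nd (nat_lit 234) (nat_lit 532) (nat_lit 0) (XT.nd (nat_lit 78) (nat_lit 304) (nat_lit 0) (XT.lf (nat_lit 0) (nat_lit 10997739968) (nat_lit 304) (nat_lit 7940436997) (nat_lit 380) (nat_lit 151717110) (nat_lit 73) (nat_lit 5) (nat_lit 77) (nat_lit 5) (nat_lit 78) (nat_lit 5) (nat_lit 500) (nat_lit 386) (nat_lit 254)) (XT.nd (nat_lit 78) (nat_lit 0) (nat_lit 0) (XT.lf (nat_lit 0) (nat_lit 662988138) (nat_lit 228) (nat_lit 2869820242) (nat_lit 304) (nat_lit 15828802205) (nat_lit 69) (nat_lit 5) (nat_lit 72) (nat_lit 5) (nat_lit 73) (nat_lit 5) (nat_lit 501) (nat_lit 386) (nat_lit 253)) (XT.lf (nat_lit 0) (nat_lit 7344839290) (nat_lit 304) (nat_lit 9973555725) (nat_lit 76) (nat_lit 2319234337) (nat_lit 69) (nat_lit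 5) (nat_lit 73) (nat_lit 5) (nat_lit 70) (nat_lit 5) (nat_lit 502) (nat_lit 386) (nat_lit 252)))) (XT.nd (nat_lit 156) (nat_lit 304) (nat_lit 0) (XT.nd (nat_lit 78) (nat_lit 228) (nat_lit 0) (XT.lf (nat_lit 0) (nat_lit 11238620957) (nat_lit 304) (nat_lit 1115045085) (nat_lit 76) (nat_lit 7565397064) (nat_lit 69) (nat_lit 5) (nat_lit 73) (nat_lit 5) (nat_lit 70) (nat_lit 5) (nat_lit 503) (nat_lit 386) (nat_lit 251)) (XT.lf (nat_lit 0) (nat_lit 8003989942) (nat_lit 228) (nat_lit 7245024847) (nat_lit 304) (nat_lit 4956340737) (nat_lit 66) (nat_lit 5) (nat_lit 69) (nat_lit 5) (nat_lit 70) (nat_lit 5) (nat_lit 504) (nat_lit 386) (nat_lit 250))) (XT.nd (nat_lit 78) (nat_lit 304) (nat_lit 0) (XT.lf (nat_lit 0) (nat_lit 17299043041) (nat_lit 228) (nat_lit 2034945297) (nat_lit 304) (nat_lit 1163502647) (nat_lit 66) (nat_lit 5) (nat_lit 69) (nat_lit 5) (nat_lit 70) (nat_lit 5) (nat_lit 505) (nat_lit 386) (nat_lit 249))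 (XT.lf (nat_lit 0) (nat_lit 2717499718) (nat_lit 304) (nat_lit 14791464930) (nat_lit 76) (nat_lit 3285201944) (nat_lit 62) (nat_lit 5) (nat_lit 66) (nat_lit 5) (nat_lit 63) (nat_lit 5) (nat_lit 506) (nat_lit 386) (nat_lit 248)))))) (XT.nd (nat_lit 546) (nat_lit 608) (nat_lit 0) (XT.nd (nat_lit 234) (nat_lit 532) (nat_lit 0) (XT.nd (nat_lit 78) (nat_lit 228) (nat_lit 0) (XT.lf (nat_lit 0) (nat_lit 6682759202) (nat_lit 304) (nat_lit 5707740515) (nat_lit 76) (nat_lit 8705682213) (nat_lit 62) (nat_lit 5) (nat_lit 66) (nat_lit 5) (nat_lit 63) (nat_lit 5) (nat_lit 507) (nat_lit 386) (nat_lit 247)) (XT.nd (nat_lit 78) (nat_lit 0) (nat_lit 0) (XT.lf (nat_lit 0) (nat_lit 3583777709) (nat_lit 228) (nat_lit 7154186916) (nat_lit 304) (nat_lit 10666064410) (nat_lit 59) (nat_lit 5) (nat_lit 62) (nat_lit 5) (nat_lit 63) (nat_lit 5) (nat_lit 508) (nat_lit 386) (nat_lit 246)) (XT.lf (nat_lit 0) (nat_lit 13117751041) (nat_lit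 228) (nat_lit 1782310455) (nat_lit 304) (nat_lit 6817460032) (nat_lit 59) (nat_lit 5) (nat_lit 62) (nat_lit 5) (nat_lit 63) (nat_lit 5) (nat_lit 509) (nat_lit 386) (nat_lit 245)))) (XT.nd (nat_lit 156) (nat_lit 228) (nat_lit 0) (XT.nd (nat_lit 78) (nat_lit 76) (nat_lit 0) (XT.lf (nat_lit 0) (nat_lit 770688773) (nat_lit 228) (nat_lit 18391397142) (nat_lit 304) (nat_lit 2874868352) (nat_lit 56) (nat_lit 5) (nat_lit 59) (nat_lit 5) (nat_lit 60) (nat_lit 5) (nat_lit 510) (nat_lit 386) (nat_lit 244)) (XT.lf (nat_lit 0) (nat_lit 1189134848) (nat_lit 304) (nat_lit 11956689787) (nat_lit 76) (nat_lit 9215654145) (nat_lit 55) (nat_lit 5) (nat_lit 59) (nat_lit 5) (nat_lit 56) (nat_lit 5) (nat_lit 511) (nat_lit 386) (nat_lit 243))) (XT.nd (nat_lit 78) (nat_lit 228) (nat_lit 0) (XT.lf (nat_lit 0) (nat_lit 5283903417) (nat_lit 304) (nat_lit 2500125930) (nat_lit 76) (nat_lit 14908328658) (nat_lit 55) (nat_lit 5) (nat_lit 59)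 (nat_lit 5) (nat_lit 56) (nat_lit 5) (nat_lit 512) (nat_lit 386) (nat_lit 242)) (XT.lf (nat_lit 0) (nat_lit 7220498219) (nat_lit 228) (nat_lit 2275129605) (nat_lit 304) (nat_lit 13533529576) (nat_lit 52) (nat_lit 5) (nat_lit 55) (nat_lit 5) (nat_lit 56) (nat_lit 5) (nat_lit 513) (nat_lit 386) (nat_lit 241))))) (XT.nd (nat_lit 234) (nat_lit 456) (nat_lit 0) (XT.nd (nat_lit 78) (nat_lit 152) (nat_lit 0) (XT.lf (nat_lit 0) (nat_lit 13818419125) (nat_lit 304) (nat_lit 6244580406) (nat_lit 76) (nat_lit 3309160325) (nat_lit 52) (nat_lit 5) (nat_lit 56) (nat_lit 5) (nat_lit 53) (nat_lit 5) (nat_lit 514) (nat_lit 386) (nat_lit 240)) (XT.nd (nat_lit 78) (nat_lit 0) (nat_lit 0) (XT.lf (nat_lit 0) (nat_lit 3522473829) (nat_lit 152) (nat_lit 14731593478) (nat_lit 228) (nat_lit 5467430685) (nat_lit 50) (nat_lit 5) (nat_lit 52) (nat_lit 5) (nat_lit 53) (nat_lit 5) (nat_lit 515) (nat_lit 386) (nat_lit 239)) (XT.lf (nat_lit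 0) (nat_lit 13550207046) (nat_lit 152) (nat_lit 9258690395) (nat_lit 228) (nat_lit 1268319645) (nat_lit 50) (nat_lit 5) (nat_lit 52) (nat_lit 5) (nat_lit 53) (nat_lit 5) (nat_lit 516) (nat_lit 386) (nat_lit 238)))) (XT.nd (nat_lit 156) (nat_lit 152) (nat_lit 0) (XT.nd (nat_lit 78) (nat_lit 228) (nat_lit 0) (XT.lf (nat_lit 0) (nat_lit 2963945401) (nat_lit 228) (nat_lit 700213434) (nat_lit 76) (nat_lit 20775729468) (nat_lit 49) (nat_lit 5) (nat_lit 52) (nat_lit 5) (nat_lit 50) (nat_lit 5) (nat_lit 517) (nat_lit 386) (nat_lit 237)) (XT.lf (nat_lit 0) (nat_lit 7327649976) (nat_lit 304) (nat_lit 15402768251) (nat_lit 76) (nat_lit 2077954874) (nat_lit 46) (nat_lit 5) (nat_lit 50) (nat_lit 5) (nat_lit 47) (nat_lit 5) (nat_lit 518) (nat_lit 386) (nat_lit 236))) (XT.nd (nat_lit 78) (nat_lit 152) (nat_lit 0) (XT.lf (nat_lit 0) (nat_lit 11796603840) (nat_lit 304) (nat_lit 5504159502) (nat_lit 76) (nat_lit 7883108056) (nat_lit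 46) (nat_lit 5) (nat_lit 50) (nat_lit 5) (nat_lit 47) (nat_lit 5) (nat_lit 519) (nat_lit 386) (nat_lit 235)) (XT.lf (nat_lit 0) (nat_lit 4634815814) (nat_lit 152) (nat_lit 11739408683) (nat_lit 228) (nat_lit 9192272649) (nat_lit 44) (nat_lit 5) (nat_lit 46) (nat_lit 5) (nat_lit 47) (nat_lit 5) (nat_lit 520) (nat_lit 386) (nat_lit 234))))))) (XT.nd (nat_lit 49452) (nat_lit 0) (nat_lit 38152) (XT.nd (nat_lit 48906) (nat_lit 0) (nat_lit 43092) (XT.nd (nat_lit 234) (nat_lit 152) (nat_lit 0) (XT.nd (nat_lit 78) (nat_lit 304) (nat_lit 0) (XT.lf (nat_lit 0) (nat_lit 15032909921) (nat_lit 152) (nat_lit 6036712100) (nat_lit 228) (nat_lit 4886632078) (nat_lit 44) (nat_lit 5) (nat_lit 46) (nat_lit 5) (nat_lit 47) (nat_lit 5) (nat_lit 521) (nat_lit 386) (nat_lit 233)) (XT.nd (nat_lit 78) (nat_lit 304) (nat_lit 0) (XT.lf (nat_lit 0) (nat_lit 25621053116) (nat_lit 152) (nat_lit 227373049) (nat_lit 228) (nat_lit 505593165)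 (nat_lit 44) (nat_lit 5) (nat_lit 46) (nat_lit 5) (nat_lit 47) (nat_lit 5) (nat_lit 522) (nat_lit 386) (nat_lit 232)) (XT.lf (nat_lit 0) (nat_lit 4001536490) (nat_lit 304) (nat_lit 17050106635) (nat_lit 76) (nat_lit 5705776192) (nat_lit 40) (nat_lit 5) (nat_lit 44) (nat_lit 5) (nat_lit 41) (nat_lit 5) (nat_lit 523) (nat_lit 386) (nat_lit 231)))) (XT.nd (nat_lit 156) (nat_lit 0) (nat_lit 0) (XT.nd (nat_lit 78) (nat_lit 152) (nat_lit 0) (XT.lf (nat_lit 0) (nat_lit 8588177142) (nat_lit 304) (nat_lit 6825089772) (nat_lit 76) (nat_lit 11755633720) (nat_lit 40) (nat_lit 5) (nat_lit 44) (nat_lit 5) (nat_lit 41) (nat_lit 5) (nat_lit 524) (nat_lit 386) (nat_lit 230)) (XT.lf (nat_lit 0) (nat_lit 3634698232) (nat_lit 152) (nat_lit 9645328718) (nat_lit 228) (nat_lit 14308317977) (nat_lit 38) (nat_lit 5) (nat_lit 40) (nat_lit 5) (nat_lit 41) (nat_lit 5) (nat_lit 525) (nat_lit 386) (nat_lit 229))) (XT.nd (nat_lit 78) (nat_lit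 0) (nat_lit 0) (XT.lf (nat_lit 0) (nat_lit 14378913436) (nat_lit 152) (nat_lit 3722563995) (nat_lit 228) (nat_lit 9913988223) (nat_lit 38) (nat_lit 5) (nat_lit 40) (nat_lit 5) (nat_lit 41) (nat_lit 5) (nat_lit 526) (nat_lit 386) (nat_lit 228)) (XT.lf (nat_lit 0) (nat_lit 23024525559) (nat_lit 228) (nat_lit 3145269062) (nat_lit 76) (nat_lit 2281233568) (nat_lit 38) (nat_lit 5) (nat_lit 41) (nat_lit 5) (nat_lit 39) (nat_lit 5) (nat_lit 527) (nat_lit 386) (nat_lit 227))))) (XT.nd (nat_lit 234) (nat_lit 608) (nat_lit 0) (XT.nd (nat_lit 78) (nat_lit 532) (nat_lit 0) (XT.lf (nat_lit 0) (nat_lit 2772692499) (nat_lit 532) (nat_lit 248305810) (nat_lit 532) (nat_lit 248305810) (nat_lit 620) (nat_lit 3) (nat_lit 627) (nat_lit 3) (nat_lit 627) (nat_lit 5) (nat_lit 387) (nat_lit 387) (nat_lit 366)) (XT.nd (nat_lit 78) (nat_lit 0) (nat_lit 0) (XT.lf (nat_lit 0) (nat_lit 1424055689) (nat_lit 532) (nat_lit 3989797481) (nat_lit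 608) (nat_lit 1138995086) (nat_lit 613) (nat_lit 5) (nat_lit 620) (nat_lit 3) (nat_lit 621) (nat_lit 5) (nat_lit 388) (nat_lit 387) (nat_lit 365)) (XT.lf (nat_lit 0) (nat_lit 3816656494) (nat_lit 532) (nat_lit 916466474) (nat_lit 608) (nat_lit 1835391855) (nat_lit 613) (nat_lit 5) (nat_lit 620) (nat_lit 3) (nat_lit 621) (nat_lit 5) (nat_lit 389) (nat_lit 387) (nat_lit 364)))) (XT.nd (nat_lit 156) (nat_lit 0) (nat_lit 0) (XT.nd (nat_lit 78) (nat_lit 608) (nat_lit 0) (XT.lf (nat_lit 76) (nat_lit 2214831551) (nat_lit 0) (nat_lit 3994803535) (nat_lit 608) (nat_lit 375886146) (nat_lit 614) (nat_lit 5) (nat_lit 613) (nat_lit 5) (nat_lit 621) (nat_lit 5) (nat_lit 390) (nat_lit 387) (nat_lit 363)) (XT.lf (nat_lit 0) (nat_lit 1965612469) (nat_lit 608) (nat_lit 1228123881) (nat_lit 684) (nat_lit 3410042331) (nat_lit 605) (nat_lit 5) (nat_lit 613) (nat_lit 5) (nat_lit 614) (nat_lit 5) (nat_lit 391) (nat_lit 387) (nat_lit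 362))) (XT.nd (nat_lit 78) (nat_lit 0) (nat_lit 0) (XT.lf (nat_lit 76) (nat_lit 1968044144) (nat_lit 0) (nat_lit 2333519882) (nat_lit 684) (nat_lit 2321807024) (nat_lit 606) (nat_lit 5) (nat_lit 605) (nat_lit 5) (nat_lit 614) (nat_lit 5) (nat_lit 392) (nat_lit 387) (nat_lit 361)) (XT.lf (nat_lit 76) (nat_lit 5212426325) (nat_lit 0) (nat_lit 1420892047) (nat_lit 684) (nat_lit 11126377) (nat_lit 606) (nat_lit 5) (nat_lit 605) (nat_lit 5) (nat_lit 614) (nat_lit 5) (nat_lit 393) (nat_lit 387) (nat_lit 360)))))) (XT.nd (nat_lit 546) (nat_lit 2736) (nat_lit 0) (XT.nd (nat_lit 234) (nat_lit 836) (nat_lit 0) (XT.nd (nat_lit 78) (nat_lit 684) (nat_lit 0) (XT.lf (nat_lit 76) (nat_lit 1831985285) (nat_lit 0) (nat_lit 436461305) (nat_lit 760) (nat_lit 4398188246) (nat_lit 597) (nat_lit 5) (nat_lit 596) (nat_lit 5) (nat_lit 606) (nat_lit 5) (nat_lit 394) (nat_lit 387) (nat_lit 359)) (XT.nd (nat_lit 78) (nat_lit 760) (nat_lit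 0) (XT.lf (nat_lit 0) (nat_lit 4549469834) (nat_lit 684) (nat_lit 1545952940) (nat_lit 760) (nat_lit 594791378) (nat_lit 597) (nat_lit 5) (nat_lit 606) (nat_lit 5) (nat_lit 607) (nat_lit 5) (nat_lit 395) (nat_lit 387) (nat_lit 358)) (XT.lf (nat_lit 0) (nat_lit 117710301) (nat_lit 760) (nat_lit 4919827730) (nat_lit 836) (nat_lit 1677610770) (nat_lit 587) (nat_lit 5) (nat_lit 597) (nat_lit 5) (nat_lit 598) (nat_lit 5) (nat_lit 396) (nat_lit 387) (nat_lit 357)))) (XT.nd (nat_lit 156) (nat_lit 836) (nat_lit 0) (XT.nd (nat_lit 78) (nat_lit 0) (nat_lit 0) (XT.lf (nat_lit 0) (nat_lit 2347371535) (nat_lit 760) (nat_lit 1563903319) (nat_lit 836) (nat_lit 2829993430) (nat_lit 587) (nat_lit 5) (nat_lit 597) (nat_lit 5) (nat_lit 598) (nat_lit 5) (nat_lit 397) (nat_lit 387) (nat_lit 356)) (XT.lf (nat_lit 76) (nat_lit 1850408804) (nat_lit 0) (nat_lit 2728557181) (nat_lit 836) (nat_lit 2189859319) (nat_lit 588) (nat_lit 5)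 (nat_lit 587) (nat_lit 5) (nat_lit 598) (nat_lit 5) (nat_lit 398) (nat_lit 387) (nat_lit 355))) (XT.nd (nat_lit 78) (nat_lit 0) (nat_lit 0) (XT.lf (nat_lit 0) (nat_lit 13827681) (nat_lit 836) (nat_lit 1476527405) (nat_lit 912) (nat_lit 5307503698) (nat_lit 576) (nat_lit 5) (nat_lit 587) (nat_lit 5) (nat_lit 588) (nat_lit 5) (nat_lit 399) (nat_lit 387) (nat_lit 354)) (XT.lf (nat_lit 76) (nat_lit 2013196239) (nat_lit 0) (nat_lit 179000520) (nat_lit 912) (nat_lit 4635846442) (nat_lit 577) (nat_lit 5) (nat_lit 576) (nat_lit 5) (nat_lit 588) (nat_lit 5) (nat_lit 400) (nat_lit 387) (nat_lit 353))))) (XT.nd (nat_lit 312) (nat_lit 1900) (nat_lit 0) (XT.nd (nat_lit 156) (nat_lit 912) (nat_lit 0) (XT.nd (nat_lit 78) (nat_lit 0) (nat_lit 0) (XT.lf (nat_lit 0) (nat_lit 4379419385) (nat_lit 836) (nat_lit 1307411329) (nat_lit 912) (nat_lit 1172752100) (nat_lit 577) (nat_lit 5) (nat_lit 588) (nat_lit 5) (nat_lit 589) (nat_lit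 5) (nat_lit 401) (nat_lit 387) (nat_lit 352)) (XT.lf (nat_lit 76) (nat_lit 2265445018) (nat_lit 0) (nat_lit 4309649370) (nat_lit 912) (nat_lit 317420780) (nat_lit 578) (nat_lit 5) (nat_lit 577) (nat_lit 5) (nat_lit 589) (nat_lit 5) (nat_lit 402) (nat_lit 387) (nat_lit 351))) (XT.nd (nat_lit 78) (nat_lit 0) (nat_lit 0) (XT.lf (nat_lit 0) (nat_lit 1821854059) (nat_lit 912) (nat_lit 1044534243) (nat_lit 988) (nat_lit 4060365633) (nat_lit 565) (nat_lit 5) (nat_lit 577) (nat_lit 5) (nat_lit 578) (nat_lit 5) (nat_lit 403) (nat_lit 387) (nat_lit 350)) (XT.lf (nat_lit 76) (nat_lit 2608661018) (nat_lit 0) (nat_lit 1358154872) (nat_lit 988) (nat_lit 2995529461) (nat_lit 566) (nat_lit 5) (nat_lit 565) (nat_lit 5) (nat_lit 578) (nat_lit 5) (nat_lit 404) (nat_lit 387) (nat_lit 349)))) (XT.nd (nat_lit 156) (nat_lit 988) (nat_lit 0) (XT.nd (nat_lit 78) (nat_lit 988) (nat_lit 0) (XT.lf (nat_lit 0) (nat_lit 6113981200) (nat_lit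 912) (nat_lit 684667659) (nat_lit 76) (nat_lit 200865490) (nat_lit 566) (nat_lit 5) (nat_lit 578) (nat_lit 5) (nat_lit 567) (nat_lit 5) (nat_lit 405) (nat_lit 387) (nat_lit 348)) (XT.lf (nat_lit 0) (nat_lit 1230743602) (nat_lit 988) (nat_lit 3990503982) (nat_lit 76) (nat_lit 1816450622) (nat_lit 553) (nat_lit 5) (nat_lit 566) (nat_lit 5) (nat_lit 554) (nat_lit 5) (nat_lit 406) (nat_lit 387) (nat_lit 347))) (XT.nd (nat_lit 78) (nat_lit 988) (nat_lit 0) (XT.lf (nat_lit 0) (nat_lit 3334525339) (nat_lit 988) (nat_lit 253291119) (nat_lit 76) (nat_lit 3489620329) (nat_lit 553) (nat_lit 5) (nat_lit 566) (nat_lit 5) (nat_lit 554) (nat_lit 5) (nat_lit 407) (nat_lit 387) (nat_lit 346)) (XT.lf (nat_lit 0) (nat_lit 3572364699) (nat_lit 988) (nat_lit 1884546238) (nat_lit 1064) (nat_lit 1661576526) (nat_lit 540) (nat_lit 5) (nat_lit 553) (nat_lit 5) (nat_lit 554) (nat_lit 5) (nat_lit 408) (nat_lit 387) (nat_lit 345))))))))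
noncomputable def xc120 : XT := (XT.nd (nat_lit 2184) (nat_lit 9272) (nat_lit 0) (XT.nd (nat_lit 1092) (nat_lit 8132) (nat_lit 0) (XT.nd (nat_lit 546) (nat_lit 6080) (nat_lit 0) (XT.nd (nat_lit 234) (nat_lit 2584) (nat_lit 0) (XT.nd (nat_lit 78) (nat_lit 1140) (nat_lit 0) (XT.lf (nat_lit 0) (nat_lit 284772947) (nat_lit 1064) (nat_lit 127805415) (nat_lit 1140) (nat_lit 6748622018) (nat_lit 525) (nat_lit 5) (nat_lit 539) (nat_lit 5) (nat_lit 540) (nat_lit 5) (nat_lit 409) (nat_lit 387) (nat_lit 344)) (XT.nd (nat_lit 78) (nat_lit 1140) (nat_lit 0) (XT.lf (nat_lit 0) (nat_lit 2495202308) (nat_lit 1140) (nat_lit 3020315114) (nat_lit 76) (nat_lit 1689290910) (nat_lit 525) (nat_lit 5) (nat_lit 540) (nat_lit 5) (nat_lit 526) (nat_lit 5) (nat_lit 410) (nat_lit 387) (nat_lit 343)) (XT.lf (nat_lit 0) (nat_lit 890007402) (nat_lit 1140) (nat_lit 3691444752) (nat_lit 1216) (nat_lit 2668641063) (nat_lit 510) (nat_lit 5) (nat_lit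 525) (nat_lit 5) (nat_lit 526) (nat_lit 5) (nat_lit 411) (nat_lit 387) (nat_lit 342)))) (XT.nd (nat_lit 156) (nat_lit 1292) (nat_lit 0) (XT.nd (nat_lit 78) (nat_lit 1292) (nat_lit 0) (XT.lf (nat_lit 0) (nat_lit 4885961235) (nat_lit 1140) (nat_lit 1799740086) (nat_lit 1216) (nat_lit 611100365) (nat_lit 510) (nat_lit 5) (nat_lit 525) (nat_lit 5) (nat_lit 526) (nat_lit 5) (nat_lit 412) (nat_lit 387) (nat_lit 341)) (XT.lf (nat_lit 0) (nat_lit 1436019575) (nat_lit 1292) (nat_lit 5750820934) (nat_lit 76) (nat_lit 158093568) (nat_lit 493) (nat_lit 5) (nat_lit 510) (nat_lit 5) (nat_lit 494) (nat_lit 5) (nat_lit 413) (nat_lit 387) (nat_lit 340))) (XT.nd (nat_lit 78) (nat_lit 1292) (nat_lit 0) (XT.lf (nat_lit 0) (nat_lit 3501350616) (nat_lit 1292) (nat_lit 1732150652) (nat_lit 76) (nat_lit 2160778906) (nat_lit 493) (nat_lit 5) (nat_lit 510) (nat_lit 5) (nat_lit 494) (nat_lit 5) (nat_lit 414) (nat_lit 387) (nat_lit 339))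 (XT.lf (nat_lit 0) (nat_lit 2364355398) (nat_lit 1292) (nat_lit 3217062010) (nat_lit 1368) (nat_lit 1863767274) (nat_lit 476) (nat_lit 5) (nat_lit 493) (nat_lit 5) (nat_lit 494) (nat_lit 5) (nat_lit 415) (nat_lit 387) (nat_lit 338))))) (XT.nd (nat_lit 234) (nat_lit 4636) (nat_lit 0) (XT.nd (nat_lit 78) (nat_lit 1368) (nat_lit 0) (XT.lf (nat_lit 0) (nat_lit 173348837) (nat_lit 1368) (nat_lit 965935423) (nat_lit 76) (nat_lit 6358433348) (nat_lit 475) (nat_lit 5) (nat_lit 493) (nat_lit 5) (nat_lit 476) (nat_lit 5) (nat_lit 416) (nat_lit 387) (nat_lit 337)) (XT.nd (nat_lit 78) (nat_lit 0) (nat_lit 0) (XT.lf (nat_lit 0) (nat_lit 2213053449) (nat_lit 1444) (nat_lit 4330125250) (nat_lit 76) (nat_lit 1008177822) (nat_lit 457) (nat_lit 5) (nat_lit 476) (nat_lit 5) (nat_lit 458) (nat_lit 5) (nat_lit 417) (nat_lit 387) (nat_lit 336)) (XT.lf (nat_lit 0) (nat_lit 4267442059) (nat_lit 1444) (nat_lit 142213672) (nat_lit 76)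 (nat_lit 3196971702) (nat_lit 457) (nat_lit 5) (nat_lit 476) (nat_lit 5) (nat_lit 458) (nat_lit 5) (nat_lit 418) (nat_lit 387) (nat_lit 335)))) (XT.nd (nat_lit 156) (nat_lit 1596) (nat_lit 0) (XT.nd (nat_lit 78) (nat_lit 1596) (nat_lit 0) (XT.lf (nat_lit 0) (nat_lit 4150635555) (nat_lit 1444) (nat_lit 2199839520) (nat_lit 1520) (nat_lit 1312813849) (nat_lit 438) (nat_lit 5) (nat_lit 457) (nat_lit 5) (nat_lit 458) (nat_lit 5) (nat_lit 419) (nat_lit 387) (nat_lit 334)) (XT.lf (nat_lit 0) (nat_lit 711566441) (nat_lit 1596) (nat_lit 6940177196) (nat_lit 76) (nat_lit 69929547) (nat_lit 417) (nat_lit 5) (nat_lit 438) (nat_lit 5) (nat_lit 418) (nat_lit 5) (nat_lit 420) (nat_lit 387) (nat_lit 333))) (XT.nd (nat_lit 78) (nat_lit 1596) (nat_lit 0) (XT.lf (nat_lit 0) (nat_lit 2758626371) (nat_lit 1596) (nat_lit 2629240600) (nat_lit 76) (nat_lit 2393223391) (nat_lit 417) (nat_lit 5) (nat_lit 438) (nat_lit 5) (nat_lit 418)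 (nat_lit 5) (nat_lit 421) (nat_lit 387) (nat_lit 332)) (XT.lf (nat_lit 0) (nat_lit 1757422987) (nat_lit 1596) (nat_lit 3062828446) (nat_lit 1672) (nat_lit 3022005502) (nat_lit 396) (nat_lit 5) (nat_lit 417) (nat_lit 5) (nat_lit 418) (nat_lit 5) (nat_lit 422) (nat_lit 387) (nat_lit 331)))))) (XT.nd (nat_lit 546) (nat_lit 3344) (nat_lit 0) (XT.nd (nat_lit 234) (nat_lit 3040) (nat_lit 0) (XT.nd (nat_lit 78) (nat_lit 1748) (nat_lit 0) (XT.lf (nat_lit 0) (nat_lit 6234139898) (nat_lit 1596) (nat_lit 669350838) (nat_lit 1672) (nat_lit 1001581341) (nat_lit 396) (nat_lit 5) (nat_lit 417) (nat_lit 5) (nat_lit 418) (nat_lit 5) (nat_lit 423) (nat_lit 387) (nat_lit 330)) (XT.nd (nat_lit 78) (nat_lit 0) (nat_lit 0) (XT.lf (nat_lit 0) (nat_lit 1038612737) (nat_lit 1748) (nat_lit 5152825791) (nat_lit 76) (nat_lit 1777733968) (nat_lit 373) (nat_lit 5) (nat_lit 396) (nat_lit 5) (nat_lit 374) (nat_lit 5) (nat_lit 424) (nat_lit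 387) (nat_lit 329)) (XT.lf (nat_lit 0) (nat_lit 3085656199) (nat_lit 1748) (nat_lit 663197178) (nat_lit 76) (nat_lit 4286010979) (nat_lit 373) (nat_lit 5) (nat_lit 396) (nat_lit 5) (nat_lit 374) (nat_lit 5) (nat_lit 425) (nat_lit 387) (nat_lit 328)))) (XT.nd (nat_lit 156) (nat_lit 912) (nat_lit 0) (XT.nd (nat_lit 78) (nat_lit 836) (nat_lit 0) (XT.lf (nat_lit 0) (nat_lit 3934743012) (nat_lit 1292) (nat_lit 1228880029) (nat_lit 1368) (nat_lit 2938477731) (nat_lit 356) (nat_lit 5) (nat_lit 373) (nat_lit 5) (nat_lit 374) (nat_lit 5) (nat_lit 426) (nat_lit 387) (nat_lit 327)) (XT.lf (nat_lit 0) (nat_lit 426276333) (nat_lit 836) (nat_lit 6837764147) (nat_lit 912) (nat_lit 907053386) (nat_lit 345) (nat_lit 5) (nat_lit 356) (nat_lit 5) (nat_lit 357) (nat_lit 5) (nat_lit 427) (nat_lit 387) (nat_lit 326))) (XT.nd (nat_lit 78) (nat_lit 836) (nat_lit 0) (XT.lf (nat_lit 0) (nat_lit 1151155613) (nat_lit 912) (nat_lit 3122406791)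 (nat_lit 76) (nat_lit 3967753048) (nat_lit 344) (nat_lit 5) (nat_lit 356) (nat_lit 5) (nat_lit 345) (nat_lit 5) (nat_lit 428) (nat_lit 387) (nat_lit 325)) (XT.lf (nat_lit 0) (nat_lit 1573866547) (nat_lit 836) (nat_lit 1640576839) (nat_lit 912) (nat_lit 5098885027) (nat_lit 333) (nat_lit 5) (nat_lit 344) (nat_lit 5) (nat_lit 345) (nat_lit 5) (nat_lit 429) (nat_lit 387) (nat_lit 324))))) (XT.nd (nat_lit 234) (nat_lit 2432) (nat_lit 0) (XT.nd (nat_lit 78) (nat_lit 912) (nat_lit 0) (XT.lf (nat_lit 0) (nat_lit 5313164404) (nat_lit 912) (nat_lit 2020604258) (nat_lit 76) (nat_lit 1053157127) (nat_lit 333) (nat_lit 5) (nat_lit 345) (nat_lit 5) (nat_lit 334) (nat_lit 5) (nat_lit 430) (nat_lit 387) (nat_lit 323)) (XT.nd (nat_lit 78) (nat_lit 76) (nat_lit 0) (XT.lf (nat_lit 0) (nat_lit 2785247674) (nat_lit 836) (nat_lit 4664512017) (nat_lit 912) (nat_lit 1012344391) (nat_lit 322) (nat_lit 5) (nat_lit 333) (nat_lit 5) (nat_lit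 334) (nat_lit 5) (nat_lit 431) (nat_lit 387) (nat_lit 322)) (XT.lf (nat_lit 0) (nat_lit 1056794775) (nat_lit 912) (nat_lit 864369285) (nat_lit 76) (nat_lit 6617890355) (nat_lit 321) (nat_lit 5) (nat_lit 333) (nat_lit 5) (nat_lit 322) (nat_lit 5) (nat_lit 432) (nat_lit 387) (nat_lit 321)))) (XT.nd (nat_lit 156) (nat_lit 836) (nat_lit 0) (XT.nd (nat_lit 78) (nat_lit 760) (nat_lit 0) (XT.lf (nat_lit 0) (nat_lit 3153821900) (nat_lit 912) (nat_lit 4565214330) (nat_lit 76) (nat_lit 898397894) (nat_lit 310) (nat_lit 5) (nat_lit 322) (nat_lit 5) (nat_lit 311) (nat_lit 5) (nat_lit 433) (nat_lit 387) (nat_lit 320)) (XT.lf (nat_lit 0) (nat_lit 340211239) (nat_lit 760) (nat_lit 4941554333) (nat_lit 836) (nat_lit 3415861249) (nat_lit 300) (nat_lit 5) (nat_lit 310) (nat_lit 5) (nat_lit 311) (nat_lit 5) (nat_lit 434) (nat_lit 387) (nat_lit 319))) (XT.nd (nat_lit 78) (nat_lit 836) (nat_lit 0) (XT.lf (nat_lit 0) (nat_lit 5372764316)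 (nat_lit 760) (nat_lit 2078754243) (nat_lit 836) (nat_lit 1327944228) (nat_lit 300) (nat_lit 5) (nat_lit 310) (nat_lit 5) (nat_lit 311) (nat_lit 5) (nat_lit 435) (nat_lit 387) (nat_lit 318)) (XT.lf (nat_lit 0) (nat_lit 776335998) (nat_lit 836) (nat_lit 7242314689) (nat_lit 76) (nat_lit 844501759) (nat_lit 289) (nat_lit 5) (nat_lit 300) (nat_lit 5) (nat_lit 290) (nat_lit 5) (nat_lit 436) (nat_lit 387) (nat_lit 317))))))) (XT.nd (nat_lit 1092) (nat_lit 3800) (nat_lit 0) (XT.nd (nat_lit 546) (nat_lit 2584) (nat_lit 0) (XT.nd (nat_lit 234) (nat_lit 2204) (nat_lit 0) (XT.nd (nat_lit 78) (nat_lit 684) (nat_lit 0) (XT.lf (nat_lit 0) (nat_lit 2911104637) (nat_lit 836) (nat_lit 2208730516) (nat_lit 76) (nat_lit 3828404529) (nat_lit 289) (nat_lit 5) (nat_lit 300) (nat_lit 5) (nat_lit 290) (nat_lit 5) (nat_lit 437) (nat_lit 387) (nat_lit 316)) (XT.nd (nat_lit 78) (nat_lit 0) (nat_lit 0) (XT.lf (nat_lit 0) (nat_lit 2931558626)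 (nat_lit 684) (nat_lit 2146032506) (nat_lit 760) (nat_lit 3957679644) (nat_lit 280) (nat_lit 5) (nat_lit 289) (nat_lit 5) (nat_lit 290) (nat_lit 5) (nat_lit 438) (nat_lit 387) (nat_lit 315)) (XT.lf (nat_lit 0) (nat_lit 7278439409) (nat_lit 760) (nat_lit 957810782) (nat_lit 76) (nat_lit 887993782) (nat_lit 280) (nat_lit 5) (nat_lit 290) (nat_lit 5) (nat_lit 281) (nat_lit 5) (nat_lit 439) (nat_lit 387) (nat_lit 314)))) (XT.nd (nat_lit 156) (nat_lit 684) (nat_lit 0) (XT.nd (nat_lit 78) (nat_lit 684) (nat_lit 0) (XT.lf (nat_lit 0) (nat_lit 317399955) (nat_lit 836) (nat_lit 4915795890) (nat_lit 76) (nat_lit 3981519309) (nat_lit 269) (nat_lit 5) (nat_lit 280) (nat_lit 5) (nat_lit 270) (nat_lit 5) (nat_lit 440) (nat_lit 387) (nat_lit 313)) (XT.lf (nat_lit 0) (nat_lit 326566733) (nat_lit 684) (nat_lit 2152284237) (nat_lit 760) (nat_lit 6828327663) (nat_lit 260) (nat_lit 5) (nat_lit 269) (nat_lit 5) (nat_lit 270) (nat_lit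 5) (nat_lit 441) (nat_lit 387) (nat_lit 312))) (XT.nd (nat_lit 78) (nat_lit 684) (nat_lit 0) (XT.lf (nat_lit 0) (nat_lit 4694585811) (nat_lit 760) (nat_lit 3699773311) (nat_lit 76) (nat_lit 1006931603) (nat_lit 260) (nat_lit 5) (nat_lit 270) (nat_lit 5) (nat_lit 261) (nat_lit 5) (nat_lit 442) (nat_lit 387) (nat_lit 311)) (XT.lf (nat_lit 0) (nat_lit 1662163970) (nat_lit 684) (nat_lit 5289496621) (nat_lit 760) (nat_lit 2545703998) (nat_lit 251) (nat_lit 5) (nat_lit 260) (nat_lit 5) (nat_lit 261) (nat_lit 5) (nat_lit 443) (nat_lit 387) (nat_lit 310))))) (XT.nd (nat_lit 234) (nat_lit 1900) (nat_lit 0) (XT.nd (nat_lit 78) (nat_lit 684) (nat_lit 0) (XT.lf (nat_lit 0) (nat_lit 7149638225) (nat_lit 684) (nat_lit 2101388508) (nat_lit 760) (nat_lit 344409844) (nat_lit 251) (nat_lit 5) (nat_lit 260) (nat_lit 5) (nat_lit 261) (nat_lit 5) (nat_lit 444) (nat_lit 387) (nat_lit 309)) (XT.nd (nat_lit 78) (nat_lit 0) (nat_lit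 0) (XT.lf (nat_lit 0) (nat_lit 1876086314) (nat_lit 684) (nat_lit 6655641148) (nat_lit 76) (nat_lit 1163512447) (nat_lit 242) (nat_lit 5) (nat_lit 251) (nat_lit 5) (nat_lit 243) (nat_lit 5) (nat_lit 445) (nat_lit 387) (nat_lit 308)) (XT.lf (nat_lit 0) (nat_lit 4139792744) (nat_lit 684) (nat_lit 1177092559) (nat_lit 76) (nat_lit 4480058744) (nat_lit 242) (nat_lit 5) (nat_lit 251) (nat_lit 5) (nat_lit 243) (nat_lit 5) (nat_lit 446) (nat_lit 387) (nat_lit 307)))) (XT.nd (nat_lit 156) (nat_lit 684) (nat_lit 0) (XT.nd (nat_lit 78) (nat_lit 608) (nat_lit 0) (XT.lf (nat_lit 0) (nat_lit 4437924582) (nat_lit 608) (nat_lit 2013162591) (nat_lit 684) (nat_lit 3449566964) (nat_lit 234) (nat_lit 5) (nat_lit 242) (nat_lit 5) (nat_lit 243) (nat_lit 5) (nat_lit 447) (nat_lit 387) (nat_lit 306)) (XT.lf (nat_lit 0) (nat_lit 136233515) (nat_lit 608) (nat_lit 8663803558) (nat_lit 684) (nat_lit 1206590558) (nat_lit 226) (nat_lit 5)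 (nat_lit 234) (nat_lit 5) (nat_lit 235) (nat_lit 5) (nat_lit 448) (nat_lit 387) (nat_lit 305))) (XT.nd (nat_lit 78) (nat_lit 608) (nat_lit 0) (XT.lf (nat_lit 0) (nat_lit 1091204437) (nat_lit 684) (nat_lit 4245124026) (nat_lit 76) (nat_lit 4777786032) (nat_lit 225) (nat_lit 5) (nat_lit 234) (nat_lit 5) (nat_lit 226) (nat_lit 5) (nat_lit 449) (nat_lit 387) (nat_lit 304)) (XT.lf (nat_lit 0) (nat_lit 1472834103) (nat_lit 608) (nat_lit 1929961355) (nat_lit 684) (nat_lit 6821132967) (nat_lit 217) (nat_lit 5) (nat_lit 225) (nat_lit 5) (nat_lit 226) (nat_lit 5) (nat_lit 450) (nat_lit 387) (nat_lit 303)))))) (XT.nd (nat_lit 546) (nat_lit 1596) (nat_lit 0) (XT.nd (nat_lit 234) (nat_lit 1596) (nat_lit 0) (XT.nd (nat_lit 78) (nat_lit 608) (nat_lit 0) (XT.lf (nat_lit 0) (nat_lit 5774004751) (nat_lit 684) (nat_lit 3014314118) (nat_lit 76) (nat_lit 1547368471) (nat_lit 217) (nat_lit 5) (nat_lit 226) (nat_lit 5) (nat_lit 218)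 (nat_lit 5) (nat_lit 451) (nat_lit 387) (nat_lit 302)) (XT.nd (nat_lit 78) (nat_lit 76) (nat_lit 0) (XT.lf (nat_lit 0) (nat_lit 2830738678) (nat_lit 532) (nat_lit 5368238849) (nat_lit 608) (nat_lit 2250593237) (nat_lit 210) (nat_lit 5) (nat_lit 217) (nat_lit 5) (nat_lit 218) (nat_lit 5) (nat_lit 452) (nat_lit 387) (nat_lit 301)) (XT.lf (nat_lit 0) (nat_lit 100968851) (nat_lit 608) (nat_lit 1763550453) (nat_lit 76) (nat_lit 8701301170) (nat_lit 209) (nat_lit 5) (nat_lit 217) (nat_lit 5) (nat_lit 210) (nat_lit 5) (nat_lit 453) (nat_lit 387) (nat_lit 300)))) (XT.nd (nat_lit 156) (nat_lit 1064) (nat_lit 0) (XT.nd (nat_lit 78) (nat_lit 0) (nat_lit 0) (XT.lf (nat_lit 0) (nat_lit 2483958610) (nat_lit 608) (nat_lit 6476464792) (nat_lit 76) (nat_lit 1723398796) (nat_lit 202) (nat_lit 5) (nat_lit 210) (nat_lit 5) (nat_lit 203) (nat_lit 5) (nat_lit 454) (nat_lit 387) (nat_lit 299)) (XT.lf (nat_lit 0) (nat_lit 4914881314)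 (nat_lit 608) (nat_lit 525380454) (nat_lit 76) (nat_lit 5363931614) (nat_lit 202) (nat_lit 5) (nat_lit 210) (nat_lit 5) (nat_lit 203) (nat_lit 5) (nat_lit 455) (nat_lit 387) (nat_lit 298))) (XT.nd (nat_lit 78) (nat_lit 532) (nat_lit 0) (XT.lf (nat_lit 0) (nat_lit 5588017526) (nat_lit 532) (nat_lit 1819169017) (nat_lit 608) (nat_lit 3519544761) (nat_lit 195) (nat_lit 5) (nat_lit 202) (nat_lit 5) (nat_lit 203) (nat_lit 5) (nat_lit 456) (nat_lit 387) (nat_lit 297)) (XT.lf (nat_lit 0) (nat_lit 746518208) (nat_lit 532) (nat_lit 9200093061) (nat_lit 608) (nat_lit 1105177555) (nat_lit 188) (nat_lit 5) (nat_lit 195) (nat_lit 5) (nat_lit 196) (nat_lit 5) (nat_lit 457) (nat_lit 387) (nat_lit 296))))) (XT.nd (nat_lit 234) (nat_lit 1064) (nat_lit 0) (XT.nd (nat_lit 78) (nat_lit 456) (nat_lit 0) (XT.lf (nat_lit 0) (nat_lit 1364587156) (nat_lit 608) (nat_lit 4204265293) (nat_lit 76) (nat_lit 5609834254) (nat_lit 187) (nat_lit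 5) (nat_lit 195) (nat_lit 5) (nat_lit 188) (nat_lit 5) (nat_lit 458) (nat_lit 387) (nat_lit 295)) (XT.nd (nat_lit 78) (nat_lit 0) (nat_lit 0) (XT.lf (nat_lit 0) (nat_lit 2008013359) (nat_lit 456) (nat_lit 1851244904) (nat_lit 532) (nat_lit 7448925467) (nat_lit 181) (nat_lit 5) (nat_lit 187) (nat_lit 5) (nat_lit 188) (nat_lit 5) (nat_lit 459) (nat_lit 387) (nat_lit 294)) (XT.lf (nat_lit 0) (nat_lit 6422289094) (nat_lit 532) (nat_lit 3080950558) (nat_lit 76) (nat_lit 1936674938) (nat_lit 181) (nat_lit 5) (nat_lit 188) (nat_lit 5) (nat_lit 182) (nat_lit 5) (nat_lit 460) (nat_lit 387) (nat_lit 293)))) (XT.nd (nat_lit 156) (nat_lit 456) (nat_lit 0) (XT.nd (nat_lit 78) (nat_lit 76) (nat_lit 0) (XT.lf (nat_lit 0) (nat_lit 3263802661) (nat_lit 532) (nat_lit 5784136612) (nat_lit 608) (nat_lit 2526126582) (nat_lit 174) (nat_lit 5) (nat_lit 181) (nat_lit 5) (nat_lit 182) (nat_lit 5) (nat_lit 461) (nat_lit 387) (nat_lit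 292)) (XT.lf (nat_lit 0) (nat_lit 13809048) (nat_lit 608) (nat_lit 1963016181) (nat_lit 76) (nat_lit 9734109276) (nat_lit 173) (nat_lit 5) (nat_lit 181) (nat_lit 5) (nat_lit 174) (nat_lit 5) (nat_lit 462) (nat_lit 387) (nat_lit 291))) (XT.nd (nat_lit 78) (nat_lit 0) (nat_lit 0) (XT.lf (nat_lit 0) (nat_lit 2591191174) (nat_lit 532) (nat_lit 7337837320) (nat_lit 76) (nat_lit 1920780841) (nat_lit 167) (nat_lit 5) (nat_lit 174) (nat_lit 5) (nat_lit 168) (nat_lit 5) (nat_lit 463) (nat_lit 387) (nat_lit 290)) (XT.lf (nat_lit 0) (nat_lit 5225086865) (nat_lit 532) (nat_lit 890437533) (nat_lit 76) (nat_lit 5875849918) (nat_lit 167) (nat_lit 5) (nat_lit 174) (nat_lit 5) (nat_lit 168) (nat_lit 5) (nat_lit 464) (nat_lit 387) (nat_lit 289))))))))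
noncomputable def xc121 : XT := (XT.nd (nat_lit 2184) (nat_lit 3192) (nat_lit 0) (XT.nd (nat_lit 1092) (nat_lit 2508) (nat_lit 0) (XT.nd (nat_lit 546) (nat_lit 1672) (nat_lit 0) (XT.nd (nat_lit 234) (nat_lit 836) (nat_lit 0) (XT.nd (nat_lit 78) (nat_lit 532) (nat_lit 0) (XT.lf (nat_lit 0) (nat_lit 5732534934) (nat_lit 456) (nat_lit 2195378538) (nat_lit 532) (nat_lit 4207543803) (nat_lit 161) (nat_lit 5) (nat_lit 167) (nat_lit 5) (nat_lit 168) (nat_lit 5) (nat_lit 465) (nat_lit 387) (nat_lit 288)) (XT.nd (nat_lit 78) (nat_lit 76) (nat_lit 0) (XT.lf (nat_lit 0) (nat_lit 179595650) (nat_lit 456) (nat_lit 10503300213) (nat_lit 532) (nat_lit 1599575555) (nat_lit 155) (nat_lit 5) (nat_lit 161) (nat_lit 5) (nat_lit 162) (nat_lit 5) (nat_lit 466) (nat_lit 387) (nat_lit 287)) (XT.lf (nat_lit 0) (nat_lit 1083718999) (nat_lit 532) (nat_lit 5501563113) (nat_lit 76) (nat_lit 5846275552) (nat_lit 154) (nat_lit 5) (nat_lit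 161) (nat_lit 5) (nat_lit 155) (nat_lit 5) (nat_lit 467) (nat_lit 387) (nat_lit 286)))) (XT.nd (nat_lit 156) (nat_lit 380) (nat_lit 0) (XT.nd (nat_lit 78) (nat_lit 0) (nat_lit 0) (XT.lf (nat_lit 0) (nat_lit 1208756598) (nat_lit 456) (nat_lit 2578064573) (nat_lit 532) (nat_lit 8796852642) (nat_lit 148) (nat_lit 5) (nat_lit 154) (nat_lit 5) (nat_lit 155) (nat_lit 5) (nat_lit 468) (nat_lit 387) (nat_lit 285)) (XT.lf (nat_lit 0) (nat_lit 6570803449) (nat_lit 532) (nat_lit 4648733456) (nat_lit 76) (nat_lit 1518769651) (nat_lit 148) (nat_lit 5) (nat_lit 155) (nat_lit 5) (nat_lit 149) (nat_lit 5) (nat_lit 469) (nat_lit 387) (nat_lit 284))) (XT.nd (nat_lit 78) (nat_lit 0) (nat_lit 0) (XT.lf (nat_lit 0) (nat_lit 2195803446) (nat_lit 380) (nat_lit 7226242623) (nat_lit 456) (nat_lit 3473764696) (nat_lit 143) (nat_lit 5) (nat_lit 148) (nat_lit 5) (nat_lit 149) (nat_lit 5) (nat_lit 470) (nat_lit 387) (nat_lit 283)) (XT.lf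 (nat_lit 0) (nat_lit 9212533803) (nat_lit 380) (nat_lit 3129433309) (nat_lit 456) (nat_lit 714275093) (nat_lit 143) (nat_lit 5) (nat_lit 148) (nat_lit 5) (nat_lit 149) (nat_lit 5) (nat_lit 471) (nat_lit 387) (nat_lit 282))))) (XT.nd (nat_lit 234) (nat_lit 760) (nat_lit 0) (XT.nd (nat_lit 78) (nat_lit 380) (nat_lit 0) (XT.lf (nat_lit 0) (nat_lit 2080998996) (nat_lit 532) (nat_lit 10076625411) (nat_lit 76) (nat_lit 1061832107) (nat_lit 136) (nat_lit 5) (nat_lit 143) (nat_lit 5) (nat_lit 137) (nat_lit 5) (nat_lit 472) (nat_lit 387) (nat_lit 281)) (XT.nd (nat_lit 78) (nat_lit 380) (nat_lit 0) (XT.lf (nat_lit 0) (nat_lit 4950165149) (nat_lit 532) (nat_lit 3117434203) (nat_lit 76) (nat_lit 5317699946) (nat_lit 136) (nat_lit 5) (nat_lit 143) (nat_lit 5) (nat_lit 137) (nat_lit 5) (nat_lit 473) (nat_lit 387) (nat_lit 280)) (XT.lf (nat_lit 0) (nat_lit 4006433970) (nat_lit 380) (nat_lit 3877521450) (nat_lit 456) (nat_lit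 5670368143) (nat_lit 131) (nat_lit 5) (nat_lit 136) (nat_lit 5) (nat_lit 137) (nat_lit 5) (nat_lit 474) (nat_lit 387) (nat_lit 279)))) (XT.nd (nat_lit 156) (nat_lit 304) (nat_lit 0) (XT.nd (nat_lit 78) (nat_lit 456) (nat_lit 0) (XT.lf (nat_lit 0) (nat_lit 10881421175) (nat_lit 456) (nat_lit 2441185674) (nat_lit 76) (nat_lit 404030727) (nat_lit 131) (nat_lit 5) (nat_lit 137) (nat_lit 5) (nat_lit 132) (nat_lit 5) (nat_lit 475) (nat_lit 387) (nat_lit 278)) (XT.lf (nat_lit 0) (nat_lit 74905079) (nat_lit 456) (nat_lit 9083624498) (nat_lit 76) (nat_lit 4743093564) (nat_lit 125) (nat_lit 5) (nat_lit 131) (nat_lit 5) (nat_lit 126) (nat_lit 5) (nat_lit 476) (nat_lit 387) (nat_lit 277))) (XT.nd (nat_lit 78) (nat_lit 304) (nat_lit 0) (XT.lf (nat_lit 0) (nat_lit 3013648354) (nat_lit 456) (nat_lit 1870017057) (nat_lit 76) (nat_lit 9196109254) (nat_lit 125) (nat_lit 5) (nat_lit 131) (nat_lit 5) (nat_lit 126) (nat_lit 5) (nat_lit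 477) (nat_lit 387) (nat_lit 276)) (XT.lf (nat_lit 0) (nat_lit 5534226423) (nat_lit 304) (nat_lit 495020050) (nat_lit 380) (nat_lit 8231889700) (nat_lit 121) (nat_lit 5) (nat_lit 125) (nat_lit 5) (nat_lit 126) (nat_lit 5) (nat_lit 478) (nat_lit 387) (nat_lit 275)))))) (XT.nd (nat_lit 546) (nat_lit 1368) (nat_lit 0) (XT.nd (nat_lit 234) (nat_lit 684) (nat_lit 0) (XT.nd (nat_lit 78) (nat_lit 456) (nat_lit 0) (XT.lf (nat_lit 0) (nat_lit 9125912997) (nat_lit 380) (nat_lit 1386256991) (nat_lit 76) (nat_lit 3933548176) (nat_lit 121) (nat_lit 5) (nat_lit 126) (nat_lit 5) (nat_lit 122) (nat_lit 5) (nat_lit 479) (nat_lit 387) (nat_lit 274)) (XT.nd (nat_lit 78) (nat_lit 76) (nat_lit 0) (XT.lf (nat_lit 0) (nat_lit 6152788790) (nat_lit 380) (nat_lit 6157572543) (nat_lit 456) (nat_lit 2323121711) (nat_lit 116) (nat_lit 5) (nat_lit 121) (nat_lit 5) (nat_lit 122) (nat_lit 5) (nat_lit 480) (nat_lit 387) (nat_lit 273)) (XT.lf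 (nat_lit 0) (nat_lit 715914038) (nat_lit 456) (nat_lit 994139408) (nat_lit 76) (nat_lit 13115021659) (nat_lit 115) (nat_lit 5) (nat_lit 121) (nat_lit 5) (nat_lit 116) (nat_lit 5) (nat_lit 481) (nat_lit 387) (nat_lit 272)))) (XT.nd (nat_lit 156) (nat_lit 380) (nat_lit 0) (XT.nd (nat_lit 78) (nat_lit 0) (nat_lit 0) (XT.lf (nat_lit 0) (nat_lit 3829783019) (nat_lit 380) (nat_lit 8349262661) (nat_lit 76) (nat_lit 2840250771) (nat_lit 111) (nat_lit 5) (nat_lit 116) (nat_lit 5) (nat_lit 112) (nat_lit 5) (nat_lit 482) (nat_lit 387) (nat_lit 271)) (XT.lf (nat_lit 0) (nat_lit 7007098385) (nat_lit 380) (nat_lit 753190697) (nat_lit 76) (nat_lit 7457097357) (nat_lit 111) (nat_lit 5) (nat_lit 116) (nat_lit 5) (nat_lit 112) (nat_lit 5) (nat_lit 483) (nat_lit 387) (nat_lit 270))) (XT.nd (nat_lit 78) (nat_lit 0) (nat_lit 0) (XT.lf (nat_lit 0) (nat_lit 7062408708) (nat_lit 380) (nat_lit 3214864770) (nat_lit 456) (nat_lit 5141585924)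 (nat_lit 106) (nat_lit 5) (nat_lit 111) (nat_lit 5) (nat_lit 112) (nat_lit 5) (nat_lit 484) (nat_lit 387) (nat_lit 269)) (XT.lf (nat_lit 0) (nat_lit 13610736458) (nat_lit 456) (nat_lit 614127496) (nat_lit 76) (nat_lit 1399547480) (nat_lit 106) (nat_lit 5) (nat_lit 112) (nat_lit 5) (nat_lit 107) (nat_lit 5) (nat_lit 485) (nat_lit 387) (nat_lit 268))))) (XT.nd (nat_lit 234) (nat_lit 684) (nat_lit 0) (XT.nd (nat_lit 78) (nat_lit 304) (nat_lit 0) (XT.lf (nat_lit 0) (nat_lit 1214495646) (nat_lit 380) (nat_lit 8507727999) (nat_lit 76) (nat_lit 6110642359) (nat_lit 101) (nat_lit 5) (nat_lit 106) (nat_lit 5) (nat_lit 102) (nat_lit 5) (nat_lit 486) (nat_lit 387) (nat_lit 267)) (XT.nd (nat_lit 78) (nat_lit 304) (nat_lit 0) (XT.lf (nat_lit 0) (nat_lit 4468374269) (nat_lit 380) (nat_lit 651956076) (nat_lit 76) (nat_lit 10925137837) (nat_lit 101) (nat_lit 5) (nat_lit 106) (nat_lit 5) (nat_lit 102) (nat_lit 5) (nat_lit 487)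 (nat_lit 387) (nat_lit 266)) (XT.lf (nat_lit 0) (nat_lit 7434217262) (nat_lit 304) (nat_lit 385630169) (nat_lit 380) (nat_lit 8441831375) (nat_lit 97) (nat_lit 5) (nat_lit 101) (nat_lit 5) (nat_lit 102) (nat_lit 5) (nat_lit 488) (nat_lit 387) (nat_lit 265)))) (XT.nd (nat_lit 156) (nat_lit 380) (nat_lit 0) (XT.nd (nat_lit 78) (nat_lit 304) (nat_lit 0) (XT.lf (nat_lit 0) (nat_lit 11255952703) (nat_lit 380) (nat_lit 844374949) (nat_lit 76) (nat_lit 4381540548) (nat_lit 97) (nat_lit 5) (nat_lit 102) (nat_lit 5) (nat_lit 98) (nat_lit 5) (nat_lit 489) (nat_lit 387) (nat_lit 264)) (XT.lf (nat_lit 0) (nat_lit 7368617662) (nat_lit 304) (nat_lit 7427211979) (nat_lit 380) (nat_lit 1909937231) (nat_lit 93) (nat_lit 5) (nat_lit 97) (nat_lit 5) (nat_lit 98) (nat_lit 5) (nat_lit 490) (nat_lit 387) (nat_lit 263))) (XT.nd (nat_lit 78) (nat_lit 304) (nat_lit 0) (XT.lf (nat_lit 0) (nat_lit 1443448013) (nat_lit 380) (nat_lit 1210206807)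 (nat_lit 76) (nat_lit 14280495781) (nat_lit 92) (nat_lit 5) (nat_lit 97) (nat_lit 5) (nat_lit 93) (nat_lit 5) (nat_lit 491) (nat_lit 387) (nat_lit 262)) (XT.lf (nat_lit 0) (nat_lit 4884401356) (nat_lit 380) (nat_lit 10044148754) (nat_lit 76) (nat_lit 2237384018) (nat_lit 88) (nat_lit 5) (nat_lit 93) (nat_lit 5) (nat_lit 89) (nat_lit 5) (nat_lit 492) (nat_lit 387) (nat_lit 261))))))) (XT.nd (nat_lit 1092) (nat_lit 1520) (nat_lit 0) (XT.nd (nat_lit 546) (nat_lit 836) (nat_lit 0) (XT.nd (nat_lit 234) (nat_lit 608) (nat_lit 0) (XT.nd (nat_lit 78) (nat_lit 228) (nat_lit 0) (XT.lf (nat_lit 0) (nat_lit 8405005155) (nat_lit 380) (nat_lit 1806517864) (nat_lit 76) (nat_lit 7190619667) (nat_lit 88) (nat_lit 5) (nat_lit 93) (nat_lit 5) (nat_lit 89) (nat_lit 5) (nat_lit 493) (nat_lit 387) (nat_lit 260)) (XT.nd (nat_lit 78) (nat_lit 0) (nat_lit 0) (XT.lf (nat_lit 0) (nat_lit 6660154595) (nat_lit 228) (nat_lit 5364483682) (nat_lit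 304) (nat_lit 5617870662) (nat_lit 85) (nat_lit 5) (nat_lit 88) (nat_lit 5) (nat_lit 89) (nat_lit 5) (nat_lit 494) (nat_lit 387) (nat_lit 259)) (XT.lf (nat_lit 0) (nat_lit 15297739867) (nat_lit 228) (nat_lit 416560014) (nat_lit 304) (nat_lit 2173435675) (nat_lit 85) (nat_lit 5) (nat_lit 88) (nat_lit 5) (nat_lit 89) (nat_lit 5) (nat_lit 495) (nat_lit 387) (nat_lit 258)))) (XT.nd (nat_lit 156) (nat_lit 228) (nat_lit 0) (XT.nd (nat_lit 78) (nat_lit 0) (nat_lit 0) (XT.lf (nat_lit 0) (nat_lit 1377409377) (nat_lit 380) (nat_lit 12149748038) (nat_lit 76) (nat_lit 4609438947) (nat_lit 80) (nat_lit 5) (nat_lit 85) (nat_lit 5) (nat_lit 81) (nat_lit 5) (nat_lit 496) (nat_lit 387) (nat_lit 257)) (XT.lf (nat_lit 0) (nat_lit 4976227987) (nat_lit 380) (nat_lit 3659757364) (nat_lit 76) (nat_lit 9754045949) (nat_lit 80) (nat_lit 5) (nat_lit 85) (nat_lit 5) (nat_lit 81) (nat_lit 5) (nat_lit 497) (nat_lit 387) (nat_lit 256))) (XT.nd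 (nat_lit 78) (nat_lit 0) (nat_lit 0) (XT.lf (nat_lit 0) (nat_lit 5043890055) (nat_lit 228) (nat_lit 3621937808) (nat_lit 304) (nat_lit 9982336292) (nat_lit 77) (nat_lit 5) (nat_lit 80) (nat_lit 5) (nat_lit 81) (nat_lit 5) (nat_lit 498) (nat_lit 387) (nat_lit 255)) (XT.lf (nat_lit 0) (nat_lit 12449762970) (nat_lit 304) (nat_lit 4971976619) (nat_lit 76) (nat_lit 1489314425) (nat_lit 77) (nat_lit 5) (nat_lit 81) (nat_lit 5) (nat_lit 78) (nat_lit 5) (nat_lit 499) (nat_lit 387) (nat_lit 254))))) (XT.nd (nat_lit 234) (nat_lit 228) (nat_lit 0) (XT.nd (nat_lit 78) (nat_lit 304) (nat_lit 0) (XT.lf (nat_lit 0) (nat_lit 3837371723) (nat_lit 304) (nat_lit 12507310184) (nat_lit 380) (nat_lit 2833818771) (nat_lit 73) (nat_lit 5) (nat_lit 77) (nat_lit 5) (nat_lit 78) (nat_lit 5) (nat_lit 500) (nat_lit 387) (nat_lit 253)) (XT.nd (nat_lit 78) (nat_lit 228) (nat_lit 0) (XT.lf (nat_lit 0) (nat_lit 874863043) (nat_lit 380) (nat_lit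 6588147849) (nat_lit 76) (nat_lit 11987777405) (nat_lit 72) (nat_lit 5) (nat_lit 77) (nat_lit 5) (nat_lit 73) (nat_lit 5) (nat_lit 501) (nat_lit 387) (nat_lit 252)) (XT.lf (nat_lit 0) (nat_lit 2330139568) (nat_lit 228) (nat_lit 2291499321) (nat_lit 304) (nat_lit 15106475660) (nat_lit 69) (nat_lit 5) (nat_lit 72) (nat_lit 5) (nat_lit 73) (nat_lit 5) (nat_lit 502) (nat_lit 387) (nat_lit 251)))) (XT.nd (nat_lit 156) (nat_lit 0) (nat_lit 0) (XT.nd (nat_lit 78) (nat_lit 228) (nat_lit 0) (XT.lf (nat_lit 0) (nat_lit 8493992782) (nat_lit 304) (nat_lit 8535289177) (nat_lit 76) (nat_lit 2980697237) (nat_lit 69) (nat_lit 5) (nat_lit 73) (nat_lit 5) (nat_lit 70) (nat_lit 5) (nat_lit 503) (nat_lit 387) (nat_lit 250)) (XT.lf (nat_lit 0) (nat_lit 474502355) (nat_lit 228) (nat_lit 11974576418) (nat_lit 304) (nat_lit 7848301291) (nat_lit 66) (nat_lit 5) (nat_lit 69) (nat_lit 5) (nat_lit 70) (nat_lit 5) (nat_lit 504) (nat_lit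 387) (nat_lit 249))) (XT.nd (nat_lit 78) (nat_lit 0) (nat_lit 0) (XT.lf (nat_lit 0) (nat_lit 9759131576) (nat_lit 228) (nat_lit 6768557564) (nat_lit 304) (nat_lit 4061955892) (nat_lit 66) (nat_lit 5) (nat_lit 69) (nat_lit 5) (nat_lit 70) (nat_lit 5) (nat_lit 505) (nat_lit 387) (nat_lit 248)) (XT.lf (nat_lit 0) (nat_lit 19208810016) (nat_lit 228) (nat_lit 1466460105) (nat_lit 304) (nat_lit 212741661) (nat_lit 66) (nat_lit 5) (nat_lit 69) (nat_lit 5) (nat_lit 70) (nat_lit 5) (nat_lit 506) (nat_lit 387) (nat_lit 247)))))) (XT.nd (nat_lit 546) (nat_lit 684) (nat_lit 0) (XT.nd (nat_lit 234) (nat_lit 304) (nat_lit 0) (XT.nd (nat_lit 78) (nat_lit 228) (nat_lit 0) (XT.lf (nat_lit 0) (nat_lit 3728414950) (nat_lit 304) (nat_lit 13505388042) (nat_lit 76) (nat_lit 3956791730) (nat_lit 62) (nat_lit 5) (nat_lit 66) (nat_lit 5) (nat_lit 63) (nat_lit 5) (nat_lit 507) (nat_lit 387) (nat_lit 246)) (XT.nd (nat_lit 78) (nat_lit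 228) (nat_lit 0) (XT.lf (nat_lit 0) (nat_lit 7754223442) (nat_lit 304) (nat_lit 4271006907) (nat_lit 76) (nat_lit 9473801492) (nat_lit 62) (nat_lit 5) (nat_lit 66) (nat_lit 5) (nat_lit 63) (nat_lit 5) (nat_lit 508) (nat_lit 387) (nat_lit 245)) (XT.lf (nat_lit 0) (nat_lit 5196138469) (nat_lit 228) (nat_lit 6686009243) (nat_lit 304) (nat_lit 9931062109) (nat_lit 59) (nat_lit 5) (nat_lit 62) (nat_lit 5) (nat_lit 63) (nat_lit 5) (nat_lit 509) (nat_lit 387) (nat_lit 244)))) (XT.nd (nat_lit 156) (nat_lit 76) (nat_lit 0) (XT.nd (nat_lit 78) (nat_lit 228) (nat_lit 0) (XT.lf (nat_lit 0) (nat_lit 14890581753) (nat_lit 228) (nat_lit 1218680770) (nat_lit 304) (nat_lit 6024080223) (nat_lit 59) (nat_lit 5) (nat_lit 62) (nat_lit 5) (nat_lit 63) (nat_lit 5) (nat_lit 510) (nat_lit 387) (nat_lit 243)) (XT.lf (nat_lit 0) (nat_lit 2301182910) (nat_lit 228) (nat_lit 18151129369) (nat_lit 304) (nat_lit 2006942150) (nat_lit 56) (nat_lit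 5) (nat_lit 59) (nat_lit 5) (nat_lit 60) (nat_lit 5) (nat_lit 511) (nat_lit 387) (nat_lit 242))) (XT.nd (nat_lit 78) (nat_lit 0) (nat_lit 0) (XT.lf (nat_lit 0) (nat_lit 2108296441) (nat_lit 304) (nat_lit 10698263954) (nat_lit 76) (nat_lit 9983952773) (nat_lit 55) (nat_lit 5) (nat_lit 59) (nat_lit 5) (nat_lit 56) (nat_lit 5) (nat_lit 512) (nat_lit 387) (nat_lit 241)) (XT.lf (nat_lit 0) (nat_lit 6267403932) (nat_lit 304) (nat_lit 1081932733) (nat_lit 76) (nat_lit 15779030078) (nat_lit 55) (nat_lit 5) (nat_lit 59) (nat_lit 5) (nat_lit 56) (nat_lit 5) (nat_lit 513) (nat_lit 387) (nat_lit 240))))) (XT.nd (nat_lit 234) (nat_lit 304) (nat_lit 0) (XT.nd (nat_lit 78) (nat_lit 152) (nat_lit 0) (XT.lf (nat_lit 0) (nat_lit 8823444716) (nat_lit 228) (nat_lit 1732175693) (nat_lit 304) (nat_lit 12916442096) (nat_lit 52) (nat_lit 5) (nat_lit 55) (nat_lit 5) (nat_lit 56) (nat_lit 5) (nat_lit 514) (nat_lit 387) (nat_lit 239))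 (XT.nd (nat_lit 78) (nat_lit 152) (nat_lit 0) (XT.lf (nat_lit 0) (nat_lit 14951552879) (nat_lit 304) (nat_lit 4925948557) (nat_lit 76) (nat_lit 3944695288) (nat_lit 52) (nat_lit 5) (nat_lit 56) (nat_lit 5) (nat_lit 53) (nat_lit 5) (nat_lit 515) (nat_lit 387) (nat_lit 238)) (XT.lf (nat_lit 0) (nat_lit 5026949898) (nat_lit 152) (nat_lit 14441475457) (nat_lit 228) (nat_lit 4710251354) (nat_lit 50) (nat_lit 5) (nat_lit 52) (nat_lit 5) (nat_lit 53) (nat_lit 5) (nat_lit 516) (nat_lit 387) (nat_lit 237)))) (XT.nd (nat_lit 156) (nat_lit 0) (nat_lit 0) (XT.nd (nat_lit 78) (nat_lit 304) (nat_lit 0) (XT.lf (nat_lit 0) (nat_lit 15227119611) (nat_lit 152) (nat_lit 8870579996) (nat_lit 228) (nat_lit 444148838) (nat_lit 50) (nat_lit 5) (nat_lit 52) (nat_lit 5) (nat_lit 53) (nat_lit 5) (nat_lit 517) (nat_lit 387) (nat_lit 236)) (XT.lf (nat_lit 0) (nat_lit 684271987) (nat_lit 228) (nat_lit 3165351311) (nat_lit 304) (nat_lit 21062284407)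 (nat_lit 46) (nat_lit 5) (nat_lit 49) (nat_lit 5) (nat_lit 50) (nat_lit 5) (nat_lit 518) (nat_lit 387) (nat_lit 235))) (XT.nd (nat_lit 78) (nat_lit 0) (nat_lit 0) (XT.lf (nat_lit 0) (nat_lit 8292676800) (nat_lit 304) (nat_lit 14317580384) (nat_lit 76) (nat_lit 2677668430) (nat_lit 46) (nat_lit 5) (nat_lit 50) (nat_lit 5) (nat_lit 47) (nat_lit 5) (nat_lit 519) (nat_lit 387) (nat_lit 234)) (XT.lf (nat_lit 0) (nat_lit 12834961235) (nat_lit 304) (nat_lit 4248317955) (nat_lit 76) (nat_lit 8587980470) (nat_lit 46) (nat_lit 5) (nat_lit 50) (nat_lit 5) (nat_lit 47) (nat_lit 5) (nat_lit 520) (nat_lit 387) (nat_lit 233))))))))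
noncomputable def xc122 : XT := (XT.nd (nat_lit 50622) (nat_lit 0) (nat_lit 19836) (XT.nd (nat_lit 49530) (nat_lit 0) (nat_lit 38152) (XT.nd (nat_lit 48984) (nat_lit 0) (nat_lit 42408) (XT.nd (nat_lit 234) (nat_lit 152) (nat_lit 0) (XT.nd (nat_lit 78) (nat_lit 304) (nat_lit 0) (XT.lf (nat_lit 0) (nat_lit 6084450521) (nat_lit 152) (nat_lit 11412760098) (nat_lit 228) (nat_lit 8564470496) (nat_lit 44) (nat_lit 5) (nat_lit 46) (nat_lit 5) (nat_lit 47) (nat_lit 5) (nat_lit 521) (nat_lit 387) (nat_lit 232)) (XT.nd (nat_lit 78) (nat_lit 304) (nat_lit 0) (XT.lf (nat_lit 0) (nat_lit 16663899874) (nat_lit 152) (nat_lit 5607018147) (nat_lit 228) (nat_lit 4188631772) (nat_lit 44) (nat_lit 5) (nat_lit 46) (nat_lit 5) (nat_lit 47) (nat_lit 5) (nat_lit 522) (nat_lit 387) (nat_lit 231)) (XT.lf (nat_lit 0) (nat_lit 266744224) (nat_lit 304) (nat_lit 26289501343) (nat_lit 76) (nat_lit 309185069) (nat_lit 40) (nat_lit 5) (nat_lit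 44) (nat_lit 5) (nat_lit 41) (nat_lit 5) (nat_lit 523) (nat_lit 387) (nat_lit 230)))) (XT.nd (nat_lit 156) (nat_lit 152) (nat_lit 0) (XT.nd (nat_lit 78) (nat_lit 0) (nat_lit 0) (XT.lf (nat_lit 0) (nat_lit 4848373723) (nat_lit 304) (nat_lit 16073097805) (nat_lit 76) (nat_lit 6355542072) (nat_lit 40) (nat_lit 5) (nat_lit 44) (nat_lit 5) (nat_lit 41) (nat_lit 5) (nat_lit 524) (nat_lit 387) (nat_lit 229)) (XT.lf (nat_lit 0) (nat_lit 9511711766) (nat_lit 304) (nat_lit 5669423957) (nat_lit 76) (nat_lit 12515893803) (nat_lit 40) (nat_lit 5) (nat_lit 44) (nat_lit 5) (nat_lit 41) (nat_lit 5) (nat_lit 525) (nat_lit 387) (nat_lit 228))) (XT.nd (nat_lit 78) (nat_lit 0) (nat_lit 0) (XT.lf (nat_lit 0) (nat_lit 4991058705) (nat_lit 152) (nat_lit 9299933671) (nat_lit 228) (nat_lit 13834002643) (nat_lit 38) (nat_lit 5) (nat_lit 40) (nat_lit 5) (nat_lit 41) (nat_lit 5) (nat_lit 526) (nat_lit 387) (nat_lit 227)) (XT.lf (nat_lit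 0) (nat_lit 15924988281) (nat_lit 152) (nat_lit 3269268587) (nat_lit 228) (nat_lit 9366697700) (nat_lit 38) (nat_lit 5) (nat_lit 40) (nat_lit 5) (nat_lit 41) (nat_lit 5) (nat_lit 527) (nat_lit 387) (nat_lit 226))))) (XT.nd (nat_lit 234) (nat_lit 608) (nat_lit 0) (XT.nd (nat_lit 78) (nat_lit 684) (nat_lit 0) (XT.lf (nat_lit 0) (nat_lit 947119588) (nat_lit 0) (nat_lit 947119588) (nat_lit 532) (nat_lit 1389658220) (nat_lit 613) (nat_lit 5) (nat_lit 613) (nat_lit 3) (nat_lit 620) (nat_lit 3) (nat_lit 388) (nat_lit 388) (nat_lit 364)) (XT.nd (nat_lit 78) (nat_lit 684) (nat_lit 0) (XT.lf (nat_lit 0) (nat_lit 4972549584) (nat_lit 0) (nat_lit 1173227304) (nat_lit 532) (nat_lit 438428648) (nat_lit 613) (nat_lit 5) (nat_lit 613) (nat_lit 3) (nat_lit 620) (nat_lit 3) (nat_lit 389) (nat_lit 388) (nat_lit 363)) (XT.lf (nat_lit 76) (nat_lit 1487019809) (nat_lit 0) (nat_lit 385030201) (nat_lit 684) (nat_lit 4729748636) (nat_lit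 605) (nat_lit 5) (nat_lit 604) (nat_lit 3) (nat_lit 613) (nat_lit 5) (nat_lit 390) (nat_lit 388) (nat_lit 362)))) (XT.nd (nat_lit 156) (nat_lit 684) (nat_lit 0) (XT.nd (nat_lit 78) (nat_lit 0) (nat_lit 0) (XT.lf (nat_lit 0) (nat_lit 4176353362) (nat_lit 608) (nat_lit 1988277941) (nat_lit 684) (nat_lit 456057224) (nat_lit 605) (nat_lit 5) (nat_lit 613) (nat_lit 5) (nat_lit 614) (nat_lit 5) (nat_lit 391) (nat_lit 388) (nat_lit 361)) (XT.lf (nat_lit 76) (nat_lit 1181769845) (nat_lit 0) (nat_lit 5296248119) (nat_lit 684) (nat_lit 162983896) (nat_lit 606) (nat_lit 5) (nat_lit 605) (nat_lit 5) (nat_lit 614) (nat_lit 5) (nat_lit 392) (nat_lit 388) (nat_lit 360))) (XT.nd (nat_lit 78) (nat_lit 0) (nat_lit 0) (XT.lf (nat_lit 0) (nat_lit 2090593386) (nat_lit 684) (nat_lit 2265990319) (nat_lit 760) (nat_lit 2305825548) (nat_lit 596) (nat_lit 5) (nat_lit 605) (nat_lit 5) (nat_lit 606) (nat_lit 5) (nat_lit 393) (nat_lit 388)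 (nat_lit 359)) (XT.lf (nat_lit 76) (nat_lit 970840699) (nat_lit 0) (nat_lit 3365220046) (nat_lit 760) (nat_lit 2349249539) (nat_lit 597) (nat_lit 5) (nat_lit 596) (nat_lit 5) (nat_lit 606) (nat_lit 5) (nat_lit 394) (nat_lit 388) (nat_lit 358)))))) (XT.nd (nat_lit 546) (nat_lit 2736) (nat_lit 0) (XT.nd (nat_lit 234) (nat_lit 760) (nat_lit 0) (XT.nd (nat_lit 78) (nat_lit 760) (nat_lit 0) (XT.lf (nat_lit 76) (nat_lit 4271405594) (nat_lit 0) (nat_lit 2313851027) (nat_lit 760) (nat_lit 124302073) (nat_lit 597) (nat_lit 5) (nat_lit 596) (nat_lit 5) (nat_lit 606) (nat_lit 5) (nat_lit 395) (nat_lit 388) (nat_lit 357)) (XT.nd (nat_lit 78) (nat_lit 0) (nat_lit 0) (XT.lf (nat_lit 76) (nat_lit 869262085) (nat_lit 0) (nat_lit 1197681226) (nat_lit 836) (nat_lit 4668134736) (nat_lit 587) (nat_lit 5) (nat_lit 586) (nat_lit 5) (nat_lit 597) (nat_lit 5) (nat_lit 396) (nat_lit 388) (nat_lit 356)) (XT.lf (nat_lit 76) (nat_lit 4243350663)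 (nat_lit 0) (nat_lit 18531680) (nat_lit 836) (nat_lit 2500040297) (nat_lit 587) (nat_lit 5) (nat_lit 586) (nat_lit 5) (nat_lit 597) (nat_lit 5) (nat_lit 397) (nat_lit 388) (nat_lit 355)))) (XT.nd (nat_lit 156) (nat_lit 0) (nat_lit 0) (XT.nd (nat_lit 78) (nat_lit 836) (nat_lit 0) (XT.lf (nat_lit 76) (nat_lit 866946247) (nat_lit 0) (nat_lit 5593489269) (nat_lit 836) (nat_lit 329735037) (nat_lit 588) (nat_lit 5) (nat_lit 587) (nat_lit 5) (nat_lit 598) (nat_lit 5) (nat_lit 398) (nat_lit 388) (nat_lit 354)) (XT.lf (nat_lit 0) (nat_lit 1823235375) (nat_lit 836) (nat_lit 2509701620) (nat_lit 912) (nat_lit 2486580808) (nat_lit 576) (nat_lit 5) (nat_lit 587) (nat_lit 5) (nat_lit 588) (nat_lit 5) (nat_lit 399) (nat_lit 388) (nat_lit 353))) (XT.nd (nat_lit 78) (nat_lit 0) (nat_lit 0) (XT.lf (nat_lit 76) (nat_lit 950109600) (nat_lit 0) (nat_lit 3018787958) (nat_lit 912) (nat_lit 2881487131) (nat_lit 577) (nat_lit 5) (nat_lit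 576) (nat_lit 5) (nat_lit 588) (nat_lit 5) (nat_lit 400) (nat_lit 388) (nat_lit 352)) (XT.lf (nat_lit 76) (nat_lit 4481089843) (nat_lit 0) (nat_lit 1641913205) (nat_lit 912) (nat_lit 759611374) (nat_lit 577) (nat_lit 5) (nat_lit 576) (nat_lit 5) (nat_lit 588) (nat_lit 5) (nat_lit 401) (nat_lit 388) (nat_lit 351))))) (XT.nd (nat_lit 234) (nat_lit 1824) (nat_lit 0) (XT.nd (nat_lit 78) (nat_lit 0) (nat_lit 76) (XT.lf (nat_lit 76) (nat_lit 1140897654) (nat_lit 0) (nat_lit 202096102) (nat_lit 988) (nat_lit 5573232222) (nat_lit 565) (nat_lit 5) (nat_lit 564) (nat_lit 5) (nat_lit 577) (nat_lit 5) (nat_lit 402) (nat_lit 388) (nat_lit 350)) (XT.nd (nat_lit 78) (nat_lit 0) (nat_lit 0) (XT.lf (nat_lit 0) (nat_lit 3452145220) (nat_lit 912) (nat_lit 2209928457) (nat_lit 988) (nat_lit 1288895231) (nat_lit 565) (nat_lit 5) (nat_lit 577) (nat_lit 5) (nat_lit 578) (nat_lit 5) (nat_lit 403) (nat_lit 388) (nat_lit 349)) (XT.lf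 (nat_lit 76) (nat_lit 1411499863) (nat_lit 0) (nat_lit 4153669518) (nat_lit 988) (nat_lit 1422055359) (nat_lit 566) (nat_lit 5) (nat_lit 565) (nat_lit 5) (nat_lit 578) (nat_lit 5) (nat_lit 404) (nat_lit 388) (nat_lit 348)))) (XT.nd (nat_lit 156) (nat_lit 912) (nat_lit 0) (XT.nd (nat_lit 78) (nat_lit 0) (nat_lit 0) (XT.lf (nat_lit 0) (nat_lit 653611131) (nat_lit 988) (nat_lit 1926148104) (nat_lit 1064) (nat_lit 4445075982) (nat_lit 552) (nat_lit 5) (nat_lit 565) (nat_lit 5) (nat_lit 566) (nat_lit 5) (nat_lit 405) (nat_lit 388) (nat_lit 347)) (XT.lf (nat_lit 76) (nat_lit 1778034401) (nat_lit 0) (nat_lit 937793111) (nat_lit 1064) (nat_lit 4347949685) (nat_lit 553) (nat_lit 5) (nat_lit 552) (nat_lit 5) (nat_lit 566) (nat_lit 5) (nat_lit 406) (nat_lit 388) (nat_lit 346))) (XT.nd (nat_lit 78) (nat_lit 988) (nat_lit 0) (XT.lf (nat_lit 0) (nat_lit 4790418526) (nat_lit 988) (nat_lit 1558853785) (nat_lit 76) (nat_lit 754850987)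 (nat_lit 553) (nat_lit 5) (nat_lit 566) (nat_lit 5) (nat_lit 554) (nat_lit 5) (nat_lit 407) (nat_lit 388) (nat_lit 345)) (XT.lf (nat_lit 0) (nat_lit 2233147142) (nat_lit 988) (nat_lit 4648312924) (nat_lit 1064) (nat_lit 264364031) (nat_lit 540) (nat_lit 5) (nat_lit 553) (nat_lit 5) (nat_lit 554) (nat_lit 5) (nat_lit 408) (nat_lit 388) (nat_lit 344))))))) (XT.nd (nat_lit 1092) (nat_lit 8968) (nat_lit 0) (XT.nd (nat_lit 546) (nat_lit 4484) (nat_lit 0) (XT.nd (nat_lit 234) (nat_lit 3724) (nat_lit 0) (XT.nd (nat_lit 78) (nat_lit 1064) (nat_lit 0) (XT.lf (nat_lit 0) (nat_lit 1767138347) (nat_lit 1064) (nat_lit 1110893745) (nat_lit 76) (nat_lit 4310832386) (nat_lit 539) (nat_lit 5) (nat_lit 553) (nat_lit 5) (nat_lit 540) (nat_lit 5) (nat_lit 409) (nat_lit 388) (nat_lit 343)) (XT.nd (nat_lit 78) (nat_lit 0) (nat_lit 0) (XT.lf (nat_lit 0) (nat_lit 2769200617) (nat_lit 1064) (nat_lit 1039996113) (nat_lit 1140) (nat_lit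 3424108913) (nat_lit 525) (nat_lit 5) (nat_lit 539) (nat_lit 5) (nat_lit 540) (nat_lit 5) (nat_lit 410) (nat_lit 388) (nat_lit 342)) (XT.lf (nat_lit 0) (nat_lit 5861244442) (nat_lit 1140) (nat_lit 575077390) (nat_lit 76) (nat_lit 842974210) (nat_lit 525) (nat_lit 5) (nat_lit 540) (nat_lit 5) (nat_lit 526) (nat_lit 5) (nat_lit 411) (nat_lit 388) (nat_lit 341)))) (XT.nd (nat_lit 156) (nat_lit 1292) (nat_lit 0) (XT.nd (nat_lit 78) (nat_lit 1216) (nat_lit 0) (XT.lf (nat_lit 0) (nat_lit 605779482) (nat_lit 1216) (nat_lit 3933546587) (nat_lit 76) (nat_lit 2787122494) (nat_lit 509) (nat_lit 5) (nat_lit 525) (nat_lit 5) (nat_lit 510) (nat_lit 5) (nat_lit 412) (nat_lit 388) (nat_lit 340)) (XT.lf (nat_lit 0) (nat_lit 31747135) (nat_lit 1216) (nat_lit 2580854409) (nat_lit 1292) (nat_lit 4762565955) (nat_lit 493) (nat_lit 5) (nat_lit 509) (nat_lit 5) (nat_lit 510) (nat_lit 5) (nat_lit 413) (nat_lit 388) (nat_lit 339))) (XT.nd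 (nat_lit 78) (nat_lit 1292) (nat_lit 0) (XT.lf (nat_lit 0) (nat_lit 4097061014) (nat_lit 1216) (nat_lit 546912488) (nat_lit 1292) (nat_lit 2781239112) (nat_lit 493) (nat_lit 5) (nat_lit 509) (nat_lit 5) (nat_lit 510) (nat_lit 5) (nat_lit 414) (nat_lit 388) (nat_lit 338)) (XT.lf (nat_lit 0) (nat_lit 734244584) (nat_lit 1292) (nat_lit 5955314578) (nat_lit 1368) (nat_lit 787267031) (nat_lit 476) (nat_lit 5) (nat_lit 493) (nat_lit 5) (nat_lit 494) (nat_lit 5) (nat_lit 415) (nat_lit 388) (nat_lit 337))))) (XT.nd (nat_lit 234) (nat_lit 3040) (nat_lit 0) (XT.nd (nat_lit 78) (nat_lit 1368) (nat_lit 0) (XT.lf (nat_lit 0) (nat_lit 1215526452) (nat_lit 1368) (nat_lit 2651138768) (nat_lit 76) (nat_lit 3662976887) (nat_lit 475) (nat_lit 5) (nat_lit 493) (nat_lit 5) (nat_lit 476) (nat_lit 5) (nat_lit 416) (nat_lit 388) (nat_lit 336)) (XT.nd (nat_lit 78) (nat_lit 0) (nat_lit 0) (XT.lf (nat_lit 0) (nat_lit 1504044497) (nat_lit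 1368) (nat_lit 1713552802) (nat_lit 1444) (nat_lit 4366454722) (nat_lit 457) (nat_lit 5) (nat_lit 475) (nat_lit 5) (nat_lit 476) (nat_lit 5) (nat_lit 417) (nat_lit 388) (nat_lit 335)) (XT.lf (nat_lit 0) (nat_lit 5241359376) (nat_lit 1444) (nat_lit 1897434244) (nat_lit 76) (nat_lit 501159812) (nat_lit 457) (nat_lit 5) (nat_lit 476) (nat_lit 5) (nat_lit 458) (nat_lit 5) (nat_lit 418) (nat_lit 388) (nat_lit 334)))) (XT.nd (nat_lit 156) (nat_lit 1520) (nat_lit 0) (XT.nd (nat_lit 78) (nat_lit 76) (nat_lit 0) (XT.lf (nat_lit 0) (nat_lit 2355733522) (nat_lit 1444) (nat_lit 4937886537) (nat_lit 1520) (nat_lit 403627926) (nat_lit 438) (nat_lit 5) (nat_lit 457) (nat_lit 5) (nat_lit 458) (nat_lit 5) (nat_lit 419) (nat_lit 388) (nat_lit 333)) (XT.lf (nat_lit 0) (nat_lit 1584301391) (nat_lit 1520) (nat_lit 1079358595) (nat_lit 76) (nat_lit 5092361664) (nat_lit 437) (nat_lit 5) (nat_lit 457) (nat_lit 5) (nat_lit 438) (nat_lit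 5) (nat_lit 420) (nat_lit 388) (nat_lit 332))) (XT.nd (nat_lit 78) (nat_lit 0) (nat_lit 0) (XT.lf (nat_lit 0) (nat_lit 3276044757) (nat_lit 1520) (nat_lit 314208145) (nat_lit 1596) (nat_lit 4226024695) (nat_lit 417) (nat_lit 5) (nat_lit 437) (nat_lit 5) (nat_lit 438) (nat_lit 5) (nat_lit 421) (nat_lit 388) (nat_lit 331)) (XT.lf (nat_lit 0) (nat_lit 5620088197) (nat_lit 1596) (nat_lit 190856836) (nat_lit 76) (nat_lit 2067151205) (nat_lit 417) (nat_lit 5) (nat_lit 438) (nat_lit 5) (nat_lit 418) (nat_lit 5) (nat_lit 422) (nat_lit 388) (nat_lit 330)))))) (XT.nd (nat_lit 546) (nat_lit 3420) (nat_lit 0) (XT.nd (nat_lit 234) (nat_lit 2204) (nat_lit 0) (XT.nd (nat_lit 78) (nat_lit 1748) (nat_lit 0) (XT.lf (nat_lit 0) (nat_lit 4267152072) (nat_lit 1596) (nat_lit 3416835027) (nat_lit 1672) (nat_lit 257327043) (nat_lit 396) (nat_lit 5) (nat_lit 417) (nat_lit 5) (nat_lit 418) (nat_lit 5) (nat_lit 423) (nat_lit 388) (nat_lit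 329)) (XT.nd (nat_lit 78) (nat_lit 0) (nat_lit 0) (XT.lf (nat_lit 0) (nat_lit 777206757) (nat_lit 1672) (nat_lit 953023711) (nat_lit 1748) (nat_lit 6275960295) (nat_lit 373) (nat_lit 5) (nat_lit 395) (nat_lit 5) (nat_lit 396) (nat_lit 5) (nat_lit 424) (nat_lit 388) (nat_lit 328)) (XT.lf (nat_lit 0) (nat_lit 3753480105) (nat_lit 1748) (nat_lit 2749546867) (nat_lit 76) (nat_lit 1569346561) (nat_lit 373) (nat_lit 5) (nat_lit 396) (nat_lit 5) (nat_lit 374) (nat_lit 5) (nat_lit 425) (nat_lit 388) (nat_lit 327)))) (XT.nd (nat_lit 156) (nat_lit 912) (nat_lit 0) (XT.nd (nat_lit 78) (nat_lit 0) (nat_lit 0) (XT.lf (nat_lit 0) (nat_lit 1804395455) (nat_lit 1292) (nat_lit 3995958919) (nat_lit 1368) (nat_lit 2339892167) (nat_lit 356) (nat_lit 5) (nat_lit 373) (nat_lit 5) (nat_lit 374) (nat_lit 5) (nat_lit 426) (nat_lit 388) (nat_lit 326)) (XT.lf (nat_lit 0) (nat_lit 6454463745) (nat_lit 1292) (nat_lit 1417760633) (nat_lit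 1368) (nat_lit 337600654) (nat_lit 356) (nat_lit 5) (nat_lit 373) (nat_lit 5) (nat_lit 374) (nat_lit 5) (nat_lit 427) (nat_lit 388) (nat_lit 325))) (XT.nd (nat_lit 78) (nat_lit 0) (nat_lit 0) (XT.lf (nat_lit 0) (nat_lit 1675394126) (nat_lit 912) (nat_lit 5377195755) (nat_lit 76) (nat_lit 1228151597) (nat_lit 344) (nat_lit 5) (nat_lit 356) (nat_lit 5) (nat_lit 345) (nat_lit 5) (nat_lit 428) (nat_lit 388) (nat_lit 324)) (XT.lf (nat_lit 0) (nat_lit 3711879204) (nat_lit 912) (nat_lit 717687130) (nat_lit 76) (nat_lit 3923737775) (nat_lit 344) (nat_lit 5) (nat_lit 356) (nat_lit 5) (nat_lit 345) (nat_lit 5) (nat_lit 429) (nat_lit 388) (nat_lit 323))))) (XT.nd (nat_lit 234) (nat_lit 1672) (nat_lit 0) (XT.nd (nat_lit 78) (nat_lit 912) (nat_lit 0) (XT.lf (nat_lit 0) (nat_lit 4056280309) (nat_lit 836) (nat_lit 1726306696) (nat_lit 912) (nat_lit 2644888094) (nat_lit 333) (nat_lit 5) (nat_lit 344) (nat_lit 5) (nat_lit 345)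 (nat_lit 5) (nat_lit 430) (nat_lit 388) (nat_lit 322)) (XT.nd (nat_lit 78) (nat_lit 76) (nat_lit 0) (XT.lf (nat_lit 0) (nat_lit 398523990) (nat_lit 836) (nat_lit 7477913899) (nat_lit 912) (nat_lit 627083479) (nat_lit 322) (nat_lit 5) (nat_lit 333) (nat_lit 5) (nat_lit 334) (nat_lit 5) (nat_lit 431) (nat_lit 388) (nat_lit 321)) (XT.lf (nat_lit 0) (nat_lit 1421056605) (nat_lit 912) (nat_lit 3311169771) (nat_lit 76) (nat_lit 3848526805) (nat_lit 321) (nat_lit 5) (nat_lit 333) (nat_lit 5) (nat_lit 322) (nat_lit 5) (nat_lit 432) (nat_lit 388) (nat_lit 320)))) (XT.nd (nat_lit 156) (nat_lit 836) (nat_lit 0) (XT.nd (nat_lit 78) (nat_lit 0) (nat_lit 0) (XT.lf (nat_lit 0) (nat_lit 1562879498) (nat_lit 836) (nat_lit 1917458485) (nat_lit 912) (nat_lit 5179562155) (nat_lit 310) (nat_lit 5) (nat_lit 321) (nat_lit 5) (nat_lit 322) (nat_lit 5) (nat_lit 433) (nat_lit 388) (nat_lit 319)) (XT.lf (nat_lit 0) (nat_lit 5578192091)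 (nat_lit 912) (nat_lit 2199663368) (nat_lit 76) (nat_lit 962851259) (nat_lit 310) (nat_lit 5) (nat_lit 322) (nat_lit 5) (nat_lit 311) (nat_lit 5) (nat_lit 434) (nat_lit 388) (nat_lit 318))) (XT.nd (nat_lit 78) (nat_lit 76) (nat_lit 0) (XT.lf (nat_lit 0) (nat_lit 2787707192) (nat_lit 760) (nat_lit 4930534156) (nat_lit 836) (nat_lit 1104907264) (nat_lit 300) (nat_lit 5) (nat_lit 310) (nat_lit 5) (nat_lit 311) (nat_lit 5) (nat_lit 435) (nat_lit 388) (nat_lit 317)) (XT.lf (nat_lit 0) (nat_lit 965287556) (nat_lit 836) (nat_lit 1040866866) (nat_lit 76) (nat_lit 6901289486) (nat_lit 299) (nat_lit 5) (nat_lit 310) (nat_lit 5) (nat_lit 300) (nat_lit 5) (nat_lit 436) (nat_lit 388) (nat_lit 316))))))))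
noncomputable def xc123 : XT := (XT.nd (nat_lit 2184) (nat_lit 6004) (nat_lit 0) (XT.nd (nat_lit 1092) (nat_lit 4408) (nat_lit 0) (XT.nd (nat_lit 546) (nat_lit 2660) (nat_lit 0) (XT.nd (nat_lit 234) (nat_lit 1520) (nat_lit 0) (XT.nd (nat_lit 78) (nat_lit 684) (nat_lit 0) (XT.lf (nat_lit 0) (nat_lit 3065280752) (nat_lit 836) (nat_lit 4931672345) (nat_lit 76) (nat_lit 996284726) (nat_lit 289) (nat_lit 5) (nat_lit 300) (nat_lit 5) (nat_lit 290) (nat_lit 5) (nat_lit 437) (nat_lit 388) (nat_lit 315)) (XT.nd (nat_lit 78) (nat_lit 0) (nat_lit 0) (XT.lf (nat_lit 0) (nat_lit 156489058) (nat_lit 684) (nat_lit 5042694912) (nat_lit 760) (nat_lit 3881747565) (nat_lit 280) (nat_lit 5) (nat_lit 289) (nat_lit 5) (nat_lit 290) (nat_lit 5) (nat_lit 438) (nat_lit 388) (nat_lit 314)) (XT.lf (nat_lit 0) (nat_lit 5381693827) (nat_lit 684) (nat_lit 1998114799) (nat_lit 760) (nat_lit 1790511315) (nat_lit 280) (nat_lit 5) (nat_lit 289)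 (nat_lit 5) (nat_lit 290) (nat_lit 5) (nat_lit 439) (nat_lit 388) (nat_lit 313)))) (XT.nd (nat_lit 156) (nat_lit 684) (nat_lit 0) (XT.nd (nat_lit 78) (nat_lit 0) (nat_lit 0) (XT.lf (nat_lit 0) (nat_lit 325933142) (nat_lit 836) (nat_lit 7833957086) (nat_lit 76) (nat_lit 1101824731) (nat_lit 269) (nat_lit 5) (nat_lit 280) (nat_lit 5) (nat_lit 270) (nat_lit 5) (nat_lit 440) (nat_lit 388) (nat_lit 312)) (XT.lf (nat_lit 0) (nat_lit 2471229875) (nat_lit 836) (nat_lit 2611578224) (nat_lit 76) (nat_lit 4271703543) (nat_lit 269) (nat_lit 5) (nat_lit 280) (nat_lit 5) (nat_lit 270) (nat_lit 5) (nat_lit 441) (nat_lit 388) (nat_lit 311))) (XT.nd (nat_lit 78) (nat_lit 0) (nat_lit 0) (XT.lf (nat_lit 0) (nat_lit 2719825510) (nat_lit 684) (nat_lit 1929473130) (nat_lit 760) (nat_lit 4800088333) (nat_lit 260) (nat_lit 5) (nat_lit 269) (nat_lit 5) (nat_lit 270) (nat_lit 5) (nat_lit 442) (nat_lit 388) (nat_lit 310)) (XT.lf (nat_lit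 0) (nat_lit 6869454750) (nat_lit 760) (nat_lit 1392458428) (nat_lit 76) (nat_lit 1284295758) (nat_lit 260) (nat_lit 5) (nat_lit 270) (nat_lit 5) (nat_lit 261) (nat_lit 5) (nat_lit 443) (nat_lit 388) (nat_lit 309))))) (XT.nd (nat_lit 234) (nat_lit 1292) (nat_lit 0) (XT.nd (nat_lit 78) (nat_lit 684) (nat_lit 0) (XT.lf (nat_lit 0) (nat_lit 4061051083) (nat_lit 684) (nat_lit 5085175797) (nat_lit 760) (nat_lit 498515457) (nat_lit 251) (nat_lit 5) (nat_lit 260) (nat_lit 5) (nat_lit 261) (nat_lit 5) (nat_lit 444) (nat_lit 388) (nat_lit 308)) (XT.nd (nat_lit 78) (nat_lit 608) (nat_lit 0) (XT.lf (nat_lit 0) (nat_lit 1683295204) (nat_lit 760) (nat_lit 144795123) (nat_lit 76) (nat_lit 7917298649) (nat_lit 250) (nat_lit 5) (nat_lit 260) (nat_lit 5) (nat_lit 251) (nat_lit 5) (nat_lit 445) (nat_lit 388) (nat_lit 307)) (XT.lf (nat_lit 0) (nat_lit 3921054700) (nat_lit 684) (nat_lit 4417201648) (nat_lit 76) (nat_lit 1509364689)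 (nat_lit 242) (nat_lit 5) (nat_lit 251) (nat_lit 5) (nat_lit 243) (nat_lit 5) (nat_lit 446) (nat_lit 388) (nat_lit 306)))) (XT.nd (nat_lit 156) (nat_lit 684) (nat_lit 0) (XT.nd (nat_lit 78) (nat_lit 0) (nat_lit 0) (XT.lf (nat_lit 0) (nat_lit 1139359795) (nat_lit 608) (nat_lit 5058711244) (nat_lit 684) (nat_lit 3753954458) (nat_lit 234) (nat_lit 5) (nat_lit 242) (nat_lit 5) (nat_lit 243) (nat_lit 5) (nat_lit 447) (nat_lit 388) (nat_lit 305)) (XT.lf (nat_lit 0) (nat_lit 6836437981) (nat_lit 608) (nat_lit 1688162457) (nat_lit 684) (nat_lit 1533855598) (nat_lit 234) (nat_lit 5) (nat_lit 242) (nat_lit 5) (nat_lit 243) (nat_lit 5) (nat_lit 448) (nat_lit 388) (nat_lit 304))) (XT.nd (nat_lit 78) (nat_lit 0) (nat_lit 0) (XT.lf (nat_lit 0) (nat_lit 723268966) (nat_lit 684) (nat_lit 7700638420) (nat_lit 76) (nat_lit 1742985563) (nat_lit 225) (nat_lit 5) (nat_lit 234) (nat_lit 5) (nat_lit 226) (nat_lit 5) (nat_lit 449) (nat_lit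 388) (nat_lit 303)) (XT.lf (nat_lit 0) (nat_lit 3012881653) (nat_lit 684) (nat_lit 2017111887) (nat_lit 76) (nat_lit 5247161041) (nat_lit 225) (nat_lit 5) (nat_lit 234) (nat_lit 5) (nat_lit 226) (nat_lit 5) (nat_lit 450) (nat_lit 388) (nat_lit 302)))))) (XT.nd (nat_lit 546) (nat_lit 2128) (nat_lit 0) (XT.nd (nat_lit 234) (nat_lit 1140) (nat_lit 0) (XT.nd (nat_lit 78) (nat_lit 532) (nat_lit 0) (XT.lf (nat_lit 0) (nat_lit 3799988861) (nat_lit 608) (nat_lit 1548381791) (nat_lit 684) (nat_lit 5041265228) (nat_lit 217) (nat_lit 5) (nat_lit 225) (nat_lit 5) (nat_lit 226) (nat_lit 5) (nat_lit 451) (nat_lit 388) (nat_lit 301)) (XT.nd (nat_lit 78) (nat_lit 532) (nat_lit 0) (XT.lf (nat_lit 0) (nat_lit 7732864615) (nat_lit 684) (nat_lit 786618921) (nat_lit 76) (nat_lit 1984853165) (nat_lit 217) (nat_lit 5) (nat_lit 226) (nat_lit 5) (nat_lit 218) (nat_lit 5) (nat_lit 452) (nat_lit 388) (nat_lit 300)) (XT.lf (nat_lit 0) (nat_lit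 5160282421) (nat_lit 532) (nat_lit 5024667086) (nat_lit 608) (nat_lit 435999497) (nat_lit 210) (nat_lit 5) (nat_lit 217) (nat_lit 5) (nat_lit 218) (nat_lit 5) (nat_lit 453) (nat_lit 388) (nat_lit 299)))) (XT.nd (nat_lit 156) (nat_lit 532) (nat_lit 0) (XT.nd (nat_lit 78) (nat_lit 0) (nat_lit 0) (XT.lf (nat_lit 0) (nat_lit 460619994) (nat_lit 532) (nat_lit 1444590788) (nat_lit 608) (nat_lit 8834753887) (nat_lit 202) (nat_lit 5) (nat_lit 209) (nat_lit 5) (nat_lit 210) (nat_lit 5) (nat_lit 454) (nat_lit 388) (nat_lit 298)) (XT.lf (nat_lit 0) (nat_lit 4315112143) (nat_lit 608) (nat_lit 4333730551) (nat_lit 76) (nat_lit 2211920812) (nat_lit 202) (nat_lit 5) (nat_lit 210) (nat_lit 5) (nat_lit 203) (nat_lit 5) (nat_lit 455) (nat_lit 388) (nat_lit 297))) (XT.nd (nat_lit 78) (nat_lit 0) (nat_lit 0) (XT.lf (nat_lit 0) (nat_lit 1714304700) (nat_lit 532) (nat_lit 5056548133) (nat_lit 608) (nat_lit 4213186968) (nat_lit 195)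 (nat_lit 5) (nat_lit 202) (nat_lit 5) (nat_lit 203) (nat_lit 5) (nat_lit 456) (nat_lit 388) (nat_lit 296)) (XT.lf (nat_lit 0) (nat_lit 7912831244) (nat_lit 532) (nat_lit 1369165180) (nat_lit 608) (nat_lit 1827673467) (nat_lit 195) (nat_lit 5) (nat_lit 202) (nat_lit 5) (nat_lit 203) (nat_lit 5) (nat_lit 457) (nat_lit 388) (nat_lit 295))))) (XT.nd (nat_lit 234) (nat_lit 1064) (nat_lit 0) (XT.nd (nat_lit 78) (nat_lit 456) (nat_lit 0) (XT.lf (nat_lit 0) (nat_lit 610247966) (nat_lit 608) (nat_lit 8249422666) (nat_lit 76) (nat_lit 2377824009) (nat_lit 187) (nat_lit 5) (nat_lit 195) (nat_lit 5) (nat_lit 188) (nat_lit 5) (nat_lit 458) (nat_lit 388) (nat_lit 294)) (XT.nd (nat_lit 78) (nat_lit 456) (nat_lit 0) (XT.lf (nat_lit 0) (nat_lit 3080844173) (nat_lit 608) (nat_lit 2077924808) (nat_lit 76) (nat_lit 6208710729) (nat_lit 187) (nat_lit 5) (nat_lit 195) (nat_lit 5) (nat_lit 188) (nat_lit 5) (nat_lit 459) (nat_lit 388)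 (nat_lit 293)) (XT.lf (nat_lit 0) (nat_lit 4244057142) (nat_lit 456) (nat_lit 1362491725) (nat_lit 532) (nat_lit 5893414642) (nat_lit 181) (nat_lit 5) (nat_lit 187) (nat_lit 5) (nat_lit 188) (nat_lit 5) (nat_lit 460) (nat_lit 388) (nat_lit 292)))) (XT.nd (nat_lit 156) (nat_lit 532) (nat_lit 0) (XT.nd (nat_lit 78) (nat_lit 532) (nat_lit 0) (XT.lf (nat_lit 0) (nat_lit 8191439915) (nat_lit 532) (nat_lit 959379657) (nat_lit 76) (nat_lit 2484116675) (nat_lit 181) (nat_lit 5) (nat_lit 188) (nat_lit 5) (nat_lit 182) (nat_lit 5) (nat_lit 461) (nat_lit 388) (nat_lit 291)) (XT.lf (nat_lit 0) (nat_lit 5497905535) (nat_lit 532) (nat_lit 5353608338) (nat_lit 608) (nat_lit 920637321) (nat_lit 174) (nat_lit 5) (nat_lit 181) (nat_lit 5) (nat_lit 182) (nat_lit 5) (nat_lit 462) (nat_lit 388) (nat_lit 290))) (XT.nd (nat_lit 78) (nat_lit 0) (nat_lit 0) (XT.lf (nat_lit 0) (nat_lit 148167594) (nat_lit 456) (nat_lit 1469127577) (nat_lit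 532) (nat_lit 10294886807) (nat_lit 167) (nat_lit 5) (nat_lit 173) (nat_lit 5) (nat_lit 174) (nat_lit 5) (nat_lit 463) (nat_lit 388) (nat_lit 289)) (XT.lf (nat_lit 0) (nat_lit 4231272899) (nat_lit 532) (nat_lit 5321213939) (nat_lit 76) (nat_lit 2501664293) (nat_lit 167) (nat_lit 5) (nat_lit 174) (nat_lit 5) (nat_lit 168) (nat_lit 5) (nat_lit 464) (nat_lit 388) (nat_lit 288))))))) (XT.nd (nat_lit 1092) (nat_lit 2508) (nat_lit 0) (XT.nd (nat_lit 546) (nat_lit 1672) (nat_lit 0) (XT.nd (nat_lit 234) (nat_lit 912) (nat_lit 0) (XT.nd (nat_lit 78) (nat_lit 456) (nat_lit 0) (XT.lf (nat_lit 0) (nat_lit 1228830964) (nat_lit 456) (nat_lit 5665851613) (nat_lit 532) (nat_lit 5304345548) (nat_lit 161) (nat_lit 5) (nat_lit 167) (nat_lit 5) (nat_lit 168) (nat_lit 5) (nat_lit 465) (nat_lit 388) (nat_lit 287)) (XT.nd (nat_lit 78) (nat_lit 456) (nat_lit 0) (XT.lf (nat_lit 0) (nat_lit 7954192852) (nat_lit 456) (nat_lit 1672542890)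 (nat_lit 532) (nat_lit 2719770696) (nat_lit 161) (nat_lit 5) (nat_lit 167) (nat_lit 5) (nat_lit 168) (nat_lit 5) (nat_lit 466) (nat_lit 388) (nat_lit 286)) (XT.lf (nat_lit 0) (nat_lit 2304129123) (nat_lit 456) (nat_lit 10119865484) (nat_lit 532) (nat_lit 72739478) (nat_lit 155) (nat_lit 5) (nat_lit 161) (nat_lit 5) (nat_lit 162) (nat_lit 5) (nat_lit 467) (nat_lit 388) (nat_lit 285)))) (XT.nd (nat_lit 156) (nat_lit 380) (nat_lit 0) (XT.nd (nat_lit 78) (nat_lit 456) (nat_lit 0) (XT.lf (nat_lit 0) (nat_lit 2613612284) (nat_lit 532) (nat_lit 3511391063) (nat_lit 76) (nat_lit 6524215684) (nat_lit 154) (nat_lit 5) (nat_lit 161) (nat_lit 5) (nat_lit 155) (nat_lit 5) (nat_lit 468) (nat_lit 388) (nat_lit 284)) (XT.lf (nat_lit 0) (nat_lit 3319317914) (nat_lit 456) (nat_lit 2035431869) (nat_lit 532) (nat_lit 7449964048) (nat_lit 148) (nat_lit 5) (nat_lit 154) (nat_lit 5) (nat_lit 155) (nat_lit 5) (nat_lit 469) (nat_lit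 388) (nat_lit 283))) (XT.nd (nat_lit 78) (nat_lit 380) (nat_lit 0) (XT.lf (nat_lit 0) (nat_lit 8168935293) (nat_lit 532) (nat_lit 2669980929) (nat_lit 76) (nat_lit 2124048019) (nat_lit 148) (nat_lit 5) (nat_lit 155) (nat_lit 5) (nat_lit 149) (nat_lit 5) (nat_lit 470) (nat_lit 388) (nat_lit 282)) (XT.lf (nat_lit 0) (nat_lit 4297816927) (nat_lit 380) (nat_lit 6763989238) (nat_lit 456) (nat_lit 2062135479) (nat_lit 143) (nat_lit 5) (nat_lit 148) (nat_lit 5) (nat_lit 149) (nat_lit 5) (nat_lit 471) (nat_lit 388) (nat_lit 281))))) (XT.nd (nat_lit 234) (nat_lit 1140) (nat_lit 0) (XT.nd (nat_lit 78) (nat_lit 456) (nat_lit 0) (XT.lf (nat_lit 0) (nat_lit 714013783) (nat_lit 456) (nat_lit 1878336159) (nat_lit 76) (nat_lit 10695721848) (nat_lit 142) (nat_lit 5) (nat_lit 148) (nat_lit 5) (nat_lit 143) (nat_lit 5) (nat_lit 472) (nat_lit 388) (nat_lit 280)) (XT.nd (nat_lit 78) (nat_lit 0) (nat_lit 0) (XT.lf (nat_lit 0) (nat_lit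 3544616482) (nat_lit 532) (nat_lit 8228904958) (nat_lit 76) (nat_lit 1681169078) (nat_lit 136) (nat_lit 5) (nat_lit 143) (nat_lit 5) (nat_lit 137) (nat_lit 5) (nat_lit 473) (nat_lit 388) (nat_lit 279)) (XT.lf (nat_lit 0) (nat_lit 6443283653) (nat_lit 532) (nat_lit 1170711356) (nat_lit 76) (nat_lit 6010426817) (nat_lit 136) (nat_lit 5) (nat_lit 143) (nat_lit 5) (nat_lit 137) (nat_lit 5) (nat_lit 474) (nat_lit 388) (nat_lit 278)))) (XT.nd (nat_lit 156) (nat_lit 760) (nat_lit 0) (XT.nd (nat_lit 78) (nat_lit 0) (nat_lit 0) (XT.lf (nat_lit 0) (nat_lit 6082416604) (nat_lit 380) (nat_lit 3338955941) (nat_lit 456) (nat_lit 4375755323) (nat_lit 131) (nat_lit 5) (nat_lit 136) (nat_lit 5) (nat_lit 137) (nat_lit 5) (nat_lit 475) (nat_lit 388) (nat_lit 277)) (XT.lf (nat_lit 0) (nat_lit 12455655726) (nat_lit 456) (nat_lit 509484006) (nat_lit 76) (nat_lit 1008224544) (nat_lit 131) (nat_lit 5) (nat_lit 137) (nat_lit 5) (nat_lit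 132) (nat_lit 5) (nat_lit 476) (nat_lit 388) (nat_lit 276))) (XT.nd (nat_lit 78) (nat_lit 304) (nat_lit 0) (XT.lf (nat_lit 0) (nat_lit 1428728108) (nat_lit 456) (nat_lit 7279181934) (nat_lit 76) (nat_lit 5444051305) (nat_lit 125) (nat_lit 5) (nat_lit 131) (nat_lit 5) (nat_lit 126) (nat_lit 5) (nat_lit 477) (nat_lit 388) (nat_lit 275)) (XT.lf (nat_lit 0) (nat_lit 40282535) (nat_lit 304) (nat_lit 4359709079) (nat_lit 380) (nat_lit 9934222082) (nat_lit 121) (nat_lit 5) (nat_lit 125) (nat_lit 5) (nat_lit 126) (nat_lit 5) (nat_lit 478) (nat_lit 388) (nat_lit 274)))))) (XT.nd (nat_lit 546) (nat_lit 1368) (nat_lit 0) (XT.nd (nat_lit 234) (nat_lit 760) (nat_lit 0) (XT.nd (nat_lit 78) (nat_lit 380) (nat_lit 0) (XT.lf (nat_lit 0) (nat_lit 7462963151) (nat_lit 380) (nat_lit 6940976716) (nat_lit 76) (nat_lit 115533789) (nat_lit 121) (nat_lit 5) (nat_lit 126) (nat_lit 5) (nat_lit 122) (nat_lit 5) (nat_lit 479) (nat_lit 388)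 (nat_lit 273)) (XT.nd (nat_lit 78) (nat_lit 0) (nat_lit 0) (XT.lf (nat_lit 0) (nat_lit 511543472) (nat_lit 380) (nat_lit 10090807130) (nat_lit 456) (nat_lit 4105793141) (nat_lit 116) (nat_lit 5) (nat_lit 121) (nat_lit 5) (nat_lit 122) (nat_lit 5) (nat_lit 480) (nat_lit 388) (nat_lit 272)) (XT.lf (nat_lit 0) (nat_lit 8182037391) (nat_lit 380) (nat_lit 5652199659) (nat_lit 456) (nat_lit 1065763857) (nat_lit 116) (nat_lit 5) (nat_lit 121) (nat_lit 5) (nat_lit 122) (nat_lit 5) (nat_lit 481) (nat_lit 388) (nat_lit 271)))) (XT.nd (nat_lit 156) (nat_lit 380) (nat_lit 0) (XT.nd (nat_lit 78) (nat_lit 0) (nat_lit 0) (XT.lf (nat_lit 0) (nat_lit 883724238) (nat_lit 304) (nat_lit 1113736442) (nat_lit 380) (nat_lit 13098196168) (nat_lit 111) (nat_lit 5) (nat_lit 115) (nat_lit 5) (nat_lit 116) (nat_lit 5) (nat_lit 482) (nat_lit 388) (nat_lit 270)) (XT.lf (nat_lit 0) (nat_lit 5159356603) (nat_lit 380) (nat_lit 6621015055) (nat_lit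 76) (nat_lit 3513687252) (nat_lit 111) (nat_lit 5) (nat_lit 116) (nat_lit 5) (nat_lit 112) (nat_lit 5) (nat_lit 483) (nat_lit 388) (nat_lit 269))) (XT.nd (nat_lit 78) (nat_lit 0) (nat_lit 0) (XT.lf (nat_lit 0) (nat_lit 1104300012) (nat_lit 380) (nat_lit 7278519917) (nat_lit 456) (nat_lit 7113649791) (nat_lit 106) (nat_lit 5) (nat_lit 111) (nat_lit 5) (nat_lit 112) (nat_lit 5) (nat_lit 484) (nat_lit 388) (nat_lit 268)) (XT.lf (nat_lit 0) (nat_lit 9049504159) (nat_lit 380) (nat_lit 2649622517) (nat_lit 456) (nat_lit 4003241744) (nat_lit 106) (nat_lit 5) (nat_lit 111) (nat_lit 5) (nat_lit 112) (nat_lit 5) (nat_lit 485) (nat_lit 388) (nat_lit 267))))) (XT.nd (nat_lit 312) (nat_lit 684) (nat_lit 0) (XT.nd (nat_lit 156) (nat_lit 304) (nat_lit 0) (XT.nd (nat_lit 78) (nat_lit 76) (nat_lit 0) (XT.lf (nat_lit 0) (nat_lit 1219612904) (nat_lit 304) (nat_lit 13867722620) (nat_lit 380) (nat_lit 824945064) (nat_lit 102) (nat_lit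 5) (nat_lit 106) (nat_lit 5) (nat_lit 107) (nat_lit 5) (nat_lit 486) (nat_lit 388) (nat_lit 266)) (XT.lf (nat_lit 0) (nat_lit 2431955384) (nat_lit 380) (nat_lit 6843527354) (nat_lit 76) (nat_lit 6849666437) (nat_lit 101) (nat_lit 5) (nat_lit 106) (nat_lit 5) (nat_lit 102) (nat_lit 5) (nat_lit 487) (nat_lit 388) (nat_lit 265))) (XT.nd (nat_lit 78) (nat_lit 0) (nat_lit 0) (XT.lf (nat_lit 0) (nat_lit 1148454444) (nat_lit 304) (nat_lit 4586518176) (nat_lit 380) (nat_lit 10607359570) (nat_lit 97) (nat_lit 5) (nat_lit 101) (nat_lit 5) (nat_lit 102) (nat_lit 5) (nat_lit 488) (nat_lit 388) (nat_lit 264)) (XT.lf (nat_lit 0) (nat_lit 9136205795) (nat_lit 380) (nat_lit 7195319476) (nat_lit 76) (nat_lit 231696963) (nat_lit 97) (nat_lit 5) (nat_lit 102) (nat_lit 5) (nat_lit 98) (nat_lit 5) (nat_lit 489) (nat_lit 388) (nat_lit 263)))) (XT.nd (nat_lit 156) (nat_lit 380) (nat_lit 0) (XT.nd (nat_lit 78) (nat_lit 0) (nat_lit 0)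 (XT.lf (nat_lit 0) (nat_lit 921546801) (nat_lit 304) (nat_lit 11705229089) (nat_lit 380) (nat_lit 4161334298) (nat_lit 93) (nat_lit 5) (nat_lit 97) (nat_lit 5) (nat_lit 98) (nat_lit 5) (nat_lit 490) (nat_lit 388) (nat_lit 262)) (XT.lf (nat_lit 0) (nat_lit 9275063519) (nat_lit 304) (nat_lit 6945477159) (nat_lit 380) (nat_lit 796293785) (nat_lit 93) (nat_lit 5) (nat_lit 97) (nat_lit 5) (nat_lit 98) (nat_lit 5) (nat_lit 491) (nat_lit 388) (nat_lit 261))) (XT.nd (nat_lit 78) (nat_lit 0) (nat_lit 0) (XT.lf (nat_lit 0) (nat_lit 512151830) (nat_lit 304) (nat_lit 2077937013) (nat_lit 380) (nat_lit 14659935799) (nat_lit 88) (nat_lit 5) (nat_lit 92) (nat_lit 5) (nat_lit 93) (nat_lit 5) (nat_lit 492) (nat_lit 388) (nat_lit 260)) (XT.lf (nat_lit 0) (nat_lit 6089961250) (nat_lit 380) (nat_lit 8498166504) (nat_lit 76) (nat_lit 2898522978) (nat_lit 88) (nat_lit 5) (nat_lit 93) (nat_lit 5) (nat_lit 89) (nat_lit 5) (nat_lit 493)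 (nat_lit 388) (nat_lit 259))))))))
noncomputable def xc124 : XT := (XT.nd (nat_lit 2184) (nat_lit 608) (nat_lit 0) (XT.nd (nat_lit 1092) (nat_lit 1444) (nat_lit 0) (XT.nd (nat_lit 546) (nat_lit 912) (nat_lit 0) (XT.nd (nat_lit 234) (nat_lit 608) (nat_lit 0) (XT.nd (nat_lit 78) (nat_lit 228) (nat_lit 0) (XT.lf (nat_lit 0) (nat_lit 9659254147) (nat_lit 380) (nat_lit 130035256) (nat_lit 76) (nat_lit 7938737236) (nat_lit 88) (nat_lit 5) (nat_lit 93) (nat_lit 5) (nat_lit 89) (nat_lit 5) (nat_lit 494) (nat_lit 388) (nat_lit 258)) (XT.nd (nat_lit 78) (nat_lit 0) (nat_lit 0) (XT.lf (nat_lit 0) (nat_lit 8494703462) (nat_lit 228) (nat_lit 4846325698) (nat_lit 304) (nat_lit 4632384620) (nat_lit 85) (nat_lit 5) (nat_lit 88) (nat_lit 5) (nat_lit 89) (nat_lit 5) (nat_lit 495) (nat_lit 388) (nat_lit 257)) (XT.lf (nat_lit 0) (nat_lit 17084610476) (nat_lit 304) (nat_lit 953517034) (nat_lit 76) (nat_lit 185823270) (nat_lit 85)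 (nat_lit 5) (nat_lit 89) (nat_lit 5) (nat_lit 86) (nat_lit 5) (nat_lit 496) (nat_lit 388) (nat_lit 256)))) (XT.nd (nat_lit 156) (nat_lit 228) (nat_lit 0) (XT.nd (nat_lit 78) (nat_lit 0) (nat_lit 0) (XT.lf (nat_lit 0) (nat_lit 2461203609) (nat_lit 380) (nat_lit 10703872373) (nat_lit 76) (nat_lit 5312724661) (nat_lit 80) (nat_lit 5) (nat_lit 85) (nat_lit 5) (nat_lit 81) (nat_lit 5) (nat_lit 497) (nat_lit 388) (nat_lit 255)) (XT.lf (nat_lit 0) (nat_lit 6111287885) (nat_lit 380) (nat_lit 2077196995) (nat_lit 76) (nat_lit 10548241510) (nat_lit 80) (nat_lit 5) (nat_lit 85) (nat_lit 5) (nat_lit 81) (nat_lit 5) (nat_lit 498) (nat_lit 388) (nat_lit 254))) (XT.nd (nat_lit 78) (nat_lit 0) (nat_lit 0) (XT.lf (nat_lit 0) (nat_lit 6789630244) (nat_lit 228) (nat_lit 3075424438) (nat_lit 304) (nat_lit 9135167464) (nat_lit 77) (nat_lit 5) (nat_lit 80) (nat_lit 5) (nat_lit 81) (nat_lit 5) (nat_lit 499) (nat_lit 388) (nat_lit 253))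 (XT.lf (nat_lit 0) (nat_lit 13708492454) (nat_lit 304) (nat_lit 3442250434) (nat_lit 76) (nat_lit 2117958025) (nat_lit 77) (nat_lit 5) (nat_lit 81) (nat_lit 5) (nat_lit 78) (nat_lit 5) (nat_lit 500) (nat_lit 388) (nat_lit 252))))) (XT.nd (nat_lit 234) (nat_lit 304) (nat_lit 0) (XT.nd (nat_lit 78) (nat_lit 304) (nat_lit 0) (XT.lf (nat_lit 0) (nat_lit 5532566680) (nat_lit 304) (nat_lit 12139452415) (nat_lit 380) (nat_lit 1869670670) (nat_lit 73) (nat_lit 5) (nat_lit 77) (nat_lit 5) (nat_lit 78) (nat_lit 5) (nat_lit 501) (nat_lit 388) (nat_lit 251)) (XT.nd (nat_lit 78) (nat_lit 228) (nat_lit 0) (XT.lf (nat_lit 0) (nat_lit 1880042833) (nat_lit 380) (nat_lit 5119714159) (nat_lit 76) (nat_lit 12819935812) (nat_lit 72) (nat_lit 5) (nat_lit 77) (nat_lit 5) (nat_lit 73) (nat_lit 5) (nat_lit 502) (nat_lit 388) (nat_lit 250)) (XT.lf (nat_lit 0) (nat_lit 3966411396) (nat_lit 228) (nat_lit 1726297661) (nat_lit 304) (nat_lit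 14410044438) (nat_lit 69) (nat_lit 5) (nat_lit 72) (nat_lit 5) (nat_lit 73) (nat_lit 5) (nat_lit 503) (nat_lit 388) (nat_lit 249)))) (XT.nd (nat_lit 156) (nat_lit 76) (nat_lit 0) (XT.nd (nat_lit 78) (nat_lit 228) (nat_lit 0) (XT.lf (nat_lit 0) (nat_lit 9627210494) (nat_lit 304) (nat_lit 7131852648) (nat_lit 76) (nat_lit 3631505159) (nat_lit 69) (nat_lit 5) (nat_lit 73) (nat_lit 5) (nat_lit 70) (nat_lit 5) (nat_lit 504) (nat_lit 388) (nat_lit 248)) (XT.lf (nat_lit 0) (nat_lit 2047778516) (nat_lit 228) (nat_lit 11604883848) (nat_lit 304) (nat_lit 7031236278) (nat_lit 66) (nat_lit 5) (nat_lit 69) (nat_lit 5) (nat_lit 70) (nat_lit 5) (nat_lit 505) (nat_lit 388) (nat_lit 247))) (XT.nd (nat_lit 78) (nat_lit 76) (nat_lit 0) (XT.lf (nat_lit 0) (nat_lit 11487437849) (nat_lit 228) (nat_lit 6306689404) (nat_lit 304) (nat_lit 3188262619) (nat_lit 66) (nat_lit 5) (nat_lit 69) (nat_lit 5) (nat_lit 70) (nat_lit 5) (nat_lit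 506) (nat_lit 388) (nat_lit 246)) (XT.lf (nat_lit 0) (nat_lit 709779140) (nat_lit 304) (nat_lit 195718439) (nat_lit 76) (nat_lit 20381506477) (nat_lit 65) (nat_lit 5) (nat_lit 69) (nat_lit 5) (nat_lit 66) (nat_lit 5) (nat_lit 507) (nat_lit 388) (nat_lit 245)))))) (XT.nd (nat_lit 546) (nat_lit 456) (nat_lit 0) (XT.nd (nat_lit 234) (nat_lit 532) (nat_lit 0) (XT.nd (nat_lit 78) (nat_lit 228) (nat_lit 0) (XT.lf (nat_lit 0) (nat_lit 4722403892) (nat_lit 304) (nat_lit 12255016961) (nat_lit 76) (nat_lit 4618286031) (nat_lit 62) (nat_lit 5) (nat_lit 66) (nat_lit 5) (nat_lit 63) (nat_lit 5) (nat_lit 508) (nat_lit 388) (nat_lit 244)) (XT.nd (nat_lit 78) (nat_lit 228) (nat_lit 0) (XT.lf (nat_lit 0) (nat_lit 8810700698) (nat_lit 304) (nat_lit 2865761514) (nat_lit 76) (nat_lit 10234217195) (nat_lit 62) (nat_lit 5) (nat_lit 66) (nat_lit 5) (nat_lit 63) (nat_lit 5) (nat_lit 509) (nat_lit 388) (nat_lit 243)) (XT.lf (nat_lit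 0) (nat_lit 6780919759) (nat_lit 228) (nat_lit 6232204041) (nat_lit 304) (nat_lit 9218184323) (nat_lit 59) (nat_lit 5) (nat_lit 62) (nat_lit 5) (nat_lit 63) (nat_lit 5) (nat_lit 510) (nat_lit 388) (nat_lit 242)))) (XT.nd (nat_lit 156) (nat_lit 304) (nat_lit 0) (XT.nd (nat_lit 78) (nat_lit 228) (nat_lit 0) (XT.lf (nat_lit 0) (nat_lit 16640215468) (nat_lit 228) (nat_lit 667049105) (nat_lit 304) (nat_lit 5250935329) (nat_lit 59) (nat_lit 5) (nat_lit 62) (nat_lit 5) (nat_lit 63) (nat_lit 5) (nat_lit 511) (nat_lit 388) (nat_lit 241)) (XT.lf (nat_lit 0) (nat_lit 3803454513) (nat_lit 228) (nat_lit 17929669339) (nat_lit 304) (nat_lit 1157592748) (nat_lit 56) (nat_lit 5) (nat_lit 59) (nat_lit 5) (nat_lit 60) (nat_lit 5) (nat_lit 512) (nat_lit 388) (nat_lit 240))) (XT.nd (nat_lit 78) (nat_lit 228) (nat_lit 0) (XT.lf (nat_lit 0) (nat_lit 3011072611) (nat_lit 304) (nat_lit 9472821670) (nat_lit 76) (nat_lit 10744940502) (nat_lit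 55) (nat_lit 5) (nat_lit 59) (nat_lit 5) (nat_lit 56) (nat_lit 5) (nat_lit 513) (nat_lit 388) (nat_lit 239)) (XT.lf (nat_lit 0) (nat_lit 311700505) (nat_lit 228) (nat_lit 6926810803) (nat_lit 304) (nat_lit 16335236562) (nat_lit 52) (nat_lit 5) (nat_lit 55) (nat_lit 5) (nat_lit 56) (nat_lit 5) (nat_lit 514) (nat_lit 388) (nat_lit 238))))) (XT.nd (nat_lit 234) (nat_lit 304) (nat_lit 0) (XT.nd (nat_lit 78) (nat_lit 152) (nat_lit 0) (XT.lf (nat_lit 0) (nat_lit 10401813391) (nat_lit 228) (nat_lit 1201213185) (nat_lit 304) (nat_lit 12321485594) (nat_lit 52) (nat_lit 5) (nat_lit 55) (nat_lit 5) (nat_lit 56) (nat_lit 5) (nat_lit 515) (nat_lit 388) (nat_lit 237)) (XT.nd (nat_lit 78) (nat_lit 152) (nat_lit 0) (XT.lf (nat_lit 0) (nat_lit 16074080063) (nat_lit 304) (nat_lit 3636997847) (nat_lit 76) (nat_lit 4570832327) (nat_lit 52) (nat_lit 5) (nat_lit 56) (nat_lit 5) (nat_lit 53) (nat_lit 5) (nat_lit 516) (nat_lit 388)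 (nat_lit 236)) (XT.lf (nat_lit 0) (nat_lit 6505830487) (nat_lit 152) (nat_lit 14168261626) (nat_lit 228) (nat_lit 3971576774) (nat_lit 50) (nat_lit 5) (nat_lit 52) (nat_lit 5) (nat_lit 53) (nat_lit 5) (nat_lit 517) (nat_lit 388) (nat_lit 235)))) (XT.nd (nat_lit 156) (nat_lit 0) (nat_lit 0) (XT.nd (nat_lit 78) (nat_lit 228) (nat_lit 0) (XT.lf (nat_lit 0) (nat_lit 358749231) (nat_lit 228) (nat_lit 8135812087) (nat_lit 76) (nat_lit 16521820662) (nat_lit 49) (nat_lit 5) (nat_lit 52) (nat_lit 5) (nat_lit 50) (nat_lit 5) (nat_lit 518) (nat_lit 388) (nat_lit 234)) (XT.lf (nat_lit 0) (nat_lit 2051265067) (nat_lit 228) (nat_lit 2674175948) (nat_lit 304) (nat_lit 20668487680) (nat_lit 46) (nat_lit 5) (nat_lit 49) (nat_lit 5) (nat_lit 50) (nat_lit 5) (nat_lit 519) (nat_lit 388) (nat_lit 233))) (XT.nd (nat_lit 78) (nat_lit 0) (nat_lit 0) (XT.lf (nat_lit 0) (nat_lit 9245221824) (nat_lit 304) (nat_lit 13264790093) (nat_lit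 76) (nat_lit 3267702439) (nat_lit 46) (nat_lit 5) (nat_lit 50) (nat_lit 5) (nat_lit 47) (nat_lit 5) (nat_lit 520) (nat_lit 388) (nat_lit 232)) (XT.lf (nat_lit 0) (nat_lit 13862926624) (nat_lit 304) (nat_lit 3020400099) (nat_lit 76) (nat_lit 9285701491) (nat_lit 46) (nat_lit 5) (nat_lit 50) (nat_lit 5) (nat_lit 47) (nat_lit 5) (nat_lit 521) (nat_lit 388) (nat_lit 231))))))) (XT.nd (nat_lit 49608) (nat_lit 0) (nat_lit 37012) (XT.nd (nat_lit 49062) (nat_lit 0) (nat_lit 41648) (XT.nd (nat_lit 234) (nat_lit 152) (nat_lit 0) (XT.nd (nat_lit 78) (nat_lit 304) (nat_lit 0) (XT.lf (nat_lit 0) (nat_lit 7510386351) (nat_lit 152) (nat_lit 11101379815) (nat_lit 228) (nat_lit 7955629566) (nat_lit 44) (nat_lit 5) (nat_lit 46) (nat_lit 5) (nat_lit 47) (nat_lit 5) (nat_lit 522) (nat_lit 388) (nat_lit 230)) (XT.nd (nat_lit 78) (nat_lit 304) (nat_lit 0) (XT.lf (nat_lit 0) (nat_lit 18275851224) (nat_lit 152) (nat_lit 5190104113)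 (nat_lit 228) (nat_lit 3507570741) (nat_lit 44) (nat_lit 5) (nat_lit 46) (nat_lit 5) (nat_lit 47) (nat_lit 5) (nat_lit 523) (nat_lit 388) (nat_lit 229)) (XT.lf (nat_lit 0) (nat_lit 1023850190) (nat_lit 304) (nat_lit 25523123759) (nat_lit 76) (nat_lit 840516179) (nat_lit 40) (nat_lit 5) (nat_lit 44) (nat_lit 5) (nat_lit 41) (nat_lit 5) (nat_lit 524) (nat_lit 388) (nat_lit 228)))) (XT.nd (nat_lit 156) (nat_lit 152) (nat_lit 0) (XT.nd (nat_lit 78) (nat_lit 0) (nat_lit 0) (XT.lf (nat_lit 0) (nat_lit 5682371670) (nat_lit 304) (nat_lit 15127728770) (nat_lit 76) (nat_lit 6997503314) (nat_lit 40) (nat_lit 5) (nat_lit 44) (nat_lit 5) (nat_lit 41) (nat_lit 5) (nat_lit 525) (nat_lit 388) (nat_lit 227)) (XT.lf (nat_lit 0) (nat_lit 10424524895) (nat_lit 304) (nat_lit 4540821269) (nat_lit 76) (nat_lit 13270966973) (nat_lit 40) (nat_lit 5) (nat_lit 44) (nat_lit 5) (nat_lit 41) (nat_lit 5) (nat_lit 526) (nat_lit 388) (nat_lit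 226))) (XT.nd (nat_lit 48594) (nat_lit 0) (nat_lit 43016) (XT.lf (nat_lit 0) (nat_lit 6324700051) (nat_lit 152) (nat_lit 8968533631) (nat_lit 228) (nat_lit 13379731434) (nat_lit 38) (nat_lit 5) (nat_lit 40) (nat_lit 5) (nat_lit 41) (nat_lit 5) (nat_lit 527) (nat_lit 388) (nat_lit 225)) (XT.lf (nat_lit 0) (nat_lit 923576675) (nat_lit 684) (nat_lit 1188464908) (nat_lit 684) (nat_lit 1188464908) (nat_lit 604) (nat_lit 3) (nat_lit 613) (nat_lit 3) (nat_lit 613) (nat_lit 5) (nat_lit 389) (nat_lit 389) (nat_lit 362))))) (XT.nd (nat_lit 234) (nat_lit 684) (nat_lit 0) (XT.nd (nat_lit 78) (nat_lit 684) (nat_lit 0) (XT.lf (nat_lit 76) (nat_lit 693294206) (nat_lit 0) (nat_lit 3423674832) (nat_lit 684) (nat_lit 2502314315) (nat_lit 605) (nat_lit 5) (nat_lit 604) (nat_lit 3) (nat_lit 613) (nat_lit 5) (nat_lit 390) (nat_lit 389) (nat_lit 361)) (XT.nd (nat_lit 78) (nat_lit 684) (nat_lit 0) (XT.lf (nat_lit 76) (nat_lit 3826650022)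 (nat_lit 0) (nat_lit 2562347994) (nat_lit 684) (nat_lit 249855933) (nat_lit 605) (nat_lit 5) (nat_lit 604) (nat_lit 3) (nat_lit 613) (nat_lit 5) (nat_lit 391) (nat_lit 389) (nat_lit 360)) (XT.lf (nat_lit 76) (nat_lit 324072997) (nat_lit 0) (nat_lit 1640400620) (nat_lit 760) (nat_lit 4695271295) (nat_lit 596) (nat_lit 5) (nat_lit 595) (nat_lit 5) (nat_lit 605) (nat_lit 5) (nat_lit 392) (nat_lit 389) (nat_lit 359)))) (XT.nd (nat_lit 156) (nat_lit 684) (nat_lit 0) (XT.nd (nat_lit 78) (nat_lit 0) (nat_lit 76) (XT.lf (nat_lit 76) (nat_lit 3528981632) (nat_lit 0) (nat_lit 652146743) (nat_lit 760) (nat_lit 2500731661) (nat_lit 596) (nat_lit 5) (nat_lit 595) (nat_lit 5) (nat_lit 605) (nat_lit 5) (nat_lit 393) (nat_lit 389) (nat_lit 358)) (XT.lf (nat_lit 76) (nat_lit 60754382) (nat_lit 0) (nat_lit 6327885983) (nat_lit 760) (nat_lit 316912355) (nat_lit 597) (nat_lit 5) (nat_lit 596) (nat_lit 5) (nat_lit 606) (nat_lit 5)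 (nat_lit 394) (nat_lit 389) (nat_lit 357))) (XT.nd (nat_lit 78) (nat_lit 0) (nat_lit 0) (XT.lf (nat_lit 0) (nat_lit 1855431232) (nat_lit 760) (nat_lit 3396662388) (nat_lit 836) (nat_lit 1478042618) (nat_lit 586) (nat_lit 5) (nat_lit 596) (nat_lit 5) (nat_lit 597) (nat_lit 5) (nat_lit 395) (nat_lit 389) (nat_lit 356)) (XT.lf (nat_lit 0) (nat_lit 4012363671) (nat_lit 760) (nat_lit 116937434) (nat_lit 836) (nat_lit 2627022667) (nat_lit 586) (nat_lit 5) (nat_lit 596) (nat_lit 5) (nat_lit 597) (nat_lit 5) (nat_lit 396) (nat_lit 389) (nat_lit 355)))))) (XT.nd (nat_lit 546) (nat_lit 2964) (nat_lit 0) (XT.nd (nat_lit 234) (nat_lit 836) (nat_lit 0) (XT.nd (nat_lit 78) (nat_lit 836) (nat_lit 0) (XT.lf (nat_lit 76) (nat_lit 3240216313) (nat_lit 0) (nat_lit 2939708500) (nat_lit 836) (nat_lit 603821178) (nat_lit 587) (nat_lit 5) (nat_lit 586) (nat_lit 5) (nat_lit 597) (nat_lit 5) (nat_lit 397) (nat_lit 389) (nat_lit 354))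 (XT.nd (nat_lit 78) (nat_lit 0) (nat_lit 0) (XT.lf (nat_lit 0) (nat_lit 1506096850) (nat_lit 836) (nat_lit 187084690) (nat_lit 912) (nat_lit 5119434698) (nat_lit 575) (nat_lit 5) (nat_lit 586) (nat_lit 5) (nat_lit 587) (nat_lit 5) (nat_lit 398) (nat_lit 389) (nat_lit 353)) (XT.lf (nat_lit 76) (nat_lit 3244429807) (nat_lit 0) (nat_lit 374708921) (nat_lit 912) (nat_lit 3223522357) (nat_lit 576) (nat_lit 5) (nat_lit 575) (nat_lit 5) (nat_lit 587) (nat_lit 5) (nat_lit 399) (nat_lit 389) (nat_lit 352)))) (XT.nd (nat_lit 156) (nat_lit 0) (nat_lit 0) (XT.nd (nat_lit 78) (nat_lit 912) (nat_lit 0) (XT.lf (nat_lit 0) (nat_lit 5730900654) (nat_lit 836) (nat_lit 164104774) (nat_lit 912) (nat_lit 979228325) (nat_lit 576) (nat_lit 5) (nat_lit 587) (nat_lit 5) (nat_lit 588) (nat_lit 5) (nat_lit 400) (nat_lit 389) (nat_lit 351)) (XT.lf (nat_lit 0) (nat_lit 939526718) (nat_lit 912) (nat_lit 3564050589) (nat_lit 988) (nat_lit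 2403309452) (nat_lit 564) (nat_lit 5) (nat_lit 576) (nat_lit 5) (nat_lit 577) (nat_lit 5) (nat_lit 401) (nat_lit 389) (nat_lit 350))) (XT.nd (nat_lit 78) (nat_lit 0) (nat_lit 0) (XT.lf (nat_lit 0) (nat_lit 3000158622) (nat_lit 912) (nat_lit 57125212) (nat_lit 988) (nat_lit 3883782234) (nat_lit 564) (nat_lit 5) (nat_lit 576) (nat_lit 5) (nat_lit 577) (nat_lit 5) (nat_lit 402) (nat_lit 389) (nat_lit 349)) (XT.lf (nat_lit 76) (nat_lit 3535408353) (nat_lit 0) (nat_lit 1540824798) (nat_lit 988) (nat_lit 1900263047) (nat_lit 565) (nat_lit 5) (nat_lit 564) (nat_lit 5) (nat_lit 577) (nat_lit 5) (nat_lit 403) (nat_lit 389) (nat_lit 348))))) (XT.nd (nat_lit 234) (nat_lit 2052) (nat_lit 0) (XT.nd (nat_lit 78) (nat_lit 0) (nat_lit 0) (XT.lf (nat_lit 0) (nat_lit 132055836) (nat_lit 988) (nat_lit 6856326870) (nat_lit 1064) (nat_lit 25213759) (nat_lit 552) (nat_lit 5) (nat_lit 565) (nat_lit 5) (nat_lit 566) (nat_lit 5) (nat_lit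 404) (nat_lit 389) (nat_lit 347)) (XT.nd (nat_lit 78) (nat_lit 0) (nat_lit 0) (XT.lf (nat_lit 0) (nat_lit 2165564836) (nat_lit 988) (nat_lit 3231966914) (nat_lit 1064) (nat_lit 1653984855) (nat_lit 552) (nat_lit 5) (nat_lit 565) (nat_lit 5) (nat_lit 566) (nat_lit 5) (nat_lit 405) (nat_lit 389) (nat_lit 346)) (XT.lf (nat_lit 76) (nat_lit 438983213) (nat_lit 0) (nat_lit 3757057938) (nat_lit 1064) (nat_lit 2895075941) (nat_lit 553) (nat_lit 5) (nat_lit 552) (nat_lit 5) (nat_lit 566) (nat_lit 5) (nat_lit 406) (nat_lit 389) (nat_lit 345)))) (XT.nd (nat_lit 156) (nat_lit 988) (nat_lit 0) (XT.nd (nat_lit 78) (nat_lit 1064) (nat_lit 0) (XT.lf (nat_lit 76) (nat_lit 4195716388) (nat_lit 0) (nat_lit 2047254406) (nat_lit 1064) (nat_lit 889068871) (nat_lit 553) (nat_lit 5) (nat_lit 552) (nat_lit 5) (nat_lit 566) (nat_lit 5) (nat_lit 407) (nat_lit 389) (nat_lit 344)) (XT.lf (nat_lit 76) (nat_lit 825643089) (nat_lit 0) (nat_lit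 276312277) (nat_lit 1140) (nat_lit 6072518758) (nat_lit 539) (nat_lit 5) (nat_lit 538) (nat_lit 5) (nat_lit 553) (nat_lit 5) (nat_lit 408) (nat_lit 389) (nat_lit 343))) (XT.nd (nat_lit 78) (nat_lit 1064) (nat_lit 0) (XT.lf (nat_lit 0) (nat_lit 3106158440) (nat_lit 1064) (nat_lit 2562956547) (nat_lit 76) (nat_lit 1548863734) (nat_lit 539) (nat_lit 5) (nat_lit 553) (nat_lit 5) (nat_lit 540) (nat_lit 5) (nat_lit 409) (nat_lit 389) (nat_lit 342)) (XT.lf (nat_lit 0) (nat_lit 1281959541) (nat_lit 1064) (nat_lit 3834995127) (nat_lit 1140) (nat_lit 2146111934) (nat_lit 525) (nat_lit 5) (nat_lit 539) (nat_lit 5) (nat_lit 540) (nat_lit 5) (nat_lit 410) (nat_lit 389) (nat_lit 341))))))))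
noncomputable def xc125 : XT := (XT.nd (nat_lit 2184) (nat_lit 9728) (nat_lit 0) (XT.nd (nat_lit 1092) (nat_lit 8056) (nat_lit 0) (XT.nd (nat_lit 546) (nat_lit 6080) (nat_lit 0) (XT.nd (nat_lit 234) (nat_lit 2584) (nat_lit 0) (XT.nd (nat_lit 78) (nat_lit 1216) (nat_lit 0) (XT.lf (nat_lit 0) (nat_lit 5207064648) (nat_lit 1064) (nat_lit 1935108406) (nat_lit 1140) (nat_lit 167441586) (nat_lit 525) (nat_lit 5) (nat_lit 539) (nat_lit 5) (nat_lit 540) (nat_lit 5) (nat_lit 411) (nat_lit 389) (nat_lit 340)) (XT.nd (nat_lit 78) (nat_lit 0) (nat_lit 0) (XT.lf (nat_lit 0) (nat_lit 1796215508) (nat_lit 1216) (nat_lit 5523575778) (nat_lit 76) (nat_lit 37709152) (nat_lit 509) (nat_lit 5) (nat_lit 525) (nat_lit 5) (nat_lit 510) (nat_lit 5) (nat_lit 412) (nat_lit 389) (nat_lit 339)) (XT.lf (nat_lit 0) (nat_lit 3782152727) (nat_lit 1216) (nat_lit 1574628298) (nat_lit 76) (nat_lit 2049875882) (nat_lit 509) (nat_lit 5) (nat_lit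 525) (nat_lit 5) (nat_lit 510) (nat_lit 5) (nat_lit 413) (nat_lit 389) (nat_lit 338)))) (XT.nd (nat_lit 156) (nat_lit 1292) (nat_lit 0) (XT.nd (nat_lit 78) (nat_lit 76) (nat_lit 0) (XT.lf (nat_lit 0) (nat_lit 2453934527) (nat_lit 1216) (nat_lit 3328854760) (nat_lit 1292) (nat_lit 1674546892) (nat_lit 493) (nat_lit 5) (nat_lit 509) (nat_lit 5) (nat_lit 510) (nat_lit 5) (nat_lit 414) (nat_lit 389) (nat_lit 337)) (XT.lf (nat_lit 0) (nat_lit 280264847) (nat_lit 1292) (nat_lit 958433855) (nat_lit 76) (nat_lit 6270927690) (nat_lit 492) (nat_lit 5) (nat_lit 509) (nat_lit 5) (nat_lit 493) (nat_lit 5) (nat_lit 415) (nat_lit 389) (nat_lit 336))) (XT.nd (nat_lit 78) (nat_lit 0) (nat_lit 0) (XT.lf (nat_lit 0) (nat_lit 2238535510) (nat_lit 1368) (nat_lit 4402646737) (nat_lit 76) (nat_lit 921860110) (nat_lit 475) (nat_lit 5) (nat_lit 493) (nat_lit 5) (nat_lit 476) (nat_lit 5) (nat_lit 416) (nat_lit 389) (nat_lit 335)) (XT.lf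 (nat_lit 0) (nat_lit 4211421521) (nat_lit 1368) (nat_lit 283011725) (nat_lit 76) (nat_lit 3123620690) (nat_lit 475) (nat_lit 5) (nat_lit 493) (nat_lit 5) (nat_lit 476) (nat_lit 5) (nat_lit 417) (nat_lit 389) (nat_lit 334))))) (XT.nd (nat_lit 234) (nat_lit 3192) (nat_lit 0) (XT.nd (nat_lit 78) (nat_lit 1520) (nat_lit 0) (XT.lf (nat_lit 0) (nat_lit 3939346589) (nat_lit 1368) (nat_lit 2271537124) (nat_lit 1444) (nat_lit 1463575245) (nat_lit 457) (nat_lit 5) (nat_lit 475) (nat_lit 5) (nat_lit 476) (nat_lit 5) (nat_lit 418) (nat_lit 389) (nat_lit 333)) (XT.nd (nat_lit 78) (nat_lit 0) (nat_lit 0) (XT.lf (nat_lit 0) (nat_lit 478513482) (nat_lit 1520) (nat_lit 7243287544) (nat_lit 76) (nat_lit 10818576) (nat_lit 437) (nat_lit 5) (nat_lit 457) (nat_lit 5) (nat_lit 438) (nat_lit 5) (nat_lit 419) (nat_lit 389) (nat_lit 332)) (XT.lf (nat_lit 0) (nat_lit 2442531759) (nat_lit 1520) (nat_lit 2999736710) (nat_lit 76) (nat_lit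 2349461333) (nat_lit 437) (nat_lit 5) (nat_lit 457) (nat_lit 5) (nat_lit 438) (nat_lit 5) (nat_lit 420) (nat_lit 389) (nat_lit 331)))) (XT.nd (nat_lit 156) (nat_lit 1672) (nat_lit 0) (XT.nd (nat_lit 78) (nat_lit 0) (nat_lit 0) (XT.lf (nat_lit 0) (nat_lit 1314266575) (nat_lit 1520) (nat_lit 3103227188) (nat_lit 1596) (nat_lit 3435128048) (nat_lit 417) (nat_lit 5) (nat_lit 437) (nat_lit 5) (nat_lit 438) (nat_lit 5) (nat_lit 421) (nat_lit 389) (nat_lit 330)) (XT.lf (nat_lit 0) (nat_lit 5723764998) (nat_lit 1520) (nat_lit 691968852) (nat_lit 1596) (nat_lit 1499354461) (nat_lit 417) (nat_lit 5) (nat_lit 437) (nat_lit 5) (nat_lit 438) (nat_lit 5) (nat_lit 422) (nat_lit 389) (nat_lit 329))) (XT.nd (nat_lit 78) (nat_lit 0) (nat_lit 0) (XT.lf (nat_lit 0) (nat_lit 459147689) (nat_lit 1672) (nat_lit 5753251303) (nat_lit 76) (nat_lit 1766569537) (nat_lit 395) (nat_lit 5) (nat_lit 417) (nat_lit 5) (nat_lit 396) (nat_lit 5)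 (nat_lit 423) (nat_lit 389) (nat_lit 328)) (XT.lf (nat_lit 0) (nat_lit 2420771409) (nat_lit 1672) (nat_lit 1329537840) (nat_lit 76) (nat_lit 4293968697) (nat_lit 395) (nat_lit 5) (nat_lit 417) (nat_lit 5) (nat_lit 396) (nat_lit 5) (nat_lit 424) (nat_lit 389) (nat_lit 327)))))) (XT.nd (nat_lit 546) (nat_lit 3344) (nat_lit 0) (XT.nd (nat_lit 234) (nat_lit 1672) (nat_lit 0) (XT.nd (nat_lit 78) (nat_lit 1368) (nat_lit 0) (XT.lf (nat_lit 0) (nat_lit 3193256821) (nat_lit 1672) (nat_lit 1214421389) (nat_lit 1748) (nat_lit 3703524103) (nat_lit 373) (nat_lit 5) (nat_lit 395) (nat_lit 5) (nat_lit 396) (nat_lit 5) (nat_lit 425) (nat_lit 389) (nat_lit 326)) (XT.nd (nat_lit 78) (nat_lit 1368) (nat_lit 0) (XT.lf (nat_lit 0) (nat_lit 6418029824) (nat_lit 1748) (nat_lit 395526425) (nat_lit 76) (nat_lit 1366263974) (nat_lit 373) (nat_lit 5) (nat_lit 396) (nat_lit 5) (nat_lit 374) (nat_lit 5) (nat_lit 426) (nat_lit 389) (nat_lit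 325)) (XT.lf (nat_lit 0) (nat_lit 217910767) (nat_lit 1368) (nat_lit 4017586409) (nat_lit 76) (nat_lit 4014272921) (nat_lit 355) (nat_lit 5) (nat_lit 373) (nat_lit 5) (nat_lit 356) (nat_lit 5) (nat_lit 427) (nat_lit 389) (nat_lit 324)))) (XT.nd (nat_lit 156) (nat_lit 836) (nat_lit 0) (XT.nd (nat_lit 78) (nat_lit 0) (nat_lit 0) (XT.lf (nat_lit 0) (nat_lit 601504845) (nat_lit 836) (nat_lit 1585406170) (nat_lit 912) (nat_lit 6134536642) (nat_lit 344) (nat_lit 5) (nat_lit 355) (nat_lit 5) (nat_lit 356) (nat_lit 5) (nat_lit 428) (nat_lit 389) (nat_lit 323)) (XT.lf (nat_lit 0) (nat_lit 4196843654) (nat_lit 912) (nat_lit 3065947711) (nat_lit 76) (nat_lit 1131763322) (nat_lit 344) (nat_lit 5) (nat_lit 356) (nat_lit 5) (nat_lit 345) (nat_lit 5) (nat_lit 429) (nat_lit 389) (nat_lit 322))) (XT.nd (nat_lit 78) (nat_lit 0) (nat_lit 0) (XT.lf (nat_lit 0) (nat_lit 1661109542) (nat_lit 836) (nat_lit 4574950747) (nat_lit 912)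 (nat_lit 2233308300) (nat_lit 333) (nat_lit 5) (nat_lit 344) (nat_lit 5) (nat_lit 345) (nat_lit 5) (nat_lit 430) (nat_lit 389) (nat_lit 321)) (XT.lf (nat_lit 0) (nat_lit 6493169497) (nat_lit 836) (nat_lit 1811696268) (nat_lit 912) (nat_lit 241062833) (nat_lit 333) (nat_lit 5) (nat_lit 344) (nat_lit 5) (nat_lit 345) (nat_lit 5) (nat_lit 431) (nat_lit 389) (nat_lit 320))))) (XT.nd (nat_lit 234) (nat_lit 1596) (nat_lit 0) (XT.nd (nat_lit 78) (nat_lit 836) (nat_lit 0) (XT.lf (nat_lit 0) (nat_lit 1761023712) (nat_lit 912) (nat_lit 5838905732) (nat_lit 76) (nat_lit 1024012989) (nat_lit 321) (nat_lit 5) (nat_lit 333) (nat_lit 5) (nat_lit 322) (nat_lit 5) (nat_lit 432) (nat_lit 389) (nat_lit 319)) (XT.nd (nat_lit 78) (nat_lit 836) (nat_lit 0) (XT.lf (nat_lit 0) (nat_lit 3794830740) (nat_lit 912) (nat_lit 1000884613) (nat_lit 76) (nat_lit 3907895616) (nat_lit 321) (nat_lit 5) (nat_lit 333) (nat_lit 5) (nat_lit 322) (nat_lit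 5) (nat_lit 433) (nat_lit 389) (nat_lit 318)) (XT.lf (nat_lit 0) (nat_lit 3955010717) (nat_lit 836) (nat_lit 1909628073) (nat_lit 912) (nat_lit 2920351534) (nat_lit 310) (nat_lit 5) (nat_lit 321) (nat_lit 5) (nat_lit 322) (nat_lit 5) (nat_lit 434) (nat_lit 389) (nat_lit 317)))) (XT.nd (nat_lit 156) (nat_lit 760) (nat_lit 0) (XT.nd (nat_lit 78) (nat_lit 76) (nat_lit 0) (XT.lf (nat_lit 0) (nat_lit 119361376) (nat_lit 760) (nat_lit 7840771368) (nat_lit 836) (nat_lit 908202202) (nat_lit 300) (nat_lit 5) (nat_lit 310) (nat_lit 5) (nat_lit 311) (nat_lit 5) (nat_lit 435) (nat_lit 389) (nat_lit 316)) (XT.lf (nat_lit 0) (nat_lit 1144663819) (nat_lit 836) (nat_lit 3771214118) (nat_lit 76) (nat_lit 4037032913) (nat_lit 299) (nat_lit 5) (nat_lit 310) (nat_lit 5) (nat_lit 300) (nat_lit 5) (nat_lit 436) (nat_lit 389) (nat_lit 315))) (XT.nd (nat_lit 78) (nat_lit 0) (nat_lit 0) (XT.lf (nat_lit 0) (nat_lit 1286183206) (nat_lit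 760) (nat_lit 1919396493) (nat_lit 836) (nat_lit 5833917563) (nat_lit 289) (nat_lit 5) (nat_lit 299) (nat_lit 5) (nat_lit 300) (nat_lit 5) (nat_lit 437) (nat_lit 389) (nat_lit 314)) (XT.lf (nat_lit 0) (nat_lit 5311724808) (nat_lit 836) (nat_lit 2670166769) (nat_lit 76) (nat_lit 1145865295) (nat_lit 289) (nat_lit 5) (nat_lit 300) (nat_lit 5) (nat_lit 290) (nat_lit 5) (nat_lit 438) (nat_lit 389) (nat_lit 313))))))) (XT.nd (nat_lit 1092) (nat_lit 4256) (nat_lit 0) (XT.nd (nat_lit 546) (nat_lit 2508) (nat_lit 0) (XT.nd (nat_lit 234) (nat_lit 1444) (nat_lit 0) (XT.nd (nat_lit 78) (nat_lit 836) (nat_lit 0) (XT.lf (nat_lit 0) (nat_lit 2504230631) (nat_lit 684) (nat_lit 4956452382) (nat_lit 760) (nat_lit 1757106121) (nat_lit 280) (nat_lit 5) (nat_lit 289) (nat_lit 5) (nat_lit 290) (nat_lit 5) (nat_lit 439) (nat_lit 389) (nat_lit 312)) (XT.nd (nat_lit 78) (nat_lit 760) (nat_lit 0) (XT.lf (nat_lit 0) (nat_lit 328408585)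 (nat_lit 760) (nat_lit 1524036845) (nat_lit 76) (nat_lit 7457354334) (nat_lit 279) (nat_lit 5) (nat_lit 289) (nat_lit 5) (nat_lit 280) (nat_lit 5) (nat_lit 440) (nat_lit 389) (nat_lit 311)) (XT.lf (nat_lit 0) (nat_lit 2437826236) (nat_lit 836) (nat_lit 5635211145) (nat_lit 76) (nat_lit 1330286567) (nat_lit 269) (nat_lit 5) (nat_lit 280) (nat_lit 5) (nat_lit 270) (nat_lit 5) (nat_lit 441) (nat_lit 389) (nat_lit 310)))) (XT.nd (nat_lit 156) (nat_lit 760) (nat_lit 0) (XT.nd (nat_lit 78) (nat_lit 684) (nat_lit 0) (XT.lf (nat_lit 0) (nat_lit 4584747053) (nat_lit 836) (nat_lit 354569512) (nat_lit 76) (nat_lit 4559515399) (nat_lit 269) (nat_lit 5) (nat_lit 280) (nat_lit 5) (nat_lit 270) (nat_lit 5) (nat_lit 442) (nat_lit 389) (nat_lit 309)) (XT.lf (nat_lit 0) (nat_lit 5068269926) (nat_lit 684) (nat_lit 1712529344) (nat_lit 760) (nat_lit 2815346268) (nat_lit 260) (nat_lit 5) (nat_lit 269) (nat_lit 5) (nat_lit 270) (nat_lit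 5) (nat_lit 443) (nat_lit 389) (nat_lit 308))) (XT.nd (nat_lit 78) (nat_lit 76) (nat_lit 0) (XT.lf (nat_lit 0) (nat_lit 880075924) (nat_lit 684) (nat_lit 8132652300) (nat_lit 760) (nat_lit 682856927) (nat_lit 251) (nat_lit 5) (nat_lit 260) (nat_lit 5) (nat_lit 261) (nat_lit 5) (nat_lit 444) (nat_lit 389) (nat_lit 307)) (XT.lf (nat_lit 0) (nat_lit 1488365379) (nat_lit 760) (nat_lit 3390457440) (nat_lit 76) (nat_lit 4917702012) (nat_lit 250) (nat_lit 5) (nat_lit 260) (nat_lit 5) (nat_lit 251) (nat_lit 5) (nat_lit 445) (nat_lit 389) (nat_lit 306))))) (XT.nd (nat_lit 234) (nat_lit 1292) (nat_lit 0) (XT.nd (nat_lit 78) (nat_lit 608) (nat_lit 0) (XT.lf (nat_lit 0) (nat_lit 2136810304) (nat_lit 608) (nat_lit 1545183476) (nat_lit 684) (nat_lit 6217654541) (nat_lit 242) (nat_lit 5) (nat_lit 250) (nat_lit 5) (nat_lit 251) (nat_lit 5) (nat_lit 446) (nat_lit 389) (nat_lit 305)) (XT.nd (nat_lit 78) (nat_lit 608) (nat_lit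 0) (XT.lf (nat_lit 0) (nat_lit 5928970854) (nat_lit 684) (nat_lit 2226083624) (nat_lit 76) (nat_lit 1849607724) (nat_lit 242) (nat_lit 5) (nat_lit 251) (nat_lit 5) (nat_lit 243) (nat_lit 5) (nat_lit 447) (nat_lit 389) (nat_lit 304)) (XT.lf (nat_lit 0) (nat_lit 3426612586) (nat_lit 608) (nat_lit 4801784110) (nat_lit 684) (nat_lit 1883246581) (nat_lit 234) (nat_lit 5) (nat_lit 242) (nat_lit 5) (nat_lit 243) (nat_lit 5) (nat_lit 448) (nat_lit 389) (nat_lit 303)))) (XT.nd (nat_lit 156) (nat_lit 608) (nat_lit 0) (XT.nd (nat_lit 78) (nat_lit 608) (nat_lit 0) (XT.lf (nat_lit 0) (nat_lit 338601731) (nat_lit 684) (nat_lit 1029972015) (nat_lit 76) (nat_lit 8852357122) (nat_lit 233) (nat_lit 5) (nat_lit 242) (nat_lit 5) (nat_lit 234) (nat_lit 5) (nat_lit 449) (nat_lit 389) (nat_lit 302)) (XT.lf (nat_lit 0) (nat_lit 2600335451) (nat_lit 684) (nat_lit 5587087836) (nat_lit 76) (nat_lit 2144334772) (nat_lit 225) (nat_lit 5)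 (nat_lit 234) (nat_lit 5) (nat_lit 226) (nat_lit 5) (nat_lit 450) (nat_lit 389) (nat_lit 301))) (XT.nd (nat_lit 78) (nat_lit 0) (nat_lit 0) (XT.lf (nat_lit 0) (nat_lit 167848565) (nat_lit 608) (nat_lit 4732460021) (nat_lit 684) (nat_lit 5544648910) (nat_lit 217) (nat_lit 5) (nat_lit 225) (nat_lit 5) (nat_lit 226) (nat_lit 5) (nat_lit 451) (nat_lit 389) (nat_lit 300)) (XT.lf (nat_lit 0) (nat_lit 6084464298) (nat_lit 608) (nat_lit 1175486691) (nat_lit 684) (nat_lit 3300212026) (nat_lit 217) (nat_lit 5) (nat_lit 225) (nat_lit 5) (nat_lit 226) (nat_lit 5) (nat_lit 452) (nat_lit 389) (nat_lit 299)))))) (XT.nd (nat_lit 546) (nat_lit 1976) (nat_lit 0) (XT.nd (nat_lit 234) (nat_lit 1140) (nat_lit 0) (XT.nd (nat_lit 78) (nat_lit 608) (nat_lit 0) (XT.lf (nat_lit 0) (nat_lit 1415347609) (nat_lit 532) (nat_lit 8253162760) (nat_lit 608) (nat_lit 1009142978) (nat_lit 210) (nat_lit 5) (nat_lit 217) (nat_lit 5) (nat_lit 218)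 (nat_lit 5) (nat_lit 453) (nat_lit 389) (nat_lit 298)) (XT.nd (nat_lit 78) (nat_lit 532) (nat_lit 0) (XT.lf (nat_lit 0) (nat_lit 1325065935) (nat_lit 608) (nat_lit 3357776479) (nat_lit 76) (nat_lit 6114198613) (nat_lit 209) (nat_lit 5) (nat_lit 217) (nat_lit 5) (nat_lit 210) (nat_lit 5) (nat_lit 454) (nat_lit 389) (nat_lit 297)) (XT.lf (nat_lit 0) (nat_lit 2664514102) (nat_lit 532) (nat_lit 1022415762) (nat_lit 608) (nat_lit 7231877831) (nat_lit 202) (nat_lit 5) (nat_lit 209) (nat_lit 5) (nat_lit 210) (nat_lit 5) (nat_lit 455) (nat_lit 389) (nat_lit 296)))) (XT.nd (nat_lit 156) (nat_lit 608) (nat_lit 0) (XT.nd (nat_lit 78) (nat_lit 532) (nat_lit 0) (XT.lf (nat_lit 0) (nat_lit 6113711926) (nat_lit 608) (nat_lit 2236376387) (nat_lit 76) (nat_lit 2692581795) (nat_lit 202) (nat_lit 5) (nat_lit 210) (nat_lit 5) (nat_lit 203) (nat_lit 5) (nat_lit 456) (nat_lit 389) (nat_lit 295)) (XT.lf (nat_lit 0) (nat_lit 3918250958)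 (nat_lit 532) (nat_lit 4680828883) (nat_lit 608) (nat_lit 2569742678) (nat_lit 195) (nat_lit 5) (nat_lit 202) (nat_lit 5) (nat_lit 203) (nat_lit 5) (nat_lit 457) (nat_lit 389) (nat_lit 294))) (XT.nd (nat_lit 78) (nat_lit 608) (nat_lit 0) (XT.lf (nat_lit 0) (nat_lit 10198205677) (nat_lit 532) (nat_lit 929048275) (nat_lit 608) (nat_lit 170395535) (nat_lit 195) (nat_lit 5) (nat_lit 202) (nat_lit 5) (nat_lit 203) (nat_lit 5) (nat_lit 458) (nat_lit 389) (nat_lit 293)) (XT.lf (nat_lit 0) (nat_lit 2278301233) (nat_lit 608) (nat_lit 6247327010) (nat_lit 76) (nat_lit 2902517539) (nat_lit 187) (nat_lit 5) (nat_lit 195) (nat_lit 5) (nat_lit 188) (nat_lit 5) (nat_lit 459) (nat_lit 389) (nat_lit 292))))) (XT.nd (nat_lit 312) (nat_lit 912) (nat_lit 0) (XT.nd (nat_lit 156) (nat_lit 608) (nat_lit 0) (XT.nd (nat_lit 78) (nat_lit 0) (nat_lit 0) (XT.lf (nat_lit 0) (nat_lit 5176854) (nat_lit 456) (nat_lit 4760698507) (nat_lit 532)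 (nat_lit 6795523123) (nat_lit 181) (nat_lit 5) (nat_lit 187) (nat_lit 5) (nat_lit 188) (nat_lit 5) (nat_lit 460) (nat_lit 389) (nat_lit 291)) (XT.lf (nat_lit 0) (nat_lit 6439552968) (nat_lit 456) (nat_lit 884380087) (nat_lit 532) (nat_lit 4372980999) (nat_lit 181) (nat_lit 5) (nat_lit 187) (nat_lit 5) (nat_lit 188) (nat_lit 5) (nat_lit 461) (nat_lit 389) (nat_lit 290))) (XT.nd (nat_lit 78) (nat_lit 76) (nat_lit 0) (XT.lf (nat_lit 0) (nat_lit 1134728910) (nat_lit 532) (nat_lit 8804901679) (nat_lit 608) (nat_lit 1895391987) (nat_lit 174) (nat_lit 5) (nat_lit 181) (nat_lit 5) (nat_lit 182) (nat_lit 5) (nat_lit 462) (nat_lit 389) (nat_lit 289)) (XT.lf (nat_lit 0) (nat_lit 644097057) (nat_lit 608) (nat_lit 4287260250) (nat_lit 76) (nat_lit 7044052991) (nat_lit 173) (nat_lit 5) (nat_lit 181) (nat_lit 5) (nat_lit 174) (nat_lit 5) (nat_lit 463) (nat_lit 389) (nat_lit 288)))) (XT.nd (nat_lit 156) (nat_lit 456) (nat_lit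 0) (XT.nd (nat_lit 78) (nat_lit 0) (nat_lit 0) (XT.lf (nat_lit 0) (nat_lit 2243646613) (nat_lit 456) (nat_lit 959611162) (nat_lit 532) (nat_lit 8915223711) (nat_lit 167) (nat_lit 5) (nat_lit 173) (nat_lit 5) (nat_lit 174) (nat_lit 5) (nat_lit 464) (nat_lit 389) (nat_lit 287)) (XT.lf (nat_lit 0) (nat_lit 5842482268) (nat_lit 532) (nat_lit 3348264777) (nat_lit 76) (nat_lit 3073100726) (nat_lit 167) (nat_lit 5) (nat_lit 174) (nat_lit 5) (nat_lit 168) (nat_lit 5) (nat_lit 465) (nat_lit 389) (nat_lit 286))) (XT.nd (nat_lit 78) (nat_lit 0) (nat_lit 0) (XT.lf (nat_lit 0) (nat_lit 3319100935) (nat_lit 456) (nat_lit 5223538039) (nat_lit 532) (nat_lit 3869330515) (nat_lit 161) (nat_lit 5) (nat_lit 167) (nat_lit 5) (nat_lit 168) (nat_lit 5) (nat_lit 466) (nat_lit 389) (nat_lit 285)) (XT.lf (nat_lit 0) (nat_lit 10138466270) (nat_lit 456) (nat_lit 1161257858) (nat_lit 532) (nat_lit 1263281850) (nat_lit 161) (nat_lit 5) (nat_lit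 167) (nat_lit 5) (nat_lit 168) (nat_lit 5) (nat_lit 467) (nat_lit 389) (nat_lit 284))))))))
noncomputable def xc126 : XT := (XT.nd (nat_lit 2184) (nat_lit 3116) (nat_lit 0) (XT.nd (nat_lit 1092) (nat_lit 2356) (nat_lit 0) (XT.nd (nat_lit 546) (nat_lit 1520) (nat_lit 0) (XT.nd (nat_lit 234) (nat_lit 912) (nat_lit 0) (XT.nd (nat_lit 78) (nat_lit 456) (nat_lit 0) (XT.lf (nat_lit 0) (nat_lit 1405424789) (nat_lit 532) (nat_lit 8336952489) (nat_lit 76) (nat_lit 2973938589) (nat_lit 154) (nat_lit 5) (nat_lit 161) (nat_lit 5) (nat_lit 155) (nat_lit 5) (nat_lit 468) (nat_lit 389) (nat_lit 283)) (XT.nd (nat_lit 78) (nat_lit 456) (nat_lit 0) (XT.lf (nat_lit 0) (nat_lit 4115537458) (nat_lit 532) (nat_lit 1562969027) (nat_lit 76) (nat_lit 7193929738) (nat_lit 154) (nat_lit 5) (nat_lit 161) (nat_lit 5) (nat_lit 155) (nat_lit 5) (nat_lit 469) (nat_lit 389) (nat_lit 282)) (XT.lf (nat_lit 0) (nat_lit 5391073539) (nat_lit 456)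 (nat_lit 1505019788) (nat_lit 532) (nat_lit 6135270858) (nat_lit 148) (nat_lit 5) (nat_lit 154) (nat_lit 5) (nat_lit 155) (nat_lit 5) (nat_lit 470) (nat_lit 389) (nat_lit 281)))) (XT.nd (nat_lit 156) (nat_lit 532) (nat_lit 0) (XT.nd (nat_lit 78) (nat_lit 380) (nat_lit 0) (XT.lf (nat_lit 0) (nat_lit 9742075413) (nat_lit 532) (nat_lit 732101042) (nat_lit 76) (nat_lit 2719107771) (nat_lit 148) (nat_lit 5) (nat_lit 155) (nat_lit 5) (nat_lit 149) (nat_lit 5) (nat_lit 471) (nat_lit 389) (nat_lit 280)) (XT.lf (nat_lit 0) (nat_lit 6361952248) (nat_lit 380) (nat_lit 6316052725) (nat_lit 456) (nat_lit 679786770) (nat_lit 143) (nat_lit 5) (nat_lit 148) (nat_lit 5) (nat_lit 149) (nat_lit 5) (nat_lit 472) (nat_lit 389) (nat_lit 279))) (XT.nd (nat_lit 78) (nat_lit 0) (nat_lit 0) (XT.lf (nat_lit 0) (nat_lit 43058719) (nat_lit 456) (nat_lit 2062888200) (nat_lit 532) (nat_lit 11419632095) (nat_lit 136) (nat_lit 5) (nat_lit 142)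 (nat_lit 5) (nat_lit 143) (nat_lit 5) (nat_lit 473) (nat_lit 389) (nat_lit 278)) (XT.lf (nat_lit 0) (nat_lit 4982288420) (nat_lit 532) (nat_lit 6423805085) (nat_lit 76) (nat_lit 2289667823) (nat_lit 136) (nat_lit 5) (nat_lit 143) (nat_lit 5) (nat_lit 137) (nat_lit 5) (nat_lit 474) (nat_lit 389) (nat_lit 277))))) (XT.nd (nat_lit 234) (nat_lit 760) (nat_lit 0) (XT.nd (nat_lit 78) (nat_lit 380) (nat_lit 0) (XT.lf (nat_lit 0) (nat_lit 746724679) (nat_lit 380) (nat_lit 7170252887) (nat_lit 456) (nat_lit 5952362203) (nat_lit 131) (nat_lit 5) (nat_lit 136) (nat_lit 5) (nat_lit 137) (nat_lit 5) (nat_lit 475) (nat_lit 389) (nat_lit 276)) (XT.nd (nat_lit 78) (nat_lit 380) (nat_lit 0) (XT.lf (nat_lit 0) (nat_lit 8122417450) (nat_lit 380) (nat_lit 2813543654) (nat_lit 456) (nat_lit 3109925385) (nat_lit 131) (nat_lit 5) (nat_lit 136) (nat_lit 5) (nat_lit 137) (nat_lit 5) (nat_lit 476) (nat_lit 389) (nat_lit 275)) (XT.lf (nat_lit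 0) (nat_lit 1402337387) (nat_lit 380) (nat_lit 12615463816) (nat_lit 456) (nat_lit 208121954) (nat_lit 126) (nat_lit 5) (nat_lit 131) (nat_lit 5) (nat_lit 132) (nat_lit 5) (nat_lit 477) (nat_lit 389) (nat_lit 274)))) (XT.nd (nat_lit 156) (nat_lit 380) (nat_lit 0) (XT.nd (nat_lit 78) (nat_lit 304) (nat_lit 0) (XT.lf (nat_lit 0) (nat_lit 2757115172) (nat_lit 456) (nat_lit 5515773787) (nat_lit 76) (nat_lit 6135492760) (nat_lit 125) (nat_lit 5) (nat_lit 131) (nat_lit 5) (nat_lit 126) (nat_lit 5) (nat_lit 478) (nat_lit 389) (nat_lit 273)) (XT.lf (nat_lit 0) (nat_lit 1937520815) (nat_lit 304) (nat_lit 3837109512) (nat_lit 380) (nat_lit 8819924469) (nat_lit 121) (nat_lit 5) (nat_lit 125) (nat_lit 5) (nat_lit 126) (nat_lit 5) (nat_lit 479) (nat_lit 389) (nat_lit 272))) (XT.nd (nat_lit 78) (nat_lit 380) (nat_lit 0) (XT.lf (nat_lit 0) (nat_lit 8877514636) (nat_lit 380) (nat_lit 5198603487) (nat_lit 76) (nat_lit 707840733)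 (nat_lit 121) (nat_lit 5) (nat_lit 126) (nat_lit 5) (nat_lit 122) (nat_lit 5) (nat_lit 480) (nat_lit 389) (nat_lit 271)) (XT.lf (nat_lit 0) (nat_lit 2390590836) (nat_lit 380) (nat_lit 9676422944) (nat_lit 456) (nat_lit 2909653819) (nat_lit 116) (nat_lit 5) (nat_lit 121) (nat_lit 5) (nat_lit 122) (nat_lit 5) (nat_lit 481) (nat_lit 389) (nat_lit 270)))))) (XT.nd (nat_lit 546) (nat_lit 1216) (nat_lit 0) (XT.nd (nat_lit 234) (nat_lit 760) (nat_lit 0) (XT.nd (nat_lit 78) (nat_lit 304) (nat_lit 0) (XT.lf (nat_lit 0) (nat_lit 163933630) (nat_lit 456) (nat_lit 4996091971) (nat_lit 76) (nat_lit 10012817461) (nat_lit 115) (nat_lit 5) (nat_lit 121) (nat_lit 5) (nat_lit 116) (nat_lit 5) (nat_lit 482) (nat_lit 389) (nat_lit 269)) (XT.nd (nat_lit 78) (nat_lit 0) (nat_lit 0) (XT.lf (nat_lit 0) (nat_lit 2738405890) (nat_lit 304) (nat_lit 523436492) (nat_lit 380) (nat_lit 12110686098) (nat_lit 111) (nat_lit 5) (nat_lit 115) (nat_lit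 5) (nat_lit 116) (nat_lit 5) (nat_lit 483) (nat_lit 389) (nat_lit 268)) (XT.lf (nat_lit 0) (nat_lit 6466866999) (nat_lit 380) (nat_lit 4931796698) (nat_lit 76) (nat_lit 4176647910) (nat_lit 111) (nat_lit 5) (nat_lit 116) (nat_lit 5) (nat_lit 112) (nat_lit 5) (nat_lit 484) (nat_lit 389) (nat_lit 267)))) (XT.nd (nat_lit 156) (nat_lit 380) (nat_lit 0) (XT.nd (nat_lit 78) (nat_lit 0) (nat_lit 0) (XT.lf (nat_lit 0) (nat_lit 2936040206) (nat_lit 380) (nat_lit 6806894680) (nat_lit 456) (nat_lit 6039083670) (nat_lit 106) (nat_lit 5) (nat_lit 111) (nat_lit 5) (nat_lit 112) (nat_lit 5) (nat_lit 485) (nat_lit 389) (nat_lit 266)) (XT.lf (nat_lit 0) (nat_lit 11004665019) (nat_lit 380) (nat_lit 2097521208) (nat_lit 456) (nat_lit 2890327053) (nat_lit 106) (nat_lit 5) (nat_lit 111) (nat_lit 5) (nat_lit 112) (nat_lit 5) (nat_lit 486) (nat_lit 389) (nat_lit 265))) (XT.nd (nat_lit 78) (nat_lit 0) (nat_lit 0) (XT.lf (nat_lit 0)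 (nat_lit 339366061) (nat_lit 380) (nat_lit 13182670370) (nat_lit 76) (nat_lit 2684702809) (nat_lit 101) (nat_lit 5) (nat_lit 106) (nat_lit 5) (nat_lit 102) (nat_lit 5) (nat_lit 487) (nat_lit 389) (nat_lit 264)) (XT.lf (nat_lit 0) (nat_lit 3627432078) (nat_lit 380) (nat_lit 5217272943) (nat_lit 76) (nat_lit 7579519465) (nat_lit 101) (nat_lit 5) (nat_lit 106) (nat_lit 5) (nat_lit 102) (nat_lit 5) (nat_lit 488) (nat_lit 389) (nat_lit 263))))) (XT.nd (nat_lit 234) (nat_lit 608) (nat_lit 0) (XT.nd (nat_lit 78) (nat_lit 304) (nat_lit 0) (XT.lf (nat_lit 0) (nat_lit 2922948984) (nat_lit 304) (nat_lit 4062445728) (nat_lit 380) (nat_lit 9660588375) (nat_lit 97) (nat_lit 5) (nat_lit 101) (nat_lit 5) (nat_lit 102) (nat_lit 5) (nat_lit 489) (nat_lit 389) (nat_lit 262)) (XT.nd (nat_lit 78) (nat_lit 304) (nat_lit 0) (XT.lf (nat_lit 0) (nat_lit 10436303284) (nat_lit 380) (nat_lit 5603222927) (nat_lit 76) (nat_lit 832141144)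 (nat_lit 97) (nat_lit 5) (nat_lit 102) (nat_lit 5) (nat_lit 98) (nat_lit 5) (nat_lit 490) (nat_lit 389) (nat_lit 261)) (XT.lf (nat_lit 0) (nat_lit 2664559603) (nat_lit 304) (nat_lit 11321413025) (nat_lit 380) (nat_lit 3115303934) (nat_lit 93) (nat_lit 5) (nat_lit 97) (nat_lit 5) (nat_lit 98) (nat_lit 5) (nat_lit 491) (nat_lit 389) (nat_lit 260)))) (XT.nd (nat_lit 156) (nat_lit 228) (nat_lit 0) (XT.nd (nat_lit 78) (nat_lit 304) (nat_lit 0) (XT.lf (nat_lit 0) (nat_lit 291027491) (nat_lit 380) (nat_lit 6185601708) (nat_lit 76) (nat_lit 10858350887) (nat_lit 92) (nat_lit 5) (nat_lit 97) (nat_lit 5) (nat_lit 93) (nat_lit 5) (nat_lit 492) (nat_lit 389) (nat_lit 259)) (XT.lf (nat_lit 0) (nat_lit 2216904137) (nat_lit 304) (nat_lit 1507159679) (nat_lit 380) (nat_lit 13848881931) (nat_lit 88) (nat_lit 5) (nat_lit 92) (nat_lit 5) (nat_lit 93) (nat_lit 5) (nat_lit 493) (nat_lit 389) (nat_lit 258))) (XT.nd (nat_lit 78) (nat_lit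 228) (nat_lit 0) (XT.lf (nat_lit 0) (nat_lit 7276612327) (nat_lit 380) (nat_lit 6989097515) (nat_lit 76) (nat_lit 3548949493) (nat_lit 88) (nat_lit 5) (nat_lit 93) (nat_lit 5) (nat_lit 89) (nat_lit 5) (nat_lit 494) (nat_lit 389) (nat_lit 257)) (XT.lf (nat_lit 0) (nat_lit 1533587430) (nat_lit 228) (nat_lit 9372781270) (nat_lit 304) (nat_lit 7154720886) (nat_lit 85) (nat_lit 5) (nat_lit 88) (nat_lit 5) (nat_lit 89) (nat_lit 5) (nat_lit 495) (nat_lit 389) (nat_lit 256))))))) (XT.nd (nat_lit 1092) (nat_lit 1368) (nat_lit 0) (XT.nd (nat_lit 546) (nat_lit 836) (nat_lit 0) (XT.nd (nat_lit 234) (nat_lit 532) (nat_lit 0) (XT.nd (nat_lit 78) (nat_lit 380) (nat_lit 0) (XT.lf (nat_lit 0) (nat_lit 10299877976) (nat_lit 228) (nat_lit 4342091449) (nat_lit 304) (nat_lit 3669819457) (nat_lit 85) (nat_lit 5) (nat_lit 88) (nat_lit 5) (nat_lit 89) (nat_lit 5) (nat_lit 496) (nat_lit 389) (nat_lit 255)) (XT.nd (nat_lit 78) (nat_lit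 76) (nat_lit 0) (XT.lf (nat_lit 0) (nat_lit 656086418) (nat_lit 304) (nat_lit 17792145442) (nat_lit 380) (nat_lit 119356625) (nat_lit 81) (nat_lit 5) (nat_lit 85) (nat_lit 5) (nat_lit 86) (nat_lit 5) (nat_lit 497) (nat_lit 389) (nat_lit 254)) (XT.lf (nat_lit 0) (nat_lit 3525658406) (nat_lit 380) (nat_lit 9294660098) (nat_lit 76) (nat_lit 6006346450) (nat_lit 80) (nat_lit 5) (nat_lit 85) (nat_lit 5) (nat_lit 81) (nat_lit 5) (nat_lit 498) (nat_lit 389) (nat_lit 253)))) (XT.nd (nat_lit 156) (nat_lit 304) (nat_lit 0) (XT.nd (nat_lit 78) (nat_lit 228) (nat_lit 0) (XT.lf (nat_lit 0) (nat_lit 7228837882) (nat_lit 380) (nat_lit 527280423) (nat_lit 76) (nat_lit 11335056630) (nat_lit 80) (nat_lit 5) (nat_lit 85) (nat_lit 5) (nat_lit 81) (nat_lit 5) (nat_lit 499) (nat_lit 389) (nat_lit 252)) (XT.lf (nat_lit 0) (nat_lit 8506413225) (nat_lit 228) (nat_lit 2542015466) (nat_lit 304) (nat_lit 8311704383) (nat_lit 77) (nat_lit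 5) (nat_lit 80) (nat_lit 5) (nat_lit 81) (nat_lit 5) (nat_lit 500) (nat_lit 389) (nat_lit 251))) (XT.nd (nat_lit 78) (nat_lit 304) (nat_lit 0) (XT.lf (nat_lit 0) (nat_lit 14953187318) (nat_lit 304) (nat_lit 1945192215) (nat_lit 76) (nat_lit 2735920137) (nat_lit 77) (nat_lit 5) (nat_lit 81) (nat_lit 5) (nat_lit 78) (nat_lit 5) (nat_lit 501) (nat_lit 389) (nat_lit 250)) (XT.lf (nat_lit 0) (nat_lit 7198819246) (nat_lit 304) (nat_lit 11788235338) (nat_lit 380) (nat_lit 925879466) (nat_lit 73) (nat_lit 5) (nat_lit 77) (nat_lit 5) (nat_lit 78) (nat_lit 5) (nat_lit 502) (nat_lit 389) (nat_lit 249))))) (XT.nd (nat_lit 234) (nat_lit 532) (nat_lit 0) (XT.nd (nat_lit 78) (nat_lit 228) (nat_lit 0) (XT.lf (nat_lit 0) (nat_lit 2866973303) (nat_lit 380) (nat_lit 3684049382) (nat_lit 76) (nat_lit 13645733662) (nat_lit 72) (nat_lit 5) (nat_lit 77) (nat_lit 5) (nat_lit 73) (nat_lit 5) (nat_lit 503) (nat_lit 389) (nat_lit 248))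 (XT.nd (nat_lit 78) (nat_lit 0) (nat_lit 0) (XT.lf (nat_lit 0) (nat_lit 5573679875) (nat_lit 228) (nat_lit 1173519072) (nat_lit 304) (nat_lit 13738459922) (nat_lit 69) (nat_lit 5) (nat_lit 72) (nat_lit 5) (nat_lit 73) (nat_lit 5) (nat_lit 504) (nat_lit 389) (nat_lit 247)) (XT.lf (nat_lit 0) (nat_lit 10745684977) (nat_lit 304) (nat_lit 5761473253) (nat_lit 76) (nat_lit 4272372456) (nat_lit 69) (nat_lit 5) (nat_lit 73) (nat_lit 5) (nat_lit 70) (nat_lit 5) (nat_lit 505) (nat_lit 389) (nat_lit 246)))) (XT.nd (nat_lit 156) (nat_lit 304) (nat_lit 0) (XT.nd (nat_lit 78) (nat_lit 0) (nat_lit 0) (XT.lf (nat_lit 0) (nat_lit 3591796479) (nat_lit 228) (nat_lit 11251452789) (nat_lit 304) (nat_lit 6235652777) (nat_lit 66) (nat_lit 5) (nat_lit 69) (nat_lit 5) (nat_lit 70) (nat_lit 5) (nat_lit 506) (nat_lit 389) (nat_lit 245)) (XT.lf (nat_lit 0) (nat_lit 13190777187) (nat_lit 228) (nat_lit 5858775411) (nat_lit 304) (nat_lit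 2334176670) (nat_lit 66) (nat_lit 5) (nat_lit 69) (nat_lit 5) (nat_lit 70) (nat_lit 5) (nat_lit 507) (nat_lit 389) (nat_lit 244))) (XT.nd (nat_lit 78) (nat_lit 0) (nat_lit 0) (XT.lf (nat_lit 0) (nat_lit 1273877942) (nat_lit 228) (nat_lit 346420011) (nat_lit 304) (nat_lit 20074214503) (nat_lit 62) (nat_lit 5) (nat_lit 65) (nat_lit 5) (nat_lit 66) (nat_lit 5) (nat_lit 508) (nat_lit 389) (nat_lit 243)) (XT.lf (nat_lit 0) (nat_lit 5700570389) (nat_lit 304) (nat_lit 11038680505) (nat_lit 76) (nat_lit 5270396528) (nat_lit 62) (nat_lit 5) (nat_lit 66) (nat_lit 5) (nat_lit 63) (nat_lit 5) (nat_lit 509) (nat_lit 389) (nat_lit 242)))))) (XT.nd (nat_lit 546) (nat_lit 608) (nat_lit 0) (XT.nd (nat_lit 234) (nat_lit 532) (nat_lit 0) (XT.nd (nat_lit 78) (nat_lit 228) (nat_lit 0) (XT.lf (nat_lit 0) (nat_lit 9853305319) (nat_lit 304) (nat_lit 1490295572) (nat_lit 76) (nat_lit 10987670928) (nat_lit 62) (nat_lit 5) (nat_lit 66)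 (nat_lit 5) (nat_lit 63) (nat_lit 5) (nat_lit 510) (nat_lit 389) (nat_lit 241)) (XT.nd (nat_lit 78) (nat_lit 0) (nat_lit 0) (XT.lf (nat_lit 0) (nat_lit 8339893134) (nat_lit 228) (nat_lit 5792137063) (nat_lit 304) (nat_lit 8526443599) (nat_lit 59) (nat_lit 5) (nat_lit 62) (nat_lit 5) (nat_lit 63) (nat_lit 5) (nat_lit 511) (nat_lit 389) (nat_lit 240)) (XT.lf (nat_lit 0) (nat_lit 18368465836) (nat_lit 228) (nat_lit 126751794) (nat_lit 304) (nat_lit 4497028144) (nat_lit 59) (nat_lit 5) (nat_lit 62) (nat_lit 5) (nat_lit 63) (nat_lit 5) (nat_lit 512) (nat_lit 389) (nat_lit 239)))) (XT.nd (nat_lit 156) (nat_lit 228) (nat_lit 0) (XT.nd (nat_lit 78) (nat_lit 76) (nat_lit 0) (XT.lf (nat_lit 0) (nat_lit 5279223665) (nat_lit 228) (nat_lit 17726476280) (nat_lit 304) (nat_lit 325796271) (nat_lit 56) (nat_lit 5) (nat_lit 59) (nat_lit 5) (nat_lit 60) (nat_lit 5) (nat_lit 513) (nat_lit 389) (nat_lit 238)) (XT.lf (nat_lit 0) (nat_lit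 3898485760) (nat_lit 304) (nat_lit 8278764490) (nat_lit 76) (nat_lit 11499351686) (nat_lit 55) (nat_lit 5) (nat_lit 59) (nat_lit 5) (nat_lit 56) (nat_lit 5) (nat_lit 514) (nat_lit 389) (nat_lit 237))) (XT.nd (nat_lit 78) (nat_lit 0) (nat_lit 0) (XT.lf (nat_lit 0) (nat_lit 1692346065) (nat_lit 228) (nat_lit 6510831312) (nat_lit 304) (nat_lit 15825387035) (nat_lit 52) (nat_lit 5) (nat_lit 55) (nat_lit 5) (nat_lit 56) (nat_lit 5) (nat_lit 515) (nat_lit 389) (nat_lit 236)) (XT.lf (nat_lit 0) (nat_lit 11957311963) (nat_lit 228) (nat_lit 681594599) (nat_lit 304) (nat_lit 11747764071) (nat_lit 52) (nat_lit 5) (nat_lit 55) (nat_lit 5) (nat_lit 56) (nat_lit 5) (nat_lit 516) (nat_lit 389) (nat_lit 235))))) (XT.nd (nat_lit 234) (nat_lit 380) (nat_lit 0) (XT.nd (nat_lit 78) (nat_lit 228) (nat_lit 0) (XT.lf (nat_lit 0) (nat_lit 17187080434) (nat_lit 304) (nat_lit 2376145261) (nat_lit 76) (nat_lit 5188241990) (nat_lit 52)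 (nat_lit 5) (nat_lit 56) (nat_lit 5) (nat_lit 53) (nat_lit 5) (nat_lit 517) (nat_lit 389) (nat_lit 234)) (XT.nd (nat_lit 78) (nat_lit 76) (nat_lit 0) (XT.lf (nat_lit 0) (nat_lit 7960766005) (nat_lit 152) (nat_lit 13911408347) (nat_lit 228) (nat_lit 3250470432) (nat_lit 50) (nat_lit 5) (nat_lit 52) (nat_lit 5) (nat_lit 53) (nat_lit 5) (nat_lit 518) (nat_lit 389) (nat_lit 233)) (XT.lf (nat_lit 0) (nat_lit 1140471940) (nat_lit 228) (nat_lit 6989156989) (nat_lit 76) (nat_lit 17371353794) (nat_lit 49) (nat_lit 5) (nat_lit 52) (nat_lit 5) (nat_lit 50) (nat_lit 5) (nat_lit 519) (nat_lit 389) (nat_lit 232)))) (XT.nd (nat_lit 156) (nat_lit 152) (nat_lit 0) (XT.nd (nat_lit 78) (nat_lit 0) (nat_lit 0) (XT.lf (nat_lit 0) (nat_lit 3393047423) (nat_lit 228) (nat_lit 2194708304) (nat_lit 304) (nat_lit 20298464108) (nat_lit 46) (nat_lit 5) (nat_lit 49) (nat_lit 5) (nat_lit 50) (nat_lit 5) (nat_lit 520) (nat_lit 389) (nat_lit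 231)) (XT.lf (nat_lit 0) (nat_lit 10186269559) (nat_lit 304) (nat_lit 12242944507) (nat_lit 76) (nat_lit 3848704931) (nat_lit 46) (nat_lit 5) (nat_lit 50) (nat_lit 5) (nat_lit 47) (nat_lit 5) (nat_lit 521) (nat_lit 389) (nat_lit 230))) (XT.nd (nat_lit 78) (nat_lit 152) (nat_lit 0) (XT.lf (nat_lit 0) (nat_lit 14881502116) (nat_lit 304) (nat_lit 1818904780) (nat_lit 76) (nat_lit 9976953211) (nat_lit 46) (nat_lit 5) (nat_lit 50) (nat_lit 5) (nat_lit 47) (nat_lit 5) (nat_lit 522) (nat_lit 389) (nat_lit 229)) (XT.lf (nat_lit 0) (nat_lit 8914195403) (nat_lit 152) (nat_lit 10804726630) (nat_lit 228) (nat_lit 7364905229) (nat_lit 44) (nat_lit 5) (nat_lit 46) (nat_lit 5) (nat_lit 47) (nat_lit 5) (nat_lit 523) (nat_lit 389) (nat_lit 228))))))))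
noncomputable def xc127 : XT := (XT.nd (nat_lit 50856) (nat_lit 0) (nat_lit 16720) (XT.nd (nat_lit 49764) (nat_lit 0) (nat_lit 34428) (XT.nd (nat_lit 49218) (nat_lit 0) (nat_lit 39748) (XT.nd (nat_lit 48906) (nat_lit 0) (nat_lit 42180) (XT.nd (nat_lit 78) (nat_lit 304) (nat_lit 0) (XT.lf (nat_lit 0) (nat_lit 19870389156) (nat_lit 152) (nat_lit 4785395626) (nat_lit 228) (nat_lit 2842587912) (nat_lit 44) (nat_lit 5) (nat_lit 46) (nat_lit 5) (nat_lit 47) (nat_lit 5) (nat_lit 524) (nat_lit 389) (nat_lit 227)) (XT.nd (nat_lit 78) (nat_lit 0) (nat_lit 0) (XT.lf (nat_lit 0) (nat_lit 1766906088) (nat_lit 304) (nat_lit 24791595067) (nat_lit 76) (nat_lit 1362081796) (nat_lit 40) (nat_lit 5) (nat_lit 44) (nat_lit 5) (nat_lit 41) (nat_lit 5) (nat_lit 525) (nat_lit 389) (nat_lit 226)) (XT.lf (nat_lit 0) (nat_lit 6504429784) (nat_lit 304) (nat_lit 14212644946) (nat_lit 76) (nat_lit 7632311511) (nat_lit 40) (nat_lit 5) (nat_lit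 44) (nat_lit 5) (nat_lit 41) (nat_lit 5) (nat_lit 526) (nat_lit 389) (nat_lit 225)))) (XT.nd (nat_lit 156) (nat_lit 0) (nat_lit 0) (XT.nd (nat_lit 78) (nat_lit 684) (nat_lit 0) (XT.lf (nat_lit 0) (nat_lit 3174303043) (nat_lit 684) (nat_lit 72436608) (nat_lit 684) (nat_lit 72436608) (nat_lit 604) (nat_lit 3) (nat_lit 613) (nat_lit 3) (nat_lit 613) (nat_lit 5) (nat_lit 390) (nat_lit 390) (nat_lit 360)) (XT.lf (nat_lit 0) (nat_lit 1907087054) (nat_lit 684) (nat_lit 3699339392) (nat_lit 760) (nat_lit 1051873337) (nat_lit 595) (nat_lit 5) (nat_lit 604) (nat_lit 3) (nat_lit 605) (nat_lit 5) (nat_lit 391) (nat_lit 390) (nat_lit 359))) (XT.nd (nat_lit 78) (nat_lit 0) (nat_lit 0) (XT.lf (nat_lit 0) (nat_lit 4087678595) (nat_lit 684) (nat_lit 583854194) (nat_lit 760) (nat_lit 2008267931) (nat_lit 595) (nat_lit 5) (nat_lit 604) (nat_lit 3) (nat_lit 605) (nat_lit 5) (nat_lit 392) (nat_lit 390) (nat_lit 358)) (XT.lf (nat_lit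 76) (nat_lit 2598474258) (nat_lit 0) (nat_lit 3674120733) (nat_lit 760) (nat_lit 429988165) (nat_lit 596) (nat_lit 5) (nat_lit 595) (nat_lit 5) (nat_lit 605) (nat_lit 5) (nat_lit 393) (nat_lit 390) (nat_lit 357))))) (XT.nd (nat_lit 234) (nat_lit 1672) (nat_lit 0) (XT.nd (nat_lit 78) (nat_lit 0) (nat_lit 0) (XT.lf (nat_lit 0) (nat_lit 1700370941) (nat_lit 760) (nat_lit 915086883) (nat_lit 836) (nat_lit 4111230724) (nat_lit 585) (nat_lit 5) (nat_lit 595) (nat_lit 5) (nat_lit 596) (nat_lit 5) (nat_lit 394) (nat_lit 390) (nat_lit 356)) (XT.nd (nat_lit 78) (nat_lit 0) (nat_lit 0) (XT.lf (nat_lit 76) (nat_lit 2335940890) (nat_lit 0) (nat_lit 1492225452) (nat_lit 836) (nat_lit 2923903077) (nat_lit 586) (nat_lit 5) (nat_lit 585) (nat_lit 5) (nat_lit 596) (nat_lit 5) (nat_lit 395) (nat_lit 390) (nat_lit 355)) (XT.lf (nat_lit 76) (nat_lit 5635024595) (nat_lit 0) (nat_lit 315928181) (nat_lit 836) (nat_lit 828017164) (nat_lit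 586) (nat_lit 5) (nat_lit 585) (nat_lit 5) (nat_lit 596) (nat_lit 5) (nat_lit 396) (nat_lit 390) (nat_lit 354)))) (XT.nd (nat_lit 156) (nat_lit 912) (nat_lit 0) (XT.nd (nat_lit 78) (nat_lit 0) (nat_lit 0) (XT.lf (nat_lit 0) (nat_lit 1259771775) (nat_lit 836) (nat_lit 4628847958) (nat_lit 912) (nat_lit 918333766) (nat_lit 575) (nat_lit 5) (nat_lit 586) (nat_lit 5) (nat_lit 587) (nat_lit 5) (nat_lit 397) (nat_lit 390) (nat_lit 353)) (XT.lf (nat_lit 0) (nat_lit 3335997365) (nat_lit 836) (nat_lit 1291477761) (nat_lit 912) (nat_lit 2208814009) (nat_lit 575) (nat_lit 5) (nat_lit 586) (nat_lit 5) (nat_lit 587) (nat_lit 5) (nat_lit 398) (nat_lit 390) (nat_lit 352))) (XT.nd (nat_lit 78) (nat_lit 912) (nat_lit 0) (XT.lf (nat_lit 76) (nat_lit 2110305250) (nat_lit 0) (nat_lit 3306102646) (nat_lit 912) (nat_lit 1450606489) (nat_lit 576) (nat_lit 5) (nat_lit 575) (nat_lit 5) (nat_lit 587) (nat_lit 5) (nat_lit 399) (nat_lit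 390) (nat_lit 351)) (XT.lf (nat_lit 0) (nat_lit 589780918) (nat_lit 912) (nat_lit 1335304567) (nat_lit 988) (nat_lit 4974077409) (nat_lit 563) (nat_lit 5) (nat_lit 575) (nat_lit 5) (nat_lit 576) (nat_lit 5) (nat_lit 400) (nat_lit 390) (nat_lit 350)))))) (XT.nd (nat_lit 546) (nat_lit 3420) (nat_lit 0) (XT.nd (nat_lit 234) (nat_lit 1900) (nat_lit 0) (XT.nd (nat_lit 78) (nat_lit 0) (nat_lit 76) (XT.lf (nat_lit 76) (nat_lit 2143086400) (nat_lit 0) (nat_lit 472770309) (nat_lit 988) (nat_lit 4316672679) (nat_lit 564) (nat_lit 5) (nat_lit 563) (nat_lit 5) (nat_lit 576) (nat_lit 5) (nat_lit 401) (nat_lit 390) (nat_lit 349)) (XT.nd (nat_lit 78) (nat_lit 0) (nat_lit 0) (XT.lf (nat_lit 0) (nat_lit 4649298170) (nat_lit 912) (nat_lit 1294744032) (nat_lit 988) (nat_lit 1023235965) (nat_lit 564) (nat_lit 5) (nat_lit 576) (nat_lit 5) (nat_lit 577) (nat_lit 5) (nat_lit 402) (nat_lit 390) (nat_lit 348)) (XT.lf (nat_lit 76) (nat_lit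 2266146902) (nat_lit 0) (nat_lit 4427336963) (nat_lit 988) (nat_lit 309887367) (nat_lit 565) (nat_lit 5) (nat_lit 564) (nat_lit 5) (nat_lit 577) (nat_lit 5) (nat_lit 403) (nat_lit 390) (nat_lit 347)))) (XT.nd (nat_lit 156) (nat_lit 988) (nat_lit 0) (XT.nd (nat_lit 78) (nat_lit 0) (nat_lit 0) (XT.lf (nat_lit 0) (nat_lit 1676925871) (nat_lit 988) (nat_lit 1166321628) (nat_lit 1064) (nat_lit 4197534619) (nat_lit 551) (nat_lit 5) (nat_lit 564) (nat_lit 5) (nat_lit 565) (nat_lit 5) (nat_lit 404) (nat_lit 390) (nat_lit 346)) (XT.lf (nat_lit 76) (nat_lit 2476255472) (nat_lit 0) (nat_lit 1192692862) (nat_lit 1064) (nat_lit 3410607361) (nat_lit 552) (nat_lit 5) (nat_lit 551) (nat_lit 5) (nat_lit 565) (nat_lit 5) (nat_lit 405) (nat_lit 390) (nat_lit 345))) (XT.nd (nat_lit 78) (nat_lit 1064) (nat_lit 0) (XT.lf (nat_lit 0) (nat_lit 5666236553) (nat_lit 988) (nat_lit 945726903) (nat_lit 1064) (nat_lit 507879731) (nat_lit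 552) (nat_lit 5) (nat_lit 565) (nat_lit 5) (nat_lit 566) (nat_lit 5) (nat_lit 406) (nat_lit 390) (nat_lit 344)) (XT.lf (nat_lit 0) (nat_lit 516472429) (nat_lit 1064) (nat_lit 4381579918) (nat_lit 1140) (nat_lit 2263237685) (nat_lit 538) (nat_lit 5) (nat_lit 552) (nat_lit 5) (nat_lit 553) (nat_lit 5) (nat_lit 407) (nat_lit 390) (nat_lit 343))))) (XT.nd (nat_lit 234) (nat_lit 3420) (nat_lit 0) (XT.nd (nat_lit 78) (nat_lit 0) (nat_lit 0) (XT.lf (nat_lit 0) (nat_lit 2468495274) (nat_lit 1064) (nat_lit 651491328) (nat_lit 1140) (nat_lit 4084191164) (nat_lit 538) (nat_lit 5) (nat_lit 552) (nat_lit 5) (nat_lit 553) (nat_lit 5) (nat_lit 408) (nat_lit 390) (nat_lit 342)) (XT.nd (nat_lit 78) (nat_lit 0) (nat_lit 76) (XT.lf (nat_lit 76) (nat_lit 3164447081) (nat_lit 0) (nat_lit 1272127227) (nat_lit 1140) (nat_lit 2811852008) (nat_lit 539) (nat_lit 5) (nat_lit 538) (nat_lit 5) (nat_lit 553) (nat_lit 5) (nat_lit 409) (nat_lit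 390) (nat_lit 341)) (XT.lf (nat_lit 0) (nat_lit 6409605357) (nat_lit 1064) (nat_lit 262982313) (nat_lit 76) (nat_lit 621702881) (nat_lit 539) (nat_lit 5) (nat_lit 553) (nat_lit 5) (nat_lit 540) (nat_lit 5) (nat_lit 410) (nat_lit 390) (nat_lit 340)))) (XT.nd (nat_lit 156) (nat_lit 1216) (nat_lit 0) (XT.nd (nat_lit 78) (nat_lit 1140) (nat_lit 0) (XT.lf (nat_lit 0) (nat_lit 1056871061) (nat_lit 1140) (nat_lit 3704900797) (nat_lit 76) (nat_lit 2579400232) (nat_lit 524) (nat_lit 5) (nat_lit 539) (nat_lit 5) (nat_lit 525) (nat_lit 5) (nat_lit 411) (nat_lit 390) (nat_lit 339)) (XT.lf (nat_lit 0) (nat_lit 193969229) (nat_lit 1140) (nat_lit 2792853066) (nat_lit 1216) (nat_lit 4402863885) (nat_lit 509) (nat_lit 5) (nat_lit 524) (nat_lit 5) (nat_lit 525) (nat_lit 5) (nat_lit 412) (nat_lit 390) (nat_lit 338))) (XT.nd (nat_lit 78) (nat_lit 1216) (nat_lit 0) (XT.lf (nat_lit 0) (nat_lit 4190417361) (nat_lit 1140) (nat_lit 748797536)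 (nat_lit 1216) (nat_lit 2500318095) (nat_lit 509) (nat_lit 5) (nat_lit 524) (nat_lit 5) (nat_lit 525) (nat_lit 5) (nat_lit 413) (nat_lit 390) (nat_lit 337)) (XT.lf (nat_lit 0) (nat_lit 746605663) (nat_lit 1216) (nat_lit 6157423253) (nat_lit 1292) (nat_lit 586918865) (nat_lit 493) (nat_lit 5) (nat_lit 509) (nat_lit 5) (nat_lit 510) (nat_lit 5) (nat_lit 414) (nat_lit 390) (nat_lit 336))))))) (XT.nd (nat_lit 1092) (nat_lit 7220) (nat_lit 0) (XT.nd (nat_lit 546) (nat_lit 6232) (nat_lit 0) (XT.nd (nat_lit 234) (nat_lit 2888) (nat_lit 0) (XT.nd (nat_lit 78) (nat_lit 1292) (nat_lit 0) (XT.lf (nat_lit 0) (nat_lit 1333895513) (nat_lit 1292) (nat_lit 2721927054) (nat_lit 76) (nat_lit 3487687179) (nat_lit 492) (nat_lit 5) (nat_lit 509) (nat_lit 5) (nat_lit 493) (nat_lit 5) (nat_lit 415) (nat_lit 390) (nat_lit 335)) (XT.nd (nat_lit 78) (nat_lit 0) (nat_lit 0) (XT.lf (nat_lit 0) (nat_lit 1364263476) (nat_lit 1292) (nat_lit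 1890789980) (nat_lit 1368) (nat_lit 4342632477) (nat_lit 475) (nat_lit 5) (nat_lit 492) (nat_lit 5) (nat_lit 493) (nat_lit 5) (nat_lit 416) (nat_lit 390) (nat_lit 334)) (XT.lf (nat_lit 0) (nat_lit 5196624398) (nat_lit 1368) (nat_lit 2117023378) (nat_lit 76) (nat_lit 339693651) (nat_lit 475) (nat_lit 5) (nat_lit 493) (nat_lit 5) (nat_lit 476) (nat_lit 5) (nat_lit 417) (nat_lit 390) (nat_lit 333)))) (XT.nd (nat_lit 156) (nat_lit 1444) (nat_lit 0) (XT.nd (nat_lit 78) (nat_lit 76) (nat_lit 0) (XT.lf (nat_lit 0) (nat_lit 2065551743) (nat_lit 1368) (nat_lit 5099703431) (nat_lit 1444) (nat_lit 545125173) (nat_lit 457) (nat_lit 5) (nat_lit 475) (nat_lit 5) (nat_lit 476) (nat_lit 5) (nat_lit 418) (nat_lit 390) (nat_lit 332)) (XT.lf (nat_lit 0) (nat_lit 1363133056) (nat_lit 1444) (nat_lit 1448064311) (nat_lit 76) (nat_lit 4957676655) (nat_lit 456) (nat_lit 5) (nat_lit 475) (nat_lit 5) (nat_lit 457) (nat_lit 5) (nat_lit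 419) (nat_lit 390) (nat_lit 331))) (XT.nd (nat_lit 78) (nat_lit 0) (nat_lit 0) (XT.lf (nat_lit 0) (nat_lit 2835776440) (nat_lit 1444) (nat_lit 448190514) (nat_lit 1520) (nat_lit 4544897230) (nat_lit 437) (nat_lit 5) (nat_lit 456) (nat_lit 5) (nat_lit 457) (nat_lit 5) (nat_lit 420) (nat_lit 390) (nat_lit 330)) (XT.lf (nat_lit 0) (nat_lit 5229591466) (nat_lit 1520) (nat_lit 708775071) (nat_lit 76) (nat_lit 1951992360) (nat_lit 437) (nat_lit 5) (nat_lit 457) (nat_lit 5) (nat_lit 438) (nat_lit 5) (nat_lit 421) (nat_lit 390) (nat_lit 329))))) (XT.nd (nat_lit 234) (nat_lit 3040) (nat_lit 0) (XT.nd (nat_lit 78) (nat_lit 1672) (nat_lit 0) (XT.lf (nat_lit 0) (nat_lit 3676041461) (nat_lit 1520) (nat_lit 3529484422) (nat_lit 1596) (nat_lit 747761269) (nat_lit 417) (nat_lit 5) (nat_lit 437) (nat_lit 5) (nat_lit 438) (nat_lit 5) (nat_lit 422) (nat_lit 390) (nat_lit 328)) (XT.nd (nat_lit 78) (nat_lit 0) (nat_lit 0) (XT.lf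 (nat_lit 0) (nat_lit 103571827) (nat_lit 1596) (nat_lit 1054407840) (nat_lit 1672) (nat_lit 6859963218) (nat_lit 395) (nat_lit 5) (nat_lit 416) (nat_lit 5) (nat_lit 417) (nat_lit 5) (nat_lit 423) (nat_lit 390) (nat_lit 327)) (XT.lf (nat_lit 0) (nat_lit 3095588099) (nat_lit 1672) (nat_lit 3499293467) (nat_lit 76) (nat_lit 1488865782) (nat_lit 395) (nat_lit 5) (nat_lit 417) (nat_lit 5) (nat_lit 396) (nat_lit 5) (nat_lit 424) (nat_lit 390) (nat_lit 326)))) (XT.nd (nat_lit 156) (nat_lit 1368) (nat_lit 0) (XT.nd (nat_lit 78) (nat_lit 0) (nat_lit 0) (XT.lf (nat_lit 0) (nat_lit 979286352) (nat_lit 1672) (nat_lit 4072001265) (nat_lit 1748) (nat_lit 3100022694) (nat_lit 373) (nat_lit 5) (nat_lit 395) (nat_lit 5) (nat_lit 396) (nat_lit 5) (nat_lit 425) (nat_lit 390) (nat_lit 325)) (XT.lf (nat_lit 0) (nat_lit 5564413316) (nat_lit 1672) (nat_lit 1471636772) (nat_lit 1748) (nat_lit 1184404083) (nat_lit 373) (nat_lit 5) (nat_lit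 395) (nat_lit 5) (nat_lit 396) (nat_lit 5) (nat_lit 426) (nat_lit 390) (nat_lit 324))) (XT.nd (nat_lit 78) (nat_lit 0) (nat_lit 0) (XT.lf (nat_lit 0) (nat_lit 746712413) (nat_lit 1368) (nat_lit 6358734319) (nat_lit 76) (nat_lit 1185716197) (nat_lit 355) (nat_lit 5) (nat_lit 373) (nat_lit 5) (nat_lit 356) (nat_lit 5) (nat_lit 427) (nat_lit 390) (nat_lit 323)) (XT.lf (nat_lit 0) (nat_lit 2695643559) (nat_lit 1368) (nat_lit 1762792305) (nat_lit 76) (nat_lit 3904819357) (nat_lit 355) (nat_lit 5) (nat_lit 373) (nat_lit 5) (nat_lit 356) (nat_lit 5) (nat_lit 428) (nat_lit 390) (nat_lit 322)))))) (XT.nd (nat_lit 546) (nat_lit 3800) (nat_lit 0) (XT.nd (nat_lit 234) (nat_lit 1672) (nat_lit 0) (XT.nd (nat_lit 78) (nat_lit 912) (nat_lit 0) (XT.lf (nat_lit 0) (nat_lit 2933317973) (nat_lit 836) (nat_lit 1737269869) (nat_lit 912) (nat_lit 3766487265) (nat_lit 344) (nat_lit 5) (nat_lit 355) (nat_lit 5) (nat_lit 356) (nat_lit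 5) (nat_lit 429) (nat_lit 390) (nat_lit 321)) (XT.nd (nat_lit 78) (nat_lit 912) (nat_lit 0) (XT.lf (nat_lit 0) (nat_lit 6672112367) (nat_lit 912) (nat_lit 802399347) (nat_lit 76) (nat_lit 1038143967) (nat_lit 344) (nat_lit 5) (nat_lit 356) (nat_lit 5) (nat_lit 345) (nat_lit 5) (nat_lit 430) (nat_lit 390) (nat_lit 320)) (XT.lf (nat_lit 0) (nat_lit 128864969) (nat_lit 912) (nat_lit 4586586157) (nat_lit 76) (nat_lit 3874174151) (nat_lit 332) (nat_lit 5) (nat_lit 344) (nat_lit 5) (nat_lit 333) (nat_lit 5) (nat_lit 431) (nat_lit 390) (nat_lit 319)))) (XT.nd (nat_lit 156) (nat_lit 836) (nat_lit 0) (XT.nd (nat_lit 78) (nat_lit 0) (nat_lit 0) (XT.lf (nat_lit 0) (nat_lit 207610845) (nat_lit 836) (nat_lit 1881434090) (nat_lit 912) (nat_lit 6579349864) (nat_lit 321) (nat_lit 5) (nat_lit 332) (nat_lit 5) (nat_lit 333) (nat_lit 5) (nat_lit 432) (nat_lit 390) (nat_lit 318)) (XT.lf (nat_lit 0) (nat_lit 4095609876) (nat_lit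 912) (nat_lit 3625773500) (nat_lit 76) (nat_lit 1027236656) (nat_lit 321) (nat_lit 5) (nat_lit 333) (nat_lit 5) (nat_lit 322) (nat_lit 5) (nat_lit 433) (nat_lit 390) (nat_lit 317))) (XT.nd (nat_lit 78) (nat_lit 0) (nat_lit 0) (XT.lf (nat_lit 0) (nat_lit 1280112428) (nat_lit 836) (nat_lit 4853206352) (nat_lit 912) (nat_lit 2697334210) (nat_lit 310) (nat_lit 5) (nat_lit 321) (nat_lit 5) (nat_lit 322) (nat_lit 5) (nat_lit 434) (nat_lit 390) (nat_lit 316)) (XT.lf (nat_lit 0) (nat_lit 6303308959) (nat_lit 836) (nat_lit 1903434262) (nat_lit 912) (nat_lit 707707177) (nat_lit 310) (nat_lit 5) (nat_lit 321) (nat_lit 5) (nat_lit 322) (nat_lit 5) (nat_lit 435) (nat_lit 390) (nat_lit 315))))) (XT.nd (nat_lit 312) (nat_lit 2204) (nat_lit 0) (XT.nd (nat_lit 156) (nat_lit 760) (nat_lit 0) (XT.nd (nat_lit 78) (nat_lit 0) (nat_lit 0) (XT.lf (nat_lit 0) (nat_lit 1298418851) (nat_lit 836) (nat_lit 6586939571) (nat_lit 76) (nat_lit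 1114535006) (nat_lit 299) (nat_lit 5) (nat_lit 310) (nat_lit 5) (nat_lit 300) (nat_lit 5) (nat_lit 436) (nat_lit 390) (nat_lit 314)) (XT.lf (nat_lit 0) (nat_lit 3336807721) (nat_lit 836) (nat_lit 1561345374) (nat_lit 76) (nat_lit 4188788021) (nat_lit 299) (nat_lit 5) (nat_lit 310) (nat_lit 5) (nat_lit 300) (nat_lit 5) (nat_lit 437) (nat_lit 390) (nat_lit 313))) (XT.nd (nat_lit 78) (nat_lit 0) (nat_lit 0) (XT.lf (nat_lit 0) (nat_lit 3582165074) (nat_lit 760) (nat_lit 1828982541) (nat_lit 836) (nat_lit 3764699742) (nat_lit 289) (nat_lit 5) (nat_lit 299) (nat_lit 5) (nat_lit 300) (nat_lit 5) (nat_lit 438) (nat_lit 390) (nat_lit 312)) (XT.lf (nat_lit 0) (nat_lit 7518246156) (nat_lit 836) (nat_lit 455078157) (nat_lit 76) (nat_lit 1293402819) (nat_lit 289) (nat_lit 5) (nat_lit 300) (nat_lit 5) (nat_lit 290) (nat_lit 5) (nat_lit 439) (nat_lit 390) (nat_lit 311)))) (XT.nd (nat_lit 156) (nat_lit 684) (nat_lit 0) (XT.nd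 (nat_lit 78) (nat_lit 760) (nat_lit 0) (XT.lf (nat_lit 0) (nat_lit 320255052) (nat_lit 760) (nat_lit 4553346052) (nat_lit 76) (nat_lit 4485478769) (nat_lit 279) (nat_lit 5) (nat_lit 289) (nat_lit 5) (nat_lit 280) (nat_lit 5) (nat_lit 440) (nat_lit 390) (nat_lit 310)) (XT.lf (nat_lit 0) (nat_lit 692652124) (nat_lit 760) (nat_lit 1694858691) (nat_lit 836) (nat_lit 7065946204) (nat_lit 269) (nat_lit 5) (nat_lit 279) (nat_lit 5) (nat_lit 280) (nat_lit 5) (nat_lit 441) (nat_lit 390) (nat_lit 309))) (XT.nd (nat_lit 78) (nat_lit 684) (nat_lit 0) (XT.lf (nat_lit 0) (nat_lit 4510202938) (nat_lit 836) (nat_lit 3483954313) (nat_lit 76) (nat_lit 1555301891) (nat_lit 269) (nat_lit 5) (nat_lit 280) (nat_lit 5) (nat_lit 270) (nat_lit 5) (nat_lit 442) (nat_lit 390) (nat_lit 308)) (XT.lf (nat_lit 0) (nat_lit 1882599389) (nat_lit 684) (nat_lit 4790007038) (nat_lit 760) (nat_lit 2974848611) (nat_lit 260) (nat_lit 5) (nat_lit 269)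 (nat_lit 5) (nat_lit 270) (nat_lit 5) (nat_lit 443) (nat_lit 390) (nat_lit 307))))))))
noncomputable def xc128 : XT := (XT.nd (nat_lit 2184) (nat_lit 5168) (nat_lit 0) (XT.nd (nat_lit 1092) (nat_lit 4104) (nat_lit 0) (XT.nd (nat_lit 546) (nat_lit 1748) (nat_lit 0) (XT.nd (nat_lit 234) (nat_lit 1900) (nat_lit 0) (XT.nd (nat_lit 78) (nat_lit 760) (nat_lit 0) (XT.lf (nat_lit 0) (nat_lit 7374602555) (nat_lit 684) (nat_lit 1501169349) (nat_lit 760) (nat_lit 871707179) (nat_lit 260) (nat_lit 5) (nat_lit 269) (nat_lit 5) (nat_lit 270) (nat_lit 5) (nat_lit 444) (nat_lit 390) (nat_lit 306)) (XT.nd (nat_lit 78) (nat_lit 0) (nat_lit 0) (XT.lf (nat_lit 0) (nat_lit 1263779923) (nat_lit 760) (nat_lit 6730820501) (nat_lit 76) (nat_lit 1854615910) (nat_lit 250) (nat_lit 5) (nat_lit 260) (nat_lit 5) (nat_lit 251) (nat_lit 5) (nat_lit 445) (nat_lit 390) (nat_lit 305)) (XT.lf (nat_lit 0) (nat_lit 3431033748) (nat_lit 760) (nat_lit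 1246034551) (nat_lit 76) (nat_lit 5275807653) (nat_lit 250) (nat_lit 5) (nat_lit 260) (nat_lit 5) (nat_lit 251) (nat_lit 5) (nat_lit 446) (nat_lit 390) (nat_lit 304)))) (XT.nd (nat_lit 156) (nat_lit 1292) (nat_lit 0) (XT.nd (nat_lit 78) (nat_lit 0) (nat_lit 0) (XT.lf (nat_lit 0) (nat_lit 4377224390) (nat_lit 608) (nat_lit 1268071245) (nat_lit 684) (nat_lit 4413256967) (nat_lit 242) (nat_lit 5) (nat_lit 250) (nat_lit 5) (nat_lit 251) (nat_lit 5) (nat_lit 447) (nat_lit 390) (nat_lit 303)) (XT.lf (nat_lit 0) (nat_lit 7902120687) (nat_lit 684) (nat_lit 79657530) (nat_lit 76) (nat_lit 2184615777) (nat_lit 242) (nat_lit 5) (nat_lit 251) (nat_lit 5) (nat_lit 243) (nat_lit 5) (nat_lit 448) (nat_lit 390) (nat_lit 302))) (XT.nd (nat_lit 78) (nat_lit 684) (nat_lit 0) (XT.lf (nat_lit 0) (nat_lit 5671678474) (nat_lit 608) (nat_lit 4553623945) (nat_lit 684) (nat_lit 50681826) (nat_lit 234) (nat_lit 5) (nat_lit 242) (nat_lit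 5) (nat_lit 243) (nat_lit 5) (nat_lit 449) (nat_lit 390) (nat_lit 301)) (XT.lf (nat_lit 0) (nat_lit 1123261062) (nat_lit 608) (nat_lit 1038916726) (nat_lit 684) (nat_lit 8225638827) (nat_lit 225) (nat_lit 5) (nat_lit 233) (nat_lit 5) (nat_lit 234) (nat_lit 5) (nat_lit 450) (nat_lit 390) (nat_lit 300))))) (XT.nd (nat_lit 234) (nat_lit 1140) (nat_lit 0) (XT.nd (nat_lit 78) (nat_lit 608) (nat_lit 0) (XT.lf (nat_lit 0) (nat_lit 4442616194) (nat_lit 684) (nat_lit 3519318488) (nat_lit 76) (nat_lit 2539479731) (nat_lit 225) (nat_lit 5) (nat_lit 234) (nat_lit 5) (nat_lit 226) (nat_lit 5) (nat_lit 451) (nat_lit 390) (nat_lit 299)) (XT.nd (nat_lit 78) (nat_lit 0) (nat_lit 0) (XT.lf (nat_lit 0) (nat_lit 2336377751) (nat_lit 608) (nat_lit 4431165363) (nat_lit 684) (nat_lit 3849778646) (nat_lit 217) (nat_lit 5) (nat_lit 225) (nat_lit 5) (nat_lit 226) (nat_lit 5) (nat_lit 452) (nat_lit 390) (nat_lit 298)) (XT.lf (nat_lit 0)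 (nat_lit 8328871442) (nat_lit 608) (nat_lit 810816171) (nat_lit 684) (nat_lit 1595860147) (nat_lit 217) (nat_lit 5) (nat_lit 225) (nat_lit 5) (nat_lit 226) (nat_lit 5) (nat_lit 453) (nat_lit 390) (nat_lit 297)))) (XT.nd (nat_lit 156) (nat_lit 532) (nat_lit 0) (XT.nd (nat_lit 78) (nat_lit 0) (nat_lit 0) (XT.lf (nat_lit 0) (nat_lit 713539492) (nat_lit 608) (nat_lit 7274970725) (nat_lit 76) (nat_lit 2867158577) (nat_lit 209) (nat_lit 5) (nat_lit 217) (nat_lit 5) (nat_lit 210) (nat_lit 5) (nat_lit 454) (nat_lit 390) (nat_lit 296)) (XT.lf (nat_lit 0) (nat_lit 3047023662) (nat_lit 608) (nat_lit 1301502536) (nat_lit 76) (nat_lit 6629483805) (nat_lit 209) (nat_lit 5) (nat_lit 217) (nat_lit 5) (nat_lit 210) (nat_lit 5) (nat_lit 455) (nat_lit 390) (nat_lit 295))) (XT.nd (nat_lit 78) (nat_lit 0) (nat_lit 0) (XT.lf (nat_lit 0) (nat_lit 4827263925) (nat_lit 532) (nat_lit 609312711) (nat_lit 608) (nat_lit 5666047170) (nat_lit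 202) (nat_lit 5) (nat_lit 209) (nat_lit 5) (nat_lit 210) (nat_lit 5) (nat_lit 456) (nat_lit 390) (nat_lit 294)) (XT.lf (nat_lit 0) (nat_lit 7881793104) (nat_lit 608) (nat_lit 181883639) (nat_lit 76) (nat_lit 3165909178) (nat_lit 202) (nat_lit 5) (nat_lit 210) (nat_lit 5) (nat_lit 203) (nat_lit 5) (nat_lit 457) (nat_lit 390) (nat_lit 293)))))) (XT.nd (nat_lit 546) (nat_lit 1900) (nat_lit 0) (XT.nd (nat_lit 234) (nat_lit 1064) (nat_lit 0) (XT.nd (nat_lit 78) (nat_lit 608) (nat_lit 0) (XT.lf (nat_lit 0) (nat_lit 6082025593) (nat_lit 532) (nat_lit 4316111923) (nat_lit 608) (nat_lit 960518511) (nat_lit 195) (nat_lit 5) (nat_lit 202) (nat_lit 5) (nat_lit 203) (nat_lit 5) (nat_lit 458) (nat_lit 390) (nat_lit 292)) (XT.nd (nat_lit 78) (nat_lit 0) (nat_lit 0) (XT.lf (nat_lit 0) (nat_lit 959108681) (nat_lit 532) (nat_lit 482300097) (nat_lit 608) (nat_lit 10048995077) (nat_lit 187) (nat_lit 5) (nat_lit 194) (nat_lit 5)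 (nat_lit 195) (nat_lit 5) (nat_lit 459) (nat_lit 390) (nat_lit 291)) (XT.lf (nat_lit 0) (nat_lit 3915416957) (nat_lit 608) (nat_lit 4289339958) (nat_lit 76) (nat_lit 3419177127) (nat_lit 187) (nat_lit 5) (nat_lit 195) (nat_lit 5) (nat_lit 188) (nat_lit 5) (nat_lit 460) (nat_lit 390) (nat_lit 290)))) (XT.nd (nat_lit 156) (nat_lit 608) (nat_lit 0) (XT.nd (nat_lit 78) (nat_lit 0) (nat_lit 0) (XT.lf (nat_lit 0) (nat_lit 2074510472) (nat_lit 456) (nat_lit 4360460053) (nat_lit 532) (nat_lit 5325255216) (nat_lit 181) (nat_lit 5) (nat_lit 187) (nat_lit 5) (nat_lit 188) (nat_lit 5) (nat_lit 461) (nat_lit 390) (nat_lit 289)) (XT.lf (nat_lit 0) (nat_lit 8597000970) (nat_lit 456) (nat_lit 416330018) (nat_lit 532) (nat_lit 2885755944) (nat_lit 181) (nat_lit 5) (nat_lit 187) (nat_lit 5) (nat_lit 188) (nat_lit 5) (nat_lit 462) (nat_lit 390) (nat_lit 288))) (XT.nd (nat_lit 78) (nat_lit 76) (nat_lit 0) (XT.lf (nat_lit 0) (nat_lit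 3201157441) (nat_lit 532) (nat_lit 8466292881) (nat_lit 608) (nat_lit 372802929) (nat_lit 174) (nat_lit 5) (nat_lit 181) (nat_lit 5) (nat_lit 182) (nat_lit 5) (nat_lit 463) (nat_lit 390) (nat_lit 287)) (XT.lf (nat_lit 0) (nat_lit 2166813018) (nat_lit 608) (nat_lit 2348425113) (nat_lit 76) (nat_lit 7668628988) (nat_lit 173) (nat_lit 5) (nat_lit 181) (nat_lit 5) (nat_lit 174) (nat_lit 5) (nat_lit 464) (nat_lit 390) (nat_lit 286))))) (XT.nd (nat_lit 234) (nat_lit 988) (nat_lit 0) (XT.nd (nat_lit 78) (nat_lit 456) (nat_lit 0) (XT.lf (nat_lit 0) (nat_lit 4299780280) (nat_lit 456) (nat_lit 460830522) (nat_lit 532) (nat_lit 7569536613) (nat_lit 167) (nat_lit 5) (nat_lit 173) (nat_lit 5) (nat_lit 174) (nat_lit 5) (nat_lit 465) (nat_lit 390) (nat_lit 285)) (XT.nd (nat_lit 78) (nat_lit 456) (nat_lit 0) (XT.lf (nat_lit 0) (nat_lit 7426636711) (nat_lit 532) (nat_lit 1416601237) (nat_lit 76) (nat_lit 3635719168) (nat_lit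 167) (nat_lit 5) (nat_lit 174) (nat_lit 5) (nat_lit 168) (nat_lit 5) (nat_lit 466) (nat_lit 390) (nat_lit 284)) (XT.lf (nat_lit 0) (nat_lit 5370962916) (nat_lit 456) (nat_lit 4793954006) (nat_lit 532) (nat_lit 2465458047) (nat_lit 161) (nat_lit 5) (nat_lit 167) (nat_lit 5) (nat_lit 168) (nat_lit 5) (nat_lit 467) (nat_lit 390) (nat_lit 283)))) (XT.nd (nat_lit 156) (nat_lit 456) (nat_lit 0) (XT.nd (nat_lit 78) (nat_lit 456) (nat_lit 0) (XT.lf (nat_lit 0) (nat_lit 161520768) (nat_lit 532) (nat_lit 498295227) (nat_lit 76) (nat_lit 12125179920) (nat_lit 160) (nat_lit 5) (nat_lit 167) (nat_lit 5) (nat_lit 161) (nat_lit 5) (nat_lit 468) (nat_lit 390) (nat_lit 282)) (XT.lf (nat_lit 0) (nat_lit 2854761645) (nat_lit 532) (nat_lit 6524623051) (nat_lit 76) (nat_lit 3562073969) (nat_lit 154) (nat_lit 5) (nat_lit 161) (nat_lit 5) (nat_lit 155) (nat_lit 5) (nat_lit 469) (nat_lit 390) (nat_lit 281))) (XT.nd (nat_lit 78) (nat_lit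 0) (nat_lit 0) (XT.lf (nat_lit 0) (nat_lit 350633435) (nat_lit 456) (nat_lit 5242852454) (nat_lit 532) (nat_lit 7507742234) (nat_lit 148) (nat_lit 5) (nat_lit 154) (nat_lit 5) (nat_lit 155) (nat_lit 5) (nat_lit 470) (nat_lit 390) (nat_lit 280)) (XT.lf (nat_lit 0) (nat_lit 7426393343) (nat_lit 456) (nat_lit 986176779) (nat_lit 532) (nat_lit 4851120767) (nat_lit 148) (nat_lit 5) (nat_lit 154) (nat_lit 5) (nat_lit 155) (nat_lit 5) (nat_lit 471) (nat_lit 390) (nat_lit 279))))))) (XT.nd (nat_lit 1092) (nat_lit 2356) (nat_lit 0) (XT.nd (nat_lit 546) (nat_lit 1064) (nat_lit 0) (XT.nd (nat_lit 234) (nat_lit 836) (nat_lit 0) (XT.nd (nat_lit 78) (nat_lit 532) (nat_lit 0) (XT.lf (nat_lit 0) (nat_lit 1182724272) (nat_lit 380) (nat_lit 10116890339) (nat_lit 456) (nat_lit 2129566168) (nat_lit 143) (nat_lit 5) (nat_lit 148) (nat_lit 5) (nat_lit 149) (nat_lit 5) (nat_lit 472) (nat_lit 390) (nat_lit 278)) (XT.nd (nat_lit 78)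 (nat_lit 456) (nat_lit 0) (XT.lf (nat_lit 0) (nat_lit 666077305) (nat_lit 456) (nat_lit 5211257446) (nat_lit 76) (nat_lit 7720008139) (nat_lit 142) (nat_lit 5) (nat_lit 148) (nat_lit 5) (nat_lit 143) (nat_lit 5) (nat_lit 473) (nat_lit 390) (nat_lit 277)) (XT.lf (nat_lit 0) (nat_lit 1951285275) (nat_lit 456) (nat_lit 1533052675) (nat_lit 532) (nat_lit 10284353275) (nat_lit 136) (nat_lit 5) (nat_lit 142) (nat_lit 5) (nat_lit 143) (nat_lit 5) (nat_lit 474) (nat_lit 390) (nat_lit 276)))) (XT.nd (nat_lit 156) (nat_lit 456) (nat_lit 0) (XT.nd (nat_lit 78) (nat_lit 380) (nat_lit 0) (XT.lf (nat_lit 0) (nat_lit 6395640080) (nat_lit 532) (nat_lit 4659088212) (nat_lit 76) (nat_lit 2888013433) (nat_lit 136) (nat_lit 5) (nat_lit 143) (nat_lit 5) (nat_lit 137) (nat_lit 5) (nat_lit 475) (nat_lit 390) (nat_lit 275)) (XT.lf (nat_lit 0) (nat_lit 2642396931) (nat_lit 380) (nat_lit 6733078136) (nat_lit 456) (nat_lit 4744600581)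 (nat_lit 131) (nat_lit 5) (nat_lit 136) (nat_lit 5) (nat_lit 137) (nat_lit 5) (nat_lit 476) (nat_lit 390) (nat_lit 274))) (XT.nd (nat_lit 78) (nat_lit 456) (nat_lit 0) (XT.lf (nat_lit 0) (nat_lit 10128726347) (nat_lit 380) (nat_lit 2300618635) (nat_lit 456) (nat_lit 1871330887) (nat_lit 131) (nat_lit 5) (nat_lit 136) (nat_lit 5) (nat_lit 137) (nat_lit 5) (nat_lit 477) (nat_lit 390) (nat_lit 273)) (XT.lf (nat_lit 0) (nat_lit 1064825736) (nat_lit 456) (nat_lit 11207118621) (nat_lit 76) (nat_lit 2212427912) (nat_lit 125) (nat_lit 5) (nat_lit 131) (nat_lit 5) (nat_lit 126) (nat_lit 5) (nat_lit 478) (nat_lit 390) (nat_lit 272))))) (XT.nd (nat_lit 234) (nat_lit 760) (nat_lit 0) (XT.nd (nat_lit 78) (nat_lit 304) (nat_lit 0) (XT.lf (nat_lit 0) (nat_lit 4061596673) (nat_lit 456) (nat_lit 3791225955) (nat_lit 76) (nat_lit 6818141512) (nat_lit 125) (nat_lit 5) (nat_lit 131) (nat_lit 5) (nat_lit 126) (nat_lit 5) (nat_lit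 479) (nat_lit 390) (nat_lit 271)) (XT.nd (nat_lit 78) (nat_lit 0) (nat_lit 0) (XT.lf (nat_lit 0) (nat_lit 3799063070) (nat_lit 304) (nat_lit 3327736988) (nat_lit 380) (nat_lit 7734325596) (nat_lit 121) (nat_lit 5) (nat_lit 125) (nat_lit 5) (nat_lit 126) (nat_lit 5) (nat_lit 480) (nat_lit 390) (nat_lit 270)) (XT.lf (nat_lit 0) (nat_lit 10271224311) (nat_lit 380) (nat_lit 3494431801) (nat_lit 76) (nat_lit 1289083542) (nat_lit 121) (nat_lit 5) (nat_lit 126) (nat_lit 5) (nat_lit 122) (nat_lit 5) (nat_lit 481) (nat_lit 390) (nat_lit 269)))) (XT.nd (nat_lit 156) (nat_lit 304) (nat_lit 0) (XT.nd (nat_lit 78) (nat_lit 76) (nat_lit 0) (XT.lf (nat_lit 0) (nat_lit 4234650726) (nat_lit 380) (nat_lit 9277678884) (nat_lit 456) (nat_lit 1739227918) (nat_lit 116) (nat_lit 5) (nat_lit 121) (nat_lit 5) (nat_lit 122) (nat_lit 5) (nat_lit 482) (nat_lit 390) (nat_lit 268)) (XT.lf (nat_lit 0) (nat_lit 1355943106) (nat_lit 456) (nat_lit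 3318646666) (nat_lit 76) (nat_lit 10777393521) (nat_lit 115) (nat_lit 5) (nat_lit 121) (nat_lit 5) (nat_lit 116) (nat_lit 5) (nat_lit 483) (nat_lit 390) (nat_lit 267))) (XT.nd (nat_lit 78) (nat_lit 0) (nat_lit 0) (XT.lf (nat_lit 0) (nat_lit 4504321846) (nat_lit 380) (nat_lit 11097418323) (nat_lit 76) (nat_lit 54162641) (nat_lit 111) (nat_lit 5) (nat_lit 116) (nat_lit 5) (nat_lit 112) (nat_lit 5) (nat_lit 484) (nat_lit 390) (nat_lit 266)) (XT.lf (nat_lit 0) (nat_lit 7753762263) (nat_lit 380) (nat_lit 3279530423) (nat_lit 76) (nat_lit 4829853026) (nat_lit 111) (nat_lit 5) (nat_lit 116) (nat_lit 5) (nat_lit 112) (nat_lit 5) (nat_lit 485) (nat_lit 390) (nat_lit 265)))))) (XT.nd (nat_lit 546) (nat_lit 988) (nat_lit 0) (XT.nd (nat_lit 234) (nat_lit 608) (nat_lit 0) (XT.nd (nat_lit 78) (nat_lit 380) (nat_lit 0) (XT.lf (nat_lit 0) (nat_lit 4734144125) (nat_lit 380) (nat_lit 6349803397) (nat_lit 456) (nat_lit 4990277573)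 (nat_lit 106) (nat_lit 5) (nat_lit 111) (nat_lit 5) (nat_lit 112) (nat_lit 5) (nat_lit 486) (nat_lit 390) (nat_lit 264)) (XT.nd (nat_lit 78) (nat_lit 380) (nat_lit 0) (XT.lf (nat_lit 0) (nat_lit 12930035883) (nat_lit 380) (nat_lit 1557874400) (nat_lit 456) (nat_lit 1801478917) (nat_lit 106) (nat_lit 5) (nat_lit 111) (nat_lit 5) (nat_lit 112) (nat_lit 5) (nat_lit 487) (nat_lit 390) (nat_lit 263)) (XT.lf (nat_lit 0) (nat_lit 1470503957) (nat_lit 380) (nat_lit 11717769897) (nat_lit 76) (nat_lit 3319631864) (nat_lit 101) (nat_lit 5) (nat_lit 106) (nat_lit 5) (nat_lit 102) (nat_lit 5) (nat_lit 488) (nat_lit 390) (nat_lit 262)))) (XT.nd (nat_lit 156) (nat_lit 304) (nat_lit 0) (XT.nd (nat_lit 78) (nat_lit 304) (nat_lit 0) (XT.lf (nat_lit 0) (nat_lit 4802285205) (nat_lit 380) (nat_lit 3626957736) (nat_lit 76) (nat_lit 8300948089) (nat_lit 101) (nat_lit 5) (nat_lit 106) (nat_lit 5) (nat_lit 102) (nat_lit 5) (nat_lit 489)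 (nat_lit 390) (nat_lit 261)) (XT.lf (nat_lit 0) (nat_lit 4664919547) (nat_lit 304) (nat_lit 3551804205) (nat_lit 380) (nat_lit 8739883969) (nat_lit 97) (nat_lit 5) (nat_lit 101) (nat_lit 5) (nat_lit 102) (nat_lit 5) (nat_lit 490) (nat_lit 390) (nat_lit 260))) (XT.nd (nat_lit 78) (nat_lit 304) (nat_lit 0) (XT.lf (nat_lit 0) (nat_lit 11719013752) (nat_lit 380) (nat_lit 4046695556) (nat_lit 76) (nat_lit 1421458171) (nat_lit 97) (nat_lit 5) (nat_lit 102) (nat_lit 5) (nat_lit 98) (nat_lit 5) (nat_lit 491) (nat_lit 390) (nat_lit 259)) (XT.lf (nat_lit 0) (nat_lit 4375465047) (nat_lit 304) (nat_lit 10953915250) (nat_lit 380) (nat_lit 2092203391) (nat_lit 93) (nat_lit 5) (nat_lit 97) (nat_lit 5) (nat_lit 98) (nat_lit 5) (nat_lit 492) (nat_lit 390) (nat_lit 258))))) (XT.nd (nat_lit 234) (nat_lit 608) (nat_lit 0) (XT.nd (nat_lit 78) (nat_lit 304) (nat_lit 0) (XT.lf (nat_lit 0) (nat_lit 1347016000) (nat_lit 380) (nat_lit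 4669818177) (nat_lit 76) (nat_lit 11643414776) (nat_lit 92) (nat_lit 5) (nat_lit 97) (nat_lit 5) (nat_lit 93) (nat_lit 5) (nat_lit 493) (nat_lit 390) (nat_lit 257)) (XT.nd (nat_lit 78) (nat_lit 0) (nat_lit 0) (XT.lf (nat_lit 0) (nat_lit 3889951630) (nat_lit 304) (nat_lit 948744555) (nat_lit 380) (nat_lit 13064486459) (nat_lit 88) (nat_lit 5) (nat_lit 92) (nat_lit 5) (nat_lit 93) (nat_lit 5) (nat_lit 494) (nat_lit 390) (nat_lit 256)) (XT.lf (nat_lit 0) (nat_lit 8445646930) (nat_lit 380) (nat_lit 5515046017) (nat_lit 76) (nat_lit 4189378747) (nat_lit 88) (nat_lit 5) (nat_lit 93) (nat_lit 5) (nat_lit 89) (nat_lit 5) (nat_lit 495) (nat_lit 390) (nat_lit 255)))) (XT.nd (nat_lit 156) (nat_lit 380) (nat_lit 0) (XT.nd (nat_lit 78) (nat_lit 0) (nat_lit 0) (XT.lf (nat_lit 0) (nat_lit 3167475302) (nat_lit 228) (nat_lit 8970863598) (nat_lit 304) (nat_lit 6263292897) (nat_lit 85) (nat_lit 5) (nat_lit 88) (nat_lit 5) (nat_lit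 89) (nat_lit 5) (nat_lit 496) (nat_lit 390) (nat_lit 254)) (XT.lf (nat_lit 0) (nat_lit 12077656048) (nat_lit 228) (nat_lit 3851116320) (nat_lit 304) (nat_lit 2728978192) (nat_lit 85) (nat_lit 5) (nat_lit 88) (nat_lit 5) (nat_lit 89) (nat_lit 5) (nat_lit 497) (nat_lit 390) (nat_lit 253))) (XT.nd (nat_lit 78) (nat_lit 0) (nat_lit 0) (XT.lf (nat_lit 0) (nat_lit 875177172) (nat_lit 380) (nat_lit 16677481157) (nat_lit 76) (nat_lit 1366011754) (nat_lit 80) (nat_lit 5) (nat_lit 85) (nat_lit 5) (nat_lit 81) (nat_lit 5) (nat_lit 498) (nat_lit 390) (nat_lit 252)) (XT.lf (nat_lit 0) (nat_lit 4571979652) (nat_lit 380) (nat_lit 7920297897) (nat_lit 76) (nat_lit 6691032488) (nat_lit 80) (nat_lit 5) (nat_lit 85) (nat_lit 5) (nat_lit 81) (nat_lit 5) (nat_lit 499) (nat_lit 390) (nat_lit 251))))))))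
noncomputable def xc129 : XT := (XT.nd (nat_lit 50934) (nat_lit 0) (nat_lit 31616) (XT.nd (nat_lit 1092) (nat_lit 1444) (nat_lit 0) (XT.nd (nat_lit 546) (nat_lit 760) (nat_lit 0) (XT.nd (nat_lit 234) (nat_lit 608) (nat_lit 0) (XT.nd (nat_lit 78) (nat_lit 0) (nat_lit 0) (XT.lf (nat_lit 0) (nat_lit 1005017108) (nat_lit 228) (nat_lit 7331597356) (nat_lit 304) (nat_lit 11116755214) (nat_lit 77) (nat_lit 5) (nat_lit 80) (nat_lit 5) (nat_lit 81) (nat_lit 5) (nat_lit 500) (nat_lit 390) (nat_lit 250)) (XT.nd (nat_lit 78) (nat_lit 0) (nat_lit 0) (XT.lf (nat_lit 0) (nat_lit 10196140083) (nat_lit 228) (nat_lit 2021039684) (nat_lit 304) (nat_lit 7510842709) (nat_lit 77) (nat_lit 5) (nat_lit 80) (nat_lit 5) (nat_lit 81) (nat_lit 5) (nat_lit 501) (nat_lit 390) (nat_lit 249)) (XT.lf (nat_lit 0) (nat_lit 16185089409) (nat_lit 304) (nat_lit 478998762) (nat_lit 76) (nat_lit 3343890128) (nat_lit 77) (nat_lit 5) (nat_lit 81) (nat_lit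 5) (nat_lit 78) (nat_lit 5) (nat_lit 502) (nat_lit 390) (nat_lit 248)))) (XT.nd (nat_lit 156) (nat_lit 228) (nat_lit 0) (XT.nd (nat_lit 78) (nat_lit 76) (nat_lit 0) (XT.lf (nat_lit 0) (nat_lit 8837990972) (nat_lit 304) (nat_lit 11453059901) (nat_lit 380) (nat_lit 1313032) (nat_lit 73) (nat_lit 5) (nat_lit 77) (nat_lit 5) (nat_lit 78) (nat_lit 5) (nat_lit 503) (nat_lit 390) (nat_lit 247)) (XT.lf (nat_lit 0) (nat_lit 3836778756) (nat_lit 380) (nat_lit 2279396016) (nat_lit 76) (nat_lit 14465937006) (nat_lit 72) (nat_lit 5) (nat_lit 77) (nat_lit 5) (nat_lit 73) (nat_lit 5) (nat_lit 504) (nat_lit 390) (nat_lit 246))) (XT.nd (nat_lit 78) (nat_lit 0) (nat_lit 0) (XT.lf (nat_lit 0) (nat_lit 7153761942) (nat_lit 228) (nat_lit 632490662) (nat_lit 304) (nat_lit 13090713352) (nat_lit 69) (nat_lit 5) (nat_lit 72) (nat_lit 5) (nat_lit 73) (nat_lit 5) (nat_lit 505) (nat_lit 390) (nat_lit 245)) (XT.lf (nat_lit 0) (nat_lit 11850573949)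 (nat_lit 304) (nat_lit 4422438542) (nat_lit 76) (nat_lit 4903991757) (nat_lit 69) (nat_lit 5) (nat_lit 73) (nat_lit 5) (nat_lit 70) (nat_lit 5) (nat_lit 506) (nat_lit 390) (nat_lit 244))))) (XT.nd (nat_lit 234) (nat_lit 228) (nat_lit 0) (XT.nd (nat_lit 78) (nat_lit 304) (nat_lit 0) (XT.lf (nat_lit 0) (nat_lit 5108329057) (nat_lit 228) (nat_lit 10913689902) (nat_lit 304) (nat_lit 5460511713) (nat_lit 66) (nat_lit 5) (nat_lit 69) (nat_lit 5) (nat_lit 70) (nat_lit 5) (nat_lit 507) (nat_lit 390) (nat_lit 243)) (XT.nd (nat_lit 78) (nat_lit 304) (nat_lit 0) (XT.lf (nat_lit 0) (nat_lit 14870961993) (nat_lit 228) (nat_lit 5424194113) (nat_lit 304) (nat_lit 1498650282) (nat_lit 66) (nat_lit 5) (nat_lit 69) (nat_lit 5) (nat_lit 70) (nat_lit 5) (nat_lit 508) (nat_lit 390) (nat_lit 242)) (XT.lf (nat_lit 0) (nat_lit 2516800348) (nat_lit 304) (nat_lit 19393971861) (nat_lit 76) (nat_lit 200055205) (nat_lit 62) (nat_lit 5) (nat_lit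 66) (nat_lit 5) (nat_lit 63) (nat_lit 5) (nat_lit 509) (nat_lit 390) (nat_lit 241)))) (XT.nd (nat_lit 156) (nat_lit 228) (nat_lit 0) (XT.nd (nat_lit 78) (nat_lit 0) (nat_lit 0) (XT.lf (nat_lit 0) (nat_lit 6663984353) (nat_lit 304) (nat_lit 9854766692) (nat_lit 76) (nat_lit 5913813664) (nat_lit 62) (nat_lit 5) (nat_lit 66) (nat_lit 5) (nat_lit 63) (nat_lit 5) (nat_lit 510) (nat_lit 390) (nat_lit 240)) (XT.lf (nat_lit 0) (nat_lit 10883119029) (nat_lit 304) (nat_lit 142956951) (nat_lit 76) (nat_lit 11734884351) (nat_lit 62) (nat_lit 5) (nat_lit 66) (nat_lit 5) (nat_lit 63) (nat_lit 5) (nat_lit 511) (nat_lit 390) (nat_lit 239))) (XT.nd (nat_lit 78) (nat_lit 0) (nat_lit 0) (XT.lf (nat_lit 0) (nat_lit 9874775368) (nat_lit 228) (nat_lit 5365197163) (nat_lit 304) (nat_lit 7854888263) (nat_lit 59) (nat_lit 5) (nat_lit 62) (nat_lit 5) (nat_lit 63) (nat_lit 5) (nat_lit 512) (nat_lit 390) (nat_lit 238)) (XT.lf (nat_lit 0)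 (nat_lit 19676856915) (nat_lit 304) (nat_lit 3361158529) (nat_lit 76) (nat_lit 397569524) (nat_lit 59) (nat_lit 5) (nat_lit 63) (nat_lit 5) (nat_lit 60) (nat_lit 5) (nat_lit 513) (nat_lit 390) (nat_lit 237)))))) (XT.nd (nat_lit 546) (nat_lit 684) (nat_lit 0) (XT.nd (nat_lit 234) (nat_lit 228) (nat_lit 0) (XT.nd (nat_lit 78) (nat_lit 228) (nat_lit 0) (XT.lf (nat_lit 0) (nat_lit 483018389) (nat_lit 304) (nat_lit 17054774516) (nat_lit 76) (nat_lit 6243896444) (nat_lit 55) (nat_lit 5) (nat_lit 59) (nat_lit 5) (nat_lit 56) (nat_lit 5) (nat_lit 514) (nat_lit 390) (nat_lit 236)) (XT.nd (nat_lit 78) (nat_lit 228) (nat_lit 0) (XT.lf (nat_lit 0) (nat_lit 4771526311) (nat_lit 304) (nat_lit 7114549686) (nat_lit 76) (nat_lit 12247901171) (nat_lit 55) (nat_lit 5) (nat_lit 59) (nat_lit 5) (nat_lit 56) (nat_lit 5) (nat_lit 515) (nat_lit 390) (nat_lit 235)) (XT.lf (nat_lit 0) (nat_lit 3047234461) (nat_lit 228) (nat_lit 6108064752)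 (nat_lit 304) (nat_lit 15337824938) (nat_lit 52) (nat_lit 5) (nat_lit 55) (nat_lit 5) (nat_lit 56) (nat_lit 5) (nat_lit 516) (nat_lit 390) (nat_lit 234)))) (XT.nd (nat_lit 156) (nat_lit 228) (nat_lit 0) (XT.nd (nat_lit 78) (nat_lit 0) (nat_lit 0) (XT.lf (nat_lit 0) (nat_lit 13491596903) (nat_lit 228) (nat_lit 172693956) (nat_lit 304) (nat_lit 11194415591) (nat_lit 52) (nat_lit 5) (nat_lit 55) (nat_lit 5) (nat_lit 56) (nat_lit 5) (nat_lit 517) (nat_lit 390) (nat_lit 233)) (XT.lf (nat_lit 0) (nat_lit 18291605173) (nat_lit 304) (nat_lit 1141860647) (nat_lit 76) (nat_lit 5797574895) (nat_lit 52) (nat_lit 5) (nat_lit 56) (nat_lit 5) (nat_lit 53) (nat_lit 5) (nat_lit 518) (nat_lit 390) (nat_lit 232))) (XT.nd (nat_lit 78) (nat_lit 76) (nat_lit 0) (XT.lf (nat_lit 0) (nat_lit 9393355900) (nat_lit 152) (nat_lit 13670395345) (nat_lit 228) (nat_lit 2546027824) (nat_lit 50) (nat_lit 5) (nat_lit 52) (nat_lit 5) (nat_lit 53)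 (nat_lit 5) (nat_lit 519) (nat_lit 390) (nat_lit 231)) (XT.lf (nat_lit 0) (nat_lit 1907752472) (nat_lit 228) (nat_lit 5870413274) (nat_lit 76) (nat_lit 18217720430) (nat_lit 49) (nat_lit 5) (nat_lit 52) (nat_lit 5) (nat_lit 50) (nat_lit 5) (nat_lit 520) (nat_lit 390) (nat_lit 230))))) (XT.nd (nat_lit 234) (nat_lit 456) (nat_lit 0) (XT.nd (nat_lit 78) (nat_lit 0) (nat_lit 0) (XT.lf (nat_lit 0) (nat_lit 4711155444) (nat_lit 228) (nat_lit 1726346451) (nat_lit 304) (nat_lit 19951460183) (nat_lit 46) (nat_lit 5) (nat_lit 49) (nat_lit 5) (nat_lit 50) (nat_lit 5) (nat_lit 521) (nat_lit 390) (nat_lit 229)) (XT.nd (nat_lit 78) (nat_lit 0) (nat_lit 0) (XT.lf (nat_lit 0) (nat_lit 11116776283) (nat_lit 304) (nat_lit 11250643279) (nat_lit 76) (nat_lit 4421304215) (nat_lit 46) (nat_lit 5) (nat_lit 50) (nat_lit 5) (nat_lit 47) (nat_lit 5) (nat_lit 522) (nat_lit 390) (nat_lit 228)) (XT.lf (nat_lit 0) (nat_lit 15891662877) (nat_lit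 304) (nat_lit 642380799) (nat_lit 76) (nat_lit 10662399320) (nat_lit 46) (nat_lit 5) (nat_lit 50) (nat_lit 5) (nat_lit 47) (nat_lit 5) (nat_lit 523) (nat_lit 390) (nat_lit 227)))) (XT.nd (nat_lit 156) (nat_lit 304) (nat_lit 0) (XT.nd (nat_lit 78) (nat_lit 0) (nat_lit 0) (XT.lf (nat_lit 0) (nat_lit 10297401769) (nat_lit 152) (nat_lit 10522281388) (nat_lit 228) (nat_lit 6791483487) (nat_lit 44) (nat_lit 5) (nat_lit 46) (nat_lit 5) (nat_lit 47) (nat_lit 5) (nat_lit 524) (nat_lit 390) (nat_lit 226)) (XT.lf (nat_lit 0) (nat_lit 21449093466) (nat_lit 152) (nat_lit 4392339053) (nat_lit 228) (nat_lit 2192851585) (nat_lit 44) (nat_lit 5) (nat_lit 46) (nat_lit 5) (nat_lit 47) (nat_lit 5) (nat_lit 525) (nat_lit 390) (nat_lit 225))) (XT.nd (nat_lit 48828) (nat_lit 0) (nat_lit 42180) (XT.lf (nat_lit 0) (nat_lit 2496764485) (nat_lit 304) (nat_lit 24093663832) (nat_lit 76) (nat_lit 1874478463) (nat_lit 40) (nat_lit 5) (nat_lit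 44) (nat_lit 5) (nat_lit 41) (nat_lit 5) (nat_lit 526) (nat_lit 390) (nat_lit 224)) (XT.lf (nat_lit 0) (nat_lit 1014931129) (nat_lit 0) (nat_lit 1014931129) (nat_lit 684) (nat_lit 1309663010) (nat_lit 595) (nat_lit 5) (nat_lit 595) (nat_lit 3) (nat_lit 604) (nat_lit 3) (nat_lit 391) (nat_lit 391) (nat_lit 358))))))) (XT.nd (nat_lit 1092) (nat_lit 7144) (nat_lit 0) (XT.nd (nat_lit 546) (nat_lit 1824) (nat_lit 0) (XT.nd (nat_lit 234) (nat_lit 836) (nat_lit 0) (XT.nd (nat_lit 78) (nat_lit 760) (nat_lit 0) (XT.lf (nat_lit 0) (nat_lit 5159320538) (nat_lit 0) (nat_lit 1046811917) (nat_lit 684) (nat_lit 495135235) (nat_lit 595) (nat_lit 5) (nat_lit 595) (nat_lit 3) (nat_lit 604) (nat_lit 3) (nat_lit 392) (nat_lit 391) (nat_lit 357)) (XT.nd (nat_lit 78) (nat_lit 0) (nat_lit 0) (XT.lf (nat_lit 0) (nat_lit 1604431326) (nat_lit 760) (nat_lit 5115440399) (nat_lit 836) (nat_lit 4807304) (nat_lit 585) (nat_lit 5) (nat_lit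 595) (nat_lit 5) (nat_lit 596) (nat_lit 5) (nat_lit 393) (nat_lit 391) (nat_lit 356)) (XT.lf (nat_lit 0) (nat_lit 3702128682) (nat_lit 760) (nat_lit 1943845480) (nat_lit 836) (nat_lit 1103325540) (nat_lit 585) (nat_lit 5) (nat_lit 595) (nat_lit 5) (nat_lit 596) (nat_lit 5) (nat_lit 394) (nat_lit 391) (nat_lit 355)))) (XT.nd (nat_lit 156) (nat_lit 0) (nat_lit 0) (XT.nd (nat_lit 78) (nat_lit 836) (nat_lit 0) (XT.lf (nat_lit 76) (nat_lit 1278971589) (nat_lit 0) (nat_lit 4517597419) (nat_lit 836) (nat_lit 978808733) (nat_lit 586) (nat_lit 5) (nat_lit 585) (nat_lit 5) (nat_lit 596) (nat_lit 5) (nat_lit 395) (nat_lit 391) (nat_lit 354)) (XT.lf (nat_lit 0) (nat_lit 1076159188) (nat_lit 836) (nat_lit 2246107716) (nat_lit 912) (nat_lit 3480420546) (nat_lit 574) (nat_lit 5) (nat_lit 585) (nat_lit 5) (nat_lit 586) (nat_lit 5) (nat_lit 396) (nat_lit 391) (nat_lit 353))) (XT.nd (nat_lit 78) (nat_lit 0) (nat_lit 0) (XT.lf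 (nat_lit 76) (nat_lit 1047475355) (nat_lit 0) (nat_lit 2066438419) (nat_lit 912) (nat_lit 3717461542) (nat_lit 575) (nat_lit 5) (nat_lit 574) (nat_lit 5) (nat_lit 586) (nat_lit 5) (nat_lit 397) (nat_lit 391) (nat_lit 352)) (XT.lf (nat_lit 76) (nat_lit 4408590324) (nat_lit 0) (nat_lit 747719183) (nat_lit 912) (nat_lit 1705105820) (nat_lit 575) (nat_lit 5) (nat_lit 574) (nat_lit 5) (nat_lit 586) (nat_lit 5) (nat_lit 398) (nat_lit 391) (nat_lit 351))))) (XT.nd (nat_lit 234) (nat_lit 988) (nat_lit 0) (XT.nd (nat_lit 78) (nat_lit 0) (nat_lit 0) (XT.lf (nat_lit 0) (nat_lit 302454705) (nat_lit 912) (nat_lit 5971220245) (nat_lit 988) (nat_lit 619199691) (nat_lit 563) (nat_lit 5) (nat_lit 575) (nat_lit 5) (nat_lit 576) (nat_lit 5) (nat_lit 399) (nat_lit 391) (nat_lit 350)) (XT.nd (nat_lit 78) (nat_lit 0) (nat_lit 0) (XT.lf (nat_lit 0) (nat_lit 2299248713) (nat_lit 912) (nat_lit 2574056743) (nat_lit 988) (nat_lit 2052046869)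 (nat_lit 563) (nat_lit 5) (nat_lit 575) (nat_lit 5) (nat_lit 576) (nat_lit 5) (nat_lit 400) (nat_lit 391) (nat_lit 349)) (XT.lf (nat_lit 76) (nat_lit 873146609) (nat_lit 0) (nat_lit 3419845903) (nat_lit 988) (nat_lit 2666398610) (nat_lit 564) (nat_lit 5) (nat_lit 563) (nat_lit 5) (nat_lit 576) (nat_lit 5) (nat_lit 401) (nat_lit 391) (nat_lit 348)))) (XT.nd (nat_lit 156) (nat_lit 0) (nat_lit 76) (XT.nd (nat_lit 78) (nat_lit 988) (nat_lit 0) (XT.lf (nat_lit 76) (nat_lit 4395024278) (nat_lit 0) (nat_lit 1900969735) (nat_lit 988) (nat_lit 698779845) (nat_lit 564) (nat_lit 5) (nat_lit 563) (nat_lit 5) (nat_lit 576) (nat_lit 5) (nat_lit 402) (nat_lit 391) (nat_lit 347)) (XT.lf (nat_lit 76) (nat_lit 930923269) (nat_lit 0) (nat_lit 318843503) (nat_lit 1064) (nat_lit 5781801797) (nat_lit 551) (nat_lit 5) (nat_lit 550) (nat_lit 5) (nat_lit 564) (nat_lit 5) (nat_lit 403) (nat_lit 391) (nat_lit 346))) (XT.nd (nat_lit 78)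 (nat_lit 0) (nat_lit 0) (XT.lf (nat_lit 0) (nat_lit 3207446125) (nat_lit 988) (nat_lit 2544619081) (nat_lit 1064) (nat_lit 1317399109) (nat_lit 551) (nat_lit 5) (nat_lit 564) (nat_lit 5) (nat_lit 565) (nat_lit 5) (nat_lit 404) (nat_lit 391) (nat_lit 345)) (XT.lf (nat_lit 76) (nat_lit 1064804791) (nat_lit 0) (nat_lit 4102951179) (nat_lit 1064) (nat_lit 1941139417) (nat_lit 552) (nat_lit 5) (nat_lit 551) (nat_lit 5) (nat_lit 565) (nat_lit 5) (nat_lit 405) (nat_lit 391) (nat_lit 344)))))) (XT.nd (nat_lit 546) (nat_lit 5092) (nat_lit 0) (XT.nd (nat_lit 234) (nat_lit 1064) (nat_lit 0) (XT.nd (nat_lit 78) (nat_lit 1064) (nat_lit 0) (XT.lf (nat_lit 76) (nat_lit 4751528276) (nat_lit 0) (nat_lit 2387973745) (nat_lit 1064) (nat_lit 10214488) (nat_lit 552) (nat_lit 5) (nat_lit 551) (nat_lit 5) (nat_lit 565) (nat_lit 5) (nat_lit 406) (nat_lit 391) (nat_lit 343)) (XT.nd (nat_lit 78) (nat_lit 0) (nat_lit 76) (XT.lf (nat_lit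 76) (nat_lit 1295462408) (nat_lit 0) (nat_lit 602278478) (nat_lit 1140) (nat_lit 5294120806) (nat_lit 538) (nat_lit 5) (nat_lit 537) (nat_lit 5) (nat_lit 552) (nat_lit 5) (nat_lit 407) (nat_lit 391) (nat_lit 342)) (XT.lf (nat_lit 0) (nat_lit 3824303857) (nat_lit 1064) (nat_lit 2177377652) (nat_lit 1140) (nat_lit 1233598588) (nat_lit 538) (nat_lit 5) (nat_lit 552) (nat_lit 5) (nat_lit 553) (nat_lit 5) (nat_lit 408) (nat_lit 391) (nat_lit 341)))) (XT.nd (nat_lit 156) (nat_lit 0) (nat_lit 0) (XT.nd (nat_lit 78) (nat_lit 1140) (nat_lit 0) (XT.lf (nat_lit 76) (nat_lit 1603403717) (nat_lit 0) (nat_lit 4157716900) (nat_lit 1140) (nat_lit 1519054327) (nat_lit 539) (nat_lit 5) (nat_lit 538) (nat_lit 5) (nat_lit 553) (nat_lit 5) (nat_lit 409) (nat_lit 391) (nat_lit 340)) (XT.lf (nat_lit 0) (nat_lit 377677214) (nat_lit 1140) (nat_lit 1869192731) (nat_lit 1216) (nat_lit 5079638129) (nat_lit 523) (nat_lit 5) (nat_lit 538)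 (nat_lit 5) (nat_lit 539) (nat_lit 5) (nat_lit 410) (nat_lit 391) (nat_lit 339))) (XT.nd (nat_lit 78) (nat_lit 0) (nat_lit 76) (XT.lf (nat_lit 76) (nat_lit 2001244074) (nat_lit 0) (nat_lit 262251552) (nat_lit 1216) (nat_lit 5110681647) (nat_lit 524) (nat_lit 5) (nat_lit 523) (nat_lit 5) (nat_lit 539) (nat_lit 5) (nat_lit 411) (nat_lit 391) (nat_lit 338)) (XT.lf (nat_lit 0) (nat_lit 4170276512) (nat_lit 1140) (nat_lit 1489864111) (nat_lit 76) (nat_lit 1763033594) (nat_lit 524) (nat_lit 5) (nat_lit 539) (nat_lit 5) (nat_lit 525) (nat_lit 5) (nat_lit 412) (nat_lit 391) (nat_lit 337))))) (XT.nd (nat_lit 234) (nat_lit 2736) (nat_lit 0) (XT.nd (nat_lit 78) (nat_lit 1292) (nat_lit 0) (XT.lf (nat_lit 0) (nat_lit 2471923219) (nat_lit 1140) (nat_lit 3621035646) (nat_lit 1216) (nat_lit 1380675434) (nat_lit 509) (nat_lit 5) (nat_lit 524) (nat_lit 5) (nat_lit 525) (nat_lit 5) (nat_lit 413) (nat_lit 391) (nat_lit 336)) (XT.nd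 (nat_lit 78) (nat_lit 1216) (nat_lit 0) (XT.lf (nat_lit 0) (nat_lit 492392425) (nat_lit 1216) (nat_lit 1025258729) (nat_lit 76) (nat_lit 6008013977) (nat_lit 508) (nat_lit 5) (nat_lit 524) (nat_lit 5) (nat_lit 509) (nat_lit 5) (nat_lit 414) (nat_lit 391) (nat_lit 335)) (XT.lf (nat_lit 0) (nat_lit 2369519862) (nat_lit 1292) (nat_lit 4551368632) (nat_lit 76) (nat_lit 658000145) (nat_lit 492) (nat_lit 5) (nat_lit 509) (nat_lit 5) (nat_lit 493) (nat_lit 5) (nat_lit 415) (nat_lit 391) (nat_lit 334)))) (XT.nd (nat_lit 156) (nat_lit 1444) (nat_lit 0) (XT.nd (nat_lit 78) (nat_lit 1292) (nat_lit 0) (XT.lf (nat_lit 0) (nat_lit 4262853431) (nat_lit 1292) (nat_lit 497960254) (nat_lit 76) (nat_lit 2872825243) (nat_lit 492) (nat_lit 5) (nat_lit 509) (nat_lit 5) (nat_lit 493) (nat_lit 5) (nat_lit 416) (nat_lit 391) (nat_lit 333)) (XT.lf (nat_lit 0) (nat_lit 3654964578) (nat_lit 1292) (nat_lit 2525258100) (nat_lit 1368) (nat_lit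 1509573047) (nat_lit 475) (nat_lit 5) (nat_lit 492) (nat_lit 5) (nat_lit 493) (nat_lit 5) (nat_lit 417) (nat_lit 391) (nat_lit 332))) (XT.nd (nat_lit 78) (nat_lit 0) (nat_lit 0) (XT.lf (nat_lit 0) (nat_lit 119892194) (nat_lit 1368) (nat_lit 230719540) (nat_lit 1444) (nat_lit 7397109997) (nat_lit 456) (nat_lit 5) (nat_lit 474) (nat_lit 5) (nat_lit 475) (nat_lit 5) (nat_lit 418) (nat_lit 391) (nat_lit 331)) (XT.lf (nat_lit 0) (nat_lit 2232049876) (nat_lit 1444) (nat_lit 3448176101) (nat_lit 76) (nat_lit 2126328330) (nat_lit 456) (nat_lit 5) (nat_lit 475) (nat_lit 5) (nat_lit 457) (nat_lit 5) (nat_lit 419) (nat_lit 391) (nat_lit 330))))))))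
noncomputable def xc130 : XT := (XT.nd (nat_lit 2184) (nat_lit 8056) (nat_lit 0) (XT.nd (nat_lit 1092) (nat_lit 6004) (nat_lit 0) (XT.nd (nat_lit 546) (nat_lit 3952) (nat_lit 0) (XT.nd (nat_lit 234) (nat_lit 3344) (nat_lit 0) (XT.nd (nat_lit 78) (nat_lit 1520) (nat_lit 0) (XT.lf (nat_lit 0) (nat_lit 794113832) (nat_lit 1444) (nat_lit 3327697750) (nat_lit 1520) (nat_lit 3745370284) (nat_lit 437) (nat_lit 5) (nat_lit 456) (nat_lit 5) (nat_lit 457) (nat_lit 5) (nat_lit 420) (nat_lit 391) (nat_lit 329)) (XT.nd (nat_lit 78) (nat_lit 1520) (nat_lit 0) (XT.lf (nat_lit 0) (nat_lit 5138343267) (nat_lit 1444) (nat_lit 898688457) (nat_lit 1520) (nat_lit 1892268585) (nat_lit 437) (nat_lit 5) (nat_lit 456) (nat_lit 5) (nat_lit 457) (nat_lit 5) (nat_lit 421) (nat_lit 391) (nat_lit 328)) (XT.lf (nat_lit 0) (nat_lit 1557137436) (nat_lit 1520) (nat_lit 6419036905) (nat_lit 1596) (nat_lit 16805393) (nat_lit 417) (nat_lit 5) (nat_lit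 437) (nat_lit 5) (nat_lit 438) (nat_lit 5) (nat_lit 422) (nat_lit 391) (nat_lit 327)))) (XT.nd (nat_lit 156) (nat_lit 1672) (nat_lit 0) (XT.nd (nat_lit 78) (nat_lit 1596) (nat_lit 0) (XT.lf (nat_lit 0) (nat_lit 1861591740) (nat_lit 1596) (nat_lit 2076040755) (nat_lit 76) (nat_lit 4120277939) (nat_lit 416) (nat_lit 5) (nat_lit 437) (nat_lit 5) (nat_lit 417) (nat_lit 5) (nat_lit 423) (nat_lit 391) (nat_lit 326)) (XT.lf (nat_lit 0) (nat_lit 2372429225) (nat_lit 1596) (nat_lit 1386471700) (nat_lit 1672) (nat_lit 4365634406) (nat_lit 395) (nat_lit 5) (nat_lit 416) (nat_lit 5) (nat_lit 417) (nat_lit 5) (nat_lit 424) (nat_lit 391) (nat_lit 325))) (XT.nd (nat_lit 78) (nat_lit 1672) (nat_lit 0) (XT.lf (nat_lit 0) (nat_lit 5682737709) (nat_lit 1672) (nat_lit 1292248519) (nat_lit 76) (nat_lit 1217763489) (nat_lit 395) (nat_lit 5) (nat_lit 417) (nat_lit 5) (nat_lit 396) (nat_lit 5) (nat_lit 425) (nat_lit 391) (nat_lit 324))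 (XT.lf (nat_lit 0) (nat_lit 3260922431) (nat_lit 1672) (nat_lit 4381801050) (nat_lit 1748) (nat_lit 619679519) (nat_lit 373) (nat_lit 5) (nat_lit 395) (nat_lit 5) (nat_lit 396) (nat_lit 5) (nat_lit 426) (nat_lit 391) (nat_lit 323))))) (XT.nd (nat_lit 234) (nat_lit 1748) (nat_lit 0) (XT.nd (nat_lit 78) (nat_lit 2128) (nat_lit 0) (XT.lf (nat_lit 0) (nat_lit 1267556430) (nat_lit 1748) (nat_lit 448889224) (nat_lit 76) (nat_lit 6617335604) (nat_lit 372) (nat_lit 5) (nat_lit 395) (nat_lit 5) (nat_lit 373) (nat_lit 5) (nat_lit 427) (nat_lit 391) (nat_lit 322)) (XT.nd (nat_lit 78) (nat_lit 836) (nat_lit 0) (XT.lf (nat_lit 0) (nat_lit 3186523698) (nat_lit 1368) (nat_lit 4196550346) (nat_lit 76) (nat_lit 1023411871) (nat_lit 355) (nat_lit 5) (nat_lit 373) (nat_lit 5) (nat_lit 356) (nat_lit 5) (nat_lit 428) (nat_lit 391) (nat_lit 321)) (XT.lf (nat_lit 0) (nat_lit 452353824) (nat_lit 836) (nat_lit 4677470015) (nat_lit 912)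 (nat_lit 3351127676) (nat_lit 344) (nat_lit 5) (nat_lit 355) (nat_lit 5) (nat_lit 356) (nat_lit 5) (nat_lit 429) (nat_lit 391) (nat_lit 320)))) (XT.nd (nat_lit 156) (nat_lit 836) (nat_lit 0) (XT.nd (nat_lit 78) (nat_lit 912) (nat_lit 0) (XT.lf (nat_lit 0) (nat_lit 5221687361) (nat_lit 836) (nat_lit 1887505054) (nat_lit 912) (nat_lit 1447795374) (nat_lit 344) (nat_lit 5) (nat_lit 355) (nat_lit 5) (nat_lit 356) (nat_lit 5) (nat_lit 430) (nat_lit 391) (nat_lit 319)) (XT.lf (nat_lit 0) (nat_lit 472203740) (nat_lit 912) (nat_lit 7203010034) (nat_lit 76) (nat_lit 959589865) (nat_lit 332) (nat_lit 5) (nat_lit 344) (nat_lit 5) (nat_lit 333) (nat_lit 5) (nat_lit 431) (nat_lit 391) (nat_lit 318))) (XT.nd (nat_lit 78) (nat_lit 836) (nat_lit 0) (XT.lf (nat_lit 0) (nat_lit 2416105273) (nat_lit 912) (nat_lit 2426253337) (nat_lit 76) (nat_lit 3871551975) (nat_lit 332) (nat_lit 5) (nat_lit 344) (nat_lit 5) (nat_lit 333) (nat_lit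 5) (nat_lit 432) (nat_lit 391) (nat_lit 317)) (XT.lf (nat_lit 0) (nat_lit 2449011391) (nat_lit 836) (nat_lit 1936205834) (nat_lit 912) (nat_lit 4409679274) (nat_lit 321) (nat_lit 5) (nat_lit 332) (nat_lit 5) (nat_lit 333) (nat_lit 5) (nat_lit 433) (nat_lit 391) (nat_lit 316)))))) (XT.nd (nat_lit 546) (nat_lit 2812) (nat_lit 0) (XT.nd (nat_lit 234) (nat_lit 2280) (nat_lit 0) (XT.nd (nat_lit 78) (nat_lit 912) (nat_lit 0) (XT.lf (nat_lit 0) (nat_lit 6387600590) (nat_lit 912) (nat_lit 1458851882) (nat_lit 76) (nat_lit 1031194891) (nat_lit 321) (nat_lit 5) (nat_lit 333) (nat_lit 5) (nat_lit 322) (nat_lit 5) (nat_lit 434) (nat_lit 391) (nat_lit 315)) (XT.nd (nat_lit 78) (nat_lit 76) (nat_lit 0) (XT.lf (nat_lit 0) (nat_lit 3530418626) (nat_lit 836) (nat_lit 4906754428) (nat_lit 912) (nat_lit 524759926) (nat_lit 310) (nat_lit 5) (nat_lit 321) (nat_lit 5) (nat_lit 322) (nat_lit 5) (nat_lit 435) (nat_lit 391) (nat_lit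 314)) (XT.lf (nat_lit 0) (nat_lit 1441841064) (nat_lit 912) (nat_lit 447323574) (nat_lit 76) (nat_lit 7158940865) (nat_lit 309) (nat_lit 5) (nat_lit 321) (nat_lit 5) (nat_lit 310) (nat_lit 5) (nat_lit 436) (nat_lit 391) (nat_lit 313)))) (XT.nd (nat_lit 156) (nat_lit 760) (nat_lit 0) (XT.nd (nat_lit 78) (nat_lit 760) (nat_lit 0) (XT.lf (nat_lit 0) (nat_lit 3451103527) (nat_lit 836) (nat_lit 4478195003) (nat_lit 76) (nat_lit 1206447716) (nat_lit 299) (nat_lit 5) (nat_lit 310) (nat_lit 5) (nat_lit 300) (nat_lit 5) (nat_lit 437) (nat_lit 391) (nat_lit 312)) (XT.lf (nat_lit 0) (nat_lit 612006607) (nat_lit 760) (nat_lit 4880526801) (nat_lit 836) (nat_lit 3732787599) (nat_lit 289) (nat_lit 5) (nat_lit 299) (nat_lit 5) (nat_lit 300) (nat_lit 5) (nat_lit 438) (nat_lit 391) (nat_lit 311))) (XT.nd (nat_lit 78) (nat_lit 760) (nat_lit 0) (XT.lf (nat_lit 0) (nat_lit 5835909687) (nat_lit 760) (nat_lit 1741761844) (nat_lit 836)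 (nat_lit 1738978578) (nat_lit 289) (nat_lit 5) (nat_lit 299) (nat_lit 5) (nat_lit 300) (nat_lit 5) (nat_lit 439) (nat_lit 391) (nat_lit 310)) (XT.lf (nat_lit 0) (nat_lit 284902541) (nat_lit 760) (nat_lit 7672786160) (nat_lit 76) (nat_lit 1452217244) (nat_lit 279) (nat_lit 5) (nat_lit 289) (nat_lit 5) (nat_lit 280) (nat_lit 5) (nat_lit 440) (nat_lit 391) (nat_lit 309))))) (XT.nd (nat_lit 234) (nat_lit 2052) (nat_lit 0) (XT.nd (nat_lit 78) (nat_lit 760) (nat_lit 0) (XT.lf (nat_lit 0) (nat_lit 2334539468) (nat_lit 760) (nat_lit 2450211552) (nat_lit 76) (nat_lit 4719893982) (nat_lit 279) (nat_lit 5) (nat_lit 289) (nat_lit 5) (nat_lit 280) (nat_lit 5) (nat_lit 441) (nat_lit 391) (nat_lit 308)) (XT.nd (nat_lit 78) (nat_lit 0) (nat_lit 0) (XT.lf (nat_lit 0) (nat_lit 2886271052) (nat_lit 760) (nat_lit 1531651598) (nat_lit 836) (nat_lit 5183520002) (nat_lit 269) (nat_lit 5) (nat_lit 279) (nat_lit 5) (nat_lit 280) (nat_lit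 5) (nat_lit 442) (nat_lit 391) (nat_lit 307)) (XT.lf (nat_lit 0) (nat_lit 6545447536) (nat_lit 836) (nat_lit 1377584710) (nat_lit 76) (nat_lit 1777113036) (nat_lit 269) (nat_lit 5) (nat_lit 280) (nat_lit 5) (nat_lit 270) (nat_lit 5) (nat_lit 443) (nat_lit 391) (nat_lit 306)))) (XT.nd (nat_lit 156) (nat_lit 1292) (nat_lit 0) (XT.nd (nat_lit 78) (nat_lit 76) (nat_lit 0) (XT.lf (nat_lit 0) (nat_lit 4081983955) (nat_lit 684) (nat_lit 4645012491) (nat_lit 760) (nat_lit 1073614197) (nat_lit 260) (nat_lit 5) (nat_lit 269) (nat_lit 5) (nat_lit 270) (nat_lit 5) (nat_lit 444) (nat_lit 391) (nat_lit 305)) (XT.lf (nat_lit 0) (nat_lit 1019594474) (nat_lit 760) (nat_lit 268683022) (nat_lit 76) (nat_lit 8615003781) (nat_lit 259) (nat_lit 5) (nat_lit 269) (nat_lit 5) (nat_lit 260) (nat_lit 5) (nat_lit 445) (nat_lit 391) (nat_lit 304))) (XT.nd (nat_lit 78) (nat_lit 608) (nat_lit 0) (XT.lf (nat_lit 0) (nat_lit 3164448719) (nat_lit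 760) (nat_lit 4696581972) (nat_lit 76) (nat_lit 2146366662) (nat_lit 250) (nat_lit 5) (nat_lit 260) (nat_lit 5) (nat_lit 251) (nat_lit 5) (nat_lit 446) (nat_lit 391) (nat_lit 303)) (XT.lf (nat_lit 0) (nat_lit 866740588) (nat_lit 608) (nat_lit 4477162071) (nat_lit 684) (nat_lit 4769875803) (nat_lit 242) (nat_lit 5) (nat_lit 250) (nat_lit 5) (nat_lit 251) (nat_lit 5) (nat_lit 447) (nat_lit 391) (nat_lit 302))))))) (XT.nd (nat_lit 1092) (nat_lit 3876) (nat_lit 0) (XT.nd (nat_lit 546) (nat_lit 2204) (nat_lit 0) (XT.nd (nat_lit 234) (nat_lit 1292) (nat_lit 0) (XT.nd (nat_lit 78) (nat_lit 684) (nat_lit 0) (XT.lf (nat_lit 0) (nat_lit 6577108248) (nat_lit 608) (nat_lit 997377403) (nat_lit 684) (nat_lit 2647667180) (nat_lit 242) (nat_lit 5) (nat_lit 250) (nat_lit 5) (nat_lit 251) (nat_lit 5) (nat_lit 448) (nat_lit 391) (nat_lit 301)) (XT.nd (nat_lit 78) (nat_lit 76) (nat_lit 0) (XT.lf (nat_lit 0) (nat_lit 2051526046)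 (nat_lit 608) (nat_lit 7804512108) (nat_lit 684) (nat_lit 476545492) (nat_lit 234) (nat_lit 5) (nat_lit 242) (nat_lit 5) (nat_lit 243) (nat_lit 5) (nat_lit 449) (nat_lit 391) (nat_lit 300)) (XT.lf (nat_lit 0) (nat_lit 1723012990) (nat_lit 684) (nat_lit 2579290808) (nat_lit 76) (nat_lit 6142552912) (nat_lit 233) (nat_lit 5) (nat_lit 242) (nat_lit 5) (nat_lit 234) (nat_lit 5) (nat_lit 450) (nat_lit 391) (nat_lit 299)))) (XT.nd (nat_lit 156) (nat_lit 684) (nat_lit 0) (XT.nd (nat_lit 78) (nat_lit 0) (nat_lit 0) (XT.lf (nat_lit 0) (nat_lit 3248565633) (nat_lit 608) (nat_lit 709754285) (nat_lit 684) (nat_lit 6601044739) (nat_lit 225) (nat_lit 5) (nat_lit 233) (nat_lit 5) (nat_lit 234) (nat_lit 5) (nat_lit 451) (nat_lit 391) (nat_lit 298)) (XT.lf (nat_lit 0) (nat_lit 6252224030) (nat_lit 684) (nat_lit 1494826826) (nat_lit 76) (nat_lit 2928848972) (nat_lit 225) (nat_lit 5) (nat_lit 234) (nat_lit 5) (nat_lit 226) (nat_lit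 5) (nat_lit 452) (nat_lit 391) (nat_lit 297))) (XT.nd (nat_lit 78) (nat_lit 76) (nat_lit 0) (XT.lf (nat_lit 0) (nat_lit 4464201246) (nat_lit 608) (nat_lit 4139219793) (nat_lit 684) (nat_lit 2191130965) (nat_lit 217) (nat_lit 5) (nat_lit 225) (nat_lit 5) (nat_lit 226) (nat_lit 5) (nat_lit 453) (nat_lit 391) (nat_lit 296)) (XT.lf (nat_lit 0) (nat_lit 72865341) (nat_lit 684) (nat_lit 380571446) (nat_lit 76) (nat_lit 10462384701) (nat_lit 216) (nat_lit 5) (nat_lit 225) (nat_lit 5) (nat_lit 217) (nat_lit 5) (nat_lit 454) (nat_lit 391) (nat_lit 295))))) (XT.nd (nat_lit 234) (nat_lit 1140) (nat_lit 0) (XT.nd (nat_lit 78) (nat_lit 532) (nat_lit 0) (XT.lf (nat_lit 0) (nat_lit 2390022446) (nat_lit 608) (nat_lit 5338676539) (nat_lit 76) (nat_lit 3309797062) (nat_lit 209) (nat_lit 5) (nat_lit 217) (nat_lit 5) (nat_lit 210) (nat_lit 5) (nat_lit 455) (nat_lit 391) (nat_lit 294)) (XT.nd (nat_lit 78) (nat_lit 0) (nat_lit 0)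 (XT.lf (nat_lit 0) (nat_lit 722922793) (nat_lit 532) (nat_lit 4019354805) (nat_lit 608) (nat_lit 6421584885) (nat_lit 202) (nat_lit 5) (nat_lit 209) (nat_lit 5) (nat_lit 210) (nat_lit 5) (nat_lit 456) (nat_lit 391) (nat_lit 293)) (XT.lf (nat_lit 0) (nat_lit 6951355861) (nat_lit 532) (nat_lit 204782926) (nat_lit 608) (nat_lit 4135319461) (nat_lit 202) (nat_lit 5) (nat_lit 209) (nat_lit 5) (nat_lit 210) (nat_lit 5) (nat_lit 457) (nat_lit 391) (nat_lit 292)))) (XT.nd (nat_lit 156) (nat_lit 532) (nat_lit 0) (XT.nd (nat_lit 78) (nat_lit 76) (nat_lit 0) (XT.lf (nat_lit 0) (nat_lit 1856532438) (nat_lit 532) (nat_lit 7776848619) (nat_lit 608) (nat_lit 1787935757) (nat_lit 195) (nat_lit 5) (nat_lit 202) (nat_lit 5) (nat_lit 203) (nat_lit 5) (nat_lit 458) (nat_lit 391) (nat_lit 291)) (XT.lf (nat_lit 0) (nat_lit 608321999) (nat_lit 608) (nat_lit 3349494113) (nat_lit 76) (nat_lit 7595692564) (nat_lit 194) (nat_lit 5) (nat_lit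 202) (nat_lit 5) (nat_lit 195) (nat_lit 5) (nat_lit 459) (nat_lit 391) (nat_lit 290))) (XT.nd (nat_lit 78) (nat_lit 0) (nat_lit 0) (XT.lf (nat_lit 0) (nat_lit 2991267762) (nat_lit 532) (nat_lit 36354028) (nat_lit 608) (nat_lit 8660517286) (nat_lit 187) (nat_lit 5) (nat_lit 194) (nat_lit 5) (nat_lit 195) (nat_lit 5) (nat_lit 460) (nat_lit 391) (nat_lit 289)) (XT.lf (nat_lit 0) (nat_lit 5523473181) (nat_lit 608) (nat_lit 2373076016) (nat_lit 76) (nat_lit 3928361550) (nat_lit 187) (nat_lit 5) (nat_lit 195) (nat_lit 5) (nat_lit 188) (nat_lit 5) (nat_lit 461) (nat_lit 391) (nat_lit 288)))))) (XT.nd (nat_lit 546) (nat_lit 1900) (nat_lit 0) (XT.nd (nat_lit 234) (nat_lit 912) (nat_lit 0) (XT.nd (nat_lit 78) (nat_lit 608) (nat_lit 0) (XT.lf (nat_lit 0) (nat_lit 4104880037) (nat_lit 456) (nat_lit 3971455851) (nat_lit 532) (nat_lit 3887951816) (nat_lit 181) (nat_lit 5) (nat_lit 187) (nat_lit 5) (nat_lit 188) (nat_lit 5)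 (nat_lit 462) (nat_lit 391) (nat_lit 287)) (XT.nd (nat_lit 78) (nat_lit 608) (nat_lit 0) (XT.lf (nat_lit 0) (nat_lit 10676877559) (nat_lit 532) (nat_lit 1387988162) (nat_lit 76) (nat_lit 41665553) (nat_lit 181) (nat_lit 5) (nat_lit 188) (nat_lit 5) (nat_lit 182) (nat_lit 5) (nat_lit 463) (nat_lit 391) (nat_lit 286)) (XT.lf (nat_lit 0) (nat_lit 1104957608) (nat_lit 608) (nat_lit 7028526146) (nat_lit 76) (nat_lit 4117181407) (nat_lit 173) (nat_lit 5) (nat_lit 181) (nat_lit 5) (nat_lit 174) (nat_lit 5) (nat_lit 464) (nat_lit 391) (nat_lit 285)))) (XT.nd (nat_lit 156) (nat_lit 456) (nat_lit 0) (XT.nd (nat_lit 78) (nat_lit 456) (nat_lit 0) (XT.lf (nat_lit 0) (nat_lit 3661354603) (nat_lit 608) (nat_lit 449430196) (nat_lit 76) (nat_lit 8286914041) (nat_lit 173) (nat_lit 5) (nat_lit 181) (nat_lit 5) (nat_lit 174) (nat_lit 5) (nat_lit 465) (nat_lit 391) (nat_lit 284)) (XT.lf (nat_lit 0) (nat_lit 6291305275) (nat_lit 532)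 (nat_lit 6228482585) (nat_lit 76) (nat_lit 27447451) (nat_lit 167) (nat_lit 5) (nat_lit 174) (nat_lit 5) (nat_lit 168) (nat_lit 5) (nat_lit 466) (nat_lit 391) (nat_lit 283))) (XT.nd (nat_lit 78) (nat_lit 0) (nat_lit 0) (XT.lf (nat_lit 0) (nat_lit 482413317) (nat_lit 456) (nat_lit 8506215839) (nat_lit 532) (nat_lit 3710848294) (nat_lit 161) (nat_lit 5) (nat_lit 167) (nat_lit 5) (nat_lit 168) (nat_lit 5) (nat_lit 467) (nat_lit 391) (nat_lit 282)) (XT.lf (nat_lit 0) (nat_lit 7386763529) (nat_lit 456) (nat_lit 4376516291) (nat_lit 532) (nat_lit 1091027225) (nat_lit 161) (nat_lit 5) (nat_lit 167) (nat_lit 5) (nat_lit 168) (nat_lit 5) (nat_lit 468) (nat_lit 391) (nat_lit 281))))) (XT.nd (nat_lit 234) (nat_lit 912) (nat_lit 0) (XT.nd (nat_lit 78) (nat_lit 456) (nat_lit 0) (XT.lf (nat_lit 0) (nat_lit 1400114279) (nat_lit 456) (nat_lit 151244411) (nat_lit 532) (nat_lit 11460860922) (nat_lit 154) (nat_lit 5) (nat_lit 160)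 (nat_lit 5) (nat_lit 161) (nat_lit 5) (nat_lit 469) (nat_lit 391) (nat_lit 280)) (XT.nd (nat_lit 78) (nat_lit 456) (nat_lit 0) (XT.lf (nat_lit 0) (nat_lit 4277897209) (nat_lit 532) (nat_lit 4752896666) (nat_lit 76) (nat_lit 4141443676) (nat_lit 154) (nat_lit 5) (nat_lit 161) (nat_lit 5) (nat_lit 155) (nat_lit 5) (nat_lit 470) (nat_lit 391) (nat_lit 279)) (XT.lf (nat_lit 0) (nat_lit 2247350352) (nat_lit 456) (nat_lit 4809529694) (nat_lit 532) (nat_lit 6278626972) (nat_lit 148) (nat_lit 5) (nat_lit 154) (nat_lit 5) (nat_lit 155) (nat_lit 5) (nat_lit 471) (nat_lit 391) (nat_lit 278)))) (XT.nd (nat_lit 156) (nat_lit 532) (nat_lit 0) (XT.nd (nat_lit 78) (nat_lit 380) (nat_lit 0) (XT.lf (nat_lit 0) (nat_lit 9427572434) (nat_lit 456) (nat_lit 478273051) (nat_lit 532) (nat_lit 3595917588) (nat_lit 148) (nat_lit 5) (nat_lit 154) (nat_lit 5) (nat_lit 155) (nat_lit 5) (nat_lit 472) (nat_lit 391) (nat_lit 277)) (XT.lf (nat_lit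 0) (nat_lit 3070460994) (nat_lit 380) (nat_lit 9769650402) (nat_lit 456) (nat_lit 830675503) (nat_lit 143) (nat_lit 5) (nat_lit 148) (nat_lit 5) (nat_lit 149) (nat_lit 5) (nat_lit 473) (nat_lit 391) (nat_lit 276))) (XT.nd (nat_lit 78) (nat_lit 456) (nat_lit 0) (XT.lf (nat_lit 0) (nat_lit 1977328470) (nat_lit 456) (nat_lit 3470041475) (nat_lit 76) (nat_lit 8395300496) (nat_lit 142) (nat_lit 5) (nat_lit 148) (nat_lit 5) (nat_lit 143) (nat_lit 5) (nat_lit 474) (nat_lit 391) (nat_lit 275)) (XT.lf (nat_lit 0) (nat_lit 3823611040) (nat_lit 456) (nat_lit 1014796687) (nat_lit 532) (nat_lit 9179321904) (nat_lit 136) (nat_lit 5) (nat_lit 142) (nat_lit 5) (nat_lit 143) (nat_lit 5) (nat_lit 475) (nat_lit 391) (nat_lit 274))))))))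
noncomputable def xc131 : XT := (XT.nd (nat_lit 2184) (nat_lit 2204) (nat_lit 0) (XT.nd (nat_lit 1092) (nat_lit 2128) (nat_lit 0) (XT.nd (nat_lit 546) (nat_lit 1520) (nat_lit 0) (XT.nd (nat_lit 234) (nat_lit 760) (nat_lit 0) (XT.nd (nat_lit 78) (nat_lit 380) (nat_lit 0) (XT.lf (nat_lit 0) (nat_lit 7786245971) (nat_lit 532) (nat_lit 2932591991) (nat_lit 76) (nat_lit 3476869677) (nat_lit 136) (nat_lit 5) (nat_lit 143) (nat_lit 5) (nat_lit 137) (nat_lit 5) (nat_lit 476) (nat_lit 391) (nat_lit 273)) (XT.nd (nat_lit 78) (nat_lit 0) (nat_lit 0) (XT.lf (nat_lit 0) (nat_lit 4502951289) (nat_lit 380) (nat_lit 6309704510) (nat_lit 456) (nat_lit 3564205332) (nat_lit 131) (nat_lit 5) (nat_lit 136) (nat_lit 5) (nat_lit 137) (nat_lit 5) (nat_lit 477) (nat_lit 391) (nat_lit 272)) (XT.lf (nat_lit 0) (nat_lit 12103562069) (nat_lit 380) (nat_lit 1799537686) (nat_lit 456) (nat_lit 658475876) (nat_lit 131) (nat_lit 5) (nat_lit 136)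 (nat_lit 5) (nat_lit 137) (nat_lit 5) (nat_lit 478) (nat_lit 391) (nat_lit 271)))) (XT.nd (nat_lit 156) (nat_lit 304) (nat_lit 0) (XT.nd (nat_lit 78) (nat_lit 0) (nat_lit 0) (XT.lf (nat_lit 0) (nat_lit 2310964602) (nat_lit 456) (nat_lit 9632375397) (nat_lit 76) (nat_lit 2805636173) (nat_lit 125) (nat_lit 5) (nat_lit 131) (nat_lit 5) (nat_lit 126) (nat_lit 5) (nat_lit 479) (nat_lit 391) (nat_lit 270)) (XT.lf (nat_lit 0) (nat_lit 5343654441) (nat_lit 456) (nat_lit 2103437145) (nat_lit 76) (nat_lit 7492700130) (nat_lit 125) (nat_lit 5) (nat_lit 131) (nat_lit 5) (nat_lit 126) (nat_lit 5) (nat_lit 480) (nat_lit 391) (nat_lit 269))) (XT.nd (nat_lit 78) (nat_lit 0) (nat_lit 0) (XT.lf (nat_lit 0) (nat_lit 5627054941) (nat_lit 304) (nat_lit 2830936562) (nat_lit 380) (nat_lit 6676019641) (nat_lit 121) (nat_lit 5) (nat_lit 125) (nat_lit 5) (nat_lit 126) (nat_lit 5) (nat_lit 481) (nat_lit 391) (nat_lit 268)) (XT.lf (nat_lit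 0) (nat_lit 11645583229) (nat_lit 380) (nat_lit 1826389108) (nat_lit 76) (nat_lit 1859930567) (nat_lit 121) (nat_lit 5) (nat_lit 126) (nat_lit 5) (nat_lit 122) (nat_lit 5) (nat_lit 482) (nat_lit 391) (nat_lit 267))))) (XT.nd (nat_lit 234) (nat_lit 760) (nat_lit 0) (XT.nd (nat_lit 78) (nat_lit 380) (nat_lit 0) (XT.lf (nat_lit 0) (nat_lit 6045841311) (nat_lit 380) (nat_lit 8893958607) (nat_lit 456) (nat_lit 593102271) (nat_lit 116) (nat_lit 5) (nat_lit 121) (nat_lit 5) (nat_lit 122) (nat_lit 5) (nat_lit 483) (nat_lit 391) (nat_lit 266)) (XT.nd (nat_lit 78) (nat_lit 304) (nat_lit 0) (XT.lf (nat_lit 0) (nat_lit 2525632905) (nat_lit 456) (nat_lit 1676669787) (nat_lit 76) (nat_lit 11535347879) (nat_lit 115) (nat_lit 5) (nat_lit 121) (nat_lit 5) (nat_lit 116) (nat_lit 5) (nat_lit 484) (nat_lit 391) (nat_lit 265)) (XT.lf (nat_lit 0) (nat_lit 5729268992) (nat_lit 380) (nat_lit 9602795897) (nat_lit 76) (nat_lit 613748010)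 (nat_lit 111) (nat_lit 5) (nat_lit 116) (nat_lit 5) (nat_lit 112) (nat_lit 5) (nat_lit 485) (nat_lit 391) (nat_lit 264)))) (XT.nd (nat_lit 156) (nat_lit 380) (nat_lit 0) (XT.nd (nat_lit 78) (nat_lit 380) (nat_lit 0) (XT.lf (nat_lit 0) (nat_lit 9021446047) (nat_lit 380) (nat_lit 1662208490) (nat_lit 76) (nat_lit 5474001181) (nat_lit 111) (nat_lit 5) (nat_lit 116) (nat_lit 5) (nat_lit 112) (nat_lit 5) (nat_lit 486) (nat_lit 391) (nat_lit 263)) (XT.lf (nat_lit 0) (nat_lit 6500667756) (nat_lit 380) (nat_lit 5906606101) (nat_lit 456) (nat_lit 3965911873) (nat_lit 106) (nat_lit 5) (nat_lit 111) (nat_lit 5) (nat_lit 112) (nat_lit 5) (nat_lit 487) (nat_lit 391) (nat_lit 262))) (XT.nd (nat_lit 78) (nat_lit 380) (nat_lit 0) (XT.lf (nat_lit 0) (nat_lit 14827696159) (nat_lit 380) (nat_lit 1030018785) (nat_lit 456) (nat_lit 735379817) (nat_lit 106) (nat_lit 5) (nat_lit 111) (nat_lit 5) (nat_lit 112) (nat_lit 5) (nat_lit 488)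 (nat_lit 391) (nat_lit 261)) (XT.lf (nat_lit 0) (nat_lit 2580604707) (nat_lit 380) (nat_lit 10290693269) (nat_lit 76) (nat_lit 3944689438) (nat_lit 101) (nat_lit 5) (nat_lit 106) (nat_lit 5) (nat_lit 102) (nat_lit 5) (nat_lit 489) (nat_lit 391) (nat_lit 260)))))) (XT.nd (nat_lit 546) (nat_lit 1140) (nat_lit 0) (XT.nd (nat_lit 234) (nat_lit 684) (nat_lit 0) (XT.nd (nat_lit 78) (nat_lit 304) (nat_lit 0) (XT.lf (nat_lit 0) (nat_lit 5957831568) (nat_lit 380) (nat_lit 2070641963) (nat_lit 76) (nat_lit 9014677772) (nat_lit 101) (nat_lit 5) (nat_lit 106) (nat_lit 5) (nat_lit 102) (nat_lit 5) (nat_lit 490) (nat_lit 391) (nat_lit 259)) (XT.nd (nat_lit 78) (nat_lit 0) (nat_lit 0) (XT.lf (nat_lit 0) (nat_lit 6376356715) (nat_lit 304) (nat_lit 3053933679) (nat_lit 380) (nat_lit 7844020198) (nat_lit 97) (nat_lit 5) (nat_lit 101) (nat_lit 5) (nat_lit 102) (nat_lit 5) (nat_lit 491) (nat_lit 391) (nat_lit 258)) (XT.lf (nat_lit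 0) (nat_lit 12985674307) (nat_lit 380) (nat_lit 2523831093) (nat_lit 76) (nat_lit 2000323901) (nat_lit 97) (nat_lit 5) (nat_lit 102) (nat_lit 5) (nat_lit 98) (nat_lit 5) (nat_lit 492) (nat_lit 391) (nat_lit 257)))) (XT.nd (nat_lit 156) (nat_lit 304) (nat_lit 0) (XT.nd (nat_lit 78) (nat_lit 76) (nat_lit 0) (XT.lf (nat_lit 0) (nat_lit 6056221417) (nat_lit 304) (nat_lit 10602130392) (nat_lit 380) (nat_lit 1090788499) (nat_lit 93) (nat_lit 5) (nat_lit 97) (nat_lit 5) (nat_lit 98) (nat_lit 5) (nat_lit 493) (nat_lit 391) (nat_lit 256)) (XT.lf (nat_lit 0) (nat_lit 2383344978) (nat_lit 380) (nat_lit 3187382585) (nat_lit 76) (nat_lit 12422127815) (nat_lit 92) (nat_lit 5) (nat_lit 97) (nat_lit 5) (nat_lit 93) (nat_lit 5) (nat_lit 494) (nat_lit 391) (nat_lit 255))) (XT.nd (nat_lit 78) (nat_lit 0) (nat_lit 0) (XT.lf (nat_lit 0) (nat_lit 5533215302) (nat_lit 304) (nat_lit 402015565) (nat_lit 380) (nat_lit 12305617490) (nat_lit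 88) (nat_lit 5) (nat_lit 92) (nat_lit 5) (nat_lit 93) (nat_lit 5) (nat_lit 495) (nat_lit 391) (nat_lit 254)) (XT.lf (nat_lit 0) (nat_lit 9598318382) (nat_lit 380) (nat_lit 4074180609) (nat_lit 76) (nat_lit 4820504138) (nat_lit 88) (nat_lit 5) (nat_lit 93) (nat_lit 5) (nat_lit 89) (nat_lit 5) (nat_lit 496) (nat_lit 391) (nat_lit 253))))) (XT.nd (nat_lit 234) (nat_lit 532) (nat_lit 0) (XT.nd (nat_lit 78) (nat_lit 380) (nat_lit 0) (XT.lf (nat_lit 0) (nat_lit 4771786094) (nat_lit 228) (nat_lit 8583793656) (nat_lit 304) (nat_lit 5394208113) (nat_lit 85) (nat_lit 5) (nat_lit 88) (nat_lit 5) (nat_lit 89) (nat_lit 5) (nat_lit 497) (nat_lit 391) (nat_lit 252)) (XT.nd (nat_lit 78) (nat_lit 380) (nat_lit 0) (XT.lf (nat_lit 0) (nat_lit 13829955528) (nat_lit 228) (nat_lit 3372759025) (nat_lit 304) (nat_lit 1808704186) (nat_lit 85) (nat_lit 5) (nat_lit 88) (nat_lit 5) (nat_lit 89) (nat_lit 5) (nat_lit 498) (nat_lit 391) (nat_lit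 251)) (XT.lf (nat_lit 0) (nat_lit 1849355301) (nat_lit 380) (nat_lit 15481368620) (nat_lit 76) (nat_lit 1946821311) (nat_lit 80) (nat_lit 5) (nat_lit 85) (nat_lit 5) (nat_lit 81) (nat_lit 5) (nat_lit 499) (nat_lit 391) (nat_lit 250)))) (XT.nd (nat_lit 156) (nat_lit 304) (nat_lit 0) (XT.nd (nat_lit 78) (nat_lit 228) (nat_lit 0) (XT.lf (nat_lit 0) (nat_lit 5601335505) (nat_lit 380) (nat_lit 6579035070) (nat_lit 76) (nat_lit 7367489727) (nat_lit 80) (nat_lit 5) (nat_lit 85) (nat_lit 5) (nat_lit 81) (nat_lit 5) (nat_lit 500) (nat_lit 391) (nat_lit 249)) (XT.lf (nat_lit 0) (nat_lit 2514919992) (nat_lit 228) (nat_lit 6917625292) (nat_lit 304) (nat_lit 10390957219) (nat_lit 77) (nat_lit 5) (nat_lit 80) (nat_lit 5) (nat_lit 81) (nat_lit 5) (nat_lit 501) (nat_lit 391) (nat_lit 248))) (XT.nd (nat_lit 78) (nat_lit 304) (nat_lit 0) (XT.lf (nat_lit 0) (nat_lit 11860653613) (nat_lit 228) (nat_lit 1511848703) (nat_lit 304)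 (nat_lit 6731517309) (nat_lit 77) (nat_lit 5) (nat_lit 80) (nat_lit 5) (nat_lit 81) (nat_lit 5) (nat_lit 502) (nat_lit 391) (nat_lit 247)) (XT.lf (nat_lit 0) (nat_lit 970806092) (nat_lit 304) (nat_lit 16440903317) (nat_lit 380) (nat_lit 2978033110) (nat_lit 73) (nat_lit 5) (nat_lit 77) (nat_lit 5) (nat_lit 78) (nat_lit 5) (nat_lit 503) (nat_lit 391) (nat_lit 246))))))) (XT.nd (nat_lit 1092) (nat_lit 608) (nat_lit 0) (XT.nd (nat_lit 546) (nat_lit 760) (nat_lit 0) (XT.nd (nat_lit 234) (nat_lit 532) (nat_lit 0) (XT.nd (nat_lit 78) (nat_lit 228) (nat_lit 0) (XT.lf (nat_lit 0) (nat_lit 893252769) (nat_lit 380) (nat_lit 10234104291) (nat_lit 76) (nat_lit 9552638910) (nat_lit 72) (nat_lit 5) (nat_lit 77) (nat_lit 5) (nat_lit 73) (nat_lit 5) (nat_lit 504) (nat_lit 391) (nat_lit 245)) (XT.nd (nat_lit 78) (nat_lit 228) (nat_lit 0) (XT.lf (nat_lit 0) (nat_lit 4790548152) (nat_lit 380) (nat_lit 904055108) (nat_lit 76) (nat_lit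 15281292531) (nat_lit 72) (nat_lit 5) (nat_lit 77) (nat_lit 5) (nat_lit 73) (nat_lit 5) (nat_lit 505) (nat_lit 391) (nat_lit 244)) (XT.lf (nat_lit 0) (nat_lit 8708417793) (nat_lit 228) (nat_lit 102561859) (nat_lit 304) (nat_lit 12465834263) (nat_lit 69) (nat_lit 5) (nat_lit 72) (nat_lit 5) (nat_lit 73) (nat_lit 5) (nat_lit 506) (nat_lit 391) (nat_lit 243)))) (XT.nd (nat_lit 156) (nat_lit 304) (nat_lit 0) (XT.nd (nat_lit 78) (nat_lit 228) (nat_lit 0) (XT.lf (nat_lit 0) (nat_lit 12943001876) (nat_lit 304) (nat_lit 3113093988) (nat_lit 76) (nat_lit 5527034925) (nat_lit 69) (nat_lit 5) (nat_lit 73) (nat_lit 5) (nat_lit 70) (nat_lit 5) (nat_lit 507) (nat_lit 391) (nat_lit 242)) (XT.lf (nat_lit 0) (nat_lit 6599092954) (nat_lit 228) (nat_lit 10591025655) (nat_lit 304) (nat_lit 4704810260) (nat_lit 66) (nat_lit 5) (nat_lit 69) (nat_lit 5) (nat_lit 70) (nat_lit 5) (nat_lit 508) (nat_lit 391) (nat_lit 241))) (XT.nd (nat_lit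 78) (nat_lit 304) (nat_lit 0) (XT.lf (nat_lit 0) (nat_lit 16529751152) (nat_lit 228) (nat_lit 5002346578) (nat_lit 304) (nat_lit 680670652) (nat_lit 66) (nat_lit 5) (nat_lit 69) (nat_lit 5) (nat_lit 70) (nat_lit 5) (nat_lit 509) (nat_lit 391) (nat_lit 240)) (XT.lf (nat_lit 0) (nat_lit 3399883959) (nat_lit 304) (nat_lit 18404706765) (nat_lit 76) (nat_lit 731516313) (nat_lit 62) (nat_lit 5) (nat_lit 66) (nat_lit 5) (nat_lit 63) (nat_lit 5) (nat_lit 510) (nat_lit 391) (nat_lit 239))))) (XT.nd (nat_lit 234) (nat_lit 532) (nat_lit 0) (XT.nd (nat_lit 78) (nat_lit 228) (nat_lit 0) (XT.lf (nat_lit 0) (nat_lit 7613683259) (nat_lit 304) (nat_lit 8701720327) (nat_lit 76) (nat_lit 6549207589) (nat_lit 62) (nat_lit 5) (nat_lit 66) (nat_lit 5) (nat_lit 63) (nat_lit 5) (nat_lit 511) (nat_lit 391) (nat_lit 238)) (XT.nd (nat_lit 78) (nat_lit 0) (nat_lit 0) (XT.lf (nat_lit 0) (nat_lit 1193505277) (nat_lit 228) (nat_lit 10715436160)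 (nat_lit 304) (nat_lit 11290803878) (nat_lit 59) (nat_lit 5) (nat_lit 62) (nat_lit 5) (nat_lit 63) (nat_lit 5) (nat_lit 512) (nat_lit 391) (nat_lit 237)) (XT.lf (nat_lit 0) (nat_lit 11387230863) (nat_lit 228) (nat_lit 4950795377) (nat_lit 304) (nat_lit 7202600976) (nat_lit 59) (nat_lit 5) (nat_lit 62) (nat_lit 5) (nat_lit 63) (nat_lit 5) (nat_lit 513) (nat_lit 391) (nat_lit 236)))) (XT.nd (nat_lit 156) (nat_lit 228) (nat_lit 0) (XT.nd (nat_lit 78) (nat_lit 304) (nat_lit 0) (XT.lf (nat_lit 0) (nat_lit 20851415150) (nat_lit 304) (nat_lit 2126711580) (nat_lit 76) (nat_lit 910289017) (nat_lit 59) (nat_lit 5) (nat_lit 63) (nat_lit 5) (nat_lit 60) (nat_lit 5) (nat_lit 514) (nat_lit 391) (nat_lit 235)) (XT.lf (nat_lit 0) (nat_lit 1272159968) (nat_lit 304) (nat_lit 16092154228) (nat_lit 76) (nat_lit 6877168933) (nat_lit 55) (nat_lit 5) (nat_lit 59) (nat_lit 5) (nat_lit 56) (nat_lit 5) (nat_lit 515) (nat_lit 391) (nat_lit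 234))) (XT.nd (nat_lit 78) (nat_lit 228) (nat_lit 0) (XT.lf (nat_lit 0) (nat_lit 5631154103) (nat_lit 304) (nat_lit 5978687956) (nat_lit 76) (nat_lit 12991285234) (nat_lit 55) (nat_lit 5) (nat_lit 59) (nat_lit 5) (nat_lit 56) (nat_lit 5) (nat_lit 516) (nat_lit 391) (nat_lit 233)) (XT.lf (nat_lit 0) (nat_lit 4377922975) (nat_lit 228) (nat_lit 5717939248) (nat_lit 304) (nat_lit 14871734612) (nat_lit 52) (nat_lit 5) (nat_lit 55) (nat_lit 5) (nat_lit 56) (nat_lit 5) (nat_lit 517) (nat_lit 391) (nat_lit 232)))))) (XT.nd (nat_lit 546) (nat_lit 0) (nat_lit 0) (XT.nd (nat_lit 234) (nat_lit 456) (nat_lit 0) (XT.nd (nat_lit 78) (nat_lit 152) (nat_lit 0) (XT.lf (nat_lit 0) (nat_lit 14682298823) (nat_lit 304) (nat_lit 10336634031) (nat_lit 76) (nat_lit 321817341) (nat_lit 52) (nat_lit 5) (nat_lit 56) (nat_lit 5) (nat_lit 53) (nat_lit 5) (nat_lit 518) (nat_lit 391) (nat_lit 231)) (XT.nd (nat_lit 78) (nat_lit 0) (nat_lit 0)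 (XT.lf (nat_lit 0) (nat_lit 68230364) (nat_lit 152) (nat_lit 19320890903) (nat_lit 228) (nat_lit 6331675267) (nat_lit 50) (nat_lit 5) (nat_lit 52) (nat_lit 5) (nat_lit 53) (nat_lit 5) (nat_lit 519) (nat_lit 391) (nat_lit 230)) (XT.lf (nat_lit 0) (nat_lit 10805150907) (nat_lit 152) (nat_lit 13444724851) (nat_lit 228) (nat_lit 1857375124) (nat_lit 50) (nat_lit 5) (nat_lit 52) (nat_lit 5) (nat_lit 53) (nat_lit 5) (nat_lit 520) (nat_lit 391) (nat_lit 229)))) (XT.nd (nat_lit 156) (nat_lit 152) (nat_lit 0) (XT.nd (nat_lit 78) (nat_lit 228) (nat_lit 0) (XT.lf (nat_lit 0) (nat_lit 2661469894) (nat_lit 228) (nat_lit 4778164816) (nat_lit 76) (nat_lit 19061639968) (nat_lit 49) (nat_lit 5) (nat_lit 52) (nat_lit 5) (nat_lit 50) (nat_lit 5) (nat_lit 521) (nat_lit 391) (nat_lit 228)) (XT.lf (nat_lit 0) (nat_lit 6007077008) (nat_lit 228) (nat_lit 1268508887) (nat_lit 304) (nat_lit 19626755047) (nat_lit 46) (nat_lit 5) (nat_lit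 49) (nat_lit 5) (nat_lit 50) (nat_lit 5) (nat_lit 522) (nat_lit 391) (nat_lit 227))) (XT.nd (nat_lit 78) (nat_lit 152) (nat_lit 0) (XT.lf (nat_lit 0) (nat_lit 12037671336) (nat_lit 304) (nat_lit 10286536461) (nat_lit 76) (nat_lit 4986109755) (nat_lit 46) (nat_lit 5) (nat_lit 50) (nat_lit 5) (nat_lit 47) (nat_lit 5) (nat_lit 523) (nat_lit 391) (nat_lit 226)) (XT.lf (nat_lit 0) (nat_lit 517360471) (nat_lit 152) (nat_lit 16380356992) (nat_lit 228) (nat_lit 10828684564) (nat_lit 44) (nat_lit 5) (nat_lit 46) (nat_lit 5) (nat_lit 47) (nat_lit 5) (nat_lit 524) (nat_lit 391) (nat_lit 225))))) (XT.nd (nat_lit 49140) (nat_lit 0) (nat_lit 40204) (XT.nd (nat_lit 48984) (nat_lit 0) (nat_lit 41040) (XT.nd (nat_lit 78) (nat_lit 0) (nat_lit 0) (XT.lf (nat_lit 0) (nat_lit 11661483655) (nat_lit 152) (nat_lit 10253546149) (nat_lit 228) (nat_lit 6234579740) (nat_lit 44) (nat_lit 5) (nat_lit 46) (nat_lit 5) (nat_lit 47) (nat_lit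 5) (nat_lit 525) (nat_lit 391) (nat_lit 224)) (XT.lf (nat_lit 0) (nat_lit 23013500679) (nat_lit 152) (nat_lit 4010400670) (nat_lit 228) (nat_lit 1557558209) (nat_lit 44) (nat_lit 5) (nat_lit 46) (nat_lit 5) (nat_lit 47) (nat_lit 5) (nat_lit 526) (nat_lit 391) (nat_lit 223))) (XT.nd (nat_lit 78) (nat_lit 0) (nat_lit 0) (XT.lf (nat_lit 0) (nat_lit 790066487) (nat_lit 836) (nat_lit 1285930689) (nat_lit 836) (nat_lit 1285930689) (nat_lit 584) (nat_lit 3) (nat_lit 595) (nat_lit 3) (nat_lit 595) (nat_lit 5) (nat_lit 392) (nat_lit 392) (nat_lit 356)) (XT.lf (nat_lit 76) (nat_lit 548434921) (nat_lit 0) (nat_lit 3090834669) (nat_lit 836) (nat_lit 3108642576) (nat_lit 585) (nat_lit 5) (nat_lit 584) (nat_lit 3) (nat_lit 595) (nat_lit 5) (nat_lit 393) (nat_lit 392) (nat_lit 355)))) (XT.nd (nat_lit 156) (nat_lit 0) (nat_lit 76) (XT.nd (nat_lit 78) (nat_lit 836) (nat_lit 0) (XT.lf (nat_lit 76) (nat_lit 3738318954) (nat_lit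 0) (nat_lit 1964844790) (nat_lit 836) (nat_lit 1070075224) (nat_lit 585) (nat_lit 5) (nat_lit 584) (nat_lit 3) (nat_lit 595) (nat_lit 5) (nat_lit 394) (nat_lit 392) (nat_lit 354)) (XT.lf (nat_lit 76) (nat_lit 160580671) (nat_lit 0) (nat_lit 783450297) (nat_lit 912) (nat_lit 5856008576) (nat_lit 574) (nat_lit 5) (nat_lit 573) (nat_lit 5) (nat_lit 585) (nat_lit 5) (nat_lit 395) (nat_lit 392) (nat_lit 353))) (XT.nd (nat_lit 78) (nat_lit 0) (nat_lit 0) (XT.lf (nat_lit 0) (nat_lit 2955322681) (nat_lit 836) (nat_lit 3404773875) (nat_lit 912) (nat_lit 467770707) (nat_lit 574) (nat_lit 5) (nat_lit 585) (nat_lit 5) (nat_lit 586) (nat_lit 5) (nat_lit 396) (nat_lit 392) (nat_lit 352)) (XT.lf (nat_lit 0) (nat_lit 4961029030) (nat_lit 836) (nat_lit 138992397) (nat_lit 912) (nat_lit 1757202443) (nat_lit 574) (nat_lit 5) (nat_lit 585) (nat_lit 5) (nat_lit 586) (nat_lit 5) (nat_lit 397) (nat_lit 392) (nat_lit 351))))))))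
noncomputable def xc132 : XT := (XT.nd (nat_lit 2184) (nat_lit 13528) (nat_lit 0) (XT.nd (nat_lit 1092) (nat_lit 9728) (nat_lit 0) (XT.nd (nat_lit 546) (nat_lit 2052) (nat_lit 0) (XT.nd (nat_lit 234) (nat_lit 912) (nat_lit 0) (XT.nd (nat_lit 78) (nat_lit 0) (nat_lit 0) (XT.lf (nat_lit 0) (nat_lit 88682536) (nat_lit 912) (nat_lit 3682085506) (nat_lit 988) (nat_lit 3117026551) (nat_lit 562) (nat_lit 5) (nat_lit 574) (nat_lit 5) (nat_lit 575) (nat_lit 5) (nat_lit 398) (nat_lit 392) (nat_lit 350)) (XT.nd (nat_lit 78) (nat_lit 0) (nat_lit 0) (XT.lf (nat_lit 0) (nat_lit 2039252117) (nat_lit 912) (nat_lit 340713427) (nat_lit 988) (nat_lit 4539785687) (nat_lit 562) (nat_lit 5) (nat_lit 574) (nat_lit 5) (nat_lit 575) (nat_lit 5) (nat_lit 399) (nat_lit 392) (nat_lit 349)) (XT.lf (nat_lit 76) (nat_lit 3080057807) (nat_lit 0) (nat_lit 920167258) (nat_lit 988) (nat_lit 2952745934) (nat_lit 563) (nat_lit 5) (nat_lit 562) (nat_lit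 5) (nat_lit 575) (nat_lit 5) (nat_lit 400) (nat_lit 392) (nat_lit 348)))) (XT.nd (nat_lit 156) (nat_lit 0) (nat_lit 0) (XT.nd (nat_lit 78) (nat_lit 988) (nat_lit 0) (XT.lf (nat_lit 0) (nat_lit 5958711069) (nat_lit 912) (nat_lit 445434159) (nat_lit 988) (nat_lit 583594881) (nat_lit 563) (nat_lit 5) (nat_lit 575) (nat_lit 5) (nat_lit 576) (nat_lit 5) (nat_lit 401) (nat_lit 392) (nat_lit 347)) (XT.lf (nat_lit 0) (nat_lit 899908506) (nat_lit 988) (nat_lit 3973220965) (nat_lit 1064) (nat_lit 2150423106) (nat_lit 550) (nat_lit 5) (nat_lit 563) (nat_lit 5) (nat_lit 564) (nat_lit 5) (nat_lit 402) (nat_lit 392) (nat_lit 346))) (XT.nd (nat_lit 78) (nat_lit 0) (nat_lit 0) (XT.lf (nat_lit 0) (nat_lit 2810284028) (nat_lit 988) (nat_lit 473499077) (nat_lit 1064) (nat_lit 3777077281) (nat_lit 550) (nat_lit 5) (nat_lit 563) (nat_lit 5) (nat_lit 564) (nat_lit 5) (nat_lit 403) (nat_lit 392) (nat_lit 345)) (XT.lf (nat_lit 76) (nat_lit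 3108859431) (nat_lit 0) (nat_lit 1624718041) (nat_lit 1064) (nat_lit 2365889619) (nat_lit 551) (nat_lit 5) (nat_lit 550) (nat_lit 5) (nat_lit 564) (nat_lit 5) (nat_lit 404) (nat_lit 392) (nat_lit 344))))) (XT.nd (nat_lit 234) (nat_lit 1064) (nat_lit 0) (XT.nd (nat_lit 78) (nat_lit 1064) (nat_lit 0) (XT.lf (nat_lit 0) (nat_lit 6654318738) (nat_lit 988) (nat_lit 398954849) (nat_lit 1064) (nat_lit 86438736) (nat_lit 551) (nat_lit 5) (nat_lit 564) (nat_lit 5) (nat_lit 565) (nat_lit 5) (nat_lit 405) (nat_lit 392) (nat_lit 343)) (XT.nd (nat_lit 78) (nat_lit 0) (nat_lit 0) (XT.lf (nat_lit 0) (nat_lit 1401999121) (nat_lit 1064) (nat_lit 3922060797) (nat_lit 1140) (nat_lit 1856799198) (nat_lit 537) (nat_lit 5) (nat_lit 551) (nat_lit 5) (nat_lit 552) (nat_lit 5) (nat_lit 406) (nat_lit 392) (nat_lit 342)) (XT.lf (nat_lit 0) (nat_lit 3279907832) (nat_lit 1064) (nat_lit 259754566) (nat_lit 1140) (nat_lit 3683960301) (nat_lit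 537) (nat_lit 5) (nat_lit 551) (nat_lit 5) (nat_lit 552) (nat_lit 5) (nat_lit 407) (nat_lit 392) (nat_lit 341)))) (XT.nd (nat_lit 156) (nat_lit 1064) (nat_lit 0) (XT.nd (nat_lit 78) (nat_lit 0) (nat_lit 76) (XT.lf (nat_lit 76) (nat_lit 3493317695) (nat_lit 0) (nat_lit 1682156162) (nat_lit 1140) (nat_lit 2092208238) (nat_lit 538) (nat_lit 5) (nat_lit 537) (nat_lit 5) (nat_lit 552) (nat_lit 5) (nat_lit 408) (nat_lit 392) (nat_lit 340)) (XT.lf (nat_lit 0) (nat_lit 7070245893) (nat_lit 1064) (nat_lit 18086044) (nat_lit 1140) (nat_lit 225106537) (nat_lit 538) (nat_lit 5) (nat_lit 552) (nat_lit 5) (nat_lit 553) (nat_lit 5) (nat_lit 409) (nat_lit 392) (nat_lit 339))) (XT.nd (nat_lit 78) (nat_lit 0) (nat_lit 0) (XT.lf (nat_lit 0) (nat_lit 1616131553) (nat_lit 1140) (nat_lit 3547065755) (nat_lit 1216) (nat_lit 2196841943) (nat_lit 523) (nat_lit 5) (nat_lit 538) (nat_lit 5) (nat_lit 539) (nat_lit 5) (nat_lit 410) (nat_lit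 392) (nat_lit 338)) (XT.lf (nat_lit 76) (nat_lit 286574968) (nat_lit 0) (nat_lit 3184090781) (nat_lit 1216) (nat_lit 3937687833) (nat_lit 524) (nat_lit 5) (nat_lit 523) (nat_lit 5) (nat_lit 539) (nat_lit 5) (nat_lit 411) (nat_lit 392) (nat_lit 337)))))) (XT.nd (nat_lit 546) (nat_lit 6004) (nat_lit 0) (XT.nd (nat_lit 234) (nat_lit 2584) (nat_lit 0) (XT.nd (nat_lit 78) (nat_lit 1140) (nat_lit 0) (XT.lf (nat_lit 76) (nat_lit 4216258127) (nat_lit 0) (nat_lit 1129740998) (nat_lit 1216) (nat_lit 2111999420) (nat_lit 524) (nat_lit 5) (nat_lit 523) (nat_lit 5) (nat_lit 539) (nat_lit 5) (nat_lit 412) (nat_lit 392) (nat_lit 336)) (XT.nd (nat_lit 78) (nat_lit 76) (nat_lit 0) (XT.lf (nat_lit 0) (nat_lit 689628013) (nat_lit 1140) (nat_lit 6540723045) (nat_lit 1216) (nat_lit 278892869) (nat_lit 509) (nat_lit 5) (nat_lit 524) (nat_lit 5) (nat_lit 525) (nat_lit 5) (nat_lit 413) (nat_lit 392) (nat_lit 335)) (XT.lf (nat_lit 0)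 (nat_lit 1560444665) (nat_lit 1216) (nat_lit 2864875466) (nat_lit 76) (nat_lit 3136215130) (nat_lit 508) (nat_lit 5) (nat_lit 524) (nat_lit 5) (nat_lit 509) (nat_lit 5) (nat_lit 414) (nat_lit 392) (nat_lit 334)))) (XT.nd (nat_lit 156) (nat_lit 1368) (nat_lit 0) (XT.nd (nat_lit 78) (nat_lit 0) (nat_lit 0) (XT.lf (nat_lit 0) (nat_lit 1153408639) (nat_lit 1216) (nat_lit 2248735667) (nat_lit 1292) (nat_lit 4213340634) (nat_lit 492) (nat_lit 5) (nat_lit 508) (nat_lit 5) (nat_lit 509) (nat_lit 5) (nat_lit 415) (nat_lit 392) (nat_lit 333)) (XT.lf (nat_lit 0) (nat_lit 5262250908) (nat_lit 1216) (nat_lit 32116) (nat_lit 1292) (nat_lit 2408633370) (nat_lit 492) (nat_lit 5) (nat_lit 508) (nat_lit 5) (nat_lit 509) (nat_lit 5) (nat_lit 416) (nat_lit 392) (nat_lit 332))) (XT.nd (nat_lit 78) (nat_lit 76) (nat_lit 0) (XT.lf (nat_lit 0) (nat_lit 1704365688) (nat_lit 1292) (nat_lit 5444391622) (nat_lit 1368) (nat_lit 578950712)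 (nat_lit 475) (nat_lit 5) (nat_lit 492) (nat_lit 5) (nat_lit 493) (nat_lit 5) (nat_lit 417) (nat_lit 392) (nat_lit 331)) (XT.lf (nat_lit 0) (nat_lit 1250149990) (nat_lit 1368) (nat_lit 1890707692) (nat_lit 76) (nat_lit 4645049352) (nat_lit 474) (nat_lit 5) (nat_lit 492) (nat_lit 5) (nat_lit 475) (nat_lit 5) (nat_lit 418) (nat_lit 392) (nat_lit 330))))) (XT.nd (nat_lit 234) (nat_lit 3192) (nat_lit 0) (XT.nd (nat_lit 78) (nat_lit 1444) (nat_lit 0) (XT.lf (nat_lit 0) (nat_lit 2322541742) (nat_lit 1368) (nat_lit 764779692) (nat_lit 1444) (nat_lit 4758319464) (nat_lit 456) (nat_lit 5) (nat_lit 474) (nat_lit 5) (nat_lit 475) (nat_lit 5) (nat_lit 419) (nat_lit 392) (nat_lit 329)) (XT.nd (nat_lit 78) (nat_lit 1444) (nat_lit 0) (XT.lf (nat_lit 0) (nat_lit 4949494748) (nat_lit 1444) (nat_lit 1300743069) (nat_lit 76) (nat_lit 1656598049) (nat_lit 456) (nat_lit 5) (nat_lit 475) (nat_lit 5) (nat_lit 457) (nat_lit 5) (nat_lit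 420) (nat_lit 392) (nat_lit 328)) (XT.lf (nat_lit 0) (nat_lit 3011811107) (nat_lit 1444) (nat_lit 3827128306) (nat_lit 1520) (nat_lit 1130545739) (nat_lit 437) (nat_lit 5) (nat_lit 456) (nat_lit 5) (nat_lit 457) (nat_lit 5) (nat_lit 421) (nat_lit 392) (nat_lit 327)))) (XT.nd (nat_lit 156) (nat_lit 1596) (nat_lit 0) (XT.nd (nat_lit 78) (nat_lit 1520) (nat_lit 0) (XT.lf (nat_lit 0) (nat_lit 697607317) (nat_lit 1520) (nat_lit 638762421) (nat_lit 76) (nat_lit 6697463658) (nat_lit 436) (nat_lit 5) (nat_lit 456) (nat_lit 5) (nat_lit 437) (nat_lit 5) (nat_lit 422) (nat_lit 392) (nat_lit 326)) (XT.lf (nat_lit 0) (nat_lit 2546127499) (nat_lit 1596) (nat_lit 4327391195) (nat_lit 76) (nat_lit 1225850800) (nat_lit 416) (nat_lit 5) (nat_lit 437) (nat_lit 5) (nat_lit 417) (nat_lit 5) (nat_lit 423) (nat_lit 392) (nat_lit 325))) (XT.nd (nat_lit 78) (nat_lit 0) (nat_lit 0) (XT.lf (nat_lit 0) (nat_lit 76636328) (nat_lit 1596)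 (nat_lit 4335473239) (nat_lit 1672) (nat_lit 3754525534) (nat_lit 395) (nat_lit 5) (nat_lit 416) (nat_lit 5) (nat_lit 417) (nat_lit 5) (nat_lit 424) (nat_lit 392) (nat_lit 324)) (XT.lf (nat_lit 0) (nat_lit 4598641709) (nat_lit 1596) (nat_lit 1713101272) (nat_lit 1672) (nat_lit 1923604460) (nat_lit 395) (nat_lit 5) (nat_lit 416) (nat_lit 5) (nat_lit 417) (nat_lit 5) (nat_lit 425) (nat_lit 392) (nat_lit 323))))))) (XT.nd (nat_lit 1092) (nat_lit 5472) (nat_lit 0) (XT.nd (nat_lit 546) (nat_lit 3268) (nat_lit 0) (XT.nd (nat_lit 234) (nat_lit 1748) (nat_lit 0) (XT.nd (nat_lit 78) (nat_lit 1368) (nat_lit 0) (XT.lf (nat_lit 0) (nat_lit 882086164) (nat_lit 1672) (nat_lit 7347213171) (nat_lit 1748) (nat_lit 76563595) (nat_lit 373) (nat_lit 5) (nat_lit 395) (nat_lit 5) (nat_lit 396) (nat_lit 5) (nat_lit 426) (nat_lit 392) (nat_lit 322)) (XT.nd (nat_lit 78) (nat_lit 1292) (nat_lit 0) (XT.lf (nat_lit 0) (nat_lit 1787789436)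 (nat_lit 1748) (nat_lit 2889142899) (nat_lit 76) (nat_lit 3700566613) (nat_lit 372) (nat_lit 5) (nat_lit 395) (nat_lit 5) (nat_lit 373) (nat_lit 5) (nat_lit 427) (nat_lit 392) (nat_lit 321)) (XT.lf (nat_lit 0) (nat_lit 1729783574) (nat_lit 1292) (nat_lit 1938641939) (nat_lit 1368) (nat_lit 4782557548) (nat_lit 355) (nat_lit 5) (nat_lit 372) (nat_lit 5) (nat_lit 373) (nat_lit 5) (nat_lit 428) (nat_lit 392) (nat_lit 320)))) (XT.nd (nat_lit 156) (nat_lit 912) (nat_lit 0) (XT.nd (nat_lit 78) (nat_lit 836) (nat_lit 0) (XT.lf (nat_lit 0) (nat_lit 5580970277) (nat_lit 1368) (nat_lit 2080021281) (nat_lit 76) (nat_lit 865084790) (nat_lit 355) (nat_lit 5) (nat_lit 373) (nat_lit 5) (nat_lit 356) (nat_lit 5) (nat_lit 429) (nat_lit 392) (nat_lit 319)) (XT.lf (nat_lit 0) (nat_lit 2647384262) (nat_lit 836) (nat_lit 4884244697) (nat_lit 912) (nat_lit 1071070194) (nat_lit 344) (nat_lit 5) (nat_lit 355) (nat_lit 5) (nat_lit 356)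 (nat_lit 5) (nat_lit 430) (nat_lit 392) (nat_lit 318))) (XT.nd (nat_lit 78) (nat_lit 836) (nat_lit 0) (XT.lf (nat_lit 0) (nat_lit 813496634) (nat_lit 912) (nat_lit 1217304708) (nat_lit 76) (nat_lit 6650286425) (nat_lit 343) (nat_lit 5) (nat_lit 355) (nat_lit 5) (nat_lit 344) (nat_lit 5) (nat_lit 431) (nat_lit 392) (nat_lit 317)) (XT.lf (nat_lit 0) (nat_lit 2721513506) (nat_lit 912) (nat_lit 5139163820) (nat_lit 76) (nat_lit 900246703) (nat_lit 332) (nat_lit 5) (nat_lit 344) (nat_lit 5) (nat_lit 333) (nat_lit 5) (nat_lit 432) (nat_lit 392) (nat_lit 316))))) (XT.nd (nat_lit 234) (nat_lit 1596) (nat_lit 0) (XT.nd (nat_lit 78) (nat_lit 1672) (nat_lit 0) (XT.lf (nat_lit 0) (nat_lit 4660374135) (nat_lit 912) (nat_lit 310164272) (nat_lit 76) (nat_lit 3871987957) (nat_lit 332) (nat_lit 5) (nat_lit 344) (nat_lit 5) (nat_lit 333) (nat_lit 5) (nat_lit 433) (nat_lit 392) (nat_lit 315)) (XT.nd (nat_lit 78) (nat_lit 836) (nat_lit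 0) (XT.lf (nat_lit 0) (nat_lit 4648364868) (nat_lit 836) (nat_lit 1991407328) (nat_lit 912) (nat_lit 2285975908) (nat_lit 321) (nat_lit 5) (nat_lit 332) (nat_lit 5) (nat_lit 333) (nat_lit 5) (nat_lit 434) (nat_lit 392) (nat_lit 314)) (XT.lf (nat_lit 0) (nat_lit 673278261) (nat_lit 836) (nat_lit 7970704184) (nat_lit 912) (nat_lit 366969472) (nat_lit 310) (nat_lit 5) (nat_lit 321) (nat_lit 5) (nat_lit 322) (nat_lit 5) (nat_lit 435) (nat_lit 392) (nat_lit 313)))) (XT.nd (nat_lit 156) (nat_lit 760) (nat_lit 0) (XT.nd (nat_lit 78) (nat_lit 760) (nat_lit 0) (XT.lf (nat_lit 0) (nat_lit 1583759983) (nat_lit 912) (nat_lit 3368675399) (nat_lit 76) (nat_lit 4144955136) (nat_lit 309) (nat_lit 5) (nat_lit 321) (nat_lit 5) (nat_lit 310) (nat_lit 5) (nat_lit 436) (nat_lit 392) (nat_lit 312)) (XT.lf (nat_lit 0) (nat_lit 1691397257) (nat_lit 760) (nat_lit 1860845773) (nat_lit 836) (nat_lit 5633614140) (nat_lit 299) (nat_lit 5)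 (nat_lit 309) (nat_lit 5) (nat_lit 310) (nat_lit 5) (nat_lit 437) (nat_lit 392) (nat_lit 311))) (XT.nd (nat_lit 78) (nat_lit 760) (nat_lit 0) (XT.lf (nat_lit 0) (nat_lit 5564258912) (nat_lit 836) (nat_lit 2414276244) (nat_lit 76) (nat_lit 1297495173) (nat_lit 299) (nat_lit 5) (nat_lit 310) (nat_lit 5) (nat_lit 300) (nat_lit 5) (nat_lit 438) (nat_lit 392) (nat_lit 310)) (XT.lf (nat_lit 0) (nat_lit 2763561750) (nat_lit 760) (nat_lit 4856764447) (nat_lit 836) (nat_lit 1747624568) (nat_lit 289) (nat_lit 5) (nat_lit 299) (nat_lit 5) (nat_lit 300) (nat_lit 5) (nat_lit 439) (nat_lit 392) (nat_lit 309)))))) (XT.nd (nat_lit 546) (nat_lit 2508) (nat_lit 0) (XT.nd (nat_lit 234) (nat_lit 2204) (nat_lit 0) (XT.nd (nat_lit 78) (nat_lit 684) (nat_lit 0) (XT.lf (nat_lit 0) (nat_lit 242449997) (nat_lit 836) (nat_lit 1413527087) (nat_lit 76) (nat_lit 7805918574) (nat_lit 288) (nat_lit 5) (nat_lit 299) (nat_lit 5) (nat_lit 289)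 (nat_lit 5) (nat_lit 440) (nat_lit 392) (nat_lit 308)) (XT.nd (nat_lit 78) (nat_lit 0) (nat_lit 0) (XT.lf (nat_lit 0) (nat_lit 2259109724) (nat_lit 760) (nat_lit 5675064019) (nat_lit 76) (nat_lit 1623129861) (nat_lit 279) (nat_lit 5) (nat_lit 289) (nat_lit 5) (nat_lit 280) (nat_lit 5) (nat_lit 441) (nat_lit 392) (nat_lit 307)) (XT.lf (nat_lit 0) (nat_lit 4311141172) (nat_lit 760) (nat_lit 390217877) (nat_lit 76) (nat_lit 4953378403) (nat_lit 279) (nat_lit 5) (nat_lit 289) (nat_lit 5) (nat_lit 280) (nat_lit 5) (nat_lit 442) (nat_lit 392) (nat_lit 306)))) (XT.nd (nat_lit 156) (nat_lit 760) (nat_lit 0) (XT.nd (nat_lit 78) (nat_lit 684) (nat_lit 0) (XT.lf (nat_lit 0) (nat_lit 5039119392) (nat_lit 760) (nat_lit 1372834161) (nat_lit 836) (nat_lit 3342029765) (nat_lit 269) (nat_lit 5) (nat_lit 279) (nat_lit 5) (nat_lit 280) (nat_lit 5) (nat_lit 443) (nat_lit 392) (nat_lit 305)) (XT.lf (nat_lit 0) (nat_lit 695535736)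 (nat_lit 684) (nat_lit 7854848873) (nat_lit 760) (nat_lit 1304935235) (nat_lit 260) (nat_lit 5) (nat_lit 269) (nat_lit 5) (nat_lit 270) (nat_lit 5) (nat_lit 444) (nat_lit 392) (nat_lit 304))) (XT.nd (nat_lit 78) (nat_lit 684) (nat_lit 0) (XT.lf (nat_lit 0) (nat_lit 779152784) (nat_lit 760) (nat_lit 3722087095) (nat_lit 76) (nat_lit 5457032193) (nat_lit 259) (nat_lit 5) (nat_lit 269) (nat_lit 5) (nat_lit 260) (nat_lit 5) (nat_lit 445) (nat_lit 392) (nat_lit 303)) (XT.lf (nat_lit 0) (nat_lit 1812262544) (nat_lit 684) (nat_lit 1062899063) (nat_lit 760) (nat_lit 7188211748) (nat_lit 250) (nat_lit 5) (nat_lit 259) (nat_lit 5) (nat_lit 260) (nat_lit 5) (nat_lit 446) (nat_lit 392) (nat_lit 302))))) (XT.nd (nat_lit 234) (nat_lit 1900) (nat_lit 0) (XT.nd (nat_lit 78) (nat_lit 608) (nat_lit 0) (XT.lf (nat_lit 0) (nat_lit 5030307088) (nat_lit 760) (nat_lit 2705877952) (nat_lit 76) (nat_lit 2434063730) (nat_lit 250) (nat_lit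 5) (nat_lit 260) (nat_lit 5) (nat_lit 251) (nat_lit 5) (nat_lit 447) (nat_lit 392) (nat_lit 301)) (XT.nd (nat_lit 78) (nat_lit 0) (nat_lit 0) (XT.lf (nat_lit 0) (nat_lit 2954996351) (nat_lit 608) (nat_lit 4276455050) (nat_lit 684) (nat_lit 3047768490) (nat_lit 242) (nat_lit 5) (nat_lit 250) (nat_lit 5) (nat_lit 251) (nat_lit 5) (nat_lit 448) (nat_lit 392) (nat_lit 300)) (XT.lf (nat_lit 0) (nat_lit 8738965071) (nat_lit 608) (nat_lit 732765870) (nat_lit 684) (nat_lit 918753044) (nat_lit 242) (nat_lit 5) (nat_lit 250) (nat_lit 5) (nat_lit 251) (nat_lit 5) (nat_lit 449) (nat_lit 392) (nat_lit 299)))) (XT.nd (nat_lit 156) (nat_lit 1216) (nat_lit 0) (XT.nd (nat_lit 78) (nat_lit 0) (nat_lit 0) (XT.lf (nat_lit 0) (nat_lit 1259544123) (nat_lit 684) (nat_lit 6368262588) (nat_lit 76) (nat_lit 2875556496) (nat_lit 233) (nat_lit 5) (nat_lit 242) (nat_lit 5) (nat_lit 234) (nat_lit 5) (nat_lit 450) (nat_lit 392) (nat_lit 298))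 (XT.lf (nat_lit 0) (nat_lit 3462615942) (nat_lit 684) (nat_lit 596307767) (nat_lit 76) (nat_lit 6559599517) (nat_lit 233) (nat_lit 5) (nat_lit 242) (nat_lit 5) (nat_lit 234) (nat_lit 5) (nat_lit 451) (nat_lit 392) (nat_lit 297))) (XT.nd (nat_lit 78) (nat_lit 608) (nat_lit 0) (XT.lf (nat_lit 0) (nat_lit 5334720481) (nat_lit 608) (nat_lit 387597222) (nat_lit 684) (nat_lit 5013431969) (nat_lit 225) (nat_lit 5) (nat_lit 233) (nat_lit 5) (nat_lit 234) (nat_lit 5) (nat_lit 452) (nat_lit 392) (nat_lit 296)) (XT.lf (nat_lit 0) (nat_lit 495304002) (nat_lit 608) (nat_lit 7539116829) (nat_lit 684) (nat_lit 2820769978) (nat_lit 217) (nat_lit 5) (nat_lit 225) (nat_lit 5) (nat_lit 226) (nat_lit 5) (nat_lit 453) (nat_lit 392) (nat_lit 295))))))))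
noncomputable def xc133 : XT := (XT.nd (nat_lit 2184) (nat_lit 4484) (nat_lit 0) (XT.nd (nat_lit 1092) (nat_lit 3192) (nat_lit 0) (XT.nd (nat_lit 546) (nat_lit 2052) (nat_lit 0) (XT.nd (nat_lit 234) (nat_lit 1140) (nat_lit 0) (XT.nd (nat_lit 78) (nat_lit 608) (nat_lit 0) (XT.lf (nat_lit 0) (nat_lit 6553769718) (nat_lit 608) (nat_lit 3856213266) (nat_lit 684) (nat_lit 566707473) (nat_lit 217) (nat_lit 5) (nat_lit 225) (nat_lit 5) (nat_lit 226) (nat_lit 5) (nat_lit 454) (nat_lit 392) (nat_lit 294)) (XT.nd (nat_lit 78) (nat_lit 0) (nat_lit 0) (XT.lf (nat_lit 0) (nat_lit 1616553488) (nat_lit 532) (nat_lit 82349959) (nat_lit 608) (nat_lit 9401721405) (nat_lit 209) (nat_lit 5) (nat_lit 216) (nat_lit 5) (nat_lit 217) (nat_lit 5) (nat_lit 455) (nat_lit 392) (nat_lit 293)) (XT.lf (nat_lit 0) (nat_lit 4035489336) (nat_lit 608) (nat_lit 3444495052) (nat_lit 76) (nat_lit 3746326830) (nat_lit 209) (nat_lit 5) (nat_lit 217)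 (nat_lit 5) (nat_lit 210) (nat_lit 5) (nat_lit 456) (nat_lit 392) (nat_lit 292)))) (XT.nd (nat_lit 156) (nat_lit 608) (nat_lit 0) (XT.nd (nat_lit 78) (nat_lit 0) (nat_lit 0) (XT.lf (nat_lit 0) (nat_lit 2725172089) (nat_lit 532) (nat_lit 3691196765) (nat_lit 608) (nat_lit 4938204179) (nat_lit 202) (nat_lit 5) (nat_lit 209) (nat_lit 5) (nat_lit 210) (nat_lit 5) (nat_lit 457) (nat_lit 392) (nat_lit 291)) (XT.lf (nat_lit 0) (nat_lit 8848786023) (nat_lit 608) (nat_lit 2447406107) (nat_lit 76) (nat_lit 189142260) (nat_lit 202) (nat_lit 5) (nat_lit 210) (nat_lit 5) (nat_lit 203) (nat_lit 5) (nat_lit 458) (nat_lit 392) (nat_lit 290))) (XT.nd (nat_lit 78) (nat_lit 76) (nat_lit 0) (XT.lf (nat_lit 0) (nat_lit 3858791144) (nat_lit 532) (nat_lit 7500487661) (nat_lit 608) (nat_lit 258856079) (nat_lit 195) (nat_lit 5) (nat_lit 202) (nat_lit 5) (nat_lit 203) (nat_lit 5) (nat_lit 459) (nat_lit 392) (nat_lit 289)) (XT.lf (nat_lit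 0) (nat_lit 2134523003) (nat_lit 608) (nat_lit 1468860119) (nat_lit 76) (nat_lit 8150008017) (nat_lit 194) (nat_lit 5) (nat_lit 202) (nat_lit 5) (nat_lit 195) (nat_lit 5) (nat_lit 460) (nat_lit 392) (nat_lit 288))))) (XT.nd (nat_lit 234) (nat_lit 1064) (nat_lit 0) (XT.nd (nat_lit 78) (nat_lit 456) (nat_lit 0) (XT.lf (nat_lit 0) (nat_lit 4587686300) (nat_lit 608) (nat_lit 6907773141) (nat_lit 76) (nat_lit 395562942) (nat_lit 187) (nat_lit 5) (nat_lit 195) (nat_lit 5) (nat_lit 188) (nat_lit 5) (nat_lit 461) (nat_lit 392) (nat_lit 287)) (XT.nd (nat_lit 78) (nat_lit 456) (nat_lit 0) (XT.lf (nat_lit 0) (nat_lit 7104288555) (nat_lit 608) (nat_lit 496228864) (nat_lit 76) (nat_lit 4430612827) (nat_lit 187) (nat_lit 5) (nat_lit 195) (nat_lit 5) (nat_lit 188) (nat_lit 5) (nat_lit 462) (nat_lit 392) (nat_lit 286)) (XT.lf (nat_lit 0) (nat_lit 6098626384) (nat_lit 456) (nat_lit 3593163511) (nat_lit 532) (nat_lit 2481850313)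 (nat_lit 181) (nat_lit 5) (nat_lit 187) (nat_lit 5) (nat_lit 188) (nat_lit 5) (nat_lit 463) (nat_lit 392) (nat_lit 285)))) (XT.nd (nat_lit 156) (nat_lit 456) (nat_lit 0) (XT.nd (nat_lit 78) (nat_lit 0) (nat_lit 0) (XT.lf (nat_lit 0) (nat_lit 2707889) (nat_lit 608) (nat_lit 11827917646) (nat_lit 76) (nat_lit 488567618) (nat_lit 173) (nat_lit 5) (nat_lit 181) (nat_lit 5) (nat_lit 174) (nat_lit 5) (nat_lit 464) (nat_lit 392) (nat_lit 284)) (XT.lf (nat_lit 0) (nat_lit 2549807079) (nat_lit 608) (nat_lit 5261289395) (nat_lit 76) (nat_lit 4655321578) (nat_lit 173) (nat_lit 5) (nat_lit 181) (nat_lit 5) (nat_lit 174) (nat_lit 5) (nat_lit 465) (nat_lit 392) (nat_lit 283))) (XT.nd (nat_lit 78) (nat_lit 0) (nat_lit 0) (XT.lf (nat_lit 0) (nat_lit 1430744964) (nat_lit 456) (nat_lit 3707979330) (nat_lit 532) (nat_lit 7478056058) (nat_lit 167) (nat_lit 5) (nat_lit 173) (nat_lit 5) (nat_lit 174) (nat_lit 5) (nat_lit 466) (nat_lit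 392) (nat_lit 282)) (XT.lf (nat_lit 0) (nat_lit 7799805463) (nat_lit 532) (nat_lit 4469699646) (nat_lit 76) (nat_lit 500247295) (nat_lit 167) (nat_lit 5) (nat_lit 174) (nat_lit 5) (nat_lit 168) (nat_lit 5) (nat_lit 467) (nat_lit 392) (nat_lit 281)))))) (XT.nd (nat_lit 546) (nat_lit 1292) (nat_lit 0) (XT.nd (nat_lit 234) (nat_lit 912) (nat_lit 0) (XT.nd (nat_lit 78) (nat_lit 532) (nat_lit 0) (XT.lf (nat_lit 0) (nat_lit 2363023697) (nat_lit 456) (nat_lit 8173088396) (nat_lit 532) (nat_lit 2389241747) (nat_lit 161) (nat_lit 5) (nat_lit 167) (nat_lit 5) (nat_lit 168) (nat_lit 5) (nat_lit 468) (nat_lit 392) (nat_lit 280)) (XT.nd (nat_lit 78) (nat_lit 456) (nat_lit 0) (XT.lf (nat_lit 0) (nat_lit 252254326) (nat_lit 532) (nat_lit 3716715453) (nat_lit 76) (nat_lit 9114828295) (nat_lit 160) (nat_lit 5) (nat_lit 167) (nat_lit 5) (nat_lit 161) (nat_lit 5) (nat_lit 469) (nat_lit 392) (nat_lit 279)) (XT.lf (nat_lit 0) (nat_lit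 2920639472) (nat_lit 532) (nat_lit 9978425384) (nat_lit 76) (nat_lit 345918898) (nat_lit 154) (nat_lit 5) (nat_lit 161) (nat_lit 5) (nat_lit 155) (nat_lit 5) (nat_lit 470) (nat_lit 392) (nat_lit 278)))) (XT.nd (nat_lit 156) (nat_lit 456) (nat_lit 0) (XT.nd (nat_lit 78) (nat_lit 456) (nat_lit 0) (XT.lf (nat_lit 0) (nat_lit 5676450473) (nat_lit 532) (nat_lit 3019601229) (nat_lit 76) (nat_lit 4712669538) (nat_lit 154) (nat_lit 5) (nat_lit 161) (nat_lit 5) (nat_lit 155) (nat_lit 5) (nat_lit 471) (nat_lit 392) (nat_lit 277)) (XT.lf (nat_lit 0) (nat_lit 4108622089) (nat_lit 456) (nat_lit 4388438657) (nat_lit 532) (nat_lit 5078488145) (nat_lit 148) (nat_lit 5) (nat_lit 154) (nat_lit 5) (nat_lit 155) (nat_lit 5) (nat_lit 472) (nat_lit 392) (nat_lit 276))) (XT.nd (nat_lit 78) (nat_lit 456) (nat_lit 0) (XT.lf (nat_lit 0) (nat_lit 11377659371) (nat_lit 532) (nat_lit 2348943882) (nat_lit 76) (nat_lit 19047213) (nat_lit 148)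 (nat_lit 5) (nat_lit 155) (nat_lit 5) (nat_lit 149) (nat_lit 5) (nat_lit 473) (nat_lit 392) (nat_lit 275)) (XT.lf (nat_lit 0) (nat_lit 436303352) (nat_lit 456) (nat_lit 8997575262) (nat_lit 76) (nat_lit 4484336687) (nat_lit 142) (nat_lit 5) (nat_lit 148) (nat_lit 5) (nat_lit 143) (nat_lit 5) (nat_lit 474) (nat_lit 392) (nat_lit 274))))) (XT.nd (nat_lit 234) (nat_lit 836) (nat_lit 0) (XT.nd (nat_lit 78) (nat_lit 456) (nat_lit 0) (XT.lf (nat_lit 0) (nat_lit 3264404469) (nat_lit 456) (nat_lit 1765661913) (nat_lit 76) (nat_lit 9063871821) (nat_lit 142) (nat_lit 5) (nat_lit 148) (nat_lit 5) (nat_lit 143) (nat_lit 5) (nat_lit 475) (nat_lit 392) (nat_lit 273)) (XT.nd (nat_lit 78) (nat_lit 0) (nat_lit 0) (XT.lf (nat_lit 0) (nat_lit 5662194044) (nat_lit 456) (nat_lit 507490698) (nat_lit 532) (nat_lit 8103086699) (nat_lit 136) (nat_lit 5) (nat_lit 142) (nat_lit 5) (nat_lit 143) (nat_lit 5) (nat_lit 476) (nat_lit 392) (nat_lit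 272)) (XT.lf (nat_lit 0) (nat_lit 9155632069) (nat_lit 532) (nat_lit 1242226160) (nat_lit 76) (nat_lit 4056879942) (nat_lit 136) (nat_lit 5) (nat_lit 143) (nat_lit 5) (nat_lit 137) (nat_lit 5) (nat_lit 477) (nat_lit 392) (nat_lit 271)))) (XT.nd (nat_lit 156) (nat_lit 380) (nat_lit 0) (XT.nd (nat_lit 78) (nat_lit 76) (nat_lit 0) (XT.lf (nat_lit 0) (nat_lit 6330521290) (nat_lit 380) (nat_lit 5899532599) (nat_lit 456) (nat_lit 2409723136) (nat_lit 131) (nat_lit 5) (nat_lit 136) (nat_lit 5) (nat_lit 137) (nat_lit 5) (nat_lit 478) (nat_lit 392) (nat_lit 270)) (XT.lf (nat_lit 0) (nat_lit 523134097) (nat_lit 456) (nat_lit 783034816) (nat_lit 76) (nat_lit 13522430840) (nat_lit 130) (nat_lit 5) (nat_lit 136) (nat_lit 5) (nat_lit 131) (nat_lit 5) (nat_lit 479) (nat_lit 392) (nat_lit 269))) (XT.nd (nat_lit 78) (nat_lit 0) (nat_lit 0) (XT.lf (nat_lit 0) (nat_lit 3534464124) (nat_lit 456) (nat_lit 8095990229) (nat_lit 76)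 (nat_lit 3389391825) (nat_lit 125) (nat_lit 5) (nat_lit 131) (nat_lit 5) (nat_lit 126) (nat_lit 5) (nat_lit 480) (nat_lit 392) (nat_lit 268)) (XT.lf (nat_lit 0) (nat_lit 6604723834) (nat_lit 456) (nat_lit 450375813) (nat_lit 76) (nat_lit 8159851121) (nat_lit 125) (nat_lit 5) (nat_lit 131) (nat_lit 5) (nat_lit 126) (nat_lit 5) (nat_lit 481) (nat_lit 392) (nat_lit 267))))))) (XT.nd (nat_lit 1092) (nat_lit 1976) (nat_lit 0) (XT.nd (nat_lit 546) (nat_lit 1064) (nat_lit 0) (XT.nd (nat_lit 234) (nat_lit 684) (nat_lit 0) (XT.nd (nat_lit 78) (nat_lit 456) (nat_lit 0) (XT.lf (nat_lit 0) (nat_lit 7423573943) (nat_lit 304) (nat_lit 2346075896) (nat_lit 380) (nat_lit 5643649544) (nat_lit 121) (nat_lit 5) (nat_lit 125) (nat_lit 5) (nat_lit 126) (nat_lit 5) (nat_lit 482) (nat_lit 392) (nat_lit 266)) (XT.nd (nat_lit 78) (nat_lit 456) (nat_lit 0) (XT.lf (nat_lit 0) (nat_lit 13002038176) (nat_lit 380) (nat_lit 192471552) (nat_lit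 76) (nat_lit 2421028980) (nat_lit 121) (nat_lit 5) (nat_lit 126) (nat_lit 5) (nat_lit 122) (nat_lit 5) (nat_lit 483) (nat_lit 392) (nat_lit 265)) (XT.lf (nat_lit 0) (nat_lit 523137484) (nat_lit 456) (nat_lit 7998021509) (nat_lit 76) (nat_lit 7299565691) (nat_lit 115) (nat_lit 5) (nat_lit 121) (nat_lit 5) (nat_lit 116) (nat_lit 5) (nat_lit 484) (nat_lit 392) (nat_lit 264)))) (XT.nd (nat_lit 156) (nat_lit 380) (nat_lit 0) (XT.nd (nat_lit 78) (nat_lit 304) (nat_lit 0) (XT.lf (nat_lit 0) (nat_lit 3674349078) (nat_lit 456) (nat_lit 68190676) (nat_lit 76) (nat_lit 12287399020) (nat_lit 115) (nat_lit 5) (nat_lit 121) (nat_lit 5) (nat_lit 116) (nat_lit 5) (nat_lit 485) (nat_lit 392) (nat_lit 263)) (XT.lf (nat_lit 0) (nat_lit 6934647057) (nat_lit 380) (nat_lit 8144937558) (nat_lit 76) (nat_lit 1162837768) (nat_lit 111) (nat_lit 5) (nat_lit 116) (nat_lit 5) (nat_lit 112) (nat_lit 5) (nat_lit 486) (nat_lit 392) (nat_lit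 262))) (XT.nd (nat_lit 78) (nat_lit 380) (nat_lit 0) (XT.lf (nat_lit 0) (nat_lit 10271279561) (nat_lit 380) (nat_lit 77889663) (nat_lit 76) (nat_lit 6109770222) (nat_lit 111) (nat_lit 5) (nat_lit 116) (nat_lit 5) (nat_lit 112) (nat_lit 5) (nat_lit 487) (nat_lit 392) (nat_lit 261)) (XT.lf (nat_lit 0) (nat_lit 8237602246) (nat_lit 380) (nat_lit 5476686161) (nat_lit 456) (nat_lit 2964711799) (nat_lit 106) (nat_lit 5) (nat_lit 111) (nat_lit 5) (nat_lit 112) (nat_lit 5) (nat_lit 488) (nat_lit 392) (nat_lit 260))))) (XT.nd (nat_lit 234) (nat_lit 684) (nat_lit 0) (XT.nd (nat_lit 78) (nat_lit 304) (nat_lit 0) (XT.lf (nat_lit 0) (nat_lit 305188470) (nat_lit 456) (nat_lit 206076773) (nat_lit 76) (nat_lit 16392426514) (nat_lit 105) (nat_lit 5) (nat_lit 111) (nat_lit 5) (nat_lit 106) (nat_lit 5) (nat_lit 489) (nat_lit 392) (nat_lit 259)) (XT.nd (nat_lit 78) (nat_lit 0) (nat_lit 0) (XT.lf (nat_lit 0) (nat_lit 3670942937)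 (nat_lit 380) (nat_lit 8899590539) (nat_lit 76) (nat_lit 4560554522) (nat_lit 101) (nat_lit 5) (nat_lit 106) (nat_lit 5) (nat_lit 102) (nat_lit 5) (nat_lit 490) (nat_lit 392) (nat_lit 258)) (XT.lf (nat_lit 0) (nat_lit 7095347156) (nat_lit 380) (nat_lit 546450297) (nat_lit 76) (nat_lit 9721413774) (nat_lit 101) (nat_lit 5) (nat_lit 106) (nat_lit 5) (nat_lit 102) (nat_lit 5) (nat_lit 491) (nat_lit 392) (nat_lit 257)))) (XT.nd (nat_lit 156) (nat_lit 380) (nat_lit 0) (XT.nd (nat_lit 78) (nat_lit 0) (nat_lit 0) (XT.lf (nat_lit 0) (nat_lit 8059188324) (nat_lit 304) (nat_lit 2568197079) (nat_lit 380) (nat_lit 6971814240) (nat_lit 97) (nat_lit 5) (nat_lit 101) (nat_lit 5) (nat_lit 102) (nat_lit 5) (nat_lit 492) (nat_lit 392) (nat_lit 256)) (XT.lf (nat_lit 0) (nat_lit 14237583371) (nat_lit 380) (nat_lit 1032786786) (nat_lit 76) (nat_lit 2569392823) (nat_lit 97) (nat_lit 5) (nat_lit 102) (nat_lit 5) (nat_lit 98) (nat_lit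 5) (nat_lit 493) (nat_lit 392) (nat_lit 255))) (XT.nd (nat_lit 78) (nat_lit 76) (nat_lit 0) (XT.lf (nat_lit 0) (nat_lit 7708725189) (nat_lit 304) (nat_lit 10265477150) (nat_lit 380) (nat_lit 109856325) (nat_lit 93) (nat_lit 5) (nat_lit 97) (nat_lit 5) (nat_lit 98) (nat_lit 5) (nat_lit 494) (nat_lit 392) (nat_lit 254)) (XT.lf (nat_lit 0) (nat_lit 3401204744) (nat_lit 380) (nat_lit 1736489758) (nat_lit 76) (nat_lit 13195219299) (nat_lit 92) (nat_lit 5) (nat_lit 97) (nat_lit 5) (nat_lit 93) (nat_lit 5) (nat_lit 495) (nat_lit 392) (nat_lit 253)))))) (XT.nd (nat_lit 546) (nat_lit 836) (nat_lit 0) (XT.nd (nat_lit 234) (nat_lit 608) (nat_lit 0) (XT.nd (nat_lit 78) (nat_lit 228) (nat_lit 0) (XT.lf (nat_lit 0) (nat_lit 7015742261) (nat_lit 380) (nat_lit 11438372059) (nat_lit 76) (nat_lit 131927781) (nat_lit 88) (nat_lit 5) (nat_lit 93) (nat_lit 5) (nat_lit 89) (nat_lit 5) (nat_lit 496) (nat_lit 392) (nat_lit 252)) (XT.nd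 (nat_lit 78) (nat_lit 228) (nat_lit 0) (XT.lf (nat_lit 0) (nat_lit 10735842720) (nat_lit 380) (nat_lit 2664731572) (nat_lit 76) (nat_lit 5442998243) (nat_lit 88) (nat_lit 5) (nat_lit 93) (nat_lit 5) (nat_lit 89) (nat_lit 5) (nat_lit 497) (nat_lit 392) (nat_lit 251)) (XT.lf (nat_lit 0) (nat_lit 6348345698) (nat_lit 228) (nat_lit 8210979705) (nat_lit 304) (nat_lit 4546353481) (nat_lit 85) (nat_lit 5) (nat_lit 88) (nat_lit 5) (nat_lit 89) (nat_lit 5) (nat_lit 498) (nat_lit 392) (nat_lit 250)))) (XT.nd (nat_lit 156) (nat_lit 228) (nat_lit 0) (XT.nd (nat_lit 78) (nat_lit 380) (nat_lit 0) (XT.lf (nat_lit 0) (nat_lit 15558636876) (nat_lit 228) (nat_lit 2906400652) (nat_lit 304) (nat_lit 907879451) (nat_lit 85) (nat_lit 5) (nat_lit 88) (nat_lit 5) (nat_lit 89) (nat_lit 5) (nat_lit 499) (nat_lit 392) (nat_lit 249)) (XT.lf (nat_lit 0) (nat_lit 2805868153) (nat_lit 380) (nat_lit 14320732478) (nat_lit 76) (nat_lit 2517754394)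 (nat_lit 80) (nat_lit 5) (nat_lit 85) (nat_lit 5) (nat_lit 81) (nat_lit 5) (nat_lit 500) (nat_lit 392) (nat_lit 248))) (XT.nd (nat_lit 78) (nat_lit 228) (nat_lit 0) (XT.lf (nat_lit 0) (nat_lit 6614858045) (nat_lit 380) (nat_lit 5269180953) (nat_lit 76) (nat_lit 8036404872) (nat_lit 80) (nat_lit 5) (nat_lit 85) (nat_lit 5) (nat_lit 81) (nat_lit 5) (nat_lit 501) (nat_lit 392) (nat_lit 247)) (XT.lf (nat_lit 0) (nat_lit 3997170086) (nat_lit 228) (nat_lit 6517142725) (nat_lit 304) (nat_lit 9687460428) (nat_lit 77) (nat_lit 5) (nat_lit 80) (nat_lit 5) (nat_lit 81) (nat_lit 5) (nat_lit 502) (nat_lit 392) (nat_lit 246))))) (XT.nd (nat_lit 234) (nat_lit 456) (nat_lit 0) (XT.nd (nat_lit 78) (nat_lit 380) (nat_lit 0) (XT.lf (nat_lit 0) (nat_lit 13501740895) (nat_lit 228) (nat_lit 1013815997) (nat_lit 304) (nat_lit 5972700660) (nat_lit 77) (nat_lit 5) (nat_lit 80) (nat_lit 5) (nat_lit 81) (nat_lit 5) (nat_lit 503) (nat_lit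 392) (nat_lit 245)) (XT.nd (nat_lit 78) (nat_lit 76) (nat_lit 0) (XT.lf (nat_lit 0) (nat_lit 2399178178) (nat_lit 304) (nat_lit 16231711734) (nat_lit 380) (nat_lit 2148904633) (nat_lit 73) (nat_lit 5) (nat_lit 77) (nat_lit 5) (nat_lit 78) (nat_lit 5) (nat_lit 504) (nat_lit 392) (nat_lit 244)) (XT.lf (nat_lit 0) (nat_lit 1770954903) (nat_lit 380) (nat_lit 9045718898) (nat_lit 76) (nat_lit 10259414026) (nat_lit 72) (nat_lit 5) (nat_lit 77) (nat_lit 5) (nat_lit 73) (nat_lit 5) (nat_lit 505) (nat_lit 392) (nat_lit 243)))) (XT.nd (nat_lit 156) (nat_lit 228) (nat_lit 0) (XT.nd (nat_lit 78) (nat_lit 0) (nat_lit 0) (XT.lf (nat_lit 0) (nat_lit 449511645) (nat_lit 228) (nat_lit 5282743526) (nat_lit 304) (nat_lit 15645935400) (nat_lit 69) (nat_lit 5) (nat_lit 72) (nat_lit 5) (nat_lit 73) (nat_lit 5) (nat_lit 506) (nat_lit 392) (nat_lit 242)) (XT.lf (nat_lit 0) (nat_lit 9825163605) (nat_lit 304) (nat_lit 11448699214) (nat_lit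 76) (nat_lit 411428856) (nat_lit 69) (nat_lit 5) (nat_lit 73) (nat_lit 5) (nat_lit 70) (nat_lit 5) (nat_lit 507) (nat_lit 392) (nat_lit 241))) (XT.nd (nat_lit 78) (nat_lit 228) (nat_lit 0) (XT.lf (nat_lit 0) (nat_lit 14024061499) (nat_lit 304) (nat_lit 1831840560) (nat_lit 76) (nat_lit 6142153990) (nat_lit 69) (nat_lit 5) (nat_lit 73) (nat_lit 5) (nat_lit 70) (nat_lit 5) (nat_lit 508) (nat_lit 392) (nat_lit 240)) (XT.lf (nat_lit 0) (nat_lit 8065751204) (nat_lit 228) (nat_lit 10282913406) (nat_lit 304) (nat_lit 3967580352) (nat_lit 66) (nat_lit 5) (nat_lit 69) (nat_lit 5) (nat_lit 70) (nat_lit 5) (nat_lit 509) (nat_lit 392) (nat_lit 239))))))))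
noncomputable def xc134 : XT := (XT.nd (nat_lit 51090) (nat_lit 0) (nat_lit 22724) (XT.nd (nat_lit 1092) (nat_lit 152) (nat_lit 0) (XT.nd (nat_lit 546) (nat_lit 684) (nat_lit 0) (XT.nd (nat_lit 234) (nat_lit 532) (nat_lit 0) (XT.nd (nat_lit 78) (nat_lit 228) (nat_lit 0) (XT.lf (nat_lit 0) (nat_lit 119157987) (nat_lit 304) (nat_lit 4472697907) (nat_lit 76) (nat_lit 18048894839) (nat_lit 65) (nat_lit 5) (nat_lit 69) (nat_lit 5) (nat_lit 66) (nat_lit 5) (nat_lit 510) (nat_lit 392) (nat_lit 238)) (XT.nd (nat_lit 78) (nat_lit 0) (nat_lit 0) (XT.lf (nat_lit 0) (nat_lit 4268292637) (nat_lit 304) (nat_lit 17449132569) (nat_lit 76) (nat_lit 1253124730) (nat_lit 62) (nat_lit 5) (nat_lit 66) (nat_lit 5) (nat_lit 63) (nat_lit 5) (nat_lit 511) (nat_lit 392) (nat_lit 237)) (XT.lf (nat_lit 0) (nat_lit 8550673591) (nat_lit 304) (nat_lit 7578040682) (nat_lit 76) (nat_lit 7177229084) (nat_lit 62) (nat_lit 5) (nat_lit 66) (nat_lit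 5) (nat_lit 63) (nat_lit 5) (nat_lit 512) (nat_lit 392) (nat_lit 236)))) (XT.nd (nat_lit 156) (nat_lit 304) (nat_lit 0) (XT.nd (nat_lit 78) (nat_lit 0) (nat_lit 0) (XT.lf (nat_lit 0) (nat_lit 2506551841) (nat_lit 228) (nat_lit 10418268678) (nat_lit 304) (nat_lit 10723105199) (nat_lit 59) (nat_lit 5) (nat_lit 62) (nat_lit 5) (nat_lit 63) (nat_lit 5) (nat_lit 513) (nat_lit 392) (nat_lit 235)) (XT.lf (nat_lit 0) (nat_lit 12878873969) (nat_lit 228) (nat_lit 4548364025) (nat_lit 304) (nat_lit 6568697351) (nat_lit 59) (nat_lit 5) (nat_lit 62) (nat_lit 5) (nat_lit 63) (nat_lit 5) (nat_lit 514) (nat_lit 392) (nat_lit 234))) (XT.nd (nat_lit 78) (nat_lit 304) (nat_lit 0) (XT.lf (nat_lit 0) (nat_lit 22019136548) (nat_lit 304) (nat_lit 918121129) (nat_lit 76) (nat_lit 1413662139) (nat_lit 59) (nat_lit 5) (nat_lit 63) (nat_lit 5) (nat_lit 60) (nat_lit 5) (nat_lit 515) (nat_lit 392) (nat_lit 233)) (XT.lf (nat_lit 0) (nat_lit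 2046816173) (nat_lit 304) (nat_lit 15160906407) (nat_lit 76) (nat_lit 7503365291) (nat_lit 55) (nat_lit 5) (nat_lit 59) (nat_lit 5) (nat_lit 56) (nat_lit 5) (nat_lit 516) (nat_lit 392) (nat_lit 232))))) (XT.nd (nat_lit 234) (nat_lit 456) (nat_lit 0) (XT.nd (nat_lit 78) (nat_lit 228) (nat_lit 0) (XT.lf (nat_lit 0) (nat_lit 6478299739) (nat_lit 304) (nat_lit 4869741219) (nat_lit 76) (nat_lit 13730182487) (nat_lit 55) (nat_lit 5) (nat_lit 59) (nat_lit 5) (nat_lit 56) (nat_lit 5) (nat_lit 517) (nat_lit 392) (nat_lit 231)) (XT.nd (nat_lit 78) (nat_lit 0) (nat_lit 0) (XT.lf (nat_lit 0) (nat_lit 5685919558) (nat_lit 228) (nat_lit 5339903954) (nat_lit 304) (nat_lit 14426333062) (nat_lit 52) (nat_lit 5) (nat_lit 55) (nat_lit 5) (nat_lit 56) (nat_lit 5) (nat_lit 518) (nat_lit 392) (nat_lit 230)) (XT.lf (nat_lit 0) (nat_lit 15692847735) (nat_lit 304) (nat_lit 9335490858) (nat_lit 76) (nat_lit 804661768) (nat_lit 52) (nat_lit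 5) (nat_lit 56) (nat_lit 5) (nat_lit 53) (nat_lit 5) (nat_lit 519) (nat_lit 392) (nat_lit 229)))) (XT.nd (nat_lit 156) (nat_lit 304) (nat_lit 0) (XT.nd (nat_lit 78) (nat_lit 0) (nat_lit 0) (XT.lf (nat_lit 0) (nat_lit 1269524274) (nat_lit 152) (nat_lit 19218016171) (nat_lit 228) (nat_lit 5733236952) (nat_lit 50) (nat_lit 5) (nat_lit 52) (nat_lit 5) (nat_lit 53) (nat_lit 5) (nat_lit 520) (nat_lit 392) (nat_lit 228)) (XT.lf (nat_lit 0) (nat_lit 12197655202) (nat_lit 152) (nat_lit 13233920769) (nat_lit 228) (nat_lit 1183667901) (nat_lit 50) (nat_lit 5) (nat_lit 52) (nat_lit 5) (nat_lit 53) (nat_lit 5) (nat_lit 521) (nat_lit 392) (nat_lit 227))) (XT.nd (nat_lit 78) (nat_lit 228) (nat_lit 0) (XT.lf (nat_lit 0) (nat_lit 3402475506) (nat_lit 228) (nat_lit 3711043834) (nat_lit 76) (nat_lit 19903815798) (nat_lit 49) (nat_lit 5) (nat_lit 52) (nat_lit 5) (nat_lit 50) (nat_lit 5) (nat_lit 522) (nat_lit 392) (nat_lit 226))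 (XT.lf (nat_lit 0) (nat_lit 7282253588) (nat_lit 228) (nat_lit 820633684) (nat_lit 304) (nat_lit 19323659294) (nat_lit 46) (nat_lit 5) (nat_lit 49) (nat_lit 5) (nat_lit 50) (nat_lit 5) (nat_lit 523) (nat_lit 392) (nat_lit 225)))))) (XT.nd (nat_lit 49452) (nat_lit 0) (nat_lit 38380) (XT.nd (nat_lit 49140) (nat_lit 0) (nat_lit 40204) (XT.nd (nat_lit 78) (nat_lit 152) (nat_lit 0) (XT.lf (nat_lit 0) (nat_lit 12949858373) (nat_lit 304) (nat_lit 9349322473) (nat_lit 76) (nat_lit 5543713011) (nat_lit 46) (nat_lit 5) (nat_lit 50) (nat_lit 5) (nat_lit 47) (nat_lit 5) (nat_lit 524) (nat_lit 392) (nat_lit 224)) (XT.nd (nat_lit 78) (nat_lit 0) (nat_lit 0) (XT.lf (nat_lit 0) (nat_lit 1663133024) (nat_lit 152) (nat_lit 16238178968) (nat_lit 228) (nat_lit 10366107847) (nat_lit 44) (nat_lit 5) (nat_lit 46) (nat_lit 5) (nat_lit 47) (nat_lit 5) (nat_lit 525) (nat_lit 392) (nat_lit 223)) (XT.lf (nat_lit 0) (nat_lit 13007875430)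 (nat_lit 152) (nat_lit 9998043381) (nat_lit 228) (nat_lit 5693437601) (nat_lit 44) (nat_lit 5) (nat_lit 46) (nat_lit 5) (nat_lit 47) (nat_lit 5) (nat_lit 526) (nat_lit 392) (nat_lit 222)))) (XT.nd (nat_lit 156) (nat_lit 0) (nat_lit 0) (XT.nd (nat_lit 78) (nat_lit 836) (nat_lit 0) (XT.lf (nat_lit 0) (nat_lit 2832398731) (nat_lit 836) (nat_lit 276968345) (nat_lit 836) (nat_lit 276968345) (nat_lit 584) (nat_lit 3) (nat_lit 595) (nat_lit 3) (nat_lit 595) (nat_lit 5) (nat_lit 393) (nat_lit 393) (nat_lit 354)) (XT.lf (nat_lit 0) (nat_lit 888562648) (nat_lit 836) (nat_lit 4189315605) (nat_lit 912) (nat_lit 1720625940) (nat_lit 573) (nat_lit 5) (nat_lit 584) (nat_lit 3) (nat_lit 585) (nat_lit 5) (nat_lit 394) (nat_lit 393) (nat_lit 353))) (XT.nd (nat_lit 78) (nat_lit 0) (nat_lit 0) (XT.lf (nat_lit 0) (nat_lit 2861850205) (nat_lit 836) (nat_lit 1016410110) (nat_lit 912) (nat_lit 2947469521) (nat_lit 573) (nat_lit 5) (nat_lit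 584) (nat_lit 3) (nat_lit 585) (nat_lit 5) (nat_lit 395) (nat_lit 393) (nat_lit 352)) (XT.lf (nat_lit 76) (nat_lit 2222281619) (nat_lit 0) (nat_lit 2615771538) (nat_lit 912) (nat_lit 2016233951) (nat_lit 574) (nat_lit 5) (nat_lit 573) (nat_lit 5) (nat_lit 585) (nat_lit 5) (nat_lit 396) (nat_lit 393) (nat_lit 351))))) (XT.nd (nat_lit 234) (nat_lit 988) (nat_lit 0) (XT.nd (nat_lit 78) (nat_lit 836) (nat_lit 0) (XT.lf (nat_lit 76) (nat_lit 5512883822) (nat_lit 0) (nat_lit 1297564725) (nat_lit 912) (nat_lit 73888618) (nat_lit 574) (nat_lit 5) (nat_lit 573) (nat_lit 5) (nat_lit 585) (nat_lit 5) (nat_lit 397) (nat_lit 393) (nat_lit 350)) (XT.nd (nat_lit 78) (nat_lit 0) (nat_lit 0) (XT.lf (nat_lit 0) (nat_lit 1845958717) (nat_lit 912) (nat_lit 4975603584) (nat_lit 988) (nat_lit 93957733) (nat_lit 562) (nat_lit 5) (nat_lit 574) (nat_lit 5) (nat_lit 575) (nat_lit 5) (nat_lit 398) (nat_lit 393) (nat_lit 349)) (XT.lf (nat_lit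 0) (nat_lit 3772466019) (nat_lit 912) (nat_lit 1648005662) (nat_lit 988) (nat_lit 1527511897) (nat_lit 562) (nat_lit 5) (nat_lit 574) (nat_lit 5) (nat_lit 575) (nat_lit 5) (nat_lit 399) (nat_lit 393) (nat_lit 348)))) (XT.nd (nat_lit 156) (nat_lit 0) (nat_lit 0) (XT.nd (nat_lit 78) (nat_lit 988) (nat_lit 0) (XT.lf (nat_lit 76) (nat_lit 1741708808) (nat_lit 0) (nat_lit 3959450241) (nat_lit 988) (nat_lit 1280715055) (nat_lit 563) (nat_lit 5) (nat_lit 562) (nat_lit 5) (nat_lit 575) (nat_lit 5) (nat_lit 400) (nat_lit 393) (nat_lit 347)) (XT.lf (nat_lit 0) (nat_lit 607310792) (nat_lit 988) (nat_lit 1826746487) (nat_lit 1064) (nat_lit 4583071781) (nat_lit 549) (nat_lit 5) (nat_lit 562) (nat_lit 5) (nat_lit 563) (nat_lit 5) (nat_lit 401) (nat_lit 393) (nat_lit 346))) (XT.nd (nat_lit 78) (nat_lit 0) (nat_lit 76) (XT.lf (nat_lit 76) (nat_lit 1640746852) (nat_lit 0) (nat_lit 839542875) (nat_lit 1064) (nat_lit 4573391138)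 (nat_lit 550) (nat_lit 5) (nat_lit 549) (nat_lit 5) (nat_lit 563) (nat_lit 5) (nat_lit 402) (nat_lit 393) (nat_lit 345)) (XT.lf (nat_lit 0) (nat_lit 4362702318) (nat_lit 988) (nat_lit 1921687527) (nat_lit 1064) (nat_lit 807181329) (nat_lit 550) (nat_lit 5) (nat_lit 563) (nat_lit 5) (nat_lit 564) (nat_lit 5) (nat_lit 403) (nat_lit 393) (nat_lit 344))))))) (XT.nd (nat_lit 1092) (nat_lit 11248) (nat_lit 0) (XT.nd (nat_lit 546) (nat_lit 2356) (nat_lit 0) (XT.nd (nat_lit 234) (nat_lit 1064) (nat_lit 0) (XT.nd (nat_lit 78) (nat_lit 1064) (nat_lit 0) (XT.lf (nat_lit 76) (nat_lit 1627590670) (nat_lit 0) (nat_lit 4626717066) (nat_lit 1064) (nat_lit 876526692) (nat_lit 551) (nat_lit 5) (nat_lit 550) (nat_lit 5) (nat_lit 564) (nat_lit 5) (nat_lit 404) (nat_lit 393) (nat_lit 343)) (XT.nd (nat_lit 78) (nat_lit 0) (nat_lit 0) (XT.lf (nat_lit 0) (nat_lit 968337780) (nat_lit 1064) (nat_lit 1931413155) (nat_lit 1140) (nat_lit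 4271669543) (nat_lit 536) (nat_lit 5) (nat_lit 550) (nat_lit 5) (nat_lit 551) (nat_lit 5) (nat_lit 405) (nat_lit 393) (nat_lit 342)) (XT.lf (nat_lit 76) (nat_lit 1700876195) (nat_lit 0) (nat_lit 1105186334) (nat_lit 1140) (nat_lit 4407329223) (nat_lit 537) (nat_lit 5) (nat_lit 536) (nat_lit 5) (nat_lit 551) (nat_lit 5) (nat_lit 406) (nat_lit 393) (nat_lit 341)))) (XT.nd (nat_lit 156) (nat_lit 1140) (nat_lit 0) (XT.nd (nat_lit 78) (nat_lit 0) (nat_lit 0) (XT.lf (nat_lit 0) (nat_lit 4655715541) (nat_lit 1064) (nat_lit 1857041438) (nat_lit 1140) (nat_lit 743984521) (nat_lit 537) (nat_lit 5) (nat_lit 551) (nat_lit 5) (nat_lit 552) (nat_lit 5) (nat_lit 407) (nat_lit 393) (nat_lit 340)) (XT.lf (nat_lit 76) (nat_lit 1860888162) (nat_lit 0) (nat_lit 4659127827) (nat_lit 1140) (nat_lit 781430857) (nat_lit 538) (nat_lit 5) (nat_lit 537) (nat_lit 5) (nat_lit 552) (nat_lit 5) (nat_lit 408) (nat_lit 393) (nat_lit 339))) (XT.nd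 (nat_lit 78) (nat_lit 0) (nat_lit 0) (XT.lf (nat_lit 0) (nat_lit 1031587614) (nat_lit 1140) (nat_lit 1703656066) (nat_lit 1216) (nat_lit 4612280665) (nat_lit 522) (nat_lit 5) (nat_lit 537) (nat_lit 5) (nat_lit 538) (nat_lit 5) (nat_lit 409) (nat_lit 393) (nat_lit 338)) (XT.lf (nat_lit 76) (nat_lit 2102791204) (nat_lit 0) (nat_lit 740666752) (nat_lit 1216) (nat_lit 4551540322) (nat_lit 523) (nat_lit 5) (nat_lit 522) (nat_lit 5) (nat_lit 538) (nat_lit 5) (nat_lit 410) (nat_lit 393) (nat_lit 337))))) (XT.nd (nat_lit 234) (nat_lit 1216) (nat_lit 0) (XT.nd (nat_lit 78) (nat_lit 1216) (nat_lit 0) (XT.lf (nat_lit 0) (nat_lit 4671566298) (nat_lit 1140) (nat_lit 1471543274) (nat_lit 1216) (nat_lit 1300750621) (nat_lit 523) (nat_lit 5) (nat_lit 538) (nat_lit 5) (nat_lit 539) (nat_lit 5) (nat_lit 411) (nat_lit 393) (nat_lit 336)) (XT.nd (nat_lit 78) (nat_lit 1216) (nat_lit 0) (XT.lf (nat_lit 76) (nat_lit 2424648792) (nat_lit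 0) (nat_lit 4093110258) (nat_lit 1216) (nat_lit 976347609) (nat_lit 524) (nat_lit 5) (nat_lit 523) (nat_lit 5) (nat_lit 539) (nat_lit 5) (nat_lit 412) (nat_lit 393) (nat_lit 335)) (XT.lf (nat_lit 0) (nat_lit 815408536) (nat_lit 1216) (nat_lit 1160217875) (nat_lit 1292) (nat_lit 5570234623) (nat_lit 507) (nat_lit 5) (nat_lit 523) (nat_lit 5) (nat_lit 524) (nat_lit 5) (nat_lit 413) (nat_lit 393) (nat_lit 334)))) (XT.nd (nat_lit 156) (nat_lit 1292) (nat_lit 0) (XT.nd (nat_lit 78) (nat_lit 0) (nat_lit 0) (XT.lf (nat_lit 0) (nat_lit 2611675497) (nat_lit 1216) (nat_lit 4770115878) (nat_lit 76) (nat_lit 217130650) (nat_lit 508) (nat_lit 5) (nat_lit 524) (nat_lit 5) (nat_lit 509) (nat_lit 5) (nat_lit 414) (nat_lit 393) (nat_lit 333)) (XT.lf (nat_lit 0) (nat_lit 4427354871) (nat_lit 1216) (nat_lit 780952012) (nat_lit 76) (nat_lit 2445102494) (nat_lit 508) (nat_lit 5) (nat_lit 524) (nat_lit 5) (nat_lit 509) (nat_lit 5)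 (nat_lit 415) (nat_lit 393) (nat_lit 332))) (XT.nd (nat_lit 78) (nat_lit 76) (nat_lit 0) (XT.lf (nat_lit 0) (nat_lit 3303610795) (nat_lit 1216) (nat_lit 2960486488) (nat_lit 1292) (nat_lit 1445228406) (nat_lit 492) (nat_lit 5) (nat_lit 508) (nat_lit 5) (nat_lit 509) (nat_lit 5) (nat_lit 416) (nat_lit 393) (nat_lit 331)) (XT.lf (nat_lit 0) (nat_lit 335189509) (nat_lit 1292) (nat_lit 316296017) (nat_lit 76) (nat_lit 7115482592) (nat_lit 491) (nat_lit 5) (nat_lit 508) (nat_lit 5) (nat_lit 492) (nat_lit 5) (nat_lit 417) (nat_lit 393) (nat_lit 330)))))) (XT.nd (nat_lit 546) (nat_lit 5548) (nat_lit 0) (XT.nd (nat_lit 234) (nat_lit 3040) (nat_lit 0) (XT.nd (nat_lit 78) (nat_lit 1368) (nat_lit 0) (XT.lf (nat_lit 0) (nat_lit 2132627147) (nat_lit 1368) (nat_lit 3968580064) (nat_lit 76) (nat_lit 1724382095) (nat_lit 474) (nat_lit 5) (nat_lit 492) (nat_lit 5) (nat_lit 475) (nat_lit 5) (nat_lit 418) (nat_lit 393) (nat_lit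 329)) (XT.nd (nat_lit 78) (nat_lit 0) (nat_lit 0) (XT.lf (nat_lit 0) (nat_lit 202958627) (nat_lit 1368) (nat_lit 3735680705) (nat_lit 1444) (nat_lit 3947322666) (nat_lit 456) (nat_lit 5) (nat_lit 474) (nat_lit 5) (nat_lit 475) (nat_lit 5) (nat_lit 419) (nat_lit 393) (nat_lit 328)) (XT.lf (nat_lit 0) (nat_lit 4483805825) (nat_lit 1368) (nat_lit 1288962023) (nat_lit 1444) (nat_lit 2174965348) (nat_lit 456) (nat_lit 5) (nat_lit 474) (nat_lit 5) (nat_lit 475) (nat_lit 5) (nat_lit 420) (nat_lit 393) (nat_lit 327)))) (XT.nd (nat_lit 156) (nat_lit 1520) (nat_lit 0) (XT.nd (nat_lit 78) (nat_lit 76) (nat_lit 0) (XT.lf (nat_lit 0) (nat_lit 814252309) (nat_lit 1444) (nat_lit 6808534642) (nat_lit 1520) (nat_lit 388399077) (nat_lit 437) (nat_lit 5) (nat_lit 456) (nat_lit 5) (nat_lit 457) (nat_lit 5) (nat_lit 421) (nat_lit 393) (nat_lit 326)) (XT.lf (nat_lit 0) (nat_lit 1413347087) (nat_lit 1520) (nat_lit 2896906957) (nat_lit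 76) (nat_lit 3765531777) (nat_lit 436) (nat_lit 5) (nat_lit 456) (nat_lit 5) (nat_lit 437) (nat_lit 5) (nat_lit 422) (nat_lit 393) (nat_lit 325))) (XT.nd (nat_lit 78) (nat_lit 0) (nat_lit 0) (XT.lf (nat_lit 0) (nat_lit 1478076502) (nat_lit 1520) (nat_lit 1744432442) (nat_lit 1596) (nat_lit 4919614308) (nat_lit 416) (nat_lit 5) (nat_lit 436) (nat_lit 5) (nat_lit 437) (nat_lit 5) (nat_lit 423) (nat_lit 393) (nat_lit 324)) (XT.lf (nat_lit 0) (nat_lit 5060568106) (nat_lit 1596) (nat_lit 2263749999) (nat_lit 76) (nat_lit 885643101) (nat_lit 416) (nat_lit 5) (nat_lit 437) (nat_lit 5) (nat_lit 417) (nat_lit 5) (nat_lit 424) (nat_lit 393) (nat_lit 323))))) (XT.nd (nat_lit 234) (nat_lit 2204) (nat_lit 0) (XT.nd (nat_lit 78) (nat_lit 1748) (nat_lit 0) (XT.lf (nat_lit 0) (nat_lit 2214212094) (nat_lit 1596) (nat_lit 4715222054) (nat_lit 1672) (nat_lit 1349868364) (nat_lit 395) (nat_lit 5) (nat_lit 416) (nat_lit 5) (nat_lit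 417) (nat_lit 5) (nat_lit 425) (nat_lit 393) (nat_lit 322)) (XT.nd (nat_lit 78) (nat_lit 1672) (nat_lit 0) (XT.lf (nat_lit 0) (nat_lit 462896969) (nat_lit 1672) (nat_lit 1568653527) (nat_lit 76) (nat_lit 6318771134) (nat_lit 394) (nat_lit 5) (nat_lit 416) (nat_lit 5) (nat_lit 395) (nat_lit 5) (nat_lit 426) (nat_lit 393) (nat_lit 321)) (XT.lf (nat_lit 0) (nat_lit 2287216413) (nat_lit 1748) (nat_lit 5406781098) (nat_lit 76) (nat_lit 728743616) (nat_lit 372) (nat_lit 5) (nat_lit 395) (nat_lit 5) (nat_lit 373) (nat_lit 5) (nat_lit 427) (nat_lit 393) (nat_lit 320)))) (XT.nd (nat_lit 156) (nat_lit 912) (nat_lit 0) (XT.nd (nat_lit 78) (nat_lit 1292) (nat_lit 0) (XT.lf (nat_lit 0) (nat_lit 4141473708) (nat_lit 1748) (nat_lit 824411873) (nat_lit 76) (nat_lit 3530879813) (nat_lit 372) (nat_lit 5) (nat_lit 395) (nat_lit 5) (nat_lit 373) (nat_lit 5) (nat_lit 428) (nat_lit 393) (nat_lit 319)) (XT.lf (nat_lit 0) (nat_lit 3872929222)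 (nat_lit 1292) (nat_lit 2155033811) (nat_lit 1368) (nat_lit 2544429089) (nat_lit 355) (nat_lit 5) (nat_lit 372) (nat_lit 5) (nat_lit 373) (nat_lit 5) (nat_lit 429) (nat_lit 393) (nat_lit 318))) (XT.nd (nat_lit 78) (nat_lit 912) (nat_lit 0) (XT.lf (nat_lit 0) (nat_lit 7932801241) (nat_lit 1368) (nat_lit 6608180) (nat_lit 76) (nat_lit 710534007) (nat_lit 355) (nat_lit 5) (nat_lit 373) (nat_lit 5) (nat_lit 356) (nat_lit 5) (nat_lit 430) (nat_lit 393) (nat_lit 317)) (XT.lf (nat_lit 0) (nat_lit 1148189623) (nat_lit 912) (nat_lit 3934863618) (nat_lit 76) (nat_lit 3645536330) (nat_lit 343) (nat_lit 5) (nat_lit 355) (nat_lit 5) (nat_lit 344) (nat_lit 5) (nat_lit 431) (nat_lit 393) (nat_lit 316))))))))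
noncomputable def xc135 : XT := (XT.nd (nat_lit 2184) (nat_lit 7296) (nat_lit 0) (XT.nd (nat_lit 1092) (nat_lit 4332) (nat_lit 0) (XT.nd (nat_lit 546) (nat_lit 3040) (nat_lit 0) (XT.nd (nat_lit 234) (nat_lit 1672) (nat_lit 0) (XT.nd (nat_lit 78) (nat_lit 836) (nat_lit 0) (XT.lf (nat_lit 0) (nat_lit 860283332) (nat_lit 836) (nat_lit 2157767782) (nat_lit 912) (nat_lit 5791149220) (nat_lit 332) (nat_lit 5) (nat_lit 343) (nat_lit 5) (nat_lit 344) (nat_lit 5) (nat_lit 432) (nat_lit 393) (nat_lit 315)) (XT.nd (nat_lit 78) (nat_lit 836) (nat_lit 0) (XT.lf (nat_lit 0) (nat_lit 4928832753) (nat_lit 912) (nat_lit 3119776379) (nat_lit 76) (nat_lit 842766286) (nat_lit 332) (nat_lit 5) (nat_lit 344) (nat_lit 5) (nat_lit 333) (nat_lit 5) (nat_lit 433) (nat_lit 393) (nat_lit 314)) (XT.lf (nat_lit 0) (nat_lit 1787637152) (nat_lit 836) (nat_lit 5088226459) (nat_lit 912) (nat_lit 2099391843) (nat_lit 321) (nat_lit 5) (nat_lit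 332) (nat_lit 5) (nat_lit 333) (nat_lit 5) (nat_lit 434) (nat_lit 393) (nat_lit 313)))) (XT.nd (nat_lit 156) (nat_lit 760) (nat_lit 0) (XT.nd (nat_lit 78) (nat_lit 912) (nat_lit 0) (XT.lf (nat_lit 0) (nat_lit 6808203801) (nat_lit 836) (nat_lit 2047073014) (nat_lit 912) (nat_lit 205689129) (nat_lit 321) (nat_lit 5) (nat_lit 332) (nat_lit 5) (nat_lit 333) (nat_lit 5) (nat_lit 435) (nat_lit 393) (nat_lit 312)) (XT.lf (nat_lit 0) (nat_lit 1701183738) (nat_lit 912) (nat_lit 6376512543) (nat_lit 76) (nat_lit 1070532469) (nat_lit 309) (nat_lit 5) (nat_lit 321) (nat_lit 5) (nat_lit 310) (nat_lit 5) (nat_lit 436) (nat_lit 393) (nat_lit 311))) (XT.nd (nat_lit 78) (nat_lit 760) (nat_lit 0) (XT.lf (nat_lit 0) (nat_lit 3645418979) (nat_lit 912) (nat_lit 1352240746) (nat_lit 76) (nat_lit 4239530750) (nat_lit 309) (nat_lit 5) (nat_lit 321) (nat_lit 5) (nat_lit 310) (nat_lit 5) (nat_lit 437) (nat_lit 393) (nat_lit 310)) (XT.lf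 (nat_lit 0) (nat_lit 3795324099) (nat_lit 760) (nat_lit 1831584440) (nat_lit 836) (nat_lit 3701075541) (nat_lit 299) (nat_lit 5) (nat_lit 309) (nat_lit 5) (nat_lit 310) (nat_lit 5) (nat_lit 438) (nat_lit 393) (nat_lit 309))))) (XT.nd (nat_lit 234) (nat_lit 1520) (nat_lit 0) (XT.nd (nat_lit 78) (nat_lit 1520) (nat_lit 0) (XT.lf (nat_lit 0) (nat_lit 7640301216) (nat_lit 836) (nat_lit 392701465) (nat_lit 76) (nat_lit 1387765052) (nat_lit 299) (nat_lit 5) (nat_lit 310) (nat_lit 5) (nat_lit 300) (nat_lit 5) (nat_lit 439) (nat_lit 393) (nat_lit 308)) (XT.nd (nat_lit 78) (nat_lit 684) (nat_lit 0) (XT.lf (nat_lit 0) (nat_lit 194669396) (nat_lit 836) (nat_lit 4641264172) (nat_lit 76) (nat_lit 4679100056) (nat_lit 288) (nat_lit 5) (nat_lit 299) (nat_lit 5) (nat_lit 289) (nat_lit 5) (nat_lit 440) (nat_lit 393) (nat_lit 307)) (XT.lf (nat_lit 0) (nat_lit 608972438) (nat_lit 684) (nat_lit 1557836918) (nat_lit 760) (nat_lit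 7444531775) (nat_lit 279) (nat_lit 5) (nat_lit 288) (nat_lit 5) (nat_lit 289) (nat_lit 5) (nat_lit 441) (nat_lit 393) (nat_lit 306)))) (XT.nd (nat_lit 156) (nat_lit 760) (nat_lit 0) (XT.nd (nat_lit 78) (nat_lit 760) (nat_lit 0) (XT.lf (nat_lit 0) (nat_lit 4196361442) (nat_lit 760) (nat_lit 3720920294) (nat_lit 76) (nat_lit 1791951813) (nat_lit 279) (nat_lit 5) (nat_lit 289) (nat_lit 5) (nat_lit 280) (nat_lit 5) (nat_lit 442) (nat_lit 393) (nat_lit 305)) (XT.lf (nat_lit 0) (nat_lit 1650730336) (nat_lit 760) (nat_lit 4612321416) (nat_lit 836) (nat_lit 3546118913) (nat_lit 269) (nat_lit 5) (nat_lit 279) (nat_lit 5) (nat_lit 280) (nat_lit 5) (nat_lit 443) (nat_lit 393) (nat_lit 304))) (XT.nd (nat_lit 78) (nat_lit 760) (nat_lit 0) (XT.lf (nat_lit 0) (nat_lit 7153668523) (nat_lit 760) (nat_lit 1218196969) (nat_lit 836) (nat_lit 1539242681) (nat_lit 269) (nat_lit 5) (nat_lit 279) (nat_lit 5) (nat_lit 280) (nat_lit 5)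 (nat_lit 444) (nat_lit 393) (nat_lit 303)) (XT.lf (nat_lit 0) (nat_lit 509831642) (nat_lit 760) (nat_lit 7271786757) (nat_lit 76) (nat_lit 2233242460) (nat_lit 259) (nat_lit 5) (nat_lit 269) (nat_lit 5) (nat_lit 260) (nat_lit 5) (nat_lit 445) (nat_lit 393) (nat_lit 302)))))) (XT.nd (nat_lit 546) (nat_lit 1748) (nat_lit 0) (XT.nd (nat_lit 234) (nat_lit 1900) (nat_lit 0) (XT.nd (nat_lit 78) (nat_lit 684) (nat_lit 0) (XT.lf (nat_lit 0) (nat_lit 2582391558) (nat_lit 760) (nat_lit 1774419937) (nat_lit 76) (nat_lit 5763627762) (nat_lit 259) (nat_lit 5) (nat_lit 269) (nat_lit 5) (nat_lit 260) (nat_lit 5) (nat_lit 446) (nat_lit 393) (nat_lit 301)) (XT.nd (nat_lit 78) (nat_lit 0) (nat_lit 0) (XT.lf (nat_lit 0) (nat_lit 3857313347) (nat_lit 684) (nat_lit 840997636) (nat_lit 760) (nat_lit 5529796189) (nat_lit 250) (nat_lit 5) (nat_lit 259) (nat_lit 5) (nat_lit 260) (nat_lit 5) (nat_lit 447) (nat_lit 393) (nat_lit 300))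 (XT.lf (nat_lit 0) (nat_lit 6863486657) (nat_lit 760) (nat_lit 756308795) (nat_lit 76) (nat_lit 2718010034) (nat_lit 250) (nat_lit 5) (nat_lit 260) (nat_lit 5) (nat_lit 251) (nat_lit 5) (nat_lit 448) (nat_lit 393) (nat_lit 299)))) (XT.nd (nat_lit 156) (nat_lit 608) (nat_lit 0) (XT.nd (nat_lit 78) (nat_lit 684) (nat_lit 0) (XT.lf (nat_lit 0) (nat_lit 5004600844) (nat_lit 608) (nat_lit 4083004660) (nat_lit 684) (nat_lit 1361794958) (nat_lit 242) (nat_lit 5) (nat_lit 250) (nat_lit 5) (nat_lit 251) (nat_lit 5) (nat_lit 449) (nat_lit 393) (nat_lit 298)) (XT.lf (nat_lit 0) (nat_lit 300541696) (nat_lit 608) (nat_lit 466785466) (nat_lit 684) (nat_lit 9796117136) (nat_lit 233) (nat_lit 5) (nat_lit 241) (nat_lit 5) (nat_lit 242) (nat_lit 5) (nat_lit 450) (nat_lit 393) (nat_lit 297))) (XT.nd (nat_lit 78) (nat_lit 608) (nat_lit 0) (XT.lf (nat_lit 0) (nat_lit 2956443528) (nat_lit 684) (nat_lit 4500952490) (nat_lit 76) (nat_lit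 3221494633) (nat_lit 233) (nat_lit 5) (nat_lit 242) (nat_lit 5) (nat_lit 234) (nat_lit 5) (nat_lit 451) (nat_lit 393) (nat_lit 296)) (XT.lf (nat_lit 0) (nat_lit 1365235453) (nat_lit 608) (nat_lit 3814426745) (nat_lit 684) (nat_lit 5617191643) (nat_lit 225) (nat_lit 5) (nat_lit 233) (nat_lit 5) (nat_lit 234) (nat_lit 5) (nat_lit 452) (nat_lit 393) (nat_lit 295))))) (XT.nd (nat_lit 234) (nat_lit 1064) (nat_lit 0) (XT.nd (nat_lit 78) (nat_lit 684) (nat_lit 0) (XT.lf (nat_lit 0) (nat_lit 7384113405) (nat_lit 608) (nat_lit 72057982) (nat_lit 684) (nat_lit 3460842415) (nat_lit 225) (nat_lit 5) (nat_lit 233) (nat_lit 5) (nat_lit 234) (nat_lit 5) (nat_lit 453) (nat_lit 393) (nat_lit 294)) (XT.nd (nat_lit 78) (nat_lit 76) (nat_lit 0) (XT.lf (nat_lit 0) (nat_lit 2466273266) (nat_lit 608) (nat_lit 7331280614) (nat_lit 684) (nat_lit 1241649974) (nat_lit 217) (nat_lit 5) (nat_lit 225) (nat_lit 5) (nat_lit 226) (nat_lit 5)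 (nat_lit 454) (nat_lit 393) (nat_lit 293)) (XT.lf (nat_lit 0) (nat_lit 1011975832) (nat_lit 684) (nat_lit 2562983993) (nat_lit 76) (nat_lit 7588689354) (nat_lit 216) (nat_lit 5) (nat_lit 225) (nat_lit 5) (nat_lit 217) (nat_lit 5) (nat_lit 455) (nat_lit 393) (nat_lit 292)))) (XT.nd (nat_lit 156) (nat_lit 532) (nat_lit 0) (XT.nd (nat_lit 78) (nat_lit 0) (nat_lit 0) (XT.lf (nat_lit 0) (nat_lit 3298675801) (nat_lit 608) (nat_lit 7711486823) (nat_lit 76) (nat_lit 280177055) (nat_lit 209) (nat_lit 5) (nat_lit 217) (nat_lit 5) (nat_lit 210) (nat_lit 5) (nat_lit 456) (nat_lit 393) (nat_lit 291)) (XT.lf (nat_lit 0) (nat_lit 5651826228) (nat_lit 608) (nat_lit 1590129457) (nat_lit 76) (nat_lit 4177206680) (nat_lit 209) (nat_lit 5) (nat_lit 217) (nat_lit 5) (nat_lit 210) (nat_lit 5) (nat_lit 457) (nat_lit 393) (nat_lit 290))) (XT.nd (nat_lit 78) (nat_lit 0) (nat_lit 0) (XT.lf (nat_lit 0) (nat_lit 4690278030) (nat_lit 532)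 (nat_lit 3372339871) (nat_lit 608) (nat_lit 3487744498) (nat_lit 202) (nat_lit 5) (nat_lit 209) (nat_lit 5) (nat_lit 210) (nat_lit 5) (nat_lit 458) (nat_lit 393) (nat_lit 289)) (XT.lf (nat_lit 0) (nat_lit 10516419796) (nat_lit 608) (nat_lit 595025749) (nat_lit 76) (nat_lit 572857213) (nat_lit 202) (nat_lit 5) (nat_lit 210) (nat_lit 5) (nat_lit 203) (nat_lit 5) (nat_lit 459) (nat_lit 393) (nat_lit 288))))))) (XT.nd (nat_lit 1092) (nat_lit 3192) (nat_lit 0) (XT.nd (nat_lit 546) (nat_lit 1900) (nat_lit 0) (XT.nd (nat_lit 234) (nat_lit 1064) (nat_lit 0) (XT.nd (nat_lit 78) (nat_lit 532) (nat_lit 0) (XT.lf (nat_lit 0) (nat_lit 1223777253) (nat_lit 608) (nat_lit 6003381165) (nat_lit 76) (nat_lit 4592797264) (nat_lit 194) (nat_lit 5) (nat_lit 202) (nat_lit 5) (nat_lit 195) (nat_lit 5) (nat_lit 460) (nat_lit 393) (nat_lit 287)) (XT.nd (nat_lit 78) (nat_lit 0) (nat_lit 0) (XT.lf (nat_lit 0) (nat_lit 378724991) (nat_lit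 532) (nat_lit 3256190163) (nat_lit 608) (nat_lit 8323517977) (nat_lit 187) (nat_lit 5) (nat_lit 194) (nat_lit 5) (nat_lit 195) (nat_lit 5) (nat_lit 461) (nat_lit 393) (nat_lit 286)) (XT.lf (nat_lit 0) (nat_lit 6120955624) (nat_lit 608) (nat_lit 5159351475) (nat_lit 76) (nat_lit 818850716) (nat_lit 187) (nat_lit 5) (nat_lit 195) (nat_lit 5) (nat_lit 188) (nat_lit 5) (nat_lit 462) (nat_lit 393) (nat_lit 285)))) (XT.nd (nat_lit 156) (nat_lit 608) (nat_lit 0) (XT.nd (nat_lit 78) (nat_lit 0) (nat_lit 0) (XT.lf (nat_lit 0) (nat_lit 1361285482) (nat_lit 456) (nat_lit 7307177799) (nat_lit 532) (nat_lit 3574009847) (nat_lit 181) (nat_lit 5) (nat_lit 187) (nat_lit 5) (nat_lit 188) (nat_lit 5) (nat_lit 463) (nat_lit 393) (nat_lit 284)) (XT.lf (nat_lit 0) (nat_lit 8058016007) (nat_lit 456) (nat_lit 3225079207) (nat_lit 532) (nat_lit 1105246893) (nat_lit 181) (nat_lit 5) (nat_lit 187) (nat_lit 5) (nat_lit 188) (nat_lit 5)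 (nat_lit 464) (nat_lit 393) (nat_lit 283))) (XT.nd (nat_lit 78) (nat_lit 0) (nat_lit 0) (XT.lf (nat_lit 0) (nat_lit 1397615301) (nat_lit 608) (nat_lit 10194076711) (nat_lit 76) (nat_lit 945198326) (nat_lit 173) (nat_lit 5) (nat_lit 181) (nat_lit 5) (nat_lit 174) (nat_lit 5) (nat_lit 465) (nat_lit 393) (nat_lit 282)) (XT.lf (nat_lit 0) (nat_lit 3968306410) (nat_lit 608) (nat_lit 3532790391) (nat_lit 76) (nat_lit 5186525417) (nat_lit 173) (nat_lit 5) (nat_lit 181) (nat_lit 5) (nat_lit 174) (nat_lit 5) (nat_lit 466) (nat_lit 393) (nat_lit 281))))) (XT.nd (nat_lit 234) (nat_lit 988) (nat_lit 0) (XT.nd (nat_lit 78) (nat_lit 456) (nat_lit 0) (XT.lf (nat_lit 0) (nat_lit 3281020677) (nat_lit 456) (nat_lit 3312994935) (nat_lit 532) (nat_lit 6247291058) (nat_lit 167) (nat_lit 5) (nat_lit 173) (nat_lit 5) (nat_lit 174) (nat_lit 5) (nat_lit 467) (nat_lit 393) (nat_lit 280)) (XT.nd (nat_lit 78) (nat_lit 456) (nat_lit 0) (XT.lf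 (nat_lit 0) (nat_lit 9284784735) (nat_lit 532) (nat_lit 2748873925) (nat_lit 76) (nat_lit 964165058) (nat_lit 167) (nat_lit 5) (nat_lit 174) (nat_lit 5) (nat_lit 168) (nat_lit 5) (nat_lit 468) (nat_lit 393) (nat_lit 279)) (XT.lf (nat_lit 0) (nat_lit 4208594544) (nat_lit 456) (nat_lit 7852840283) (nat_lit 532) (nat_lit 1095404598) (nat_lit 161) (nat_lit 5) (nat_lit 167) (nat_lit 5) (nat_lit 168) (nat_lit 5) (nat_lit 469) (nat_lit 393) (nat_lit 278)))) (XT.nd (nat_lit 156) (nat_lit 456) (nat_lit 0) (XT.nd (nat_lit 78) (nat_lit 456) (nat_lit 0) (XT.lf (nat_lit 0) (nat_lit 1555364481) (nat_lit 532) (nat_lit 2010048620) (nat_lit 76) (nat_lit 9753398478) (nat_lit 160) (nat_lit 5) (nat_lit 167) (nat_lit 5) (nat_lit 161) (nat_lit 5) (nat_lit 470) (nat_lit 393) (nat_lit 277)) (XT.lf (nat_lit 0) (nat_lit 4266302575) (nat_lit 532) (nat_lit 8385490588) (nat_lit 76) (nat_lit 831657854) (nat_lit 154) (nat_lit 5) (nat_lit 161)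 (nat_lit 5) (nat_lit 155) (nat_lit 5) (nat_lit 471) (nat_lit 393) (nat_lit 276))) (XT.nd (nat_lit 78) (nat_lit 456) (nat_lit 0) (XT.lf (nat_lit 0) (nat_lit 7051989594) (nat_lit 532) (nat_lit 1322637074) (nat_lit 76) (nat_lit 5276354868) (nat_lit 154) (nat_lit 5) (nat_lit 161) (nat_lit 5) (nat_lit 155) (nat_lit 5) (nat_lit 472) (nat_lit 393) (nat_lit 275)) (XT.lf (nat_lit 0) (nat_lit 5936589157) (nat_lit 456) (nat_lit 3979012476) (nat_lit 532) (nat_lit 3905825529) (nat_lit 148) (nat_lit 5) (nat_lit 154) (nat_lit 5) (nat_lit 155) (nat_lit 5) (nat_lit 473) (nat_lit 393) (nat_lit 274)))))) (XT.nd (nat_lit 546) (nat_lit 1444) (nat_lit 0) (XT.nd (nat_lit 234) (nat_lit 1292) (nat_lit 0) (XT.nd (nat_lit 78) (nat_lit 456) (nat_lit 0) (XT.lf (nat_lit 0) (nat_lit 12832494707) (nat_lit 532) (nat_lit 662394118) (nat_lit 76) (nat_lit 500481249) (nat_lit 148) (nat_lit 5) (nat_lit 155) (nat_lit 5) (nat_lit 149) (nat_lit 5) (nat_lit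 474) (nat_lit 393) (nat_lit 273)) (XT.nd (nat_lit 78) (nat_lit 0) (nat_lit 0) (XT.lf (nat_lit 0) (nat_lit 1668097488) (nat_lit 456) (nat_lit 7438526384) (nat_lit 76) (nat_lit 5064871770) (nat_lit 142) (nat_lit 5) (nat_lit 148) (nat_lit 5) (nat_lit 143) (nat_lit 5) (nat_lit 475) (nat_lit 393) (nat_lit 272)) (XT.lf (nat_lit 0) (nat_lit 4528778900) (nat_lit 456) (nat_lit 96072815) (nat_lit 76) (nat_lit 9726373129) (nat_lit 142) (nat_lit 5) (nat_lit 148) (nat_lit 5) (nat_lit 143) (nat_lit 5) (nat_lit 476) (nat_lit 393) (nat_lit 271)))) (XT.nd (nat_lit 156) (nat_lit 456) (nat_lit 0) (XT.nd (nat_lit 78) (nat_lit 380) (nat_lit 0) (XT.lf (nat_lit 0) (nat_lit 7469123799) (nat_lit 456) (nat_lit 10526015) (nat_lit 532) (nat_lit 7054247200) (nat_lit 136) (nat_lit 5) (nat_lit 142) (nat_lit 5) (nat_lit 143) (nat_lit 5) (nat_lit 477) (nat_lit 393) (nat_lit 270)) (XT.lf (nat_lit 0) (nat_lit 419532746) (nat_lit 380) (nat_lit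 10088469085) (nat_lit 456) (nat_lit 4211859267) (nat_lit 131) (nat_lit 5) (nat_lit 136) (nat_lit 5) (nat_lit 137) (nat_lit 5) (nat_lit 478) (nat_lit 393) (nat_lit 269))) (XT.nd (nat_lit 78) (nat_lit 456) (nat_lit 0) (XT.lf (nat_lit 0) (nat_lit 8127173023) (nat_lit 380) (nat_lit 5501984995) (nat_lit 456) (nat_lit 1279749296) (nat_lit 131) (nat_lit 5) (nat_lit 136) (nat_lit 5) (nat_lit 137) (nat_lit 5) (nat_lit 479) (nat_lit 393) (nat_lit 268)) (XT.lf (nat_lit 0) (nat_lit 865654871) (nat_lit 380) (nat_lit 813480366) (nat_lit 456) (nat_lit 13422572887) (nat_lit 125) (nat_lit 5) (nat_lit 130) (nat_lit 5) (nat_lit 131) (nat_lit 5) (nat_lit 480) (nat_lit 393) (nat_lit 267))))) (XT.nd (nat_lit 312) (nat_lit 760) (nat_lit 0) (XT.nd (nat_lit 156) (nat_lit 380) (nat_lit 0) (XT.nd (nat_lit 78) (nat_lit 304) (nat_lit 0) (XT.lf (nat_lit 0) (nat_lit 4736718410) (nat_lit 456) (nat_lit 6596017804) (nat_lit 76) (nat_lit 3964333573)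 (nat_lit 125) (nat_lit 5) (nat_lit 131) (nat_lit 5) (nat_lit 126) (nat_lit 5) (nat_lit 481) (nat_lit 393) (nat_lit 266)) (XT.lf (nat_lit 0) (nat_lit 1185470435) (nat_lit 304) (nat_lit 6668422190) (nat_lit 380) (nat_lit 7642484285) (nat_lit 121) (nat_lit 5) (nat_lit 125) (nat_lit 5) (nat_lit 126) (nat_lit 5) (nat_lit 482) (nat_lit 393) (nat_lit 265))) (XT.nd (nat_lit 78) (nat_lit 380) (nat_lit 0) (XT.lf (nat_lit 0) (nat_lit 9190632411) (nat_lit 304) (nat_lit 1872544321) (nat_lit 380) (nat_lit 4635904993) (nat_lit 121) (nat_lit 5) (nat_lit 125) (nat_lit 5) (nat_lit 126) (nat_lit 5) (nat_lit 483) (nat_lit 393) (nat_lit 264)) (XT.lf (nat_lit 0) (nat_lit 1427987235) (nat_lit 380) (nat_lit 12923277872) (nat_lit 456) (nat_lit 1554289898) (nat_lit 116) (nat_lit 5) (nat_lit 121) (nat_lit 5) (nat_lit 122) (nat_lit 5) (nat_lit 484) (nat_lit 393) (nat_lit 263)))) (XT.nd (nat_lit 156) (nat_lit 380) (nat_lit 0) (XT.nd (nat_lit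 78) (nat_lit 304) (nat_lit 0) (XT.lf (nat_lit 0) (nat_lit 1610270347) (nat_lit 456) (nat_lit 6548165756) (nat_lit 76) (nat_lit 7956678753) (nat_lit 115) (nat_lit 5) (nat_lit 121) (nat_lit 5) (nat_lit 116) (nat_lit 5) (nat_lit 485) (nat_lit 393) (nat_lit 262)) (XT.lf (nat_lit 0) (nat_lit 1528746454) (nat_lit 304) (nat_lit 3284574176) (nat_lit 380) (nat_lit 11515425935) (nat_lit 111) (nat_lit 5) (nat_lit 115) (nat_lit 5) (nat_lit 116) (nat_lit 5) (nat_lit 486) (nat_lit 393) (nat_lit 261))) (XT.nd (nat_lit 78) (nat_lit 380) (nat_lit 0) (XT.lf (nat_lit 0) (nat_lit 8121775874) (nat_lit 380) (nat_lit 6721990234) (nat_lit 76) (nat_lit 1702064148) (nat_lit 111) (nat_lit 5) (nat_lit 116) (nat_lit 5) (nat_lit 112) (nat_lit 5) (nat_lit 487) (nat_lit 393) (nat_lit 260)) (XT.lf (nat_lit 0) (nat_lit 1494909605) (nat_lit 380) (nat_lit 10019379801) (nat_lit 456) (nat_lit 5252614539) (nat_lit 106) (nat_lit 5) (nat_lit 111) (nat_lit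 5) (nat_lit 112) (nat_lit 5) (nat_lit 488) (nat_lit 393) (nat_lit 259))))))))
noncomputable def xc136 : XT := (XT.nd (nat_lit 2184) (nat_lit 912) (nat_lit 0) (XT.nd (nat_lit 1092) (nat_lit 1824) (nat_lit 0) (XT.nd (nat_lit 546) (nat_lit 912) (nat_lit 0) (XT.nd (nat_lit 234) (nat_lit 684) (nat_lit 0) (XT.nd (nat_lit 78) (nat_lit 380) (nat_lit 0) (XT.lf (nat_lit 0) (nat_lit 9946876720) (nat_lit 380) (nat_lit 5059449353) (nat_lit 456) (nat_lit 1985445566) (nat_lit 106) (nat_lit 5) (nat_lit 111) (nat_lit 5) (nat_lit 112) (nat_lit 5) (nat_lit 489) (nat_lit 393) (nat_lit 258)) (XT.nd (nat_lit 78) (nat_lit 0) (nat_lit 0) (XT.lf (nat_lit 0) (nat_lit 1324873292) (nat_lit 380) (nat_lit 15885785458) (nat_lit 76) (nat_lit 10399298) (nat_lit 101) (nat_lit 5) (nat_lit 106) (nat_lit 5) (nat_lit 102) (nat_lit 5) (nat_lit 490) (nat_lit 393) (nat_lit 257)) (XT.lf (nat_lit 0) (nat_lit 4742752930) (nat_lit 380) (nat_lit 7542675972)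 (nat_lit 76) (nat_lit 5167885658) (nat_lit 101) (nat_lit 5) (nat_lit 106) (nat_lit 5) (nat_lit 102) (nat_lit 5) (nat_lit 491) (nat_lit 393) (nat_lit 256)))) (XT.nd (nat_lit 156) (nat_lit 380) (nat_lit 0) (XT.nd (nat_lit 78) (nat_lit 0) (nat_lit 0) (XT.lf (nat_lit 0) (nat_lit 960021728) (nat_lit 304) (nat_lit 7262280306) (nat_lit 380) (nat_lit 9468053464) (nat_lit 97) (nat_lit 5) (nat_lit 101) (nat_lit 5) (nat_lit 102) (nat_lit 5) (nat_lit 492) (nat_lit 393) (nat_lit 255)) (XT.lf (nat_lit 0) (nat_lit 9715282198) (nat_lit 304) (nat_lit 2093979251) (nat_lit 380) (nat_lit 6122124841) (nat_lit 97) (nat_lit 5) (nat_lit 101) (nat_lit 5) (nat_lit 102) (nat_lit 5) (nat_lit 493) (nat_lit 393) (nat_lit 254))) (XT.nd (nat_lit 78) (nat_lit 76) (nat_lit 0) (XT.lf (nat_lit 0) (nat_lit 433910079) (nat_lit 304) (nat_lit 15044909606) (nat_lit 380) (nat_lit 2698206136) (nat_lit 93) (nat_lit 5) (nat_lit 97) (nat_lit 5) (nat_lit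 98) (nat_lit 5) (nat_lit 494) (nat_lit 393) (nat_lit 253)) (XT.lf (nat_lit 0) (nat_lit 840585625) (nat_lit 380) (nat_lit 9097170973) (nat_lit 76) (nat_lit 8488587313) (nat_lit 92) (nat_lit 5) (nat_lit 97) (nat_lit 5) (nat_lit 93) (nat_lit 5) (nat_lit 495) (nat_lit 393) (nat_lit 252))))) (XT.nd (nat_lit 234) (nat_lit 608) (nat_lit 0) (XT.nd (nat_lit 78) (nat_lit 304) (nat_lit 0) (XT.lf (nat_lit 0) (nat_lit 4401747933) (nat_lit 380) (nat_lit 315394409) (nat_lit 76) (nat_lit 13963399854) (nat_lit 92) (nat_lit 5) (nat_lit 97) (nat_lit 5) (nat_lit 93) (nat_lit 5) (nat_lit 496) (nat_lit 393) (nat_lit 251)) (XT.nd (nat_lit 78) (nat_lit 0) (nat_lit 0) (XT.lf (nat_lit 0) (nat_lit 8083074724) (nat_lit 380) (nat_lit 10205440825) (nat_lit 76) (nat_lit 650334986) (nat_lit 88) (nat_lit 5) (nat_lit 93) (nat_lit 5) (nat_lit 89) (nat_lit 5) (nat_lit 497) (nat_lit 393) (nat_lit 250)) (XT.lf (nat_lit 0) (nat_lit 11859400377) (nat_lit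 380) (nat_lit 1284988286) (nat_lit 76) (nat_lit 6057513746) (nat_lit 88) (nat_lit 5) (nat_lit 93) (nat_lit 5) (nat_lit 89) (nat_lit 5) (nat_lit 498) (nat_lit 393) (nat_lit 249)))) (XT.nd (nat_lit 156) (nat_lit 380) (nat_lit 0) (XT.nd (nat_lit 78) (nat_lit 0) (nat_lit 0) (XT.lf (nat_lit 0) (nat_lit 7898922648) (nat_lit 228) (nat_lit 7851852678) (nat_lit 304) (nat_lit 3718654259) (nat_lit 85) (nat_lit 5) (nat_lit 88) (nat_lit 5) (nat_lit 89) (nat_lit 5) (nat_lit 499) (nat_lit 393) (nat_lit 248)) (XT.lf (nat_lit 0) (nat_lit 17265505728) (nat_lit 228) (nat_lit 2451443742) (nat_lit 304) (nat_lit 25423029) (nat_lit 85) (nat_lit 5) (nat_lit 88) (nat_lit 5) (nat_lit 89) (nat_lit 5) (nat_lit 500) (nat_lit 393) (nat_lit 247))) (XT.nd (nat_lit 78) (nat_lit 0) (nat_lit 0) (XT.lf (nat_lit 0) (nat_lit 3745804957) (nat_lit 380) (nat_lit 13193975737) (nat_lit 76) (nat_lit 3079448060) (nat_lit 80) (nat_lit 5) (nat_lit 85) (nat_lit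 5) (nat_lit 81) (nat_lit 5) (nat_lit 501) (nat_lit 393) (nat_lit 246)) (XT.lf (nat_lit 0) (nat_lit 7613644853) (nat_lit 380) (nat_lit 3989102425) (nat_lit 76) (nat_lit 8698445301) (nat_lit 80) (nat_lit 5) (nat_lit 85) (nat_lit 5) (nat_lit 81) (nat_lit 5) (nat_lit 502) (nat_lit 393) (nat_lit 245)))))) (XT.nd (nat_lit 546) (nat_lit 988) (nat_lit 0) (XT.nd (nat_lit 234) (nat_lit 304) (nat_lit 0) (XT.nd (nat_lit 78) (nat_lit 304) (nat_lit 0) (XT.lf (nat_lit 0) (nat_lit 5453460753) (nat_lit 228) (nat_lit 6129574128) (nat_lit 304) (nat_lit 9005281209) (nat_lit 77) (nat_lit 5) (nat_lit 80) (nat_lit 5) (nat_lit 81) (nat_lit 5) (nat_lit 503) (nat_lit 393) (nat_lit 244)) (XT.nd (nat_lit 78) (nat_lit 304) (nat_lit 0) (XT.lf (nat_lit 0) (nat_lit 15121135777) (nat_lit 228) (nat_lit 526335993) (nat_lit 304) (nat_lit 5233401313) (nat_lit 77) (nat_lit 5) (nat_lit 80) (nat_lit 5) (nat_lit 81) (nat_lit 5) (nat_lit 504) (nat_lit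 393) (nat_lit 243)) (XT.lf (nat_lit 0) (nat_lit 3801406229) (nat_lit 304) (nat_lit 16039227890) (nat_lit 380) (nat_lit 1337702470) (nat_lit 73) (nat_lit 5) (nat_lit 77) (nat_lit 5) (nat_lit 78) (nat_lit 5) (nat_lit 505) (nat_lit 393) (nat_lit 242)))) (XT.nd (nat_lit 156) (nat_lit 0) (nat_lit 0) (XT.nd (nat_lit 78) (nat_lit 228) (nat_lit 0) (XT.lf (nat_lit 0) (nat_lit 2632822559) (nat_lit 380) (nat_lit 7887660305) (nat_lit 76) (nat_lit 10960298518) (nat_lit 72) (nat_lit 5) (nat_lit 77) (nat_lit 5) (nat_lit 73) (nat_lit 5) (nat_lit 506) (nat_lit 393) (nat_lit 241)) (XT.lf (nat_lit 0) (nat_lit 1788665816) (nat_lit 228) (nat_lit 4877114449) (nat_lit 304) (nat_lit 15123303154) (nat_lit 69) (nat_lit 5) (nat_lit 72) (nat_lit 5) (nat_lit 73) (nat_lit 5) (nat_lit 507) (nat_lit 393) (nat_lit 240))) (XT.nd (nat_lit 78) (nat_lit 0) (nat_lit 0) (XT.lf (nat_lit 0) (nat_lit 10827744901) (nat_lit 304) (nat_lit 10360501329) (nat_lit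 76) (nat_lit 914342107) (nat_lit 69) (nat_lit 5) (nat_lit 73) (nat_lit 5) (nat_lit 70) (nat_lit 5) (nat_lit 508) (nat_lit 393) (nat_lit 239)) (XT.lf (nat_lit 0) (nat_lit 15094815301) (nat_lit 304) (nat_lit 577132401) (nat_lit 76) (nat_lit 6749982044) (nat_lit 69) (nat_lit 5) (nat_lit 73) (nat_lit 5) (nat_lit 70) (nat_lit 5) (nat_lit 509) (nat_lit 393) (nat_lit 238))))) (XT.nd (nat_lit 234) (nat_lit 456) (nat_lit 0) (XT.nd (nat_lit 78) (nat_lit 304) (nat_lit 0) (XT.lf (nat_lit 0) (nat_lit 9509915507) (nat_lit 228) (nat_lit 9988828535) (nat_lit 304) (nat_lit 3247887253) (nat_lit 66) (nat_lit 5) (nat_lit 69) (nat_lit 5) (nat_lit 70) (nat_lit 5) (nat_lit 510) (nat_lit 393) (nat_lit 237)) (XT.nd (nat_lit 78) (nat_lit 228) (nat_lit 0) (XT.lf (nat_lit 0) (nat_lit 894644178) (nat_lit 304) (nat_lit 3293916653) (nat_lit 76) (nat_lit 18889277149) (nat_lit 65) (nat_lit 5) (nat_lit 69) (nat_lit 5) (nat_lit 66) (nat_lit 5)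 (nat_lit 511) (nat_lit 393) (nat_lit 236)) (XT.lf (nat_lit 0) (nat_lit 5122988555) (nat_lit 304) (nat_lit 16525846543) (nat_lit 76) (nat_lit 1765478737) (nat_lit 62) (nat_lit 5) (nat_lit 66) (nat_lit 5) (nat_lit 63) (nat_lit 5) (nat_lit 512) (nat_lit 393) (nat_lit 235)))) (XT.nd (nat_lit 156) (nat_lit 228) (nat_lit 0) (XT.nd (nat_lit 78) (nat_lit 228) (nat_lit 0) (XT.lf (nat_lit 0) (nat_lit 9475932224) (nat_lit 304) (nat_lit 6482279263) (nat_lit 76) (nat_lit 7798510443) (nat_lit 62) (nat_lit 5) (nat_lit 66) (nat_lit 5) (nat_lit 63) (nat_lit 5) (nat_lit 513) (nat_lit 393) (nat_lit 234)) (XT.lf (nat_lit 0) (nat_lit 3795799044) (nat_lit 228) (nat_lit 10135019091) (nat_lit 304) (nat_lit 10174865691) (nat_lit 59) (nat_lit 5) (nat_lit 62) (nat_lit 5) (nat_lit 63) (nat_lit 5) (nat_lit 514) (nat_lit 393) (nat_lit 233))) (XT.nd (nat_lit 78) (nat_lit 228) (nat_lit 0) (XT.lf (nat_lit 0) (nat_lit 14351271218) (nat_lit 228)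 (nat_lit 4157355854) (nat_lit 304) (nat_lit 5952324620) (nat_lit 59) (nat_lit 5) (nat_lit 62) (nat_lit 5) (nat_lit 63) (nat_lit 5) (nat_lit 515) (nat_lit 393) (nat_lit 232)) (XT.lf (nat_lit 0) (nat_lit 269594210) (nat_lit 228) (nat_lit 22913218220) (nat_lit 304) (nat_lit 1640419259) (nat_lit 56) (nat_lit 5) (nat_lit 59) (nat_lit 5) (nat_lit 60) (nat_lit 5) (nat_lit 516) (nat_lit 393) (nat_lit 231))))))) (XT.nd (nat_lit 50076) (nat_lit 0) (nat_lit 36252) (XT.nd (nat_lit 546) (nat_lit 380) (nat_lit 0) (XT.nd (nat_lit 234) (nat_lit 228) (nat_lit 0) (XT.nd (nat_lit 78) (nat_lit 228) (nat_lit 0) (XT.lf (nat_lit 0) (nat_lit 2807872648) (nat_lit 304) (nat_lit 14259692677) (nat_lit 76) (nat_lit 8123110586) (nat_lit 55) (nat_lit 5) (nat_lit 59) (nat_lit 5) (nat_lit 56) (nat_lit 5) (nat_lit 517) (nat_lit 393) (nat_lit 230)) (XT.nd (nat_lit 78) (nat_lit 228) (nat_lit 0) (XT.lf (nat_lit 0) (nat_lit 7313865883) (nat_lit 304)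 (nat_lit 3786320496) (nat_lit 76) (nat_lit 14465254753) (nat_lit 55) (nat_lit 5) (nat_lit 59) (nat_lit 5) (nat_lit 56) (nat_lit 5) (nat_lit 518) (nat_lit 393) (nat_lit 229)) (XT.lf (nat_lit 0) (nat_lit 6972684973) (nat_lit 228) (nat_lit 4973428217) (nat_lit 304) (nat_lit 14000868719) (nat_lit 52) (nat_lit 5) (nat_lit 55) (nat_lit 5) (nat_lit 56) (nat_lit 5) (nat_lit 519) (nat_lit 393) (nat_lit 228)))) (XT.nd (nat_lit 156) (nat_lit 76) (nat_lit 0) (XT.nd (nat_lit 78) (nat_lit 152) (nat_lit 0) (XT.lf (nat_lit 0) (nat_lit 16695769410) (nat_lit 304) (nat_lit 8361228112) (nat_lit 76) (nat_lit 1278663577) (nat_lit 52) (nat_lit 5) (nat_lit 56) (nat_lit 5) (nat_lit 53) (nat_lit 5) (nat_lit 520) (nat_lit 393) (nat_lit 227)) (XT.lf (nat_lit 0) (nat_lit 2448249344) (nat_lit 152) (nat_lit 19132083770) (nat_lit 228) (nat_lit 5150985294) (nat_lit 50) (nat_lit 5) (nat_lit 52) (nat_lit 5) (nat_lit 53) (nat_lit 5) (nat_lit 521)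 (nat_lit 393) (nat_lit 226))) (XT.nd (nat_lit 78) (nat_lit 76) (nat_lit 0) (XT.lf (nat_lit 0) (nat_lit 13572328487) (nat_lit 152) (nat_lit 13037527887) (nat_lit 228) (nat_lit 524089889) (nat_lit 50) (nat_lit 5) (nat_lit 52) (nat_lit 5) (nat_lit 53) (nat_lit 5) (nat_lit 522) (nat_lit 393) (nat_lit 225)) (XT.lf (nat_lit 0) (nat_lit 4131594041) (nat_lit 228) (nat_lit 2667728880) (nat_lit 76) (nat_lit 20744936166) (nat_lit 49) (nat_lit 5) (nat_lit 52) (nat_lit 5) (nat_lit 50) (nat_lit 5) (nat_lit 523) (nat_lit 393) (nat_lit 224))))) (XT.nd (nat_lit 49218) (nat_lit 0) (nat_lit 39292) (XT.nd (nat_lit 78) (nat_lit 152) (nat_lit 0) (XT.lf (nat_lit 0) (nat_lit 8538082281) (nat_lit 228) (nat_lit 382177672) (nat_lit 304) (nat_lit 19041513820) (nat_lit 46) (nat_lit 5) (nat_lit 49) (nat_lit 5) (nat_lit 50) (nat_lit 5) (nat_lit 524) (nat_lit 393) (nat_lit 223)) (XT.nd (nat_lit 78) (nat_lit 152) (nat_lit 0) (XT.lf (nat_lit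 0) (nat_lit 13854216565) (nat_lit 304) (nat_lit 8437746142) (nat_lit 76) (nat_lit 6094688252) (nat_lit 46) (nat_lit 5) (nat_lit 50) (nat_lit 5) (nat_lit 47) (nat_lit 5) (nat_lit 525) (nat_lit 393) (nat_lit 222)) (XT.lf (nat_lit 0) (nat_lit 2787731078) (nat_lit 152) (nat_lit 16111399713) (nat_lit 228) (nat_lit 9920651833) (nat_lit 44) (nat_lit 5) (nat_lit 46) (nat_lit 5) (nat_lit 47) (nat_lit 5) (nat_lit 526) (nat_lit 393) (nat_lit 221)))) (XT.nd (nat_lit 156) (nat_lit 912) (nat_lit 0) (XT.nd (nat_lit 78) (nat_lit 0) (nat_lit 0) (XT.lf (nat_lit 0) (nat_lit 707311143) (nat_lit 0) (nat_lit 707311143) (nat_lit 836) (nat_lit 1997900963) (nat_lit 573) (nat_lit 5) (nat_lit 573) (nat_lit 3) (nat_lit 584) (nat_lit 3) (nat_lit 394) (nat_lit 394) (nat_lit 352)) (XT.lf (nat_lit 0) (nat_lit 4610326557) (nat_lit 0) (nat_lit 158814967) (nat_lit 836) (nat_lit 2083826205) (nat_lit 573) (nat_lit 5) (nat_lit 573) (nat_lit 3) (nat_lit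 584) (nat_lit 3) (nat_lit 395) (nat_lit 394) (nat_lit 351))) (XT.nd (nat_lit 78) (nat_lit 912) (nat_lit 0) (XT.lf (nat_lit 76) (nat_lit 967610779) (nat_lit 0) (nat_lit 5743814184) (nat_lit 912) (nat_lit 170805660) (nat_lit 574) (nat_lit 5) (nat_lit 573) (nat_lit 5) (nat_lit 585) (nat_lit 5) (nat_lit 396) (nat_lit 394) (nat_lit 350)) (XT.lf (nat_lit 0) (nat_lit 1723777029) (nat_lit 912) (nat_lit 2678851902) (nat_lit 988) (nat_lit 2509938455) (nat_lit 561) (nat_lit 5) (nat_lit 573) (nat_lit 5) (nat_lit 574) (nat_lit 5) (nat_lit 397) (nat_lit 394) (nat_lit 349)))))) (XT.nd (nat_lit 546) (nat_lit 1064) (nat_lit 0) (XT.nd (nat_lit 234) (nat_lit 988) (nat_lit 0) (XT.nd (nat_lit 78) (nat_lit 988) (nat_lit 0) (XT.lf (nat_lit 76) (nat_lit 602092840) (nat_lit 0) (nat_lit 3007206559) (nat_lit 988) (nat_lit 3335134041) (nat_lit 562) (nat_lit 5) (nat_lit 561) (nat_lit 5) (nat_lit 574) (nat_lit 5) (nat_lit 398) (nat_lit 394)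 (nat_lit 348)) (XT.nd (nat_lit 78) (nat_lit 988) (nat_lit 0) (XT.lf (nat_lit 76) (nat_lit 3958838121) (nat_lit 0) (nat_lit 1543877206) (nat_lit 988) (nat_lit 1474868644) (nat_lit 562) (nat_lit 5) (nat_lit 561) (nat_lit 5) (nat_lit 574) (nat_lit 5) (nat_lit 399) (nat_lit 394) (nat_lit 347)) (XT.lf (nat_lit 76) (nat_lit 346830885) (nat_lit 0) (nat_lit 25264784) (nat_lit 1064) (nat_lit 6640195091) (nat_lit 549) (nat_lit 5) (nat_lit 548) (nat_lit 5) (nat_lit 562) (nat_lit 5) (nat_lit 400) (nat_lit 394) (nat_lit 346)))) (XT.nd (nat_lit 156) (nat_lit 1064) (nat_lit 0) (XT.nd (nat_lit 78) (nat_lit 0) (nat_lit 0) (XT.lf (nat_lit 0) (nat_lit 2220226266) (nat_lit 988) (nat_lit 3273672966) (nat_lit 1064) (nat_lit 1553965855) (nat_lit 549) (nat_lit 5) (nat_lit 562) (nat_lit 5) (nat_lit 563) (nat_lit 5) (nat_lit 401) (nat_lit 394) (nat_lit 345)) (XT.lf (nat_lit 76) (nat_lit 161199488) (nat_lit 0) (nat_lit 3899914799) (nat_lit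 1064) (nat_lit 3023967667) (nat_lit 550) (nat_lit 5) (nat_lit 549) (nat_lit 5) (nat_lit 563) (nat_lit 5) (nat_lit 402) (nat_lit 394) (nat_lit 344))) (XT.nd (nat_lit 78) (nat_lit 1064) (nat_lit 0) (XT.lf (nat_lit 76) (nat_lit 3682623489) (nat_lit 0) (nat_lit 2233463904) (nat_lit 1064) (nat_lit 1207456446) (nat_lit 550) (nat_lit 5) (nat_lit 549) (nat_lit 5) (nat_lit 563) (nat_lit 5) (nat_lit 403) (nat_lit 394) (nat_lit 343)) (XT.lf (nat_lit 76) (nat_lit 81953104) (nat_lit 0) (nat_lit 511340629) (nat_lit 1140) (nat_lit 6570314205) (nat_lit 536) (nat_lit 5) (nat_lit 535) (nat_lit 5) (nat_lit 550) (nat_lit 5) (nat_lit 404) (nat_lit 394) (nat_lit 342))))) (XT.nd (nat_lit 234) (nat_lit 1140) (nat_lit 0) (XT.nd (nat_lit 78) (nat_lit 0) (nat_lit 0) (XT.lf (nat_lit 0) (nat_lit 2401879811) (nat_lit 1064) (nat_lit 3525799394) (nat_lit 1140) (nat_lit 1276918087) (nat_lit 536) (nat_lit 5) (nat_lit 550) (nat_lit 5) (nat_lit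 551) (nat_lit 5) (nat_lit 405) (nat_lit 394) (nat_lit 341)) (XT.nd (nat_lit 78) (nat_lit 0) (nat_lit 0) (XT.lf (nat_lit 76) (nat_lit 71786771) (nat_lit 0) (nat_lit 4136198868) (nat_lit 1140) (nat_lit 3039236357) (nat_lit 537) (nat_lit 5) (nat_lit 536) (nat_lit 5) (nat_lit 551) (nat_lit 5) (nat_lit 406) (nat_lit 394) (nat_lit 340)) (XT.lf (nat_lit 76) (nat_lit 3762353527) (nat_lit 0) (nat_lit 2269675256) (nat_lit 1140) (nat_lit 1259075798) (nat_lit 537) (nat_lit 5) (nat_lit 536) (nat_lit 5) (nat_lit 551) (nat_lit 5) (nat_lit 407) (nat_lit 394) (nat_lit 339)))) (XT.nd (nat_lit 156) (nat_lit 0) (nat_lit 76) (XT.nd (nat_lit 78) (nat_lit 0) (nat_lit 76) (XT.lf (nat_lit 76) (nat_lit 162555466) (nat_lit 0) (nat_lit 346550554) (nat_lit 1216) (nat_lit 6827532197) (nat_lit 522) (nat_lit 5) (nat_lit 521) (nat_lit 5) (nat_lit 537) (nat_lit 5) (nat_lit 408) (nat_lit 394) (nat_lit 338)) (XT.lf (nat_lit 0) (nat_lit 2289523060)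 (nat_lit 1140) (nat_lit 3453665469) (nat_lit 1216) (nat_lit 1639892221) (nat_lit 522) (nat_lit 5) (nat_lit 537) (nat_lit 5) (nat_lit 538) (nat_lit 5) (nat_lit 409) (nat_lit 394) (nat_lit 337))) (XT.nd (nat_lit 78) (nat_lit 0) (nat_lit 0) (XT.lf (nat_lit 76) (nat_lit 315953173) (nat_lit 0) (nat_lit 3754130273) (nat_lit 1216) (nat_lit 3361116502) (nat_lit 523) (nat_lit 5) (nat_lit 522) (nat_lit 5) (nat_lit 538) (nat_lit 5) (nat_lit 410) (nat_lit 394) (nat_lit 336)) (XT.lf (nat_lit 76) (nat_lit 4180901801) (nat_lit 0) (nat_lit 1689323852) (nat_lit 1216) (nat_lit 1610414224) (nat_lit 523) (nat_lit 5) (nat_lit 522) (nat_lit 5) (nat_lit 538) (nat_lit 5) (nat_lit 411) (nat_lit 394) (nat_lit 335))))))))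
noncomputable def xc137 : XT := (XT.nd (nat_lit 2184) (nat_lit 9576) (nat_lit 0) (XT.nd (nat_lit 1092) (nat_lit 8892) (nat_lit 0) (XT.nd (nat_lit 546) (nat_lit 4408) (nat_lit 0) (XT.nd (nat_lit 234) (nat_lit 2508) (nat_lit 0) (XT.nd (nat_lit 78) (nat_lit 0) (nat_lit 0) (XT.lf (nat_lit 0) (nat_lit 140801023) (nat_lit 1216) (nat_lit 6963060631) (nat_lit 1292) (nat_lit 427864522) (nat_lit 507) (nat_lit 5) (nat_lit 523) (nat_lit 5) (nat_lit 524) (nat_lit 5) (nat_lit 412) (nat_lit 394) (nat_lit 334)) (XT.nd (nat_lit 78) (nat_lit 0) (nat_lit 0) (XT.lf (nat_lit 0) (nat_lit 1900906813) (nat_lit 1216) (nat_lit 3073821735) (nat_lit 1292) (nat_lit 2609019743) (nat_lit 507) (nat_lit 5) (nat_lit 523) (nat_lit 5) (nat_lit 524) (nat_lit 5) (nat_lit 413) (nat_lit 394) (nat_lit 333)) (XT.lf (nat_lit 76) (nat_lit 877656440) (nat_lit 0) (nat_lit 2786935359) (nat_lit 1292) (nat_lit 3972886390) (nat_lit 508) (nat_lit 5) (nat_lit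 507) (nat_lit 5) (nat_lit 524) (nat_lit 5) (nat_lit 414) (nat_lit 394) (nat_lit 332)))) (XT.nd (nat_lit 156) (nat_lit 1368) (nat_lit 0) (XT.nd (nat_lit 78) (nat_lit 1140) (nat_lit 0) (XT.lf (nat_lit 76) (nat_lit 4922952523) (nat_lit 0) (nat_lit 524460958) (nat_lit 1292) (nat_lit 2245226147) (nat_lit 508) (nat_lit 5) (nat_lit 507) (nat_lit 5) (nat_lit 524) (nat_lit 5) (nat_lit 415) (nat_lit 394) (nat_lit 331)) (XT.lf (nat_lit 0) (nat_lit 1278268410) (nat_lit 1216) (nat_lit 5971520499) (nat_lit 1292) (nat_lit 499470969) (nat_lit 492) (nat_lit 5) (nat_lit 508) (nat_lit 5) (nat_lit 509) (nat_lit 5) (nat_lit 416) (nat_lit 394) (nat_lit 330))) (XT.nd (nat_lit 78) (nat_lit 1292) (nat_lit 0) (XT.lf (nat_lit 0) (nat_lit 1250861421) (nat_lit 1292) (nat_lit 2401325237) (nat_lit 76) (nat_lit 4154962429) (nat_lit 491) (nat_lit 5) (nat_lit 508) (nat_lit 5) (nat_lit 492) (nat_lit 5) (nat_lit 417) (nat_lit 394) (nat_lit 329))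 (XT.lf (nat_lit 0) (nat_lit 1742319986) (nat_lit 1292) (nat_lit 1263494313) (nat_lit 1368) (nat_lit 4860821312) (nat_lit 474) (nat_lit 5) (nat_lit 491) (nat_lit 5) (nat_lit 492) (nat_lit 5) (nat_lit 418) (nat_lit 394) (nat_lit 328))))) (XT.nd (nat_lit 234) (nat_lit 2964) (nat_lit 0) (XT.nd (nat_lit 78) (nat_lit 1444) (nat_lit 0) (XT.lf (nat_lit 0) (nat_lit 4785248905) (nat_lit 1368) (nat_lit 1960874573) (nat_lit 76) (nat_lit 1181431709) (nat_lit 474) (nat_lit 5) (nat_lit 492) (nat_lit 5) (nat_lit 475) (nat_lit 5) (nat_lit 419) (nat_lit 394) (nat_lit 327)) (XT.nd (nat_lit 78) (nat_lit 76) (nat_lit 0) (XT.lf (nat_lit 0) (nat_lit 2280364121) (nat_lit 1368) (nat_lit 4309302884) (nat_lit 1444) (nat_lit 1400268624) (nat_lit 456) (nat_lit 5) (nat_lit 474) (nat_lit 5) (nat_lit 475) (nat_lit 5) (nat_lit 420) (nat_lit 394) (nat_lit 326)) (XT.lf (nat_lit 0) (nat_lit 351376031) (nat_lit 1444) (nat_lit 1450133359) (nat_lit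 76) (nat_lit 6252440464) (nat_lit 455) (nat_lit 5) (nat_lit 474) (nat_lit 5) (nat_lit 456) (nat_lit 5) (nat_lit 421) (nat_lit 394) (nat_lit 325)))) (XT.nd (nat_lit 156) (nat_lit 1520) (nat_lit 0) (XT.nd (nat_lit 78) (nat_lit 0) (nat_lit 0) (XT.lf (nat_lit 0) (nat_lit 2110381571) (nat_lit 1520) (nat_lit 5228071281) (nat_lit 76) (nat_lit 780813461) (nat_lit 436) (nat_lit 5) (nat_lit 456) (nat_lit 5) (nat_lit 437) (nat_lit 5) (nat_lit 422) (nat_lit 394) (nat_lit 324)) (XT.lf (nat_lit 0) (nat_lit 3893920723) (nat_lit 1520) (nat_lit 885993201) (nat_lit 76) (nat_lit 3406216164) (nat_lit 436) (nat_lit 5) (nat_lit 456) (nat_lit 5) (nat_lit 437) (nat_lit 5) (nat_lit 423) (nat_lit 394) (nat_lit 323))) (XT.nd (nat_lit 78) (nat_lit 0) (nat_lit 0) (XT.lf (nat_lit 0) (nat_lit 3562879060) (nat_lit 1520) (nat_lit 2141646301) (nat_lit 1596) (nat_lit 2550005389) (nat_lit 416) (nat_lit 5) (nat_lit 436) (nat_lit 5) (nat_lit 437)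 (nat_lit 5) (nat_lit 424) (nat_lit 394) (nat_lit 322)) (XT.lf (nat_lit 0) (nat_lit 7529636117) (nat_lit 1596) (nat_lit 242330440) (nat_lit 76) (nat_lit 552793954) (nat_lit 416) (nat_lit 5) (nat_lit 437) (nat_lit 5) (nat_lit 417) (nat_lit 5) (nat_lit 425) (nat_lit 394) (nat_lit 321)))))) (XT.nd (nat_lit 546) (nat_lit 3344) (nat_lit 0) (XT.nd (nat_lit 234) (nat_lit 2204) (nat_lit 0) (XT.nd (nat_lit 78) (nat_lit 1672) (nat_lit 0) (XT.lf (nat_lit 0) (nat_lit 993388710) (nat_lit 1672) (nat_lit 4091131899) (nat_lit 76) (nat_lit 3311539349) (nat_lit 394) (nat_lit 5) (nat_lit 416) (nat_lit 5) (nat_lit 395) (nat_lit 5) (nat_lit 426) (nat_lit 394) (nat_lit 320)) (XT.nd (nat_lit 78) (nat_lit 0) (nat_lit 0) (XT.lf (nat_lit 0) (nat_lit 451304898) (nat_lit 1672) (nat_lit 2329855280) (nat_lit 1748) (nat_lit 5688062816) (nat_lit 372) (nat_lit 5) (nat_lit 394) (nat_lit 5) (nat_lit 395) (nat_lit 5) (nat_lit 427) (nat_lit 394)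 (nat_lit 319)) (XT.lf (nat_lit 0) (nat_lit 4605439646) (nat_lit 1748) (nat_lit 3434020755) (nat_lit 76) (nat_lit 504398750) (nat_lit 372) (nat_lit 5) (nat_lit 395) (nat_lit 5) (nat_lit 373) (nat_lit 5) (nat_lit 428) (nat_lit 394) (nat_lit 318)))) (XT.nd (nat_lit 156) (nat_lit 912) (nat_lit 0) (XT.nd (nat_lit 78) (nat_lit 0) (nat_lit 0) (XT.lf (nat_lit 0) (nat_lit 1215130628) (nat_lit 1292) (nat_lit 5244982483) (nat_lit 1368) (nat_lit 2160021177) (nat_lit 355) (nat_lit 5) (nat_lit 372) (nat_lit 5) (nat_lit 373) (nat_lit 5) (nat_lit 429) (nat_lit 394) (nat_lit 317)) (XT.lf (nat_lit 0) (nat_lit 5977060218) (nat_lit 1292) (nat_lit 2368856358) (nat_lit 1368) (nat_lit 352161568) (nat_lit 355) (nat_lit 5) (nat_lit 372) (nat_lit 5) (nat_lit 373) (nat_lit 5) (nat_lit 430) (nat_lit 394) (nat_lit 316))) (XT.nd (nat_lit 78) (nat_lit 0) (nat_lit 0) (XT.lf (nat_lit 0) (nat_lit 1460762904) (nat_lit 912) (nat_lit 6734372161)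 (nat_lit 76) (nat_lit 582505631) (nat_lit 343) (nat_lit 5) (nat_lit 355) (nat_lit 5) (nat_lit 344) (nat_lit 5) (nat_lit 431) (nat_lit 394) (nat_lit 315)) (XT.lf (nat_lit 0) (nat_lit 3311054413) (nat_lit 912) (nat_lit 1963902690) (nat_lit 76) (nat_lit 3583696927) (nat_lit 343) (nat_lit 5) (nat_lit 355) (nat_lit 5) (nat_lit 344) (nat_lit 5) (nat_lit 432) (nat_lit 394) (nat_lit 314))))) (XT.nd (nat_lit 234) (nat_lit 1672) (nat_lit 0) (XT.nd (nat_lit 78) (nat_lit 836) (nat_lit 0) (XT.lf (nat_lit 0) (nat_lit 2913662605) (nat_lit 836) (nat_lit 2275911875) (nat_lit 912) (nat_lit 3751910816) (nat_lit 332) (nat_lit 5) (nat_lit 343) (nat_lit 5) (nat_lit 344) (nat_lit 5) (nat_lit 433) (nat_lit 394) (nat_lit 313)) (XT.nd (nat_lit 78) (nat_lit 836) (nat_lit 0) (XT.lf (nat_lit 0) (nat_lit 7096699082) (nat_lit 912) (nat_lit 1142407664) (nat_lit 76) (nat_lit 787067449) (nat_lit 332) (nat_lit 5) (nat_lit 344) (nat_lit 5) (nat_lit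 333) (nat_lit 5) (nat_lit 434) (nat_lit 394) (nat_lit 312)) (XT.lf (nat_lit 0) (nat_lit 3849734636) (nat_lit 836) (nat_lit 5205517988) (nat_lit 912) (nat_lit 57059781) (nat_lit 321) (nat_lit 5) (nat_lit 332) (nat_lit 5) (nat_lit 333) (nat_lit 5) (nat_lit 435) (nat_lit 394) (nat_lit 311)))) (XT.nd (nat_lit 156) (nat_lit 760) (nat_lit 0) (XT.nd (nat_lit 78) (nat_lit 836) (nat_lit 0) (XT.lf (nat_lit 0) (nat_lit 1809599346) (nat_lit 912) (nat_lit 281494313) (nat_lit 76) (nat_lit 7109237658) (nat_lit 320) (nat_lit 5) (nat_lit 332) (nat_lit 5) (nat_lit 321) (nat_lit 5) (nat_lit 436) (nat_lit 394) (nat_lit 310)) (XT.lf (nat_lit 0) (nat_lit 3725387605) (nat_lit 912) (nat_lit 4461093617) (nat_lit 76) (nat_lit 1103390679) (nat_lit 309) (nat_lit 5) (nat_lit 321) (nat_lit 5) (nat_lit 310) (nat_lit 5) (nat_lit 437) (nat_lit 394) (nat_lit 309))) (XT.nd (nat_lit 78) (nat_lit 0) (nat_lit 0) (XT.lf (nat_lit 0) (nat_lit 631893181)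 (nat_lit 760) (nat_lit 5041693898) (nat_lit 836) (nat_lit 3707753952) (nat_lit 299) (nat_lit 5) (nat_lit 309) (nat_lit 5) (nat_lit 310) (nat_lit 5) (nat_lit 438) (nat_lit 394) (nat_lit 308)) (XT.lf (nat_lit 0) (nat_lit 5860945014) (nat_lit 760) (nat_lit 1804319311) (nat_lit 836) (nat_lit 1809304202) (nat_lit 299) (nat_lit 5) (nat_lit 309) (nat_lit 5) (nat_lit 310) (nat_lit 5) (nat_lit 439) (nat_lit 394) (nat_lit 307))))))) (XT.nd (nat_lit 1092) (nat_lit 3952) (nat_lit 0) (XT.nd (nat_lit 546) (nat_lit 2584) (nat_lit 0) (XT.nd (nat_lit 234) (nat_lit 1520) (nat_lit 0) (XT.nd (nat_lit 78) (nat_lit 684) (nat_lit 0) (XT.lf (nat_lit 0) (nat_lit 120646135) (nat_lit 836) (nat_lit 7960522554) (nat_lit 76) (nat_lit 1488589914) (nat_lit 288) (nat_lit 5) (nat_lit 299) (nat_lit 5) (nat_lit 289) (nat_lit 5) (nat_lit 440) (nat_lit 394) (nat_lit 306)) (XT.nd (nat_lit 78) (nat_lit 684) (nat_lit 0) (XT.lf (nat_lit 0) (nat_lit 2076559359)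 (nat_lit 836) (nat_lit 2731360745) (nat_lit 76) (nat_lit 4858479524) (nat_lit 288) (nat_lit 5) (nat_lit 299) (nat_lit 5) (nat_lit 289) (nat_lit 5) (nat_lit 441) (nat_lit 394) (nat_lit 305)) (XT.lf (nat_lit 0) (nat_lit 2610704751) (nat_lit 684) (nat_lit 1453531403) (nat_lit 760) (nat_lit 5700902207) (nat_lit 279) (nat_lit 5) (nat_lit 288) (nat_lit 5) (nat_lit 289) (nat_lit 5) (nat_lit 442) (nat_lit 394) (nat_lit 304)))) (XT.nd (nat_lit 156) (nat_lit 760) (nat_lit 0) (XT.nd (nat_lit 78) (nat_lit 760) (nat_lit 0) (XT.lf (nat_lit 0) (nat_lit 6098886829) (nat_lit 760) (nat_lit 1807982870) (nat_lit 76) (nat_lit 1958855204) (nat_lit 279) (nat_lit 5) (nat_lit 289) (nat_lit 5) (nat_lit 280) (nat_lit 5) (nat_lit 443) (nat_lit 394) (nat_lit 303)) (XT.lf (nat_lit 0) (nat_lit 3658026063) (nat_lit 760) (nat_lit 4526044437) (nat_lit 836) (nat_lit 1784072979) (nat_lit 269) (nat_lit 5) (nat_lit 279) (nat_lit 5) (nat_lit 280)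 (nat_lit 5) (nat_lit 444) (nat_lit 394) (nat_lit 302))) (XT.nd (nat_lit 78) (nat_lit 684) (nat_lit 0) (XT.lf (nat_lit 0) (nat_lit 224023073) (nat_lit 836) (nat_lit 842011574) (nat_lit 76) (nat_lit 9006785233) (nat_lit 268) (nat_lit 5) (nat_lit 279) (nat_lit 5) (nat_lit 269) (nat_lit 5) (nat_lit 445) (nat_lit 394) (nat_lit 301)) (XT.lf (nat_lit 0) (nat_lit 2272631921) (nat_lit 760) (nat_lit 5434762786) (nat_lit 76) (nat_lit 2471490570) (nat_lit 259) (nat_lit 5) (nat_lit 269) (nat_lit 5) (nat_lit 260) (nat_lit 5) (nat_lit 446) (nat_lit 394) (nat_lit 300))))) (XT.nd (nat_lit 234) (nat_lit 1292) (nat_lit 0) (XT.nd (nat_lit 78) (nat_lit 608) (nat_lit 0) (XT.lf (nat_lit 0) (nat_lit 135456142) (nat_lit 684) (nat_lit 4217701586) (nat_lit 760) (nat_lit 5934111156) (nat_lit 250) (nat_lit 5) (nat_lit 259) (nat_lit 5) (nat_lit 260) (nat_lit 5) (nat_lit 447) (nat_lit 394) (nat_lit 299)) (XT.nd (nat_lit 78) (nat_lit 608) (nat_lit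 0) (XT.lf (nat_lit 0) (nat_lit 5865260798) (nat_lit 684) (nat_lit 624100357) (nat_lit 760) (nat_lit 3908193156) (nat_lit 250) (nat_lit 5) (nat_lit 259) (nat_lit 5) (nat_lit 260) (nat_lit 5) (nat_lit 448) (nat_lit 394) (nat_lit 298)) (XT.lf (nat_lit 0) (nat_lit 1169788128) (nat_lit 608) (nat_lit 7503858792) (nat_lit 684) (nat_lit 1836306547) (nat_lit 242) (nat_lit 5) (nat_lit 250) (nat_lit 5) (nat_lit 251) (nat_lit 5) (nat_lit 449) (nat_lit 394) (nat_lit 297)))) (XT.nd (nat_lit 156) (nat_lit 608) (nat_lit 0) (XT.nd (nat_lit 78) (nat_lit 608) (nat_lit 0) (XT.lf (nat_lit 0) (nat_lit 286258441) (nat_lit 684) (nat_lit 3608338989) (nat_lit 76) (nat_lit 6729724322) (nat_lit 241) (nat_lit 5) (nat_lit 250) (nat_lit 5) (nat_lit 242) (nat_lit 5) (nat_lit 450) (nat_lit 394) (nat_lit 296)) (XT.lf (nat_lit 0) (nat_lit 2230151575) (nat_lit 608) (nat_lit 189591714) (nat_lit 684) (nat_lit 8321144532) (nat_lit 233) (nat_lit 5)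 (nat_lit 241) (nat_lit 5) (nat_lit 242) (nat_lit 5) (nat_lit 451) (nat_lit 394) (nat_lit 295))) (XT.nd (nat_lit 78) (nat_lit 608) (nat_lit 0) (XT.lf (nat_lit 0) (nat_lit 4622366442) (nat_lit 684) (nat_lit 2673751865) (nat_lit 76) (nat_lit 3563151560) (nat_lit 233) (nat_lit 5) (nat_lit 242) (nat_lit 5) (nat_lit 234) (nat_lit 5) (nat_lit 452) (nat_lit 394) (nat_lit 294)) (XT.lf (nat_lit 0) (nat_lit 3297146550) (nat_lit 608) (nat_lit 3573763138) (nat_lit 684) (nat_lit 4109086267) (nat_lit 225) (nat_lit 5) (nat_lit 233) (nat_lit 5) (nat_lit 234) (nat_lit 5) (nat_lit 453) (nat_lit 394) (nat_lit 293)))))) (XT.nd (nat_lit 546) (nat_lit 1596) (nat_lit 0) (XT.nd (nat_lit 234) (nat_lit 1672) (nat_lit 0) (XT.nd (nat_lit 78) (nat_lit 684) (nat_lit 0) (XT.lf (nat_lit 0) (nat_lit 9163358894) (nat_lit 684) (nat_lit 1705685624) (nat_lit 76) (nat_lit 234126829) (nat_lit 225) (nat_lit 5) (nat_lit 234) (nat_lit 5) (nat_lit 226)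 (nat_lit 5) (nat_lit 454) (nat_lit 394) (nat_lit 292)) (XT.nd (nat_lit 78) (nat_lit 0) (nat_lit 0) (XT.lf (nat_lit 0) (nat_lit 301535350) (nat_lit 684) (nat_lit 6829654458) (nat_lit 76) (nat_lit 4096952630) (nat_lit 216) (nat_lit 5) (nat_lit 225) (nat_lit 5) (nat_lit 217) (nat_lit 5) (nat_lit 455) (nat_lit 394) (nat_lit 291)) (XT.lf (nat_lit 0) (nat_lit 2553203753) (nat_lit 684) (nat_lit 745114364) (nat_lit 76) (nat_lit 8057221742) (nat_lit 216) (nat_lit 5) (nat_lit 225) (nat_lit 5) (nat_lit 217) (nat_lit 5) (nat_lit 456) (nat_lit 394) (nat_lit 290)))) (XT.nd (nat_lit 156) (nat_lit 608) (nat_lit 0) (XT.nd (nat_lit 78) (nat_lit 532) (nat_lit 0) (XT.lf (nat_lit 0) (nat_lit 4870166087) (nat_lit 608) (nat_lit 5980171956) (nat_lit 76) (nat_lit 634754432) (nat_lit 209) (nat_lit 5) (nat_lit 217) (nat_lit 5) (nat_lit 210) (nat_lit 5) (nat_lit 457) (nat_lit 394) (nat_lit 289)) (XT.lf (nat_lit 0) (nat_lit 229653034) (nat_lit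 532) (nat_lit 7012697612) (nat_lit 608) (nat_lit 4374720051) (nat_lit 202) (nat_lit 5) (nat_lit 209) (nat_lit 5) (nat_lit 210) (nat_lit 5) (nat_lit 458) (nat_lit 394) (nat_lit 288))) (XT.nd (nat_lit 78) (nat_lit 608) (nat_lit 0) (XT.lf (nat_lit 0) (nat_lit 6620495066) (nat_lit 532) (nat_lit 3062354113) (nat_lit 608) (nat_lit 2068433871) (nat_lit 202) (nat_lit 5) (nat_lit 209) (nat_lit 5) (nat_lit 210) (nat_lit 5) (nat_lit 459) (nat_lit 394) (nat_lit 287)) (XT.lf (nat_lit 0) (nat_lit 275606090) (nat_lit 608) (nat_lit 10653304633) (nat_lit 76) (nat_lit 959336511) (nat_lit 194) (nat_lit 5) (nat_lit 202) (nat_lit 5) (nat_lit 195) (nat_lit 5) (nat_lit 460) (nat_lit 394) (nat_lit 286))))) (XT.nd (nat_lit 234) (nat_lit 1064) (nat_lit 0) (XT.nd (nat_lit 78) (nat_lit 532) (nat_lit 0) (XT.lf (nat_lit 0) (nat_lit 2674961383) (nat_lit 608) (nat_lit 4288159311) (nat_lit 76) (nat_lit 5063845226) (nat_lit 194) (nat_lit 5) (nat_lit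 202) (nat_lit 5) (nat_lit 195) (nat_lit 5) (nat_lit 461) (nat_lit 394) (nat_lit 285)) (XT.nd (nat_lit 78) (nat_lit 0) (nat_lit 0) (XT.lf (nat_lit 0) (nat_lit 2209514695) (nat_lit 532) (nat_lit 2908670191) (nat_lit 608) (nat_lit 7050367534) (nat_lit 187) (nat_lit 5) (nat_lit 194) (nat_lit 5) (nat_lit 195) (nat_lit 5) (nat_lit 462) (nat_lit 394) (nat_lit 284)) (XT.lf (nat_lit 0) (nat_lit 7628914527) (nat_lit 608) (nat_lit 3449219465) (nat_lit 76) (nat_lit 1234474669) (nat_lit 187) (nat_lit 5) (nat_lit 195) (nat_lit 5) (nat_lit 188) (nat_lit 5) (nat_lit 463) (nat_lit 394) (nat_lit 283)))) (XT.nd (nat_lit 156) (nat_lit 532) (nat_lit 0) (XT.nd (nat_lit 78) (nat_lit 76) (nat_lit 0) (XT.lf (nat_lit 0) (nat_lit 3189900501) (nat_lit 456) (nat_lit 7022000204) (nat_lit 532) (nat_lit 2247215116) (nat_lit 181) (nat_lit 5) (nat_lit 187) (nat_lit 5) (nat_lit 188) (nat_lit 5) (nat_lit 464) (nat_lit 394) (nat_lit 282)) (XT.lf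 (nat_lit 0) (nat_lit 240312316) (nat_lit 532) (nat_lit 2624791979) (nat_lit 76) (nat_lit 9743319339) (nat_lit 180) (nat_lit 5) (nat_lit 187) (nat_lit 5) (nat_lit 181) (nat_lit 5) (nat_lit 465) (nat_lit 394) (nat_lit 281))) (XT.nd (nat_lit 78) (nat_lit 0) (nat_lit 0) (XT.lf (nat_lit 0) (nat_lit 2766257009) (nat_lit 608) (nat_lit 8600188841) (nat_lit 76) (nat_lit 1393609554) (nat_lit 173) (nat_lit 5) (nat_lit 181) (nat_lit 5) (nat_lit 174) (nat_lit 5) (nat_lit 466) (nat_lit 394) (nat_lit 280)) (XT.lf (nat_lit 0) (nat_lit 5362073913) (nat_lit 608) (nat_lit 1840927175) (nat_lit 76) (nat_lit 5711341476) (nat_lit 173) (nat_lit 5) (nat_lit 181) (nat_lit 5) (nat_lit 174) (nat_lit 5) (nat_lit 467) (nat_lit 394) (nat_lit 279))))))))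
noncomputable def xc138 : XT := (XT.nd (nat_lit 2184) (nat_lit 3344) (nat_lit 0) (XT.nd (nat_lit 1092) (nat_lit 2432) (nat_lit 0) (XT.nd (nat_lit 546) (nat_lit 1748) (nat_lit 0) (XT.nd (nat_lit 234) (nat_lit 912) (nat_lit 0) (XT.nd (nat_lit 78) (nat_lit 532) (nat_lit 0) (XT.lf (nat_lit 0) (nat_lit 5097564594) (nat_lit 456) (nat_lit 2928328285) (nat_lit 532) (nat_lit 5045510503) (nat_lit 167) (nat_lit 5) (nat_lit 173) (nat_lit 5) (nat_lit 174) (nat_lit 5) (nat_lit 468) (nat_lit 394) (nat_lit 278)) (XT.nd (nat_lit 78) (nat_lit 532) (nat_lit 0) (XT.lf (nat_lit 0) (nat_lit 10747857557) (nat_lit 532) (nat_lit 1063924727) (nat_lit 76) (nat_lit 1419735188) (nat_lit 167) (nat_lit 5) (nat_lit 174) (nat_lit 5) (nat_lit 168) (nat_lit 5) (nat_lit 469) (nat_lit 394) (nat_lit 277)) (XT.lf (nat_lit 0) (nat_lit 169953879) (nat_lit 532) (nat_lit 7373875893) (nat_lit 76) (nat_lit 5850151866) (nat_lit 160) (nat_lit 5) (nat_lit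 167) (nat_lit 5) (nat_lit 161) (nat_lit 5) (nat_lit 470) (nat_lit 394) (nat_lit 276)))) (XT.nd (nat_lit 156) (nat_lit 456) (nat_lit 0) (XT.nd (nat_lit 78) (nat_lit 456) (nat_lit 0) (XT.lf (nat_lit 0) (nat_lit 2834131392) (nat_lit 532) (nat_lit 338406895) (nat_lit 76) (nat_lit 10387022404) (nat_lit 160) (nat_lit 5) (nat_lit 167) (nat_lit 5) (nat_lit 161) (nat_lit 5) (nat_lit 471) (nat_lit 394) (nat_lit 275)) (XT.lf (nat_lit 0) (nat_lit 5588893442) (nat_lit 532) (nat_lit 6830302184) (nat_lit 76) (nat_lit 1308518402) (nat_lit 154) (nat_lit 5) (nat_lit 161) (nat_lit 5) (nat_lit 155) (nat_lit 5) (nat_lit 472) (nat_lit 394) (nat_lit 274))) (XT.nd (nat_lit 78) (nat_lit 0) (nat_lit 0) (XT.lf (nat_lit 0) (nat_lit 344544850) (nat_lit 456) (nat_lit 8063726270) (nat_lit 532) (nat_lit 5490777453) (nat_lit 148) (nat_lit 5) (nat_lit 154) (nat_lit 5) (nat_lit 155) (nat_lit 5) (nat_lit 473) (nat_lit 394) (nat_lit 273)) (XT.lf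 (nat_lit 0) (nat_lit 7733324234) (nat_lit 456) (nat_lit 3580704457) (nat_lit 532) (nat_lit 2759189657) (nat_lit 148) (nat_lit 5) (nat_lit 154) (nat_lit 5) (nat_lit 155) (nat_lit 5) (nat_lit 474) (nat_lit 394) (nat_lit 272))))) (XT.nd (nat_lit 234) (nat_lit 836) (nat_lit 0) (XT.nd (nat_lit 78) (nat_lit 456) (nat_lit 0) (XT.lf (nat_lit 0) (nat_lit 24035361) (nat_lit 456) (nat_lit 13247354370) (nat_lit 76) (nat_lit 979539134) (nat_lit 142) (nat_lit 5) (nat_lit 148) (nat_lit 5) (nat_lit 143) (nat_lit 5) (nat_lit 475) (nat_lit 394) (nat_lit 271)) (XT.nd (nat_lit 78) (nat_lit 456) (nat_lit 0) (XT.lf (nat_lit 0) (nat_lit 2877034282) (nat_lit 456) (nat_lit 5915824032) (nat_lit 76) (nat_lit 5637957314) (nat_lit 142) (nat_lit 5) (nat_lit 148) (nat_lit 5) (nat_lit 143) (nat_lit 5) (nat_lit 476) (nat_lit 394) (nat_lit 270)) (XT.lf (nat_lit 0) (nat_lit 1561179783) (nat_lit 456) (nat_lit 4220835267) (nat_lit 532) (nat_lit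 8832394385) (nat_lit 136) (nat_lit 5) (nat_lit 142) (nat_lit 5) (nat_lit 143) (nat_lit 5) (nat_lit 477) (nat_lit 394) (nat_lit 269)))) (XT.nd (nat_lit 156) (nat_lit 456) (nat_lit 0) (XT.nd (nat_lit 78) (nat_lit 380) (nat_lit 0) (XT.lf (nat_lit 0) (nat_lit 8772833137) (nat_lit 532) (nat_lit 5557860556) (nat_lit 76) (nat_lit 470434264) (nat_lit 136) (nat_lit 5) (nat_lit 143) (nat_lit 5) (nat_lit 137) (nat_lit 5) (nat_lit 478) (nat_lit 394) (nat_lit 268)) (XT.lf (nat_lit 0) (nat_lit 2065218800) (nat_lit 380) (nat_lit 9784808804) (nat_lit 456) (nat_lit 3141029489) (nat_lit 131) (nat_lit 5) (nat_lit 136) (nat_lit 5) (nat_lit 137) (nat_lit 5) (nat_lit 479) (nat_lit 394) (nat_lit 267))) (XT.nd (nat_lit 78) (nat_lit 456) (nat_lit 0) (XT.lf (nat_lit 0) (nat_lit 9894908051) (nat_lit 380) (nat_lit 5116505418) (nat_lit 456) (nat_lit 172925690) (nat_lit 131) (nat_lit 5) (nat_lit 136) (nat_lit 5) (nat_lit 137) (nat_lit 5)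 (nat_lit 480) (nat_lit 394) (nat_lit 266)) (XT.lf (nat_lit 0) (nat_lit 2492891679) (nat_lit 380) (nat_lit 325932601) (nat_lit 456) (nat_lit 12562264492) (nat_lit 125) (nat_lit 5) (nat_lit 130) (nat_lit 5) (nat_lit 131) (nat_lit 5) (nat_lit 481) (nat_lit 394) (nat_lit 265)))))) (XT.nd (nat_lit 546) (nat_lit 1368) (nat_lit 0) (XT.nd (nat_lit 234) (nat_lit 760) (nat_lit 0) (XT.nd (nat_lit 78) (nat_lit 304) (nat_lit 0) (XT.lf (nat_lit 0) (nat_lit 5919077734) (nat_lit 456) (nat_lit 5130579231) (nat_lit 76) (nat_lit 4531080750) (nat_lit 125) (nat_lit 5) (nat_lit 131) (nat_lit 5) (nat_lit 126) (nat_lit 5) (nat_lit 482) (nat_lit 394) (nat_lit 264)) (XT.nd (nat_lit 78) (nat_lit 0) (nat_lit 0) (XT.lf (nat_lit 0) (nat_lit 2796029833) (nat_lit 304) (nat_lit 6291542503) (nat_lit 380) (nat_lit 6696689322) (nat_lit 121) (nat_lit 5) (nat_lit 125) (nat_lit 5) (nat_lit 126) (nat_lit 5) (nat_lit 483) (nat_lit 394) (nat_lit 263))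 (XT.lf (nat_lit 0) (nat_lit 10930180342) (nat_lit 304) (nat_lit 1409751943) (nat_lit 380) (nat_lit 3651520496) (nat_lit 121) (nat_lit 5) (nat_lit 125) (nat_lit 5) (nat_lit 126) (nat_lit 5) (nat_lit 484) (nat_lit 394) (nat_lit 262)))) (XT.nd (nat_lit 156) (nat_lit 304) (nat_lit 0) (XT.nd (nat_lit 78) (nat_lit 76) (nat_lit 0) (XT.lf (nat_lit 0) (nat_lit 3020289023) (nat_lit 380) (nat_lit 12666134560) (nat_lit 456) (nat_lit 515788939) (nat_lit 116) (nat_lit 5) (nat_lit 121) (nat_lit 5) (nat_lit 122) (nat_lit 5) (nat_lit 485) (nat_lit 394) (nat_lit 261)) (XT.lf (nat_lit 0) (nat_lit 2677337454) (nat_lit 456) (nat_lit 5131824013) (nat_lit 76) (nat_lit 8607086596) (nat_lit 115) (nat_lit 5) (nat_lit 121) (nat_lit 5) (nat_lit 116) (nat_lit 5) (nat_lit 486) (nat_lit 394) (nat_lit 260))) (XT.nd (nat_lit 78) (nat_lit 0) (nat_lit 0) (XT.lf (nat_lit 0) (nat_lit 3096446803) (nat_lit 304) (nat_lit 2837690571) (nat_lit 380) (nat_lit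 10700230510) (nat_lit 111) (nat_lit 5) (nat_lit 115) (nat_lit 5) (nat_lit 116) (nat_lit 5) (nat_lit 487) (nat_lit 394) (nat_lit 259)) (XT.lf (nat_lit 0) (nat_lit 9291935224) (nat_lit 380) (nat_lit 5332164299) (nat_lit 76) (nat_lit 2232039327) (nat_lit 111) (nat_lit 5) (nat_lit 116) (nat_lit 5) (nat_lit 112) (nat_lit 5) (nat_lit 488) (nat_lit 394) (nat_lit 258))))) (XT.nd (nat_lit 234) (nat_lit 608) (nat_lit 0) (XT.nd (nat_lit 78) (nat_lit 380) (nat_lit 0) (XT.lf (nat_lit 0) (nat_lit 3039045473) (nat_lit 380) (nat_lit 9703325699) (nat_lit 456) (nat_lit 4339470292) (nat_lit 106) (nat_lit 5) (nat_lit 111) (nat_lit 5) (nat_lit 112) (nat_lit 5) (nat_lit 489) (nat_lit 394) (nat_lit 257)) (XT.nd (nat_lit 78) (nat_lit 380) (nat_lit 0) (XT.lf (nat_lit 0) (nat_lit 11630360995) (nat_lit 380) (nat_lit 4654322950) (nat_lit 456) (nat_lit 1026922577) (nat_lit 106) (nat_lit 5) (nat_lit 111) (nat_lit 5) (nat_lit 112) (nat_lit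 5) (nat_lit 490) (nat_lit 394) (nat_lit 256)) (XT.lf (nat_lit 0) (nat_lit 2330185595) (nat_lit 380) (nat_lit 14698690993) (nat_lit 76) (nat_lit 516607329) (nat_lit 101) (nat_lit 5) (nat_lit 106) (nat_lit 5) (nat_lit 102) (nat_lit 5) (nat_lit 491) (nat_lit 394) (nat_lit 255)))) (XT.nd (nat_lit 156) (nat_lit 304) (nat_lit 0) (XT.nd (nat_lit 78) (nat_lit 304) (nat_lit 0) (XT.lf (nat_lit 0) (nat_lit 5797230378) (nat_lit 380) (nat_lit 6218225399) (nat_lit 76) (nat_lit 5767321847) (nat_lit 101) (nat_lit 5) (nat_lit 106) (nat_lit 5) (nat_lit 102) (nat_lit 5) (nat_lit 492) (nat_lit 394) (nat_lit 254)) (XT.lf (nat_lit 0) (nat_lit 2444820307) (nat_lit 304) (nat_lit 6892249667) (nat_lit 380) (nat_lit 8687683471) (nat_lit 97) (nat_lit 5) (nat_lit 101) (nat_lit 5) (nat_lit 102) (nat_lit 5) (nat_lit 493) (nat_lit 394) (nat_lit 253))) (XT.nd (nat_lit 78) (nat_lit 304) (nat_lit 0) (XT.lf (nat_lit 0) (nat_lit 11346448768) (nat_lit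 304) (nat_lit 1630686047) (nat_lit 380) (nat_lit 5293850609) (nat_lit 97) (nat_lit 5) (nat_lit 101) (nat_lit 5) (nat_lit 102) (nat_lit 5) (nat_lit 494) (nat_lit 394) (nat_lit 252)) (XT.lf (nat_lit 0) (nat_lit 1885641239) (nat_lit 304) (nat_lit 14828759443) (nat_lit 380) (nat_lit 1807258476) (nat_lit 93) (nat_lit 5) (nat_lit 97) (nat_lit 5) (nat_lit 98) (nat_lit 5) (nat_lit 495) (nat_lit 394) (nat_lit 251))))))) (XT.nd (nat_lit 1092) (nat_lit 1520) (nat_lit 0) (XT.nd (nat_lit 546) (nat_lit 836) (nat_lit 0) (XT.nd (nat_lit 234) (nat_lit 608) (nat_lit 0) (XT.nd (nat_lit 78) (nat_lit 304) (nat_lit 0) (XT.lf (nat_lit 0) (nat_lit 1771631744) (nat_lit 380) (nat_lit 7851834840) (nat_lit 76) (nat_lit 9152747462) (nat_lit 92) (nat_lit 5) (nat_lit 97) (nat_lit 5) (nat_lit 93) (nat_lit 5) (nat_lit 496) (nat_lit 394) (nat_lit 250)) (XT.nd (nat_lit 78) (nat_lit 0) (nat_lit 0) (XT.lf (nat_lit 0) (nat_lit 1091912003) (nat_lit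 304) (nat_lit 4301268548) (nat_lit 380) (nat_lit 13642539777) (nat_lit 88) (nat_lit 5) (nat_lit 92) (nat_lit 5) (nat_lit 93) (nat_lit 5) (nat_lit 497) (nat_lit 394) (nat_lit 249)) (XT.lf (nat_lit 0) (nat_lit 9135756613) (nat_lit 380) (nat_lit 9004610507) (nat_lit 76) (nat_lit 1159082410) (nat_lit 88) (nat_lit 5) (nat_lit 93) (nat_lit 5) (nat_lit 89) (nat_lit 5) (nat_lit 498) (nat_lit 394) (nat_lit 248)))) (XT.nd (nat_lit 156) (nat_lit 380) (nat_lit 0) (XT.nd (nat_lit 78) (nat_lit 0) (nat_lit 0) (XT.lf (nat_lit 0) (nat_lit 67589707) (nat_lit 228) (nat_lit 12902986921) (nat_lit 304) (nat_lit 6597533468) (nat_lit 85) (nat_lit 5) (nat_lit 88) (nat_lit 5) (nat_lit 89) (nat_lit 5) (nat_lit 499) (nat_lit 394) (nat_lit 247)) (XT.lf (nat_lit 0) (nat_lit 9425230625) (nat_lit 228) (nat_lit 7505865297) (nat_lit 304) (nat_lit 2910072431) (nat_lit 85) (nat_lit 5) (nat_lit 88) (nat_lit 5) (nat_lit 89) (nat_lit 5) (nat_lit 500)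 (nat_lit 394) (nat_lit 246))) (XT.nd (nat_lit 78) (nat_lit 304) (nat_lit 0) (XT.lf (nat_lit 0) (nat_lit 828697627) (nat_lit 304) (nat_lit 1173052783) (nat_lit 76) (nat_lit 18118056751) (nat_lit 84) (nat_lit 5) (nat_lit 88) (nat_lit 5) (nat_lit 85) (nat_lit 5) (nat_lit 501) (nat_lit 394) (nat_lit 245)) (XT.lf (nat_lit 0) (nat_lit 4670220710) (nat_lit 380) (nat_lit 12099559029) (nat_lit 76) (nat_lit 3632519700) (nat_lit 80) (nat_lit 5) (nat_lit 85) (nat_lit 5) (nat_lit 81) (nat_lit 5) (nat_lit 502) (nat_lit 394) (nat_lit 244))))) (XT.nd (nat_lit 234) (nat_lit 608) (nat_lit 0) (XT.nd (nat_lit 78) (nat_lit 228) (nat_lit 0) (XT.lf (nat_lit 0) (nat_lit 8598760549) (nat_lit 380) (nat_lit 2737221510) (nat_lit 76) (nat_lit 9354259970) (nat_lit 80) (nat_lit 5) (nat_lit 85) (nat_lit 5) (nat_lit 81) (nat_lit 5) (nat_lit 503) (nat_lit 394) (nat_lit 243)) (XT.nd (nat_lit 78) (nat_lit 0) (nat_lit 0) (XT.lf (nat_lit 0) (nat_lit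 6885431991) (nat_lit 228) (nat_lit 5754365293) (nat_lit 304) (nat_lit 8343471775) (nat_lit 77) (nat_lit 5) (nat_lit 80) (nat_lit 5) (nat_lit 81) (nat_lit 5) (nat_lit 504) (nat_lit 394) (nat_lit 242)) (XT.lf (nat_lit 0) (nat_lit 16720521260) (nat_lit 228) (nat_lit 48823185) (nat_lit 304) (nat_lit 4512662419) (nat_lit 77) (nat_lit 5) (nat_lit 80) (nat_lit 5) (nat_lit 81) (nat_lit 5) (nat_lit 505) (nat_lit 394) (nat_lit 241)))) (XT.nd (nat_lit 156) (nat_lit 228) (nat_lit 0) (XT.nd (nat_lit 78) (nat_lit 76) (nat_lit 0) (XT.lf (nat_lit 0) (nat_lit 5179091877) (nat_lit 304) (nat_lit 15862974695) (nat_lit 380) (nat_lit 543445124) (nat_lit 73) (nat_lit 5) (nat_lit 77) (nat_lit 5) (nat_lit 78) (nat_lit 5) (nat_lit 506) (nat_lit 394) (nat_lit 240)) (XT.lf (nat_lit 0) (nat_lit 3479835563) (nat_lit 380) (nat_lit 6758434493) (nat_lit 76) (nat_lit 11655952212) (nat_lit 72) (nat_lit 5) (nat_lit 77) (nat_lit 5) (nat_lit 73)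 (nat_lit 5) (nat_lit 507) (nat_lit 394) (nat_lit 239))) (XT.nd (nat_lit 78) (nat_lit 0) (nat_lit 0) (XT.lf (nat_lit 0) (nat_lit 3102951183) (nat_lit 228) (nat_lit 4483226569) (nat_lit 304) (nat_lit 14622663726) (nat_lit 69) (nat_lit 5) (nat_lit 72) (nat_lit 5) (nat_lit 73) (nat_lit 5) (nat_lit 508) (nat_lit 394) (nat_lit 238)) (XT.lf (nat_lit 0) (nat_lit 11819076831) (nat_lit 304) (nat_lit 9301686875) (nat_lit 76) (nat_lit 1408104414) (nat_lit 69) (nat_lit 5) (nat_lit 73) (nat_lit 5) (nat_lit 70) (nat_lit 5) (nat_lit 509) (nat_lit 394) (nat_lit 237)))))) (XT.nd (nat_lit 546) (nat_lit 760) (nat_lit 0) (XT.nd (nat_lit 234) (nat_lit 456) (nat_lit 0) (XT.nd (nat_lit 78) (nat_lit 76) (nat_lit 0) (XT.lf (nat_lit 0) (nat_lit 661197140) (nat_lit 228) (nat_lit 15499392723) (nat_lit 304) (nat_lit 6694229891) (nat_lit 66) (nat_lit 5) (nat_lit 69) (nat_lit 5) (nat_lit 70) (nat_lit 5) (nat_lit 510) (nat_lit 394) (nat_lit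 236)) (XT.nd (nat_lit 78) (nat_lit 76) (nat_lit 0) (XT.lf (nat_lit 0) (nat_lit 10933148496) (nat_lit 228) (nat_lit 9708267602) (nat_lit 304) (nat_lit 2544828171) (nat_lit 66) (nat_lit 5) (nat_lit 69) (nat_lit 5) (nat_lit 70) (nat_lit 5) (nat_lit 511) (nat_lit 394) (nat_lit 235)) (XT.lf (nat_lit 0) (nat_lit 1655619559) (nat_lit 304) (nat_lit 2140806892) (nat_lit 76) (nat_lit 19727851247) (nat_lit 65) (nat_lit 5) (nat_lit 69) (nat_lit 5) (nat_lit 66) (nat_lit 5) (nat_lit 512) (nat_lit 394) (nat_lit 234)))) (XT.nd (nat_lit 156) (nat_lit 228) (nat_lit 0) (XT.nd (nat_lit 78) (nat_lit 0) (nat_lit 0) (XT.lf (nat_lit 0) (nat_lit 5964904366) (nat_lit 304) (nat_lit 15633498539) (nat_lit 76) (nat_lit 2269157702) (nat_lit 62) (nat_lit 5) (nat_lit 66) (nat_lit 5) (nat_lit 63) (nat_lit 5) (nat_lit 513) (nat_lit 394) (nat_lit 233)) (XT.lf (nat_lit 0) (nat_lit 10390407771) (nat_lit 304) (nat_lit 5413037658) (nat_lit 76) (nat_lit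 8413666327) (nat_lit 62) (nat_lit 5) (nat_lit 66) (nat_lit 5) (nat_lit 63) (nat_lit 5) (nat_lit 514) (nat_lit 394) (nat_lit 232))) (XT.nd (nat_lit 78) (nat_lit 0) (nat_lit 0) (XT.lf (nat_lit 0) (nat_lit 5062714799) (nat_lit 228) (nat_lit 9865194520) (nat_lit 304) (nat_lit 9645278026) (nat_lit 59) (nat_lit 5) (nat_lit 62) (nat_lit 5) (nat_lit 63) (nat_lit 5) (nat_lit 515) (nat_lit 394) (nat_lit 231)) (XT.lf (nat_lit 0) (nat_lit 15805943481) (nat_lit 228) (nat_lit 3777243214) (nat_lit 304) (nat_lit 5352660349) (nat_lit 59) (nat_lit 5) (nat_lit 62) (nat_lit 5) (nat_lit 63) (nat_lit 5) (nat_lit 516) (nat_lit 394) (nat_lit 230))))) (XT.nd (nat_lit 234) (nat_lit 456) (nat_lit 0) (XT.nd (nat_lit 78) (nat_lit 76) (nat_lit 0) (XT.lf (nat_lit 0) (nat_lit 1446192491) (nat_lit 228) (nat_lit 22901404818) (nat_lit 304) (nat_lit 957845125) (nat_lit 56) (nat_lit 5) (nat_lit 59) (nat_lit 5) (nat_lit 60) (nat_lit 5) (nat_lit 517)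 (nat_lit 394) (nat_lit 229)) (XT.nd (nat_lit 78) (nat_lit 0) (nat_lit 0) (XT.lf (nat_lit 0) (nat_lit 3556187109) (nat_lit 304) (nat_lit 13387224229) (nat_lit 76) (nat_lit 8737012617) (nat_lit 55) (nat_lit 5) (nat_lit 59) (nat_lit 5) (nat_lit 56) (nat_lit 5) (nat_lit 518) (nat_lit 394) (nat_lit 228)) (XT.lf (nat_lit 0) (nat_lit 8138728503) (nat_lit 304) (nat_lit 2727083866) (nat_lit 76) (nat_lit 15197147907) (nat_lit 55) (nat_lit 5) (nat_lit 59) (nat_lit 5) (nat_lit 56) (nat_lit 5) (nat_lit 519) (nat_lit 394) (nat_lit 227)))) (XT.nd (nat_lit 156) (nat_lit 228) (nat_lit 0) (XT.nd (nat_lit 78) (nat_lit 0) (nat_lit 0) (XT.lf (nat_lit 0) (nat_lit 8239634851) (nat_lit 228) (nat_lit 4618000764) (nat_lit 304) (nat_lit 13594620229) (nat_lit 52) (nat_lit 5) (nat_lit 55) (nat_lit 5) (nat_lit 56) (nat_lit 5) (nat_lit 520) (nat_lit 394) (nat_lit 226)) (XT.lf (nat_lit 0) (nat_lit 17691992296) (nat_lit 304) (nat_lit 7412562092)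 (nat_lit 76) (nat_lit 1744364274) (nat_lit 52) (nat_lit 5) (nat_lit 56) (nat_lit 5) (nat_lit 53) (nat_lit 5) (nat_lit 521) (nat_lit 394) (nat_lit 225))) (XT.nd (nat_lit 78) (nat_lit 76) (nat_lit 0) (XT.lf (nat_lit 0) (nat_lit 3605763529) (nat_lit 152) (nat_lit 19062694761) (nat_lit 228) (nat_lit 4584150715) (nat_lit 50) (nat_lit 5) (nat_lit 52) (nat_lit 5) (nat_lit 53) (nat_lit 5) (nat_lit 522) (nat_lit 394) (nat_lit 224)) (XT.lf (nat_lit 0) (nat_lit 120546204) (nat_lit 228) (nat_lit 12733755974) (nat_lit 76) (nat_lit 14809232863) (nat_lit 49) (nat_lit 5) (nat_lit 52) (nat_lit 5) (nat_lit 50) (nat_lit 5) (nat_lit 523) (nat_lit 394) (nat_lit 223))))))))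
noncomputable def xc139 : XT := (XT.nd (nat_lit 51246) (nat_lit 0) (nat_lit 15504) (XT.nd (nat_lit 50154) (nat_lit 0) (nat_lit 32528) (XT.nd (nat_lit 49608) (nat_lit 0) (nat_lit 37164) (XT.nd (nat_lit 49296) (nat_lit 0) (nat_lit 39064) (XT.nd (nat_lit 78) (nat_lit 228) (nat_lit 0) (XT.lf (nat_lit 0) (nat_lit 4849624831) (nat_lit 228) (nat_lit 1646942905) (nat_lit 76) (nat_lit 21585675000) (nat_lit 49) (nat_lit 5) (nat_lit 52) (nat_lit 5) (nat_lit 50) (nat_lit 5) (nat_lit 524) (nat_lit 394) (nat_lit 222)) (XT.nd (nat_lit 78) (nat_lit 0) (nat_lit 0) (XT.lf (nat_lit 0) (nat_lit 9728841062) (nat_lit 304) (nat_lit 18732612010) (nat_lit 76) (nat_lit 46762899) (nat_lit 46) (nat_lit 5) (nat_lit 50) (nat_lit 5) (nat_lit 47) (nat_lit 5) (nat_lit 525) (nat_lit 394) (nat_lit 221)) (XT.lf (nat_lit 0) (nat_lit 14751601766) (nat_lit 304) (nat_lit 7550596816) (nat_lit 76) (nat_lit 6639593341) (nat_lit 46) (nat_lit 5) (nat_lit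 50) (nat_lit 5) (nat_lit 47) (nat_lit 5) (nat_lit 526) (nat_lit 394) (nat_lit 220)))) (XT.nd (nat_lit 156) (nat_lit 0) (nat_lit 0) (XT.nd (nat_lit 78) (nat_lit 988) (nat_lit 0) (XT.lf (nat_lit 0) (nat_lit 1671053917) (nat_lit 0) (nat_lit 1671053917) (nat_lit 836) (nat_lit 98598490) (nat_lit 573) (nat_lit 5) (nat_lit 573) (nat_lit 3) (nat_lit 584) (nat_lit 3) (nat_lit 395) (nat_lit 395) (nat_lit 350)) (XT.lf (nat_lit 0) (nat_lit 1654975075) (nat_lit 988) (nat_lit 357864459) (nat_lit 988) (nat_lit 4898406280) (nat_lit 560) (nat_lit 3) (nat_lit 573) (nat_lit 3) (nat_lit 573) (nat_lit 5) (nat_lit 396) (nat_lit 395) (nat_lit 349))) (XT.nd (nat_lit 78) (nat_lit 0) (nat_lit 76) (XT.lf (nat_lit 76) (nat_lit 2899126574) (nat_lit 0) (nat_lit 612682704) (nat_lit 988) (nat_lit 3430486949) (nat_lit 561) (nat_lit 5) (nat_lit 560) (nat_lit 3) (nat_lit 573) (nat_lit 5) (nat_lit 397) (nat_lit 395) (nat_lit 348)) (XT.lf (nat_lit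 0) (nat_lit 5365868413) (nat_lit 912) (nat_lit 778909953) (nat_lit 988) (nat_lit 830038336) (nat_lit 561) (nat_lit 5) (nat_lit 573) (nat_lit 5) (nat_lit 574) (nat_lit 5) (nat_lit 398) (nat_lit 395) (nat_lit 347))))) (XT.nd (nat_lit 234) (nat_lit 988) (nat_lit 0) (XT.nd (nat_lit 78) (nat_lit 0) (nat_lit 0) (XT.lf (nat_lit 0) (nat_lit 219488562) (nat_lit 988) (nat_lit 4455200730) (nat_lit 1064) (nat_lit 2333840138) (nat_lit 548) (nat_lit 5) (nat_lit 561) (nat_lit 5) (nat_lit 562) (nat_lit 5) (nat_lit 399) (nat_lit 395) (nat_lit 346)) (XT.nd (nat_lit 78) (nat_lit 0) (nat_lit 0) (XT.lf (nat_lit 0) (nat_lit 2021942037) (nat_lit 988) (nat_lit 1116510580) (nat_lit 1064) (nat_lit 3905119147) (nat_lit 548) (nat_lit 5) (nat_lit 561) (nat_lit 5) (nat_lit 562) (nat_lit 5) (nat_lit 400) (nat_lit 395) (nat_lit 345)) (XT.lf (nat_lit 76) (nat_lit 2293762697) (nat_lit 0) (nat_lit 1536192213) (nat_lit 1064) (nat_lit 3250016778)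 (nat_lit 549) (nat_lit 5) (nat_lit 548) (nat_lit 5) (nat_lit 562) (nat_lit 5) (nat_lit 401) (nat_lit 395) (nat_lit 344)))) (XT.nd (nat_lit 156) (nat_lit 0) (nat_lit 0) (XT.nd (nat_lit 78) (nat_lit 1064) (nat_lit 0) (XT.lf (nat_lit 0) (nat_lit 5637778503) (nat_lit 988) (nat_lit 1356433930) (nat_lit 1064) (nat_lit 123660197) (nat_lit 549) (nat_lit 5) (nat_lit 562) (nat_lit 5) (nat_lit 563) (nat_lit 5) (nat_lit 402) (nat_lit 395) (nat_lit 343)) (XT.lf (nat_lit 0) (nat_lit 301161016) (nat_lit 1064) (nat_lit 5024858749) (nat_lit 1140) (nat_lit 1830909846) (nat_lit 535) (nat_lit 5) (nat_lit 549) (nat_lit 5) (nat_lit 550) (nat_lit 5) (nat_lit 403) (nat_lit 395) (nat_lit 342))) (XT.nd (nat_lit 78) (nat_lit 0) (nat_lit 0) (XT.lf (nat_lit 0) (nat_lit 2064110839) (nat_lit 1064) (nat_lit 1523825602) (nat_lit 1140) (nat_lit 3609361235) (nat_lit 535) (nat_lit 5) (nat_lit 549) (nat_lit 5) (nat_lit 550) (nat_lit 5) (nat_lit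 404) (nat_lit 395) (nat_lit 341)) (XT.lf (nat_lit 76) (nat_lit 2048496312) (nat_lit 0) (nat_lit 1784679273) (nat_lit 1140) (nat_lit 3405922924) (nat_lit 536) (nat_lit 5) (nat_lit 535) (nat_lit 5) (nat_lit 550) (nat_lit 5) (nat_lit 405) (nat_lit 395) (nat_lit 340)))))) (XT.nd (nat_lit 546) (nat_lit 2432) (nat_lit 0) (XT.nd (nat_lit 234) (nat_lit 1140) (nat_lit 0) (XT.nd (nat_lit 78) (nat_lit 1140) (nat_lit 0) (XT.lf (nat_lit 0) (nat_lit 5606598797) (nat_lit 1064) (nat_lit 1595446074) (nat_lit 1140) (nat_lit 80352632) (nat_lit 536) (nat_lit 5) (nat_lit 550) (nat_lit 5) (nat_lit 551) (nat_lit 5) (nat_lit 406) (nat_lit 395) (nat_lit 339)) (XT.nd (nat_lit 78) (nat_lit 0) (nat_lit 0) (XT.lf (nat_lit 0) (nat_lit 71963741) (nat_lit 1140) (nat_lit 5266461676) (nat_lit 1216) (nat_lit 1988481544) (nat_lit 521) (nat_lit 5) (nat_lit 536) (nat_lit 5) (nat_lit 537) (nat_lit 5) (nat_lit 407) (nat_lit 395) (nat_lit 338)) (XT.lf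 (nat_lit 0) (nat_lit 1802514864) (nat_lit 1140) (nat_lit 1598483059) (nat_lit 1216) (nat_lit 3971720981) (nat_lit 521) (nat_lit 5) (nat_lit 536) (nat_lit 5) (nat_lit 537) (nat_lit 5) (nat_lit 408) (nat_lit 395) (nat_lit 337)))) (XT.nd (nat_lit 156) (nat_lit 1140) (nat_lit 0) (XT.nd (nat_lit 78) (nat_lit 0) (nat_lit 76) (XT.lf (nat_lit 76) (nat_lit 2145202758) (nat_lit 0) (nat_lit 1396671164) (nat_lit 1216) (nat_lit 3878127741) (nat_lit 522) (nat_lit 5) (nat_lit 521) (nat_lit 5) (nat_lit 537) (nat_lit 5) (nat_lit 409) (nat_lit 395) (nat_lit 336)) (XT.lf (nat_lit 0) (nat_lit 5291992642) (nat_lit 1140) (nat_lit 1513387230) (nat_lit 1216) (nat_lit 663368516) (nat_lit 522) (nat_lit 5) (nat_lit 537) (nat_lit 5) (nat_lit 538) (nat_lit 5) (nat_lit 410) (nat_lit 395) (nat_lit 335))) (XT.nd (nat_lit 78) (nat_lit 1216) (nat_lit 0) (XT.lf (nat_lit 76) (nat_lit 2318404367) (nat_lit 0) (nat_lit 4744745982) (nat_lit 1216) (nat_lit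 455635985) (nat_lit 523) (nat_lit 5) (nat_lit 522) (nat_lit 5) (nat_lit 538) (nat_lit 5) (nat_lit 411) (nat_lit 395) (nat_lit 334)) (XT.lf (nat_lit 0) (nat_lit 1255112265) (nat_lit 1216) (nat_lit 1357157075) (nat_lit 1292) (nat_lit 4957977393) (nat_lit 506) (nat_lit 5) (nat_lit 522) (nat_lit 5) (nat_lit 523) (nat_lit 5) (nat_lit 412) (nat_lit 395) (nat_lit 333))))) (XT.nd (nat_lit 234) (nat_lit 2432) (nat_lit 0) (XT.nd (nat_lit 78) (nat_lit 0) (nat_lit 76) (XT.lf (nat_lit 76) (nat_lit 2567734096) (nat_lit 0) (nat_lit 405693746) (nat_lit 1292) (nat_lit 4649694079) (nat_lit 507) (nat_lit 5) (nat_lit 506) (nat_lit 5) (nat_lit 523) (nat_lit 5) (nat_lit 413) (nat_lit 395) (nat_lit 332)) (XT.nd (nat_lit 78) (nat_lit 0) (nat_lit 0) (XT.lf (nat_lit 0) (nat_lit 4710666877) (nat_lit 1216) (nat_lit 1125917727) (nat_lit 1292) (nat_lit 1840813066) (nat_lit 507) (nat_lit 5) (nat_lit 523) (nat_lit 5) (nat_lit 524) (nat_lit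 5) (nat_lit 414) (nat_lit 395) (nat_lit 331)) (XT.lf (nat_lit 76) (nat_lit 2891370403) (nat_lit 0) (nat_lit 3576867679) (nat_lit 1292) (nat_lit 1264842634) (nat_lit 508) (nat_lit 5) (nat_lit 507) (nat_lit 5) (nat_lit 524) (nat_lit 5) (nat_lit 415) (nat_lit 395) (nat_lit 330)))) (XT.nd (nat_lit 156) (nat_lit 1216) (nat_lit 0) (XT.nd (nat_lit 78) (nat_lit 0) (nat_lit 76) (XT.lf (nat_lit 0) (nat_lit 436907649) (nat_lit 1292) (nat_lit 814908307) (nat_lit 1368) (nat_lit 6538592470) (nat_lit 490) (nat_lit 5) (nat_lit 507) (nat_lit 5) (nat_lit 508) (nat_lit 5) (nat_lit 416) (nat_lit 395) (nat_lit 329)) (XT.lf (nat_lit 0) (nat_lit 2149829978) (nat_lit 1292) (nat_lit 4555012458) (nat_lit 76) (nat_lit 1144023170) (nat_lit 491) (nat_lit 5) (nat_lit 508) (nat_lit 5) (nat_lit 492) (nat_lit 5) (nat_lit 417) (nat_lit 395) (nat_lit 328))) (XT.nd (nat_lit 78) (nat_lit 1292) (nat_lit 0) (XT.lf (nat_lit 0) (nat_lit 3876475417)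 (nat_lit 1292) (nat_lit 447301659) (nat_lit 76) (nat_lit 3585156538) (nat_lit 491) (nat_lit 5) (nat_lit 508) (nat_lit 5) (nat_lit 492) (nat_lit 5) (nat_lit 418) (nat_lit 395) (nat_lit 327)) (XT.lf (nat_lit 0) (nat_lit 3766045087) (nat_lit 1292) (nat_lit 1862403292) (nat_lit 1368) (nat_lit 2341969079) (nat_lit 474) (nat_lit 5) (nat_lit 491) (nat_lit 5) (nat_lit 492) (nat_lit 5) (nat_lit 419) (nat_lit 395) (nat_lit 326))))))) (XT.nd (nat_lit 1092) (nat_lit 7068) (nat_lit 0) (XT.nd (nat_lit 546) (nat_lit 3876) (nat_lit 0) (XT.nd (nat_lit 234) (nat_lit 3192) (nat_lit 0) (XT.nd (nat_lit 78) (nat_lit 1520) (nat_lit 0) (XT.lf (nat_lit 0) (nat_lit 6020236) (nat_lit 1368) (nat_lit 7383593664) (nat_lit 1444) (nat_lit 644063790) (nat_lit 456) (nat_lit 5) (nat_lit 474) (nat_lit 5) (nat_lit 475) (nat_lit 5) (nat_lit 420) (nat_lit 395) (nat_lit 325)) (XT.nd (nat_lit 78) (nat_lit 1444) (nat_lit 0) (XT.lf (nat_lit 0) (nat_lit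 1081384665) (nat_lit 1444) (nat_lit 3786382955) (nat_lit 76) (nat_lit 3230165835) (nat_lit 455) (nat_lit 5) (nat_lit 474) (nat_lit 5) (nat_lit 456) (nat_lit 5) (nat_lit 421) (nat_lit 395) (nat_lit 324)) (XT.lf (nat_lit 0) (nat_lit 515970909) (nat_lit 1444) (nat_lit 2287867562) (nat_lit 1520) (nat_lit 5360156367) (nat_lit 436) (nat_lit 5) (nat_lit 455) (nat_lit 5) (nat_lit 456) (nat_lit 5) (nat_lit 422) (nat_lit 395) (nat_lit 323)))) (XT.nd (nat_lit 156) (nat_lit 1672) (nat_lit 0) (XT.nd (nat_lit 78) (nat_lit 1520) (nat_lit 0) (XT.lf (nat_lit 0) (nat_lit 4556811452) (nat_lit 1520) (nat_lit 3304346535) (nat_lit 76) (nat_lit 370325565) (nat_lit 436) (nat_lit 5) (nat_lit 456) (nat_lit 5) (nat_lit 437) (nat_lit 5) (nat_lit 423) (nat_lit 395) (nat_lit 322)) (XT.lf (nat_lit 0) (nat_lit 1099219247) (nat_lit 1520) (nat_lit 5236797387) (nat_lit 1596) (nat_lit 1964508919) (nat_lit 416) (nat_lit 5) (nat_lit 436) (nat_lit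 5) (nat_lit 437) (nat_lit 5) (nat_lit 424) (nat_lit 395) (nat_lit 321))) (XT.nd (nat_lit 78) (nat_lit 1672) (nat_lit 0) (XT.lf (nat_lit 0) (nat_lit 5609570155) (nat_lit 1520) (nat_lit 2532734907) (nat_lit 1596) (nat_lit 228839787) (nat_lit 416) (nat_lit 5) (nat_lit 436) (nat_lit 5) (nat_lit 437) (nat_lit 5) (nat_lit 425) (nat_lit 395) (nat_lit 320)) (XT.lf (nat_lit 0) (nat_lit 1504048045) (nat_lit 1672) (nat_lit 6691061103) (nat_lit 76) (nat_lit 248238161) (nat_lit 394) (nat_lit 5) (nat_lit 416) (nat_lit 5) (nat_lit 395) (nat_lit 5) (nat_lit 426) (nat_lit 395) (nat_lit 319))))) (XT.nd (nat_lit 234) (nat_lit 2204) (nat_lit 0) (XT.nd (nat_lit 78) (nat_lit 1672) (nat_lit 0) (XT.lf (nat_lit 0) (nat_lit 3274114425) (nat_lit 1672) (nat_lit 2167648114) (nat_lit 76) (nat_lit 3075114240) (nat_lit 394) (nat_lit 5) (nat_lit 416) (nat_lit 5) (nat_lit 395) (nat_lit 5) (nat_lit 427) (nat_lit 395) (nat_lit 318)) (XT.nd (nat_lit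 78) (nat_lit 0) (nat_lit 0) (XT.lf (nat_lit 0) (nat_lit 2452444613) (nat_lit 1672) (nat_lit 2613800284) (nat_lit 1748) (nat_lit 3525923111) (nat_lit 372) (nat_lit 5) (nat_lit 394) (nat_lit 5) (nat_lit 395) (nat_lit 5) (nat_lit 428) (nat_lit 395) (nat_lit 317)) (XT.lf (nat_lit 0) (nat_lit 6881784219) (nat_lit 1748) (nat_lit 1502608933) (nat_lit 76) (nat_lit 284844531) (nat_lit 372) (nat_lit 5) (nat_lit 395) (nat_lit 5) (nat_lit 373) (nat_lit 5) (nat_lit 429) (nat_lit 395) (nat_lit 316)))) (XT.nd (nat_lit 156) (nat_lit 836) (nat_lit 0) (XT.nd (nat_lit 78) (nat_lit 76) (nat_lit 0) (XT.lf (nat_lit 0) (nat_lit 3226366977) (nat_lit 1292) (nat_lit 5517256516) (nat_lit 1368) (nat_lit 4048951) (nat_lit 355) (nat_lit 5) (nat_lit 372) (nat_lit 5) (nat_lit 373) (nat_lit 5) (nat_lit 430) (nat_lit 395) (nat_lit 315)) (XT.lf (nat_lit 0) (nat_lit 1773280848) (nat_lit 1368) (nat_lit 795145520) (nat_lit 76) (nat_lit 6259395177)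 (nat_lit 354) (nat_lit 5) (nat_lit 372) (nat_lit 5) (nat_lit 355) (nat_lit 5) (nat_lit 431) (nat_lit 395) (nat_lit 314))) (XT.nd (nat_lit 78) (nat_lit 0) (nat_lit 0) (XT.lf (nat_lit 0) (nat_lit 3587920317) (nat_lit 912) (nat_lit 4859590780) (nat_lit 76) (nat_lit 462047774) (nat_lit 343) (nat_lit 5) (nat_lit 355) (nat_lit 5) (nat_lit 344) (nat_lit 5) (nat_lit 432) (nat_lit 395) (nat_lit 313)) (XT.lf (nat_lit 0) (nat_lit 5434081535) (nat_lit 912) (nat_lit 33113269) (nat_lit 76) (nat_lit 3525853248) (nat_lit 343) (nat_lit 5) (nat_lit 355) (nat_lit 5) (nat_lit 344) (nat_lit 5) (nat_lit 433) (nat_lit 395) (nat_lit 312)))))) (XT.nd (nat_lit 546) (nat_lit 3648) (nat_lit 0) (XT.nd (nat_lit 234) (nat_lit 1672) (nat_lit 0) (XT.nd (nat_lit 78) (nat_lit 912) (nat_lit 0) (XT.lf (nat_lit 0) (nat_lit 4929042361) (nat_lit 836) (nat_lit 2393506946) (nat_lit 912) (nat_lit 1755571305) (nat_lit 332) (nat_lit 5) (nat_lit 343) (nat_lit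 5) (nat_lit 344) (nat_lit 5) (nat_lit 434) (nat_lit 395) (nat_lit 311)) (XT.nd (nat_lit 78) (nat_lit 0) (nat_lit 0) (XT.lf (nat_lit 0) (nat_lit 66680634) (nat_lit 912) (nat_lit 8359802813) (nat_lit 76) (nat_lit 738742939) (nat_lit 320) (nat_lit 5) (nat_lit 332) (nat_lit 5) (nat_lit 321) (nat_lit 5) (nat_lit 435) (nat_lit 395) (nat_lit 310)) (XT.lf (nat_lit 0) (nat_lit 1919670824) (nat_lit 912) (nat_lit 3391999589) (nat_lit 76) (nat_lit 3941835807) (nat_lit 320) (nat_lit 5) (nat_lit 332) (nat_lit 5) (nat_lit 321) (nat_lit 5) (nat_lit 436) (nat_lit 395) (nat_lit 309)))) (XT.nd (nat_lit 156) (nat_lit 836) (nat_lit 0) (XT.nd (nat_lit 78) (nat_lit 0) (nat_lit 0) (XT.lf (nat_lit 0) (nat_lit 1671515533) (nat_lit 836) (nat_lit 2123470040) (nat_lit 912) (nat_lit 5548880426) (nat_lit 309) (nat_lit 5) (nat_lit 320) (nat_lit 5) (nat_lit 321) (nat_lit 5) (nat_lit 437) (nat_lit 395) (nat_lit 308)) (XT.lf (nat_lit 0) (nat_lit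 5712794428) (nat_lit 912) (nat_lit 2586696518) (nat_lit 76) (nat_lit 1136461530) (nat_lit 309) (nat_lit 5) (nat_lit 321) (nat_lit 5) (nat_lit 310) (nat_lit 5) (nat_lit 438) (nat_lit 395) (nat_lit 307))) (XT.nd (nat_lit 78) (nat_lit 76) (nat_lit 0) (XT.lf (nat_lit 0) (nat_lit 2595231470) (nat_lit 760) (nat_lit 5079883837) (nat_lit 836) (nat_lit 1854661139) (nat_lit 299) (nat_lit 5) (nat_lit 309) (nat_lit 5) (nat_lit 310) (nat_lit 5) (nat_lit 439) (nat_lit 395) (nat_lit 306)) (XT.lf (nat_lit 0) (nat_lit 43391777) (nat_lit 836) (nat_lit 1735307111) (nat_lit 76) (nat_lit 7846932353) (nat_lit 298) (nat_lit 5) (nat_lit 309) (nat_lit 5) (nat_lit 299) (nat_lit 5) (nat_lit 440) (nat_lit 395) (nat_lit 305))))) (XT.nd (nat_lit 312) (nat_lit 1444) (nat_lit 0) (XT.nd (nat_lit 156) (nat_lit 1444) (nat_lit 0) (XT.nd (nat_lit 78) (nat_lit 0) (nat_lit 0) (XT.lf (nat_lit 0) (nat_lit 1964232171) (nat_lit 836) (nat_lit 6156273485)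 (nat_lit 76) (nat_lit 1602476875) (nat_lit 288) (nat_lit 5) (nat_lit 299) (nat_lit 5) (nat_lit 289) (nat_lit 5) (nat_lit 441) (nat_lit 395) (nat_lit 304)) (XT.lf (nat_lit 0) (nat_lit 3923162226) (nat_lit 836) (nat_lit 861027646) (nat_lit 76) (nat_lit 5038114961) (nat_lit 288) (nat_lit 5) (nat_lit 299) (nat_lit 5) (nat_lit 289) (nat_lit 5) (nat_lit 442) (nat_lit 395) (nat_lit 303))) (XT.nd (nat_lit 78) (nat_lit 760) (nat_lit 0) (XT.lf (nat_lit 0) (nat_lit 4575214947) (nat_lit 684) (nat_lit 1352399942) (nat_lit 760) (nat_lit 3995888913) (nat_lit 279) (nat_lit 5) (nat_lit 288) (nat_lit 5) (nat_lit 289) (nat_lit 5) (nat_lit 443) (nat_lit 395) (nat_lit 302)) (XT.lf (nat_lit 0) (nat_lit 66919513) (nat_lit 760) (nat_lit 7902359312) (nat_lit 836) (nat_lit 2057522246) (nat_lit 269) (nat_lit 5) (nat_lit 279) (nat_lit 5) (nat_lit 280) (nat_lit 5) (nat_lit 444) (nat_lit 395) (nat_lit 301)))) (XT.nd (nat_lit 156) (nat_lit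 684) (nat_lit 0) (XT.nd (nat_lit 78) (nat_lit 760) (nat_lit 0) (XT.lf (nat_lit 0) (nat_lit 5628803963) (nat_lit 760) (nat_lit 4444974200) (nat_lit 836) (nat_lit 57962519) (nat_lit 269) (nat_lit 5) (nat_lit 279) (nat_lit 5) (nat_lit 280) (nat_lit 5) (nat_lit 445) (nat_lit 395) (nat_lit 300)) (XT.lf (nat_lit 0) (nat_lit 1039034458) (nat_lit 684) (nat_lit 900809001) (nat_lit 760) (nat_lit 8299009228) (nat_lit 259) (nat_lit 5) (nat_lit 268) (nat_lit 5) (nat_lit 269) (nat_lit 5) (nat_lit 446) (nat_lit 395) (nat_lit 299))) (XT.nd (nat_lit 78) (nat_lit 684) (nat_lit 0) (XT.lf (nat_lit 0) (nat_lit 4002632469) (nat_lit 760) (nat_lit 3637979662) (nat_lit 76) (nat_lit 2706986568) (nat_lit 259) (nat_lit 5) (nat_lit 269) (nat_lit 5) (nat_lit 260) (nat_lit 5) (nat_lit 447) (nat_lit 395) (nat_lit 298)) (XT.lf (nat_lit 0) (nat_lit 2031107603) (nat_lit 684) (nat_lit 4072921076) (nat_lit 760) (nat_lit 4354559108) (nat_lit 250)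 (nat_lit 5) (nat_lit 259) (nat_lit 5) (nat_lit 260) (nat_lit 5) (nat_lit 448) (nat_lit 395) (nat_lit 297))))))))
noncomputable def xc140 : XT := (XT.nd (nat_lit 2184) (nat_lit 4712) (nat_lit 0) (XT.nd (nat_lit 1092) (nat_lit 3952) (nat_lit 0) (XT.nd (nat_lit 546) (nat_lit 1748) (nat_lit 0) (XT.nd (nat_lit 234) (nat_lit 1824) (nat_lit 0) (XT.nd (nat_lit 78) (nat_lit 684) (nat_lit 0) (XT.lf (nat_lit 0) (nat_lit 7838391835) (nat_lit 684) (nat_lit 411940656) (nat_lit 760) (nat_lit 2321421460) (nat_lit 250) (nat_lit 5) (nat_lit 259) (nat_lit 5) (nat_lit 260) (nat_lit 5) (nat_lit 449) (nat_lit 395) (nat_lit 296)) (XT.nd (nat_lit 78) (nat_lit 76) (nat_lit 0) (XT.lf (nat_lit 0) (nat_lit 3068880800) (nat_lit 608) (nat_lit 7391047362) (nat_lit 684) (nat_lit 226862557) (nat_lit 242) (nat_lit 5) (nat_lit 250) (nat_lit 5) (nat_lit 251) (nat_lit 5) (nat_lit 450) (nat_lit 395) (nat_lit 295)) (XT.lf (nat_lit 0) (nat_lit 1884709398)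 (nat_lit 684) (nat_lit 1819358026) (nat_lit 76) (nat_lit 7099823532) (nat_lit 241) (nat_lit 5) (nat_lit 250) (nat_lit 5) (nat_lit 242) (nat_lit 5) (nat_lit 451) (nat_lit 395) (nat_lit 294)))) (XT.nd (nat_lit 156) (nat_lit 1216) (nat_lit 0) (XT.nd (nat_lit 78) (nat_lit 0) (nat_lit 0) (XT.lf (nat_lit 0) (nat_lit 4042170858) (nat_lit 684) (nat_lit 6800068266) (nat_lit 76) (nat_lit 80943921) (nat_lit 233) (nat_lit 5) (nat_lit 242) (nat_lit 5) (nat_lit 234) (nat_lit 5) (nat_lit 452) (nat_lit 395) (nat_lit 293)) (XT.lf (nat_lit 0) (nat_lit 6259214043) (nat_lit 684) (nat_lit 884455204) (nat_lit 76) (nat_lit 3900876562) (nat_lit 233) (nat_lit 5) (nat_lit 242) (nat_lit 5) (nat_lit 234) (nat_lit 5) (nat_lit 453) (nat_lit 395) (nat_lit 292))) (XT.nd (nat_lit 78) (nat_lit 608) (nat_lit 0) (XT.lf (nat_lit 0) (nat_lit 5193737681) (nat_lit 608) (nat_lit 3340593897) (nat_lit 684) (nat_lit 2633742801) (nat_lit 225) (nat_lit 5)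 (nat_lit 233) (nat_lit 5) (nat_lit 234) (nat_lit 5) (nat_lit 454) (nat_lit 395) (nat_lit 291)) (XT.lf (nat_lit 0) (nat_lit 85033283) (nat_lit 608) (nat_lit 10760166106) (nat_lit 684) (nat_lit 449082133) (nat_lit 217) (nat_lit 5) (nat_lit 225) (nat_lit 5) (nat_lit 226) (nat_lit 5) (nat_lit 455) (nat_lit 395) (nat_lit 290))))) (XT.nd (nat_lit 234) (nat_lit 1140) (nat_lit 0) (XT.nd (nat_lit 78) (nat_lit 532) (nat_lit 0) (XT.lf (nat_lit 0) (nat_lit 1798731159) (nat_lit 684) (nat_lit 5133767833) (nat_lit 76) (nat_lit 4489439331) (nat_lit 216) (nat_lit 5) (nat_lit 225) (nat_lit 5) (nat_lit 217) (nat_lit 5) (nat_lit 456) (nat_lit 395) (nat_lit 289)) (XT.nd (nat_lit 78) (nat_lit 0) (nat_lit 0) (XT.lf (nat_lit 0) (nat_lit 1050307052) (nat_lit 532) (nat_lit 3022706637) (nat_lit 608) (nat_lit 7479336892) (nat_lit 209) (nat_lit 5) (nat_lit 216) (nat_lit 5) (nat_lit 217) (nat_lit 5) (nat_lit 457) (nat_lit 395) (nat_lit 288))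 (XT.lf (nat_lit 0) (nat_lit 6414625128) (nat_lit 608) (nat_lit 4287448786) (nat_lit 76) (nat_lit 982872278) (nat_lit 209) (nat_lit 5) (nat_lit 217) (nat_lit 5) (nat_lit 210) (nat_lit 5) (nat_lit 458) (nat_lit 395) (nat_lit 287)))) (XT.nd (nat_lit 156) (nat_lit 608) (nat_lit 0) (XT.nd (nat_lit 78) (nat_lit 0) (nat_lit 0) (XT.lf (nat_lit 0) (nat_lit 2034649502) (nat_lit 532) (nat_lit 6782919647) (nat_lit 608) (nat_lit 3002346298) (nat_lit 202) (nat_lit 5) (nat_lit 209) (nat_lit 5) (nat_lit 210) (nat_lit 5) (nat_lit 459) (nat_lit 395) (nat_lit 286)) (XT.lf (nat_lit 0) (nat_lit 8518006347) (nat_lit 532) (nat_lit 2760824806) (nat_lit 608) (nat_lit 678559260) (nat_lit 202) (nat_lit 5) (nat_lit 209) (nat_lit 5) (nat_lit 210) (nat_lit 5) (nat_lit 460) (nat_lit 395) (nat_lit 285))) (XT.nd (nat_lit 78) (nat_lit 0) (nat_lit 0) (XT.lf (nat_lit 0) (nat_lit 1679852119) (nat_lit 608) (nat_lit 9067067317) (nat_lit 76) (nat_lit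 1350280121) (nat_lit 194) (nat_lit 5) (nat_lit 202) (nat_lit 5) (nat_lit 195) (nat_lit 5) (nat_lit 461) (nat_lit 395) (nat_lit 284)) (XT.lf (nat_lit 0) (nat_lit 4099768363) (nat_lit 608) (nat_lit 2609899547) (nat_lit 76) (nat_lit 5529589660) (nat_lit 194) (nat_lit 5) (nat_lit 202) (nat_lit 5) (nat_lit 195) (nat_lit 5) (nat_lit 462) (nat_lit 395) (nat_lit 283)))))) (XT.nd (nat_lit 546) (nat_lit 1900) (nat_lit 0) (XT.nd (nat_lit 234) (nat_lit 1064) (nat_lit 0) (XT.nd (nat_lit 78) (nat_lit 456) (nat_lit 0) (XT.lf (nat_lit 0) (nat_lit 4006122525) (nat_lit 532) (nat_lit 2570223281) (nat_lit 608) (nat_lit 5807656313) (nat_lit 187) (nat_lit 5) (nat_lit 194) (nat_lit 5) (nat_lit 195) (nat_lit 5) (nat_lit 463) (nat_lit 395) (nat_lit 282)) (XT.nd (nat_lit 78) (nat_lit 456) (nat_lit 0) (XT.lf (nat_lit 0) (nat_lit 9113230410) (nat_lit 608) (nat_lit 1775298203) (nat_lit 76) (nat_lit 1642907856) (nat_lit 187) (nat_lit 5) (nat_lit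 195) (nat_lit 5) (nat_lit 188) (nat_lit 5) (nat_lit 464) (nat_lit 395) (nat_lit 281)) (XT.lf (nat_lit 0) (nat_lit 4985137678) (nat_lit 456) (nat_lit 6747867782) (nat_lit 532) (nat_lit 948181211) (nat_lit 181) (nat_lit 5) (nat_lit 187) (nat_lit 5) (nat_lit 188) (nat_lit 5) (nat_lit 465) (nat_lit 395) (nat_lit 280)))) (XT.nd (nat_lit 156) (nat_lit 456) (nat_lit 0) (XT.nd (nat_lit 78) (nat_lit 532) (nat_lit 0) (XT.lf (nat_lit 0) (nat_lit 1545463358) (nat_lit 532) (nat_lit 961773471) (nat_lit 76) (nat_lit 10326604312) (nat_lit 180) (nat_lit 5) (nat_lit 187) (nat_lit 5) (nat_lit 181) (nat_lit 5) (nat_lit 466) (nat_lit 395) (nat_lit 279)) (XT.lf (nat_lit 0) (nat_lit 4110210947) (nat_lit 608) (nat_lit 7044232791) (nat_lit 76) (nat_lit 1834310717) (nat_lit 173) (nat_lit 5) (nat_lit 181) (nat_lit 5) (nat_lit 174) (nat_lit 5) (nat_lit 467) (nat_lit 395) (nat_lit 278))) (XT.nd (nat_lit 78) (nat_lit 456) (nat_lit 0) (XT.lf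 (nat_lit 0) (nat_lit 6732676958) (nat_lit 608) (nat_lit 183667457) (nat_lit 76) (nat_lit 6230302591) (nat_lit 173) (nat_lit 5) (nat_lit 181) (nat_lit 5) (nat_lit 174) (nat_lit 5) (nat_lit 468) (nat_lit 395) (nat_lit 277)) (XT.lf (nat_lit 0) (nat_lit 6882448896) (nat_lit 456) (nat_lit 2553478330) (nat_lit 532) (nat_lit 3871212740) (nat_lit 167) (nat_lit 5) (nat_lit 173) (nat_lit 5) (nat_lit 174) (nat_lit 5) (nat_lit 469) (nat_lit 395) (nat_lit 276))))) (XT.nd (nat_lit 234) (nat_lit 912) (nat_lit 0) (XT.nd (nat_lit 78) (nat_lit 532) (nat_lit 0) (XT.lf (nat_lit 0) (nat_lit 594963027) (nat_lit 456) (nat_lit 11599489591) (nat_lit 532) (nat_lit 1276375039) (nat_lit 161) (nat_lit 5) (nat_lit 167) (nat_lit 5) (nat_lit 168) (nat_lit 5) (nat_lit 470) (nat_lit 395) (nat_lit 275)) (XT.nd (nat_lit 78) (nat_lit 456) (nat_lit 0) (XT.lf (nat_lit 0) (nat_lit 1396548663) (nat_lit 532) (nat_lit 5843076257) (nat_lit 76) (nat_lit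 6397111723) (nat_lit 160) (nat_lit 5) (nat_lit 167) (nat_lit 5) (nat_lit 161) (nat_lit 5) (nat_lit 471) (nat_lit 395) (nat_lit 274)) (XT.lf (nat_lit 0) (nat_lit 1317473628) (nat_lit 456) (nat_lit 2781105780) (nat_lit 532) (nat_lit 9707369430) (nat_lit 154) (nat_lit 5) (nat_lit 160) (nat_lit 5) (nat_lit 161) (nat_lit 5) (nat_lit 472) (nat_lit 395) (nat_lit 273)))) (XT.nd (nat_lit 156) (nat_lit 456) (nat_lit 0) (XT.nd (nat_lit 78) (nat_lit 456) (nat_lit 0) (XT.lf (nat_lit 0) (nat_lit 6889891625) (nat_lit 532) (nat_lit 5310912249) (nat_lit 76) (nat_lit 1777044970) (nat_lit 154) (nat_lit 5) (nat_lit 161) (nat_lit 5) (nat_lit 155) (nat_lit 5) (nat_lit 473) (nat_lit 395) (nat_lit 272)) (XT.lf (nat_lit 0) (nat_lit 1996537015) (nat_lit 456) (nat_lit 7756482885) (nat_lit 532) (nat_lit 4399855372) (nat_lit 148) (nat_lit 5) (nat_lit 154) (nat_lit 5) (nat_lit 155) (nat_lit 5) (nat_lit 474) (nat_lit 395) (nat_lit 271))) (XT.nd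 (nat_lit 78) (nat_lit 456) (nat_lit 0) (XT.lf (nat_lit 0) (nat_lit 9500835099) (nat_lit 456) (nat_lit 3192987261) (nat_lit 532) (nat_lit 1637179695) (nat_lit 148) (nat_lit 5) (nat_lit 154) (nat_lit 5) (nat_lit 155) (nat_lit 5) (nat_lit 475) (nat_lit 395) (nat_lit 270)) (XT.lf (nat_lit 0) (nat_lit 1177040426) (nat_lit 456) (nat_lit 11873602556) (nat_lit 76) (nat_lit 1461667278) (nat_lit 142) (nat_lit 5) (nat_lit 148) (nat_lit 5) (nat_lit 143) (nat_lit 5) (nat_lit 476) (nat_lit 395) (nat_lit 269))))))) (XT.nd (nat_lit 1092) (nat_lit 1976) (nat_lit 0) (XT.nd (nat_lit 546) (nat_lit 1444) (nat_lit 0) (XT.nd (nat_lit 234) (nat_lit 836) (nat_lit 0) (XT.nd (nat_lit 78) (nat_lit 456) (nat_lit 0) (XT.lf (nat_lit 0) (nat_lit 4064500808) (nat_lit 456) (nat_lit 4427572962) (nat_lit 76) (nat_lit 6204184462) (nat_lit 142) (nat_lit 5) (nat_lit 148) (nat_lit 5) (nat_lit 143) (nat_lit 5) (nat_lit 477) (nat_lit 395) (nat_lit 268))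 (XT.nd (nat_lit 78) (nat_lit 0) (nat_lit 0) (XT.lf (nat_lit 0) (nat_lit 3188401406) (nat_lit 456) (nat_lit 3827386655) (nat_lit 532) (nat_lit 7867982996) (nat_lit 136) (nat_lit 5) (nat_lit 142) (nat_lit 5) (nat_lit 143) (nat_lit 5) (nat_lit 478) (nat_lit 395) (nat_lit 267)) (XT.lf (nat_lit 0) (nat_lit 10047540122) (nat_lit 532) (nat_lit 4084878575) (nat_lit 76) (nat_lit 942193956) (nat_lit 136) (nat_lit 5) (nat_lit 143) (nat_lit 5) (nat_lit 137) (nat_lit 5) (nat_lit 479) (nat_lit 395) (nat_lit 266)))) (XT.nd (nat_lit 156) (nat_lit 380) (nat_lit 0) (XT.nd (nat_lit 78) (nat_lit 76) (nat_lit 0) (XT.lf (nat_lit 0) (nat_lit 3680240399) (nat_lit 380) (nat_lit 9494701767) (nat_lit 456) (nat_lit 2093635773) (nat_lit 131) (nat_lit 5) (nat_lit 136) (nat_lit 5) (nat_lit 137) (nat_lit 5) (nat_lit 480) (nat_lit 395) (nat_lit 265)) (XT.lf (nat_lit 0) (nat_lit 900099347) (nat_lit 456) (nat_lit 3836418379) (nat_lit 76) (nat_lit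 10729526748) (nat_lit 130) (nat_lit 5) (nat_lit 136) (nat_lit 5) (nat_lit 131) (nat_lit 5) (nat_lit 481) (nat_lit 395) (nat_lit 264))) (XT.nd (nat_lit 78) (nat_lit 0) (nat_lit 0) (XT.lf (nat_lit 0) (nat_lit 3939341248) (nat_lit 456) (nat_lit 11577764376) (nat_lit 76) (nat_lit 149811361) (nat_lit 125) (nat_lit 5) (nat_lit 131) (nat_lit 5) (nat_lit 126) (nat_lit 5) (nat_lit 482) (nat_lit 395) (nat_lit 263)) (XT.lf (nat_lit 0) (nat_lit 7082850441) (nat_lit 456) (nat_lit 3697859281) (nat_lit 76) (nat_lit 5090234186) (nat_lit 125) (nat_lit 5) (nat_lit 131) (nat_lit 5) (nat_lit 126) (nat_lit 5) (nat_lit 483) (nat_lit 395) (nat_lit 262))))) (XT.nd (nat_lit 234) (nat_lit 684) (nat_lit 0) (XT.nd (nat_lit 78) (nat_lit 456) (nat_lit 0) (XT.lf (nat_lit 0) (nat_lit 4377181099) (nat_lit 304) (nat_lit 5926938780) (nat_lit 380) (nat_lit 5774640170) (nat_lit 121) (nat_lit 5) (nat_lit 125) (nat_lit 5) (nat_lit 126) (nat_lit 5)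 (nat_lit 484) (nat_lit 395) (nat_lit 261)) (XT.nd (nat_lit 78) (nat_lit 456) (nat_lit 0) (XT.lf (nat_lit 0) (nat_lit 12644108135) (nat_lit 304) (nat_lit 957128772) (nat_lit 380) (nat_lit 2689273515) (nat_lit 121) (nat_lit 5) (nat_lit 125) (nat_lit 5) (nat_lit 126) (nat_lit 5) (nat_lit 485) (nat_lit 395) (nat_lit 260)) (XT.lf (nat_lit 0) (nat_lit 495365533) (nat_lit 456) (nat_lit 11925180405) (nat_lit 76) (nat_lit 4085025140) (nat_lit 115) (nat_lit 5) (nat_lit 121) (nat_lit 5) (nat_lit 116) (nat_lit 5) (nat_lit 486) (nat_lit 395) (nat_lit 259)))) (XT.nd (nat_lit 156) (nat_lit 380) (nat_lit 0) (XT.nd (nat_lit 78) (nat_lit 304) (nat_lit 0) (XT.lf (nat_lit 0) (nat_lit 3725560962) (nat_lit 456) (nat_lit 3747239176) (nat_lit 76) (nat_lit 9251425817) (nat_lit 115) (nat_lit 5) (nat_lit 121) (nat_lit 5) (nat_lit 116) (nat_lit 5) (nat_lit 487) (nat_lit 395) (nat_lit 258)) (XT.lf (nat_lit 0) (nat_lit 4635812706) (nat_lit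 304) (nat_lit 2401773210) (nat_lit 380) (nat_lit 9909329369) (nat_lit 111) (nat_lit 5) (nat_lit 115) (nat_lit 5) (nat_lit 116) (nat_lit 5) (nat_lit 488) (nat_lit 395) (nat_lit 257))) (XT.nd (nat_lit 78) (nat_lit 380) (nat_lit 0) (XT.lf (nat_lit 0) (nat_lit 10446366617) (nat_lit 380) (nat_lit 3973730942) (nat_lit 76) (nat_lit 2753356292) (nat_lit 111) (nat_lit 5) (nat_lit 116) (nat_lit 5) (nat_lit 112) (nat_lit 5) (nat_lit 489) (nat_lit 395) (nat_lit 256)) (XT.lf (nat_lit 0) (nat_lit 4555264363) (nat_lit 380) (nat_lit 9401004576) (nat_lit 456) (nat_lit 3447600972) (nat_lit 106) (nat_lit 5) (nat_lit 111) (nat_lit 5) (nat_lit 112) (nat_lit 5) (nat_lit 490) (nat_lit 395) (nat_lit 255)))))) (XT.nd (nat_lit 546) (nat_lit 912) (nat_lit 0) (XT.nd (nat_lit 234) (nat_lit 684) (nat_lit 0) (XT.nd (nat_lit 78) (nat_lit 380) (nat_lit 0) (XT.lf (nat_lit 0) (nat_lit 13289868196) (nat_lit 380) (nat_lit 4260754862) (nat_lit 456)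 (nat_lit 87991689) (nat_lit 106) (nat_lit 5) (nat_lit 111) (nat_lit 5) (nat_lit 112) (nat_lit 5) (nat_lit 491) (nat_lit 395) (nat_lit 254)) (XT.nd (nat_lit 78) (nat_lit 0) (nat_lit 0) (XT.lf (nat_lit 0) (nat_lit 3317595571) (nat_lit 380) (nat_lit 13546288251) (nat_lit 76) (nat_lit 1013290922) (nat_lit 101) (nat_lit 5) (nat_lit 106) (nat_lit 5) (nat_lit 102) (nat_lit 5) (nat_lit 492) (nat_lit 395) (nat_lit 253)) (XT.lf (nat_lit 0) (nat_lit 6835534069) (nat_lit 380) (nat_lit 4924573671) (nat_lit 76) (nat_lit 6359483427) (nat_lit 101) (nat_lit 5) (nat_lit 106) (nat_lit 5) (nat_lit 102) (nat_lit 5) (nat_lit 493) (nat_lit 395) (nat_lit 252)))) (XT.nd (nat_lit 156) (nat_lit 380) (nat_lit 0) (XT.nd (nat_lit 78) (nat_lit 0) (nat_lit 0) (XT.lf (nat_lit 0) (nat_lit 3902403895) (nat_lit 304) (nat_lit 6534827220) (nat_lit 380) (nat_lit 7929361917) (nat_lit 97) (nat_lit 5) (nat_lit 101) (nat_lit 5) (nat_lit 102) (nat_lit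 5) (nat_lit 494) (nat_lit 395) (nat_lit 251)) (XT.lf (nat_lit 0) (nat_lit 12954443609) (nat_lit 304) (nat_lit 1177743453) (nat_lit 380) (nat_lit 4485928382) (nat_lit 97) (nat_lit 5) (nat_lit 101) (nat_lit 5) (nat_lit 102) (nat_lit 5) (nat_lit 495) (nat_lit 395) (nat_lit 250))) (XT.nd (nat_lit 78) (nat_lit 76) (nat_lit 0) (XT.lf (nat_lit 0) (nat_lit 3310371517) (nat_lit 304) (nat_lit 14628363895) (nat_lit 380) (nat_lit 935183939) (nat_lit 93) (nat_lit 5) (nat_lit 97) (nat_lit 5) (nat_lit 98) (nat_lit 5) (nat_lit 496) (nat_lit 395) (nat_lit 249)) (XT.lf (nat_lit 0) (nat_lit 2685797949) (nat_lit 380) (nat_lit 6637014989) (nat_lit 76) (nat_lit 9810993108) (nat_lit 92) (nat_lit 5) (nat_lit 97) (nat_lit 5) (nat_lit 93) (nat_lit 5) (nat_lit 497) (nat_lit 395) (nat_lit 248))))) (XT.nd (nat_lit 234) (nat_lit 380) (nat_lit 0) (XT.nd (nat_lit 78) (nat_lit 228) (nat_lit 0) (XT.lf (nat_lit 0) (nat_lit 2476581419) (nat_lit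 304) (nat_lit 3894814647) (nat_lit 380) (nat_lit 13027281034) (nat_lit 88) (nat_lit 5) (nat_lit 92) (nat_lit 5) (nat_lit 93) (nat_lit 5) (nat_lit 498) (nat_lit 395) (nat_lit 247)) (XT.nd (nat_lit 78) (nat_lit 228) (nat_lit 0) (XT.lf (nat_lit 0) (nat_lit 10174892732) (nat_lit 380) (nat_lit 7834319081) (nat_lit 76) (nat_lit 1658754565) (nat_lit 88) (nat_lit 5) (nat_lit 93) (nat_lit 5) (nat_lit 89) (nat_lit 5) (nat_lit 499) (nat_lit 395) (nat_lit 246)) (XT.lf (nat_lit 0) (nat_lit 1410441034) (nat_lit 228) (nat_lit 12667885449) (nat_lit 304) (nat_lit 5863842065) (nat_lit 85) (nat_lit 5) (nat_lit 88) (nat_lit 5) (nat_lit 89) (nat_lit 5) (nat_lit 500) (nat_lit 395) (nat_lit 245)))) (XT.nd (nat_lit 156) (nat_lit 0) (nat_lit 0) (XT.nd (nat_lit 78) (nat_lit 380) (nat_lit 0) (XT.lf (nat_lit 0) (nat_lit 10928930858) (nat_lit 228) (nat_lit 7172491221) (nat_lit 304) (nat_lit 2119605181) (nat_lit 85) (nat_lit 5) (nat_lit 88)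 (nat_lit 5) (nat_lit 89) (nat_lit 5) (nat_lit 501) (nat_lit 395) (nat_lit 244)) (XT.lf (nat_lit 0) (nat_lit 105507121) (nat_lit 304) (nat_lit 1561565416) (nat_lit 380) (nat_lit 18838377201) (nat_lit 80) (nat_lit 5) (nat_lit 84) (nat_lit 5) (nat_lit 85) (nat_lit 5) (nat_lit 502) (nat_lit 395) (nat_lit 243))) (XT.nd (nat_lit 78) (nat_lit 0) (nat_lit 0) (XT.lf (nat_lit 0) (nat_lit 5580137672) (nat_lit 380) (nat_lit 11035998285) (nat_lit 76) (nat_lit 4177567900) (nat_lit 80) (nat_lit 5) (nat_lit 85) (nat_lit 5) (nat_lit 81) (nat_lit 5) (nat_lit 503) (nat_lit 395) (nat_lit 242)) (XT.lf (nat_lit 0) (nat_lit 9571238257) (nat_lit 380) (nat_lit 1512013073) (nat_lit 76) (nat_lit 10004480274) (nat_lit 80) (nat_lit 5) (nat_lit 85) (nat_lit 5) (nat_lit 81) (nat_lit 5) (nat_lit 504) (nat_lit 395) (nat_lit 241))))))))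
noncomputable def xc141 : XT := (XT.nd (nat_lit 51324) (nat_lit 0) (nat_lit 24776) (XT.nd (nat_lit 1092) (nat_lit 760) (nat_lit 0) (XT.nd (nat_lit 546) (nat_lit 760) (nat_lit 0) (XT.nd (nat_lit 234) (nat_lit 456) (nat_lit 0) (XT.nd (nat_lit 78) (nat_lit 380) (nat_lit 0) (XT.lf (nat_lit 0) (nat_lit 8294672756) (nat_lit 228) (nat_lit 5390982474) (nat_lit 304) (nat_lit 7701118739) (nat_lit 77) (nat_lit 5) (nat_lit 80) (nat_lit 5) (nat_lit 81) (nat_lit 5) (nat_lit 505) (nat_lit 395) (nat_lit 240)) (XT.nd (nat_lit 78) (nat_lit 380) (nat_lit 0) (XT.lf (nat_lit 0) (nat_lit 17884965400) (nat_lit 304) (nat_lit 3392993895) (nat_lit 76) (nat_lit 413789661) (nat_lit 77) (nat_lit 5) (nat_lit 81) (nat_lit 5) (nat_lit 78) (nat_lit 5) (nat_lit 506) (nat_lit 395) (nat_lit 239)) (XT.lf (nat_lit 0) (nat_lit 231736835) (nat_lit 380) (nat_lit 15469205105) (nat_lit 76) (nat_lit 6300494377) (nat_lit 72) (nat_lit 5) (nat_lit 77) (nat_lit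 5) (nat_lit 73) (nat_lit 5) (nat_lit 507) (nat_lit 395) (nat_lit 238)))) (XT.nd (nat_lit 156) (nat_lit 228) (nat_lit 0) (XT.nd (nat_lit 78) (nat_lit 228) (nat_lit 0) (XT.lf (nat_lit 0) (nat_lit 4312942993) (nat_lit 380) (nat_lit 5656599128) (nat_lit 76) (nat_lit 12347017933) (nat_lit 72) (nat_lit 5) (nat_lit 77) (nat_lit 5) (nat_lit 73) (nat_lit 5) (nat_lit 508) (nat_lit 395) (nat_lit 237)) (XT.lf (nat_lit 0) (nat_lit 4393876077) (nat_lit 228) (nat_lit 4100543763) (nat_lit 304) (nat_lit 14143197074) (nat_lit 69) (nat_lit 5) (nat_lit 72) (nat_lit 5) (nat_lit 73) (nat_lit 5) (nat_lit 509) (nat_lit 395) (nat_lit 236))) (XT.nd (nat_lit 78) (nat_lit 228) (nat_lit 0) (XT.lf (nat_lit 0) (nat_lit 12800149864) (nat_lit 304) (nat_lit 8270857406) (nat_lit 76) (nat_lit 1893278675) (nat_lit 69) (nat_lit 5) (nat_lit 73) (nat_lit 5) (nat_lit 70) (nat_lit 5) (nat_lit 510) (nat_lit 395) (nat_lit 235)) (XT.lf (nat_lit 0) (nat_lit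 1883278611) (nat_lit 228) (nat_lit 15338461456) (nat_lit 304) (nat_lit 6075156816) (nat_lit 66) (nat_lit 5) (nat_lit 69) (nat_lit 5) (nat_lit 70) (nat_lit 5) (nat_lit 511) (nat_lit 395) (nat_lit 234))))) (XT.nd (nat_lit 234) (nat_lit 456) (nat_lit 0) (XT.nd (nat_lit 78) (nat_lit 304) (nat_lit 0) (XT.lf (nat_lit 0) (nat_lit 12336965905) (nat_lit 228) (nat_lit 9440747541) (nat_lit 304) (nat_lit 1857530937) (nat_lit 66) (nat_lit 5) (nat_lit 69) (nat_lit 5) (nat_lit 70) (nat_lit 5) (nat_lit 512) (nat_lit 395) (nat_lit 233)) (XT.nd (nat_lit 78) (nat_lit 228) (nat_lit 0) (XT.lf (nat_lit 0) (nat_lit 2402959649) (nat_lit 304) (nat_lit 1011969729) (nat_lit 76) (nat_lit 20565303846) (nat_lit 65) (nat_lit 5) (nat_lit 69) (nat_lit 5) (nat_lit 66) (nat_lit 5) (nat_lit 513) (nat_lit 395) (nat_lit 232)) (XT.lf (nat_lit 0) (nat_lit 6794944515) (nat_lit 304) (nat_lit 14770788912) (nat_lit 76) (nat_lit 2764722891) (nat_lit 62)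 (nat_lit 5) (nat_lit 66) (nat_lit 5) (nat_lit 63) (nat_lit 5) (nat_lit 514) (nat_lit 395) (nat_lit 231)))) (XT.nd (nat_lit 156) (nat_lit 228) (nat_lit 0) (XT.nd (nat_lit 78) (nat_lit 228) (nat_lit 0) (XT.lf (nat_lit 0) (nat_lit 11295021869) (nat_lit 304) (nat_lit 4368965472) (nat_lit 76) (nat_lit 9023294591) (nat_lit 62) (nat_lit 5) (nat_lit 66) (nat_lit 5) (nat_lit 63) (nat_lit 5) (nat_lit 515) (nat_lit 395) (nat_lit 230)) (XT.lf (nat_lit 0) (nat_lit 6308720897) (nat_lit 228) (nat_lit 9608322177) (nat_lit 304) (nat_lit 9133565191) (nat_lit 59) (nat_lit 5) (nat_lit 62) (nat_lit 5) (nat_lit 63) (nat_lit 5) (nat_lit 516) (nat_lit 395) (nat_lit 229))) (XT.nd (nat_lit 78) (nat_lit 228) (nat_lit 0) (XT.lf (nat_lit 0) (nat_lit 17244368038) (nat_lit 228) (nat_lit 3407517261) (nat_lit 304) (nat_lit 4768911207) (nat_lit 59) (nat_lit 5) (nat_lit 62) (nat_lit 5) (nat_lit 63) (nat_lit 5) (nat_lit 517) (nat_lit 395) (nat_lit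 228)) (XT.lf (nat_lit 0) (nat_lit 2600843367) (nat_lit 228) (nat_lit 22907608841) (nat_lit 304) (nat_lit 289398684) (nat_lit 56) (nat_lit 5) (nat_lit 59) (nat_lit 5) (nat_lit 60) (nat_lit 5) (nat_lit 518) (nat_lit 395) (nat_lit 227)))))) (XT.nd (nat_lit 546) (nat_lit 228) (nat_lit 0) (XT.nd (nat_lit 234) (nat_lit 228) (nat_lit 0) (XT.nd (nat_lit 78) (nat_lit 228) (nat_lit 0) (XT.lf (nat_lit 0) (nat_lit 4292590559) (nat_lit 304) (nat_lit 12542259850) (nat_lit 76) (nat_lit 9345662731) (nat_lit 55) (nat_lit 5) (nat_lit 59) (nat_lit 5) (nat_lit 56) (nat_lit 5) (nat_lit 519) (nat_lit 395) (nat_lit 226)) (XT.nd (nat_lit 78) (nat_lit 228) (nat_lit 0) (XT.lf (nat_lit 0) (nat_lit 8953738081) (nat_lit 304) (nat_lit 1690734500) (nat_lit 76) (nat_lit 15926492690) (nat_lit 55) (nat_lit 5) (nat_lit 59) (nat_lit 5) (nat_lit 56) (nat_lit 5) (nat_lit 520) (nat_lit 395) (nat_lit 225)) (XT.lf (nat_lit 0) (nat_lit 9488141676) (nat_lit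 228) (nat_lit 4273128929) (nat_lit 304) (nat_lit 13206895310) (nat_lit 52) (nat_lit 5) (nat_lit 55) (nat_lit 5) (nat_lit 56) (nat_lit 5) (nat_lit 521) (nat_lit 395) (nat_lit 224)))) (XT.nd (nat_lit 156) (nat_lit 76) (nat_lit 0) (XT.nd (nat_lit 78) (nat_lit 152) (nat_lit 0) (XT.lf (nat_lit 0) (nat_lit 18682421433) (nat_lit 304) (nat_lit 6488254142) (nat_lit 76) (nat_lit 2202288301) (nat_lit 52) (nat_lit 5) (nat_lit 56) (nat_lit 5) (nat_lit 53) (nat_lit 5) (nat_lit 522) (nat_lit 395) (nat_lit 223)) (XT.lf (nat_lit 0) (nat_lit 4743381680) (nat_lit 152) (nat_lit 19009470874) (nat_lit 228) (nat_lit 4031990703) (nat_lit 50) (nat_lit 5) (nat_lit 52) (nat_lit 5) (nat_lit 53) (nat_lit 5) (nat_lit 523) (nat_lit 395) (nat_lit 222))) (XT.nd (nat_lit 78) (nat_lit 0) (nat_lit 0) (XT.lf (nat_lit 0) (nat_lit 745897235) (nat_lit 228) (nat_lit 11935352120) (nat_lit 76) (nat_lit 15522907825) (nat_lit 49) (nat_lit 5) (nat_lit 52)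 (nat_lit 5) (nat_lit 50) (nat_lit 5) (nat_lit 524) (nat_lit 395) (nat_lit 221)) (XT.lf (nat_lit 0) (nat_lit 5557342923) (nat_lit 228) (nat_lit 647451398) (nat_lit 76) (nat_lit 22426692720) (nat_lit 49) (nat_lit 5) (nat_lit 52) (nat_lit 5) (nat_lit 50) (nat_lit 5) (nat_lit 525) (nat_lit 395) (nat_lit 220))))) (XT.nd (nat_lit 49374) (nat_lit 0) (nat_lit 38076) (XT.nd (nat_lit 49218) (nat_lit 0) (nat_lit 39064) (XT.lf (nat_lit 0) (nat_lit 10531555990) (nat_lit 304) (nat_lit 18072064007) (nat_lit 76) (nat_lit 462415141) (nat_lit 46) (nat_lit 5) (nat_lit 50) (nat_lit 5) (nat_lit 47) (nat_lit 5) (nat_lit 526) (nat_lit 395) (nat_lit 219)) (XT.nd (nat_lit 78) (nat_lit 0) (nat_lit 0) (XT.lf (nat_lit 0) (nat_lit 1740259056) (nat_lit 988) (nat_lit 865260444) (nat_lit 988) (nat_lit 865260444) (nat_lit 560) (nat_lit 3) (nat_lit 573) (nat_lit 3) (nat_lit 573) (nat_lit 5) (nat_lit 396) (nat_lit 396) (nat_lit 348)) (XT.lf (nat_lit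 76) (nat_lit 1496034385) (nat_lit 0) (nat_lit 3808636805) (nat_lit 988) (nat_lit 1668617894) (nat_lit 561) (nat_lit 5) (nat_lit 560) (nat_lit 3) (nat_lit 573) (nat_lit 5) (nat_lit 397) (nat_lit 396) (nat_lit 347)))) (XT.nd (nat_lit 156) (nat_lit 0) (nat_lit 76) (XT.nd (nat_lit 78) (nat_lit 0) (nat_lit 0) (XT.lf (nat_lit 0) (nat_lit 122053586) (nat_lit 988) (nat_lit 2220780386) (nat_lit 1064) (nat_lit 4663557143) (nat_lit 547) (nat_lit 5) (nat_lit 560) (nat_lit 3) (nat_lit 561) (nat_lit 5) (nat_lit 398) (nat_lit 396) (nat_lit 346)) (XT.lf (nat_lit 76) (nat_lit 1079594069) (nat_lit 0) (nat_lit 807360787) (nat_lit 1064) (nat_lit 5153812446) (nat_lit 548) (nat_lit 5) (nat_lit 547) (nat_lit 5) (nat_lit 561) (nat_lit 5) (nat_lit 399) (nat_lit 396) (nat_lit 345))) (XT.nd (nat_lit 78) (nat_lit 0) (nat_lit 0) (XT.lf (nat_lit 0) (nat_lit 3661699925) (nat_lit 988) (nat_lit 2629752936) (nat_lit 1064) (nat_lit 784934185)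 (nat_lit 548) (nat_lit 5) (nat_lit 561) (nat_lit 5) (nat_lit 562) (nat_lit 5) (nat_lit 400) (nat_lit 396) (nat_lit 344)) (XT.lf (nat_lit 76) (nat_lit 747980686) (nat_lit 0) (nat_lit 4689669904) (nat_lit 1064) (nat_lit 1675800411) (nat_lit 549) (nat_lit 5) (nat_lit 548) (nat_lit 5) (nat_lit 562) (nat_lit 5) (nat_lit 401) (nat_lit 396) (nat_lit 343))))))) (XT.nd (nat_lit 1092) (nat_lit 10108) (nat_lit 0) (XT.nd (nat_lit 546) (nat_lit 1140) (nat_lit 0) (XT.nd (nat_lit 234) (nat_lit 1064) (nat_lit 0) (XT.nd (nat_lit 78) (nat_lit 0) (nat_lit 0) (XT.lf (nat_lit 0) (nat_lit 70230087) (nat_lit 1064) (nat_lit 2947985290) (nat_lit 1140) (nat_lit 4133599399) (nat_lit 534) (nat_lit 5) (nat_lit 548) (nat_lit 5) (nat_lit 549) (nat_lit 5) (nat_lit 402) (nat_lit 396) (nat_lit 342)) (XT.nd (nat_lit 78) (nat_lit 0) (nat_lit 76) (XT.lf (nat_lit 76) (nat_lit 508672054) (nat_lit 0) (nat_lit 1280144436) (nat_lit 1140) (nat_lit 5402749685)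 (nat_lit 535) (nat_lit 5) (nat_lit 534) (nat_lit 5) (nat_lit 549) (nat_lit 5) (nat_lit 403) (nat_lit 396) (nat_lit 341)) (XT.lf (nat_lit 0) (nat_lit 3522442752) (nat_lit 1064) (nat_lit 3186221850) (nat_lit 1140) (nat_lit 523877162) (nat_lit 535) (nat_lit 5) (nat_lit 549) (nat_lit 5) (nat_lit 550) (nat_lit 5) (nat_lit 404) (nat_lit 396) (nat_lit 340)))) (XT.nd (nat_lit 156) (nat_lit 1140) (nat_lit 0) (XT.nd (nat_lit 78) (nat_lit 0) (nat_lit 0) (XT.lf (nat_lit 76) (nat_lit 351418641) (nat_lit 0) (nat_lit 4908470288) (nat_lit 1140) (nat_lit 2015106676) (nat_lit 536) (nat_lit 5) (nat_lit 535) (nat_lit 5) (nat_lit 550) (nat_lit 5) (nat_lit 405) (nat_lit 396) (nat_lit 339)) (XT.lf (nat_lit 76) (nat_lit 3978070760) (nat_lit 0) (nat_lit 3034436518) (nat_lit 1140) (nat_lit 306223653) (nat_lit 536) (nat_lit 5) (nat_lit 535) (nat_lit 5) (nat_lit 550) (nat_lit 5) (nat_lit 406) (nat_lit 396) (nat_lit 338))) (XT.nd (nat_lit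 78) (nat_lit 0) (nat_lit 76) (XT.lf (nat_lit 76) (nat_lit 283281959) (nat_lit 0) (nat_lit 1096089596) (nat_lit 1216) (nat_lit 5984594538) (nat_lit 521) (nat_lit 5) (nat_lit 520) (nat_lit 5) (nat_lit 536) (nat_lit 5) (nat_lit 407) (nat_lit 396) (nat_lit 337)) (XT.lf (nat_lit 0) (nat_lit 3083137245) (nat_lit 1140) (nat_lit 3418354864) (nat_lit 1216) (nat_lit 908840704) (nat_lit 521) (nat_lit 5) (nat_lit 536) (nat_lit 5) (nat_lit 537) (nat_lit 5) (nat_lit 408) (nat_lit 396) (nat_lit 336))))) (XT.nd (nat_lit 234) (nat_lit 0) (nat_lit 76) (XT.nd (nat_lit 78) (nat_lit 1216) (nat_lit 0) (XT.lf (nat_lit 76) (nat_lit 288463913) (nat_lit 0) (nat_lit 4502693979) (nat_lit 1216) (nat_lit 2667103140) (nat_lit 522) (nat_lit 5) (nat_lit 521) (nat_lit 5) (nat_lit 537) (nat_lit 5) (nat_lit 409) (nat_lit 396) (nat_lit 335)) (XT.nd (nat_lit 78) (nat_lit 1216) (nat_lit 0) (XT.lf (nat_lit 76) (nat_lit 4090640629) (nat_lit 0) (nat_lit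 2427285864) (nat_lit 1216) (nat_lit 989566593) (nat_lit 522) (nat_lit 5) (nat_lit 521) (nat_lit 5) (nat_lit 537) (nat_lit 5) (nat_lit 410) (nat_lit 396) (nat_lit 334)) (XT.lf (nat_lit 76) (nat_lit 386372119) (nat_lit 0) (nat_lit 290310022) (nat_lit 1292) (nat_lit 6881677043) (nat_lit 506) (nat_lit 5) (nat_lit 505) (nat_lit 5) (nat_lit 522) (nat_lit 5) (nat_lit 411) (nat_lit 396) (nat_lit 333)))) (XT.nd (nat_lit 156) (nat_lit 0) (nat_lit 0) (XT.nd (nat_lit 78) (nat_lit 0) (nat_lit 0) (XT.lf (nat_lit 0) (nat_lit 2361142131) (nat_lit 1216) (nat_lit 3342636102) (nat_lit 1292) (nat_lit 1906405703) (nat_lit 506) (nat_lit 5) (nat_lit 522) (nat_lit 5) (nat_lit 523) (nat_lit 5) (nat_lit 412) (nat_lit 396) (nat_lit 332)) (XT.lf (nat_lit 76) (nat_lit 543152789) (nat_lit 0) (nat_lit 3505093693) (nat_lit 1292) (nat_lit 3615453798) (nat_lit 507) (nat_lit 5) (nat_lit 506) (nat_lit 5) (nat_lit 523) (nat_lit 5) (nat_lit 413)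 (nat_lit 396) (nat_lit 331))) (XT.nd (nat_lit 78) (nat_lit 0) (nat_lit 76) (XT.lf (nat_lit 76) (nat_lit 4526784491) (nat_lit 0) (nat_lit 1228797409) (nat_lit 1292) (nat_lit 1963008801) (nat_lit 507) (nat_lit 5) (nat_lit 506) (nat_lit 5) (nat_lit 523) (nat_lit 5) (nat_lit 414) (nat_lit 396) (nat_lit 330)) (XT.lf (nat_lit 76) (nat_lit 793322232) (nat_lit 0) (nat_lit 6680820566) (nat_lit 1292) (nat_lit 300927428) (nat_lit 508) (nat_lit 5) (nat_lit 507) (nat_lit 5) (nat_lit 524) (nat_lit 5) (nat_lit 415) (nat_lit 396) (nat_lit 329)))))) (XT.nd (nat_lit 546) (nat_lit 6308) (nat_lit 0) (XT.nd (nat_lit 234) (nat_lit 2660) (nat_lit 0) (XT.nd (nat_lit 78) (nat_lit 0) (nat_lit 0) (XT.lf (nat_lit 0) (nat_lit 1370901359) (nat_lit 1292) (nat_lit 2973988183) (nat_lit 1368) (nat_lit 3487744458) (nat_lit 490) (nat_lit 5) (nat_lit 507) (nat_lit 5) (nat_lit 508) (nat_lit 5) (nat_lit 416) (nat_lit 396) (nat_lit 328)) (XT.nd (nat_lit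 78) (nat_lit 0) (nat_lit 76) (XT.lf (nat_lit 76) (nat_lit 1101057520) (nat_lit 0) (nat_lit 1944012013) (nat_lit 1368) (nat_lit 4846812066) (nat_lit 491) (nat_lit 5) (nat_lit 490) (nat_lit 5) (nat_lit 508) (nat_lit 5) (nat_lit 417) (nat_lit 396) (nat_lit 327)) (XT.lf (nat_lit 0) (nat_lit 4742431252) (nat_lit 1292) (nat_lit 2683318508) (nat_lit 76) (nat_lit 526800555) (nat_lit 491) (nat_lit 5) (nat_lit 508) (nat_lit 5) (nat_lit 492) (nat_lit 5) (nat_lit 418) (nat_lit 396) (nat_lit 326)))) (XT.nd (nat_lit 156) (nat_lit 1368) (nat_lit 0) (XT.nd (nat_lit 78) (nat_lit 76) (nat_lit 0) (XT.lf (nat_lit 0) (nat_lit 1487570095) (nat_lit 1292) (nat_lit 4975705547) (nat_lit 1368) (nat_lit 1551395828) (nat_lit 474) (nat_lit 5) (nat_lit 491) (nat_lit 5) (nat_lit 492) (nat_lit 5) (nat_lit 419) (nat_lit 396) (nat_lit 325)) (XT.lf (nat_lit 0) (nat_lit 124026812) (nat_lit 1368) (nat_lit 2326156248) (nat_lit 76) (nat_lit 5628155008)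 (nat_lit 473) (nat_lit 5) (nat_lit 491) (nat_lit 5) (nat_lit 474) (nat_lit 5) (nat_lit 420) (nat_lit 396) (nat_lit 324))) (XT.nd (nat_lit 78) (nat_lit 0) (nat_lit 0) (XT.lf (nat_lit 0) (nat_lit 1793755780) (nat_lit 1444) (nat_lit 6195605396) (nat_lit 76) (nat_lit 154108361) (nat_lit 455) (nat_lit 5) (nat_lit 474) (nat_lit 5) (nat_lit 456) (nat_lit 5) (nat_lit 421) (nat_lit 396) (nat_lit 323)) (XT.lf (nat_lit 0) (nat_lit 3497213235) (nat_lit 1444) (nat_lit 1912757786) (nat_lit 76) (nat_lit 2799953443) (nat_lit 455) (nat_lit 5) (nat_lit 474) (nat_lit 5) (nat_lit 456) (nat_lit 5) (nat_lit 422) (nat_lit 396) (nat_lit 322))))) (XT.nd (nat_lit 234) (nat_lit 3268) (nat_lit 0) (XT.nd (nat_lit 78) (nat_lit 1596) (nat_lit 0) (XT.lf (nat_lit 0) (nat_lit 2462818465) (nat_lit 1444) (nat_lit 2756925762) (nat_lit 1520) (nat_lit 3058291141) (nat_lit 436) (nat_lit 5) (nat_lit 455) (nat_lit 5) (nat_lit 456) (nat_lit 5) (nat_lit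 423) (nat_lit 396) (nat_lit 321)) (XT.nd (nat_lit 78) (nat_lit 1596) (nat_lit 0) (XT.lf (nat_lit 0) (nat_lit 6926771538) (nat_lit 1444) (nat_lit 32248893) (nat_lit 1520) (nat_lit 1388868605) (nat_lit 436) (nat_lit 5) (nat_lit 455) (nat_lit 5) (nat_lit 456) (nat_lit 5) (nat_lit 424) (nat_lit 396) (nat_lit 320)) (XT.lf (nat_lit 0) (nat_lit 317632391) (nat_lit 1596) (nat_lit 5363196600) (nat_lit 76) (nat_lit 2738139283) (nat_lit 415) (nat_lit 5) (nat_lit 436) (nat_lit 5) (nat_lit 416) (nat_lit 5) (nat_lit 425) (nat_lit 396) (nat_lit 319)))) (XT.nd (nat_lit 156) (nat_lit 1672) (nat_lit 0) (XT.nd (nat_lit 78) (nat_lit 1596) (nat_lit 0) (XT.lf (nat_lit 0) (nat_lit 2019793054) (nat_lit 1596) (nat_lit 884775164) (nat_lit 76) (nat_lit 5587139652) (nat_lit 415) (nat_lit 5) (nat_lit 436) (nat_lit 5) (nat_lit 416) (nat_lit 5) (nat_lit 426) (nat_lit 396) (nat_lit 318)) (XT.lf (nat_lit 0) (nat_lit 3706845825) (nat_lit 1596)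 (nat_lit 44096879) (nat_lit 1672) (nat_lit 4815085062) (nat_lit 394) (nat_lit 5) (nat_lit 415) (nat_lit 5) (nat_lit 416) (nat_lit 5) (nat_lit 427) (nat_lit 396) (nat_lit 317))) (XT.nd (nat_lit 78) (nat_lit 1672) (nat_lit 0) (XT.lf (nat_lit 0) (nat_lit 5512662784) (nat_lit 1672) (nat_lit 283563146) (nat_lit 76) (nat_lit 2845713127) (nat_lit 394) (nat_lit 5) (nat_lit 416) (nat_lit 5) (nat_lit 395) (nat_lit 5) (nat_lit 428) (nat_lit 396) (nat_lit 316)) (XT.lf (nat_lit 0) (nat_lit 4416250923) (nat_lit 1672) (nat_lit 2894207679) (nat_lit 1748) (nat_lit 1408916621) (nat_lit 372) (nat_lit 5) (nat_lit 394) (nat_lit 5) (nat_lit 395) (nat_lit 5) (nat_lit 429) (nat_lit 396) (nat_lit 315))))))))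
noncomputable def xc142 : XT := (XT.nd (nat_lit 2184) (nat_lit 7220) (nat_lit 0) (XT.nd (nat_lit 1092) (nat_lit 4788) (nat_lit 0) (XT.nd (nat_lit 546) (nat_lit 3116) (nat_lit 0) (XT.nd (nat_lit 234) (nat_lit 1748) (nat_lit 0) (XT.nd (nat_lit 78) (nat_lit 836) (nat_lit 0) (XT.lf (nat_lit 0) (nat_lit 318333634) (nat_lit 1368) (nat_lit 8405988689) (nat_lit 76) (nat_lit 74475059) (nat_lit 354) (nat_lit 5) (nat_lit 372) (nat_lit 5) (nat_lit 355) (nat_lit 5) (nat_lit 430) (nat_lit 396) (nat_lit 314)) (XT.nd (nat_lit 78) (nat_lit 836) (nat_lit 0) (XT.lf (nat_lit 0) (nat_lit 2081977776) (nat_lit 1368) (nat_lit 3692527734) (nat_lit 76) (nat_lit 3104724051) (nat_lit 354) (nat_lit 5) (nat_lit 372) (nat_lit 5) (nat_lit 355) (nat_lit 5) (nat_lit 431) (nat_lit 396) (nat_lit 313)) (XT.lf (nat_lit 0) (nat_lit 1104592446) (nat_lit 836) (nat_lit 2756476297) (nat_lit 912) (nat_lit 5100619850) (nat_lit 343) (nat_lit 5) (nat_lit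 354) (nat_lit 5) (nat_lit 355) (nat_lit 5) (nat_lit 432) (nat_lit 396) (nat_lit 312)))) (XT.nd (nat_lit 156) (nat_lit 912) (nat_lit 0) (XT.nd (nat_lit 78) (nat_lit 836) (nat_lit 0) (XT.lf (nat_lit 0) (nat_lit 5676155227) (nat_lit 912) (nat_lit 3025343896) (nat_lit 76) (nat_lit 344310672) (nat_lit 343) (nat_lit 5) (nat_lit 355) (nat_lit 5) (nat_lit 344) (nat_lit 5) (nat_lit 433) (nat_lit 396) (nat_lit 311)) (XT.lf (nat_lit 0) (nat_lit 1884507473) (nat_lit 836) (nat_lit 5647428914) (nat_lit 912) (nat_lit 1599610021) (nat_lit 332) (nat_lit 5) (nat_lit 343) (nat_lit 5) (nat_lit 344) (nat_lit 5) (nat_lit 434) (nat_lit 396) (nat_lit 310))) (XT.nd (nat_lit 78) (nat_lit 836) (nat_lit 0) (XT.lf (nat_lit 0) (nat_lit 197634416) (nat_lit 912) (nat_lit 2311694439) (nat_lit 76) (nat_lit 6709772235) (nat_lit 331) (nat_lit 5) (nat_lit 343) (nat_lit 5) (nat_lit 332) (nat_lit 5) (nat_lit 435) (nat_lit 396) (nat_lit 309)) (XT.lf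 (nat_lit 0) (nat_lit 2006355900) (nat_lit 912) (nat_lit 6590281363) (nat_lit 76) (nat_lit 711638759) (nat_lit 320) (nat_lit 5) (nat_lit 332) (nat_lit 5) (nat_lit 321) (nat_lit 5) (nat_lit 436) (nat_lit 396) (nat_lit 308))))) (XT.nd (nat_lit 234) (nat_lit 2280) (nat_lit 0) (XT.nd (nat_lit 78) (nat_lit 836) (nat_lit 0) (XT.lf (nat_lit 0) (nat_lit 3858399195) (nat_lit 912) (nat_lit 1561096927) (nat_lit 76) (nat_lit 3979614642) (nat_lit 320) (nat_lit 5) (nat_lit 332) (nat_lit 5) (nat_lit 321) (nat_lit 5) (nat_lit 437) (nat_lit 396) (nat_lit 307)) (XT.nd (nat_lit 78) (nat_lit 0) (nat_lit 0) (XT.lf (nat_lit 0) (nat_lit 3591196769) (nat_lit 836) (nat_lit 2155008791) (nat_lit 912) (nat_lit 3745601077) (nat_lit 309) (nat_lit 5) (nat_lit 320) (nat_lit 5) (nat_lit 321) (nat_lit 5) (nat_lit 438) (nat_lit 396) (nat_lit 306)) (XT.lf (nat_lit 0) (nat_lit 7665669184) (nat_lit 912) (nat_lit 751061195) (nat_lit 76) (nat_lit 1169766537)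 (nat_lit 309) (nat_lit 5) (nat_lit 321) (nat_lit 5) (nat_lit 310) (nat_lit 5) (nat_lit 439) (nat_lit 396) (nat_lit 305)))) (XT.nd (nat_lit 156) (nat_lit 684) (nat_lit 0) (XT.nd (nat_lit 78) (nat_lit 836) (nat_lit 0) (XT.lf (nat_lit 0) (nat_lit 4522088449) (nat_lit 760) (nat_lit 5121270116) (nat_lit 836) (nat_lit 39343854) (nat_lit 299) (nat_lit 5) (nat_lit 309) (nat_lit 5) (nat_lit 310) (nat_lit 5) (nat_lit 440) (nat_lit 396) (nat_lit 304)) (XT.lf (nat_lit 0) (nat_lit 94555116) (nat_lit 760) (nat_lit 1742588813) (nat_lit 836) (nat_lit 7943820896) (nat_lit 288) (nat_lit 5) (nat_lit 298) (nat_lit 5) (nat_lit 299) (nat_lit 5) (nat_lit 441) (nat_lit 396) (nat_lit 303))) (XT.nd (nat_lit 78) (nat_lit 684) (nat_lit 0) (XT.lf (nat_lit 0) (nat_lit 3773194931) (nat_lit 836) (nat_lit 4392182961) (nat_lit 76) (nat_lit 1715375282) (nat_lit 288) (nat_lit 5) (nat_lit 299) (nat_lit 5) (nat_lit 289) (nat_lit 5) (nat_lit 442)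 (nat_lit 396) (nat_lit 302)) (XT.lf (nat_lit 0) (nat_lit 984880443) (nat_lit 684) (nat_lit 4758118071) (nat_lit 760) (nat_lit 4239654911) (nat_lit 279) (nat_lit 5) (nat_lit 288) (nat_lit 5) (nat_lit 289) (nat_lit 5) (nat_lit 443) (nat_lit 396) (nat_lit 301)))))) (XT.nd (nat_lit 546) (nat_lit 2584) (nat_lit 0) (XT.nd (nat_lit 234) (nat_lit 1368) (nat_lit 0) (XT.nd (nat_lit 78) (nat_lit 836) (nat_lit 0) (XT.lf (nat_lit 0) (nat_lit 6504758559) (nat_lit 684) (nat_lit 1254301757) (nat_lit 760) (nat_lit 2327410558) (nat_lit 279) (nat_lit 5) (nat_lit 288) (nat_lit 5) (nat_lit 289) (nat_lit 5) (nat_lit 444) (nat_lit 396) (nat_lit 300)) (XT.nd (nat_lit 78) (nat_lit 76) (nat_lit 0) (XT.lf (nat_lit 0) (nat_lit 1928667098) (nat_lit 760) (nat_lit 7892179905) (nat_lit 836) (nat_lit 371425711) (nat_lit 269) (nat_lit 5) (nat_lit 279) (nat_lit 5) (nat_lit 280) (nat_lit 5) (nat_lit 445) (nat_lit 396) (nat_lit 299)) (XT.lf (nat_lit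 0) (nat_lit 1612824038) (nat_lit 836) (nat_lit 2745298713) (nat_lit 76) (nat_lit 5941663688) (nat_lit 268) (nat_lit 5) (nat_lit 279) (nat_lit 5) (nat_lit 269) (nat_lit 5) (nat_lit 446) (nat_lit 396) (nat_lit 298)))) (XT.nd (nat_lit 156) (nat_lit 684) (nat_lit 0) (XT.nd (nat_lit 78) (nat_lit 0) (nat_lit 0) (XT.lf (nat_lit 0) (nat_lit 2894974656) (nat_lit 684) (nat_lit 733983115) (nat_lit 760) (nat_lit 6780515303) (nat_lit 259) (nat_lit 5) (nat_lit 268) (nat_lit 5) (nat_lit 269) (nat_lit 5) (nat_lit 447) (nat_lit 396) (nat_lit 297)) (XT.lf (nat_lit 0) (nat_lit 5701819981) (nat_lit 760) (nat_lit 1879252923) (nat_lit 76) (nat_lit 2939967309) (nat_lit 259) (nat_lit 5) (nat_lit 269) (nat_lit 5) (nat_lit 260) (nat_lit 5) (nat_lit 448) (nat_lit 396) (nat_lit 296))) (XT.nd (nat_lit 78) (nat_lit 0) (nat_lit 0) (XT.lf (nat_lit 0) (nat_lit 3891166835) (nat_lit 684) (nat_lit 3934142530) (nat_lit 760) (nat_lit 2809360527)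 (nat_lit 250) (nat_lit 5) (nat_lit 259) (nat_lit 5) (nat_lit 260) (nat_lit 5) (nat_lit 449) (nat_lit 396) (nat_lit 295)) (XT.lf (nat_lit 0) (nat_lit 9778921515) (nat_lit 684) (nat_lit 204260874) (nat_lit 760) (nat_lit 767565807) (nat_lit 250) (nat_lit 5) (nat_lit 259) (nat_lit 5) (nat_lit 260) (nat_lit 5) (nat_lit 450) (nat_lit 396) (nat_lit 294))))) (XT.nd (nat_lit 234) (nat_lit 1292) (nat_lit 0) (XT.nd (nat_lit 78) (nat_lit 608) (nat_lit 0) (XT.lf (nat_lit 0) (nat_lit 1333130912) (nat_lit 684) (nat_lit 5944111067) (nat_lit 76) (nat_lit 3591042807) (nat_lit 241) (nat_lit 5) (nat_lit 250) (nat_lit 5) (nat_lit 242) (nat_lit 5) (nat_lit 451) (nat_lit 396) (nat_lit 293)) (XT.nd (nat_lit 78) (nat_lit 608) (nat_lit 0) (XT.lf (nat_lit 0) (nat_lit 3453281891) (nat_lit 684) (nat_lit 66868079) (nat_lit 76) (nat_lit 7468179790) (nat_lit 241) (nat_lit 5) (nat_lit 250) (nat_lit 5) (nat_lit 242) (nat_lit 5) (nat_lit 452)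 (nat_lit 396) (nat_lit 292)) (XT.lf (nat_lit 0) (nat_lit 5637132189) (nat_lit 684) (nat_lit 5129430711) (nat_lit 76) (nat_lit 343800025) (nat_lit 233) (nat_lit 5) (nat_lit 242) (nat_lit 5) (nat_lit 234) (nat_lit 5) (nat_lit 453) (nat_lit 396) (nat_lit 291)))) (XT.nd (nat_lit 156) (nat_lit 684) (nat_lit 0) (XT.nd (nat_lit 78) (nat_lit 0) (nat_lit 0) (XT.lf (nat_lit 0) (nat_lit 880619805) (nat_lit 608) (nat_lit 6993925414) (nat_lit 684) (nat_lit 3360106783) (nat_lit 225) (nat_lit 5) (nat_lit 233) (nat_lit 5) (nat_lit 234) (nat_lit 5) (nat_lit 454) (nat_lit 396) (nat_lit 290)) (XT.lf (nat_lit 0) (nat_lit 7057174334) (nat_lit 608) (nat_lit 3114590988) (nat_lit 684) (nat_lit 1189373067) (nat_lit 225) (nat_lit 5) (nat_lit 233) (nat_lit 5) (nat_lit 234) (nat_lit 5) (nat_lit 455) (nat_lit 396) (nat_lit 289))) (XT.nd (nat_lit 78) (nat_lit 0) (nat_lit 0) (XT.lf (nat_lit 0) (nat_lit 1009870383) (nat_lit 684) (nat_lit 9633910411)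 (nat_lit 76) (nat_lit 846282149) (nat_lit 216) (nat_lit 5) (nat_lit 225) (nat_lit 5) (nat_lit 217) (nat_lit 5) (nat_lit 456) (nat_lit 396) (nat_lit 288)) (XT.lf (nat_lit 0) (nat_lit 3267967126) (nat_lit 684) (nat_lit 3475120897) (nat_lit 76) (nat_lit 4877716821) (nat_lit 216) (nat_lit 5) (nat_lit 225) (nat_lit 5) (nat_lit 217) (nat_lit 5) (nat_lit 457) (nat_lit 396) (nat_lit 287))))))) (XT.nd (nat_lit 1092) (nat_lit 3040) (nat_lit 0) (XT.nd (nat_lit 546) (nat_lit 1976) (nat_lit 0) (XT.nd (nat_lit 234) (nat_lit 1140) (nat_lit 0) (XT.nd (nat_lit 78) (nat_lit 532) (nat_lit 0) (XT.lf (nat_lit 0) (nat_lit 2821047840) (nat_lit 532) (nat_lit 2749944741) (nat_lit 608) (nat_lit 6183185406) (nat_lit 209) (nat_lit 5) (nat_lit 216) (nat_lit 5) (nat_lit 217) (nat_lit 5) (nat_lit 458) (nat_lit 396) (nat_lit 286)) (XT.nd (nat_lit 78) (nat_lit 532) (nat_lit 0) (XT.lf (nat_lit 0) (nat_lit 7933782413) (nat_lit 608) (nat_lit 2631246004)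 (nat_lit 76) (nat_lit 1324927606) (nat_lit 209) (nat_lit 5) (nat_lit 217) (nat_lit 5) (nat_lit 210) (nat_lit 5) (nat_lit 459) (nat_lit 396) (nat_lit 285)) (XT.lf (nat_lit 0) (nat_lit 3805834041) (nat_lit 532) (nat_lit 6562914914) (nat_lit 608) (nat_lit 1659213529) (nat_lit 202) (nat_lit 5) (nat_lit 209) (nat_lit 5) (nat_lit 210) (nat_lit 5) (nat_lit 460) (nat_lit 396) (nat_lit 284)))) (XT.nd (nat_lit 156) (nat_lit 532) (nat_lit 0) (XT.nd (nat_lit 78) (nat_lit 532) (nat_lit 0) (XT.lf (nat_lit 0) (nat_lit 674571224) (nat_lit 608) (nat_lit 1788254010) (nat_lit 76) (nat_lit 9705828863) (nat_lit 201) (nat_lit 5) (nat_lit 209) (nat_lit 5) (nat_lit 202) (nat_lit 5) (nat_lit 461) (nat_lit 396) (nat_lit 283)) (XT.lf (nat_lit 0) (nat_lit 3057868526) (nat_lit 608) (nat_lit 7518974398) (nat_lit 76) (nat_lit 1734606830) (nat_lit 194) (nat_lit 5) (nat_lit 202) (nat_lit 5) (nat_lit 195) (nat_lit 5) (nat_lit 462) (nat_lit 396)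 (nat_lit 282))) (XT.nd (nat_lit 78) (nat_lit 532) (nat_lit 0) (XT.lf (nat_lit 0) (nat_lit 5499821931) (nat_lit 608) (nat_lit 966573749) (nat_lit 76) (nat_lit 5990496264) (nat_lit 194) (nat_lit 5) (nat_lit 202) (nat_lit 5) (nat_lit 195) (nat_lit 5) (nat_lit 463) (nat_lit 396) (nat_lit 281)) (XT.lf (nat_lit 0) (nat_lit 5770614003) (nat_lit 532) (nat_lit 2240408682) (nat_lit 608) (nat_lit 4593822345) (nat_lit 187) (nat_lit 5) (nat_lit 194) (nat_lit 5) (nat_lit 195) (nat_lit 5) (nat_lit 464) (nat_lit 396) (nat_lit 280))))) (XT.nd (nat_lit 234) (nat_lit 912) (nat_lit 0) (XT.nd (nat_lit 78) (nat_lit 1064) (nat_lit 0) (XT.lf (nat_lit 0) (nat_lit 10575519616) (nat_lit 608) (nat_lit 135577666) (nat_lit 76) (nat_lit 2044608472) (nat_lit 187) (nat_lit 5) (nat_lit 195) (nat_lit 5) (nat_lit 188) (nat_lit 5) (nat_lit 465) (nat_lit 396) (nat_lit 279)) (XT.nd (nat_lit 78) (nat_lit 532) (nat_lit 0) (XT.lf (nat_lit 0) (nat_lit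 320387282) (nat_lit 532) (nat_lit 6161813816) (nat_lit 76) (nat_lit 6426508456) (nat_lit 180) (nat_lit 5) (nat_lit 187) (nat_lit 5) (nat_lit 181) (nat_lit 5) (nat_lit 466) (nat_lit 396) (nat_lit 278)) (XT.lf (nat_lit 0) (nat_lit 676765799) (nat_lit 532) (nat_lit 2153851661) (nat_lit 608) (nat_lit 10234100429) (nat_lit 173) (nat_lit 5) (nat_lit 180) (nat_lit 5) (nat_lit 181) (nat_lit 5) (nat_lit 467) (nat_lit 396) (nat_lit 277)))) (XT.nd (nat_lit 156) (nat_lit 456) (nat_lit 0) (XT.nd (nat_lit 78) (nat_lit 456) (nat_lit 0) (XT.lf (nat_lit 0) (nat_lit 5431004938) (nat_lit 608) (nat_lit 5524256405) (nat_lit 76) (nat_lit 2267795250) (nat_lit 173) (nat_lit 5) (nat_lit 181) (nat_lit 5) (nat_lit 174) (nat_lit 5) (nat_lit 468) (nat_lit 396) (nat_lit 276)) (XT.lf (nat_lit 0) (nat_lit 1460103856) (nat_lit 456) (nat_lit 6631010301) (nat_lit 532) (nat_lit 5293302710) (nat_lit 167) (nat_lit 5) (nat_lit 173) (nat_lit 5) (nat_lit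 174) (nat_lit 5) (nat_lit 469) (nat_lit 396) (nat_lit 275))) (XT.nd (nat_lit 78) (nat_lit 456) (nat_lit 0) (XT.lf (nat_lit 0) (nat_lit 8637680544) (nat_lit 456) (nat_lit 2187961467) (nat_lit 532) (nat_lit 2722946902) (nat_lit 167) (nat_lit 5) (nat_lit 173) (nat_lit 5) (nat_lit 174) (nat_lit 5) (nat_lit 470) (nat_lit 396) (nat_lit 274)) (XT.lf (nat_lit 0) (nat_lit 2235647399) (nat_lit 456) (nat_lit 11393368441) (nat_lit 532) (nat_lit 86754173) (nat_lit 161) (nat_lit 5) (nat_lit 167) (nat_lit 5) (nat_lit 168) (nat_lit 5) (nat_lit 471) (nat_lit 396) (nat_lit 273)))))) (XT.nd (nat_lit 546) (nat_lit 1596) (nat_lit 0) (XT.nd (nat_lit 234) (nat_lit 912) (nat_lit 0) (XT.nd (nat_lit 78) (nat_lit 456) (nat_lit 0) (XT.lf (nat_lit 0) (nat_lit 2600177162) (nat_lit 532) (nat_lit 4346830176) (nat_lit 76) (nat_lit 6938315030) (nat_lit 160) (nat_lit 5) (nat_lit 167) (nat_lit 5) (nat_lit 161) (nat_lit 5) (nat_lit 472) (nat_lit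 396) (nat_lit 272)) (XT.nd (nat_lit 78) (nat_lit 0) (nat_lit 0) (XT.lf (nat_lit 0) (nat_lit 2946318158) (nat_lit 456) (nat_lit 2397281934) (nat_lit 532) (nat_lit 8714584137) (nat_lit 154) (nat_lit 5) (nat_lit 160) (nat_lit 5) (nat_lit 161) (nat_lit 5) (nat_lit 473) (nat_lit 396) (nat_lit 271)) (XT.lf (nat_lit 0) (nat_lit 8170730898) (nat_lit 532) (nat_lit 3825438858) (nat_lit 76) (nat_lit 2237764840) (nat_lit 154) (nat_lit 5) (nat_lit 161) (nat_lit 5) (nat_lit 155) (nat_lit 5) (nat_lit 474) (nat_lit 396) (nat_lit 270)))) (XT.nd (nat_lit 156) (nat_lit 456) (nat_lit 0) (XT.nd (nat_lit 78) (nat_lit 0) (nat_lit 0) (XT.lf (nat_lit 0) (nat_lit 3617687736) (nat_lit 456) (nat_lit 7461287754) (nat_lit 532) (nat_lit 3333740955) (nat_lit 148) (nat_lit 5) (nat_lit 154) (nat_lit 5) (nat_lit 155) (nat_lit 5) (nat_lit 475) (nat_lit 396) (nat_lit 269)) (XT.lf (nat_lit 0) (nat_lit 11241067468) (nat_lit 456) (nat_lit 2815352115)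 (nat_lit 532) (nat_lit 538441402) (nat_lit 148) (nat_lit 5) (nat_lit 154) (nat_lit 5) (nat_lit 155) (nat_lit 5) (nat_lit 476) (nat_lit 396) (nat_lit 268))) (XT.nd (nat_lit 78) (nat_lit 0) (nat_lit 0) (XT.lf (nat_lit 0) (nat_lit 2308351666) (nat_lit 456) (nat_lit 10536008381) (nat_lit 76) (nat_lit 1935477096) (nat_lit 142) (nat_lit 5) (nat_lit 148) (nat_lit 5) (nat_lit 143) (nat_lit 5) (nat_lit 477) (nat_lit 396) (nat_lit 267)) (XT.lf (nat_lit 0) (nat_lit 5231840268) (nat_lit 456) (nat_lit 2971941847) (nat_lit 76) (nat_lit 6764127438) (nat_lit 142) (nat_lit 5) (nat_lit 148) (nat_lit 5) (nat_lit 143) (nat_lit 5) (nat_lit 478) (nat_lit 396) (nat_lit 266))))) (XT.nd (nat_lit 234) (nat_lit 760) (nat_lit 0) (XT.nd (nat_lit 78) (nat_lit 380) (nat_lit 0) (XT.lf (nat_lit 0) (nat_lit 4786192912) (nat_lit 456) (nat_lit 3444625164) (nat_lit 532) (nat_lit 6928592101) (nat_lit 136) (nat_lit 5) (nat_lit 142) (nat_lit 5) (nat_lit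 143) (nat_lit 5) (nat_lit 479) (nat_lit 396) (nat_lit 265)) (XT.nd (nat_lit 78) (nat_lit 380) (nat_lit 0) (XT.lf (nat_lit 0) (nat_lit 11305056017) (nat_lit 532) (nat_lit 2643951011) (nat_lit 76) (nat_lit 1405435190) (nat_lit 136) (nat_lit 5) (nat_lit 143) (nat_lit 5) (nat_lit 137) (nat_lit 5) (nat_lit 480) (nat_lit 396) (nat_lit 264)) (XT.lf (nat_lit 0) (nat_lit 5266453073) (nat_lit 380) (nat_lit 9217656920) (nat_lit 456) (nat_lit 1068405157) (nat_lit 131) (nat_lit 5) (nat_lit 136) (nat_lit 5) (nat_lit 137) (nat_lit 5) (nat_lit 481) (nat_lit 396) (nat_lit 263)))) (XT.nd (nat_lit 156) (nat_lit 304) (nat_lit 0) (XT.nd (nat_lit 78) (nat_lit 380) (nat_lit 0) (XT.lf (nat_lit 0) (nat_lit 1950560235) (nat_lit 456) (nat_lit 2415976285) (nat_lit 76) (nat_lit 11387678926) (nat_lit 130) (nat_lit 5) (nat_lit 136) (nat_lit 5) (nat_lit 131) (nat_lit 5) (nat_lit 482) (nat_lit 396) (nat_lit 262)) (XT.lf (nat_lit 0) (nat_lit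 5043021360) (nat_lit 456) (nat_lit 10304092668) (nat_lit 76) (nat_lit 612152511) (nat_lit 125) (nat_lit 5) (nat_lit 131) (nat_lit 5) (nat_lit 126) (nat_lit 5) (nat_lit 483) (nat_lit 396) (nat_lit 261))) (XT.nd (nat_lit 78) (nat_lit 304) (nat_lit 0) (XT.lf (nat_lit 0) (nat_lit 8229304791) (nat_lit 456) (nat_lit 2296103726) (nat_lit 76) (nat_lit 5642377029) (nat_lit 125) (nat_lit 5) (nat_lit 131) (nat_lit 5) (nat_lit 126) (nat_lit 5) (nat_lit 484) (nat_lit 396) (nat_lit 260)) (XT.lf (nat_lit 0) (nat_lit 5930728825) (nat_lit 304) (nat_lit 5574087154) (nat_lit 380) (nat_lit 4875155140) (nat_lit 121) (nat_lit 5) (nat_lit 125) (nat_lit 5) (nat_lit 126) (nat_lit 5) (nat_lit 485) (nat_lit 396) (nat_lit 259))))))))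
noncomputable def xc143 : XT := (XT.nd (nat_lit 2184) (nat_lit 1292) (nat_lit 0) (XT.nd (nat_lit 1092) (nat_lit 1672) (nat_lit 0) (XT.nd (nat_lit 546) (nat_lit 1292) (nat_lit 0) (XT.nd (nat_lit 234) (nat_lit 760) (nat_lit 0) (XT.nd (nat_lit 78) (nat_lit 456) (nat_lit 0) (XT.lf (nat_lit 0) (nat_lit 14334249223) (nat_lit 304) (nat_lit 514123896) (nat_lit 380) (nat_lit 1747982678) (nat_lit 121) (nat_lit 5) (nat_lit 125) (nat_lit 5) (nat_lit 126) (nat_lit 5) (nat_lit 486) (nat_lit 396) (nat_lit 258)) (XT.nd (nat_lit 78) (nat_lit 0) (nat_lit 0) (XT.lf (nat_lit 0) (nat_lit 1480446137) (nat_lit 456) (nat_lit 10705623898) (nat_lit 76) (nat_lit 4629664358) (nat_lit 115) (nat_lit 5) (nat_lit 121) (nat_lit 5) (nat_lit 116) (nat_lit 5) (nat_lit 487) (nat_lit 396) (nat_lit 257)) (XT.lf (nat_lit 0) (nat_lit 4756124430) (nat_lit 456) (nat_lit 2392713258) (nat_lit 76) (nat_lit 9890315818) (nat_lit 115) (nat_lit 5) (nat_lit 121)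 (nat_lit 5) (nat_lit 116) (nat_lit 5) (nat_lit 488) (nat_lit 396) (nat_lit 256)))) (XT.nd (nat_lit 156) (nat_lit 456) (nat_lit 0) (XT.nd (nat_lit 78) (nat_lit 0) (nat_lit 0) (XT.lf (nat_lit 0) (nat_lit 6148595249) (nat_lit 304) (nat_lit 1976268523) (nat_lit 380) (nat_lit 9141631920) (nat_lit 111) (nat_lit 5) (nat_lit 115) (nat_lit 5) (nat_lit 116) (nat_lit 5) (nat_lit 489) (nat_lit 396) (nat_lit 255)) (XT.lf (nat_lit 0) (nat_lit 11586275003) (nat_lit 380) (nat_lit 2645019630) (nat_lit 76) (nat_lit 3266589679) (nat_lit 111) (nat_lit 5) (nat_lit 116) (nat_lit 5) (nat_lit 112) (nat_lit 5) (nat_lit 490) (nat_lit 396) (nat_lit 254))) (XT.nd (nat_lit 78) (nat_lit 76) (nat_lit 0) (XT.lf (nat_lit 0) (nat_lit 6045291200) (nat_lit 380) (nat_lit 9111912367) (nat_lit 456) (nat_lit 2575896777) (nat_lit 106) (nat_lit 5) (nat_lit 111) (nat_lit 5) (nat_lit 112) (nat_lit 5) (nat_lit 491) (nat_lit 396) (nat_lit 253)) (XT.lf (nat_lit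 0) (nat_lit 821542583) (nat_lit 456) (nat_lit 3051157236) (nat_lit 76) (nat_lit 14100101710) (nat_lit 105) (nat_lit 5) (nat_lit 111) (nat_lit 5) (nat_lit 106) (nat_lit 5) (nat_lit 492) (nat_lit 396) (nat_lit 252))))) (XT.nd (nat_lit 234) (nat_lit 684) (nat_lit 0) (XT.nd (nat_lit 78) (nat_lit 304) (nat_lit 0) (XT.lf (nat_lit 0) (nat_lit 4288221093) (nat_lit 380) (nat_lit 12427002020) (nat_lit 76) (nat_lit 1501022567) (nat_lit 101) (nat_lit 5) (nat_lit 106) (nat_lit 5) (nat_lit 102) (nat_lit 5) (nat_lit 493) (nat_lit 396) (nat_lit 251)) (XT.nd (nat_lit 78) (nat_lit 304) (nat_lit 0) (XT.lf (nat_lit 0) (nat_lit 7858787505) (nat_lit 380) (nat_lit 3660112207) (nat_lit 76) (nat_lit 6944972926) (nat_lit 101) (nat_lit 5) (nat_lit 106) (nat_lit 5) (nat_lit 102) (nat_lit 5) (nat_lit 494) (nat_lit 396) (nat_lit 250)) (XT.lf (nat_lit 0) (nat_lit 5334438115) (nat_lit 304) (nat_lit 6189488162) (nat_lit 380) (nat_lit 7192067548)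 (nat_lit 97) (nat_lit 5) (nat_lit 101) (nat_lit 5) (nat_lit 102) (nat_lit 5) (nat_lit 495) (nat_lit 396) (nat_lit 249)))) (XT.nd (nat_lit 156) (nat_lit 380) (nat_lit 0) (XT.nd (nat_lit 78) (nat_lit 304) (nat_lit 0) (XT.lf (nat_lit 0) (nat_lit 14540969875) (nat_lit 304) (nat_lit 734596752) (nat_lit 380) (nat_lit 3697331649) (nat_lit 97) (nat_lit 5) (nat_lit 101) (nat_lit 5) (nat_lit 102) (nat_lit 5) (nat_lit 496) (nat_lit 396) (nat_lit 248)) (XT.lf (nat_lit 0) (nat_lit 4709736823) (nat_lit 304) (nat_lit 14443258415) (nat_lit 380) (nat_lit 80935190) (nat_lit 93) (nat_lit 5) (nat_lit 97) (nat_lit 5) (nat_lit 98) (nat_lit 5) (nat_lit 497) (nat_lit 396) (nat_lit 247))) (XT.nd (nat_lit 78) (nat_lit 304) (nat_lit 0) (XT.lf (nat_lit 0) (nat_lit 3584125183) (nat_lit 380) (nat_lit 5451169603) (nat_lit 76) (nat_lit 10463951434) (nat_lit 92) (nat_lit 5) (nat_lit 97) (nat_lit 5) (nat_lit 93) (nat_lit 5) (nat_lit 498) (nat_lit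 396) (nat_lit 246)) (XT.lf (nat_lit 0) (nat_lit 3836023827) (nat_lit 304) (nat_lit 3499355239) (nat_lit 380) (nat_lit 12434203491) (nat_lit 88) (nat_lit 5) (nat_lit 92) (nat_lit 5) (nat_lit 93) (nat_lit 5) (nat_lit 499) (nat_lit 396) (nat_lit 245)))))) (XT.nd (nat_lit 546) (nat_lit 836) (nat_lit 0) (XT.nd (nat_lit 234) (nat_lit 608) (nat_lit 0) (XT.nd (nat_lit 78) (nat_lit 228) (nat_lit 0) (XT.lf (nat_lit 0) (nat_lit 11201555703) (nat_lit 380) (nat_lit 6693058869) (nat_lit 76) (nat_lit 2149917457) (nat_lit 88) (nat_lit 5) (nat_lit 93) (nat_lit 5) (nat_lit 89) (nat_lit 5) (nat_lit 500) (nat_lit 396) (nat_lit 244)) (XT.nd (nat_lit 78) (nat_lit 0) (nat_lit 0) (XT.lf (nat_lit 0) (nat_lit 2728057326) (nat_lit 228) (nat_lit 12447231999) (nat_lit 304) (nat_lit 5149090771) (nat_lit 85) (nat_lit 5) (nat_lit 88) (nat_lit 5) (nat_lit 89) (nat_lit 5) (nat_lit 501) (nat_lit 396) (nat_lit 243)) (XT.lf (nat_lit 0) (nat_lit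 12411634447) (nat_lit 228) (nat_lit 6851224223) (nat_lit 304) (nat_lit 1346283427) (nat_lit 85) (nat_lit 5) (nat_lit 88) (nat_lit 5) (nat_lit 89) (nat_lit 5) (nat_lit 502) (nat_lit 396) (nat_lit 242)))) (XT.nd (nat_lit 156) (nat_lit 228) (nat_lit 0) (XT.nd (nat_lit 78) (nat_lit 0) (nat_lit 0) (XT.lf (nat_lit 0) (nat_lit 1374362746) (nat_lit 304) (nat_lit 1123506798) (nat_lit 380) (nat_lit 18401434862) (nat_lit 80) (nat_lit 5) (nat_lit 84) (nat_lit 5) (nat_lit 85) (nat_lit 5) (nat_lit 503) (nat_lit 396) (nat_lit 241)) (XT.lf (nat_lit 0) (nat_lit 6476546796) (nat_lit 380) (nat_lit 10001862498) (nat_lit 76) (nat_lit 4715173283) (nat_lit 80) (nat_lit 5) (nat_lit 85) (nat_lit 5) (nat_lit 81) (nat_lit 5) (nat_lit 504) (nat_lit 396) (nat_lit 240))) (XT.nd (nat_lit 78) (nat_lit 228) (nat_lit 0) (XT.lf (nat_lit 0) (nat_lit 10532081032) (nat_lit 380) (nat_lit 312002597) (nat_lit 76) (nat_lit 10649720884) (nat_lit 80) (nat_lit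 5) (nat_lit 85) (nat_lit 5) (nat_lit 81) (nat_lit 5) (nat_lit 505) (nat_lit 396) (nat_lit 239)) (XT.lf (nat_lit 0) (nat_lit 9682723194) (nat_lit 228) (nat_lit 5038911576) (nat_lit 304) (nat_lit 7077341738) (nat_lit 77) (nat_lit 5) (nat_lit 80) (nat_lit 5) (nat_lit 81) (nat_lit 5) (nat_lit 506) (nat_lit 396) (nat_lit 238))))) (XT.nd (nat_lit 234) (nat_lit 456) (nat_lit 0) (XT.nd (nat_lit 78) (nat_lit 380) (nat_lit 0) (XT.lf (nat_lit 0) (nat_lit 18992912110) (nat_lit 304) (nat_lit 2250359647) (nat_lit 76) (nat_lit 867025258) (nat_lit 77) (nat_lit 5) (nat_lit 81) (nat_lit 5) (nat_lit 78) (nat_lit 5) (nat_lit 507) (nat_lit 396) (nat_lit 237)) (XT.nd (nat_lit 78) (nat_lit 0) (nat_lit 0) (XT.lf (nat_lit 0) (nat_lit 984911493) (nat_lit 380) (nat_lit 14565840134) (nat_lit 76) (nat_lit 6875471596) (nat_lit 72) (nat_lit 5) (nat_lit 77) (nat_lit 5) (nat_lit 73) (nat_lit 5) (nat_lit 508) (nat_lit 396) (nat_lit 236)) (XT.lf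 (nat_lit 0) (nat_lit 5133064521) (nat_lit 380) (nat_lit 4580761431) (nat_lit 76) (nat_lit 13034122342) (nat_lit 72) (nat_lit 5) (nat_lit 77) (nat_lit 5) (nat_lit 73) (nat_lit 5) (nat_lit 509) (nat_lit 396) (nat_lit 235)))) (XT.nd (nat_lit 156) (nat_lit 228) (nat_lit 0) (XT.nd (nat_lit 78) (nat_lit 0) (nat_lit 0) (XT.lf (nat_lit 0) (nat_lit 5662901109) (nat_lit 228) (nat_lit 3728549125) (nat_lit 304) (nat_lit 13684115680) (nat_lit 69) (nat_lit 5) (nat_lit 72) (nat_lit 5) (nat_lit 73) (nat_lit 5) (nat_lit 510) (nat_lit 396) (nat_lit 234)) (XT.lf (nat_lit 0) (nat_lit 13771927079) (nat_lit 304) (nat_lit 7266663628) (nat_lit 76) (nat_lit 2370410082) (nat_lit 69) (nat_lit 5) (nat_lit 73) (nat_lit 5) (nat_lit 70) (nat_lit 5) (nat_lit 511) (nat_lit 396) (nat_lit 233))) (XT.nd (nat_lit 78) (nat_lit 0) (nat_lit 0) (XT.lf (nat_lit 0) (nat_lit 3082860300) (nat_lit 228) (nat_lit 15192597927) (nat_lit 304) (nat_lit 5472940543)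 (nat_lit 66) (nat_lit 5) (nat_lit 69) (nat_lit 5) (nat_lit 70) (nat_lit 5) (nat_lit 512) (nat_lit 396) (nat_lit 232)) (XT.lf (nat_lit 0) (nat_lit 13722838671) (nat_lit 228) (nat_lit 9185804886) (nat_lit 304) (nat_lit 1185152724) (nat_lit 66) (nat_lit 5) (nat_lit 69) (nat_lit 5) (nat_lit 70) (nat_lit 5) (nat_lit 513) (nat_lit 396) (nat_lit 231))))))) (XT.nd (nat_lit 50388) (nat_lit 0) (nat_lit 34656) (XT.nd (nat_lit 546) (nat_lit 456) (nat_lit 0) (XT.nd (nat_lit 234) (nat_lit 532) (nat_lit 0) (XT.nd (nat_lit 78) (nat_lit 0) (nat_lit 0) (XT.lf (nat_lit 0) (nat_lit 95195962) (nat_lit 228) (nat_lit 3042934322) (nat_lit 304) (nat_lit 21307729435) (nat_lit 62) (nat_lit 5) (nat_lit 65) (nat_lit 5) (nat_lit 66) (nat_lit 5) (nat_lit 514) (nat_lit 396) (nat_lit 230)) (XT.nd (nat_lit 78) (nat_lit 0) (nat_lit 0) (XT.lf (nat_lit 0) (nat_lit 7613986487) (nat_lit 304) (nat_lit 13936466514) (nat_lit 76) (nat_lit 3252718267)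 (nat_lit 62) (nat_lit 5) (nat_lit 66) (nat_lit 5) (nat_lit 63) (nat_lit 5) (nat_lit 515) (nat_lit 396) (nat_lit 229)) (XT.lf (nat_lit 0) (nat_lit 12190670425) (nat_lit 304) (nat_lit 3348758334) (nat_lit 76) (nat_lit 9627977069) (nat_lit 62) (nat_lit 5) (nat_lit 66) (nat_lit 5) (nat_lit 63) (nat_lit 5) (nat_lit 516) (nat_lit 396) (nat_lit 228)))) (XT.nd (nat_lit 156) (nat_lit 304) (nat_lit 0) (XT.nd (nat_lit 78) (nat_lit 0) (nat_lit 0) (XT.lf (nat_lit 0) (nat_lit 7535195009) (nat_lit 228) (nat_lit 9363948605) (nat_lit 304) (nat_lit 8638979290) (nat_lit 59) (nat_lit 5) (nat_lit 62) (nat_lit 5) (nat_lit 63) (nat_lit 5) (nat_lit 517) (nat_lit 396) (nat_lit 227)) (XT.lf (nat_lit 0) (nat_lit 18667980589) (nat_lit 228) (nat_lit 3047687199) (nat_lit 304) (nat_lit 4200311780) (nat_lit 59) (nat_lit 5) (nat_lit 62) (nat_lit 5) (nat_lit 63) (nat_lit 5) (nat_lit 518) (nat_lit 396) (nat_lit 226))) (XT.nd (nat_lit 78) (nat_lit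 0) (nat_lit 0) (XT.lf (nat_lit 0) (nat_lit 360919775) (nat_lit 304) (nat_lit 22568140086) (nat_lit 76) (nat_lit 3371532170) (nat_lit 55) (nat_lit 5) (nat_lit 59) (nat_lit 5) (nat_lit 56) (nat_lit 5) (nat_lit 519) (nat_lit 396) (nat_lit 225)) (XT.lf (nat_lit 0) (nat_lit 5017888457) (nat_lit 304) (nat_lit 11723604025) (nat_lit 76) (nat_lit 9949636599) (nat_lit 55) (nat_lit 5) (nat_lit 59) (nat_lit 5) (nat_lit 56) (nat_lit 5) (nat_lit 520) (nat_lit 396) (nat_lit 224))))) (XT.nd (nat_lit 234) (nat_lit 228) (nat_lit 0) (XT.nd (nat_lit 78) (nat_lit 228) (nat_lit 0) (XT.lf (nat_lit 0) (nat_lit 9759720770) (nat_lit 304) (nat_lit 676018776) (nat_lit 76) (nat_lit 16653905498) (nat_lit 55) (nat_lit 5) (nat_lit 59) (nat_lit 5) (nat_lit 56) (nat_lit 5) (nat_lit 521) (nat_lit 396) (nat_lit 223)) (XT.nd (nat_lit 78) (nat_lit 0) (nat_lit 0) (XT.lf (nat_lit 0) (nat_lit 10719536697) (nat_lit 228) (nat_lit 3938337902) (nat_lit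 304) (nat_lit 12837029637) (nat_lit 52) (nat_lit 5) (nat_lit 55) (nat_lit 5) (nat_lit 56) (nat_lit 5) (nat_lit 522) (nat_lit 396) (nat_lit 222)) (XT.lf (nat_lit 0) (nat_lit 19667939614) (nat_lit 304) (nat_lit 5587108814) (nat_lit 76) (nat_lit 2652943777) (nat_lit 52) (nat_lit 5) (nat_lit 56) (nat_lit 5) (nat_lit 53) (nat_lit 5) (nat_lit 523) (nat_lit 396) (nat_lit 221)))) (XT.nd (nat_lit 49452) (nat_lit 0) (nat_lit 37848) (XT.nd (nat_lit 78) (nat_lit 76) (nat_lit 0) (XT.lf (nat_lit 0) (nat_lit 5862377420) (nat_lit 152) (nat_lit 18972053811) (nat_lit 228) (nat_lit 3493788700) (nat_lit 50) (nat_lit 5) (nat_lit 52) (nat_lit 5) (nat_lit 53) (nat_lit 5) (nat_lit 524) (nat_lit 396) (nat_lit 220)) (XT.lf (nat_lit 0) (nat_lit 1359565763) (nat_lit 228) (nat_lit 11161872530) (nat_lit 76) (nat_lit 16234644628) (nat_lit 49) (nat_lit 5) (nat_lit 52) (nat_lit 5) (nat_lit 50) (nat_lit 5) (nat_lit 525) (nat_lit 396) (nat_lit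 219))) (XT.nd (nat_lit 78) (nat_lit 0) (nat_lit 0) (XT.lf (nat_lit 0) (nat_lit 19966516) (nat_lit 0) (nat_lit 19966516) (nat_lit 988) (nat_lit 3463003320) (nat_lit 547) (nat_lit 5) (nat_lit 547) (nat_lit 3) (nat_lit 560) (nat_lit 3) (nat_lit 397) (nat_lit 397) (nat_lit 346)) (XT.lf (nat_lit 0) (nat_lit 1825487531) (nat_lit 988) (nat_lit 3732088359) (nat_lit 1064) (nat_lit 1481669194) (nat_lit 547) (nat_lit 5) (nat_lit 560) (nat_lit 3) (nat_lit 561) (nat_lit 5) (nat_lit 398) (nat_lit 397) (nat_lit 345)))))) (XT.nd (nat_lit 546) (nat_lit 2204) (nat_lit 0) (XT.nd (nat_lit 234) (nat_lit 988) (nat_lit 0) (XT.nd (nat_lit 78) (nat_lit 0) (nat_lit 0) (XT.lf (nat_lit 0) (nat_lit 3560921987) (nat_lit 988) (nat_lit 457685225) (nat_lit 1064) (nat_lit 3055626638) (nat_lit 547) (nat_lit 5) (nat_lit 560) (nat_lit 3) (nat_lit 561) (nat_lit 5) (nat_lit 399) (nat_lit 397) (nat_lit 344)) (XT.nd (nat_lit 78) (nat_lit 0) (nat_lit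 0) (XT.lf (nat_lit 76) (nat_lit 2896805201) (nat_lit 0) (nat_lit 2408593504) (nat_lit 1064) (nat_lit 1805083042) (nat_lit 548) (nat_lit 5) (nat_lit 547) (nat_lit 5) (nat_lit 561) (nat_lit 5) (nat_lit 400) (nat_lit 397) (nat_lit 343)) (XT.lf (nat_lit 76) (nat_lit 6301350490) (nat_lit 0) (nat_lit 742732535) (nat_lit 1064) (nat_lit 104230344) (nat_lit 548) (nat_lit 5) (nat_lit 547) (nat_lit 5) (nat_lit 561) (nat_lit 5) (nat_lit 401) (nat_lit 397) (nat_lit 342)))) (XT.nd (nat_lit 156) (nat_lit 0) (nat_lit 0) (XT.nd (nat_lit 78) (nat_lit 0) (nat_lit 0) (XT.lf (nat_lit 0) (nat_lit 1589346823) (nat_lit 1064) (nat_lit 4606755636) (nat_lit 1140) (nat_lit 991028923) (nat_lit 534) (nat_lit 5) (nat_lit 548) (nat_lit 5) (nat_lit 549) (nat_lit 5) (nat_lit 402) (nat_lit 397) (nat_lit 341)) (XT.lf (nat_lit 0) (nat_lit 3283639836) (nat_lit 1064) (nat_lit 1168782182) (nat_lit 1140) (nat_lit 2774967681) (nat_lit 534) (nat_lit 5)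 (nat_lit 548) (nat_lit 5) (nat_lit 549) (nat_lit 5) (nat_lit 403) (nat_lit 397) (nat_lit 340))) (XT.nd (nat_lit 78) (nat_lit 0) (nat_lit 0) (XT.lf (nat_lit 76) (nat_lit 2344915133) (nat_lit 0) (nat_lit 2640558397) (nat_lit 1140) (nat_lit 2283548248) (nat_lit 535) (nat_lit 5) (nat_lit 534) (nat_lit 5) (nat_lit 549) (nat_lit 5) (nat_lit 404) (nat_lit 397) (nat_lit 339)) (XT.lf (nat_lit 76) (nat_lit 5921096464) (nat_lit 0) (nat_lit 767182308) (nat_lit 1140) (nat_lit 623909901) (nat_lit 535) (nat_lit 5) (nat_lit 534) (nat_lit 5) (nat_lit 549) (nat_lit 5) (nat_lit 405) (nat_lit 397) (nat_lit 338))))) (XT.nd (nat_lit 312) (nat_lit 1140) (nat_lit 0) (XT.nd (nat_lit 156) (nat_lit 0) (nat_lit 0) (XT.nd (nat_lit 78) (nat_lit 0) (nat_lit 0) (XT.lf (nat_lit 0) (nat_lit 1036520039) (nat_lit 1140) (nat_lit 5153422549) (nat_lit 1216) (nat_lit 1166544441) (nat_lit 520) (nat_lit 5) (nat_lit 535) (nat_lit 5) (nat_lit 536) (nat_lit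 5) (nat_lit 406) (nat_lit 397) (nat_lit 337)) (XT.lf (nat_lit 0) (nat_lit 2696622682) (nat_lit 1140) (nat_lit 1547326896) (nat_lit 1216) (nat_lit 3158181443) (nat_lit 520) (nat_lit 5) (nat_lit 535) (nat_lit 5) (nat_lit 536) (nat_lit 5) (nat_lit 407) (nat_lit 397) (nat_lit 336))) (XT.nd (nat_lit 78) (nat_lit 0) (nat_lit 0) (XT.lf (nat_lit 76) (nat_lit 2134841642) (nat_lit 0) (nat_lit 2230057317) (nat_lit 1216) (nat_lit 3084327262) (nat_lit 521) (nat_lit 5) (nat_lit 520) (nat_lit 5) (nat_lit 536) (nat_lit 5) (nat_lit 408) (nat_lit 397) (nat_lit 335)) (XT.lf (nat_lit 76) (nat_lit 5887738327) (nat_lit 0) (nat_lit 150904012) (nat_lit 1216) (nat_lit 1459215975) (nat_lit 521) (nat_lit 5) (nat_lit 520) (nat_lit 5) (nat_lit 536) (nat_lit 5) (nat_lit 409) (nat_lit 397) (nat_lit 334)))) (XT.nd (nat_lit 156) (nat_lit 0) (nat_lit 0) (XT.nd (nat_lit 78) (nat_lit 0) (nat_lit 0) (XT.lf (nat_lit 0) (nat_lit 185059862) (nat_lit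 1216) (nat_lit 5389467006) (nat_lit 1292) (nat_lit 1973160712) (nat_lit 505) (nat_lit 5) (nat_lit 521) (nat_lit 5) (nat_lit 522) (nat_lit 5) (nat_lit 410) (nat_lit 397) (nat_lit 333)) (XT.lf (nat_lit 0) (nat_lit 1817434826) (nat_lit 1216) (nat_lit 1609946751) (nat_lit 1292) (nat_lit 4171478781) (nat_lit 505) (nat_lit 5) (nat_lit 521) (nat_lit 5) (nat_lit 522) (nat_lit 5) (nat_lit 411) (nat_lit 397) (nat_lit 332))) (XT.nd (nat_lit 78) (nat_lit 0) (nat_lit 76) (XT.lf (nat_lit 76) (nat_lit 2250494888) (nat_lit 0) (nat_lit 1210160945) (nat_lit 1292) (nat_lit 4190870987) (nat_lit 506) (nat_lit 5) (nat_lit 505) (nat_lit 5) (nat_lit 522) (nat_lit 5) (nat_lit 412) (nat_lit 397) (nat_lit 331)) (XT.lf (nat_lit 0) (nat_lit 5118664449) (nat_lit 1216) (nat_lit 1526812883) (nat_lit 1292) (nat_lit 1060164345) (nat_lit 506) (nat_lit 5) (nat_lit 522) (nat_lit 5) (nat_lit 523) (nat_lit 5) (nat_lit 413) (nat_lit 397) (nat_lit 330))))))))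
noncomputable def xc144 : XT := (XT.nd (nat_lit 2184) (nat_lit 9500) (nat_lit 0) (XT.nd (nat_lit 1092) (nat_lit 7296) (nat_lit 0) (XT.nd (nat_lit 546) (nat_lit 6004) (nat_lit 0) (XT.nd (nat_lit 234) (nat_lit 1216) (nat_lit 0) (XT.nd (nat_lit 78) (nat_lit 1292) (nat_lit 0) (XT.lf (nat_lit 76) (nat_lit 2424305759) (nat_lit 0) (nat_lit 4374205163) (nat_lit 1292) (nat_lit 962587227) (nat_lit 507) (nat_lit 5) (nat_lit 506) (nat_lit 5) (nat_lit 523) (nat_lit 5) (nat_lit 414) (nat_lit 397) (nat_lit 329)) (XT.nd (nat_lit 78) (nat_lit 0) (nat_lit 76) (XT.lf (nat_lit 0) (nat_lit 660691608) (nat_lit 1292) (nat_lit 1371590901) (nat_lit 1368) (nat_lit 5785812546) (nat_lit 489) (nat_lit 5) (nat_lit 506) (nat_lit 5) (nat_lit 507) (nat_lit 5) (nat_lit 415) (nat_lit 397) (nat_lit 328)) (XT.lf (nat_lit 0) (nat_lit 2289354611) (nat_lit 1292) (nat_lit 5201566631) (nat_lit 1368) (nat_lit 385498228) (nat_lit 490) (nat_lit 5) (nat_lit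 507) (nat_lit 5) (nat_lit 508) (nat_lit 5) (nat_lit 416) (nat_lit 397) (nat_lit 327)))) (XT.nd (nat_lit 156) (nat_lit 1292) (nat_lit 0) (XT.nd (nat_lit 78) (nat_lit 0) (nat_lit 0) (XT.lf (nat_lit 0) (nat_lit 3939765403) (nat_lit 1292) (nat_lit 1153248901) (nat_lit 1368) (nat_lit 2843142947) (nat_lit 490) (nat_lit 5) (nat_lit 507) (nat_lit 5) (nat_lit 508) (nat_lit 5) (nat_lit 417) (nat_lit 397) (nat_lit 326)) (XT.lf (nat_lit 76) (nat_lit 2990927854) (nat_lit 0) (nat_lit 2618784127) (nat_lit 1368) (nat_lit 2387677027) (nat_lit 491) (nat_lit 5) (nat_lit 490) (nat_lit 5) (nat_lit 508) (nat_lit 5) (nat_lit 418) (nat_lit 397) (nat_lit 325))) (XT.nd (nat_lit 78) (nat_lit 1292) (nat_lit 0) (XT.lf (nat_lit 76) (nat_lit 7209446945) (nat_lit 0) (nat_lit 78945918) (nat_lit 1368) (nat_lit 771975021) (nat_lit 491) (nat_lit 5) (nat_lit 490) (nat_lit 5) (nat_lit 508) (nat_lit 5) (nat_lit 419) (nat_lit 397) (nat_lit 324)) (XT.lf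 (nat_lit 0) (nat_lit 871178675) (nat_lit 1368) (nat_lit 4738747844) (nat_lit 76) (nat_lit 2514461575) (nat_lit 473) (nat_lit 5) (nat_lit 491) (nat_lit 5) (nat_lit 474) (nat_lit 5) (nat_lit 420) (nat_lit 397) (nat_lit 323))))) (XT.nd (nat_lit 234) (nat_lit 4636) (nat_lit 0) (XT.nd (nat_lit 78) (nat_lit 1368) (nat_lit 0) (XT.lf (nat_lit 0) (nat_lit 2511653082) (nat_lit 1368) (nat_lit 501481908) (nat_lit 76) (nat_lit 5176983282) (nat_lit 473) (nat_lit 5) (nat_lit 491) (nat_lit 5) (nat_lit 474) (nat_lit 5) (nat_lit 421) (nat_lit 397) (nat_lit 322)) (XT.nd (nat_lit 78) (nat_lit 0) (nat_lit 0) (XT.lf (nat_lit 0) (nat_lit 3846763211) (nat_lit 1368) (nat_lit 332280834) (nat_lit 1444) (nat_lit 4078263834) (nat_lit 455) (nat_lit 5) (nat_lit 473) (nat_lit 5) (nat_lit 474) (nat_lit 5) (nat_lit 422) (nat_lit 397) (nat_lit 321)) (XT.lf (nat_lit 0) (nat_lit 5868388638) (nat_lit 1444) (nat_lit 77355859) (nat_lit 76) (nat_lit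 2380351101) (nat_lit 455) (nat_lit 5) (nat_lit 474) (nat_lit 5) (nat_lit 456) (nat_lit 5) (nat_lit 423) (nat_lit 397) (nat_lit 320)))) (XT.nd (nat_lit 156) (nat_lit 1596) (nat_lit 0) (XT.nd (nat_lit 78) (nat_lit 1596) (nat_lit 0) (XT.lf (nat_lit 0) (nat_lit 4373405225) (nat_lit 1444) (nat_lit 3218927837) (nat_lit 1520) (nat_lit 803935671) (nat_lit 436) (nat_lit 5) (nat_lit 455) (nat_lit 5) (nat_lit 456) (nat_lit 5) (nat_lit 424) (nat_lit 397) (nat_lit 319)) (XT.lf (nat_lit 0) (nat_lit 421682349) (nat_lit 1520) (nat_lit 423334978) (nat_lit 1596) (nat_lit 7623264553) (nat_lit 415) (nat_lit 5) (nat_lit 435) (nat_lit 5) (nat_lit 436) (nat_lit 5) (nat_lit 425) (nat_lit 397) (nat_lit 318))) (XT.nd (nat_lit 78) (nat_lit 1596) (nat_lit 0) (XT.lf (nat_lit 0) (nat_lit 2530012820) (nat_lit 1596) (nat_lit 3577798249) (nat_lit 76) (nat_lit 2433565800) (nat_lit 415) (nat_lit 5) (nat_lit 436) (nat_lit 5) (nat_lit 416) (nat_lit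 5) (nat_lit 426) (nat_lit 397) (nat_lit 317)) (XT.lf (nat_lit 0) (nat_lit 965746529) (nat_lit 1596) (nat_lit 3263484987) (nat_lit 1672) (nat_lit 4387115723) (nat_lit 394) (nat_lit 5) (nat_lit 415) (nat_lit 5) (nat_lit 416) (nat_lit 5) (nat_lit 427) (nat_lit 397) (nat_lit 316)))))) (XT.nd (nat_lit 546) (nat_lit 3420) (nat_lit 0) (XT.nd (nat_lit 234) (nat_lit 2128) (nat_lit 0) (XT.nd (nat_lit 78) (nat_lit 1748) (nat_lit 0) (XT.lf (nat_lit 0) (nat_lit 5624326425) (nat_lit 1596) (nat_lit 333968377) (nat_lit 1672) (nat_lit 2734628486) (nat_lit 394) (nat_lit 5) (nat_lit 415) (nat_lit 5) (nat_lit 416) (nat_lit 5) (nat_lit 428) (nat_lit 397) (nat_lit 315)) (XT.nd (nat_lit 78) (nat_lit 76) (nat_lit 0) (XT.lf (nat_lit 0) (nat_lit 1584134971) (nat_lit 1672) (nat_lit 6137749590) (nat_lit 1748) (nat_lit 1049170408) (nat_lit 372) (nat_lit 5) (nat_lit 394) (nat_lit 5) (nat_lit 395) (nat_lit 5) (nat_lit 429) (nat_lit 397) (nat_lit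 314)) (XT.lf (nat_lit 0) (nat_lit 656757773) (nat_lit 1748) (nat_lit 2510199639) (nat_lit 76) (nat_lit 5683816032) (nat_lit 371) (nat_lit 5) (nat_lit 394) (nat_lit 5) (nat_lit 372) (nat_lit 5) (nat_lit 430) (nat_lit 397) (nat_lit 313)))) (XT.nd (nat_lit 156) (nat_lit 836) (nat_lit 0) (XT.nd (nat_lit 78) (nat_lit 0) (nat_lit 0) (XT.lf (nat_lit 0) (nat_lit 2258530831) (nat_lit 1292) (nat_lit 112047493) (nat_lit 1368) (nat_lit 6561634507) (nat_lit 354) (nat_lit 5) (nat_lit 371) (nat_lit 5) (nat_lit 372) (nat_lit 5) (nat_lit 431) (nat_lit 397) (nat_lit 312)) (XT.lf (nat_lit 0) (nat_lit 4128666873) (nat_lit 1368) (nat_lit 1902501868) (nat_lit 76) (nat_lit 2983933697) (nat_lit 354) (nat_lit 5) (nat_lit 372) (nat_lit 5) (nat_lit 355) (nat_lit 5) (nat_lit 432) (nat_lit 397) (nat_lit 311))) (XT.nd (nat_lit 78) (nat_lit 0) (nat_lit 0) (XT.lf (nat_lit 0) (nat_lit 2978298371) (nat_lit 836) (nat_lit 2937748498) (nat_lit 912)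 (nat_lit 3183741221) (nat_lit 343) (nat_lit 5) (nat_lit 354) (nat_lit 5) (nat_lit 355) (nat_lit 5) (nat_lit 433) (nat_lit 397) (nat_lit 310)) (XT.lf (nat_lit 0) (nat_lit 7727852595) (nat_lit 912) (nat_lit 1229412192) (nat_lit 76) (nat_lit 229149542) (nat_lit 343) (nat_lit 5) (nat_lit 355) (nat_lit 5) (nat_lit 344) (nat_lit 5) (nat_lit 434) (nat_lit 397) (nat_lit 309))))) (XT.nd (nat_lit 234) (nat_lit 1672) (nat_lit 0) (XT.nd (nat_lit 78) (nat_lit 836) (nat_lit 0) (XT.lf (nat_lit 0) (nat_lit 316102438) (nat_lit 912) (nat_lit 5510073449) (nat_lit 76) (nat_lit 3448199140) (nat_lit 331) (nat_lit 5) (nat_lit 343) (nat_lit 5) (nat_lit 332) (nat_lit 5) (nat_lit 435) (nat_lit 397) (nat_lit 308)) (XT.nd (nat_lit 78) (nat_lit 836) (nat_lit 0) (XT.lf (nat_lit 0) (nat_lit 2090122304) (nat_lit 912) (nat_lit 523307915) (nat_lit 76) (nat_lit 6750823306) (nat_lit 331) (nat_lit 5) (nat_lit 343) (nat_lit 5) (nat_lit 332) (nat_lit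 5) (nat_lit 436) (nat_lit 397) (nat_lit 307)) (XT.lf (nat_lit 0) (nat_lit 3909556502) (nat_lit 912) (nat_lit 4860574585) (nat_lit 76) (nat_lit 685618710) (nat_lit 320) (nat_lit 5) (nat_lit 332) (nat_lit 5) (nat_lit 321) (nat_lit 5) (nat_lit 437) (nat_lit 397) (nat_lit 306)))) (XT.nd (nat_lit 156) (nat_lit 836) (nat_lit 0) (XT.nd (nat_lit 78) (nat_lit 0) (nat_lit 0) (XT.lf (nat_lit 0) (nat_lit 235785667) (nat_lit 836) (nat_lit 5527855020) (nat_lit 912) (nat_lit 3785488591) (nat_lit 309) (nat_lit 5) (nat_lit 320) (nat_lit 5) (nat_lit 321) (nat_lit 5) (nat_lit 438) (nat_lit 397) (nat_lit 305)) (XT.lf (nat_lit 0) (nat_lit 5476026208) (nat_lit 836) (nat_lit 2187602768) (nat_lit 912) (nat_lit 1980589071) (nat_lit 309) (nat_lit 5) (nat_lit 320) (nat_lit 5) (nat_lit 321) (nat_lit 5) (nat_lit 439) (nat_lit 397) (nat_lit 304))) (XT.nd (nat_lit 78) (nat_lit 76) (nat_lit 0) (XT.lf (nat_lit 0) (nat_lit 1061925326) (nat_lit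 760) (nat_lit 8531175021) (nat_lit 836) (nat_lit 148296370) (nat_lit 299) (nat_lit 5) (nat_lit 309) (nat_lit 5) (nat_lit 310) (nat_lit 5) (nat_lit 440) (nat_lit 397) (nat_lit 303)) (XT.lf (nat_lit 0) (nat_lit 1717523436) (nat_lit 836) (nat_lit 3436773279) (nat_lit 76) (nat_lit 4685626961) (nat_lit 298) (nat_lit 5) (nat_lit 309) (nat_lit 5) (nat_lit 299) (nat_lit 5) (nat_lit 441) (nat_lit 397) (nat_lit 302))))))) (XT.nd (nat_lit 1092) (nat_lit 3952) (nat_lit 0) (XT.nd (nat_lit 546) (nat_lit 2584) (nat_lit 0) (XT.nd (nat_lit 234) (nat_lit 1520) (nat_lit 0) (XT.nd (nat_lit 78) (nat_lit 684) (nat_lit 0) (XT.lf (nat_lit 0) (nat_lit 1911220262) (nat_lit 760) (nat_lit 1697123621) (nat_lit 836) (nat_lit 6332281052) (nat_lit 288) (nat_lit 5) (nat_lit 298) (nat_lit 5) (nat_lit 299) (nat_lit 5) (nat_lit 442) (nat_lit 397) (nat_lit 301)) (XT.nd (nat_lit 78) (nat_lit 684) (nat_lit 0) (XT.lf (nat_lit 0) (nat_lit 5549618189)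 (nat_lit 836) (nat_lit 2666093523) (nat_lit 76) (nat_lit 1827392196) (nat_lit 288) (nat_lit 5) (nat_lit 299) (nat_lit 5) (nat_lit 289) (nat_lit 5) (nat_lit 443) (nat_lit 397) (nat_lit 300)) (XT.lf (nat_lit 0) (nat_lit 2806577378) (nat_lit 684) (nat_lit 4730588096) (nat_lit 760) (nat_lit 2610334152) (nat_lit 279) (nat_lit 5) (nat_lit 288) (nat_lit 5) (nat_lit 289) (nat_lit 5) (nat_lit 444) (nat_lit 397) (nat_lit 299)))) (XT.nd (nat_lit 156) (nat_lit 684) (nat_lit 0) (XT.nd (nat_lit 78) (nat_lit 836) (nat_lit 0) (XT.lf (nat_lit 0) (nat_lit 8401519736) (nat_lit 684) (nat_lit 1159101188) (nat_lit 760) (nat_lit 693454988) (nat_lit 279) (nat_lit 5) (nat_lit 288) (nat_lit 5) (nat_lit 289) (nat_lit 5) (nat_lit 445) (nat_lit 397) (nat_lit 298)) (XT.lf (nat_lit 0) (nat_lit 1264516884) (nat_lit 836) (nat_lit 6615326894) (nat_lit 76) (nat_lit 2482405220) (nat_lit 268) (nat_lit 5) (nat_lit 279) (nat_lit 5) (nat_lit 269) (nat_lit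 5) (nat_lit 446) (nat_lit 397) (nat_lit 297))) (XT.nd (nat_lit 78) (nat_lit 684) (nat_lit 0) (XT.lf (nat_lit 0) (nat_lit 3251357351) (nat_lit 836) (nat_lit 1024625215) (nat_lit 76) (nat_lit 6196546301) (nat_lit 268) (nat_lit 5) (nat_lit 279) (nat_lit 5) (nat_lit 269) (nat_lit 5) (nat_lit 447) (nat_lit 397) (nat_lit 296)) (XT.lf (nat_lit 0) (nat_lit 4716772177) (nat_lit 684) (nat_lit 570998353) (nat_lit 760) (nat_lit 5297061683) (nat_lit 259) (nat_lit 5) (nat_lit 268) (nat_lit 5) (nat_lit 269) (nat_lit 5) (nat_lit 448) (nat_lit 397) (nat_lit 295))))) (XT.nd (nat_lit 234) (nat_lit 1216) (nat_lit 0) (XT.nd (nat_lit 78) (nat_lit 1368) (nat_lit 0) (XT.lf (nat_lit 0) (nat_lit 7372118262) (nat_lit 760) (nat_lit 156470496) (nat_lit 76) (nat_lit 3170663050) (nat_lit 259) (nat_lit 5) (nat_lit 269) (nat_lit 5) (nat_lit 260) (nat_lit 5) (nat_lit 449) (nat_lit 397) (nat_lit 294)) (XT.nd (nat_lit 78) (nat_lit 684) (nat_lit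 0) (XT.lf (nat_lit 0) (nat_lit 5717776292) (nat_lit 684) (nat_lit 3801140482) (nat_lit 760) (nat_lit 1296641774) (nat_lit 250) (nat_lit 5) (nat_lit 259) (nat_lit 5) (nat_lit 260) (nat_lit 5) (nat_lit 450) (nat_lit 397) (nat_lit 293)) (XT.lf (nat_lit 0) (nat_lit 750311901) (nat_lit 684) (nat_lit 10174973937) (nat_lit 76) (nat_lit 9098318) (nat_lit 241) (nat_lit 5) (nat_lit 250) (nat_lit 5) (nat_lit 242) (nat_lit 5) (nat_lit 451) (nat_lit 397) (nat_lit 292)))) (XT.nd (nat_lit 156) (nat_lit 608) (nat_lit 0) (XT.nd (nat_lit 78) (nat_lit 608) (nat_lit 0) (XT.lf (nat_lit 0) (nat_lit 2860654613) (nat_lit 684) (nat_lit 4309192203) (nat_lit 76) (nat_lit 3884785023) (nat_lit 241) (nat_lit 5) (nat_lit 250) (nat_lit 5) (nat_lit 242) (nat_lit 5) (nat_lit 452) (nat_lit 397) (nat_lit 291)) (XT.lf (nat_lit 0) (nat_lit 1673151065) (nat_lit 608) (nat_lit 3331492104) (nat_lit 684) (nat_lit 6172825487) (nat_lit 233) (nat_lit 5)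 (nat_lit 241) (nat_lit 5) (nat_lit 242) (nat_lit 5) (nat_lit 453) (nat_lit 397) (nat_lit 290))) (XT.nd (nat_lit 78) (nat_lit 608) (nat_lit 0) (XT.lf (nat_lit 0) (nat_lit 7205197703) (nat_lit 684) (nat_lit 3495534397) (nat_lit 76) (nat_lit 601769092) (nat_lit 233) (nat_lit 5) (nat_lit 242) (nat_lit 5) (nat_lit 234) (nat_lit 5) (nat_lit 454) (nat_lit 397) (nat_lit 289)) (XT.lf (nat_lit 0) (nat_lit 2623292887) (nat_lit 608) (nat_lit 6846730602) (nat_lit 684) (nat_lit 1959618145) (nat_lit 225) (nat_lit 5) (nat_lit 233) (nat_lit 5) (nat_lit 234) (nat_lit 5) (nat_lit 455) (nat_lit 397) (nat_lit 288)))))) (XT.nd (nat_lit 546) (nat_lit 2128) (nat_lit 0) (XT.nd (nat_lit 234) (nat_lit 1140) (nat_lit 0) (XT.nd (nat_lit 78) (nat_lit 608) (nat_lit 0) (XT.lf (nat_lit 0) (nat_lit 222791217) (nat_lit 684) (nat_lit 2671152113) (nat_lit 76) (nat_lit 8665267523) (nat_lit 224) (nat_lit 5) (nat_lit 233) (nat_lit 5) (nat_lit 225)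 (nat_lit 5) (nat_lit 456) (nat_lit 397) (nat_lit 287)) (XT.nd (nat_lit 78) (nat_lit 0) (nat_lit 0) (XT.lf (nat_lit 0) (nat_lit 2435225971) (nat_lit 684) (nat_lit 8099802058) (nat_lit 76) (nat_lit 1155843776) (nat_lit 216) (nat_lit 5) (nat_lit 225) (nat_lit 5) (nat_lit 217) (nat_lit 5) (nat_lit 457) (nat_lit 397) (nat_lit 286)) (XT.lf (nat_lit 0) (nat_lit 4710932528) (nat_lit 684) (nat_lit 1851695313) (nat_lit 76) (nat_lit 5262169182) (nat_lit 216) (nat_lit 5) (nat_lit 225) (nat_lit 5) (nat_lit 217) (nat_lit 5) (nat_lit 458) (nat_lit 397) (nat_lit 285)))) (XT.nd (nat_lit 156) (nat_lit 608) (nat_lit 0) (XT.nd (nat_lit 78) (nat_lit 0) (nat_lit 0) (XT.lf (nat_lit 0) (nat_lit 4559259114) (nat_lit 532) (nat_lit 2484666792) (nat_lit 608) (nat_lit 4917250667) (nat_lit 209) (nat_lit 5) (nat_lit 216) (nat_lit 5) (nat_lit 217) (nat_lit 5) (nat_lit 459) (nat_lit 397) (nat_lit 284)) (XT.lf (nat_lit 0) (nat_lit 9429313868)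 (nat_lit 608) (nat_lit 1009561276) (nat_lit 76) (nat_lit 1661304938) (nat_lit 209) (nat_lit 5) (nat_lit 217) (nat_lit 5) (nat_lit 210) (nat_lit 5) (nat_lit 460) (nat_lit 397) (nat_lit 283))) (XT.nd (nat_lit 78) (nat_lit 76) (nat_lit 0) (XT.lf (nat_lit 0) (nat_lit 5545245175) (nat_lit 532) (nat_lit 6352320919) (nat_lit 608) (nat_lit 343705283) (nat_lit 202) (nat_lit 5) (nat_lit 209) (nat_lit 5) (nat_lit 210) (nat_lit 5) (nat_lit 461) (nat_lit 397) (nat_lit 282)) (XT.lf (nat_lit 0) (nat_lit 1992968700) (nat_lit 608) (nat_lit 175207126) (nat_lit 76) (nat_lit 10216963620) (nat_lit 201) (nat_lit 5) (nat_lit 209) (nat_lit 5) (nat_lit 202) (nat_lit 5) (nat_lit 462) (nat_lit 397) (nat_lit 281))))) (XT.nd (nat_lit 234) (nat_lit 1064) (nat_lit 0) (XT.nd (nat_lit 78) (nat_lit 532) (nat_lit 0) (XT.lf (nat_lit 0) (nat_lit 4411239818) (nat_lit 608) (nat_lit 6007075662) (nat_lit 76) (nat_lit 2112744859) (nat_lit 194) (nat_lit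 5) (nat_lit 202) (nat_lit 5) (nat_lit 195) (nat_lit 5) (nat_lit 463) (nat_lit 397) (nat_lit 280)) (XT.nd (nat_lit 78) (nat_lit 0) (nat_lit 0) (XT.lf (nat_lit 0) (nat_lit 652334797) (nat_lit 532) (nat_lit 6228595356) (nat_lit 608) (nat_lit 5798918441) (nat_lit 187) (nat_lit 5) (nat_lit 194) (nat_lit 5) (nat_lit 195) (nat_lit 5) (nat_lit 464) (nat_lit 397) (nat_lit 279)) (XT.lf (nat_lit 0) (nat_lit 7504989208) (nat_lit 532) (nat_lit 1918800993) (nat_lit 608) (nat_lit 3407356718) (nat_lit 187) (nat_lit 5) (nat_lit 194) (nat_lit 5) (nat_lit 195) (nat_lit 5) (nat_lit 465) (nat_lit 397) (nat_lit 278)))) (XT.nd (nat_lit 156) (nat_lit 532) (nat_lit 0) (XT.nd (nat_lit 78) (nat_lit 76) (nat_lit 0) (XT.lf (nat_lit 0) (nat_lit 1491446787) (nat_lit 456) (nat_lit 10535586366) (nat_lit 532) (nat_lit 958257172) (nat_lit 181) (nat_lit 5) (nat_lit 187) (nat_lit 5) (nat_lit 188) (nat_lit 5) (nat_lit 466) (nat_lit 397) (nat_lit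 277)) (XT.lf (nat_lit 0) (nat_lit 1552138971) (nat_lit 532) (nat_lit 4668482607) (nat_lit 76) (nat_lit 6921054133) (nat_lit 180) (nat_lit 5) (nat_lit 187) (nat_lit 5) (nat_lit 181) (nat_lit 5) (nat_lit 467) (nat_lit 397) (nat_lit 276))) (XT.nd (nat_lit 78) (nat_lit 0) (nat_lit 0) (XT.lf (nat_lit 0) (nat_lit 2296233288) (nat_lit 532) (nat_lit 1802740890) (nat_lit 608) (nat_lit 9202115775) (nat_lit 173) (nat_lit 5) (nat_lit 180) (nat_lit 5) (nat_lit 181) (nat_lit 5) (nat_lit 468) (nat_lit 397) (nat_lit 275)) (XT.lf (nat_lit 0) (nat_lit 6730118858) (nat_lit 608) (nat_lit 4038373751) (nat_lit 76) (nat_lit 2694541313) (nat_lit 173) (nat_lit 5) (nat_lit 181) (nat_lit 5) (nat_lit 174) (nat_lit 5) (nat_lit 469) (nat_lit 397) (nat_lit 274))))))))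
noncomputable def xc145 : XT := (XT.nd (nat_lit 2184) (nat_lit 3572) (nat_lit 0) (XT.nd (nat_lit 1092) (nat_lit 2508) (nat_lit 0) (XT.nd (nat_lit 546) (nat_lit 1368) (nat_lit 0) (XT.nd (nat_lit 234) (nat_lit 912) (nat_lit 0) (XT.nd (nat_lit 78) (nat_lit 532) (nat_lit 0) (XT.lf (nat_lit 0) (nat_lit 3075171296) (nat_lit 456) (nat_lit 6355212439) (nat_lit 532) (nat_lit 4197511810) (nat_lit 167) (nat_lit 5) (nat_lit 173) (nat_lit 5) (nat_lit 174) (nat_lit 5) (nat_lit 470) (nat_lit 397) (nat_lit 273)) (XT.nd (nat_lit 78) (nat_lit 532) (nat_lit 0) (XT.lf (nat_lit 0) (nat_lit 10365204118) (nat_lit 456) (nat_lit 1831310826) (nat_lit 532) (nat_lit 1599310786) (nat_lit 167) (nat_lit 5) (nat_lit 173) (nat_lit 5) (nat_lit 174) (nat_lit 5) (nat_lit 471) (nat_lit 397) (nat_lit 272)) (XT.lf (nat_lit 0) (nat_lit 1065315928) (nat_lit 532) (nat_lit 10127672491) (nat_lit 76) (nat_lit 2773432987) (nat_lit 160) (nat_lit 5) (nat_lit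 167) (nat_lit 5) (nat_lit 161) (nat_lit 5) (nat_lit 472) (nat_lit 397) (nat_lit 271)))) (XT.nd (nat_lit 156) (nat_lit 456) (nat_lit 0) (XT.nd (nat_lit 78) (nat_lit 456) (nat_lit 0) (XT.lf (nat_lit 0) (nat_lit 3782224464) (nat_lit 532) (nat_lit 2883298107) (nat_lit 76) (nat_lit 7474294972) (nat_lit 160) (nat_lit 5) (nat_lit 167) (nat_lit 5) (nat_lit 161) (nat_lit 5) (nat_lit 473) (nat_lit 397) (nat_lit 270)) (XT.lf (nat_lit 0) (nat_lit 4545512741) (nat_lit 456) (nat_lit 2022845832) (nat_lit 532) (nat_lit 7748033181) (nat_lit 154) (nat_lit 5) (nat_lit 160) (nat_lit 5) (nat_lit 161) (nat_lit 5) (nat_lit 474) (nat_lit 397) (nat_lit 269))) (XT.nd (nat_lit 78) (nat_lit 456) (nat_lit 0) (XT.lf (nat_lit 0) (nat_lit 9432801264) (nat_lit 532) (nat_lit 2372063324) (nat_lit 76) (nat_lit 2691188889) (nat_lit 154) (nat_lit 5) (nat_lit 161) (nat_lit 5) (nat_lit 155) (nat_lit 5) (nat_lit 475) (nat_lit 397) (nat_lit 268)) (XT.lf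 (nat_lit 0) (nat_lit 5209860773) (nat_lit 456) (nat_lit 7177675381) (nat_lit 532) (nat_lit 2291119807) (nat_lit 148) (nat_lit 5) (nat_lit 154) (nat_lit 5) (nat_lit 155) (nat_lit 5) (nat_lit 476) (nat_lit 397) (nat_lit 267))))) (XT.nd (nat_lit 234) (nat_lit 912) (nat_lit 0) (XT.nd (nat_lit 78) (nat_lit 380) (nat_lit 0) (XT.lf (nat_lit 0) (nat_lit 531274477) (nat_lit 532) (nat_lit 1912468442) (nat_lit 76) (nat_lit 12421068113) (nat_lit 147) (nat_lit 5) (nat_lit 154) (nat_lit 5) (nat_lit 148) (nat_lit 5) (nat_lit 477) (nat_lit 397) (nat_lit 266)) (XT.nd (nat_lit 78) (nat_lit 0) (nat_lit 0) (XT.lf (nat_lit 0) (nat_lit 3419273056) (nat_lit 456) (nat_lit 9232824064) (nat_lit 76) (nat_lit 2401499664) (nat_lit 142) (nat_lit 5) (nat_lit 148) (nat_lit 5) (nat_lit 143) (nat_lit 5) (nat_lit 478) (nat_lit 397) (nat_lit 265)) (XT.lf (nat_lit 0) (nat_lit 6380353893) (nat_lit 456) (nat_lit 1547160601) (nat_lit 76) (nat_lit 7318344326)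 (nat_lit 142) (nat_lit 5) (nat_lit 148) (nat_lit 5) (nat_lit 143) (nat_lit 5) (nat_lit 479) (nat_lit 397) (nat_lit 264)))) (XT.nd (nat_lit 156) (nat_lit 456) (nat_lit 0) (XT.nd (nat_lit 78) (nat_lit 0) (nat_lit 0) (XT.lf (nat_lit 0) (nat_lit 6356372248) (nat_lit 456) (nat_lit 3072043980) (nat_lit 532) (nat_lit 6013001550) (nat_lit 136) (nat_lit 5) (nat_lit 142) (nat_lit 5) (nat_lit 143) (nat_lit 5) (nat_lit 480) (nat_lit 397) (nat_lit 263)) (XT.lf (nat_lit 0) (nat_lit 12546694519) (nat_lit 532) (nat_lit 1233330285) (nat_lit 76) (nat_lit 1860684757) (nat_lit 136) (nat_lit 5) (nat_lit 143) (nat_lit 5) (nat_lit 137) (nat_lit 5) (nat_lit 481) (nat_lit 397) (nat_lit 262))) (XT.nd (nat_lit 78) (nat_lit 76) (nat_lit 0) (XT.lf (nat_lit 0) (nat_lit 6825653593) (nat_lit 380) (nat_lit 8953202982) (nat_lit 456) (nat_lit 64106852) (nat_lit 131) (nat_lit 5) (nat_lit 136) (nat_lit 5) (nat_lit 137) (nat_lit 5) (nat_lit 482)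 (nat_lit 397) (nat_lit 261)) (XT.lf (nat_lit 0) (nat_lit 2981938703) (nat_lit 456) (nat_lit 1025262304) (nat_lit 76) (nat_lit 12041770110) (nat_lit 130) (nat_lit 5) (nat_lit 136) (nat_lit 5) (nat_lit 131) (nat_lit 5) (nat_lit 483) (nat_lit 397) (nat_lit 260)))))) (XT.nd (nat_lit 546) (nat_lit 1064) (nat_lit 0) (XT.nd (nat_lit 234) (nat_lit 760) (nat_lit 0) (XT.nd (nat_lit 78) (nat_lit 304) (nat_lit 0) (XT.lf (nat_lit 0) (nat_lit 6128977219) (nat_lit 456) (nat_lit 9063397325) (nat_lit 76) (nat_lit 1065903560) (nat_lit 125) (nat_lit 5) (nat_lit 131) (nat_lit 5) (nat_lit 126) (nat_lit 5) (nat_lit 484) (nat_lit 397) (nat_lit 259)) (XT.nd (nat_lit 78) (nat_lit 304) (nat_lit 0) (XT.lf (nat_lit 0) (nat_lit 9359670721) (nat_lit 456) (nat_lit 923616784) (nat_lit 76) (nat_lit 6188075549) (nat_lit 125) (nat_lit 5) (nat_lit 131) (nat_lit 5) (nat_lit 126) (nat_lit 5) (nat_lit 485) (nat_lit 397) (nat_lit 258)) (XT.lf (nat_lit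 0) (nat_lit 7458420779) (nat_lit 304) (nat_lit 5232483160) (nat_lit 380) (nat_lit 3997093235) (nat_lit 121) (nat_lit 5) (nat_lit 125) (nat_lit 5) (nat_lit 126) (nat_lit 5) (nat_lit 486) (nat_lit 397) (nat_lit 257)))) (XT.nd (nat_lit 156) (nat_lit 304) (nat_lit 0) (XT.nd (nat_lit 78) (nat_lit 456) (nat_lit 0) (XT.lf (nat_lit 0) (nat_lit 16002382617) (nat_lit 304) (nat_lit 80204670) (nat_lit 380) (nat_lit 826506050) (nat_lit 121) (nat_lit 5) (nat_lit 125) (nat_lit 5) (nat_lit 126) (nat_lit 5) (nat_lit 487) (nat_lit 397) (nat_lit 256)) (XT.lf (nat_lit 0) (nat_lit 2447361185) (nat_lit 456) (nat_lit 9518294512) (nat_lit 76) (nat_lit 5167219886) (nat_lit 115) (nat_lit 5) (nat_lit 121) (nat_lit 5) (nat_lit 116) (nat_lit 5) (nat_lit 488) (nat_lit 397) (nat_lit 255))) (XT.nd (nat_lit 78) (nat_lit 304) (nat_lit 0) (XT.lf (nat_lit 0) (nat_lit 5770174492) (nat_lit 456) (nat_lit 1066604911) (nat_lit 76) (nat_lit 10524359625)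 (nat_lit 115) (nat_lit 5) (nat_lit 121) (nat_lit 5) (nat_lit 116) (nat_lit 5) (nat_lit 489) (nat_lit 397) (nat_lit 254)) (XT.lf (nat_lit 0) (nat_lit 7636490538) (nat_lit 304) (nat_lit 1560641884) (nat_lit 380) (nat_lit 8396086977) (nat_lit 111) (nat_lit 5) (nat_lit 115) (nat_lit 5) (nat_lit 116) (nat_lit 5) (nat_lit 490) (nat_lit 397) (nat_lit 253))))) (XT.nd (nat_lit 234) (nat_lit 608) (nat_lit 0) (XT.nd (nat_lit 78) (nat_lit 456) (nat_lit 0) (XT.lf (nat_lit 0) (nat_lit 12712830428) (nat_lit 380) (nat_lit 1344415667) (nat_lit 76) (nat_lit 3772296579) (nat_lit 111) (nat_lit 5) (nat_lit 116) (nat_lit 5) (nat_lit 112) (nat_lit 5) (nat_lit 491) (nat_lit 397) (nat_lit 252)) (XT.nd (nat_lit 78) (nat_lit 76) (nat_lit 0) (XT.lf (nat_lit 0) (nat_lit 7510796746) (nat_lit 380) (nat_lit 8835565166) (nat_lit 456) (nat_lit 1723285325) (nat_lit 106) (nat_lit 5) (nat_lit 111) (nat_lit 5) (nat_lit 112) (nat_lit 5) (nat_lit 492)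 (nat_lit 397) (nat_lit 251)) (XT.lf (nat_lit 0) (nat_lit 1712749481) (nat_lit 456) (nat_lit 1781940549) (nat_lit 76) (nat_lit 14819692510) (nat_lit 105) (nat_lit 5) (nat_lit 111) (nat_lit 5) (nat_lit 106) (nat_lit 5) (nat_lit 493) (nat_lit 397) (nat_lit 250)))) (XT.nd (nat_lit 156) (nat_lit 304) (nat_lit 0) (XT.nd (nat_lit 78) (nat_lit 0) (nat_lit 0) (XT.lf (nat_lit 0) (nat_lit 5243145078) (nat_lit 380) (nat_lit 11339313690) (nat_lit 76) (nat_lit 1980356578) (nat_lit 101) (nat_lit 5) (nat_lit 106) (nat_lit 5) (nat_lit 102) (nat_lit 5) (nat_lit 494) (nat_lit 397) (nat_lit 249)) (XT.lf (nat_lit 0) (nat_lit 8868080475) (nat_lit 380) (nat_lit 2423286637) (nat_lit 76) (nat_lit 7524375874) (nat_lit 101) (nat_lit 5) (nat_lit 106) (nat_lit 5) (nat_lit 102) (nat_lit 5) (nat_lit 495) (nat_lit 397) (nat_lit 248))) (XT.nd (nat_lit 78) (nat_lit 0) (nat_lit 0) (XT.lf (nat_lit 0) (nat_lit 6742536087) (nat_lit 304) (nat_lit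 5855727366) (nat_lit 380) (nat_lit 6474815467) (nat_lit 97) (nat_lit 5) (nat_lit 101) (nat_lit 5) (nat_lit 102) (nat_lit 5) (nat_lit 496) (nat_lit 397) (nat_lit 247)) (XT.lf (nat_lit 0) (nat_lit 16107680655) (nat_lit 304) (nat_lit 300709707) (nat_lit 380) (nat_lit 2927069035) (nat_lit 97) (nat_lit 5) (nat_lit 101) (nat_lit 5) (nat_lit 102) (nat_lit 5) (nat_lit 497) (nat_lit 397) (nat_lit 246))))))) (XT.nd (nat_lit 1092) (nat_lit 1444) (nat_lit 0) (XT.nd (nat_lit 546) (nat_lit 836) (nat_lit 0) (XT.nd (nat_lit 234) (nat_lit 608) (nat_lit 0) (XT.nd (nat_lit 78) (nat_lit 304) (nat_lit 0) (XT.lf (nat_lit 0) (nat_lit 746579084) (nat_lit 380) (nat_lit 13521410418) (nat_lit 76) (nat_lit 5333732266) (nat_lit 92) (nat_lit 5) (nat_lit 97) (nat_lit 5) (nat_lit 93) (nat_lit 5) (nat_lit 498) (nat_lit 397) (nat_lit 245)) (XT.nd (nat_lit 78) (nat_lit 304) (nat_lit 0) (XT.lf (nat_lit 0) (nat_lit 4467621676) (nat_lit 380) (nat_lit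 4292809598) (nat_lit 76) (nat_lit 11112233215) (nat_lit 92) (nat_lit 5) (nat_lit 97) (nat_lit 5) (nat_lit 93) (nat_lit 5) (nat_lit 499) (nat_lit 397) (nat_lit 244)) (XT.lf (nat_lit 0) (nat_lit 5171789652) (nat_lit 304) (nat_lit 3114367621) (nat_lit 380) (nat_lit 11862411625) (nat_lit 88) (nat_lit 5) (nat_lit 92) (nat_lit 5) (nat_lit 93) (nat_lit 5) (nat_lit 500) (nat_lit 397) (nat_lit 243)))) (XT.nd (nat_lit 156) (nat_lit 380) (nat_lit 0) (XT.nd (nat_lit 78) (nat_lit 228) (nat_lit 0) (XT.lf (nat_lit 0) (nat_lit 12216787428) (nat_lit 380) (nat_lit 5579374301) (nat_lit 76) (nat_lit 2633119381) (nat_lit 88) (nat_lit 5) (nat_lit 93) (nat_lit 5) (nat_lit 89) (nat_lit 5) (nat_lit 501) (nat_lit 397) (nat_lit 242)) (XT.lf (nat_lit 0) (nat_lit 4021956680) (nat_lit 228) (nat_lit 12240571911) (nat_lit 304) (nat_lit 4452353118) (nat_lit 85) (nat_lit 5) (nat_lit 88) (nat_lit 5) (nat_lit 89) (nat_lit 5) (nat_lit 502) (nat_lit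 397) (nat_lit 241))) (XT.nd (nat_lit 78) (nat_lit 380) (nat_lit 0) (XT.lf (nat_lit 0) (nat_lit 13874904594) (nat_lit 228) (nat_lit 6541577405) (nat_lit 304) (nat_lit 589170400) (nat_lit 85) (nat_lit 5) (nat_lit 88) (nat_lit 5) (nat_lit 89) (nat_lit 5) (nat_lit 503) (nat_lit 397) (nat_lit 240)) (XT.lf (nat_lit 0) (nat_lit 2619406213) (nat_lit 304) (nat_lit 694910108) (nat_lit 380) (nat_lit 17987351023) (nat_lit 80) (nat_lit 5) (nat_lit 84) (nat_lit 5) (nat_lit 85) (nat_lit 5) (nat_lit 504) (nat_lit 397) (nat_lit 239))))) (XT.nd (nat_lit 234) (nat_lit 608) (nat_lit 0) (XT.nd (nat_lit 78) (nat_lit 228) (nat_lit 0) (XT.lf (nat_lit 0) (nat_lit 7360409114) (nat_lit 380) (nat_lit 8995771573) (nat_lit 76) (nat_lit 5245899301) (nat_lit 80) (nat_lit 5) (nat_lit 85) (nat_lit 5) (nat_lit 81) (nat_lit 5) (nat_lit 505) (nat_lit 397) (nat_lit 238)) (XT.nd (nat_lit 78) (nat_lit 0) (nat_lit 0) (XT.lf (nat_lit 0) (nat_lit 875721194)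 (nat_lit 228) (nat_lit 10612227793) (nat_lit 304) (nat_lit 10420545118) (nat_lit 77) (nat_lit 5) (nat_lit 80) (nat_lit 5) (nat_lit 81) (nat_lit 5) (nat_lit 506) (nat_lit 397) (nat_lit 237)) (XT.lf (nat_lit 0) (nat_lit 11051076796) (nat_lit 228) (nat_lit 4697657371) (nat_lit 304) (nat_lit 6471292094) (nat_lit 77) (nat_lit 5) (nat_lit 80) (nat_lit 5) (nat_lit 81) (nat_lit 5) (nat_lit 507) (nat_lit 397) (nat_lit 236)))) (XT.nd (nat_lit 156) (nat_lit 228) (nat_lit 0) (XT.nd (nat_lit 78) (nat_lit 380) (nat_lit 0) (XT.lf (nat_lit 0) (nat_lit 20093884734) (nat_lit 304) (nat_lit 1131877676) (nat_lit 76) (nat_lit 1312047235) (nat_lit 77) (nat_lit 5) (nat_lit 81) (nat_lit 5) (nat_lit 78) (nat_lit 5) (nat_lit 508) (nat_lit 397) (nat_lit 235)) (XT.lf (nat_lit 0) (nat_lit 1724082927) (nat_lit 380) (nat_lit 13691500388) (nat_lit 76) (nat_lit 7444514410) (nat_lit 72) (nat_lit 5) (nat_lit 77) (nat_lit 5) (nat_lit 73) (nat_lit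 5) (nat_lit 509) (nat_lit 397) (nat_lit 234))) (XT.nd (nat_lit 78) (nat_lit 228) (nat_lit 0) (XT.lf (nat_lit 0) (nat_lit 5941091698) (nat_lit 380) (nat_lit 3529576122) (nat_lit 76) (nat_lit 13717876732) (nat_lit 72) (nat_lit 5) (nat_lit 77) (nat_lit 5) (nat_lit 73) (nat_lit 5) (nat_lit 510) (nat_lit 397) (nat_lit 233)) (XT.lf (nat_lit 0) (nat_lit 6911441244) (nat_lit 228) (nat_lit 3366744181) (nat_lit 304) (nat_lit 13244663300) (nat_lit 69) (nat_lit 5) (nat_lit 72) (nat_lit 5) (nat_lit 73) (nat_lit 5) (nat_lit 511) (nat_lit 397) (nat_lit 232)))))) (XT.nd (nat_lit 546) (nat_lit 684) (nat_lit 0) (XT.nd (nat_lit 234) (nat_lit 532) (nat_lit 0) (XT.nd (nat_lit 78) (nat_lit 228) (nat_lit 0) (XT.lf (nat_lit 0) (nat_lit 14735345452) (nat_lit 304) (nat_lit 6287803393) (nat_lit 76) (nat_lit 2840026889) (nat_lit 69) (nat_lit 5) (nat_lit 73) (nat_lit 5) (nat_lit 70) (nat_lit 5) (nat_lit 512) (nat_lit 397) (nat_lit 231))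 (XT.nd (nat_lit 78) (nat_lit 0) (nat_lit 0) (XT.lf (nat_lit 0) (nat_lit 4261315004) (nat_lit 228) (nat_lit 15061393410) (nat_lit 304) (nat_lit 4886782852) (nat_lit 66) (nat_lit 5) (nat_lit 69) (nat_lit 5) (nat_lit 70) (nat_lit 5) (nat_lit 513) (nat_lit 397) (nat_lit 230)) (XT.lf (nat_lit 0) (nat_lit 15092194952) (nat_lit 228) (nat_lit 8942995027) (nat_lit 304) (nat_lit 526878815) (nat_lit 66) (nat_lit 5) (nat_lit 69) (nat_lit 5) (nat_lit 70) (nat_lit 5) (nat_lit 514) (nat_lit 397) (nat_lit 229)))) (XT.nd (nat_lit 156) (nat_lit 228) (nat_lit 0) (XT.nd (nat_lit 78) (nat_lit 0) (nat_lit 0) (XT.lf (nat_lit 0) (nat_lit 1193911303) (nat_lit 228) (nat_lit 2673938807) (nat_lit 304) (nat_lit 21053360880) (nat_lit 62) (nat_lit 5) (nat_lit 65) (nat_lit 5) (nat_lit 66) (nat_lit 5) (nat_lit 515) (nat_lit 397) (nat_lit 228)) (XT.lf (nat_lit 0) (nat_lit 8422882019) (nat_lit 304) (nat_lit 13129326779) (nat_lit 76) (nat_lit 3733671246)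 (nat_lit 62) (nat_lit 5) (nat_lit 66) (nat_lit 5) (nat_lit 63) (nat_lit 5) (nat_lit 516) (nat_lit 397) (nat_lit 227))) (XT.nd (nat_lit 78) (nat_lit 228) (nat_lit 0) (XT.lf (nat_lit 0) (nat_lit 13078224816) (nat_lit 304) (nat_lit 2351155986) (nat_lit 76) (nat_lit 10228280350) (nat_lit 62) (nat_lit 5) (nat_lit 66) (nat_lit 5) (nat_lit 63) (nat_lit 5) (nat_lit 517) (nat_lit 397) (nat_lit 226)) (XT.lf (nat_lit 0) (nat_lit 8743472625) (nat_lit 228) (nat_lit 9131638942) (nat_lit 304) (nat_lit 8160800394) (nat_lit 59) (nat_lit 5) (nat_lit 62) (nat_lit 5) (nat_lit 63) (nat_lit 5) (nat_lit 518) (nat_lit 397) (nat_lit 225))))) (XT.nd (nat_lit 234) (nat_lit 380) (nat_lit 0) (XT.nd (nat_lit 78) (nat_lit 304) (nat_lit 0) (XT.lf (nat_lit 0) (nat_lit 20078177178) (nat_lit 228) (nat_lit 2697279536) (nat_lit 304) (nat_lit 3646123426) (nat_lit 59) (nat_lit 5) (nat_lit 62) (nat_lit 5) (nat_lit 63) (nat_lit 5) (nat_lit 519) (nat_lit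 397) (nat_lit 224)) (XT.nd (nat_lit 78) (nat_lit 0) (nat_lit 0) (XT.lf (nat_lit 0) (nat_lit 995046099) (nat_lit 304) (nat_lit 21970972474) (nat_lit 76) (nat_lit 3847845767) (nat_lit 55) (nat_lit 5) (nat_lit 59) (nat_lit 5) (nat_lit 56) (nat_lit 5) (nat_lit 520) (nat_lit 397) (nat_lit 223)) (XT.lf (nat_lit 0) (nat_lit 5732861841) (nat_lit 304) (nat_lit 10930105112) (nat_lit 76) (nat_lit 10549494972) (nat_lit 55) (nat_lit 5) (nat_lit 59) (nat_lit 5) (nat_lit 56) (nat_lit 5) (nat_lit 521) (nat_lit 397) (nat_lit 222)))) (XT.nd (nat_lit 156) (nat_lit 152) (nat_lit 0) (XT.nd (nat_lit 78) (nat_lit 0) (nat_lit 0) (XT.lf (nat_lit 0) (nat_lit 322505261) (nat_lit 228) (nat_lit 10237068171) (nat_lit 304) (nat_lit 17059577794) (nat_lit 52) (nat_lit 5) (nat_lit 55) (nat_lit 5) (nat_lit 56) (nat_lit 5) (nat_lit 522) (nat_lit 397) (nat_lit 221)) (XT.lf (nat_lit 0) (nat_lit 11935111771) (nat_lit 228) (nat_lit 3613170015) (nat_lit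 304) (nat_lit 12484385782) (nat_lit 52) (nat_lit 5) (nat_lit 55) (nat_lit 5) (nat_lit 56) (nat_lit 5) (nat_lit 523) (nat_lit 397) (nat_lit 220))) (XT.nd (nat_lit 78) (nat_lit 152) (nat_lit 0) (XT.lf (nat_lit 0) (nat_lit 20649408511) (nat_lit 304) (nat_lit 4707972087) (nat_lit 76) (nat_lit 3096823211) (nat_lit 52) (nat_lit 5) (nat_lit 56) (nat_lit 5) (nat_lit 53) (nat_lit 5) (nat_lit 524) (nat_lit 397) (nat_lit 219)) (XT.lf (nat_lit 0) (nat_lit 6963984931) (nat_lit 152) (nat_lit 18950104576) (nat_lit 228) (nat_lit 2968853039) (nat_lit 50) (nat_lit 5) (nat_lit 52) (nat_lit 5) (nat_lit 53) (nat_lit 5) (nat_lit 525) (nat_lit 397) (nat_lit 218))))))))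
noncomputable def xc146 : XT := (XT.nd (nat_lit 2184) (nat_lit 14744) (nat_lit 0) (XT.nd (nat_lit 1092) (nat_lit 5244) (nat_lit 0) (XT.nd (nat_lit 546) (nat_lit 2204) (nat_lit 0) (XT.nd (nat_lit 234) (nat_lit 1064) (nat_lit 0) (XT.nd (nat_lit 78) (nat_lit 0) (nat_lit 0) (XT.lf (nat_lit 0) (nat_lit 882270708) (nat_lit 0) (nat_lit 882270708) (nat_lit 988) (nat_lit 1772199198) (nat_lit 547) (nat_lit 5) (nat_lit 547) (nat_lit 3) (nat_lit 560) (nat_lit 3) (nat_lit 398) (nat_lit 398) (nat_lit 344)) (XT.nd (nat_lit 78) (nat_lit 0) (nat_lit 0) (XT.lf (nat_lit 0) (nat_lit 5073451028) (nat_lit 0) (nat_lit 158622537) (nat_lit 988) (nat_lit 1877068091) (nat_lit 547) (nat_lit 5) (nat_lit 547) (nat_lit 3) (nat_lit 560) (nat_lit 3) (nat_lit 399) (nat_lit 398) (nat_lit 343)) (XT.lf (nat_lit 76) (nat_lit 1287368055) (nat_lit 0) (nat_lit 5656117485) (nat_lit 1064) (nat_lit 202587648) (nat_lit 548) (nat_lit 5) (nat_lit 547) (nat_lit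 5) (nat_lit 561) (nat_lit 5) (nat_lit 400) (nat_lit 398) (nat_lit 342)))) (XT.nd (nat_lit 156) (nat_lit 0) (nat_lit 0) (XT.nd (nat_lit 78) (nat_lit 0) (nat_lit 0) (XT.lf (nat_lit 0) (nat_lit 1457217474) (nat_lit 1064) (nat_lit 2513303903) (nat_lit 1140) (nat_lit 3213638301) (nat_lit 533) (nat_lit 5) (nat_lit 547) (nat_lit 5) (nat_lit 548) (nat_lit 5) (nat_lit 401) (nat_lit 398) (nat_lit 341)) (XT.lf (nat_lit 76) (nat_lit 886346034) (nat_lit 0) (nat_lit 2224541737) (nat_lit 1140) (nat_lit 4112868234) (nat_lit 534) (nat_lit 5) (nat_lit 533) (nat_lit 5) (nat_lit 548) (nat_lit 5) (nat_lit 402) (nat_lit 398) (nat_lit 340))) (XT.nd (nat_lit 78) (nat_lit 0) (nat_lit 76) (XT.lf (nat_lit 76) (nat_lit 4365266138) (nat_lit 0) (nat_lit 407538284) (nat_lit 1140) (nat_lit 2491878067) (nat_lit 534) (nat_lit 5) (nat_lit 533) (nat_lit 5) (nat_lit 548) (nat_lit 5) (nat_lit 403) (nat_lit 398) (nat_lit 339)) (XT.lf (nat_lit 76)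 (nat_lit 582263374) (nat_lit 0) (nat_lit 5858108772) (nat_lit 1140) (nat_lit 866647975) (nat_lit 535) (nat_lit 5) (nat_lit 534) (nat_lit 5) (nat_lit 549) (nat_lit 5) (nat_lit 404) (nat_lit 398) (nat_lit 338))))) (XT.nd (nat_lit 234) (nat_lit 1140) (nat_lit 0) (XT.nd (nat_lit 78) (nat_lit 0) (nat_lit 0) (XT.lf (nat_lit 0) (nat_lit 762584569) (nat_lit 1140) (nat_lit 3208646383) (nat_lit 1216) (nat_lit 3379272650) (nat_lit 519) (nat_lit 5) (nat_lit 534) (nat_lit 5) (nat_lit 535) (nat_lit 5) (nat_lit 405) (nat_lit 398) (nat_lit 337)) (XT.nd (nat_lit 78) (nat_lit 0) (nat_lit 76) (XT.lf (nat_lit 76) (nat_lit 353401309) (nat_lit 0) (nat_lit 2022082485) (nat_lit 1216) (nat_lit 5020043176) (nat_lit 520) (nat_lit 5) (nat_lit 519) (nat_lit 5) (nat_lit 535) (nat_lit 5) (nat_lit 406) (nat_lit 398) (nat_lit 336)) (XT.lf (nat_lit 0) (nat_lit 4003205644) (nat_lit 1140) (nat_lit 3434806188) (nat_lit 1216) (nat_lit 3825439) (nat_lit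 520) (nat_lit 5) (nat_lit 535) (nat_lit 5) (nat_lit 536) (nat_lit 5) (nat_lit 407) (nat_lit 398) (nat_lit 335)))) (XT.nd (nat_lit 156) (nat_lit 1216) (nat_lit 0) (XT.nd (nat_lit 78) (nat_lit 0) (nat_lit 0) (XT.lf (nat_lit 76) (nat_lit 210452185) (nat_lit 0) (nat_lit 5429660722) (nat_lit 1216) (nat_lit 1849465271) (nat_lit 521) (nat_lit 5) (nat_lit 520) (nat_lit 5) (nat_lit 536) (nat_lit 5) (nat_lit 408) (nat_lit 398) (nat_lit 334)) (XT.lf (nat_lit 76) (nat_lit 3951754204) (nat_lit 0) (nat_lit 3343522292) (nat_lit 1216) (nat_lit 243323336) (nat_lit 521) (nat_lit 5) (nat_lit 520) (nat_lit 5) (nat_lit 536) (nat_lit 5) (nat_lit 409) (nat_lit 398) (nat_lit 333))) (XT.nd (nat_lit 78) (nat_lit 0) (nat_lit 76) (XT.lf (nat_lit 76) (nat_lit 148683908) (nat_lit 0) (nat_lit 1191853909) (nat_lit 1292) (nat_lit 6248640024) (nat_lit 505) (nat_lit 5) (nat_lit 504) (nat_lit 5) (nat_lit 521) (nat_lit 5) (nat_lit 410) (nat_lit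 398) (nat_lit 332)) (XT.lf (nat_lit 0) (nat_lit 2947148158) (nat_lit 1216) (nat_lit 3665207979) (nat_lit 1292) (nat_lit 1028526705) (nat_lit 505) (nat_lit 5) (nat_lit 521) (nat_lit 5) (nat_lit 522) (nat_lit 5) (nat_lit 411) (nat_lit 398) (nat_lit 331)))))) (XT.nd (nat_lit 546) (nat_lit 4104) (nat_lit 0) (XT.nd (nat_lit 234) (nat_lit 0) (nat_lit 0) (XT.nd (nat_lit 78) (nat_lit 1216) (nat_lit 0) (XT.lf (nat_lit 76) (nat_lit 156026479) (nat_lit 0) (nat_lit 4403071148) (nat_lit 1292) (nat_lit 3135093707) (nat_lit 506) (nat_lit 5) (nat_lit 505) (nat_lit 5) (nat_lit 522) (nat_lit 5) (nat_lit 412) (nat_lit 398) (nat_lit 330)) (XT.nd (nat_lit 78) (nat_lit 1216) (nat_lit 0) (XT.lf (nat_lit 76) (nat_lit 4079814019) (nat_lit 0) (nat_lit 2112915416) (nat_lit 1292) (nat_lit 1556080566) (nat_lit 506) (nat_lit 5) (nat_lit 505) (nat_lit 5) (nat_lit 522) (nat_lit 5) (nat_lit 413) (nat_lit 398) (nat_lit 329)) (XT.lf (nat_lit 0)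 (nat_lit 22277369) (nat_lit 1292) (nat_lit 7549753390) (nat_lit 1368) (nat_lit 233145209) (nat_lit 489) (nat_lit 5) (nat_lit 506) (nat_lit 5) (nat_lit 507) (nat_lit 5) (nat_lit 414) (nat_lit 398) (nat_lit 328)))) (XT.nd (nat_lit 156) (nat_lit 0) (nat_lit 0) (XT.nd (nat_lit 78) (nat_lit 0) (nat_lit 0) (XT.lf (nat_lit 0) (nat_lit 1616038481) (nat_lit 1292) (nat_lit 3602789396) (nat_lit 1368) (nat_lit 2643573201) (nat_lit 489) (nat_lit 5) (nat_lit 506) (nat_lit 5) (nat_lit 507) (nat_lit 5) (nat_lit 415) (nat_lit 398) (nat_lit 327)) (XT.lf (nat_lit 76) (nat_lit 404680913) (nat_lit 0) (nat_lit 2806166160) (nat_lit 1368) (nat_lit 4710570542) (nat_lit 490) (nat_lit 5) (nat_lit 489) (nat_lit 5) (nat_lit 507) (nat_lit 5) (nat_lit 416) (nat_lit 398) (nat_lit 326))) (XT.nd (nat_lit 78) (nat_lit 0) (nat_lit 76) (XT.lf (nat_lit 76) (nat_lit 4517553146) (nat_lit 0) (nat_lit 311222964) (nat_lit 1368) (nat_lit 3153043660) (nat_lit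 490) (nat_lit 5) (nat_lit 489) (nat_lit 5) (nat_lit 507) (nat_lit 5) (nat_lit 417) (nat_lit 398) (nat_lit 325)) (XT.lf (nat_lit 76) (nat_lit 639278217) (nat_lit 0) (nat_lit 5826191681) (nat_lit 1368) (nat_lit 1578261135) (nat_lit 491) (nat_lit 5) (nat_lit 490) (nat_lit 5) (nat_lit 508) (nat_lit 5) (nat_lit 418) (nat_lit 398) (nat_lit 324))))) (XT.nd (nat_lit 234) (nat_lit 2812) (nat_lit 0) (XT.nd (nat_lit 78) (nat_lit 0) (nat_lit 0) (XT.lf (nat_lit 0) (nat_lit 21104876) (nat_lit 1368) (nat_lit 3261112726) (nat_lit 1444) (nat_lit 4824818234) (nat_lit 472) (nat_lit 5) (nat_lit 490) (nat_lit 5) (nat_lit 491) (nat_lit 5) (nat_lit 419) (nat_lit 398) (nat_lit 323)) (XT.nd (nat_lit 78) (nat_lit 0) (nat_lit 76) (XT.lf (nat_lit 76) (nat_lit 943334492) (nat_lit 0) (nat_lit 662756090) (nat_lit 1444) (nat_lit 6565839704) (nat_lit 473) (nat_lit 5) (nat_lit 472) (nat_lit 5) (nat_lit 491) (nat_lit 5) (nat_lit 420) (nat_lit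 398) (nat_lit 322)) (XT.lf (nat_lit 0) (nat_lit 3226980418) (nat_lit 1368) (nat_lit 2999015483) (nat_lit 76) (nat_lit 2012069605) (nat_lit 473) (nat_lit 5) (nat_lit 491) (nat_lit 5) (nat_lit 474) (nat_lit 5) (nat_lit 421) (nat_lit 398) (nat_lit 321)))) (XT.nd (nat_lit 156) (nat_lit 1520) (nat_lit 0) (XT.nd (nat_lit 78) (nat_lit 0) (nat_lit 0) (XT.lf (nat_lit 0) (nat_lit 1304128925) (nat_lit 1368) (nat_lit 3558752105) (nat_lit 1444) (nat_lit 3443016977) (nat_lit 455) (nat_lit 5) (nat_lit 473) (nat_lit 5) (nat_lit 474) (nat_lit 5) (nat_lit 422) (nat_lit 398) (nat_lit 320)) (XT.lf (nat_lit 0) (nat_lit 5710402584) (nat_lit 1368) (nat_lit 811398905) (nat_lit 1444) (nat_lit 1853505552) (nat_lit 455) (nat_lit 5) (nat_lit 473) (nat_lit 5) (nat_lit 474) (nat_lit 5) (nat_lit 423) (nat_lit 398) (nat_lit 319))) (XT.nd (nat_lit 78) (nat_lit 76) (nat_lit 0) (XT.lf (nat_lit 0) (nat_lit 1744882160) (nat_lit 1444) (nat_lit 6464074712)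 (nat_lit 1520) (nat_lit 237271666) (nat_lit 436) (nat_lit 5) (nat_lit 455) (nat_lit 5) (nat_lit 456) (nat_lit 5) (nat_lit 424) (nat_lit 398) (nat_lit 318)) (XT.lf (nat_lit 0) (nat_lit 1387157796) (nat_lit 1520) (nat_lit 2277904590) (nat_lit 76) (nat_lit 4853459637) (nat_lit 435) (nat_lit 5) (nat_lit 455) (nat_lit 5) (nat_lit 436) (nat_lit 5) (nat_lit 425) (nat_lit 398) (nat_lit 317))))))) (XT.nd (nat_lit 1092) (nat_lit 5168) (nat_lit 0) (XT.nd (nat_lit 546) (nat_lit 3420) (nat_lit 0) (XT.nd (nat_lit 234) (nat_lit 3040) (nat_lit 0) (XT.nd (nat_lit 78) (nat_lit 1596) (nat_lit 0) (XT.lf (nat_lit 0) (nat_lit 2238233817) (nat_lit 1520) (nat_lit 788773892) (nat_lit 1596) (nat_lit 5565524072) (nat_lit 415) (nat_lit 5) (nat_lit 435) (nat_lit 5) (nat_lit 436) (nat_lit 5) (nat_lit 426) (nat_lit 398) (nat_lit 316)) (XT.nd (nat_lit 78) (nat_lit 1596) (nat_lit 0) (XT.lf (nat_lit 0) (nat_lit 4700978111) (nat_lit 1596) (nat_lit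 1830186313) (nat_lit 76) (nat_lit 2136854313) (nat_lit 415) (nat_lit 5) (nat_lit 436) (nat_lit 5) (nat_lit 416) (nat_lit 5) (nat_lit 427) (nat_lit 398) (nat_lit 315)) (XT.lf (nat_lit 0) (nat_lit 2792261150) (nat_lit 1596) (nat_lit 3612077785) (nat_lit 1672) (nat_lit 2340781294) (nat_lit 394) (nat_lit 5) (nat_lit 415) (nat_lit 5) (nat_lit 416) (nat_lit 5) (nat_lit 428) (nat_lit 398) (nat_lit 314)))) (XT.nd (nat_lit 156) (nat_lit 1292) (nat_lit 0) (XT.nd (nat_lit 78) (nat_lit 1748) (nat_lit 0) (XT.lf (nat_lit 0) (nat_lit 7508577356) (nat_lit 1596) (nat_lit 618415487) (nat_lit 1672) (nat_lit 697088954) (nat_lit 394) (nat_lit 5) (nat_lit 415) (nat_lit 5) (nat_lit 416) (nat_lit 5) (nat_lit 429) (nat_lit 398) (nat_lit 313)) (XT.lf (nat_lit 0) (nat_lit 978200039) (nat_lit 1748) (nat_lit 5490713608) (nat_lit 76) (nat_lit 2435372074) (nat_lit 371) (nat_lit 5) (nat_lit 394) (nat_lit 5) (nat_lit 372) (nat_lit 5) (nat_lit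 430) (nat_lit 398) (nat_lit 312))) (XT.nd (nat_lit 78) (nat_lit 1292) (nat_lit 0) (XT.lf (nat_lit 0) (nat_lit 2664322925) (nat_lit 1748) (nat_lit 763348101) (nat_lit 76) (nat_lit 5558618563) (nat_lit 371) (nat_lit 5) (nat_lit 394) (nat_lit 5) (nat_lit 372) (nat_lit 5) (nat_lit 431) (nat_lit 398) (nat_lit 311)) (XT.lf (nat_lit 0) (nat_lit 4088934245) (nat_lit 1292) (nat_lit 295970087) (nat_lit 1368) (nat_lit 4685035326) (nat_lit 354) (nat_lit 5) (nat_lit 371) (nat_lit 5) (nat_lit 372) (nat_lit 5) (nat_lit 432) (nat_lit 398) (nat_lit 310))))) (XT.nd (nat_lit 234) (nat_lit 1672) (nat_lit 0) (XT.nd (nat_lit 78) (nat_lit 1748) (nat_lit 0) (XT.lf (nat_lit 0) (nat_lit 6138431233) (nat_lit 1368) (nat_lit 149052077) (nat_lit 76) (nat_lit 2867829178) (nat_lit 354) (nat_lit 5) (nat_lit 372) (nat_lit 5) (nat_lit 355) (nat_lit 5) (nat_lit 433) (nat_lit 398) (nat_lit 309)) (XT.nd (nat_lit 78) (nat_lit 912) (nat_lit 0) (XT.lf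 (nat_lit 0) (nat_lit 4817577983) (nat_lit 836) (nat_lit 3117747869) (nat_lit 912) (nat_lit 1306921018) (nat_lit 343) (nat_lit 5) (nat_lit 354) (nat_lit 5) (nat_lit 355) (nat_lit 5) (nat_lit 434) (nat_lit 398) (nat_lit 308)) (XT.lf (nat_lit 0) (nat_lit 412009477) (nat_lit 912) (nat_lit 8796638660) (nat_lit 76) (nat_lit 122624172) (nat_lit 331) (nat_lit 5) (nat_lit 343) (nat_lit 5) (nat_lit 332) (nat_lit 5) (nat_lit 435) (nat_lit 398) (nat_lit 307)))) (XT.nd (nat_lit 156) (nat_lit 836) (nat_lit 0) (XT.nd (nat_lit 78) (nat_lit 836) (nat_lit 0) (XT.lf (nat_lit 0) (nat_lit 2173929585) (nat_lit 912) (nat_lit 3821627455) (nat_lit 76) (nat_lit 3425845110) (nat_lit 331) (nat_lit 5) (nat_lit 343) (nat_lit 5) (nat_lit 332) (nat_lit 5) (nat_lit 436) (nat_lit 398) (nat_lit 306)) (XT.lf (nat_lit 0) (nat_lit 1245946606) (nat_lit 836) (nat_lit 2709268732) (nat_lit 912) (nat_lit 5558455214) (nat_lit 320) (nat_lit 5) (nat_lit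 331) (nat_lit 5) (nat_lit 332) (nat_lit 5) (nat_lit 437) (nat_lit 398) (nat_lit 305))) (XT.nd (nat_lit 78) (nat_lit 836) (nat_lit 0) (XT.lf (nat_lit 0) (nat_lit 5778475702) (nat_lit 912) (nat_lit 3168558466) (nat_lit 76) (nat_lit 660641326) (nat_lit 320) (nat_lit 5) (nat_lit 332) (nat_lit 5) (nat_lit 321) (nat_lit 5) (nat_lit 438) (nat_lit 398) (nat_lit 304)) (XT.lf (nat_lit 0) (nat_lit 2017957756) (nat_lit 836) (nat_lit 5628111925) (nat_lit 912) (nat_lit 2057351277) (nat_lit 309) (nat_lit 5) (nat_lit 320) (nat_lit 5) (nat_lit 321) (nat_lit 5) (nat_lit 439) (nat_lit 398) (nat_lit 303)))))) (XT.nd (nat_lit 546) (nat_lit 2812) (nat_lit 0) (XT.nd (nat_lit 234) (nat_lit 1520) (nat_lit 0) (XT.nd (nat_lit 78) (nat_lit 836) (nat_lit 0) (XT.lf (nat_lit 0) (nat_lit 7328151022) (nat_lit 836) (nat_lit 2221256593) (nat_lit 912) (nat_lit 251723318) (nat_lit 309) (nat_lit 5) (nat_lit 320) (nat_lit 5) (nat_lit 321) (nat_lit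 5) (nat_lit 440) (nat_lit 398) (nat_lit 302)) (XT.nd (nat_lit 78) (nat_lit 0) (nat_lit 0) (XT.lf (nat_lit 0) (nat_lit 1573395892) (nat_lit 836) (nat_lit 7061105768) (nat_lit 76) (nat_lit 1266019102) (nat_lit 298) (nat_lit 5) (nat_lit 309) (nat_lit 5) (nat_lit 299) (nat_lit 5) (nat_lit 441) (nat_lit 398) (nat_lit 301)) (XT.lf (nat_lit 0) (nat_lit 3440770335) (nat_lit 836) (nat_lit 1749652905) (nat_lit 76) (nat_lit 4811275839) (nat_lit 298) (nat_lit 5) (nat_lit 309) (nat_lit 5) (nat_lit 299) (nat_lit 5) (nat_lit 442) (nat_lit 398) (nat_lit 300)))) (XT.nd (nat_lit 156) (nat_lit 760) (nat_lit 0) (XT.nd (nat_lit 78) (nat_lit 0) (nat_lit 0) (XT.lf (nat_lit 0) (nat_lit 3693748824) (nat_lit 760) (nat_lit 1653867931) (nat_lit 836) (nat_lit 4757257833) (nat_lit 288) (nat_lit 5) (nat_lit 298) (nat_lit 5) (nat_lit 299) (nat_lit 5) (nat_lit 443) (nat_lit 398) (nat_lit 299)) (XT.lf (nat_lit 0) (nat_lit 7295519587) (nat_lit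 836) (nat_lit 975919530) (nat_lit 76) (nat_lit 1938631898) (nat_lit 288) (nat_lit 5) (nat_lit 299) (nat_lit 5) (nat_lit 289) (nat_lit 5) (nat_lit 444) (nat_lit 398) (nat_lit 298))) (XT.nd (nat_lit 78) (nat_lit 76) (nat_lit 0) (XT.lf (nat_lit 0) (nat_lit 4594734422) (nat_lit 684) (nat_lit 4707271814) (nat_lit 760) (nat_lit 1014988109) (nat_lit 279) (nat_lit 5) (nat_lit 288) (nat_lit 5) (nat_lit 289) (nat_lit 5) (nat_lit 445) (nat_lit 398) (nat_lit 297)) (XT.lf (nat_lit 0) (nat_lit 896016100) (nat_lit 760) (nat_lit 164638643) (nat_lit 76) (nat_lit 9365585503) (nat_lit 278) (nat_lit 5) (nat_lit 288) (nat_lit 5) (nat_lit 279) (nat_lit 5) (nat_lit 446) (nat_lit 398) (nat_lit 296))))) (XT.nd (nat_lit 234) (nat_lit 1368) (nat_lit 0) (XT.nd (nat_lit 78) (nat_lit 684) (nat_lit 0) (XT.lf (nat_lit 0) (nat_lit 2864588429) (nat_lit 836) (nat_lit 5006869244) (nat_lit 76) (nat_lit 2665435031) (nat_lit 268) (nat_lit 5) (nat_lit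 279) (nat_lit 5) (nat_lit 269) (nat_lit 5) (nat_lit 447) (nat_lit 398) (nat_lit 295)) (XT.nd (nat_lit 78) (nat_lit 0) (nat_lit 0) (XT.lf (nat_lit 0) (nat_lit 670305007) (nat_lit 684) (nat_lit 4194334701) (nat_lit 760) (nat_lit 5785290663) (nat_lit 259) (nat_lit 5) (nat_lit 268) (nat_lit 5) (nat_lit 269) (nat_lit 5) (nat_lit 448) (nat_lit 398) (nat_lit 294)) (XT.lf (nat_lit 0) (nat_lit 6506511339) (nat_lit 684) (nat_lit 411652822) (nat_lit 760) (nat_lit 3846809216) (nat_lit 259) (nat_lit 5) (nat_lit 268) (nat_lit 5) (nat_lit 269) (nat_lit 5) (nat_lit 449) (nat_lit 398) (nat_lit 293)))) (XT.nd (nat_lit 156) (nat_lit 608) (nat_lit 0) (XT.nd (nat_lit 78) (nat_lit 76) (nat_lit 0) (XT.lf (nat_lit 0) (nat_lit 1552775291) (nat_lit 684) (nat_lit 7472697320) (nat_lit 760) (nat_lit 1856604116) (nat_lit 250) (nat_lit 5) (nat_lit 259) (nat_lit 5) (nat_lit 260) (nat_lit 5) (nat_lit 450) (nat_lit 398) (nat_lit 292)) (XT.lf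 (nat_lit 0) (nat_lit 182977152) (nat_lit 760) (nat_lit 3489493351) (nat_lit 76) (nat_lit 7328805416) (nat_lit 249) (nat_lit 5) (nat_lit 259) (nat_lit 5) (nat_lit 250) (nat_lit 5) (nat_lit 451) (nat_lit 398) (nat_lit 291))) (XT.nd (nat_lit 78) (nat_lit 0) (nat_lit 0) (XT.lf (nat_lit 0) (nat_lit 2236750573) (nat_lit 684) (nat_lit 8659060586) (nat_lit 76) (nat_lit 226850245) (nat_lit 241) (nat_lit 5) (nat_lit 250) (nat_lit 5) (nat_lit 242) (nat_lit 5) (nat_lit 452) (nat_lit 398) (nat_lit 290)) (XT.lf (nat_lit 0) (nat_lit 4360448523) (nat_lit 684) (nat_lit 2709677194) (nat_lit 76) (nat_lit 4175784607) (nat_lit 241) (nat_lit 5) (nat_lit 250) (nat_lit 5) (nat_lit 242) (nat_lit 5) (nat_lit 453) (nat_lit 398) (nat_lit 289))))))))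
noncomputable def xc147 : XT := (XT.nd (nat_lit 2184) (nat_lit 4864) (nat_lit 0) (XT.nd (nat_lit 1092) (nat_lit 3344) (nat_lit 0) (XT.nd (nat_lit 546) (nat_lit 2204) (nat_lit 0) (XT.nd (nat_lit 234) (nat_lit 1216) (nat_lit 0) (XT.nd (nat_lit 78) (nat_lit 608) (nat_lit 0) (XT.lf (nat_lit 0) (nat_lit 3381222815) (nat_lit 608) (nat_lit 3148680807) (nat_lit 684) (nat_lit 4841667394) (nat_lit 233) (nat_lit 5) (nat_lit 241) (nat_lit 5) (nat_lit 242) (nat_lit 5) (nat_lit 454) (nat_lit 398) (nat_lit 288)) (XT.nd (nat_lit 78) (nat_lit 608) (nat_lit 0) (XT.lf (nat_lit 0) (nat_lit 8748112566) (nat_lit 684) (nat_lit 1896389982) (nat_lit 76) (nat_lit 855147291) (nat_lit 233) (nat_lit 5) (nat_lit 242) (nat_lit 5) (nat_lit 234) (nat_lit 5) (nat_lit 455) (nat_lit 398) (nat_lit 287)) (XT.lf (nat_lit 0) (nat_lit 4333833221) (nat_lit 608) (nat_lit 6707739300) (nat_lit 684) (nat_lit 588111955) (nat_lit 225) (nat_lit 5) (nat_lit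 233) (nat_lit 5) (nat_lit 234) (nat_lit 5) (nat_lit 456) (nat_lit 398) (nat_lit 286)))) (XT.nd (nat_lit 156) (nat_lit 532) (nat_lit 0) (XT.nd (nat_lit 78) (nat_lit 608) (nat_lit 0) (XT.lf (nat_lit 0) (nat_lit 1592146049) (nat_lit 684) (nat_lit 1080001355) (nat_lit 76) (nat_lit 9090077888) (nat_lit 224) (nat_lit 5) (nat_lit 233) (nat_lit 5) (nat_lit 225) (nat_lit 5) (nat_lit 457) (nat_lit 398) (nat_lit 285)) (XT.lf (nat_lit 0) (nat_lit 3834524666) (nat_lit 684) (nat_lit 6602064764) (nat_lit 76) (nat_lit 1460233224) (nat_lit 216) (nat_lit 5) (nat_lit 225) (nat_lit 5) (nat_lit 217) (nat_lit 5) (nat_lit 458) (nat_lit 398) (nat_lit 284))) (XT.nd (nat_lit 78) (nat_lit 532) (nat_lit 0) (XT.lf (nat_lit 0) (nat_lit 6129263115) (nat_lit 684) (nat_lit 261539675) (nat_lit 76) (nat_lit 5643169989) (nat_lit 216) (nat_lit 5) (nat_lit 225) (nat_lit 5) (nat_lit 217) (nat_lit 5) (nat_lit 459) (nat_lit 398) (nat_lit 283)) (XT.lf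 (nat_lit 0) (nat_lit 6266928646) (nat_lit 532) (nat_lit 2226520024) (nat_lit 608) (nat_lit 3679957035) (nat_lit 209) (nat_lit 5) (nat_lit 216) (nat_lit 5) (nat_lit 217) (nat_lit 5) (nat_lit 460) (nat_lit 398) (nat_lit 282))))) (XT.nd (nat_lit 234) (nat_lit 1064) (nat_lit 0) (XT.nd (nat_lit 78) (nat_lit 608) (nat_lit 0) (XT.lf (nat_lit 0) (nat_lit 587243465) (nat_lit 532) (nat_lit 10319413522) (nat_lit 608) (nat_lit 1408946155) (nat_lit 202) (nat_lit 5) (nat_lit 209) (nat_lit 5) (nat_lit 210) (nat_lit 5) (nat_lit 461) (nat_lit 398) (nat_lit 281)) (XT.nd (nat_lit 78) (nat_lit 532) (nat_lit 0) (XT.lf (nat_lit 0) (nat_lit 933338180) (nat_lit 608) (nat_lit 5211188214) (nat_lit 76) (nat_lit 6315255410) (nat_lit 201) (nat_lit 5) (nat_lit 209) (nat_lit 5) (nat_lit 202) (nat_lit 5) (nat_lit 462) (nat_lit 398) (nat_lit 280)) (XT.lf (nat_lit 0) (nat_lit 1424761318) (nat_lit 532) (nat_lit 1871552209) (nat_lit 608) (nat_lit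 9310500046) (nat_lit 194) (nat_lit 5) (nat_lit 201) (nat_lit 5) (nat_lit 202) (nat_lit 5) (nat_lit 463) (nat_lit 398) (nat_lit 279)))) (XT.nd (nat_lit 156) (nat_lit 532) (nat_lit 0) (XT.nd (nat_lit 78) (nat_lit 532) (nat_lit 0) (XT.lf (nat_lit 0) (nat_lit 5741500296) (nat_lit 608) (nat_lit 4529487240) (nat_lit 76) (nat_lit 2485109227) (nat_lit 194) (nat_lit 5) (nat_lit 202) (nat_lit 5) (nat_lit 195) (nat_lit 5) (nat_lit 464) (nat_lit 398) (nat_lit 278)) (XT.lf (nat_lit 0) (nat_lit 2252600047) (nat_lit 532) (nat_lit 5993936025) (nat_lit 608) (nat_lit 4661620267) (nat_lit 187) (nat_lit 5) (nat_lit 194) (nat_lit 5) (nat_lit 195) (nat_lit 5) (nat_lit 465) (nat_lit 398) (nat_lit 277))) (XT.nd (nat_lit 78) (nat_lit 532) (nat_lit 0) (XT.lf (nat_lit 0) (nat_lit 9211185614) (nat_lit 532) (nat_lit 1604989524) (nat_lit 608) (nat_lit 2246801359) (nat_lit 187) (nat_lit 5) (nat_lit 194) (nat_lit 5) (nat_lit 195) (nat_lit 5)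 (nat_lit 466) (nat_lit 398) (nat_lit 276)) (XT.lf (nat_lit 0) (nat_lit 236714345) (nat_lit 532) (nat_lit 10132504252) (nat_lit 76) (nat_lit 2851190698) (nat_lit 180) (nat_lit 5) (nat_lit 187) (nat_lit 5) (nat_lit 181) (nat_lit 5) (nat_lit 467) (nat_lit 398) (nat_lit 275)))))) (XT.nd (nat_lit 546) (nat_lit 1824) (nat_lit 0) (XT.nd (nat_lit 234) (nat_lit 988) (nat_lit 0) (XT.nd (nat_lit 78) (nat_lit 532) (nat_lit 0) (XT.lf (nat_lit 0) (nat_lit 2760944096) (nat_lit 532) (nat_lit 3208058059) (nat_lit 76) (nat_lit 7411277896) (nat_lit 180) (nat_lit 5) (nat_lit 187) (nat_lit 5) (nat_lit 181) (nat_lit 5) (nat_lit 468) (nat_lit 398) (nat_lit 274)) (XT.nd (nat_lit 78) (nat_lit 0) (nat_lit 0) (XT.lf (nat_lit 0) (nat_lit 3885729823) (nat_lit 532) (nat_lit 1459914697) (nat_lit 608) (nat_lit 8197512701) (nat_lit 173) (nat_lit 5) (nat_lit 180) (nat_lit 5) (nat_lit 181) (nat_lit 5) (nat_lit 469) (nat_lit 398) (nat_lit 273))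 (XT.lf (nat_lit 0) (nat_lit 8008986730) (nat_lit 608) (nat_lit 2584762350) (nat_lit 76) (nat_lit 3115012451) (nat_lit 173) (nat_lit 5) (nat_lit 181) (nat_lit 5) (nat_lit 174) (nat_lit 5) (nat_lit 470) (nat_lit 398) (nat_lit 272)))) (XT.nd (nat_lit 156) (nat_lit 532) (nat_lit 0) (XT.nd (nat_lit 78) (nat_lit 0) (nat_lit 0) (XT.lf (nat_lit 0) (nat_lit 4660959000) (nat_lit 456) (nat_lit 6089757991) (nat_lit 532) (nat_lit 3126466895) (nat_lit 167) (nat_lit 5) (nat_lit 173) (nat_lit 5) (nat_lit 174) (nat_lit 5) (nat_lit 471) (nat_lit 398) (nat_lit 271)) (XT.lf (nat_lit 0) (nat_lit 12066904552) (nat_lit 456) (nat_lit 1483075575) (nat_lit 532) (nat_lit 498948815) (nat_lit 167) (nat_lit 5) (nat_lit 173) (nat_lit 5) (nat_lit 174) (nat_lit 5) (nat_lit 472) (nat_lit 398) (nat_lit 270))) (XT.nd (nat_lit 78) (nat_lit 0) (nat_lit 0) (XT.lf (nat_lit 0) (nat_lit 2194508285) (nat_lit 532) (nat_lit 8810158615) (nat_lit 76) (nat_lit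 3218326786) (nat_lit 160) (nat_lit 5) (nat_lit 167) (nat_lit 5) (nat_lit 161) (nat_lit 5) (nat_lit 473) (nat_lit 398) (nat_lit 269)) (XT.lf (nat_lit 0) (nat_lit 4944031736) (nat_lit 532) (nat_lit 1450701985) (nat_lit 76) (nat_lit 8005570224) (nat_lit 160) (nat_lit 5) (nat_lit 167) (nat_lit 5) (nat_lit 161) (nat_lit 5) (nat_lit 474) (nat_lit 398) (nat_lit 268))))) (XT.nd (nat_lit 234) (nat_lit 912) (nat_lit 0) (XT.nd (nat_lit 78) (nat_lit 456) (nat_lit 0) (XT.lf (nat_lit 0) (nat_lit 6116880725) (nat_lit 456) (nat_lit 1657322607) (nat_lit 532) (nat_lit 6806451516) (nat_lit 154) (nat_lit 5) (nat_lit 160) (nat_lit 5) (nat_lit 161) (nat_lit 5) (nat_lit 475) (nat_lit 398) (nat_lit 267)) (XT.nd (nat_lit 78) (nat_lit 456) (nat_lit 0) (XT.lf (nat_lit 0) (nat_lit 10677450896) (nat_lit 532) (nat_lit 949027553) (nat_lit 76) (nat_lit 3137812313) (nat_lit 154) (nat_lit 5) (nat_lit 161) (nat_lit 5) (nat_lit 155) (nat_lit 5)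 (nat_lit 476) (nat_lit 398) (nat_lit 266)) (XT.lf (nat_lit 0) (nat_lit 6774860835) (nat_lit 456) (nat_lit 6905198392) (nat_lit 532) (nat_lit 1270721550) (nat_lit 148) (nat_lit 5) (nat_lit 154) (nat_lit 5) (nat_lit 155) (nat_lit 5) (nat_lit 477) (nat_lit 398) (nat_lit 265)))) (XT.nd (nat_lit 156) (nat_lit 456) (nat_lit 0) (XT.nd (nat_lit 78) (nat_lit 380) (nat_lit 0) (XT.lf (nat_lit 0) (nat_lit 1573504846) (nat_lit 532) (nat_lit 504317284) (nat_lit 76) (nat_lit 13063121637) (nat_lit 147) (nat_lit 5) (nat_lit 154) (nat_lit 5) (nat_lit 148) (nat_lit 5) (nat_lit 478) (nat_lit 398) (nat_lit 264)) (XT.lf (nat_lit 0) (nat_lit 4511067164) (nat_lit 456) (nat_lit 7962362817) (nat_lit 76) (nat_lit 2860249598) (nat_lit 142) (nat_lit 5) (nat_lit 148) (nat_lit 5) (nat_lit 143) (nat_lit 5) (nat_lit 479) (nat_lit 398) (nat_lit 263))) (XT.nd (nat_lit 78) (nat_lit 456) (nat_lit 0) (XT.lf (nat_lit 0) (nat_lit 7511302781) (nat_lit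 456) (nat_lit 151517805) (nat_lit 76) (nat_lit 7867377821) (nat_lit 142) (nat_lit 5) (nat_lit 148) (nat_lit 5) (nat_lit 143) (nat_lit 5) (nat_lit 480) (nat_lit 398) (nat_lit 262)) (XT.lf (nat_lit 0) (nat_lit 7900700267) (nat_lit 456) (nat_lit 2709154133) (nat_lit 532) (nat_lit 5120033597) (nat_lit 136) (nat_lit 5) (nat_lit 142) (nat_lit 5) (nat_lit 143) (nat_lit 5) (nat_lit 481) (nat_lit 398) (nat_lit 261))))))) (XT.nd (nat_lit 1092) (nat_lit 2204) (nat_lit 0) (XT.nd (nat_lit 546) (nat_lit 1064) (nat_lit 0) (XT.nd (nat_lit 234) (nat_lit 760) (nat_lit 0) (XT.nd (nat_lit 78) (nat_lit 456) (nat_lit 0) (XT.lf (nat_lit 0) (nat_lit 150649167) (nat_lit 380) (nat_lit 13624060184) (nat_lit 456) (nat_lit 2158781862) (nat_lit 131) (nat_lit 5) (nat_lit 136) (nat_lit 5) (nat_lit 137) (nat_lit 5) (nat_lit 482) (nat_lit 398) (nat_lit 260)) (XT.nd (nat_lit 78) (nat_lit 380) (nat_lit 0) (XT.lf (nat_lit 0) (nat_lit 908377680)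 (nat_lit 456) (nat_lit 7786414318) (nat_lit 76) (nat_lit 7445109149) (nat_lit 130) (nat_lit 5) (nat_lit 136) (nat_lit 5) (nat_lit 131) (nat_lit 5) (nat_lit 483) (nat_lit 398) (nat_lit 259)) (XT.lf (nat_lit 0) (nat_lit 341870221) (nat_lit 380) (nat_lit 3655759336) (nat_lit 456) (nat_lit 12352737334) (nat_lit 125) (nat_lit 5) (nat_lit 130) (nat_lit 5) (nat_lit 131) (nat_lit 5) (nat_lit 484) (nat_lit 398) (nat_lit 258)))) (XT.nd (nat_lit 156) (nat_lit 456) (nat_lit 0) (XT.nd (nat_lit 78) (nat_lit 304) (nat_lit 0) (XT.lf (nat_lit 0) (nat_lit 7198399739) (nat_lit 456) (nat_lit 7854068197) (nat_lit 76) (nat_lit 1511585337) (nat_lit 125) (nat_lit 5) (nat_lit 131) (nat_lit 5) (nat_lit 126) (nat_lit 5) (nat_lit 485) (nat_lit 398) (nat_lit 257)) (XT.lf (nat_lit 0) (nat_lit 426839420) (nat_lit 304) (nat_lit 10051073467) (nat_lit 380) (nat_lit 6303811813) (nat_lit 121) (nat_lit 5) (nat_lit 125) (nat_lit 5) (nat_lit 126)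 (nat_lit 5) (nat_lit 486) (nat_lit 398) (nat_lit 256))) (XT.nd (nat_lit 78) (nat_lit 456) (nat_lit 0) (XT.lf (nat_lit 0) (nat_lit 8961950381) (nat_lit 304) (nat_lit 4901640957) (nat_lit 380) (nat_lit 3139352471) (nat_lit 121) (nat_lit 5) (nat_lit 125) (nat_lit 5) (nat_lit 126) (nat_lit 5) (nat_lit 487) (nat_lit 398) (nat_lit 255)) (XT.lf (nat_lit 0) (nat_lit 80292016) (nat_lit 456) (nat_lit 16804524920) (nat_lit 76) (nat_lit 343903312) (nat_lit 115) (nat_lit 5) (nat_lit 121) (nat_lit 5) (nat_lit 116) (nat_lit 5) (nat_lit 488) (nat_lit 398) (nat_lit 254))))) (XT.nd (nat_lit 234) (nat_lit 760) (nat_lit 0) (XT.nd (nat_lit 78) (nat_lit 304) (nat_lit 0) (XT.lf (nat_lit 0) (nat_lit 3397217796) (nat_lit 456) (nat_lit 8361638234) (nat_lit 76) (nat_lit 5698248097) (nat_lit 115) (nat_lit 5) (nat_lit 121) (nat_lit 5) (nat_lit 116) (nat_lit 5) (nat_lit 489) (nat_lit 398) (nat_lit 253)) (XT.nd (nat_lit 78) (nat_lit 0) (nat_lit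 0) (XT.lf (nat_lit 0) (nat_lit 235765059) (nat_lit 304) (nat_lit 6534588162) (nat_lit 380) (nat_lit 10919910358) (nat_lit 111) (nat_lit 5) (nat_lit 115) (nat_lit 5) (nat_lit 116) (nat_lit 5) (nat_lit 490) (nat_lit 398) (nat_lit 252)) (XT.lf (nat_lit 0) (nat_lit 9101142094) (nat_lit 304) (nat_lit 1154376820) (nat_lit 380) (nat_lit 7671681167) (nat_lit 111) (nat_lit 5) (nat_lit 115) (nat_lit 5) (nat_lit 116) (nat_lit 5) (nat_lit 491) (nat_lit 398) (nat_lit 251)))) (XT.nd (nat_lit 156) (nat_lit 380) (nat_lit 0) (XT.nd (nat_lit 78) (nat_lit 380) (nat_lit 0) (XT.lf (nat_lit 0) (nat_lit 13827169625) (nat_lit 380) (nat_lit 70357849) (nat_lit 76) (nat_lit 4271017316) (nat_lit 111) (nat_lit 5) (nat_lit 116) (nat_lit 5) (nat_lit 112) (nat_lit 5) (nat_lit 492) (nat_lit 398) (nat_lit 250)) (XT.lf (nat_lit 0) (nat_lit 8953399956) (nat_lit 380) (nat_lit 8571498453) (nat_lit 456) (nat_lit 888730090) (nat_lit 106) (nat_lit 5)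 (nat_lit 111) (nat_lit 5) (nat_lit 112) (nat_lit 5) (nat_lit 493) (nat_lit 398) (nat_lit 249))) (XT.nd (nat_lit 78) (nat_lit 304) (nat_lit 0) (XT.lf (nat_lit 0) (nat_lit 2587811898) (nat_lit 456) (nat_lit 538994363) (nat_lit 76) (nat_lit 15536683022) (nat_lit 105) (nat_lit 5) (nat_lit 111) (nat_lit 5) (nat_lit 106) (nat_lit 5) (nat_lit 494) (nat_lit 398) (nat_lit 248)) (XT.lf (nat_lit 0) (nat_lit 6183417019) (nat_lit 380) (nat_lit 10281758969) (nat_lit 76) (nat_lit 2451829876) (nat_lit 101) (nat_lit 5) (nat_lit 106) (nat_lit 5) (nat_lit 102) (nat_lit 5) (nat_lit 495) (nat_lit 398) (nat_lit 247)))))) (XT.nd (nat_lit 546) (nat_lit 1216) (nat_lit 0) (XT.nd (nat_lit 234) (nat_lit 684) (nat_lit 0) (XT.nd (nat_lit 78) (nat_lit 304) (nat_lit 0) (XT.lf (nat_lit 0) (nat_lit 9864470554) (nat_lit 380) (nat_lit 1212594532) (nat_lit 76) (nat_lit 8098261593) (nat_lit 101) (nat_lit 5) (nat_lit 106) (nat_lit 5) (nat_lit 102)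 (nat_lit 5) (nat_lit 496) (nat_lit 398) (nat_lit 246)) (XT.nd (nat_lit 78) (nat_lit 0) (nat_lit 0) (XT.lf (nat_lit 0) (nat_lit 8128260714) (nat_lit 304) (nat_lit 5533058600) (nat_lit 380) (nat_lit 5776655651) (nat_lit 97) (nat_lit 5) (nat_lit 101) (nat_lit 5) (nat_lit 102) (nat_lit 5) (nat_lit 497) (nat_lit 398) (nat_lit 245)) (XT.lf (nat_lit 0) (nat_lit 17532552946) (nat_lit 380) (nat_lit 2050554555) (nat_lit 76) (nat_lit 122804206) (nat_lit 97) (nat_lit 5) (nat_lit 102) (nat_lit 5) (nat_lit 98) (nat_lit 5) (nat_lit 498) (nat_lit 398) (nat_lit 244)))) (XT.nd (nat_lit 156) (nat_lit 304) (nat_lit 0) (XT.nd (nat_lit 78) (nat_lit 0) (nat_lit 0) (XT.lf (nat_lit 0) (nat_lit 1557406734) (nat_lit 380) (nat_lit 12549305884) (nat_lit 76) (nat_lit 5870801767) (nat_lit 92) (nat_lit 5) (nat_lit 97) (nat_lit 5) (nat_lit 93) (nat_lit 5) (nat_lit 499) (nat_lit 398) (nat_lit 243)) (XT.lf (nat_lit 0) (nat_lit 5337264373) (nat_lit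 380) (nat_lit 3160496435) (nat_lit 76) (nat_lit 11756433620) (nat_lit 92) (nat_lit 5) (nat_lit 97) (nat_lit 5) (nat_lit 93) (nat_lit 5) (nat_lit 500) (nat_lit 398) (nat_lit 242))) (XT.nd (nat_lit 78) (nat_lit 0) (nat_lit 0) (XT.lf (nat_lit 0) (nat_lit 6485380528) (nat_lit 304) (nat_lit 2739347474) (nat_lit 380) (nat_lit 11311044003) (nat_lit 88) (nat_lit 5) (nat_lit 92) (nat_lit 5) (nat_lit 93) (nat_lit 5) (nat_lit 501) (nat_lit 398) (nat_lit 241)) (XT.lf (nat_lit 0) (nat_lit 13221600504) (nat_lit 380) (nat_lit 4491859764) (nat_lit 76) (nat_lit 3108891703) (nat_lit 88) (nat_lit 5) (nat_lit 93) (nat_lit 5) (nat_lit 89) (nat_lit 5) (nat_lit 502) (nat_lit 398) (nat_lit 240))))) (XT.nd (nat_lit 312) (nat_lit 608) (nat_lit 0) (XT.nd (nat_lit 156) (nat_lit 304) (nat_lit 0) (XT.nd (nat_lit 78) (nat_lit 76) (nat_lit 0) (XT.lf (nat_lit 0) (nat_lit 5293609008) (nat_lit 228) (nat_lit 12047470308) (nat_lit 304) (nat_lit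 3772734793) (nat_lit 85) (nat_lit 5) (nat_lit 88) (nat_lit 5) (nat_lit 89) (nat_lit 5) (nat_lit 503) (nat_lit 398) (nat_lit 239)) (XT.lf (nat_lit 0) (nat_lit 150637811) (nat_lit 304) (nat_lit 6091433772) (nat_lit 76) (nat_lit 15168610089) (nat_lit 84) (nat_lit 5) (nat_lit 88) (nat_lit 5) (nat_lit 85) (nat_lit 5) (nat_lit 504) (nat_lit 398) (nat_lit 238))) (XT.nd (nat_lit 78) (nat_lit 0) (nat_lit 0) (XT.lf (nat_lit 0) (nat_lit 3842071357) (nat_lit 304) (nat_lit 275256958) (nat_lit 380) (nat_lit 17595355891) (nat_lit 80) (nat_lit 5) (nat_lit 84) (nat_lit 5) (nat_lit 85) (nat_lit 5) (nat_lit 505) (nat_lit 398) (nat_lit 237)) (XT.lf (nat_lit 0) (nat_lit 8232657072) (nat_lit 380) (nat_lit 8016394257) (nat_lit 76) (nat_lit 5770293021) (nat_lit 80) (nat_lit 5) (nat_lit 85) (nat_lit 5) (nat_lit 81) (nat_lit 5) (nat_lit 506) (nat_lit 398) (nat_lit 236)))) (XT.nd (nat_lit 156) (nat_lit 380) (nat_lit 0) (XT.nd (nat_lit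 78) (nat_lit 0) (nat_lit 0) (XT.lf (nat_lit 0) (nat_lit 2044901439) (nat_lit 228) (nat_lit 10391107215) (nat_lit 304) (nat_lit 9896018296) (nat_lit 77) (nat_lit 5) (nat_lit 80) (nat_lit 5) (nat_lit 81) (nat_lit 5) (nat_lit 507) (nat_lit 398) (nat_lit 235)) (XT.lf (nat_lit 0) (nat_lit 12401182470) (nat_lit 228) (nat_lit 4366742741) (nat_lit 304) (nat_lit 5882151540) (nat_lit 77) (nat_lit 5) (nat_lit 80) (nat_lit 5) (nat_lit 81) (nat_lit 5) (nat_lit 508) (nat_lit 398) (nat_lit 234))) (XT.nd (nat_lit 78) (nat_lit 380) (nat_lit 0) (XT.lf (nat_lit 0) (nat_lit 21188875060) (nat_lit 304) (nat_lit 36205768) (nat_lit 76) (nat_lit 1749362259) (nat_lit 77) (nat_lit 5) (nat_lit 81) (nat_lit 5) (nat_lit 78) (nat_lit 5) (nat_lit 509) (nat_lit 398) (nat_lit 233)) (XT.lf (nat_lit 0) (nat_lit 2450099767) (nat_lit 380) (nat_lit 12844937712) (nat_lit 76) (nat_lit 8008181114) (nat_lit 72) (nat_lit 5) (nat_lit 77) (nat_lit 5) (nat_lit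 73) (nat_lit 5) (nat_lit 510) (nat_lit 398) (nat_lit 232))))))))
noncomputable def xc148 : XT := (XT.nd (nat_lit 51636) (nat_lit 0) (nat_lit 20368) (XT.nd (nat_lit 1092) (nat_lit 0) (nat_lit 0) (XT.nd (nat_lit 546) (nat_lit 760) (nat_lit 0) (XT.nd (nat_lit 234) (nat_lit 532) (nat_lit 0) (XT.nd (nat_lit 78) (nat_lit 228) (nat_lit 0) (XT.lf (nat_lit 0) (nat_lit 6737889200) (nat_lit 380) (nat_lit 2501743444) (nat_lit 76) (nat_lit 14398877811) (nat_lit 72) (nat_lit 5) (nat_lit 77) (nat_lit 5) (nat_lit 73) (nat_lit 5) (nat_lit 511) (nat_lit 398) (nat_lit 231)) (XT.nd (nat_lit 78) (nat_lit 0) (nat_lit 0) (XT.lf (nat_lit 0) (nat_lit 8140867794) (nat_lit 228) (nat_lit 3014648147) (nat_lit 304) (nat_lit 12824113762) (nat_lit 69) (nat_lit 5) (nat_lit 72) (nat_lit 5) (nat_lit 73) (nat_lit 5) (nat_lit 512) (nat_lit 398) (nat_lit 230)) (XT.lf (nat_lit 0) (nat_lit 15691317098) (nat_lit 304) (nat_lit 5333019757) (nat_lit 76)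 (nat_lit 3302641157) (nat_lit 69) (nat_lit 5) (nat_lit 73) (nat_lit 5) (nat_lit 70) (nat_lit 5) (nat_lit 513) (nat_lit 398) (nat_lit 229)))) (XT.nd (nat_lit 156) (nat_lit 228) (nat_lit 0) (XT.nd (nat_lit 78) (nat_lit 76) (nat_lit 0) (XT.lf (nat_lit 0) (nat_lit 5419972194) (nat_lit 228) (nat_lit 14944458575) (nat_lit 304) (nat_lit 4315913643) (nat_lit 66) (nat_lit 5) (nat_lit 69) (nat_lit 5) (nat_lit 70) (nat_lit 5) (nat_lit 514) (nat_lit 398) (nat_lit 228)) (XT.lf (nat_lit 0) (nat_lit 116529952) (nat_lit 304) (nat_lit 8594579563) (nat_lit 76) (nat_lit 16329110147) (nat_lit 65) (nat_lit 5) (nat_lit 69) (nat_lit 5) (nat_lit 66) (nat_lit 5) (nat_lit 515) (nat_lit 398) (nat_lit 227))) (XT.nd (nat_lit 78) (nat_lit 0) (nat_lit 0) (XT.lf (nat_lit 0) (nat_lit 2272010427) (nat_lit 228) (nat_lit 2314255144) (nat_lit 304) (nat_lit 20820330496) (nat_lit 62) (nat_lit 5) (nat_lit 65) (nat_lit 5) (nat_lit 66) (nat_lit 5) (nat_lit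 516) (nat_lit 398) (nat_lit 226)) (XT.lf (nat_lit 0) (nat_lit 9222458270) (nat_lit 304) (nat_lit 12348209868) (nat_lit 76) (nat_lit 4208093436) (nat_lit 62) (nat_lit 5) (nat_lit 66) (nat_lit 5) (nat_lit 63) (nat_lit 5) (nat_lit 517) (nat_lit 398) (nat_lit 225))))) (XT.nd (nat_lit 234) (nat_lit 532) (nat_lit 0) (XT.nd (nat_lit 78) (nat_lit 228) (nat_lit 0) (XT.lf (nat_lit 0) (nat_lit 13958533049) (nat_lit 304) (nat_lit 1374940432) (nat_lit 76) (nat_lit 10824756510) (nat_lit 62) (nat_lit 5) (nat_lit 66) (nat_lit 5) (nat_lit 63) (nat_lit 5) (nat_lit 518) (nat_lit 398) (nat_lit 224)) (XT.nd (nat_lit 78) (nat_lit 0) (nat_lit 0) (XT.lf (nat_lit 0) (nat_lit 9934848917) (nat_lit 228) (nat_lit 8910976223) (nat_lit 304) (nat_lit 7698335432) (nat_lit 59) (nat_lit 5) (nat_lit 62) (nat_lit 5) (nat_lit 63) (nat_lit 5) (nat_lit 519) (nat_lit 398) (nat_lit 223)) (XT.lf (nat_lit 0) (nat_lit 21476316054) (nat_lit 228) (nat_lit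 2355837384) (nat_lit 304) (nat_lit 3105633178) (nat_lit 59) (nat_lit 5) (nat_lit 62) (nat_lit 5) (nat_lit 63) (nat_lit 5) (nat_lit 520) (nat_lit 398) (nat_lit 222)))) (XT.nd (nat_lit 156) (nat_lit 228) (nat_lit 0) (XT.nd (nat_lit 78) (nat_lit 0) (nat_lit 0) (XT.lf (nat_lit 0) (nat_lit 1617511349) (nat_lit 304) (nat_lit 21402577223) (nat_lit 76) (nat_lit 4317808213) (nat_lit 55) (nat_lit 5) (nat_lit 59) (nat_lit 5) (nat_lit 56) (nat_lit 5) (nat_lit 521) (nat_lit 398) (nat_lit 221)) (XT.lf (nat_lit 0) (nat_lit 6438268420) (nat_lit 304) (nat_lit 10160653587) (nat_lit 76) (nat_lit 11145784411) (nat_lit 55) (nat_lit 5) (nat_lit 59) (nat_lit 5) (nat_lit 56) (nat_lit 5) (nat_lit 522) (nat_lit 398) (nat_lit 220))) (XT.nd (nat_lit 78) (nat_lit 0) (nat_lit 0) (XT.lf (nat_lit 0) (nat_lit 1310508641) (nat_lit 228) (nat_lit 10045795176) (nat_lit 304) (nat_lit 16803333617) (nat_lit 52) (nat_lit 5) (nat_lit 55) (nat_lit 5)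 (nat_lit 56) (nat_lit 5) (nat_lit 523) (nat_lit 398) (nat_lit 219)) (XT.lf (nat_lit 0) (nat_lit 13136121139) (nat_lit 228) (nat_lit 3297184045) (nat_lit 304) (nat_lit 12148352190) (nat_lit 52) (nat_lit 5) (nat_lit 55) (nat_lit 5) (nat_lit 56) (nat_lit 5) (nat_lit 524) (nat_lit 398) (nat_lit 218)))))) (XT.nd (nat_lit 49998) (nat_lit 0) (nat_lit 34352) (XT.nd (nat_lit 49686) (nat_lit 0) (nat_lit 35416) (XT.nd (nat_lit 49530) (nat_lit 0) (nat_lit 36480) (XT.lf (nat_lit 0) (nat_lit 21627669753) (nat_lit 304) (nat_lit 3849729661) (nat_lit 76) (nat_lit 3534404195) (nat_lit 52) (nat_lit 5) (nat_lit 56) (nat_lit 5) (nat_lit 53) (nat_lit 5) (nat_lit 525) (nat_lit 398) (nat_lit 217)) (XT.nd (nat_lit 78) (nat_lit 1140) (nat_lit 0) (XT.lf (nat_lit 0) (nat_lit 1728352167) (nat_lit 0) (nat_lit 1728352167) (nat_lit 988) (nat_lit 115924433) (nat_lit 547) (nat_lit 5) (nat_lit 547) (nat_lit 3) (nat_lit 560) (nat_lit 3) (nat_lit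 399) (nat_lit 399) (nat_lit 342)) (XT.lf (nat_lit 0) (nat_lit 1384092276) (nat_lit 1140) (nat_lit 392799125) (nat_lit 1140) (nat_lit 5405924186) (nat_lit 532) (nat_lit 3) (nat_lit 547) (nat_lit 3) (nat_lit 547) (nat_lit 5) (nat_lit 400) (nat_lit 399) (nat_lit 341)))) (XT.nd (nat_lit 156) (nat_lit 1064) (nat_lit 0) (XT.nd (nat_lit 78) (nat_lit 0) (nat_lit 76) (XT.lf (nat_lit 76) (nat_lit 2984853074) (nat_lit 0) (nat_lit 21410284) (nat_lit 1140) (nat_lit 4215333005) (nat_lit 533) (nat_lit 5) (nat_lit 532) (nat_lit 3) (nat_lit 547) (nat_lit 5) (nat_lit 401) (nat_lit 399) (nat_lit 340)) (XT.lf (nat_lit 0) (nat_lit 4633473232) (nat_lit 1064) (nat_lit 859713789) (nat_lit 1140) (nat_lit 1768555515) (nat_lit 533) (nat_lit 5) (nat_lit 547) (nat_lit 5) (nat_lit 548) (nat_lit 5) (nat_lit 402) (nat_lit 399) (nat_lit 339))) (XT.nd (nat_lit 78) (nat_lit 1140) (nat_lit 0) (XT.lf (nat_lit 76) (nat_lit 2596719567) (nat_lit 0)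 (nat_lit 3672779086) (nat_lit 1140) (nat_lit 1033708426) (nat_lit 534) (nat_lit 5) (nat_lit 533) (nat_lit 5) (nat_lit 548) (nat_lit 5) (nat_lit 403) (nat_lit 399) (nat_lit 338)) (XT.lf (nat_lit 0) (nat_lit 550398466) (nat_lit 1140) (nat_lit 1237819194) (nat_lit 1216) (nat_lit 5557936994) (nat_lit 518) (nat_lit 5) (nat_lit 533) (nat_lit 5) (nat_lit 534) (nat_lit 5) (nat_lit 404) (nat_lit 399) (nat_lit 337))))) (XT.nd (nat_lit 234) (nat_lit 1140) (nat_lit 0) (XT.nd (nat_lit 78) (nat_lit 0) (nat_lit 0) (XT.lf (nat_lit 0) (nat_lit 2128843667) (nat_lit 1140) (nat_lit 5089963904) (nat_lit 1216) (nat_lit 171525516) (nat_lit 519) (nat_lit 5) (nat_lit 534) (nat_lit 5) (nat_lit 535) (nat_lit 5) (nat_lit 405) (nat_lit 399) (nat_lit 336)) (XT.nd (nat_lit 78) (nat_lit 0) (nat_lit 0) (XT.lf (nat_lit 0) (nat_lit 3720219626) (nat_lit 1140) (nat_lit 1543850108) (nat_lit 1216) (nat_lit 2171735878) (nat_lit 519) (nat_lit 5) (nat_lit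 534) (nat_lit 5) (nat_lit 535) (nat_lit 5) (nat_lit 406) (nat_lit 399) (nat_lit 335)) (XT.lf (nat_lit 76) (nat_lit 2078063740) (nat_lit 0) (nat_lit 3240771065) (nat_lit 1216) (nat_lit 2163881567) (nat_lit 520) (nat_lit 5) (nat_lit 519) (nat_lit 5) (nat_lit 535) (nat_lit 5) (nat_lit 407) (nat_lit 399) (nat_lit 334)))) (XT.nd (nat_lit 156) (nat_lit 0) (nat_lit 0) (XT.nd (nat_lit 78) (nat_lit 1140) (nat_lit 0) (XT.lf (nat_lit 76) (nat_lit 5771113973) (nat_lit 0) (nat_lit 1151190247) (nat_lit 1216) (nat_lit 608839785) (nat_lit 520) (nat_lit 5) (nat_lit 519) (nat_lit 5) (nat_lit 535) (nat_lit 5) (nat_lit 408) (nat_lit 399) (nat_lit 333)) (XT.lf (nat_lit 0) (nat_lit 946738735) (nat_lit 1216) (nat_lit 5633067801) (nat_lit 1292) (nat_lit 1000996562) (nat_lit 504) (nat_lit 5) (nat_lit 520) (nat_lit 5) (nat_lit 521) (nat_lit 5) (nat_lit 409) (nat_lit 399) (nat_lit 332))) (XT.nd (nat_lit 78) (nat_lit 0) (nat_lit 0) (XT.lf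 (nat_lit 0) (nat_lit 2508449682) (nat_lit 1216) (nat_lit 1912468582) (nat_lit 1292) (nat_lit 3210827357) (nat_lit 504) (nat_lit 5) (nat_lit 520) (nat_lit 5) (nat_lit 521) (nat_lit 5) (nat_lit 410) (nat_lit 399) (nat_lit 331)) (XT.lf (nat_lit 76) (nat_lit 1884683143) (nat_lit 0) (nat_lit 2193313885) (nat_lit 1292) (nat_lit 3606211453) (nat_lit 505) (nat_lit 5) (nat_lit 504) (nat_lit 5) (nat_lit 521) (nat_lit 5) (nat_lit 411) (nat_lit 399) (nat_lit 330))))))) (XT.nd (nat_lit 1092) (nat_lit 8740) (nat_lit 0) (XT.nd (nat_lit 546) (nat_lit 4028) (nat_lit 0) (XT.nd (nat_lit 234) (nat_lit 0) (nat_lit 0) (XT.nd (nat_lit 78) (nat_lit 1292) (nat_lit 0) (XT.lf (nat_lit 0) (nat_lit 5657366688) (nat_lit 1216) (nat_lit 1977604442) (nat_lit 1292) (nat_lit 103213712) (nat_lit 505) (nat_lit 5) (nat_lit 521) (nat_lit 5) (nat_lit 522) (nat_lit 5) (nat_lit 412) (nat_lit 399) (nat_lit 329)) (XT.nd (nat_lit 78) (nat_lit 1292) (nat_lit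 0) (XT.lf (nat_lit 76) (nat_lit 1908469786) (nat_lit 0) (nat_lit 5352457328) (nat_lit 1292) (nat_lit 532493776) (nat_lit 506) (nat_lit 5) (nat_lit 505) (nat_lit 5) (nat_lit 522) (nat_lit 5) (nat_lit 413) (nat_lit 399) (nat_lit 328)) (XT.lf (nat_lit 0) (nat_lit 1012384746) (nat_lit 1292) (nat_lit 1980431379) (nat_lit 1368) (nat_lit 4857254248) (nat_lit 488) (nat_lit 5) (nat_lit 505) (nat_lit 5) (nat_lit 506) (nat_lit 5) (nat_lit 414) (nat_lit 399) (nat_lit 327)))) (XT.nd (nat_lit 156) (nat_lit 0) (nat_lit 76) (XT.nd (nat_lit 78) (nat_lit 0) (nat_lit 76) (XT.lf (nat_lit 76) (nat_lit 2002242257) (nat_lit 0) (nat_lit 558420470) (nat_lit 1368) (nat_lit 5347557454) (nat_lit 489) (nat_lit 5) (nat_lit 488) (nat_lit 5) (nat_lit 506) (nat_lit 5) (nat_lit 415) (nat_lit 399) (nat_lit 326)) (XT.lf (nat_lit 0) (nat_lit 4132980992) (nat_lit 1292) (nat_lit 1911711684) (nat_lit 1368) (nat_lit 1923008588) (nat_lit 489) (nat_lit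 5) (nat_lit 506) (nat_lit 5) (nat_lit 507) (nat_lit 5) (nat_lit 416) (nat_lit 399) (nat_lit 325))) (XT.nd (nat_lit 78) (nat_lit 0) (nat_lit 0) (XT.lf (nat_lit 76) (nat_lit 2164308468) (nat_lit 0) (nat_lit 3558031333) (nat_lit 1368) (nat_lit 2306349471) (nat_lit 490) (nat_lit 5) (nat_lit 489) (nat_lit 5) (nat_lit 507) (nat_lit 5) (nat_lit 417) (nat_lit 399) (nat_lit 324)) (XT.lf (nat_lit 76) (nat_lit 6325094343) (nat_lit 0) (nat_lit 999547276) (nat_lit 1368) (nat_lit 766660924) (nat_lit 490) (nat_lit 5) (nat_lit 489) (nat_lit 5) (nat_lit 507) (nat_lit 5) (nat_lit 418) (nat_lit 399) (nat_lit 323))))) (XT.nd (nat_lit 234) (nat_lit 2812) (nat_lit 0) (XT.nd (nat_lit 78) (nat_lit 0) (nat_lit 0) (XT.lf (nat_lit 0) (nat_lit 788340072) (nat_lit 1368) (nat_lit 5748300380) (nat_lit 1444) (nat_lit 1618549535) (nat_lit 472) (nat_lit 5) (nat_lit 490) (nat_lit 5) (nat_lit 491) (nat_lit 5) (nat_lit 419) (nat_lit 399) (nat_lit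 322)) (XT.nd (nat_lit 78) (nat_lit 0) (nat_lit 0) (XT.lf (nat_lit 0) (nat_lit 2351971355) (nat_lit 1368) (nat_lit 1567717889) (nat_lit 1444) (nat_lit 4300835633) (nat_lit 472) (nat_lit 5) (nat_lit 490) (nat_lit 5) (nat_lit 491) (nat_lit 5) (nat_lit 420) (nat_lit 399) (nat_lit 321)) (XT.lf (nat_lit 76) (nat_lit 2709248424) (nat_lit 0) (nat_lit 1225056353) (nat_lit 1444) (nat_lit 4353139535) (nat_lit 473) (nat_lit 5) (nat_lit 472) (nat_lit 5) (nat_lit 491) (nat_lit 5) (nat_lit 421) (nat_lit 399) (nat_lit 320)))) (XT.nd (nat_lit 156) (nat_lit 1520) (nat_lit 0) (XT.nd (nat_lit 78) (nat_lit 1368) (nat_lit 0) (XT.lf (nat_lit 0) (nat_lit 5539096122) (nat_lit 1368) (nat_lit 1295724629) (nat_lit 76) (nat_lit 1521091079) (nat_lit 473) (nat_lit 5) (nat_lit 491) (nat_lit 5) (nat_lit 474) (nat_lit 5) (nat_lit 422) (nat_lit 399) (nat_lit 319)) (XT.lf (nat_lit 0) (nat_lit 3081882199) (nat_lit 1368) (nat_lit 4093135437) (nat_lit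 1444) (nat_lit 1250775788) (nat_lit 455) (nat_lit 5) (nat_lit 473) (nat_lit 5) (nat_lit 474) (nat_lit 5) (nat_lit 423) (nat_lit 399) (nat_lit 318))) (XT.nd (nat_lit 78) (nat_lit 1444) (nat_lit 0) (XT.lf (nat_lit 0) (nat_lit 321912492) (nat_lit 1444) (nat_lit 957679962) (nat_lit 76) (nat_lit 7217862152) (nat_lit 454) (nat_lit 5) (nat_lit 473) (nat_lit 5) (nat_lit 455) (nat_lit 5) (nat_lit 424) (nat_lit 399) (nat_lit 317)) (XT.lf (nat_lit 0) (nat_lit 1914507533) (nat_lit 1520) (nat_lit 5049397940) (nat_lit 76) (nat_lit 1606398115) (nat_lit 435) (nat_lit 5) (nat_lit 455) (nat_lit 5) (nat_lit 436) (nat_lit 5) (nat_lit 425) (nat_lit 399) (nat_lit 316)))))) (XT.nd (nat_lit 546) (nat_lit 2584) (nat_lit 0) (XT.nd (nat_lit 234) (nat_lit 4636) (nat_lit 0) (XT.nd (nat_lit 78) (nat_lit 1520) (nat_lit 0) (XT.lf (nat_lit 0) (nat_lit 3526028928) (nat_lit 1520) (nat_lit 574046966) (nat_lit 76) (nat_lit 4544815642) (nat_lit 435)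 (nat_lit 5) (nat_lit 455) (nat_lit 5) (nat_lit 436) (nat_lit 5) (nat_lit 426) (nat_lit 399) (nat_lit 315)) (XT.nd (nat_lit 78) (nat_lit 0) (nat_lit 0) (XT.lf (nat_lit 0) (nat_lit 4020904895) (nat_lit 1520) (nat_lit 1147659918) (nat_lit 1596) (nat_lit 3552453765) (nat_lit 415) (nat_lit 5) (nat_lit 435) (nat_lit 5) (nat_lit 436) (nat_lit 5) (nat_lit 427) (nat_lit 399) (nat_lit 314)) (XT.lf (nat_lit 0) (nat_lit 6833026349) (nat_lit 1596) (nat_lit 118262646) (nat_lit 76) (nat_lit 1847620231) (nat_lit 415) (nat_lit 5) (nat_lit 436) (nat_lit 5) (nat_lit 416) (nat_lit 5) (nat_lit 428) (nat_lit 399) (nat_lit 313)))) (XT.nd (nat_lit 156) (nat_lit 1292) (nat_lit 0) (XT.nd (nat_lit 78) (nat_lit 1748) (nat_lit 0) (XT.lf (nat_lit 0) (nat_lit 4585130297) (nat_lit 1596) (nat_lit 3956640657) (nat_lit 1672) (nat_lit 336388978) (nat_lit 394) (nat_lit 5) (nat_lit 415) (nat_lit 5) (nat_lit 416) (nat_lit 5) (nat_lit 429) (nat_lit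 399) (nat_lit 312)) (XT.lf (nat_lit 0) (nat_lit 398984531) (nat_lit 1672) (nat_lit 886514209) (nat_lit 1748) (nat_lit 7673802217) (nat_lit 371) (nat_lit 5) (nat_lit 393) (nat_lit 5) (nat_lit 394) (nat_lit 5) (nat_lit 430) (nat_lit 399) (nat_lit 311))) (XT.nd (nat_lit 78) (nat_lit 1292) (nat_lit 0) (XT.lf (nat_lit 0) (nat_lit 2953087566) (nat_lit 1748) (nat_lit 3838708733) (nat_lit 76) (nat_lit 2249889526) (nat_lit 371) (nat_lit 5) (nat_lit 394) (nat_lit 5) (nat_lit 372) (nat_lit 5) (nat_lit 431) (nat_lit 399) (nat_lit 310)) (XT.lf (nat_lit 0) (nat_lit 961265784) (nat_lit 1292) (nat_lit 3679568623) (nat_lit 1368) (nat_lit 4485168296) (nat_lit 354) (nat_lit 5) (nat_lit 371) (nat_lit 5) (nat_lit 372) (nat_lit 5) (nat_lit 432) (nat_lit 399) (nat_lit 309))))) (XT.nd (nat_lit 234) (nat_lit 1672) (nat_lit 0) (XT.nd (nat_lit 78) (nat_lit 912) (nat_lit 0) (XT.lf (nat_lit 0) (nat_lit 5886622962) (nat_lit 1292) (nat_lit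 476516214) (nat_lit 1368) (nat_lit 2848870720) (nat_lit 354) (nat_lit 5) (nat_lit 371) (nat_lit 5) (nat_lit 372) (nat_lit 5) (nat_lit 433) (nat_lit 399) (nat_lit 308)) (XT.nd (nat_lit 78) (nat_lit 76) (nat_lit 0) (XT.lf (nat_lit 0) (nat_lit 1590763739) (nat_lit 836) (nat_lit 6533120260) (nat_lit 912) (nat_lit 1175792998) (nat_lit 343) (nat_lit 5) (nat_lit 354) (nat_lit 5) (nat_lit 355) (nat_lit 5) (nat_lit 434) (nat_lit 399) (nat_lit 307)) (XT.lf (nat_lit 0) (nat_lit 525105426) (nat_lit 912) (nat_lit 2768009998) (nat_lit 76) (nat_lit 6095905577) (nat_lit 342) (nat_lit 5) (nat_lit 354) (nat_lit 5) (nat_lit 343) (nat_lit 5) (nat_lit 435) (nat_lit 399) (nat_lit 306)))) (XT.nd (nat_lit 156) (nat_lit 836) (nat_lit 0) (XT.nd (nat_lit 78) (nat_lit 0) (nat_lit 0) (XT.lf (nat_lit 0) (nat_lit 2235450744) (nat_lit 912) (nat_lit 7209191567) (nat_lit 76) (nat_lit 35549191) (nat_lit 331) (nat_lit 5) (nat_lit 343) (nat_lit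 5) (nat_lit 332) (nat_lit 5) (nat_lit 436) (nat_lit 399) (nat_lit 305)) (XT.lf (nat_lit 0) (nat_lit 3997017075) (nat_lit 912) (nat_lit 2169256213) (nat_lit 76) (nat_lit 3406589989) (nat_lit 331) (nat_lit 5) (nat_lit 343) (nat_lit 5) (nat_lit 332) (nat_lit 5) (nat_lit 437) (nat_lit 399) (nat_lit 304))) (XT.nd (nat_lit 78) (nat_lit 0) (nat_lit 0) (XT.lf (nat_lit 0) (nat_lit 2988295619) (nat_lit 836) (nat_lit 2801889328) (nat_lit 912) (nat_lit 3877293929) (nat_lit 320) (nat_lit 5) (nat_lit 331) (nat_lit 5) (nat_lit 332) (nat_lit 5) (nat_lit 438) (nat_lit 399) (nat_lit 303)) (XT.lf (nat_lit 0) (nat_lit 7615237132) (nat_lit 912) (nat_lit 1512179915) (nat_lit 76) (nat_lit 636666764) (nat_lit 320) (nat_lit 5) (nat_lit 332) (nat_lit 5) (nat_lit 321) (nat_lit 5) (nat_lit 439) (nat_lit 399) (nat_lit 302))))))))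
noncomputable def xc149 : XT := (XT.nd (nat_lit 2184) (nat_lit 6536) (nat_lit 0) (XT.nd (nat_lit 1092) (nat_lit 4104) (nat_lit 0) (XT.nd (nat_lit 546) (nat_lit 2812) (nat_lit 0) (XT.nd (nat_lit 234) (nat_lit 1520) (nat_lit 0) (XT.nd (nat_lit 78) (nat_lit 836) (nat_lit 0) (XT.lf (nat_lit 0) (nat_lit 3766752489) (nat_lit 836) (nat_lit 5730773937) (nat_lit 912) (nat_lit 364696798) (nat_lit 309) (nat_lit 5) (nat_lit 320) (nat_lit 5) (nat_lit 321) (nat_lit 5) (nat_lit 440) (nat_lit 399) (nat_lit 301)) (XT.nd (nat_lit 78) (nat_lit 760) (nat_lit 0) (XT.lf (nat_lit 0) (nat_lit 1424121783) (nat_lit 912) (nat_lit 822297231) (nat_lit 76) (nat_lit 7715972494) (nat_lit 308) (nat_lit 5) (nat_lit 320) (nat_lit 5) (nat_lit 309) (nat_lit 5) (nat_lit 441) (nat_lit 399) (nat_lit 300)) (XT.lf (nat_lit 0) (nat_lit 3260644624) (nat_lit 836) (nat_lit 5480900590) (nat_lit 76) (nat_lit 1322649620) (nat_lit 298) (nat_lit 5) (nat_lit 309)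 (nat_lit 5) (nat_lit 299) (nat_lit 5) (nat_lit 442) (nat_lit 399) (nat_lit 299)))) (XT.nd (nat_lit 156) (nat_lit 760) (nat_lit 0) (XT.nd (nat_lit 78) (nat_lit 760) (nat_lit 0) (XT.lf (nat_lit 0) (nat_lit 5132900265) (nat_lit 836) (nat_lit 96972147) (nat_lit 76) (nat_lit 4938197568) (nat_lit 298) (nat_lit 5) (nat_lit 309) (nat_lit 5) (nat_lit 299) (nat_lit 5) (nat_lit 443) (nat_lit 399) (nat_lit 298)) (XT.lf (nat_lit 0) (nat_lit 5444194500) (nat_lit 760) (nat_lit 1612744826) (nat_lit 836) (nat_lit 3216812025) (nat_lit 288) (nat_lit 5) (nat_lit 298) (nat_lit 5) (nat_lit 299) (nat_lit 5) (nat_lit 444) (nat_lit 399) (nat_lit 297))) (XT.nd (nat_lit 78) (nat_lit 76) (nat_lit 0) (XT.lf (nat_lit 0) (nat_lit 689397445) (nat_lit 684) (nat_lit 8327932084) (nat_lit 760) (nat_lit 1364274598) (nat_lit 279) (nat_lit 5) (nat_lit 288) (nat_lit 5) (nat_lit 289) (nat_lit 5) (nat_lit 445) (nat_lit 399) (nat_lit 296)) (XT.lf (nat_lit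 0) (nat_lit 541097474) (nat_lit 760) (nat_lit 4143339974) (nat_lit 76) (nat_lit 5806669423) (nat_lit 278) (nat_lit 5) (nat_lit 288) (nat_lit 5) (nat_lit 279) (nat_lit 5) (nat_lit 446) (nat_lit 399) (nat_lit 295))))) (XT.nd (nat_lit 234) (nat_lit 1368) (nat_lit 0) (XT.nd (nat_lit 78) (nat_lit 684) (nat_lit 0) (XT.lf (nat_lit 0) (nat_lit 1505383898) (nat_lit 760) (nat_lit 950490552) (nat_lit 836) (nat_lit 8146967869) (nat_lit 268) (nat_lit 5) (nat_lit 278) (nat_lit 5) (nat_lit 279) (nat_lit 5) (nat_lit 447) (nat_lit 399) (nat_lit 294)) (XT.nd (nat_lit 78) (nat_lit 684) (nat_lit 0) (XT.lf (nat_lit 0) (nat_lit 4435510733) (nat_lit 836) (nat_lit 3433838435) (nat_lit 76) (nat_lit 2846946063) (nat_lit 268) (nat_lit 5) (nat_lit 279) (nat_lit 5) (nat_lit 269) (nat_lit 5) (nat_lit 448) (nat_lit 399) (nat_lit 293)) (XT.lf (nat_lit 0) (nat_lit 2345871615) (nat_lit 684) (nat_lit 4110804240) (nat_lit 760) (nat_lit 4375316377)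 (nat_lit 259) (nat_lit 5) (nat_lit 268) (nat_lit 5) (nat_lit 269) (nat_lit 5) (nat_lit 449) (nat_lit 399) (nat_lit 292)))) (XT.nd (nat_lit 156) (nat_lit 684) (nat_lit 0) (XT.nd (nat_lit 78) (nat_lit 684) (nat_lit 0) (XT.lf (nat_lit 0) (nat_lit 8266210691) (nat_lit 684) (nat_lit 255751413) (nat_lit 760) (nat_lit 2427980597) (nat_lit 259) (nat_lit 5) (nat_lit 268) (nat_lit 5) (nat_lit 269) (nat_lit 5) (nat_lit 450) (nat_lit 399) (nat_lit 291)) (XT.lf (nat_lit 0) (nat_lit 3231751016) (nat_lit 684) (nat_lit 7422675859) (nat_lit 760) (nat_lit 415321069) (nat_lit 250) (nat_lit 5) (nat_lit 259) (nat_lit 5) (nat_lit 260) (nat_lit 5) (nat_lit 451) (nat_lit 399) (nat_lit 290))) (XT.nd (nat_lit 78) (nat_lit 608) (nat_lit 0) (XT.lf (nat_lit 0) (nat_lit 1617053803) (nat_lit 760) (nat_lit 1923703134) (nat_lit 76) (nat_lit 7650973624) (nat_lit 249) (nat_lit 5) (nat_lit 259) (nat_lit 5) (nat_lit 250) (nat_lit 5) (nat_lit 452)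 (nat_lit 399) (nat_lit 289)) (XT.lf (nat_lit 0) (nat_lit 3695780504) (nat_lit 684) (nat_lit 7179595864) (nat_lit 76) (nat_lit 440508704) (nat_lit 241) (nat_lit 5) (nat_lit 250) (nat_lit 5) (nat_lit 242) (nat_lit 5) (nat_lit 453) (nat_lit 399) (nat_lit 288)))))) (XT.nd (nat_lit 546) (nat_lit 1672) (nat_lit 0) (XT.nd (nat_lit 234) (nat_lit 1824) (nat_lit 0) (XT.nd (nat_lit 78) (nat_lit 608) (nat_lit 0) (XT.lf (nat_lit 0) (nat_lit 5834221140) (nat_lit 684) (nat_lit 1143629627) (nat_lit 76) (nat_lit 4464321333) (nat_lit 241) (nat_lit 5) (nat_lit 250) (nat_lit 5) (nat_lit 242) (nat_lit 5) (nat_lit 454) (nat_lit 399) (nat_lit 287)) (XT.nd (nat_lit 78) (nat_lit 0) (nat_lit 0) (XT.lf (nat_lit 0) (nat_lit 5058428902) (nat_lit 608) (nat_lit 2971899388) (nat_lit 684) (nat_lit 3540370596) (nat_lit 233) (nat_lit 5) (nat_lit 241) (nat_lit 5) (nat_lit 242) (nat_lit 5) (nat_lit 455) (nat_lit 399) (nat_lit 286)) (XT.lf (nat_lit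 0) (nat_lit 10267568194) (nat_lit 684) (nat_lit 330074123) (nat_lit 76) (nat_lit 1104221418) (nat_lit 233) (nat_lit 5) (nat_lit 242) (nat_lit 5) (nat_lit 234) (nat_lit 5) (nat_lit 456) (nat_lit 399) (nat_lit 285)))) (XT.nd (nat_lit 156) (nat_lit 532) (nat_lit 0) (XT.nd (nat_lit 78) (nat_lit 608) (nat_lit 0) (XT.lf (nat_lit 0) (nat_lit 746129545) (nat_lit 684) (nat_lit 5825546245) (nat_lit 76) (nat_lit 5263062842) (nat_lit 224) (nat_lit 5) (nat_lit 233) (nat_lit 5) (nat_lit 225) (nat_lit 5) (nat_lit 457) (nat_lit 399) (nat_lit 284)) (XT.lf (nat_lit 0) (nat_lit 485478752) (nat_lit 608) (nat_lit 2453560583) (nat_lit 684) (nat_lit 9031291511) (nat_lit 216) (nat_lit 5) (nat_lit 224) (nat_lit 5) (nat_lit 225) (nat_lit 5) (nat_lit 458) (nat_lit 399) (nat_lit 283))) (XT.nd (nat_lit 78) (nat_lit 532) (nat_lit 0) (XT.lf (nat_lit 0) (nat_lit 5209364117) (nat_lit 684) (nat_lit 5138822192) (nat_lit 76) (nat_lit 1759788304)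 (nat_lit 216) (nat_lit 5) (nat_lit 225) (nat_lit 5) (nat_lit 217) (nat_lit 5) (nat_lit 459) (nat_lit 399) (nat_lit 282)) (XT.lf (nat_lit 0) (nat_lit 1314472870) (nat_lit 532) (nat_lit 6218604994) (nat_lit 608) (nat_lit 4715144376) (nat_lit 209) (nat_lit 5) (nat_lit 216) (nat_lit 5) (nat_lit 217) (nat_lit 5) (nat_lit 460) (nat_lit 399) (nat_lit 281))))) (XT.nd (nat_lit 234) (nat_lit 1064) (nat_lit 0) (XT.nd (nat_lit 78) (nat_lit 608) (nat_lit 0) (XT.lf (nat_lit 0) (nat_lit 7945981512) (nat_lit 532) (nat_lit 1975164128) (nat_lit 608) (nat_lit 2469782007) (nat_lit 209) (nat_lit 5) (nat_lit 216) (nat_lit 5) (nat_lit 217) (nat_lit 5) (nat_lit 461) (nat_lit 399) (nat_lit 280)) (XT.nd (nat_lit 78) (nat_lit 76) (nat_lit 0) (XT.lf (nat_lit 0) (nat_lit 2166347846) (nat_lit 532) (nat_lit 10203666741) (nat_lit 608) (nat_lit 166221997) (nat_lit 202) (nat_lit 5) (nat_lit 209) (nat_lit 5) (nat_lit 210) (nat_lit 5) (nat_lit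 462) (nat_lit 399) (nat_lit 279)) (XT.lf (nat_lit 0) (nat_lit 2181647060) (nat_lit 608) (nat_lit 3761699638) (nat_lit 76) (nat_lit 6740293829) (nat_lit 201) (nat_lit 5) (nat_lit 209) (nat_lit 5) (nat_lit 202) (nat_lit 5) (nat_lit 463) (nat_lit 399) (nat_lit 278)))) (XT.nd (nat_lit 156) (nat_lit 532) (nat_lit 0) (XT.nd (nat_lit 78) (nat_lit 0) (nat_lit 0) (XT.lf (nat_lit 0) (nat_lit 2996747093) (nat_lit 532) (nat_lit 1581045556) (nat_lit 608) (nat_lit 8256116657) (nat_lit 194) (nat_lit 5) (nat_lit 201) (nat_lit 5) (nat_lit 202) (nat_lit 5) (nat_lit 464) (nat_lit 399) (nat_lit 277)) (XT.lf (nat_lit 0) (nat_lit 7050136223) (nat_lit 608) (nat_lit 3084388850) (nat_lit 76) (nat_lit 2852102328) (nat_lit 194) (nat_lit 5) (nat_lit 202) (nat_lit 5) (nat_lit 195) (nat_lit 5) (nat_lit 465) (nat_lit 399) (nat_lit 276))) (XT.nd (nat_lit 78) (nat_lit 0) (nat_lit 0) (XT.lf (nat_lit 0) (nat_lit 3823236971) (nat_lit 532) (nat_lit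 5768532894) (nat_lit 608) (nat_lit 3550242384) (nat_lit 187) (nat_lit 5) (nat_lit 194) (nat_lit 5) (nat_lit 195) (nat_lit 5) (nat_lit 466) (nat_lit 399) (nat_lit 275)) (XT.lf (nat_lit 0) (nat_lit 10891080820) (nat_lit 532) (nat_lit 1298577695) (nat_lit 608) (nat_lit 1110746908) (nat_lit 187) (nat_lit 5) (nat_lit 194) (nat_lit 5) (nat_lit 195) (nat_lit 5) (nat_lit 467) (nat_lit 399) (nat_lit 274))))))) (XT.nd (nat_lit 1092) (nat_lit 2660) (nat_lit 0) (XT.nd (nat_lit 546) (nat_lit 1824) (nat_lit 0) (XT.nd (nat_lit 234) (nat_lit 988) (nat_lit 0) (XT.nd (nat_lit 78) (nat_lit 532) (nat_lit 0) (XT.lf (nat_lit 0) (nat_lit 1396117598) (nat_lit 532) (nat_lit 8811826690) (nat_lit 76) (nat_lit 3253119100) (nat_lit 180) (nat_lit 5) (nat_lit 187) (nat_lit 5) (nat_lit 181) (nat_lit 5) (nat_lit 468) (nat_lit 399) (nat_lit 273)) (XT.nd (nat_lit 78) (nat_lit 532) (nat_lit 0) (XT.lf (nat_lit 0) (nat_lit 3948191376) (nat_lit 532)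 (nat_lit 1778760743) (nat_lit 76) (nat_lit 7897645207) (nat_lit 180) (nat_lit 5) (nat_lit 187) (nat_lit 5) (nat_lit 181) (nat_lit 5) (nat_lit 469) (nat_lit 399) (nat_lit 272)) (XT.lf (nat_lit 0) (nat_lit 5447077512) (nat_lit 532) (nat_lit 1124944391) (nat_lit 608) (nat_lit 7218974116) (nat_lit 173) (nat_lit 5) (nat_lit 180) (nat_lit 5) (nat_lit 181) (nat_lit 5) (nat_lit 470) (nat_lit 399) (nat_lit 271)))) (XT.nd (nat_lit 156) (nat_lit 532) (nat_lit 0) (XT.nd (nat_lit 78) (nat_lit 456) (nat_lit 0) (XT.lf (nat_lit 0) (nat_lit 9268998736) (nat_lit 608) (nat_lit 1161660523) (nat_lit 76) (nat_lit 3529658252) (nat_lit 173) (nat_lit 5) (nat_lit 181) (nat_lit 5) (nat_lit 174) (nat_lit 5) (nat_lit 471) (nat_lit 399) (nat_lit 270)) (XT.lf (nat_lit 0) (nat_lit 6219272642) (nat_lit 456) (nat_lit 5834237987) (nat_lit 532) (nat_lit 2078850952) (nat_lit 167) (nat_lit 5) (nat_lit 173) (nat_lit 5) (nat_lit 174) (nat_lit 5) (nat_lit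 472) (nat_lit 399) (nat_lit 269))) (XT.nd (nat_lit 78) (nat_lit 456) (nat_lit 0) (XT.lf (nat_lit 0) (nat_lit 571850344) (nat_lit 532) (nat_lit 567132498) (nat_lit 76) (nat_lit 13168922001) (nat_lit 166) (nat_lit 5) (nat_lit 173) (nat_lit 5) (nat_lit 167) (nat_lit 5) (nat_lit 473) (nat_lit 399) (nat_lit 268)) (XT.lf (nat_lit 0) (nat_lit 3303263923) (nat_lit 532) (nat_lit 7525320528) (nat_lit 76) (nat_lit 3656996608) (nat_lit 160) (nat_lit 5) (nat_lit 167) (nat_lit 5) (nat_lit 161) (nat_lit 5) (nat_lit 474) (nat_lit 399) (nat_lit 267))))) (XT.nd (nat_lit 234) (nat_lit 912) (nat_lit 0) (XT.nd (nat_lit 78) (nat_lit 912) (nat_lit 0) (XT.lf (nat_lit 0) (nat_lit 6086898128) (nat_lit 532) (nat_lit 47322633) (nat_lit 76) (nat_lit 8532645634) (nat_lit 160) (nat_lit 5) (nat_lit 167) (nat_lit 5) (nat_lit 161) (nat_lit 5) (nat_lit 475) (nat_lit 399) (nat_lit 266)) (XT.nd (nat_lit 78) (nat_lit 456) (nat_lit 0) (XT.lf (nat_lit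 0) (nat_lit 7662188090) (nat_lit 456) (nat_lit 1300253620) (nat_lit 532) (nat_lit 5888618292) (nat_lit 154) (nat_lit 5) (nat_lit 160) (nat_lit 5) (nat_lit 161) (nat_lit 5) (nat_lit 476) (nat_lit 399) (nat_lit 265)) (XT.lf (nat_lit 0) (nat_lit 451287230) (nat_lit 456) (nat_lit 11457630826) (nat_lit 532) (nat_lit 3129758142) (nat_lit 148) (nat_lit 5) (nat_lit 154) (nat_lit 5) (nat_lit 155) (nat_lit 5) (nat_lit 477) (nat_lit 399) (nat_lit 264)))) (XT.nd (nat_lit 156) (nat_lit 456) (nat_lit 0) (XT.nd (nat_lit 78) (nat_lit 456) (nat_lit 0) (XT.lf (nat_lit 0) (nat_lit 8314436144) (nat_lit 456) (nat_lit 6643426835) (nat_lit 532) (nat_lit 271317975) (nat_lit 148) (nat_lit 5) (nat_lit 154) (nat_lit 5) (nat_lit 155) (nat_lit 5) (nat_lit 478) (nat_lit 399) (nat_lit 263)) (XT.lf (nat_lit 0) (nat_lit 887470740) (nat_lit 380) (nat_lit 1714812657) (nat_lit 456) (nat_lit 12821022324) (nat_lit 142) (nat_lit 5) (nat_lit 147) (nat_lit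 5) (nat_lit 148) (nat_lit 5) (nat_lit 479) (nat_lit 399) (nat_lit 262))) (XT.nd (nat_lit 78) (nat_lit 456) (nat_lit 0) (XT.lf (nat_lit 0) (nat_lit 5584956949) (nat_lit 456) (nat_lit 6722996340) (nat_lit 76) (nat_lit 3312225775) (nat_lit 142) (nat_lit 5) (nat_lit 148) (nat_lit 5) (nat_lit 143) (nat_lit 5) (nat_lit 480) (nat_lit 399) (nat_lit 261)) (XT.lf (nat_lit 0) (nat_lit 1232810302) (nat_lit 456) (nat_lit 7401103582) (nat_lit 532) (nat_lit 7186949871) (nat_lit 136) (nat_lit 5) (nat_lit 142) (nat_lit 5) (nat_lit 143) (nat_lit 5) (nat_lit 481) (nat_lit 399) (nat_lit 260)))))) (XT.nd (nat_lit 546) (nat_lit 1520) (nat_lit 0) (XT.nd (nat_lit 234) (nat_lit 684) (nat_lit 0) (XT.nd (nat_lit 78) (nat_lit 456) (nat_lit 0) (XT.lf (nat_lit 0) (nat_lit 9420883221) (nat_lit 456) (nat_lit 2355483769) (nat_lit 532) (nat_lit 4248551164) (nat_lit 136) (nat_lit 5) (nat_lit 142) (nat_lit 5) (nat_lit 143) (nat_lit 5) (nat_lit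 482) (nat_lit 399) (nat_lit 259)) (XT.nd (nat_lit 78) (nat_lit 76) (nat_lit 0) (XT.lf (nat_lit 0) (nat_lit 1523677697) (nat_lit 380) (nat_lit 13473620456) (nat_lit 456) (nat_lit 1235449135) (nat_lit 131) (nat_lit 5) (nat_lit 136) (nat_lit 5) (nat_lit 137) (nat_lit 5) (nat_lit 483) (nat_lit 399) (nat_lit 258)) (XT.lf (nat_lit 0) (nat_lit 1861675070) (nat_lit 456) (nat_lit 6586109190) (nat_lit 76) (nat_lit 7995758779) (nat_lit 130) (nat_lit 5) (nat_lit 136) (nat_lit 5) (nat_lit 131) (nat_lit 5) (nat_lit 484) (nat_lit 399) (nat_lit 257)))) (XT.nd (nat_lit 156) (nat_lit 304) (nat_lit 0) (XT.nd (nat_lit 78) (nat_lit 0) (nat_lit 0) (XT.lf (nat_lit 0) (nat_lit 1695819768) (nat_lit 380) (nat_lit 3307302684) (nat_lit 456) (nat_lit 11655296331) (nat_lit 125) (nat_lit 5) (nat_lit 130) (nat_lit 5) (nat_lit 131) (nat_lit 5) (nat_lit 485) (nat_lit 399) (nat_lit 256)) (XT.lf (nat_lit 0) (nat_lit 8252443642) (nat_lit 456) (nat_lit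 6674551066) (nat_lit 76) (nat_lit 1949702189) (nat_lit 125) (nat_lit 5) (nat_lit 131) (nat_lit 5) (nat_lit 126) (nat_lit 5) (nat_lit 486) (nat_lit 399) (nat_lit 255))) (XT.nd (nat_lit 78) (nat_lit 0) (nat_lit 0) (XT.lf (nat_lit 0) (nat_lit 1763181293) (nat_lit 304) (nat_lit 9825142126) (nat_lit 380) (nat_lit 5510591354) (nat_lit 121) (nat_lit 5) (nat_lit 125) (nat_lit 5) (nat_lit 126) (nat_lit 5) (nat_lit 487) (nat_lit 399) (nat_lit 254)) (XT.lf (nat_lit 0) (nat_lit 10442959079) (nat_lit 304) (nat_lit 4581092590) (nat_lit 380) (nat_lit 2300868250) (nat_lit 121) (nat_lit 5) (nat_lit 125) (nat_lit 5) (nat_lit 126) (nat_lit 5) (nat_lit 488) (nat_lit 399) (nat_lit 253))))) (XT.nd (nat_lit 234) (nat_lit 760) (nat_lit 0) (XT.nd (nat_lit 78) (nat_lit 304) (nat_lit 0) (XT.lf (nat_lit 0) (nat_lit 965142353) (nat_lit 456) (nat_lit 15820005449) (nat_lit 76) (nat_lit 770079235) (nat_lit 115) (nat_lit 5) (nat_lit 121) (nat_lit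 5) (nat_lit 116) (nat_lit 5) (nat_lit 489) (nat_lit 399) (nat_lit 252)) (XT.nd (nat_lit 78) (nat_lit 304) (nat_lit 0) (XT.lf (nat_lit 0) (nat_lit 4331088129) (nat_lit 456) (nat_lit 7234155343) (nat_lit 76) (nat_lit 6223289390) (nat_lit 115) (nat_lit 5) (nat_lit 121) (nat_lit 5) (nat_lit 116) (nat_lit 5) (nat_lit 490) (nat_lit 399) (nat_lit 251)) (XT.lf (nat_lit 0) (nat_lit 1526678150) (nat_lit 304) (nat_lit 6236380021) (nat_lit 380) (nat_lit 10263477635) (nat_lit 111) (nat_lit 5) (nat_lit 115) (nat_lit 5) (nat_lit 116) (nat_lit 5) (nat_lit 491) (nat_lit 399) (nat_lit 250)))) (XT.nd (nat_lit 156) (nat_lit 380) (nat_lit 0) (XT.nd (nat_lit 78) (nat_lit 380) (nat_lit 0) (XT.lf (nat_lit 0) (nat_lit 10544143161) (nat_lit 304) (nat_lit 756974254) (nat_lit 380) (nat_lit 6967437408) (nat_lit 111) (nat_lit 5) (nat_lit 115) (nat_lit 5) (nat_lit 116) (nat_lit 5) (nat_lit 492) (nat_lit 399) (nat_lit 249)) (XT.lf (nat_lit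 0) (nat_lit 1194327623) (nat_lit 380) (nat_lit 13743824294) (nat_lit 456) (nat_lit 3576702934) (nat_lit 106) (nat_lit 5) (nat_lit 111) (nat_lit 5) (nat_lit 112) (nat_lit 5) (nat_lit 493) (nat_lit 399) (nat_lit 248))) (XT.nd (nat_lit 78) (nat_lit 380) (nat_lit 0) (XT.lf (nat_lit 0) (nat_lit 10374670258) (nat_lit 380) (nat_lit 8319266353) (nat_lit 456) (nat_lit 71228893) (nat_lit 106) (nat_lit 5) (nat_lit 111) (nat_lit 5) (nat_lit 112) (nat_lit 5) (nat_lit 494) (nat_lit 399) (nat_lit 247)) (XT.lf (nat_lit 0) (nat_lit 688187435) (nat_lit 304) (nat_lit 2764006719) (nat_lit 380) (nat_lit 15567961797) (nat_lit 101) (nat_lit 5) (nat_lit 105) (nat_lit 5) (nat_lit 106) (nat_lit 5) (nat_lit 495) (nat_lit 399) (nat_lit 246))))))))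
noncomputable def xc150 : XT := (XT.nd (nat_lit 2184) (nat_lit 228) (nat_lit 0) (XT.nd (nat_lit 1092) (nat_lit 1672) (nat_lit 0) (XT.nd (nat_lit 546) (nat_lit 836) (nat_lit 0) (XT.nd (nat_lit 234) (nat_lit 684) (nat_lit 0) (XT.nd (nat_lit 78) (nat_lit 304) (nat_lit 0) (XT.lf (nat_lit 0) (nat_lit 7110054447) (nat_lit 380) (nat_lit 9252925681) (nat_lit 76) (nat_lit 2915962750) (nat_lit 101) (nat_lit 5) (nat_lit 106) (nat_lit 5) (nat_lit 102) (nat_lit 5) (nat_lit 496) (nat_lit 399) (nat_lit 245)) (XT.nd (nat_lit 78) (nat_lit 304) (nat_lit 0) (XT.lf (nat_lit 0) (nat_lit 10848984561) (nat_lit 380) (nat_lit 26583219) (nat_lit 76) (nat_lit 8667183959) (nat_lit 101) (nat_lit 5) (nat_lit 106) (nat_lit 5) (nat_lit 102) (nat_lit 5) (nat_lit 497) (nat_lit 399) (nat_lit 244)) (XT.lf (nat_lit 0) (nat_lit 9493126874) (nat_lit 304) (nat_lit 5221013780) (nat_lit 380) (nat_lit 5096671536) (nat_lit 97) (nat_lit 5) (nat_lit 101)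 (nat_lit 5) (nat_lit 102) (nat_lit 5) (nat_lit 498) (nat_lit 399) (nat_lit 243)))) (XT.nd (nat_lit 156) (nat_lit 304) (nat_lit 0) (XT.nd (nat_lit 78) (nat_lit 380) (nat_lit 0) (XT.lf (nat_lit 0) (nat_lit 18650203458) (nat_lit 380) (nat_lit 899919830) (nat_lit 76) (nat_lit 534242767) (nat_lit 97) (nat_lit 5) (nat_lit 102) (nat_lit 5) (nat_lit 98) (nat_lit 5) (nat_lit 499) (nat_lit 399) (nat_lit 242)) (XT.lf (nat_lit 0) (nat_lit 2353545323) (nat_lit 380) (nat_lit 11606008320) (nat_lit 76) (nat_lit 6401899901) (nat_lit 92) (nat_lit 5) (nat_lit 97) (nat_lit 5) (nat_lit 93) (nat_lit 5) (nat_lit 500) (nat_lit 399) (nat_lit 241))) (XT.nd (nat_lit 78) (nat_lit 304) (nat_lit 0) (XT.lf (nat_lit 0) (nat_lit 6194000302) (nat_lit 380) (nat_lit 2052840009) (nat_lit 76) (nat_lit 12397132978) (nat_lit 92) (nat_lit 5) (nat_lit 97) (nat_lit 5) (nat_lit 93) (nat_lit 5) (nat_lit 501) (nat_lit 399) (nat_lit 240)) (XT.lf (nat_lit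 0) (nat_lit 7778251425) (nat_lit 304) (nat_lit 2373808107) (nat_lit 380) (nat_lit 10779271943) (nat_lit 88) (nat_lit 5) (nat_lit 92) (nat_lit 5) (nat_lit 93) (nat_lit 5) (nat_lit 502) (nat_lit 399) (nat_lit 239))))) (XT.nd (nat_lit 234) (nat_lit 532) (nat_lit 0) (XT.nd (nat_lit 78) (nat_lit 304) (nat_lit 0) (XT.lf (nat_lit 0) (nat_lit 14216979580) (nat_lit 380) (nat_lit 3429157528) (nat_lit 76) (nat_lit 3577749597) (nat_lit 88) (nat_lit 5) (nat_lit 93) (nat_lit 5) (nat_lit 89) (nat_lit 5) (nat_lit 503) (nat_lit 399) (nat_lit 238)) (XT.nd (nat_lit 78) (nat_lit 76) (nat_lit 0) (XT.lf (nat_lit 0) (nat_lit 6544438123) (nat_lit 228) (nat_lit 11867511370) (nat_lit 304) (nat_lit 3109372315) (nat_lit 85) (nat_lit 5) (nat_lit 88) (nat_lit 5) (nat_lit 89) (nat_lit 5) (nat_lit 504) (nat_lit 399) (nat_lit 237)) (XT.lf (nat_lit 0) (nat_lit 868481403) (nat_lit 304) (nat_lit 5080979480) (nat_lit 76) (nat_lit 15874861362) (nat_lit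 84) (nat_lit 5) (nat_lit 88) (nat_lit 5) (nat_lit 85) (nat_lit 5) (nat_lit 505) (nat_lit 399) (nat_lit 236)))) (XT.nd (nat_lit 156) (nat_lit 228) (nat_lit 0) (XT.nd (nat_lit 78) (nat_lit 0) (nat_lit 0) (XT.lf (nat_lit 0) (nat_lit 4908675297) (nat_lit 380) (nat_lit 17089640695) (nat_lit 76) (nat_lit 134170867) (nat_lit 80) (nat_lit 5) (nat_lit 85) (nat_lit 5) (nat_lit 81) (nat_lit 5) (nat_lit 506) (nat_lit 399) (nat_lit 235)) (XT.lf (nat_lit 0) (nat_lit 9094195810) (nat_lit 380) (nat_lit 7062446145) (nat_lit 76) (nat_lit 6288885861) (nat_lit 80) (nat_lit 5) (nat_lit 85) (nat_lit 5) (nat_lit 81) (nat_lit 5) (nat_lit 507) (nat_lit 399) (nat_lit 234))) (XT.nd (nat_lit 78) (nat_lit 0) (nat_lit 0) (XT.lf (nat_lit 0) (nat_lit 3192744702) (nat_lit 228) (nat_lit 10182392321) (nat_lit 304) (nat_lit 9389461803) (nat_lit 77) (nat_lit 5) (nat_lit 80) (nat_lit 5) (nat_lit 81) (nat_lit 5) (nat_lit 508) (nat_lit 399) (nat_lit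 233)) (XT.lf (nat_lit 0) (nat_lit 13734446545) (nat_lit 228) (nat_lit 4045707951) (nat_lit 304) (nat_lit 5309130984) (nat_lit 77) (nat_lit 5) (nat_lit 80) (nat_lit 5) (nat_lit 81) (nat_lit 5) (nat_lit 509) (nat_lit 399) (nat_lit 232)))))) (XT.nd (nat_lit 546) (nat_lit 760) (nat_lit 0) (XT.nd (nat_lit 234) (nat_lit 532) (nat_lit 0) (XT.nd (nat_lit 78) (nat_lit 76) (nat_lit 0) (XT.lf (nat_lit 0) (nat_lit 1051748123) (nat_lit 304) (nat_lit 21233931307) (nat_lit 380) (nat_lit 1134541599) (nat_lit 73) (nat_lit 5) (nat_lit 77) (nat_lit 5) (nat_lit 78) (nat_lit 5) (nat_lit 510) (nat_lit 399) (nat_lit 231)) (XT.nd (nat_lit 78) (nat_lit 0) (nat_lit 0) (XT.lf (nat_lit 0) (nat_lit 3163783791) (nat_lit 380) (nat_lit 12024949995) (nat_lit 76) (nat_lit 8567014877) (nat_lit 72) (nat_lit 5) (nat_lit 77) (nat_lit 5) (nat_lit 73) (nat_lit 5) (nat_lit 511) (nat_lit 399) (nat_lit 230)) (XT.lf (nat_lit 0) (nat_lit 7524296032) (nat_lit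 380) (nat_lit 1496007264) (nat_lit 76) (nat_lit 15077708447) (nat_lit 72) (nat_lit 5) (nat_lit 77) (nat_lit 5) (nat_lit 73) (nat_lit 5) (nat_lit 512) (nat_lit 399) (nat_lit 229)))) (XT.nd (nat_lit 156) (nat_lit 304) (nat_lit 0) (XT.nd (nat_lit 78) (nat_lit 0) (nat_lit 0) (XT.lf (nat_lit 0) (nat_lit 9352510338) (nat_lit 228) (nat_lit 2671797207) (nat_lit 304) (nat_lit 12421769812) (nat_lit 69) (nat_lit 5) (nat_lit 72) (nat_lit 5) (nat_lit 73) (nat_lit 5) (nat_lit 513) (nat_lit 399) (nat_lit 228)) (XT.lf (nat_lit 0) (nat_lit 16640730461) (nat_lit 304) (nat_lit 4401099122) (nat_lit 76) (nat_lit 3758749469) (nat_lit 69) (nat_lit 5) (nat_lit 73) (nat_lit 5) (nat_lit 70) (nat_lit 5) (nat_lit 514) (nat_lit 399) (nat_lit 227))) (XT.nd (nat_lit 78) (nat_lit 76) (nat_lit 0) (XT.lf (nat_lit 0) (nat_lit 6560119898) (nat_lit 228) (nat_lit 14841422811) (nat_lit 304) (nat_lit 3759589792) (nat_lit 66) (nat_lit 5) (nat_lit 69)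 (nat_lit 5) (nat_lit 70) (nat_lit 5) (nat_lit 515) (nat_lit 399) (nat_lit 226)) (XT.lf (nat_lit 0) (nat_lit 740638745) (nat_lit 304) (nat_lit 7746476448) (nat_lit 76) (nat_lit 17041259600) (nat_lit 65) (nat_lit 5) (nat_lit 69) (nat_lit 5) (nat_lit 66) (nat_lit 5) (nat_lit 516) (nat_lit 399) (nat_lit 225))))) (XT.nd (nat_lit 234) (nat_lit 532) (nat_lit 0) (XT.nd (nat_lit 78) (nat_lit 0) (nat_lit 0) (XT.lf (nat_lit 0) (nat_lit 3330734850) (nat_lit 228) (nat_lit 1963421408) (nat_lit 304) (nat_lit 20608038912) (nat_lit 62) (nat_lit 5) (nat_lit 65) (nat_lit 5) (nat_lit 66) (nat_lit 5) (nat_lit 517) (nat_lit 399) (nat_lit 224)) (XT.nd (nat_lit 78) (nat_lit 0) (nat_lit 0) (XT.lf (nat_lit 0) (nat_lit 10013518941) (nat_lit 304) (nat_lit 11591998895) (nat_lit 76) (nat_lit 4676481337) (nat_lit 62) (nat_lit 5) (nat_lit 66) (nat_lit 5) (nat_lit 63) (nat_lit 5) (nat_lit 518) (nat_lit 399) (nat_lit 223)) (XT.lf (nat_lit 0)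 (nat_lit 14832420872) (nat_lit 304) (nat_lit 418934173) (nat_lit 76) (nat_lit 11417943829) (nat_lit 62) (nat_lit 5) (nat_lit 66) (nat_lit 5) (nat_lit 63) (nat_lit 5) (nat_lit 519) (nat_lit 399) (nat_lit 222)))) (XT.nd (nat_lit 156) (nat_lit 304) (nat_lit 0) (XT.nd (nat_lit 78) (nat_lit 0) (nat_lit 0) (XT.lf (nat_lit 0) (nat_lit 11110580536) (nat_lit 228) (nat_lit 8701560706) (nat_lit 304) (nat_lit 7250917124) (nat_lit 59) (nat_lit 5) (nat_lit 62) (nat_lit 5) (nat_lit 63) (nat_lit 5) (nat_lit 520) (nat_lit 399) (nat_lit 221)) (XT.lf (nat_lit 0) (nat_lit 22863719473) (nat_lit 228) (nat_lit 2022919777) (nat_lit 304) (nat_lit 2578152689) (nat_lit 59) (nat_lit 5) (nat_lit 62) (nat_lit 5) (nat_lit 63) (nat_lit 5) (nat_lit 521) (nat_lit 399) (nat_lit 220))) (XT.nd (nat_lit 78) (nat_lit 0) (nat_lit 0) (XT.lf (nat_lit 0) (nat_lit 2229027598) (nat_lit 304) (nat_lit 20861948741) (nat_lit 76) (nat_lit 4781909024) (nat_lit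 55) (nat_lit 5) (nat_lit 59) (nat_lit 5) (nat_lit 56) (nat_lit 5) (nat_lit 522) (nat_lit 399) (nat_lit 219)) (XT.lf (nat_lit 0) (nat_lit 7134843614) (nat_lit 304) (nat_lit 9414180357) (nat_lit 76) (nat_lit 11739037988) (nat_lit 55) (nat_lit 5) (nat_lit 59) (nat_lit 5) (nat_lit 56) (nat_lit 5) (nat_lit 523) (nat_lit 399) (nat_lit 218))))))) (XT.nd (nat_lit 50622) (nat_lit 0) (nat_lit 29108) (XT.nd (nat_lit 50076) (nat_lit 0) (nat_lit 34276) (XT.nd (nat_lit 49764) (nat_lit 0) (nat_lit 35416) (XT.nd (nat_lit 78) (nat_lit 0) (nat_lit 0) (XT.lf (nat_lit 0) (nat_lit 2280157179) (nat_lit 228) (nat_lit 9866074441) (nat_lit 304) (nat_lit 16565163714) (nat_lit 52) (nat_lit 5) (nat_lit 55) (nat_lit 5) (nat_lit 56) (nat_lit 5) (nat_lit 524) (nat_lit 399) (nat_lit 217)) (XT.nd (nat_lit 49608) (nat_lit 0) (nat_lit 36480) (XT.lf (nat_lit 0) (nat_lit 14323783135) (nat_lit 228) (nat_lit 2989954551) (nat_lit 304) (nat_lit 11828342200)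 (nat_lit 52) (nat_lit 5) (nat_lit 55) (nat_lit 5) (nat_lit 56) (nat_lit 5) (nat_lit 525) (nat_lit 399) (nat_lit 216)) (XT.lf (nat_lit 0) (nat_lit 1488009464) (nat_lit 1140) (nat_lit 1061191283) (nat_lit 1140) (nat_lit 1061191283) (nat_lit 532) (nat_lit 3) (nat_lit 547) (nat_lit 3) (nat_lit 547) (nat_lit 5) (nat_lit 400) (nat_lit 400) (nat_lit 340)))) (XT.nd (nat_lit 156) (nat_lit 1064) (nat_lit 0) (XT.nd (nat_lit 78) (nat_lit 0) (nat_lit 0) (XT.lf (nat_lit 76) (nat_lit 1221647683) (nat_lit 0) (nat_lit 3344531929) (nat_lit 1140) (nat_lit 2694046071) (nat_lit 533) (nat_lit 5) (nat_lit 532) (nat_lit 3) (nat_lit 547) (nat_lit 5) (nat_lit 401) (nat_lit 400) (nat_lit 339)) (XT.lf (nat_lit 76) (nat_lit 4640263162) (nat_lit 0) (nat_lit 1521264070) (nat_lit 1140) (nat_lit 1139502103) (nat_lit 533) (nat_lit 5) (nat_lit 532) (nat_lit 3) (nat_lit 547) (nat_lit 5) (nat_lit 402) (nat_lit 400) (nat_lit 338))) (XT.nd (nat_lit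 78) (nat_lit 0) (nat_lit 0) (XT.lf (nat_lit 0) (nat_lit 407296636) (nat_lit 1140) (nat_lit 6575127539) (nat_lit 1216) (nat_lit 360865940) (nat_lit 518) (nat_lit 5) (nat_lit 533) (nat_lit 5) (nat_lit 534) (nat_lit 5) (nat_lit 403) (nat_lit 400) (nat_lit 337)) (XT.lf (nat_lit 0) (nat_lit 1958248799) (nat_lit 1140) (nat_lit 3124082315) (nat_lit 1216) (nat_lit 2304183360) (nat_lit 518) (nat_lit 5) (nat_lit 533) (nat_lit 5) (nat_lit 534) (nat_lit 5) (nat_lit 404) (nat_lit 400) (nat_lit 336))))) (XT.nd (nat_lit 234) (nat_lit 1140) (nat_lit 0) (XT.nd (nat_lit 78) (nat_lit 0) (nat_lit 0) (XT.lf (nat_lit 76) (nat_lit 379349856) (nat_lit 0) (nat_lit 3124522488) (nat_lit 1216) (nat_lit 3927495689) (nat_lit 519) (nat_lit 5) (nat_lit 518) (nat_lit 5) (nat_lit 534) (nat_lit 5) (nat_lit 405) (nat_lit 400) (nat_lit 335)) (XT.nd (nat_lit 78) (nat_lit 0) (nat_lit 76) (XT.lf (nat_lit 76) (nat_lit 3973731398) (nat_lit 0) (nat_lit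 1089452162) (nat_lit 1216) (nat_lit 2414316619) (nat_lit 519) (nat_lit 5) (nat_lit 518) (nat_lit 5) (nat_lit 534) (nat_lit 5) (nat_lit 406) (nat_lit 400) (nat_lit 334)) (XT.lf (nat_lit 76) (nat_lit 88261678) (nat_lit 0) (nat_lit 6535062427) (nat_lit 1216) (nat_lit 901874295) (nat_lit 520) (nat_lit 5) (nat_lit 519) (nat_lit 5) (nat_lit 535) (nat_lit 5) (nat_lit 407) (nat_lit 400) (nat_lit 333)))) (XT.nd (nat_lit 156) (nat_lit 0) (nat_lit 0) (XT.nd (nat_lit 78) (nat_lit 0) (nat_lit 0) (XT.lf (nat_lit 0) (nat_lit 626273503) (nat_lit 1216) (nat_lit 3807604525) (nat_lit 1292) (nat_lit 3140047009) (nat_lit 503) (nat_lit 5) (nat_lit 519) (nat_lit 5) (nat_lit 520) (nat_lit 5) (nat_lit 408) (nat_lit 400) (nat_lit 332)) (XT.lf (nat_lit 0) (nat_lit 2136623665) (nat_lit 1216) (nat_lit 133540916) (nat_lit 1292) (nat_lit 5354102287) (nat_lit 503) (nat_lit 5) (nat_lit 519) (nat_lit 5) (nat_lit 520) (nat_lit 5) (nat_lit 409)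 (nat_lit 400) (nat_lit 331))) (XT.nd (nat_lit 78) (nat_lit 0) (nat_lit 76) (XT.lf (nat_lit 76) (nat_lit 3640293586) (nat_lit 0) (nat_lit 24938343) (nat_lit 1292) (nat_lit 4010656115) (nat_lit 504) (nat_lit 5) (nat_lit 503) (nat_lit 5) (nat_lit 520) (nat_lit 5) (nat_lit 410) (nat_lit 400) (nat_lit 330)) (XT.lf (nat_lit 0) (nat_lit 5205085835) (nat_lit 1216) (nat_lit 273956567) (nat_lit 1292) (nat_lit 2249918643) (nat_lit 504) (nat_lit 5) (nat_lit 520) (nat_lit 5) (nat_lit 521) (nat_lit 5) (nat_lit 411) (nat_lit 400) (nat_lit 329)))))) (XT.nd (nat_lit 546) (nat_lit 2736) (nat_lit 0) (XT.nd (nat_lit 234) (nat_lit 1216) (nat_lit 0) (XT.nd (nat_lit 78) (nat_lit 1292) (nat_lit 0) (XT.lf (nat_lit 76) (nat_lit 3588106868) (nat_lit 0) (nat_lit 3176840772) (nat_lit 1292) (nat_lit 1018395878) (nat_lit 505) (nat_lit 5) (nat_lit 504) (nat_lit 5) (nat_lit 521) (nat_lit 5) (nat_lit 412) (nat_lit 400) (nat_lit 328)) (XT.nd (nat_lit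 78) (nat_lit 0) (nat_lit 76) (XT.lf (nat_lit 0) (nat_lit 478286950) (nat_lit 1292) (nat_lit 333062307) (nat_lit 1368) (nat_lit 7028070659) (nat_lit 487) (nat_lit 5) (nat_lit 504) (nat_lit 5) (nat_lit 505) (nat_lit 5) (nat_lit 413) (nat_lit 400) (nat_lit 327)) (XT.lf (nat_lit 0) (nat_lit 1992186129) (nat_lit 1292) (nat_lit 4281830194) (nat_lit 1368) (nat_lit 1622478877) (nat_lit 488) (nat_lit 5) (nat_lit 505) (nat_lit 5) (nat_lit 506) (nat_lit 5) (nat_lit 414) (nat_lit 400) (nat_lit 326)))) (XT.nd (nat_lit 156) (nat_lit 1292) (nat_lit 0) (XT.nd (nat_lit 78) (nat_lit 0) (nat_lit 0) (XT.lf (nat_lit 0) (nat_lit 3511266123) (nat_lit 1292) (nat_lit 336418945) (nat_lit 1368) (nat_lit 4107558639) (nat_lit 488) (nat_lit 5) (nat_lit 505) (nat_lit 5) (nat_lit 506) (nat_lit 5) (nat_lit 415) (nat_lit 400) (nat_lit 325)) (XT.lf (nat_lit 76) (nat_lit 3714831711) (nat_lit 0) (nat_lit 1337936562) (nat_lit 1368) (nat_lit 2962587289)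 (nat_lit 489) (nat_lit 5) (nat_lit 488) (nat_lit 5) (nat_lit 506) (nat_lit 5) (nat_lit 416) (nat_lit 400) (nat_lit 324))) (XT.nd (nat_lit 78) (nat_lit 1368) (nat_lit 0) (XT.lf (nat_lit 0) (nat_lit 6603781462) (nat_lit 1292) (nat_lit 255277040) (nat_lit 1368) (nat_lit 1218066148) (nat_lit 489) (nat_lit 5) (nat_lit 506) (nat_lit 5) (nat_lit 507) (nat_lit 5) (nat_lit 417) (nat_lit 400) (nat_lit 323)) (XT.lf (nat_lit 0) (nat_lit 48297000) (nat_lit 1368) (nat_lit 4249296208) (nat_lit 1444) (nat_lit 3842493279) (nat_lit 471) (nat_lit 5) (nat_lit 489) (nat_lit 5) (nat_lit 490) (nat_lit 5) (nat_lit 418) (nat_lit 400) (nat_lit 322))))) (XT.nd (nat_lit 234) (nat_lit 2736) (nat_lit 0) (XT.nd (nat_lit 78) (nat_lit 0) (nat_lit 76) (XT.lf (nat_lit 0) (nat_lit 1551713135) (nat_lit 1368) (nat_lit 113025360) (nat_lit 1444) (nat_lit 6539979832) (nat_lit 471) (nat_lit 5) (nat_lit 489) (nat_lit 5) (nat_lit 490) (nat_lit 5) (nat_lit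 419) (nat_lit 400) (nat_lit 321)) (XT.nd (nat_lit 78) (nat_lit 0) (nat_lit 0) (XT.lf (nat_lit 0) (nat_lit 3088856267) (nat_lit 1368) (nat_lit 4139131985) (nat_lit 1444) (nat_lit 1042607815) (nat_lit 472) (nat_lit 5) (nat_lit 490) (nat_lit 5) (nat_lit 491) (nat_lit 5) (nat_lit 420) (nat_lit 400) (nat_lit 320)) (XT.lf (nat_lit 76) (nat_lit 92468337) (nat_lit 0) (nat_lit 4547093196) (nat_lit 1444) (nat_lit 3698599364) (nat_lit 473) (nat_lit 5) (nat_lit 472) (nat_lit 5) (nat_lit 491) (nat_lit 5) (nat_lit 421) (nat_lit 400) (nat_lit 319)))) (XT.nd (nat_lit 156) (nat_lit 1520) (nat_lit 0) (XT.nd (nat_lit 78) (nat_lit 1292) (nat_lit 0) (XT.lf (nat_lit 76) (nat_lit 4442640660) (nat_lit 0) (nat_lit 1777282530) (nat_lit 1444) (nat_lit 2187206399) (nat_lit 473) (nat_lit 5) (nat_lit 472) (nat_lit 5) (nat_lit 491) (nat_lit 5) (nat_lit 422) (nat_lit 400) (nat_lit 318)) (XT.lf (nat_lit 0) (nat_lit 378121200) (nat_lit 1368)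 (nat_lit 7434511835) (nat_lit 1444) (nat_lit 665254714) (nat_lit 455) (nat_lit 5) (nat_lit 473) (nat_lit 5) (nat_lit 474) (nat_lit 5) (nat_lit 423) (nat_lit 400) (nat_lit 317))) (XT.nd (nat_lit 78) (nat_lit 1444) (nat_lit 0) (XT.lf (nat_lit 0) (nat_lit 885737904) (nat_lit 1444) (nat_lit 3728537820) (nat_lit 76) (nat_lit 3935489358) (nat_lit 454) (nat_lit 5) (nat_lit 473) (nat_lit 5) (nat_lit 455) (nat_lit 5) (nat_lit 424) (nat_lit 400) (nat_lit 316)) (XT.lf (nat_lit 0) (nat_lit 712877072) (nat_lit 1444) (nat_lit 1722844274) (nat_lit 1520) (nat_lit 6187756572) (nat_lit 435) (nat_lit 5) (nat_lit 454) (nat_lit 5) (nat_lit 455) (nat_lit 5) (nat_lit 425) (nat_lit 400) (nat_lit 315))))))))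
noncomputable def xc151 : XT := (XT.nd (nat_lit 2184) (nat_lit 8588) (nat_lit 0) (XT.nd (nat_lit 1092) (nat_lit 5396) (nat_lit 0) (XT.nd (nat_lit 546) (nat_lit 3876) (nat_lit 0) (XT.nd (nat_lit 234) (nat_lit 3344) (nat_lit 0) (XT.nd (nat_lit 78) (nat_lit 1520) (nat_lit 0) (XT.lf (nat_lit 0) (nat_lit 4022530993) (nat_lit 1520) (nat_lit 3435272451) (nat_lit 76) (nat_lit 1240768051) (nat_lit 435) (nat_lit 5) (nat_lit 455) (nat_lit 5) (nat_lit 436) (nat_lit 5) (nat_lit 426) (nat_lit 400) (nat_lit 314)) (XT.nd (nat_lit 78) (nat_lit 0) (nat_lit 0) (XT.lf (nat_lit 0) (nat_lit 1110520542) (nat_lit 1520) (nat_lit 4522389503) (nat_lit 1596) (nat_lit 3142442798) (nat_lit 415) (nat_lit 5) (nat_lit 435) (nat_lit 5) (nat_lit 436) (nat_lit 5) (nat_lit 427) (nat_lit 400) (nat_lit 313)) (XT.lf (nat_lit 0) (nat_lit 5771744372) (nat_lit 1520) (nat_lit 1500400263) (nat_lit 1596) (nat_lit 1581614347) (nat_lit 415) (nat_lit 5) (nat_lit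 435) (nat_lit 5) (nat_lit 436) (nat_lit 5) (nat_lit 428) (nat_lit 400) (nat_lit 312)))) (XT.nd (nat_lit 156) (nat_lit 1672) (nat_lit 0) (XT.nd (nat_lit 78) (nat_lit 0) (nat_lit 0) (XT.lf (nat_lit 0) (nat_lit 4912876) (nat_lit 1672) (nat_lit 7353160090) (nat_lit 76) (nat_lit 1575787805) (nat_lit 393) (nat_lit 5) (nat_lit 415) (nat_lit 5) (nat_lit 394) (nat_lit 5) (nat_lit 429) (nat_lit 400) (nat_lit 311)) (XT.lf (nat_lit 0) (nat_lit 1607082992) (nat_lit 1672) (nat_lit 2679652853) (nat_lit 76) (nat_lit 4728538706) (nat_lit 393) (nat_lit 5) (nat_lit 415) (nat_lit 5) (nat_lit 394) (nat_lit 5) (nat_lit 430) (nat_lit 400) (nat_lit 310))) (XT.nd (nat_lit 78) (nat_lit 0) (nat_lit 0) (XT.lf (nat_lit 0) (nat_lit 2092809319) (nat_lit 1672) (nat_lit 1136893759) (nat_lit 1748) (nat_lit 5868865834) (nat_lit 371) (nat_lit 5) (nat_lit 393) (nat_lit 5) (nat_lit 394) (nat_lit 5) (nat_lit 431) (nat_lit 400) (nat_lit 309)) (XT.lf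 (nat_lit 0) (nat_lit 4891545248) (nat_lit 1748) (nat_lit 2222077344) (nat_lit 76) (nat_lit 2069791210) (nat_lit 371) (nat_lit 5) (nat_lit 394) (nat_lit 5) (nat_lit 372) (nat_lit 5) (nat_lit 432) (nat_lit 400) (nat_lit 308))))) (XT.nd (nat_lit 234) (nat_lit 1672) (nat_lit 0) (XT.nd (nat_lit 78) (nat_lit 912) (nat_lit 0) (XT.lf (nat_lit 0) (nat_lit 2662755837) (nat_lit 1292) (nat_lit 3924362667) (nat_lit 1368) (nat_lit 2682846846) (nat_lit 354) (nat_lit 5) (nat_lit 371) (nat_lit 5) (nat_lit 372) (nat_lit 5) (nat_lit 433) (nat_lit 400) (nat_lit 307)) (XT.nd (nat_lit 78) (nat_lit 912) (nat_lit 0) (XT.lf (nat_lit 0) (nat_lit 7653634575) (nat_lit 1292) (nat_lit 653892295) (nat_lit 1368) (nat_lit 1050921844) (nat_lit 354) (nat_lit 5) (nat_lit 371) (nat_lit 5) (nat_lit 372) (nat_lit 5) (nat_lit 434) (nat_lit 400) (nat_lit 306)) (XT.lf (nat_lit 0) (nat_lit 621010048) (nat_lit 912) (nat_lit 6152856619) (nat_lit 76) (nat_lit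 2674465577) (nat_lit 342) (nat_lit 5) (nat_lit 354) (nat_lit 5) (nat_lit 343) (nat_lit 5) (nat_lit 435) (nat_lit 400) (nat_lit 305)))) (XT.nd (nat_lit 156) (nat_lit 836) (nat_lit 0) (XT.nd (nat_lit 78) (nat_lit 836) (nat_lit 0) (XT.lf (nat_lit 0) (nat_lit 2304813178) (nat_lit 912) (nat_lit 1154303339) (nat_lit 76) (nat_lit 6080926054) (nat_lit 342) (nat_lit 5) (nat_lit 354) (nat_lit 5) (nat_lit 343) (nat_lit 5) (nat_lit 436) (nat_lit 400) (nat_lit 304)) (XT.lf (nat_lit 0) (nat_lit 3974749415) (nat_lit 836) (nat_lit 50452521) (nat_lit 912) (nat_lit 5608344771) (nat_lit 331) (nat_lit 5) (nat_lit 342) (nat_lit 5) (nat_lit 343) (nat_lit 5) (nat_lit 437) (nat_lit 400) (nat_lit 303))) (XT.nd (nat_lit 78) (nat_lit 836) (nat_lit 0) (XT.lf (nat_lit 0) (nat_lit 5787461933) (nat_lit 912) (nat_lit 550969105) (nat_lit 76) (nat_lit 3390358060) (nat_lit 331) (nat_lit 5) (nat_lit 343) (nat_lit 5) (nat_lit 332) (nat_lit 5) (nat_lit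 438) (nat_lit 400) (nat_lit 302)) (XT.lf (nat_lit 0) (nat_lit 4698801710) (nat_lit 836) (nat_lit 2894869848) (nat_lit 912) (nat_lit 2232107792) (nat_lit 320) (nat_lit 5) (nat_lit 331) (nat_lit 5) (nat_lit 332) (nat_lit 5) (nat_lit 439) (nat_lit 400) (nat_lit 301)))))) (XT.nd (nat_lit 546) (nat_lit 2204) (nat_lit 0) (XT.nd (nat_lit 234) (nat_lit 1520) (nat_lit 0) (XT.nd (nat_lit 78) (nat_lit 836) (nat_lit 0) (XT.lf (nat_lit 0) (nat_lit 112015331) (nat_lit 836) (nat_lit 9310609758) (nat_lit 912) (nat_lit 502368690) (nat_lit 309) (nat_lit 5) (nat_lit 320) (nat_lit 5) (nat_lit 321) (nat_lit 5) (nat_lit 440) (nat_lit 400) (nat_lit 300)) (XT.nd (nat_lit 78) (nat_lit 760) (nat_lit 0) (XT.lf (nat_lit 0) (nat_lit 1277507739) (nat_lit 912) (nat_lit 4549793140) (nat_lit 76) (nat_lit 4198101993) (nat_lit 308) (nat_lit 5) (nat_lit 320) (nat_lit 5) (nat_lit 309) (nat_lit 5) (nat_lit 441) (nat_lit 400) (nat_lit 299)) (XT.lf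 (nat_lit 0) (nat_lit 804327091) (nat_lit 760) (nat_lit 2265871654) (nat_lit 836) (nat_lit 7057891911) (nat_lit 298) (nat_lit 5) (nat_lit 308) (nat_lit 5) (nat_lit 309) (nat_lit 5) (nat_lit 442) (nat_lit 400) (nat_lit 298)))) (XT.nd (nat_lit 156) (nat_lit 760) (nat_lit 0) (XT.nd (nat_lit 78) (nat_lit 760) (nat_lit 0) (XT.lf (nat_lit 0) (nat_lit 4917342343) (nat_lit 836) (nat_lit 3935936429) (nat_lit 76) (nat_lit 1379196938) (nat_lit 298) (nat_lit 5) (nat_lit 309) (nat_lit 5) (nat_lit 299) (nat_lit 5) (nat_lit 443) (nat_lit 400) (nat_lit 297)) (XT.lf (nat_lit 0) (nat_lit 1543470691) (nat_lit 760) (nat_lit 5262388056) (nat_lit 836) (nat_lit 3533016304) (nat_lit 288) (nat_lit 5) (nat_lit 298) (nat_lit 5) (nat_lit 299) (nat_lit 5) (nat_lit 444) (nat_lit 400) (nat_lit 296))) (XT.nd (nat_lit 78) (nat_lit 760) (nat_lit 0) (XT.lf (nat_lit 0) (nat_lit 7164545806) (nat_lit 760) (nat_lit 1573680553) (nat_lit 836) (nat_lit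 1709069290) (nat_lit 288) (nat_lit 5) (nat_lit 298) (nat_lit 5) (nat_lit 299) (nat_lit 5) (nat_lit 445) (nat_lit 400) (nat_lit 295)) (XT.lf (nat_lit 0) (nat_lit 158854547) (nat_lit 760) (nat_lit 8223443951) (nat_lit 76) (nat_lit 2175391157) (nat_lit 278) (nat_lit 5) (nat_lit 288) (nat_lit 5) (nat_lit 279) (nat_lit 5) (nat_lit 446) (nat_lit 400) (nat_lit 294))))) (XT.nd (nat_lit 234) (nat_lit 1444) (nat_lit 0) (XT.nd (nat_lit 78) (nat_lit 760) (nat_lit 0) (XT.lf (nat_lit 0) (nat_lit 2054041068) (nat_lit 760) (nat_lit 2605057818) (nat_lit 76) (nat_lit 6010724972) (nat_lit 278) (nat_lit 5) (nat_lit 288) (nat_lit 5) (nat_lit 279) (nat_lit 5) (nat_lit 447) (nat_lit 400) (nat_lit 293)) (XT.nd (nat_lit 78) (nat_lit 0) (nat_lit 0) (XT.lf (nat_lit 0) (nat_lit 3145975078) (nat_lit 760) (nat_lit 842141467) (nat_lit 836) (nat_lit 6796078250) (nat_lit 268) (nat_lit 5) (nat_lit 278) (nat_lit 5) (nat_lit 279) (nat_lit 5) (nat_lit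 448) (nat_lit 400) (nat_lit 292)) (XT.lf (nat_lit 0) (nat_lit 5979075363) (nat_lit 836) (nat_lit 1894318171) (nat_lit 76) (nat_lit 3027109063) (nat_lit 268) (nat_lit 5) (nat_lit 279) (nat_lit 5) (nat_lit 269) (nat_lit 5) (nat_lit 449) (nat_lit 400) (nat_lit 291)))) (XT.nd (nat_lit 156) (nat_lit 760) (nat_lit 0) (XT.nd (nat_lit 78) (nat_lit 0) (nat_lit 0) (XT.lf (nat_lit 0) (nat_lit 3990405837) (nat_lit 684) (nat_lit 4032104182) (nat_lit 760) (nat_lit 2996386624) (nat_lit 259) (nat_lit 5) (nat_lit 268) (nat_lit 5) (nat_lit 269) (nat_lit 5) (nat_lit 450) (nat_lit 400) (nat_lit 290)) (XT.lf (nat_lit 0) (nat_lit 9997825875) (nat_lit 684) (nat_lit 103105517) (nat_lit 760) (nat_lit 1038857777) (nat_lit 259) (nat_lit 5) (nat_lit 268) (nat_lit 5) (nat_lit 269) (nat_lit 5) (nat_lit 451) (nat_lit 400) (nat_lit 289))) (XT.nd (nat_lit 78) (nat_lit 0) (nat_lit 0) (XT.lf (nat_lit 0) (nat_lit 984298173) (nat_lit 760) (nat_lit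 6388496509) (nat_lit 76) (nat_lit 3889412173) (nat_lit 249) (nat_lit 5) (nat_lit 259) (nat_lit 5) (nat_lit 250) (nat_lit 5) (nat_lit 452) (nat_lit 400) (nat_lit 288)) (XT.lf (nat_lit 0) (nat_lit 3024267147) (nat_lit 760) (nat_lit 390108681) (nat_lit 76) (nat_lit 7972766740) (nat_lit 249) (nat_lit 5) (nat_lit 259) (nat_lit 5) (nat_lit 250) (nat_lit 5) (nat_lit 453) (nat_lit 400) (nat_lit 287))))))) (XT.nd (nat_lit 1092) (nat_lit 3876) (nat_lit 0) (XT.nd (nat_lit 546) (nat_lit 2204) (nat_lit 0) (XT.nd (nat_lit 234) (nat_lit 1292) (nat_lit 0) (XT.nd (nat_lit 78) (nat_lit 608) (nat_lit 0) (XT.lf (nat_lit 0) (nat_lit 5129072238) (nat_lit 684) (nat_lit 5734716103) (nat_lit 76) (nat_lit 650319891) (nat_lit 241) (nat_lit 5) (nat_lit 250) (nat_lit 5) (nat_lit 242) (nat_lit 5) (nat_lit 454) (nat_lit 400) (nat_lit 286)) (XT.nd (nat_lit 78) (nat_lit 0) (nat_lit 0) (XT.lf (nat_lit 0) (nat_lit 396016786) (nat_lit 608) (nat_lit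 6890181670) (nat_lit 684) (nat_lit 4357221994) (nat_lit 233) (nat_lit 5) (nat_lit 241) (nat_lit 5) (nat_lit 242) (nat_lit 5) (nat_lit 455) (nat_lit 400) (nat_lit 285)) (XT.lf (nat_lit 0) (nat_lit 6706677094) (nat_lit 608) (nat_lit 2800892322) (nat_lit 684) (nat_lit 2267338960) (nat_lit 233) (nat_lit 5) (nat_lit 241) (nat_lit 5) (nat_lit 242) (nat_lit 5) (nat_lit 456) (nat_lit 400) (nat_lit 284)))) (XT.nd (nat_lit 156) (nat_lit 608) (nat_lit 0) (XT.nd (nat_lit 78) (nat_lit 76) (nat_lit 0) (XT.lf (nat_lit 0) (nat_lit 1221290764) (nat_lit 608) (nat_lit 10551843284) (nat_lit 684) (nat_lit 135907969) (nat_lit 225) (nat_lit 5) (nat_lit 233) (nat_lit 5) (nat_lit 234) (nat_lit 5) (nat_lit 457) (nat_lit 400) (nat_lit 283)) (XT.lf (nat_lit 0) (nat_lit 2047226956) (nat_lit 684) (nat_lit 4392338548) (nat_lit 76) (nat_lit 5605322891) (nat_lit 224) (nat_lit 5) (nat_lit 233) (nat_lit 5) (nat_lit 225) (nat_lit 5) (nat_lit 458)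 (nat_lit 400) (nat_lit 282))) (XT.nd (nat_lit 78) (nat_lit 0) (nat_lit 0) (XT.lf (nat_lit 0) (nat_lit 2034711432) (nat_lit 608) (nat_lit 2234060000) (nat_lit 684) (nat_lit 7914741599) (nat_lit 216) (nat_lit 5) (nat_lit 224) (nat_lit 5) (nat_lit 225) (nat_lit 5) (nat_lit 459) (nat_lit 400) (nat_lit 281)) (XT.lf (nat_lit 0) (nat_lit 6561291651) (nat_lit 684) (nat_lit 3708261586) (nat_lit 76) (nat_lit 2054836450) (nat_lit 216) (nat_lit 5) (nat_lit 225) (nat_lit 5) (nat_lit 217) (nat_lit 5) (nat_lit 460) (nat_lit 400) (nat_lit 280))))) (XT.nd (nat_lit 234) (nat_lit 1064) (nat_lit 0) (XT.nd (nat_lit 78) (nat_lit 608) (nat_lit 0) (XT.lf (nat_lit 0) (nat_lit 2864011634) (nat_lit 532) (nat_lit 6052892488) (nat_lit 608) (nat_lit 3550845137) (nat_lit 209) (nat_lit 5) (nat_lit 216) (nat_lit 5) (nat_lit 217) (nat_lit 5) (nat_lit 461) (nat_lit 400) (nat_lit 279)) (XT.nd (nat_lit 78) (nat_lit 608) (nat_lit 0) (XT.lf (nat_lit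 0) (nat_lit 9598282815) (nat_lit 532) (nat_lit 1730270738) (nat_lit 608) (nat_lit 1285253993) (nat_lit 209) (nat_lit 5) (nat_lit 216) (nat_lit 5) (nat_lit 217) (nat_lit 5) (nat_lit 462) (nat_lit 400) (nat_lit 278)) (XT.lf (nat_lit 0) (nat_lit 1038208681) (nat_lit 608) (nat_lit 9052938313) (nat_lit 76) (nat_lit 2670996227) (nat_lit 201) (nat_lit 5) (nat_lit 209) (nat_lit 5) (nat_lit 202) (nat_lit 5) (nat_lit 463) (nat_lit 400) (nat_lit 277)))) (XT.nd (nat_lit 156) (nat_lit 532) (nat_lit 0) (XT.nd (nat_lit 78) (nat_lit 532) (nat_lit 0) (XT.lf (nat_lit 0) (nat_lit 3407173615) (nat_lit 608) (nat_lit 2343553835) (nat_lit 76) (nat_lit 7162232837) (nat_lit 201) (nat_lit 5) (nat_lit 209) (nat_lit 5) (nat_lit 202) (nat_lit 5) (nat_lit 464) (nat_lit 400) (nat_lit 276)) (XT.lf (nat_lit 0) (nat_lit 4540236964) (nat_lit 532) (nat_lit 1297462990) (nat_lit 608) (nat_lit 7228819355) (nat_lit 194) (nat_lit 5) (nat_lit 201) (nat_lit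 5) (nat_lit 202) (nat_lit 5) (nat_lit 465) (nat_lit 400) (nat_lit 275))) (XT.nd (nat_lit 78) (nat_lit 532) (nat_lit 0) (XT.lf (nat_lit 0) (nat_lit 8338587930) (nat_lit 608) (nat_lit 1670021134) (nat_lit 76) (nat_lit 3214114499) (nat_lit 194) (nat_lit 5) (nat_lit 202) (nat_lit 5) (nat_lit 195) (nat_lit 5) (nat_lit 466) (nat_lit 400) (nat_lit 274)) (XT.lf (nat_lit 0) (nat_lit 5366046312) (nat_lit 532) (nat_lit 5552029415) (nat_lit 608) (nat_lit 2463413430) (nat_lit 187) (nat_lit 5) (nat_lit 194) (nat_lit 5) (nat_lit 195) (nat_lit 5) (nat_lit 467) (nat_lit 400) (nat_lit 273)))))) (XT.nd (nat_lit 546) (nat_lit 1824) (nat_lit 0) (XT.nd (nat_lit 234) (nat_lit 1520) (nat_lit 0) (XT.nd (nat_lit 78) (nat_lit 456) (nat_lit 0) (XT.lf (nat_lit 0) (nat_lit 2140880) (nat_lit 608) (nat_lit 997027202) (nat_lit 76) (nat_lit 12544339936) (nat_lit 186) (nat_lit 5) (nat_lit 194) (nat_lit 5) (nat_lit 187) (nat_lit 5) (nat_lit 468)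 (nat_lit 400) (nat_lit 272)) (XT.nd (nat_lit 78) (nat_lit 0) (nat_lit 0) (XT.lf (nat_lit 0) (nat_lit 2533871712) (nat_lit 532) (nat_lit 7523888246) (nat_lit 76) (nat_lit 3649693005) (nat_lit 180) (nat_lit 5) (nat_lit 187) (nat_lit 5) (nat_lit 181) (nat_lit 5) (nat_lit 469) (nat_lit 400) (nat_lit 271)) (XT.lf (nat_lit 0) (nat_lit 5115225559) (nat_lit 532) (nat_lit 378870293) (nat_lit 76) (nat_lit 8380609407) (nat_lit 180) (nat_lit 5) (nat_lit 187) (nat_lit 5) (nat_lit 181) (nat_lit 5) (nat_lit 470) (nat_lit 400) (nat_lit 270)))) (XT.nd (nat_lit 156) (nat_lit 532) (nat_lit 0) (XT.nd (nat_lit 78) (nat_lit 456) (nat_lit 0) (XT.lf (nat_lit 0) (nat_lit 6982040874) (nat_lit 532) (nat_lit 797415789) (nat_lit 608) (nat_lit 6265228992) (nat_lit 173) (nat_lit 5) (nat_lit 180) (nat_lit 5) (nat_lit 181) (nat_lit 5) (nat_lit 471) (nat_lit 400) (nat_lit 269)) (XT.lf (nat_lit 0) (nat_lit 235726771) (nat_lit 456) (nat_lit 10277306878)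 (nat_lit 532) (nat_lit 3704718685) (nat_lit 167) (nat_lit 5) (nat_lit 173) (nat_lit 5) (nat_lit 174) (nat_lit 5) (nat_lit 472) (nat_lit 400) (nat_lit 268))) (XT.nd (nat_lit 78) (nat_lit 532) (nat_lit 0) (XT.lf (nat_lit 0) (nat_lit 7751861153) (nat_lit 456) (nat_lit 5588259190) (nat_lit 532) (nat_lit 1053390985) (nat_lit 167) (nat_lit 5) (nat_lit 173) (nat_lit 5) (nat_lit 174) (nat_lit 5) (nat_lit 473) (nat_lit 400) (nat_lit 267)) (XT.lf (nat_lit 0) (nat_lit 827249505) (nat_lit 456) (nat_lit 793803608) (nat_lit 532) (nat_lit 12951690599) (nat_lit 160) (nat_lit 5) (nat_lit 166) (nat_lit 5) (nat_lit 167) (nat_lit 5) (nat_lit 474) (nat_lit 400) (nat_lit 266))))) (XT.nd (nat_lit 312) (nat_lit 912) (nat_lit 0) (XT.nd (nat_lit 156) (nat_lit 456) (nat_lit 0) (XT.nd (nat_lit 78) (nat_lit 456) (nat_lit 0) (XT.lf (nat_lit 0) (nat_lit 4392844650) (nat_lit 532) (nat_lit 6271519692) (nat_lit 76) (nat_lit 4089905173) (nat_lit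 160) (nat_lit 5) (nat_lit 167) (nat_lit 5) (nat_lit 161) (nat_lit 5) (nat_lit 475) (nat_lit 400) (nat_lit 265)) (XT.lf (nat_lit 0) (nat_lit 1346157825) (nat_lit 456) (nat_lit 5874664932) (nat_lit 532) (nat_lit 7718595217) (nat_lit 154) (nat_lit 5) (nat_lit 160) (nat_lit 5) (nat_lit 161) (nat_lit 5) (nat_lit 476) (nat_lit 400) (nat_lit 264))) (XT.nd (nat_lit 78) (nat_lit 456) (nat_lit 0) (XT.lf (nat_lit 0) (nat_lit 9183145952) (nat_lit 456) (nat_lit 951195795) (nat_lit 532) (nat_lit 4993355043) (nat_lit 154) (nat_lit 5) (nat_lit 160) (nat_lit 5) (nat_lit 161) (nat_lit 5) (nat_lit 477) (nat_lit 400) (nat_lit 263)) (XT.lf (nat_lit 0) (nat_lit 1836860124) (nat_lit 456) (nat_lit 11294748614) (nat_lit 532) (nat_lit 2187629770) (nat_lit 148) (nat_lit 5) (nat_lit 154) (nat_lit 5) (nat_lit 155) (nat_lit 5) (nat_lit 478) (nat_lit 400) (nat_lit 262)))) (XT.nd (nat_lit 156) (nat_lit 456) (nat_lit 0) (XT.nd (nat_lit 78) (nat_lit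 380) (nat_lit 0) (XT.lf (nat_lit 0) (nat_lit 698989535) (nat_lit 532) (nat_lit 5688267377) (nat_lit 76) (nat_lit 9126600772) (nat_lit 147) (nat_lit 5) (nat_lit 154) (nat_lit 5) (nat_lit 148) (nat_lit 5) (nat_lit 479) (nat_lit 400) (nat_lit 261)) (XT.lf (nat_lit 0) (nat_lit 2259228732) (nat_lit 380) (nat_lit 1356934904) (nat_lit 456) (nat_lit 12095880588) (nat_lit 142) (nat_lit 5) (nat_lit 147) (nat_lit 5) (nat_lit 148) (nat_lit 5) (nat_lit 480) (nat_lit 400) (nat_lit 260))) (XT.nd (nat_lit 78) (nat_lit 456) (nat_lit 0) (XT.lf (nat_lit 0) (nat_lit 6642127485) (nat_lit 456) (nat_lit 5513152409) (nat_lit 76) (nat_lit 3757912029) (nat_lit 142) (nat_lit 5) (nat_lit 148) (nat_lit 5) (nat_lit 143) (nat_lit 5) (nat_lit 481) (nat_lit 400) (nat_lit 259)) (XT.lf (nat_lit 0) (nat_lit 2592926261) (nat_lit 456) (nat_lit 7149269334) (nat_lit 532) (nat_lit 6375901510) (nat_lit 136) (nat_lit 5) (nat_lit 142) (nat_lit 5) (nat_lit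 143) (nat_lit 5) (nat_lit 482) (nat_lit 400) (nat_lit 258))))))))
noncomputable def xc152 : XT := (XT.nd (nat_lit 2184) (nat_lit 1900) (nat_lit 0) (XT.nd (nat_lit 1092) (nat_lit 1824) (nat_lit 0) (XT.nd (nat_lit 546) (nat_lit 1520) (nat_lit 0) (XT.nd (nat_lit 234) (nat_lit 684) (nat_lit 0) (XT.nd (nat_lit 78) (nat_lit 456) (nat_lit 0) (XT.lf (nat_lit 0) (nat_lit 10918575153) (nat_lit 456) (nat_lit 2010577444) (nat_lit 532) (nat_lit 3397456149) (nat_lit 136) (nat_lit 5) (nat_lit 142) (nat_lit 5) (nat_lit 143) (nat_lit 5) (nat_lit 483) (nat_lit 400) (nat_lit 257)) (XT.nd (nat_lit 78) (nat_lit 76) (nat_lit 0) (XT.lf (nat_lit 0) (nat_lit 2870967424) (nat_lit 380) (nat_lit 13336594469) (nat_lit 456) (nat_lit 331180451) (nat_lit 131) (nat_lit 5) (nat_lit 136) (nat_lit 5) (nat_lit 137) (nat_lit 5) (nat_lit 484) (nat_lit 400) (nat_lit 256)) (XT.lf (nat_lit 0) (nat_lit 2797726177) (nat_lit 456) (nat_lit 5414454390) (nat_lit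 76) (nat_lit 8541821059) (nat_lit 130) (nat_lit 5) (nat_lit 136) (nat_lit 5) (nat_lit 131) (nat_lit 5) (nat_lit 485) (nat_lit 400) (nat_lit 255)))) (XT.nd (nat_lit 156) (nat_lit 304) (nat_lit 0) (XT.nd (nat_lit 78) (nat_lit 0) (nat_lit 0) (XT.lf (nat_lit 0) (nat_lit 3024538299) (nat_lit 380) (nat_lit 2968247047) (nat_lit 456) (nat_lit 10980582428) (nat_lit 125) (nat_lit 5) (nat_lit 130) (nat_lit 5) (nat_lit 131) (nat_lit 5) (nat_lit 486) (nat_lit 400) (nat_lit 254)) (XT.lf (nat_lit 0) (nat_lit 9292229067) (nat_lit 456) (nat_lit 5523345340) (nat_lit 76) (nat_lit 2380742701) (nat_lit 125) (nat_lit 5) (nat_lit 131) (nat_lit 5) (nat_lit 126) (nat_lit 5) (nat_lit 487) (nat_lit 400) (nat_lit 253))) (XT.nd (nat_lit 78) (nat_lit 0) (nat_lit 0) (XT.lf (nat_lit 0) (nat_lit 3074689713) (nat_lit 304) (nat_lit 9611271257) (nat_lit 380) (nat_lit 4737203897) (nat_lit 121) (nat_lit 5) (nat_lit 125) (nat_lit 5) (nat_lit 126)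 (nat_lit 5) (nat_lit 488) (nat_lit 400) (nat_lit 252)) (XT.lf (nat_lit 0) (nat_lit 11903038647) (nat_lit 304) (nat_lit 4270387274) (nat_lit 380) (nat_lit 1480611807) (nat_lit 121) (nat_lit 5) (nat_lit 125) (nat_lit 5) (nat_lit 126) (nat_lit 5) (nat_lit 489) (nat_lit 400) (nat_lit 251))))) (XT.nd (nat_lit 234) (nat_lit 760) (nat_lit 0) (XT.nd (nat_lit 78) (nat_lit 304) (nat_lit 0) (XT.lf (nat_lit 0) (nat_lit 1833392236) (nat_lit 456) (nat_lit 14867076484) (nat_lit 76) (nat_lit 1188496830) (nat_lit 115) (nat_lit 5) (nat_lit 121) (nat_lit 5) (nat_lit 116) (nat_lit 5) (nat_lit 490) (nat_lit 400) (nat_lit 250)) (XT.nd (nat_lit 78) (nat_lit 304) (nat_lit 0) (XT.lf (nat_lit 0) (nat_lit 5250010907) (nat_lit 456) (nat_lit 6134398181) (nat_lit 76) (nat_lit 6742868913) (nat_lit 115) (nat_lit 5) (nat_lit 121) (nat_lit 5) (nat_lit 116) (nat_lit 5) (nat_lit 491) (nat_lit 400) (nat_lit 249)) (XT.lf (nat_lit 0) (nat_lit 2793464875)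 (nat_lit 304) (nat_lit 5948862423) (nat_lit 380) (nat_lit 9627887009) (nat_lit 111) (nat_lit 5) (nat_lit 115) (nat_lit 5) (nat_lit 116) (nat_lit 5) (nat_lit 492) (nat_lit 400) (nat_lit 248)))) (XT.nd (nat_lit 156) (nat_lit 380) (nat_lit 0) (XT.nd (nat_lit 78) (nat_lit 380) (nat_lit 0) (XT.lf (nat_lit 0) (nat_lit 11967038928) (nat_lit 304) (nat_lit 367951780) (nat_lit 380) (nat_lit 6282413432) (nat_lit 111) (nat_lit 5) (nat_lit 115) (nat_lit 5) (nat_lit 116) (nat_lit 5) (nat_lit 493) (nat_lit 400) (nat_lit 247)) (XT.lf (nat_lit 0) (nat_lit 2436059570) (nat_lit 380) (nat_lit 13603345810) (nat_lit 456) (nat_lit 2829339151) (nat_lit 106) (nat_lit 5) (nat_lit 111) (nat_lit 5) (nat_lit 112) (nat_lit 5) (nat_lit 494) (nat_lit 400) (nat_lit 246))) (XT.nd (nat_lit 78) (nat_lit 304) (nat_lit 0) (XT.lf (nat_lit 0) (nat_lit 720611009) (nat_lit 456) (nat_lit 7352994237) (nat_lit 76) (nat_lit 11050683048) (nat_lit 105) (nat_lit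 5) (nat_lit 111) (nat_lit 5) (nat_lit 106) (nat_lit 5) (nat_lit 495) (nat_lit 400) (nat_lit 245)) (XT.lf (nat_lit 0) (nat_lit 1898863810) (nat_lit 304) (nat_lit 2406921474) (nat_lit 380) (nat_lit 15078745859) (nat_lit 101) (nat_lit 5) (nat_lit 105) (nat_lit 5) (nat_lit 106) (nat_lit 5) (nat_lit 496) (nat_lit 400) (nat_lit 244)))))) (XT.nd (nat_lit 546) (nat_lit 836) (nat_lit 0) (XT.nd (nat_lit 234) (nat_lit 684) (nat_lit 0) (XT.nd (nat_lit 78) (nat_lit 304) (nat_lit 0) (XT.lf (nat_lit 0) (nat_lit 8024044355) (nat_lit 380) (nat_lit 8251451641) (nat_lit 76) (nat_lit 3373259587) (nat_lit 101) (nat_lit 5) (nat_lit 106) (nat_lit 5) (nat_lit 102) (nat_lit 5) (nat_lit 497) (nat_lit 400) (nat_lit 243)) (XT.nd (nat_lit 78) (nat_lit 0) (nat_lit 0) (XT.lf (nat_lit 0) (nat_lit 1151251191) (nat_lit 304) (nat_lit 10678843452) (nat_lit 380) (nat_lit 8087905625) (nat_lit 97) (nat_lit 5) (nat_lit 101) (nat_lit 5) (nat_lit 102)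 (nat_lit 5) (nat_lit 498) (nat_lit 400) (nat_lit 242)) (XT.lf (nat_lit 0) (nat_lit 10838603546) (nat_lit 304) (nat_lit 4919142253) (nat_lit 380) (nat_lit 4433978641) (nat_lit 97) (nat_lit 5) (nat_lit 101) (nat_lit 5) (nat_lit 102) (nat_lit 5) (nat_lit 499) (nat_lit 400) (nat_lit 241)))) (XT.nd (nat_lit 156) (nat_lit 304) (nat_lit 0) (XT.nd (nat_lit 78) (nat_lit 76) (nat_lit 0) (XT.lf (nat_lit 0) (nat_lit 230477280) (nat_lit 304) (nat_lit 19531442587) (nat_lit 380) (nat_lit 709047942) (nat_lit 93) (nat_lit 5) (nat_lit 97) (nat_lit 5) (nat_lit 98) (nat_lit 5) (nat_lit 500) (nat_lit 400) (nat_lit 240)) (XT.lf (nat_lit 0) (nat_lit 3135901172) (nat_lit 380) (nat_lit 10690220296) (nat_lit 76) (nat_lit 6927556217) (nat_lit 92) (nat_lit 5) (nat_lit 97) (nat_lit 5) (nat_lit 93) (nat_lit 5) (nat_lit 501) (nat_lit 400) (nat_lit 239))) (XT.nd (nat_lit 78) (nat_lit 304) (nat_lit 0) (XT.lf (nat_lit 0) (nat_lit 7038747898)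 (nat_lit 380) (nat_lit 968496623) (nat_lit 76) (nat_lit 13034897518) (nat_lit 92) (nat_lit 5) (nat_lit 97) (nat_lit 5) (nat_lit 93) (nat_lit 5) (nat_lit 502) (nat_lit 400) (nat_lit 238)) (XT.lf (nat_lit 0) (nat_lit 9051812692) (nat_lit 304) (nat_lit 2017279736) (nat_lit 380) (nat_lit 10266298231) (nat_lit 88) (nat_lit 5) (nat_lit 92) (nat_lit 5) (nat_lit 93) (nat_lit 5) (nat_lit 503) (nat_lit 400) (nat_lit 237))))) (XT.nd (nat_lit 234) (nat_lit 532) (nat_lit 0) (XT.nd (nat_lit 78) (nat_lit 304) (nat_lit 0) (XT.lf (nat_lit 0) (nat_lit 15203882672) (nat_lit 380) (nat_lit 2389955759) (nat_lit 76) (nat_lit 4040192767) (nat_lit 88) (nat_lit 5) (nat_lit 93) (nat_lit 5) (nat_lit 89) (nat_lit 5) (nat_lit 504) (nat_lit 400) (nat_lit 236)) (XT.nd (nat_lit 78) (nat_lit 76) (nat_lit 0) (XT.lf (nat_lit 0) (nat_lit 7775823746) (nat_lit 228) (nat_lit 11700297637) (nat_lit 304) (nat_lit 2461431760) (nat_lit 85) (nat_lit 5) (nat_lit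 88) (nat_lit 5) (nat_lit 89) (nat_lit 5) (nat_lit 505) (nat_lit 400) (nat_lit 235)) (XT.lf (nat_lit 0) (nat_lit 1572924115) (nat_lit 304) (nat_lit 4094284031) (nat_lit 76) (nat_lit 16579593374) (nat_lit 84) (nat_lit 5) (nat_lit 88) (nat_lit 5) (nat_lit 85) (nat_lit 5) (nat_lit 506) (nat_lit 400) (nat_lit 234)))) (XT.nd (nat_lit 156) (nat_lit 228) (nat_lit 0) (XT.nd (nat_lit 78) (nat_lit 0) (nat_lit 0) (XT.lf (nat_lit 0) (nat_lit 5690069977) (nat_lit 380) (nat_lit 16339006061) (nat_lit 76) (nat_lit 532135636) (nat_lit 80) (nat_lit 5) (nat_lit 85) (nat_lit 5) (nat_lit 81) (nat_lit 5) (nat_lit 507) (nat_lit 400) (nat_lit 233)) (XT.lf (nat_lit 0) (nat_lit 9945904407) (nat_lit 380) (nat_lit 6132687766) (nat_lit 76) (nat_lit 6802194315) (nat_lit 80) (nat_lit 5) (nat_lit 85) (nat_lit 5) (nat_lit 81) (nat_lit 5) (nat_lit 508) (nat_lit 400) (nat_lit 232))) (XT.nd (nat_lit 78) (nat_lit 0) (nat_lit 0) (XT.lf (nat_lit 0)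 (nat_lit 4320560797) (nat_lit 228) (nat_lit 9985677771) (nat_lit 304) (nat_lit 8900129875) (nat_lit 77) (nat_lit 5) (nat_lit 80) (nat_lit 5) (nat_lit 81) (nat_lit 5) (nat_lit 509) (nat_lit 400) (nat_lit 231)) (XT.lf (nat_lit 0) (nat_lit 15052234693) (nat_lit 228) (nat_lit 3734109956) (nat_lit 304) (nat_lit 4751469325) (nat_lit 77) (nat_lit 5) (nat_lit 80) (nat_lit 5) (nat_lit 81) (nat_lit 5) (nat_lit 510) (nat_lit 400) (nat_lit 230))))))) (XT.nd (nat_lit 1092) (nat_lit 228) (nat_lit 0) (XT.nd (nat_lit 546) (nat_lit 760) (nat_lit 0) (XT.nd (nat_lit 234) (nat_lit 532) (nat_lit 0) (XT.nd (nat_lit 78) (nat_lit 76) (nat_lit 0) (XT.lf (nat_lit 0) (nat_lit 2119658121) (nat_lit 304) (nat_lit 21258860838) (nat_lit 380) (nat_lit 496923310) (nat_lit 73) (nat_lit 5) (nat_lit 77) (nat_lit 5) (nat_lit 78) (nat_lit 5) (nat_lit 511) (nat_lit 400) (nat_lit 229)) (XT.nd (nat_lit 78) (nat_lit 0) (nat_lit 0) (XT.lf (nat_lit 0) (nat_lit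 3865931082) (nat_lit 380) (nat_lit 11230379339) (nat_lit 76) (nat_lit 9121544469) (nat_lit 72) (nat_lit 5) (nat_lit 77) (nat_lit 5) (nat_lit 73) (nat_lit 5) (nat_lit 512) (nat_lit 400) (nat_lit 228)) (XT.lf (nat_lit 0) (nat_lit 8301126673) (nat_lit 380) (nat_lit 511153236) (nat_lit 76) (nat_lit 15754938395) (nat_lit 72) (nat_lit 5) (nat_lit 77) (nat_lit 5) (nat_lit 73) (nat_lit 5) (nat_lit 513) (nat_lit 400) (nat_lit 227)))) (XT.nd (nat_lit 156) (nat_lit 304) (nat_lit 0) (XT.nd (nat_lit 78) (nat_lit 0) (nat_lit 0) (XT.lf (nat_lit 0) (nat_lit 10547658572) (nat_lit 228) (nat_lit 2337743816) (nat_lit 304) (nat_lit 12036962009) (nat_lit 69) (nat_lit 5) (nat_lit 72) (nat_lit 5) (nat_lit 73) (nat_lit 5) (nat_lit 514) (nat_lit 400) (nat_lit 226)) (XT.lf (nat_lit 0) (nat_lit 17584451473) (nat_lit 304) (nat_lit 3490869442) (nat_lit 76) (nat_lit 4208833618) (nat_lit 69) (nat_lit 5) (nat_lit 73) (nat_lit 5) (nat_lit 70)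 (nat_lit 5) (nat_lit 515) (nat_lit 400) (nat_lit 225))) (XT.nd (nat_lit 78) (nat_lit 76) (nat_lit 0) (XT.lf (nat_lit 0) (nat_lit 7683006514) (nat_lit 228) (nat_lit 14751933566) (nat_lit 304) (nat_lit 3217094040) (nat_lit 66) (nat_lit 5) (nat_lit 69) (nat_lit 5) (nat_lit 70) (nat_lit 5) (nat_lit 516) (nat_lit 400) (nat_lit 224)) (XT.lf (nat_lit 0) (nat_lit 1353085308) (nat_lit 304) (nat_lit 6921018908) (nat_lit 76) (nat_lit 17752679996) (nat_lit 65) (nat_lit 5) (nat_lit 69) (nat_lit 5) (nat_lit 66) (nat_lit 5) (nat_lit 517) (nat_lit 400) (nat_lit 223))))) (XT.nd (nat_lit 234) (nat_lit 304) (nat_lit 0) (XT.nd (nat_lit 78) (nat_lit 228) (nat_lit 0) (XT.lf (nat_lit 0) (nat_lit 4371286702) (nat_lit 228) (nat_lit 1620991607) (nat_lit 304) (nat_lit 20415914614) (nat_lit 62) (nat_lit 5) (nat_lit 65) (nat_lit 5) (nat_lit 66) (nat_lit 5) (nat_lit 518) (nat_lit 400) (nat_lit 222)) (XT.nd (nat_lit 78) (nat_lit 228) (nat_lit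 0) (XT.lf (nat_lit 0) (nat_lit 10796845362) (nat_lit 304) (nat_lit 10859618218) (nat_lit 76) (nat_lit 5139317031) (nat_lit 62) (nat_lit 5) (nat_lit 66) (nat_lit 5) (nat_lit 63) (nat_lit 5) (nat_lit 519) (nat_lit 400) (nat_lit 221)) (XT.lf (nat_lit 0) (nat_lit 524885478) (nat_lit 228) (nat_lit 15179215286) (nat_lit 304) (nat_lit 11486889903) (nat_lit 59) (nat_lit 5) (nat_lit 62) (nat_lit 5) (nat_lit 63) (nat_lit 5) (nat_lit 520) (nat_lit 400) (nat_lit 220)))) (XT.nd (nat_lit 156) (nat_lit 304) (nat_lit 0) (XT.nd (nat_lit 78) (nat_lit 0) (nat_lit 0) (XT.lf (nat_lit 0) (nat_lit 12271887341) (nat_lit 228) (nat_lit 8503009220) (nat_lit 304) (nat_lit 6817902964) (nat_lit 59) (nat_lit 5) (nat_lit 62) (nat_lit 5) (nat_lit 63) (nat_lit 5) (nat_lit 521) (nat_lit 400) (nat_lit 219)) (XT.lf (nat_lit 0) (nat_lit 24241675426) (nat_lit 228) (nat_lit 1698101016) (nat_lit 304) (nat_lit 2063017210) (nat_lit 59) (nat_lit 5) (nat_lit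 62) (nat_lit 5) (nat_lit 63) (nat_lit 5) (nat_lit 522) (nat_lit 400) (nat_lit 218))) (XT.nd (nat_lit 78) (nat_lit 0) (nat_lit 0) (XT.lf (nat_lit 0) (nat_lit 2830284449) (nat_lit 304) (nat_lit 20348122715) (nat_lit 76) (nat_lit 5240623566) (nat_lit 55) (nat_lit 5) (nat_lit 59) (nat_lit 5) (nat_lit 56) (nat_lit 5) (nat_lit 523) (nat_lit 400) (nat_lit 217)) (XT.lf (nat_lit 0) (nat_lit 7823301563) (nat_lit 304) (nat_lit 8689655140) (nat_lit 76) (nat_lit 12329775965) (nat_lit 55) (nat_lit 5) (nat_lit 59) (nat_lit 5) (nat_lit 56) (nat_lit 5) (nat_lit 524) (nat_lit 400) (nat_lit 216)))))) (XT.nd (nat_lit 50154) (nat_lit 0) (nat_lit 33060) (XT.nd (nat_lit 49842) (nat_lit 0) (nat_lit 35340) (XT.nd (nat_lit 49686) (nat_lit 0) (nat_lit 35340) (XT.lf (nat_lit 0) (nat_lit 3232563826) (nat_lit 228) (nat_lit 9697539877) (nat_lit 304) (nat_lit 16344528719) (nat_lit 52) (nat_lit 5) (nat_lit 55) (nat_lit 5) (nat_lit 56) (nat_lit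 5) (nat_lit 525) (nat_lit 400) (nat_lit 215)) (XT.nd (nat_lit 78) (nat_lit 1140) (nat_lit 0) (XT.lf (nat_lit 0) (nat_lit 3060158744) (nat_lit 1140) (nat_lit 295022626) (nat_lit 1140) (nat_lit 295022626) (nat_lit 532) (nat_lit 3) (nat_lit 547) (nat_lit 3) (nat_lit 547) (nat_lit 5) (nat_lit 401) (nat_lit 401) (nat_lit 338)) (XT.lf (nat_lit 0) (nat_lit 345653535) (nat_lit 1140) (nat_lit 4533474594) (nat_lit 1216) (nat_lit 2462532121) (nat_lit 517) (nat_lit 5) (nat_lit 532) (nat_lit 3) (nat_lit 533) (nat_lit 5) (nat_lit 402) (nat_lit 401) (nat_lit 337)))) (XT.nd (nat_lit 156) (nat_lit 0) (nat_lit 76) (XT.nd (nat_lit 78) (nat_lit 0) (nat_lit 0) (XT.lf (nat_lit 0) (nat_lit 1850540712) (nat_lit 1140) (nat_lit 1129931595) (nat_lit 1216) (nat_lit 4403859156) (nat_lit 517) (nat_lit 5) (nat_lit 532) (nat_lit 3) (nat_lit 533) (nat_lit 5) (nat_lit 403) (nat_lit 401) (nat_lit 336)) (XT.lf (nat_lit 76) (nat_lit 2352127656)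 (nat_lit 0) (nat_lit 1009874606) (nat_lit 1216) (nat_lit 4066362065) (nat_lit 518) (nat_lit 5) (nat_lit 517) (nat_lit 5) (nat_lit 533) (nat_lit 5) (nat_lit 404) (nat_lit 401) (nat_lit 335))) (XT.nd (nat_lit 78) (nat_lit 0) (nat_lit 0) (XT.lf (nat_lit 0) (nat_lit 4879769578) (nat_lit 1140) (nat_lit 1581710831) (nat_lit 1216) (nat_lit 1012312930) (nat_lit 518) (nat_lit 5) (nat_lit 533) (nat_lit 5) (nat_lit 534) (nat_lit 5) (nat_lit 405) (nat_lit 401) (nat_lit 334)) (XT.lf (nat_lit 76) (nat_lit 1981231740) (nat_lit 0) (nat_lit 4428908293) (nat_lit 1216) (nat_lit 1110382234) (nat_lit 519) (nat_lit 5) (nat_lit 518) (nat_lit 5) (nat_lit 534) (nat_lit 5) (nat_lit 406) (nat_lit 401) (nat_lit 333))))) (XT.nd (nat_lit 234) (nat_lit 1140) (nat_lit 0) (XT.nd (nat_lit 78) (nat_lit 0) (nat_lit 0) (XT.lf (nat_lit 0) (nat_lit 371347688) (nat_lit 1216) (nat_lit 1954946045) (nat_lit 1292) (nat_lit 5242400602) (nat_lit 502) (nat_lit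 5) (nat_lit 518) (nat_lit 5) (nat_lit 519) (nat_lit 5) (nat_lit 407) (nat_lit 401) (nat_lit 332)) (XT.nd (nat_lit 78) (nat_lit 0) (nat_lit 76) (XT.lf (nat_lit 76) (nat_lit 1695219988) (nat_lit 0) (nat_lit 147385464) (nat_lit 1292) (nat_lit 5775616574) (nat_lit 503) (nat_lit 5) (nat_lit 502) (nat_lit 5) (nat_lit 519) (nat_lit 5) (nat_lit 408) (nat_lit 401) (nat_lit 331)) (XT.lf (nat_lit 0) (nat_lit 3334382799) (nat_lit 1216) (nat_lit 2258602041) (nat_lit 1292) (nat_lit 2075967072) (nat_lit 503) (nat_lit 5) (nat_lit 519) (nat_lit 5) (nat_lit 520) (nat_lit 5) (nat_lit 409) (nat_lit 401) (nat_lit 330)))) (XT.nd (nat_lit 156) (nat_lit 1216) (nat_lit 0) (XT.nd (nat_lit 78) (nat_lit 0) (nat_lit 0) (XT.lf (nat_lit 76) (nat_lit 1476440851) (nat_lit 0) (nat_lit 3355230562) (nat_lit 1292) (nat_lit 2889544342) (nat_lit 504) (nat_lit 5) (nat_lit 503) (nat_lit 5) (nat_lit 520) (nat_lit 5) (nat_lit 410) (nat_lit 401) (nat_lit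 329)) (XT.lf (nat_lit 76) (nat_lit 5295906093) (nat_lit 0) (nat_lit 1043818126) (nat_lit 1292) (nat_lit 1435216514) (nat_lit 504) (nat_lit 5) (nat_lit 503) (nat_lit 5) (nat_lit 520) (nat_lit 5) (nat_lit 411) (nat_lit 401) (nat_lit 328))) (XT.nd (nat_lit 78) (nat_lit 0) (nat_lit 0) (XT.lf (nat_lit 0) (nat_lit 31142379) (nat_lit 1292) (nat_lit 6480382940) (nat_lit 1368) (nat_lit 1318568074) (nat_lit 487) (nat_lit 5) (nat_lit 504) (nat_lit 5) (nat_lit 505) (nat_lit 5) (nat_lit 412) (nat_lit 401) (nat_lit 327)) (XT.lf (nat_lit 0) (nat_lit 1497979937) (nat_lit 1292) (nat_lit 2635517857) (nat_lit 1368) (nat_lit 3752884567) (nat_lit 487) (nat_lit 5) (nat_lit 504) (nat_lit 5) (nat_lit 505) (nat_lit 5) (nat_lit 413) (nat_lit 401) (nat_lit 326))))))))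
noncomputable def xc153 : XT := (XT.nd (nat_lit 2184) (nat_lit 9728) (nat_lit 0) (XT.nd (nat_lit 1092) (nat_lit 9652) (nat_lit 0) (XT.nd (nat_lit 546) (nat_lit 2736) (nat_lit 0) (XT.nd (nat_lit 234) (nat_lit 1216) (nat_lit 0) (XT.nd (nat_lit 78) (nat_lit 0) (nat_lit 76) (XT.lf (nat_lit 76) (nat_lit 1281871939) (nat_lit 0) (nat_lit 1687950728) (nat_lit 1368) (nat_lit 4974490846) (nat_lit 488) (nat_lit 5) (nat_lit 487) (nat_lit 5) (nat_lit 505) (nat_lit 5) (nat_lit 414) (nat_lit 401) (nat_lit 325)) (XT.nd (nat_lit 78) (nat_lit 0) (nat_lit 0) (XT.lf (nat_lit 0) (nat_lit 4462062873) (nat_lit 1292) (nat_lit 2716857913) (nat_lit 1368) (nat_lit 824692479) (nat_lit 488) (nat_lit 5) (nat_lit 505) (nat_lit 5) (nat_lit 506) (nat_lit 5) (nat_lit 415) (nat_lit 401) (nat_lit 324)) (XT.lf (nat_lit 76) (nat_lit 1292042044) (nat_lit 0) (nat_lit 4680223510) (nat_lit 1368) (nat_lit 2092099723) (nat_lit 489) (nat_lit 5) (nat_lit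 488) (nat_lit 5) (nat_lit 506) (nat_lit 5) (nat_lit 416) (nat_lit 401) (nat_lit 323)))) (XT.nd (nat_lit 156) (nat_lit 0) (nat_lit 0) (XT.nd (nat_lit 78) (nat_lit 1292) (nat_lit 0) (XT.lf (nat_lit 76) (nat_lit 5396726007) (nat_lit 0) (nat_lit 2103207098) (nat_lit 1368) (nat_lit 626682062) (nat_lit 489) (nat_lit 5) (nat_lit 488) (nat_lit 5) (nat_lit 506) (nat_lit 5) (nat_lit 417) (nat_lit 401) (nat_lit 322)) (XT.lf (nat_lit 0) (nat_lit 838626467) (nat_lit 1368) (nat_lit 6809345970) (nat_lit 1444) (nat_lit 542412527) (nat_lit 471) (nat_lit 5) (nat_lit 489) (nat_lit 5) (nat_lit 490) (nat_lit 5) (nat_lit 418) (nat_lit 401) (nat_lit 321))) (XT.nd (nat_lit 78) (nat_lit 0) (nat_lit 0) (XT.lf (nat_lit 0) (nat_lit 2327156355) (nat_lit 1368) (nat_lit 2683860779) (nat_lit 1444) (nat_lit 3244310482) (nat_lit 471) (nat_lit 5) (nat_lit 489) (nat_lit 5) (nat_lit 490) (nat_lit 5) (nat_lit 419) (nat_lit 401) (nat_lit 320)) (XT.lf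 (nat_lit 76) (nat_lit 1522745362) (nat_lit 0) (nat_lit 2303117547) (nat_lit 1444) (nat_lit 4496124011) (nat_lit 472) (nat_lit 5) (nat_lit 471) (nat_lit 5) (nat_lit 490) (nat_lit 5) (nat_lit 420) (nat_lit 401) (nat_lit 319))))) (XT.nd (nat_lit 234) (nat_lit 2812) (nat_lit 0) (XT.nd (nat_lit 78) (nat_lit 0) (nat_lit 0) (XT.lf (nat_lit 0) (nat_lit 5346663183) (nat_lit 1368) (nat_lit 2564730462) (nat_lit 1444) (nat_lit 478768785) (nat_lit 472) (nat_lit 5) (nat_lit 490) (nat_lit 5) (nat_lit 491) (nat_lit 5) (nat_lit 421) (nat_lit 401) (nat_lit 318)) (XT.nd (nat_lit 78) (nat_lit 0) (nat_lit 0) (XT.lf (nat_lit 76) (nat_lit 1740599339) (nat_lit 0) (nat_lit 5155412560) (nat_lit 1444) (nat_lit 1563751815) (nat_lit 473) (nat_lit 5) (nat_lit 472) (nat_lit 5) (nat_lit 491) (nat_lit 5) (nat_lit 422) (nat_lit 401) (nat_lit 317)) (XT.lf (nat_lit 76) (nat_lit 6145495077) (nat_lit 0) (nat_lit 2320061023) (nat_lit 1444) (nat_lit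 65441177) (nat_lit 473) (nat_lit 5) (nat_lit 472) (nat_lit 5) (nat_lit 491) (nat_lit 5) (nat_lit 423) (nat_lit 401) (nat_lit 316)))) (XT.nd (nat_lit 156) (nat_lit 1444) (nat_lit 0) (XT.nd (nat_lit 78) (nat_lit 0) (nat_lit 0) (XT.lf (nat_lit 0) (nat_lit 1433081759) (nat_lit 1444) (nat_lit 6576995096) (nat_lit 76) (nat_lit 593623551) (nat_lit 454) (nat_lit 5) (nat_lit 473) (nat_lit 5) (nat_lit 455) (nat_lit 5) (nat_lit 424) (nat_lit 401) (nat_lit 315)) (XT.lf (nat_lit 0) (nat_lit 2964964558) (nat_lit 1444) (nat_lit 2155695710) (nat_lit 76) (nat_lit 3557126379) (nat_lit 454) (nat_lit 5) (nat_lit 473) (nat_lit 5) (nat_lit 455) (nat_lit 5) (nat_lit 425) (nat_lit 401) (nat_lit 314))) (XT.nd (nat_lit 78) (nat_lit 0) (nat_lit 0) (XT.lf (nat_lit 0) (nat_lit 2363709238) (nat_lit 1444) (nat_lit 2152442357) (nat_lit 1520) (nat_lit 4237452252) (nat_lit 435) (nat_lit 5) (nat_lit 454) (nat_lit 5) (nat_lit 455) (nat_lit 5) (nat_lit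 426) (nat_lit 401) (nat_lit 313)) (XT.lf (nat_lit 0) (nat_lit 6092344656) (nat_lit 1520) (nat_lit 1855464398) (nat_lit 76) (nat_lit 883270813) (nat_lit 435) (nat_lit 5) (nat_lit 455) (nat_lit 5) (nat_lit 436) (nat_lit 5) (nat_lit 427) (nat_lit 401) (nat_lit 312)))))) (XT.nd (nat_lit 546) (nat_lit 3496) (nat_lit 0) (XT.nd (nat_lit 234) (nat_lit 2964) (nat_lit 0) (XT.nd (nat_lit 78) (nat_lit 1672) (nat_lit 0) (XT.lf (nat_lit 0) (nat_lit 2770398971) (nat_lit 1520) (nat_lit 4936158026) (nat_lit 1596) (nat_lit 1203440190) (nat_lit 415) (nat_lit 5) (nat_lit 435) (nat_lit 5) (nat_lit 436) (nat_lit 5) (nat_lit 428) (nat_lit 401) (nat_lit 311)) (XT.nd (nat_lit 78) (nat_lit 1596) (nat_lit 0) (XT.lf (nat_lit 0) (nat_lit 344771014) (nat_lit 1596) (nat_lit 1500304769) (nat_lit 76) (nat_lit 7145651530) (nat_lit 414) (nat_lit 5) (nat_lit 435) (nat_lit 5) (nat_lit 415) (nat_lit 5) (nat_lit 429) (nat_lit 401) (nat_lit 310)) (XT.lf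 (nat_lit 0) (nat_lit 1912559872) (nat_lit 1672) (nat_lit 5836488357) (nat_lit 76) (nat_lit 1323790606) (nat_lit 393) (nat_lit 5) (nat_lit 415) (nat_lit 5) (nat_lit 394) (nat_lit 5) (nat_lit 430) (nat_lit 401) (nat_lit 309)))) (XT.nd (nat_lit 156) (nat_lit 1292) (nat_lit 0) (XT.nd (nat_lit 78) (nat_lit 1672) (nat_lit 0) (XT.lf (nat_lit 0) (nat_lit 3509370474) (nat_lit 1672) (nat_lit 1102133229) (nat_lit 76) (nat_lit 4545155602) (nat_lit 393) (nat_lit 5) (nat_lit 415) (nat_lit 5) (nat_lit 394) (nat_lit 5) (nat_lit 431) (nat_lit 401) (nat_lit 308)) (XT.lf (nat_lit 0) (nat_lit 3755047182) (nat_lit 1672) (nat_lit 1383246845) (nat_lit 1748) (nat_lit 4103878265) (nat_lit 371) (nat_lit 5) (nat_lit 393) (nat_lit 5) (nat_lit 394) (nat_lit 5) (nat_lit 432) (nat_lit 401) (nat_lit 307))) (XT.nd (nat_lit 78) (nat_lit 1292) (nat_lit 0) (XT.lf (nat_lit 0) (nat_lit 6795792849) (nat_lit 1748) (nat_lit 638870330) (nat_lit 76) (nat_lit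 1894831683) (nat_lit 371) (nat_lit 5) (nat_lit 394) (nat_lit 5) (nat_lit 372) (nat_lit 5) (nat_lit 433) (nat_lit 401) (nat_lit 306)) (XT.lf (nat_lit 0) (nat_lit 4332951300) (nat_lit 1292) (nat_lit 4167404583) (nat_lit 1368) (nat_lit 917948596) (nat_lit 354) (nat_lit 5) (nat_lit 371) (nat_lit 5) (nat_lit 372) (nat_lit 5) (nat_lit 434) (nat_lit 401) (nat_lit 305))))) (XT.nd (nat_lit 234) (nat_lit 1748) (nat_lit 0) (XT.nd (nat_lit 78) (nat_lit 1672) (nat_lit 0) (XT.lf (nat_lit 0) (nat_lit 701632632) (nat_lit 1368) (nat_lit 121957285) (nat_lit 76) (nat_lit 8685601944) (nat_lit 353) (nat_lit 5) (nat_lit 371) (nat_lit 5) (nat_lit 354) (nat_lit 5) (nat_lit 435) (nat_lit 401) (nat_lit 304)) (XT.nd (nat_lit 78) (nat_lit 836) (nat_lit 0) (XT.lf (nat_lit 0) (nat_lit 2367945585) (nat_lit 912) (nat_lit 4639573694) (nat_lit 76) (nat_lit 2593741522) (nat_lit 342) (nat_lit 5) (nat_lit 354) (nat_lit 5) (nat_lit 343) (nat_lit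 5) (nat_lit 436) (nat_lit 401) (nat_lit 303)) (XT.lf (nat_lit 0) (nat_lit 432538370) (nat_lit 836) (nat_lit 3621684629) (nat_lit 912) (nat_lit 5641232799) (nat_lit 331) (nat_lit 5) (nat_lit 342) (nat_lit 5) (nat_lit 343) (nat_lit 5) (nat_lit 437) (nat_lit 401) (nat_lit 302)))) (XT.nd (nat_lit 156) (nat_lit 912) (nat_lit 0) (XT.nd (nat_lit 78) (nat_lit 836) (nat_lit 0) (XT.lf (nat_lit 0) (nat_lit 5647945053) (nat_lit 836) (nat_lit 135270275) (nat_lit 912) (nat_lit 4008156681) (nat_lit 331) (nat_lit 5) (nat_lit 342) (nat_lit 5) (nat_lit 343) (nat_lit 5) (nat_lit 438) (nat_lit 401) (nat_lit 301)) (XT.lf (nat_lit 0) (nat_lit 1048915704) (nat_lit 836) (nat_lit 6505189265) (nat_lit 912) (nat_lit 2334971991) (nat_lit 320) (nat_lit 5) (nat_lit 331) (nat_lit 5) (nat_lit 332) (nat_lit 5) (nat_lit 439) (nat_lit 401) (nat_lit 300))) (XT.nd (nat_lit 78) (nat_lit 912) (nat_lit 0) (XT.lf (nat_lit 0) (nat_lit 6379417669) (nat_lit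 836) (nat_lit 2988275448) (nat_lit 912) (nat_lit 620913716) (nat_lit 320) (nat_lit 5) (nat_lit 331) (nat_lit 5) (nat_lit 332) (nat_lit 5) (nat_lit 440) (nat_lit 401) (nat_lit 299)) (XT.lf (nat_lit 0) (nat_lit 1106676667) (nat_lit 912) (nat_lit 8373389699) (nat_lit 76) (nat_lit 610049590) (nat_lit 308) (nat_lit 5) (nat_lit 320) (nat_lit 5) (nat_lit 309) (nat_lit 5) (nat_lit 441) (nat_lit 401) (nat_lit 298))))))) (XT.nd (nat_lit 1092) (nat_lit 4636) (nat_lit 0) (XT.nd (nat_lit 546) (nat_lit 2812) (nat_lit 0) (XT.nd (nat_lit 234) (nat_lit 1520) (nat_lit 0) (XT.nd (nat_lit 78) (nat_lit 760) (nat_lit 0) (XT.lf (nat_lit 0) (nat_lit 2883815053) (nat_lit 912) (nat_lit 3040277852) (nat_lit 76) (nat_lit 4269029556) (nat_lit 308) (nat_lit 5) (nat_lit 320) (nat_lit 5) (nat_lit 309) (nat_lit 5) (nat_lit 442) (nat_lit 401) (nat_lit 297)) (XT.nd (nat_lit 78) (nat_lit 0) (nat_lit 0) (XT.lf (nat_lit 0) (nat_lit 2410395104) (nat_lit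 760) (nat_lit 2281292751) (nat_lit 836) (nat_lit 5606612593) (nat_lit 298) (nat_lit 5) (nat_lit 308) (nat_lit 5) (nat_lit 309) (nat_lit 5) (nat_lit 443) (nat_lit 401) (nat_lit 296)) (XT.lf (nat_lit 0) (nat_lit 6545374721) (nat_lit 836) (nat_lit 2424322426) (nat_lit 76) (nat_lit 1435706603) (nat_lit 298) (nat_lit 5) (nat_lit 309) (nat_lit 5) (nat_lit 299) (nat_lit 5) (nat_lit 444) (nat_lit 401) (nat_lit 295)))) (XT.nd (nat_lit 156) (nat_lit 760) (nat_lit 0) (XT.nd (nat_lit 78) (nat_lit 0) (nat_lit 0) (XT.lf (nat_lit 0) (nat_lit 3154210120) (nat_lit 760) (nat_lit 5297715063) (nat_lit 836) (nat_lit 2062422733) (nat_lit 288) (nat_lit 5) (nat_lit 298) (nat_lit 5) (nat_lit 299) (nat_lit 5) (nat_lit 445) (nat_lit 401) (nat_lit 294)) (XT.lf (nat_lit 0) (nat_lit 8856728894) (nat_lit 760) (nat_lit 1536604405) (nat_lit 836) (nat_lit 232217444) (nat_lit 288) (nat_lit 5) (nat_lit 298) (nat_lit 5) (nat_lit 299) (nat_lit 5)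 (nat_lit 446) (nat_lit 401) (nat_lit 293))) (XT.nd (nat_lit 78) (nat_lit 0) (nat_lit 0) (XT.lf (nat_lit 0) (nat_lit 1634699917) (nat_lit 760) (nat_lit 6798551109) (nat_lit 76) (nat_lit 2305097178) (nat_lit 278) (nat_lit 5) (nat_lit 288) (nat_lit 5) (nat_lit 279) (nat_lit 5) (nat_lit 447) (nat_lit 401) (nat_lit 292)) (XT.lf (nat_lit 0) (nat_lit 3538914319) (nat_lit 760) (nat_lit 1098961209) (nat_lit 76) (nat_lit 6215447509) (nat_lit 278) (nat_lit 5) (nat_lit 288) (nat_lit 5) (nat_lit 279) (nat_lit 5) (nat_lit 448) (nat_lit 401) (nat_lit 291))))) (XT.nd (nat_lit 234) (nat_lit 1368) (nat_lit 0) (XT.nd (nat_lit 78) (nat_lit 684) (nat_lit 0) (XT.lf (nat_lit 0) (nat_lit 4756841043) (nat_lit 760) (nat_lit 736570902) (nat_lit 836) (nat_lit 5476954662) (nat_lit 268) (nat_lit 5) (nat_lit 278) (nat_lit 5) (nat_lit 279) (nat_lit 5) (nat_lit 449) (nat_lit 401) (nat_lit 290)) (XT.nd (nat_lit 78) (nat_lit 684) (nat_lit 0) (XT.lf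 (nat_lit 0) (nat_lit 7497017517) (nat_lit 836) (nat_lit 386455752) (nat_lit 76) (nat_lit 3206090382) (nat_lit 268) (nat_lit 5) (nat_lit 279) (nat_lit 5) (nat_lit 269) (nat_lit 5) (nat_lit 450) (nat_lit 401) (nat_lit 289)) (XT.lf (nat_lit 0) (nat_lit 5605793337) (nat_lit 684) (nat_lit 3958078693) (nat_lit 760) (nat_lit 1646821775) (nat_lit 259) (nat_lit 5) (nat_lit 268) (nat_lit 5) (nat_lit 269) (nat_lit 5) (nat_lit 451) (nat_lit 401) (nat_lit 288)))) (XT.nd (nat_lit 156) (nat_lit 608) (nat_lit 0) (XT.nd (nat_lit 78) (nat_lit 0) (nat_lit 0) (XT.lf (nat_lit 0) (nat_lit 320737895) (nat_lit 760) (nat_lit 10963338454) (nat_lit 76) (nat_lit 50391531) (nat_lit 249) (nat_lit 5) (nat_lit 259) (nat_lit 5) (nat_lit 250) (nat_lit 5) (nat_lit 452) (nat_lit 401) (nat_lit 287)) (XT.lf (nat_lit 0) (nat_lit 2351898125) (nat_lit 760) (nat_lit 4975022797) (nat_lit 76) (nat_lit 4132664773) (nat_lit 249) (nat_lit 5) (nat_lit 259)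 (nat_lit 5) (nat_lit 250) (nat_lit 5) (nat_lit 453) (nat_lit 401) (nat_lit 286))) (XT.nd (nat_lit 78) (nat_lit 0) (nat_lit 0) (XT.lf (nat_lit 0) (nat_lit 1127905001) (nat_lit 608) (nat_lit 3285654898) (nat_lit 684) (nat_lit 7173860139) (nat_lit 241) (nat_lit 5) (nat_lit 249) (nat_lit 5) (nat_lit 250) (nat_lit 5) (nat_lit 454) (nat_lit 401) (nat_lit 285)) (XT.lf (nat_lit 0) (nat_lit 6538243575) (nat_lit 684) (nat_lit 4322621039) (nat_lit 76) (nat_lit 856522188) (nat_lit 241) (nat_lit 5) (nat_lit 250) (nat_lit 5) (nat_lit 242) (nat_lit 5) (nat_lit 455) (nat_lit 401) (nat_lit 284)))))) (XT.nd (nat_lit 546) (nat_lit 2204) (nat_lit 0) (XT.nd (nat_lit 234) (nat_lit 1140) (nat_lit 0) (XT.nd (nat_lit 78) (nat_lit 684) (nat_lit 0) (XT.lf (nat_lit 0) (nat_lit 1920681841) (nat_lit 608) (nat_lit 6802058779) (nat_lit 684) (nat_lit 3126877171) (nat_lit 233) (nat_lit 5) (nat_lit 241) (nat_lit 5) (nat_lit 242) (nat_lit 5) (nat_lit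 456) (nat_lit 401) (nat_lit 283)) (XT.nd (nat_lit 78) (nat_lit 684) (nat_lit 0) (XT.lf (nat_lit 0) (nat_lit 8327815263) (nat_lit 608) (nat_lit 2635413576) (nat_lit 684) (nat_lit 1021029599) (nat_lit 233) (nat_lit 5) (nat_lit 241) (nat_lit 5) (nat_lit 242) (nat_lit 5) (nat_lit 457) (nat_lit 401) (nat_lit 282)) (XT.lf (nat_lit 0) (nat_lit 1124147683) (nat_lit 684) (nat_lit 9381274243) (nat_lit 76) (nat_lit 1615794412) (nat_lit 224) (nat_lit 5) (nat_lit 233) (nat_lit 5) (nat_lit 225) (nat_lit 5) (nat_lit 458) (nat_lit 401) (nat_lit 281)))) (XT.nd (nat_lit 156) (nat_lit 532) (nat_lit 0) (XT.nd (nat_lit 78) (nat_lit 608) (nat_lit 0) (XT.lf (nat_lit 0) (nat_lit 3324402578) (nat_lit 684) (nat_lit 2990644159) (nat_lit 76) (nat_lit 5945225189) (nat_lit 224) (nat_lit 5) (nat_lit 233) (nat_lit 5) (nat_lit 225) (nat_lit 5) (nat_lit 459) (nat_lit 401) (nat_lit 280)) (XT.lf (nat_lit 0) (nat_lit 3555147207) (nat_lit 608) (nat_lit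 2020598375) (nat_lit 684) (nat_lit 6826231603) (nat_lit 216) (nat_lit 5) (nat_lit 224) (nat_lit 5) (nat_lit 225) (nat_lit 5) (nat_lit 460) (nat_lit 401) (nat_lit 279))) (XT.nd (nat_lit 78) (nat_lit 532) (nat_lit 0) (XT.lf (nat_lit 0) (nat_lit 7891806461) (nat_lit 684) (nat_lit 2308631114) (nat_lit 76) (nat_lit 2345695174) (nat_lit 216) (nat_lit 5) (nat_lit 225) (nat_lit 5) (nat_lit 217) (nat_lit 5) (nat_lit 461) (nat_lit 401) (nat_lit 278)) (XT.lf (nat_lit 0) (nat_lit 4385391546) (nat_lit 532) (nat_lit 5895130072) (nat_lit 608) (nat_lit 2412132968) (nat_lit 209) (nat_lit 5) (nat_lit 216) (nat_lit 5) (nat_lit 217) (nat_lit 5) (nat_lit 462) (nat_lit 401) (nat_lit 277))))) (XT.nd (nat_lit 234) (nat_lit 1596) (nat_lit 0) (XT.nd (nat_lit 78) (nat_lit 608) (nat_lit 0) (XT.lf (nat_lit 0) (nat_lit 11225640314) (nat_lit 532) (nat_lit 1491522951) (nat_lit 608) (nat_lit 124950179) (nat_lit 209) (nat_lit 5) (nat_lit 216)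 (nat_lit 5) (nat_lit 217) (nat_lit 5) (nat_lit 463) (nat_lit 401) (nat_lit 276)) (XT.nd (nat_lit 78) (nat_lit 0) (nat_lit 0) (XT.lf (nat_lit 0) (nat_lit 2217692084) (nat_lit 608) (nat_lit 7769899240) (nat_lit 76) (nat_lit 3005919222) (nat_lit 201) (nat_lit 5) (nat_lit 209) (nat_lit 5) (nat_lit 202) (nat_lit 5) (nat_lit 464) (nat_lit 401) (nat_lit 275)) (XT.lf (nat_lit 0) (nat_lit 4611316332) (nat_lit 608) (nat_lit 955034873) (nat_lit 76) (nat_lit 7581460896) (nat_lit 201) (nat_lit 5) (nat_lit 209) (nat_lit 5) (nat_lit 202) (nat_lit 5) (nat_lit 465) (nat_lit 401) (nat_lit 274)))) (XT.nd (nat_lit 156) (nat_lit 1064) (nat_lit 0) (XT.nd (nat_lit 78) (nat_lit 0) (nat_lit 0) (XT.lf (nat_lit 0) (nat_lit 6056988386) (nat_lit 532) (nat_lit 1020448509) (nat_lit 608) (nat_lit 6227279214) (nat_lit 194) (nat_lit 5) (nat_lit 201) (nat_lit 5) (nat_lit 202) (nat_lit 5) (nat_lit 466) (nat_lit 401) (nat_lit 273)) (XT.lf (nat_lit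 0) (nat_lit 9608251829) (nat_lit 608) (nat_lit 284683098) (nat_lit 76) (nat_lit 3571524551) (nat_lit 194) (nat_lit 5) (nat_lit 202) (nat_lit 5) (nat_lit 195) (nat_lit 5) (nat_lit 467) (nat_lit 401) (nat_lit 272))) (XT.nd (nat_lit 78) (nat_lit 532) (nat_lit 0) (XT.lf (nat_lit 0) (nat_lit 6882771892) (nat_lit 532) (nat_lit 5344082944) (nat_lit 608) (nat_lit 1399807995) (nat_lit 187) (nat_lit 5) (nat_lit 194) (nat_lit 5) (nat_lit 195) (nat_lit 5) (nat_lit 468) (nat_lit 401) (nat_lit 271)) (XT.lf (nat_lit 0) (nat_lit 384779936) (nat_lit 456) (nat_lit 696645307) (nat_lit 532) (nat_lit 12710745499) (nat_lit 180) (nat_lit 5) (nat_lit 186) (nat_lit 5) (nat_lit 187) (nat_lit 5) (nat_lit 469) (nat_lit 401) (nat_lit 270))))))))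
noncomputable def xc154 : XT := (XT.nd (nat_lit 2184) (nat_lit 3496) (nat_lit 0) (XT.nd (nat_lit 1092) (nat_lit 2660) (nat_lit 0) (XT.nd (nat_lit 546) (nat_lit 1824) (nat_lit 0) (XT.nd (nat_lit 234) (nat_lit 988) (nat_lit 0) (XT.nd (nat_lit 78) (nat_lit 532) (nat_lit 0) (XT.lf (nat_lit 0) (nat_lit 3651284789) (nat_lit 532) (nat_lit 6267046732) (nat_lit 76) (nat_lit 4041325391) (nat_lit 180) (nat_lit 5) (nat_lit 187) (nat_lit 5) (nat_lit 181) (nat_lit 5) (nat_lit 470) (nat_lit 401) (nat_lit 269)) (XT.nd (nat_lit 78) (nat_lit 0) (nat_lit 0) (XT.lf (nat_lit 0) (nat_lit 1006477213) (nat_lit 532) (nat_lit 5263406832) (nat_lit 608) (nat_lit 7860669812) (nat_lit 173) (nat_lit 5) (nat_lit 180) (nat_lit 5) (nat_lit 181) (nat_lit 5) (nat_lit 471) (nat_lit 401) (nat_lit 268)) (XT.lf (nat_lit 0) (nat_lit 8492329338) (nat_lit 532) (nat_lit 476928610) (nat_lit 608) (nat_lit 5335050483) (nat_lit 173) (nat_lit 5) (nat_lit 180)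 (nat_lit 5) (nat_lit 181) (nat_lit 5) (nat_lit 472) (nat_lit 401) (nat_lit 267)))) (XT.nd (nat_lit 156) (nat_lit 532) (nat_lit 0) (XT.nd (nat_lit 78) (nat_lit 0) (nat_lit 0) (XT.lf (nat_lit 0) (nat_lit 1621032540) (nat_lit 456) (nat_lit 10127300509) (nat_lit 532) (nat_lit 2732698366) (nat_lit 167) (nat_lit 5) (nat_lit 173) (nat_lit 5) (nat_lit 174) (nat_lit 5) (nat_lit 473) (nat_lit 401) (nat_lit 266)) (XT.lf (nat_lit 0) (nat_lit 9260419193) (nat_lit 456) (nat_lit 5351443486) (nat_lit 532) (nat_lit 48856164) (nat_lit 167) (nat_lit 5) (nat_lit 173) (nat_lit 5) (nat_lit 174) (nat_lit 5) (nat_lit 474) (nat_lit 401) (nat_lit 265))) (XT.nd (nat_lit 78) (nat_lit 0) (nat_lit 0) (XT.lf (nat_lit 0) (nat_lit 2202322259) (nat_lit 456) (nat_lit 452277946) (nat_lit 532) (nat_lit 12189033846) (nat_lit 160) (nat_lit 5) (nat_lit 166) (nat_lit 5) (nat_lit 167) (nat_lit 5) (nat_lit 475) (nat_lit 401) (nat_lit 264)) (XT.lf (nat_lit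 0) (nat_lit 5464472639) (nat_lit 532) (nat_lit 5047173802) (nat_lit 76) (nat_lit 4517501655) (nat_lit 160) (nat_lit 5) (nat_lit 167) (nat_lit 5) (nat_lit 161) (nat_lit 5) (nat_lit 476) (nat_lit 401) (nat_lit 263))))) (XT.nd (nat_lit 234) (nat_lit 912) (nat_lit 0) (XT.nd (nat_lit 78) (nat_lit 456) (nat_lit 0) (XT.lf (nat_lit 0) (nat_lit 2713977159) (nat_lit 456) (nat_lit 5624449508) (nat_lit 532) (nat_lit 6879794950) (nat_lit 154) (nat_lit 5) (nat_lit 160) (nat_lit 5) (nat_lit 161) (nat_lit 5) (nat_lit 477) (nat_lit 401) (nat_lit 262)) (XT.nd (nat_lit 78) (nat_lit 456) (nat_lit 0) (XT.lf (nat_lit 0) (nat_lit 10681412967) (nat_lit 456) (nat_lit 609720963) (nat_lit 532) (nat_lit 4119523937) (nat_lit 154) (nat_lit 5) (nat_lit 160) (nat_lit 5) (nat_lit 161) (nat_lit 5) (nat_lit 478) (nat_lit 401) (nat_lit 261)) (XT.lf (nat_lit 0) (nat_lit 3196691472) (nat_lit 456) (nat_lit 11143831948) (nat_lit 532) (nat_lit 1265673470)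 (nat_lit 148) (nat_lit 5) (nat_lit 154) (nat_lit 5) (nat_lit 155) (nat_lit 5) (nat_lit 479) (nat_lit 401) (nat_lit 260)))) (XT.nd (nat_lit 156) (nat_lit 456) (nat_lit 0) (XT.nd (nat_lit 78) (nat_lit 380) (nat_lit 0) (XT.lf (nat_lit 0) (nat_lit 1647325649) (nat_lit 532) (nat_lit 4491983204) (nat_lit 76) (nat_lit 9665657565) (nat_lit 147) (nat_lit 5) (nat_lit 154) (nat_lit 5) (nat_lit 148) (nat_lit 5) (nat_lit 480) (nat_lit 401) (nat_lit 259)) (XT.lf (nat_lit 0) (nat_lit 3605844081) (nat_lit 380) (nat_lit 1007128191) (nat_lit 456) (nat_lit 11394351273) (nat_lit 142) (nat_lit 5) (nat_lit 147) (nat_lit 5) (nat_lit 148) (nat_lit 5) (nat_lit 481) (nat_lit 401) (nat_lit 258))) (XT.nd (nat_lit 78) (nat_lit 456) (nat_lit 0) (XT.lf (nat_lit 0) (nat_lit 7683727625) (nat_lit 456) (nat_lit 4331312556) (nat_lit 76) (nat_lit 4197777823) (nat_lit 142) (nat_lit 5) (nat_lit 148) (nat_lit 5) (nat_lit 143) (nat_lit 5) (nat_lit 482)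 (nat_lit 401) (nat_lit 257)) (XT.lf (nat_lit 0) (nat_lit 3928387010) (nat_lit 456) (nat_lit 6907925308) (nat_lit 532) (nat_lit 5585707738) (nat_lit 136) (nat_lit 5) (nat_lit 142) (nat_lit 5) (nat_lit 143) (nat_lit 5) (nat_lit 483) (nat_lit 401) (nat_lit 256)))))) (XT.nd (nat_lit 546) (nat_lit 1520) (nat_lit 0) (XT.nd (nat_lit 234) (nat_lit 684) (nat_lit 0) (XT.nd (nat_lit 78) (nat_lit 456) (nat_lit 0) (XT.lf (nat_lit 0) (nat_lit 12395380209) (nat_lit 456) (nat_lit 1673995451) (nat_lit 532) (nat_lit 2565687819) (nat_lit 136) (nat_lit 5) (nat_lit 142) (nat_lit 5) (nat_lit 143) (nat_lit 5) (nat_lit 484) (nat_lit 401) (nat_lit 255)) (XT.nd (nat_lit 78) (nat_lit 0) (nat_lit 0) (XT.lf (nat_lit 0) (nat_lit 547820030) (nat_lit 456) (nat_lit 12661116598) (nat_lit 76) (nat_lit 3642573178) (nat_lit 130) (nat_lit 5) (nat_lit 136) (nat_lit 5) (nat_lit 131) (nat_lit 5) (nat_lit 485) (nat_lit 401) (nat_lit 254)) (XT.lf (nat_lit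 0) (nat_lit 3717596123) (nat_lit 456) (nat_lit 4269978210) (nat_lit 76) (nat_lit 9083810021) (nat_lit 130) (nat_lit 5) (nat_lit 136) (nat_lit 5) (nat_lit 131) (nat_lit 5) (nat_lit 486) (nat_lit 401) (nat_lit 253)))) (XT.nd (nat_lit 156) (nat_lit 304) (nat_lit 0) (XT.nd (nat_lit 78) (nat_lit 0) (nat_lit 0) (XT.lf (nat_lit 0) (nat_lit 4329552456) (nat_lit 380) (nat_lit 2638144773) (nat_lit 456) (nat_lit 10327625998) (nat_lit 125) (nat_lit 5) (nat_lit 130) (nat_lit 5) (nat_lit 131) (nat_lit 5) (nat_lit 487) (nat_lit 401) (nat_lit 252)) (XT.lf (nat_lit 0) (nat_lit 10318843114) (nat_lit 456) (nat_lit 4399001841) (nat_lit 76) (nat_lit 2805180381) (nat_lit 125) (nat_lit 5) (nat_lit 131) (nat_lit 5) (nat_lit 126) (nat_lit 5) (nat_lit 488) (nat_lit 401) (nat_lit 251))) (XT.nd (nat_lit 78) (nat_lit 0) (nat_lit 0) (XT.lf (nat_lit 0) (nat_lit 4362870161) (nat_lit 304) (nat_lit 9409058282) (nat_lit 380) (nat_lit 3982659928)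 (nat_lit 121) (nat_lit 5) (nat_lit 125) (nat_lit 5) (nat_lit 126) (nat_lit 5) (nat_lit 489) (nat_lit 401) (nat_lit 250)) (XT.lf (nat_lit 0) (nat_lit 13343733395) (nat_lit 304) (nat_lit 3969090705) (nat_lit 380) (nat_lit 677588703) (nat_lit 121) (nat_lit 5) (nat_lit 125) (nat_lit 5) (nat_lit 126) (nat_lit 5) (nat_lit 490) (nat_lit 401) (nat_lit 249))))) (XT.nd (nat_lit 234) (nat_lit 760) (nat_lit 0) (XT.nd (nat_lit 78) (nat_lit 304) (nat_lit 0) (XT.lf (nat_lit 0) (nat_lit 2686041469) (nat_lit 456) (nat_lit 13944378534) (nat_lit 76) (nat_lit 1599633174) (nat_lit 115) (nat_lit 5) (nat_lit 121) (nat_lit 5) (nat_lit 116) (nat_lit 5) (nat_lit 491) (nat_lit 401) (nat_lit 248)) (XT.nd (nat_lit 78) (nat_lit 304) (nat_lit 0) (XT.lf (nat_lit 0) (nat_lit 6154992879) (nat_lit 456) (nat_lit 5060969008) (nat_lit 76) (nat_lit 7257497279) (nat_lit 115) (nat_lit 5) (nat_lit 121) (nat_lit 5) (nat_lit 116) (nat_lit 5) (nat_lit 492)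 (nat_lit 401) (nat_lit 247)) (XT.lf (nat_lit 0) (nat_lit 4037582118) (nat_lit 304) (nat_lit 5671602457) (nat_lit 380) (nat_lit 9012236195) (nat_lit 111) (nat_lit 5) (nat_lit 115) (nat_lit 5) (nat_lit 116) (nat_lit 5) (nat_lit 493) (nat_lit 401) (nat_lit 246)))) (XT.nd (nat_lit 156) (nat_lit 380) (nat_lit 0) (XT.nd (nat_lit 78) (nat_lit 380) (nat_lit 0) (XT.lf (nat_lit 0) (nat_lit 13358257055) (nat_lit 380) (nat_lit 5602628757) (nat_lit 76) (nat_lit 12984484) (nat_lit 111) (nat_lit 5) (nat_lit 116) (nat_lit 5) (nat_lit 112) (nat_lit 5) (nat_lit 494) (nat_lit 401) (nat_lit 245)) (XT.lf (nat_lit 0) (nat_lit 3655335735) (nat_lit 380) (nat_lit 13476186497) (nat_lit 456) (nat_lit 2098826893) (nat_lit 106) (nat_lit 5) (nat_lit 111) (nat_lit 5) (nat_lit 112) (nat_lit 5) (nat_lit 495) (nat_lit 401) (nat_lit 244))) (XT.nd (nat_lit 78) (nat_lit 304) (nat_lit 0) (XT.lf (nat_lit 0) (nat_lit 1496568421) (nat_lit 456) (nat_lit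 6342000296) (nat_lit 76) (nat_lit 11652644063) (nat_lit 105) (nat_lit 5) (nat_lit 111) (nat_lit 5) (nat_lit 106) (nat_lit 5) (nat_lit 496) (nat_lit 401) (nat_lit 243)) (XT.lf (nat_lit 0) (nat_lit 3087276136) (nat_lit 304) (nat_lit 2058707174) (nat_lit 380) (nat_lit 14610832912) (nat_lit 101) (nat_lit 5) (nat_lit 105) (nat_lit 5) (nat_lit 106) (nat_lit 5) (nat_lit 497) (nat_lit 401) (nat_lit 242))))))) (XT.nd (nat_lit 1092) (nat_lit 1672) (nat_lit 0) (XT.nd (nat_lit 546) (nat_lit 836) (nat_lit 0) (XT.nd (nat_lit 234) (nat_lit 684) (nat_lit 0) (XT.nd (nat_lit 78) (nat_lit 304) (nat_lit 0) (XT.lf (nat_lit 0) (nat_lit 8926344561) (nat_lit 380) (nat_lit 7276022626) (nat_lit 76) (nat_lit 3824209575) (nat_lit 101) (nat_lit 5) (nat_lit 106) (nat_lit 5) (nat_lit 102) (nat_lit 5) (nat_lit 498) (nat_lit 401) (nat_lit 241)) (XT.nd (nat_lit 78) (nat_lit 0) (nat_lit 0) (XT.lf (nat_lit 0) (nat_lit 2307231249) (nat_lit 304)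 (nat_lit 10494095024) (nat_lit 380) (nat_lit 7500030085) (nat_lit 97) (nat_lit 5) (nat_lit 101) (nat_lit 5) (nat_lit 102) (nat_lit 5) (nat_lit 499) (nat_lit 401) (nat_lit 240)) (XT.lf (nat_lit 0) (nat_lit 12166115847) (nat_lit 304) (nat_lit 4627010101) (nat_lit 380) (nat_lit 3787723261) (nat_lit 97) (nat_lit 5) (nat_lit 101) (nat_lit 5) (nat_lit 102) (nat_lit 5) (nat_lit 500) (nat_lit 401) (nat_lit 239)))) (XT.nd (nat_lit 156) (nat_lit 304) (nat_lit 0) (XT.nd (nat_lit 78) (nat_lit 0) (nat_lit 0) (XT.lf (nat_lit 0) (nat_lit 7123966) (nat_lit 380) (nat_lit 19515204472) (nat_lit 76) (nat_lit 1343441926) (nat_lit 92) (nat_lit 5) (nat_lit 97) (nat_lit 5) (nat_lit 93) (nat_lit 5) (nat_lit 501) (nat_lit 401) (nat_lit 238)) (XT.lf (nat_lit 0) (nat_lit 3905352127) (nat_lit 380) (nat_lit 9800691186) (nat_lit 76) (nat_lit 7448285656) (nat_lit 92) (nat_lit 5) (nat_lit 97) (nat_lit 5) (nat_lit 93) (nat_lit 5) (nat_lit 502)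 (nat_lit 401) (nat_lit 237))) (XT.nd (nat_lit 78) (nat_lit 0) (nat_lit 0) (XT.lf (nat_lit 0) (nat_lit 95079961) (nat_lit 304) (nat_lit 7777935641) (nat_lit 380) (nat_lit 13575817452) (nat_lit 88) (nat_lit 5) (nat_lit 92) (nat_lit 5) (nat_lit 93) (nat_lit 5) (nat_lit 503) (nat_lit 401) (nat_lit 236)) (XT.lf (nat_lit 0) (nat_lit 10307432027) (nat_lit 304) (nat_lit 1669308786) (nat_lit 380) (nat_lit 9771355885) (nat_lit 88) (nat_lit 5) (nat_lit 92) (nat_lit 5) (nat_lit 93) (nat_lit 5) (nat_lit 504) (nat_lit 401) (nat_lit 235))))) (XT.nd (nat_lit 234) (nat_lit 532) (nat_lit 0) (XT.nd (nat_lit 78) (nat_lit 304) (nat_lit 0) (XT.lf (nat_lit 0) (nat_lit 16183242429) (nat_lit 380) (nat_lit 1372986593) (nat_lit 76) (nat_lit 4496706135) (nat_lit 88) (nat_lit 5) (nat_lit 93) (nat_lit 5) (nat_lit 89) (nat_lit 5) (nat_lit 505) (nat_lit 401) (nat_lit 234)) (XT.nd (nat_lit 78) (nat_lit 76) (nat_lit 0) (XT.lf (nat_lit 0) (nat_lit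 8989103448) (nat_lit 228) (nat_lit 11545449342) (nat_lit 304) (nat_lit 1828107528) (nat_lit 85) (nat_lit 5) (nat_lit 88) (nat_lit 5) (nat_lit 89) (nat_lit 5) (nat_lit 506) (nat_lit 401) (nat_lit 233)) (XT.lf (nat_lit 0) (nat_lit 2264775796) (nat_lit 304) (nat_lit 3130115271) (nat_lit 76) (nat_lit 17283383229) (nat_lit 84) (nat_lit 5) (nat_lit 88) (nat_lit 5) (nat_lit 85) (nat_lit 5) (nat_lit 507) (nat_lit 401) (nat_lit 232)))) (XT.nd (nat_lit 156) (nat_lit 228) (nat_lit 0) (XT.nd (nat_lit 78) (nat_lit 0) (nat_lit 0) (XT.lf (nat_lit 0) (nat_lit 6460562239) (nat_lit 380) (nat_lit 15615779023) (nat_lit 76) (nat_lit 922710445) (nat_lit 80) (nat_lit 5) (nat_lit 85) (nat_lit 5) (nat_lit 81) (nat_lit 5) (nat_lit 508) (nat_lit 401) (nat_lit 231)) (XT.lf (nat_lit 0) (nat_lit 10788637066) (nat_lit 380) (nat_lit 5225922738) (nat_lit 76) (nat_lit 7310720648) (nat_lit 80) (nat_lit 5) (nat_lit 85) (nat_lit 5) (nat_lit 81)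 (nat_lit 5) (nat_lit 509) (nat_lit 401) (nat_lit 230))) (XT.nd (nat_lit 78) (nat_lit 0) (nat_lit 0) (XT.lf (nat_lit 0) (nat_lit 5429618304) (nat_lit 228) (nat_lit 9800575490) (nat_lit 304) (nat_lit 8427304749) (nat_lit 77) (nat_lit 5) (nat_lit 80) (nat_lit 5) (nat_lit 81) (nat_lit 5) (nat_lit 510) (nat_lit 401) (nat_lit 229)) (XT.lf (nat_lit 0) (nat_lit 16355873790) (nat_lit 228) (nat_lit 3431521727) (nat_lit 304) (nat_lit 4208432316) (nat_lit 77) (nat_lit 5) (nat_lit 80) (nat_lit 5) (nat_lit 81) (nat_lit 5) (nat_lit 511) (nat_lit 401) (nat_lit 228)))))) (XT.nd (nat_lit 546) (nat_lit 760) (nat_lit 0) (XT.nd (nat_lit 234) (nat_lit 304) (nat_lit 0) (XT.nd (nat_lit 78) (nat_lit 228) (nat_lit 0) (XT.lf (nat_lit 0) (nat_lit 126130526) (nat_lit 380) (nat_lit 21172834776) (nat_lit 76) (nat_lit 3041297956) (nat_lit 72) (nat_lit 5) (nat_lit 77) (nat_lit 5) (nat_lit 73) (nat_lit 5) (nat_lit 512) (nat_lit 401) (nat_lit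 227)) (XT.nd (nat_lit 78) (nat_lit 228) (nat_lit 0) (XT.lf (nat_lit 0) (nat_lit 4557313156) (nat_lit 380) (nat_lit 10460110285) (nat_lit 76) (nat_lit 9672284945) (nat_lit 72) (nat_lit 5) (nat_lit 77) (nat_lit 5) (nat_lit 73) (nat_lit 5) (nat_lit 513) (nat_lit 401) (nat_lit 226)) (XT.lf (nat_lit 0) (nat_lit 460026281) (nat_lit 228) (nat_lit 8612132713) (nat_lit 304) (nat_lit 15974085507) (nat_lit 69) (nat_lit 5) (nat_lit 72) (nat_lit 5) (nat_lit 73) (nat_lit 5) (nat_lit 514) (nat_lit 401) (nat_lit 225)))) (XT.nd (nat_lit 156) (nat_lit 304) (nat_lit 0) (XT.nd (nat_lit 78) (nat_lit 0) (nat_lit 0) (XT.lf (nat_lit 0) (nat_lit 11727564095) (nat_lit 228) (nat_lit 2012056041) (nat_lit 304) (nat_lit 11669047655) (nat_lit 69) (nat_lit 5) (nat_lit 72) (nat_lit 5) (nat_lit 73) (nat_lit 5) (nat_lit 515) (nat_lit 401) (nat_lit 224)) (XT.lf (nat_lit 0) (nat_lit 18523324665) (nat_lit 304) (nat_lit 2601198496) (nat_lit 76) (nat_lit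 4653361270) (nat_lit 69) (nat_lit 5) (nat_lit 73) (nat_lit 5) (nat_lit 70) (nat_lit 5) (nat_lit 516) (nat_lit 401) (nat_lit 223))) (XT.nd (nat_lit 78) (nat_lit 76) (nat_lit 0) (XT.lf (nat_lit 0) (nat_lit 8789842555) (nat_lit 228) (nat_lit 14675655724) (nat_lit 304) (nat_lit 2687733934) (nat_lit 66) (nat_lit 5) (nat_lit 69) (nat_lit 5) (nat_lit 70) (nat_lit 5) (nat_lit 517) (nat_lit 401) (nat_lit 222)) (XT.lf (nat_lit 0) (nat_lit 1954573954) (nat_lit 304) (nat_lit 6117121841) (nat_lit 76) (nat_lit 18463938136) (nat_lit 65) (nat_lit 5) (nat_lit 69) (nat_lit 5) (nat_lit 66) (nat_lit 5) (nat_lit 518) (nat_lit 401) (nat_lit 221))))) (XT.nd (nat_lit 234) (nat_lit 304) (nat_lit 0) (XT.nd (nat_lit 78) (nat_lit 228) (nat_lit 0) (XT.lf (nat_lit 0) (nat_lit 5394830423) (nat_lit 228) (nat_lit 1286535017) (nat_lit 304) (nat_lit 20243412955) (nat_lit 62) (nat_lit 5) (nat_lit 65) (nat_lit 5) (nat_lit 66) (nat_lit 5) (nat_lit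 519) (nat_lit 401) (nat_lit 220)) (XT.nd (nat_lit 78) (nat_lit 228) (nat_lit 0) (XT.lf (nat_lit 0) (nat_lit 11573197534) (nat_lit 304) (nat_lit 10150031790) (nat_lit 76) (nat_lit 5597068834) (nat_lit 62) (nat_lit 5) (nat_lit 66) (nat_lit 5) (nat_lit 63) (nat_lit 5) (nat_lit 520) (nat_lit 401) (nat_lit 219)) (XT.lf (nat_lit 0) (nat_lit 1456064751) (nat_lit 228) (nat_lit 15117522435) (nat_lit 304) (nat_lit 11149929169) (nat_lit 59) (nat_lit 5) (nat_lit 62) (nat_lit 5) (nat_lit 63) (nat_lit 5) (nat_lit 521) (nat_lit 401) (nat_lit 218)))) (XT.nd (nat_lit 156) (nat_lit 304) (nat_lit 0) (XT.nd (nat_lit 78) (nat_lit 0) (nat_lit 0) (XT.lf (nat_lit 0) (nat_lit 13419954071) (nat_lit 228) (nat_lit 8314954544) (nat_lit 304) (nat_lit 6398674227) (nat_lit 59) (nat_lit 5) (nat_lit 62) (nat_lit 5) (nat_lit 63) (nat_lit 5) (nat_lit 522) (nat_lit 401) (nat_lit 217)) (XT.lf (nat_lit 0) (nat_lit 25611439311) (nat_lit 228) (nat_lit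 1380970036) (nat_lit 304) (nat_lit 1559584617) (nat_lit 59) (nat_lit 5) (nat_lit 62) (nat_lit 5) (nat_lit 63) (nat_lit 5) (nat_lit 523) (nat_lit 401) (nat_lit 216))) (XT.nd (nat_lit 49842) (nat_lit 0) (nat_lit 35112) (XT.lf (nat_lit 0) (nat_lit 3421950018) (nat_lit 304) (nat_lit 19860174557) (nat_lit 76) (nat_lit 5694413701) (nat_lit 55) (nat_lit 5) (nat_lit 59) (nat_lit 5) (nat_lit 56) (nat_lit 5) (nat_lit 524) (nat_lit 401) (nat_lit 215)) (XT.lf (nat_lit 0) (nat_lit 452894689) (nat_lit 0) (nat_lit 452894689) (nat_lit 1140) (nat_lit 2786043204) (nat_lit 517) (nat_lit 5) (nat_lit 517) (nat_lit 3) (nat_lit 532) (nat_lit 3) (nat_lit 402) (nat_lit 402) (nat_lit 336))))))))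
noncomputable def xc155 : XT := (XT.nd (nat_lit 2184) (nat_lit 12844) (nat_lit 0) (XT.nd (nat_lit 1092) (nat_lit 7068) (nat_lit 0) (XT.nd (nat_lit 546) (nat_lit 1140) (nat_lit 0) (XT.nd (nat_lit 234) (nat_lit 1216) (nat_lit 0) (XT.nd (nat_lit 78) (nat_lit 0) (nat_lit 0) (XT.lf (nat_lit 0) (nat_lit 3291379534) (nat_lit 1140) (nat_lit 3078552389) (nat_lit 1216) (nat_lit 1056924878) (nat_lit 517) (nat_lit 5) (nat_lit 532) (nat_lit 3) (nat_lit 533) (nat_lit 5) (nat_lit 403) (nat_lit 402) (nat_lit 335)) (XT.nd (nat_lit 78) (nat_lit 0) (nat_lit 0) (XT.lf (nat_lit 76) (nat_lit 367576582) (nat_lit 0) (nat_lit 4403550640) (nat_lit 1216) (nat_lit 2700415047) (nat_lit 518) (nat_lit 5) (nat_lit 517) (nat_lit 5) (nat_lit 533) (nat_lit 5) (nat_lit 404) (nat_lit 402) (nat_lit 334)) (XT.lf (nat_lit 76) (nat_lit 3904487200) (nat_lit 0) (nat_lit 2359223866) (nat_lit 1216) (nat_lit 1253781852) (nat_lit 518) (nat_lit 5) (nat_lit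 517) (nat_lit 5) (nat_lit 533) (nat_lit 5) (nat_lit 405) (nat_lit 402) (nat_lit 333)))) (XT.nd (nat_lit 156) (nat_lit 0) (nat_lit 76) (XT.nd (nat_lit 78) (nat_lit 0) (nat_lit 76) (XT.lf (nat_lit 0) (nat_lit 181913385) (nat_lit 1216) (nat_lit 73674490) (nat_lit 1292) (nat_lit 7309520026) (nat_lit 501) (nat_lit 5) (nat_lit 517) (nat_lit 5) (nat_lit 518) (nat_lit 5) (nat_lit 406) (nat_lit 402) (nat_lit 332)) (XT.lf (nat_lit 0) (nat_lit 1628983025) (nat_lit 1216) (nat_lit 4071243146) (nat_lit 1292) (nat_lit 1913328489) (nat_lit 502) (nat_lit 5) (nat_lit 518) (nat_lit 5) (nat_lit 519) (nat_lit 5) (nat_lit 407) (nat_lit 402) (nat_lit 331))) (XT.nd (nat_lit 78) (nat_lit 0) (nat_lit 0) (XT.lf (nat_lit 0) (nat_lit 3071636195) (nat_lit 1216) (nat_lit 453378625) (nat_lit 1292) (nat_lit 4138656222) (nat_lit 502) (nat_lit 5) (nat_lit 518) (nat_lit 5) (nat_lit 519) (nat_lit 5) (nat_lit 408) (nat_lit 402) (nat_lit 330)) (XT.lf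 (nat_lit 76) (nat_lit 3259654766) (nat_lit 0) (nat_lit 1269800360) (nat_lit 1292) (nat_lit 3185641243) (nat_lit 503) (nat_lit 5) (nat_lit 502) (nat_lit 5) (nat_lit 519) (nat_lit 5) (nat_lit 409) (nat_lit 402) (nat_lit 329))))) (XT.nd (nat_lit 234) (nat_lit 0) (nat_lit 76) (XT.nd (nat_lit 78) (nat_lit 1292) (nat_lit 0) (XT.lf (nat_lit 0) (nat_lit 5991981476) (nat_lit 1216) (nat_lit 741726241) (nat_lit 1292) (nat_lit 1034363695) (nat_lit 503) (nat_lit 5) (nat_lit 519) (nat_lit 5) (nat_lit 520) (nat_lit 5) (nat_lit 410) (nat_lit 402) (nat_lit 328)) (XT.nd (nat_lit 78) (nat_lit 1292) (nat_lit 0) (XT.lf (nat_lit 76) (nat_lit 3057740879) (nat_lit 0) (nat_lit 4420747934) (nat_lit 1292) (nat_lit 343754127) (nat_lit 504) (nat_lit 5) (nat_lit 503) (nat_lit 5) (nat_lit 520) (nat_lit 5) (nat_lit 411) (nat_lit 402) (nat_lit 327)) (XT.lf (nat_lit 0) (nat_lit 1074332336) (nat_lit 1292) (nat_lit 961988857) (nat_lit 1368) (nat_lit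 5841626867) (nat_lit 486) (nat_lit 5) (nat_lit 503) (nat_lit 5) (nat_lit 504) (nat_lit 5) (nat_lit 412) (nat_lit 402) (nat_lit 326)))) (XT.nd (nat_lit 156) (nat_lit 0) (nat_lit 0) (XT.nd (nat_lit 78) (nat_lit 0) (nat_lit 0) (XT.lf (nat_lit 0) (nat_lit 2505412443) (nat_lit 1292) (nat_lit 5005207087) (nat_lit 1368) (nat_lit 424347386) (nat_lit 487) (nat_lit 5) (nat_lit 504) (nat_lit 5) (nat_lit 505) (nat_lit 5) (nat_lit 413) (nat_lit 402) (nat_lit 325)) (XT.lf (nat_lit 0) (nat_lit 3953083865) (nat_lit 1292) (nat_lit 1114911046) (nat_lit 1368) (nat_lit 2925401033) (nat_lit 487) (nat_lit 5) (nat_lit 504) (nat_lit 5) (nat_lit 505) (nat_lit 5) (nat_lit 414) (nat_lit 402) (nat_lit 324))) (XT.nd (nat_lit 78) (nat_lit 0) (nat_lit 76) (XT.lf (nat_lit 76) (nat_lit 2870475775) (nat_lit 0) (nat_lit 2546483639) (nat_lit 1368) (nat_lit 2636317742) (nat_lit 488) (nat_lit 5) (nat_lit 487) (nat_lit 5) (nat_lit 505) (nat_lit 5)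 (nat_lit 415) (nat_lit 402) (nat_lit 323)) (XT.lf (nat_lit 0) (nat_lit 6886976008) (nat_lit 1292) (nat_lit 1184681342) (nat_lit 1368) (nat_lit 43189429) (nat_lit 488) (nat_lit 5) (nat_lit 505) (nat_lit 5) (nat_lit 506) (nat_lit 5) (nat_lit 416) (nat_lit 402) (nat_lit 322)))))) (XT.nd (nat_lit 546) (nat_lit 4560) (nat_lit 0) (XT.nd (nat_lit 234) (nat_lit 1292) (nat_lit 0) (XT.nd (nat_lit 78) (nat_lit 0) (nat_lit 0) (XT.lf (nat_lit 0) (nat_lit 211441447) (nat_lit 1368) (nat_lit 5284998832) (nat_lit 1444) (nat_lit 2681098694) (nat_lit 470) (nat_lit 5) (nat_lit 488) (nat_lit 5) (nat_lit 489) (nat_lit 5) (nat_lit 417) (nat_lit 402) (nat_lit 321)) (XT.nd (nat_lit 78) (nat_lit 0) (nat_lit 0) (XT.lf (nat_lit 0) (nat_lit 1641124720) (nat_lit 1368) (nat_lit 1202968201) (nat_lit 1444) (nat_lit 5397695682) (nat_lit 470) (nat_lit 5) (nat_lit 488) (nat_lit 5) (nat_lit 489) (nat_lit 5) (nat_lit 418) (nat_lit 402) (nat_lit 320))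 (XT.lf (nat_lit 76) (nat_lit 2979363551) (nat_lit 0) (nat_lit 109978336) (nat_lit 1444) (nat_lit 5218208455) (nat_lit 471) (nat_lit 5) (nat_lit 470) (nat_lit 5) (nat_lit 489) (nat_lit 5) (nat_lit 419) (nat_lit 402) (nat_lit 319)))) (XT.nd (nat_lit 156) (nat_lit 1368) (nat_lit 0) (XT.nd (nat_lit 78) (nat_lit 0) (nat_lit 0) (XT.lf (nat_lit 0) (nat_lit 4563139521) (nat_lit 1368) (nat_lit 1151204514) (nat_lit 1444) (nat_lit 2660376370) (nat_lit 471) (nat_lit 5) (nat_lit 489) (nat_lit 5) (nat_lit 490) (nat_lit 5) (nat_lit 420) (nat_lit 402) (nat_lit 318)) (XT.lf (nat_lit 76) (nat_lit 3129097345) (nat_lit 0) (nat_lit 2930024432) (nat_lit 1444) (nat_lit 2384282830) (nat_lit 472) (nat_lit 5) (nat_lit 471) (nat_lit 5) (nat_lit 490) (nat_lit 5) (nat_lit 421) (nat_lit 402) (nat_lit 317))) (XT.nd (nat_lit 78) (nat_lit 1368) (nat_lit 0) (XT.lf (nat_lit 76) (nat_lit 7490214787) (nat_lit 0) (nat_lit 74621427) (nat_lit 1444)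 (nat_lit 949054453) (nat_lit 472) (nat_lit 5) (nat_lit 471) (nat_lit 5) (nat_lit 490) (nat_lit 5) (nat_lit 422) (nat_lit 402) (nat_lit 316)) (XT.lf (nat_lit 0) (nat_lit 521096433) (nat_lit 1444) (nat_lit 5231214647) (nat_lit 1520) (nat_lit 2833172574) (nat_lit 453) (nat_lit 5) (nat_lit 472) (nat_lit 5) (nat_lit 473) (nat_lit 5) (nat_lit 423) (nat_lit 402) (nat_lit 315))))) (XT.nd (nat_lit 234) (nat_lit 4560) (nat_lit 0) (XT.nd (nat_lit 78) (nat_lit 0) (nat_lit 76) (XT.lf (nat_lit 0) (nat_lit 1988247222) (nat_lit 1444) (nat_lit 852409209) (nat_lit 1520) (nat_lit 5818143525) (nat_lit 453) (nat_lit 5) (nat_lit 472) (nat_lit 5) (nat_lit 473) (nat_lit 5) (nat_lit 424) (nat_lit 402) (nat_lit 314)) (XT.nd (nat_lit 78) (nat_lit 0) (nat_lit 0) (XT.lf (nat_lit 0) (nat_lit 3482833488) (nat_lit 1444) (nat_lit 5093424344) (nat_lit 76) (nat_lit 157385467) (nat_lit 454) (nat_lit 5) (nat_lit 473) (nat_lit 5) (nat_lit 455) (nat_lit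 5) (nat_lit 425) (nat_lit 402) (nat_lit 313)) (XT.lf (nat_lit 0) (nat_lit 5005724726) (nat_lit 1444) (nat_lit 615367807) (nat_lit 76) (nat_lit 3188944833) (nat_lit 454) (nat_lit 5) (nat_lit 473) (nat_lit 5) (nat_lit 455) (nat_lit 5) (nat_lit 426) (nat_lit 402) (nat_lit 312)))) (XT.nd (nat_lit 156) (nat_lit 3192) (nat_lit 0) (XT.nd (nat_lit 78) (nat_lit 0) (nat_lit 0) (XT.lf (nat_lit 0) (nat_lit 3984007860) (nat_lit 1444) (nat_lit 2575288588) (nat_lit 1520) (nat_lit 2328680102) (nat_lit 435) (nat_lit 5) (nat_lit 454) (nat_lit 5) (nat_lit 455) (nat_lit 5) (nat_lit 427) (nat_lit 402) (nat_lit 311)) (XT.lf (nat_lit 0) (nat_lit 8126305200) (nat_lit 1520) (nat_lit 308073973) (nat_lit 76) (nat_lit 533469296) (nat_lit 435) (nat_lit 5) (nat_lit 455) (nat_lit 5) (nat_lit 436) (nat_lit 5) (nat_lit 428) (nat_lit 402) (nat_lit 310))) (XT.nd (nat_lit 78) (nat_lit 1596) (nat_lit 0) (XT.lf (nat_lit 0) (nat_lit 687471996) (nat_lit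 1596) (nat_lit 4653561686) (nat_lit 76) (nat_lit 3707797029) (nat_lit 414) (nat_lit 5) (nat_lit 435) (nat_lit 5) (nat_lit 415) (nat_lit 5) (nat_lit 429) (nat_lit 402) (nat_lit 309)) (XT.lf (nat_lit 0) (nat_lit 39678836) (nat_lit 1596) (nat_lit 2173894229) (nat_lit 1672) (nat_lit 6918212842) (nat_lit 393) (nat_lit 5) (nat_lit 414) (nat_lit 5) (nat_lit 415) (nat_lit 5) (nat_lit 430) (nat_lit 402) (nat_lit 308))))))) (XT.nd (nat_lit 1092) (nat_lit 5624) (nat_lit 0) (XT.nd (nat_lit 546) (nat_lit 3344) (nat_lit 0) (XT.nd (nat_lit 234) (nat_lit 2204) (nat_lit 0) (XT.nd (nat_lit 78) (nat_lit 1672) (nat_lit 0) (XT.lf (nat_lit 0) (nat_lit 3784287365) (nat_lit 1672) (nat_lit 4354088045) (nat_lit 76) (nat_lit 1077762617) (nat_lit 393) (nat_lit 5) (nat_lit 415) (nat_lit 5) (nat_lit 394) (nat_lit 5) (nat_lit 431) (nat_lit 402) (nat_lit 307)) (XT.nd (nat_lit 78) (nat_lit 0) (nat_lit 0) (XT.lf (nat_lit 0) (nat_lit 449493887)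 (nat_lit 1672) (nat_lit 4930508188) (nat_lit 1748) (nat_lit 3922322650) (nat_lit 371) (nat_lit 5) (nat_lit 393) (nat_lit 5) (nat_lit 394) (nat_lit 5) (nat_lit 432) (nat_lit 402) (nat_lit 306)) (XT.lf (nat_lit 0) (nat_lit 5387608407) (nat_lit 1672) (nat_lit 1625843742) (nat_lit 1748) (nat_lit 2376685468) (nat_lit 371) (nat_lit 5) (nat_lit 393) (nat_lit 5) (nat_lit 394) (nat_lit 5) (nat_lit 433) (nat_lit 402) (nat_lit 305)))) (XT.nd (nat_lit 156) (nat_lit 836) (nat_lit 0) (XT.nd (nat_lit 78) (nat_lit 76) (nat_lit 0) (XT.lf (nat_lit 0) (nat_lit 924927841) (nat_lit 1292) (nat_lit 7749057443) (nat_lit 1368) (nat_lit 805851712) (nat_lit 354) (nat_lit 5) (nat_lit 371) (nat_lit 5) (nat_lit 372) (nat_lit 5) (nat_lit 434) (nat_lit 402) (nat_lit 304)) (XT.lf (nat_lit 0) (nat_lit 800986218) (nat_lit 1368) (nat_lit 3602556223) (nat_lit 76) (nat_lit 5167401652) (nat_lit 353) (nat_lit 5) (nat_lit 371) (nat_lit 5) (nat_lit 354)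 (nat_lit 5) (nat_lit 435) (nat_lit 402) (nat_lit 303))) (XT.nd (nat_lit 78) (nat_lit 0) (nat_lit 0) (XT.lf (nat_lit 0) (nat_lit 1441990922) (nat_lit 836) (nat_lit 974226865) (nat_lit 912) (nat_lit 7247825507) (nat_lit 342) (nat_lit 5) (nat_lit 353) (nat_lit 5) (nat_lit 354) (nat_lit 5) (nat_lit 436) (nat_lit 402) (nat_lit 302)) (XT.lf (nat_lit 0) (nat_lit 4082466489) (nat_lit 912) (nat_lit 3159566188) (nat_lit 76) (nat_lit 2516614654) (nat_lit 342) (nat_lit 5) (nat_lit 354) (nat_lit 5) (nat_lit 343) (nat_lit 5) (nat_lit 437) (nat_lit 402) (nat_lit 301))))) (XT.nd (nat_lit 234) (nat_lit 1672) (nat_lit 0) (XT.nd (nat_lit 78) (nat_lit 836) (nat_lit 0) (XT.lf (nat_lit 0) (nat_lit 2003640755) (nat_lit 836) (nat_lit 3776283718) (nat_lit 912) (nat_lit 4075278057) (nat_lit 331) (nat_lit 5) (nat_lit 342) (nat_lit 5) (nat_lit 343) (nat_lit 5) (nat_lit 438) (nat_lit 402) (nat_lit 300)) (XT.nd (nat_lit 78) (nat_lit 836)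 (nat_lit 0) (XT.lf (nat_lit 0) (nat_lit 7292719265) (nat_lit 836) (nat_lit 218529991) (nat_lit 912) (nat_lit 2442457659) (nat_lit 331) (nat_lit 5) (nat_lit 342) (nat_lit 5) (nat_lit 343) (nat_lit 5) (nat_lit 439) (nat_lit 402) (nat_lit 299)) (XT.lf (nat_lit 0) (nat_lit 2625423356) (nat_lit 836) (nat_lit 6670105014) (nat_lit 912) (nat_lit 758302576) (nat_lit 320) (nat_lit 5) (nat_lit 331) (nat_lit 5) (nat_lit 332) (nat_lit 5) (nat_lit 440) (nat_lit 402) (nat_lit 298)))) (XT.nd (nat_lit 156) (nat_lit 760) (nat_lit 0) (XT.nd (nat_lit 78) (nat_lit 836) (nat_lit 0) (XT.lf (nat_lit 0) (nat_lit 945639056) (nat_lit 912) (nat_lit 2130185540) (nat_lit 76) (nat_lit 7080049993) (nat_lit 319) (nat_lit 5) (nat_lit 331) (nat_lit 5) (nat_lit 320) (nat_lit 5) (nat_lit 441) (nat_lit 402) (nat_lit 297)) (XT.lf (nat_lit 0) (nat_lit 2678572121) (nat_lit 912) (nat_lit 6971728915) (nat_lit 76) (nat_lit 609471683) (nat_lit 308) (nat_lit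 5) (nat_lit 320) (nat_lit 5) (nat_lit 309) (nat_lit 5) (nat_lit 442) (nat_lit 402) (nat_lit 296))) (XT.nd (nat_lit 78) (nat_lit 760) (nat_lit 0) (XT.lf (nat_lit 0) (nat_lit 4460865786) (nat_lit 912) (nat_lit 1562722058) (nat_lit 76) (nat_lit 4341881814) (nat_lit 308) (nat_lit 5) (nat_lit 320) (nat_lit 5) (nat_lit 309) (nat_lit 5) (nat_lit 443) (nat_lit 402) (nat_lit 295)) (XT.lf (nat_lit 0) (nat_lit 3986843559) (nat_lit 760) (nat_lit 2298183181) (nat_lit 836) (nat_lit 4188143964) (nat_lit 298) (nat_lit 5) (nat_lit 308) (nat_lit 5) (nat_lit 309) (nat_lit 5) (nat_lit 444) (nat_lit 402) (nat_lit 294)))))) (XT.nd (nat_lit 546) (nat_lit 2660) (nat_lit 0) (XT.nd (nat_lit 234) (nat_lit 2128) (nat_lit 0) (XT.nd (nat_lit 78) (nat_lit 836) (nat_lit 0) (XT.lf (nat_lit 0) (nat_lit 8146568193) (nat_lit 836) (nat_lit 944230702) (nat_lit 76) (nat_lit 1492223239) (nat_lit 298) (nat_lit 5) (nat_lit 309) (nat_lit 5) (nat_lit 299)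 (nat_lit 5) (nat_lit 445) (nat_lit 402) (nat_lit 293)) (XT.nd (nat_lit 78) (nat_lit 76) (nat_lit 0) (XT.lf (nat_lit 0) (nat_lit 4735816060) (nat_lit 760) (nat_lit 5336463718) (nat_lit 836) (nat_lit 622266059) (nat_lit 288) (nat_lit 5) (nat_lit 298) (nat_lit 5) (nat_lit 299) (nat_lit 5) (nat_lit 446) (nat_lit 402) (nat_lit 292)) (XT.lf (nat_lit 0) (nat_lit 1199554725) (nat_lit 836) (nat_lit 293844235) (nat_lit 76) (nat_lit 9315005905) (nat_lit 287) (nat_lit 5) (nat_lit 298) (nat_lit 5) (nat_lit 288) (nat_lit 5) (nat_lit 447) (nat_lit 402) (nat_lit 291)))) (XT.nd (nat_lit 156) (nat_lit 684) (nat_lit 0) (XT.nd (nat_lit 78) (nat_lit 760) (nat_lit 0) (XT.lf (nat_lit 0) (nat_lit 3082876690) (nat_lit 760) (nat_lit 5406877263) (nat_lit 76) (nat_lit 2434050138) (nat_lit 278) (nat_lit 5) (nat_lit 288) (nat_lit 5) (nat_lit 279) (nat_lit 5) (nat_lit 448) (nat_lit 402) (nat_lit 290)) (XT.lf (nat_lit 0) (nat_lit 381757430)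 (nat_lit 760) (nat_lit 4618142008) (nat_lit 836) (nat_lit 6041704137) (nat_lit 268) (nat_lit 5) (nat_lit 278) (nat_lit 5) (nat_lit 279) (nat_lit 5) (nat_lit 449) (nat_lit 402) (nat_lit 289))) (XT.nd (nat_lit 78) (nat_lit 684) (nat_lit 0) (XT.lf (nat_lit 0) (nat_lit 6339815681) (nat_lit 760) (nat_lit 633642388) (nat_lit 836) (nat_lit 4187949779) (nat_lit 268) (nat_lit 5) (nat_lit 278) (nat_lit 5) (nat_lit 279) (nat_lit 5) (nat_lit 450) (nat_lit 402) (nat_lit 288)) (XT.lf (nat_lit 0) (nat_lit 1106046605) (nat_lit 684) (nat_lit 7892153047) (nat_lit 760) (nat_lit 2285186774) (nat_lit 259) (nat_lit 5) (nat_lit 268) (nat_lit 5) (nat_lit 269) (nat_lit 5) (nat_lit 451) (nat_lit 402) (nat_lit 287))))) (XT.nd (nat_lit 312) (nat_lit 1292) (nat_lit 0) (XT.nd (nat_lit 156) (nat_lit 608) (nat_lit 0) (XT.nd (nat_lit 78) (nat_lit 760) (nat_lit 0) (XT.lf (nat_lit 0) (nat_lit 7193860167) (nat_lit 684) (nat_lit 3888578624) (nat_lit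 760) (nat_lit 324997945) (nat_lit 259) (nat_lit 5) (nat_lit 268) (nat_lit 5) (nat_lit 269) (nat_lit 5) (nat_lit 452) (nat_lit 402) (nat_lit 286)) (XT.lf (nat_lit 0) (nat_lit 1648636955) (nat_lit 760) (nat_lit 9671582044) (nat_lit 76) (nat_lit 213619320) (nat_lit 249) (nat_lit 5) (nat_lit 259) (nat_lit 5) (nat_lit 250) (nat_lit 5) (nat_lit 453) (nat_lit 402) (nat_lit 285))) (XT.nd (nat_lit 78) (nat_lit 608) (nat_lit 0) (XT.lf (nat_lit 0) (nat_lit 3694508932) (nat_lit 760) (nat_lit 3593127979) (nat_lit 76) (nat_lit 4374357243) (nat_lit 249) (nat_lit 5) (nat_lit 259) (nat_lit 5) (nat_lit 250) (nat_lit 5) (nat_lit 454) (nat_lit 402) (nat_lit 284)) (XT.lf (nat_lit 0) (nat_lit 2622112353) (nat_lit 608) (nat_lit 3159443122) (nat_lit 684) (nat_lit 6011163772) (nat_lit 241) (nat_lit 5) (nat_lit 249) (nat_lit 5) (nat_lit 250) (nat_lit 5) (nat_lit 455) (nat_lit 402) (nat_lit 283)))) (XT.nd (nat_lit 156) (nat_lit 684) (nat_lit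 0) (XT.nd (nat_lit 78) (nat_lit 608) (nat_lit 0) (XT.lf (nat_lit 0) (nat_lit 7924861861) (nat_lit 684) (nat_lit 2941571166) (nat_lit 76) (nat_lit 1059346499) (nat_lit 241) (nat_lit 5) (nat_lit 250) (nat_lit 5) (nat_lit 242) (nat_lit 5) (nat_lit 456) (nat_lit 402) (nat_lit 282)) (XT.lf (nat_lit 0) (nat_lit 3416943152) (nat_lit 608) (nat_lit 6720946433) (nat_lit 684) (nat_lit 1923085165) (nat_lit 233) (nat_lit 5) (nat_lit 241) (nat_lit 5) (nat_lit 242) (nat_lit 5) (nat_lit 457) (nat_lit 402) (nat_lit 281))) (XT.nd (nat_lit 78) (nat_lit 608) (nat_lit 0) (XT.lf (nat_lit 0) (nat_lit 197425683) (nat_lit 684) (nat_lit 2276475724) (nat_lit 76) (nat_lit 9724883480) (nat_lit 232) (nat_lit 5) (nat_lit 241) (nat_lit 5) (nat_lit 233) (nat_lit 5) (nat_lit 458) (nat_lit 402) (nat_lit 280)) (XT.lf (nat_lit 0) (nat_lit 2358621895) (nat_lit 684) (nat_lit 8108565258) (nat_lit 76) (nat_lit 1871439555) (nat_lit 224) (nat_lit 5) (nat_lit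 233) (nat_lit 5) (nat_lit 225) (nat_lit 5) (nat_lit 459) (nat_lit 402) (nat_lit 279))))))))
noncomputable def xc156 : XT := (XT.nd (nat_lit 2184) (nat_lit 4636) (nat_lit 0) (XT.nd (nat_lit 1092) (nat_lit 3268) (nat_lit 0) (XT.nd (nat_lit 546) (nat_lit 1596) (nat_lit 0) (XT.nd (nat_lit 234) (nat_lit 1672) (nat_lit 0) (XT.nd (nat_lit 78) (nat_lit 608) (nat_lit 0) (XT.lf (nat_lit 0) (nat_lit 4579117354) (nat_lit 684) (nat_lit 1618756582) (nat_lit 76) (nat_lit 6283079943) (nat_lit 224) (nat_lit 5) (nat_lit 233) (nat_lit 5) (nat_lit 225) (nat_lit 5) (nat_lit 460) (nat_lit 402) (nat_lit 278)) (XT.nd (nat_lit 78) (nat_lit 0) (nat_lit 0) (XT.lf (nat_lit 0) (nat_lit 5048531530) (nat_lit 608) (nat_lit 1812891519) (nat_lit 684) (nat_lit 5764366358) (nat_lit 216) (nat_lit 5) (nat_lit 224) (nat_lit 5) (nat_lit 225) (nat_lit 5) (nat_lit 461) (nat_lit 402) (nat_lit 277)) (XT.lf (nat_lit 0) (nat_lit 9202361715) (nat_lit 684)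 (nat_lit 938237316) (nat_lit 76) (nat_lit 2632672510) (nat_lit 216) (nat_lit 5) (nat_lit 225) (nat_lit 5) (nat_lit 217) (nat_lit 5) (nat_lit 462) (nat_lit 402) (nat_lit 276)))) (XT.nd (nat_lit 156) (nat_lit 1064) (nat_lit 0) (XT.nd (nat_lit 78) (nat_lit 76) (nat_lit 0) (XT.lf (nat_lit 0) (nat_lit 5880346281) (nat_lit 532) (nat_lit 5745039338) (nat_lit 608) (nat_lit 1297621809) (nat_lit 209) (nat_lit 5) (nat_lit 216) (nat_lit 5) (nat_lit 217) (nat_lit 5) (nat_lit 463) (nat_lit 402) (nat_lit 275)) (XT.lf (nat_lit 0) (nat_lit 999226347) (nat_lit 608) (nat_lit 252683163) (nat_lit 76) (nat_lit 11823875265) (nat_lit 208) (nat_lit 5) (nat_lit 216) (nat_lit 5) (nat_lit 209) (nat_lit 5) (nat_lit 464) (nat_lit 402) (nat_lit 274))) (XT.nd (nat_lit 78) (nat_lit 532) (nat_lit 0) (XT.lf (nat_lit 0) (nat_lit 3375770675) (nat_lit 608) (nat_lit 6518052089) (nat_lit 76) (nat_lit 3336609569) (nat_lit 201) (nat_lit 5) (nat_lit 209)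 (nat_lit 5) (nat_lit 202) (nat_lit 5) (nat_lit 465) (nat_lit 402) (nat_lit 273)) (XT.lf (nat_lit 0) (nat_lit 410905623) (nat_lit 532) (nat_lit 5387191916) (nat_lit 608) (nat_lit 7590118993) (nat_lit 194) (nat_lit 5) (nat_lit 201) (nat_lit 5) (nat_lit 202) (nat_lit 5) (nat_lit 466) (nat_lit 402) (nat_lit 272))))) (XT.nd (nat_lit 234) (nat_lit 1064) (nat_lit 0) (XT.nd (nat_lit 78) (nat_lit 532) (nat_lit 0) (XT.lf (nat_lit 0) (nat_lit 7548703589) (nat_lit 532) (nat_lit 749658188) (nat_lit 608) (nat_lit 5250213372) (nat_lit 194) (nat_lit 5) (nat_lit 201) (nat_lit 5) (nat_lit 202) (nat_lit 5) (nat_lit 467) (nat_lit 402) (nat_lit 271)) (XT.nd (nat_lit 78) (nat_lit 0) (nat_lit 0) (XT.lf (nat_lit 0) (nat_lit 1087533553) (nat_lit 532) (nat_lit 9780009795) (nat_lit 608) (nat_lit 2844227732) (nat_lit 187) (nat_lit 5) (nat_lit 194) (nat_lit 5) (nat_lit 195) (nat_lit 5) (nat_lit 468) (nat_lit 402) (nat_lit 270)) (XT.lf (nat_lit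 0) (nat_lit 8375103082) (nat_lit 532) (nat_lit 5144364200) (nat_lit 608) (nat_lit 358144693) (nat_lit 187) (nat_lit 5) (nat_lit 194) (nat_lit 5) (nat_lit 195) (nat_lit 5) (nat_lit 469) (nat_lit 402) (nat_lit 269)))) (XT.nd (nat_lit 156) (nat_lit 532) (nat_lit 0) (XT.nd (nat_lit 78) (nat_lit 0) (nat_lit 0) (XT.lf (nat_lit 0) (nat_lit 1752781810) (nat_lit 456) (nat_lit 394035993) (nat_lit 532) (nat_lit 11899722643) (nat_lit 180) (nat_lit 5) (nat_lit 186) (nat_lit 5) (nat_lit 187) (nat_lit 5) (nat_lit 470) (nat_lit 402) (nat_lit 268)) (XT.lf (nat_lit 0) (nat_lit 4749623482) (nat_lit 532) (nat_lit 5039716311) (nat_lit 76) (nat_lit 4428417303) (nat_lit 180) (nat_lit 5) (nat_lit 187) (nat_lit 5) (nat_lit 181) (nat_lit 5) (nat_lit 471) (nat_lit 402) (nat_lit 267))) (XT.nd (nat_lit 78) (nat_lit 0) (nat_lit 0) (XT.lf (nat_lit 0) (nat_lit 2370378959) (nat_lit 532) (nat_lit 5038836248) (nat_lit 608) (nat_lit 6983095866)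 (nat_lit 173) (nat_lit 5) (nat_lit 180) (nat_lit 5) (nat_lit 181) (nat_lit 5) (nat_lit 472) (nat_lit 402) (nat_lit 266)) (XT.lf (nat_lit 0) (nat_lit 9979599653) (nat_lit 532) (nat_lit 163095887) (nat_lit 608) (nat_lit 4427254098) (nat_lit 173) (nat_lit 5) (nat_lit 180) (nat_lit 5) (nat_lit 181) (nat_lit 5) (nat_lit 473) (nat_lit 402) (nat_lit 265)))))) (XT.nd (nat_lit 546) (nat_lit 1368) (nat_lit 0) (XT.nd (nat_lit 234) (nat_lit 912) (nat_lit 0) (XT.nd (nat_lit 78) (nat_lit 532) (nat_lit 0) (XT.lf (nat_lit 0) (nat_lit 2980434384) (nat_lit 456) (nat_lit 9988100550) (nat_lit 532) (nat_lit 1781859549) (nat_lit 167) (nat_lit 5) (nat_lit 173) (nat_lit 5) (nat_lit 174) (nat_lit 5) (nat_lit 474) (nat_lit 402) (nat_lit 264)) (XT.nd (nat_lit 78) (nat_lit 456) (nat_lit 0) (XT.lf (nat_lit 0) (nat_lit 923668878) (nat_lit 532) (nat_lit 4193560105) (nat_lit 76) (nat_lit 9816722349) (nat_lit 166) (nat_lit 5) (nat_lit 173) (nat_lit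 5) (nat_lit 167) (nat_lit 5) (nat_lit 475) (nat_lit 402) (nat_lit 263)) (XT.lf (nat_lit 0) (nat_lit 3552143179) (nat_lit 456) (nat_lit 117800115) (nat_lit 532) (nat_lit 11450797448) (nat_lit 160) (nat_lit 5) (nat_lit 166) (nat_lit 5) (nat_lit 167) (nat_lit 5) (nat_lit 476) (nat_lit 402) (nat_lit 262)))) (XT.nd (nat_lit 156) (nat_lit 456) (nat_lit 0) (XT.nd (nat_lit 78) (nat_lit 456) (nat_lit 0) (XT.lf (nat_lit 0) (nat_lit 6519332157) (nat_lit 532) (nat_lit 3850754452) (nat_lit 76) (nat_lit 4940222295) (nat_lit 160) (nat_lit 5) (nat_lit 167) (nat_lit 5) (nat_lit 161) (nat_lit 5) (nat_lit 477) (nat_lit 402) (nat_lit 261)) (XT.lf (nat_lit 0) (nat_lit 4057084247) (nat_lit 456) (nat_lit 5383508353) (nat_lit 532) (nat_lit 6062784763) (nat_lit 154) (nat_lit 5) (nat_lit 160) (nat_lit 5) (nat_lit 161) (nat_lit 5) (nat_lit 478) (nat_lit 402) (nat_lit 260))) (XT.nd (nat_lit 78) (nat_lit 456) (nat_lit 0) (XT.lf (nat_lit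 0) (nat_lit 12158597642) (nat_lit 456) (nat_lit 275415240) (nat_lit 532) (nat_lit 3266026096) (nat_lit 154) (nat_lit 5) (nat_lit 160) (nat_lit 5) (nat_lit 161) (nat_lit 5) (nat_lit 479) (nat_lit 402) (nat_lit 259)) (XT.lf (nat_lit 0) (nat_lit 4532342089) (nat_lit 456) (nat_lit 11004529004) (nat_lit 532) (nat_lit 362777697) (nat_lit 148) (nat_lit 5) (nat_lit 154) (nat_lit 5) (nat_lit 155) (nat_lit 5) (nat_lit 480) (nat_lit 402) (nat_lit 258))))) (XT.nd (nat_lit 234) (nat_lit 912) (nat_lit 0) (XT.nd (nat_lit 78) (nat_lit 380) (nat_lit 0) (XT.lf (nat_lit 0) (nat_lit 2578346290) (nat_lit 532) (nat_lit 3322644167) (nat_lit 76) (nat_lit 10201651202) (nat_lit 147) (nat_lit 5) (nat_lit 154) (nat_lit 5) (nat_lit 148) (nat_lit 5) (nat_lit 481) (nat_lit 402) (nat_lit 257)) (XT.nd (nat_lit 78) (nat_lit 0) (nat_lit 0) (XT.lf (nat_lit 0) (nat_lit 4928855593) (nat_lit 380) (nat_lit 664962593) (nat_lit 456) (nat_lit 10715426565)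 (nat_lit 142) (nat_lit 5) (nat_lit 147) (nat_lit 5) (nat_lit 148) (nat_lit 5) (nat_lit 482) (nat_lit 402) (nat_lit 256)) (XT.lf (nat_lit 0) (nat_lit 8710871604) (nat_lit 456) (nat_lit 3176009837) (nat_lit 76) (nat_lit 4632278894) (nat_lit 142) (nat_lit 5) (nat_lit 148) (nat_lit 5) (nat_lit 143) (nat_lit 5) (nat_lit 483) (nat_lit 402) (nat_lit 255)))) (XT.nd (nat_lit 156) (nat_lit 456) (nat_lit 0) (XT.nd (nat_lit 78) (nat_lit 0) (nat_lit 0) (XT.lf (nat_lit 0) (nat_lit 5240713135) (nat_lit 456) (nat_lit 6676678381) (nat_lit 532) (nat_lit 4815345959) (nat_lit 136) (nat_lit 5) (nat_lit 142) (nat_lit 5) (nat_lit 143) (nat_lit 5) (nat_lit 484) (nat_lit 402) (nat_lit 254)) (XT.lf (nat_lit 0) (nat_lit 13852854857) (nat_lit 456) (nat_lit 1345313172) (nat_lit 532) (nat_lit 1752221248) (nat_lit 136) (nat_lit 5) (nat_lit 142) (nat_lit 5) (nat_lit 143) (nat_lit 5) (nat_lit 485) (nat_lit 402) (nat_lit 253))) (XT.nd (nat_lit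 78) (nat_lit 0) (nat_lit 0) (XT.lf (nat_lit 0) (nat_lit 1405752335) (nat_lit 456) (nat_lit 11686137688) (nat_lit 76) (nat_lit 4079299682) (nat_lit 130) (nat_lit 5) (nat_lit 136) (nat_lit 5) (nat_lit 131) (nat_lit 5) (nat_lit 486) (nat_lit 402) (nat_lit 252)) (XT.lf (nat_lit 0) (nat_lit 4622316579) (nat_lit 456) (nat_lit 3151258909) (nat_lit 76) (nat_lit 9622226457) (nat_lit 130) (nat_lit 5) (nat_lit 136) (nat_lit 5) (nat_lit 131) (nat_lit 5) (nat_lit 487) (nat_lit 402) (nat_lit 251))))))) (XT.nd (nat_lit 1092) (nat_lit 2128) (nat_lit 0) (XT.nd (nat_lit 546) (nat_lit 1064) (nat_lit 0) (XT.nd (nat_lit 234) (nat_lit 760) (nat_lit 0) (XT.nd (nat_lit 78) (nat_lit 304) (nat_lit 0) (XT.lf (nat_lit 0) (nat_lit 5612340535) (nat_lit 380) (nat_lit 2316563940) (nat_lit 456) (nat_lit 9695493321) (nat_lit 125) (nat_lit 5) (nat_lit 130) (nat_lit 5) (nat_lit 131) (nat_lit 5) (nat_lit 488) (nat_lit 402) (nat_lit 250)) (XT.nd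 (nat_lit 78) (nat_lit 304) (nat_lit 0) (XT.lf (nat_lit 0) (nat_lit 11333341339) (nat_lit 456) (nat_lit 3300120664) (nat_lit 76) (nat_lit 3223474325) (nat_lit 125) (nat_lit 5) (nat_lit 131) (nat_lit 5) (nat_lit 126) (nat_lit 5) (nat_lit 489) (nat_lit 402) (nat_lit 249)) (XT.lf (nat_lit 0) (nat_lit 5629180480) (nat_lit 304) (nat_lit 9218117571) (nat_lit 380) (nat_lit 3246003969) (nat_lit 121) (nat_lit 5) (nat_lit 125) (nat_lit 5) (nat_lit 126) (nat_lit 5) (nat_lit 490) (nat_lit 402) (nat_lit 248)))) (XT.nd (nat_lit 156) (nat_lit 304) (nat_lit 0) (XT.nd (nat_lit 78) (nat_lit 380) (nat_lit 0) (XT.lf (nat_lit 0) (nat_lit 107730930) (nat_lit 380) (nat_lit 3568330543) (nat_lit 76) (nat_lit 14658088432) (nat_lit 120) (nat_lit 5) (nat_lit 125) (nat_lit 5) (nat_lit 121) (nat_lit 5) (nat_lit 491) (nat_lit 402) (nat_lit 247)) (XT.lf (nat_lit 0) (nat_lit 3524058135) (nat_lit 456) (nat_lit 13050602245) (nat_lit 76) (nat_lit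 2003950335) (nat_lit 115) (nat_lit 5) (nat_lit 121) (nat_lit 5) (nat_lit 116) (nat_lit 5) (nat_lit 492) (nat_lit 402) (nat_lit 246))) (XT.nd (nat_lit 78) (nat_lit 304) (nat_lit 0) (XT.lf (nat_lit 0) (nat_lit 7047010223) (nat_lit 456) (nat_lit 4012517938) (nat_lit 76) (nat_lit 7767671242) (nat_lit 115) (nat_lit 5) (nat_lit 121) (nat_lit 5) (nat_lit 116) (nat_lit 5) (nat_lit 493) (nat_lit 402) (nat_lit 245)) (XT.lf (nat_lit 0) (nat_lit 5260440589) (nat_lit 304) (nat_lit 5404183666) (nat_lit 380) (nat_lit 8415656089) (nat_lit 111) (nat_lit 5) (nat_lit 115) (nat_lit 5) (nat_lit 116) (nat_lit 5) (nat_lit 494) (nat_lit 402) (nat_lit 244))))) (XT.nd (nat_lit 234) (nat_lit 608) (nat_lit 0) (XT.nd (nat_lit 78) (nat_lit 456) (nat_lit 0) (XT.lf (nat_lit 0) (nat_lit 14374175848) (nat_lit 380) (nat_lit 4582129435) (nat_lit 76) (nat_lit 381730363) (nat_lit 111) (nat_lit 5) (nat_lit 116) (nat_lit 5) (nat_lit 112) (nat_lit 5)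 (nat_lit 495) (nat_lit 402) (nat_lit 243)) (XT.nd (nat_lit 78) (nat_lit 76) (nat_lit 0) (XT.lf (nat_lit 0) (nat_lit 4853543347) (nat_lit 380) (nat_lit 13361986438) (nat_lit 456) (nat_lit 1384268404) (nat_lit 106) (nat_lit 5) (nat_lit 111) (nat_lit 5) (nat_lit 112) (nat_lit 5) (nat_lit 496) (nat_lit 402) (nat_lit 242)) (XT.lf (nat_lit 0) (nat_lit 2258473253) (nat_lit 456) (nat_lit 5355755118) (nat_lit 76) (nat_lit 12251851649) (nat_lit 105) (nat_lit 5) (nat_lit 111) (nat_lit 5) (nat_lit 106) (nat_lit 5) (nat_lit 497) (nat_lit 402) (nat_lit 241)))) (XT.nd (nat_lit 156) (nat_lit 304) (nat_lit 0) (XT.nd (nat_lit 78) (nat_lit 0) (nat_lit 0) (XT.lf (nat_lit 0) (nat_lit 4254783914) (nat_lit 304) (nat_lit 1718919447) (nat_lit 380) (nat_lit 14163441858) (nat_lit 101) (nat_lit 5) (nat_lit 105) (nat_lit 5) (nat_lit 106) (nat_lit 5) (nat_lit 498) (nat_lit 402) (nat_lit 240)) (XT.lf (nat_lit 0) (nat_lit 9817885023) (nat_lit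 380) (nat_lit 6325370407) (nat_lit 76) (nat_lit 4269287381) (nat_lit 101) (nat_lit 5) (nat_lit 106) (nat_lit 5) (nat_lit 102) (nat_lit 5) (nat_lit 499) (nat_lit 402) (nat_lit 239))) (XT.nd (nat_lit 78) (nat_lit 0) (nat_lit 0) (XT.lf (nat_lit 0) (nat_lit 3442336884) (nat_lit 304) (nat_lit 10321119084) (nat_lit 380) (nat_lit 6929506223) (nat_lit 97) (nat_lit 5) (nat_lit 101) (nat_lit 5) (nat_lit 102) (nat_lit 5) (nat_lit 500) (nat_lit 402) (nat_lit 238)) (XT.lf (nat_lit 0) (nat_lit 13477046997) (nat_lit 304) (nat_lit 4344199480) (nat_lit 380) (nat_lit 3157081193) (nat_lit 97) (nat_lit 5) (nat_lit 101) (nat_lit 5) (nat_lit 102) (nat_lit 5) (nat_lit 501) (nat_lit 402) (nat_lit 237)))))) (XT.nd (nat_lit 546) (nat_lit 1140) (nat_lit 0) (XT.nd (nat_lit 234) (nat_lit 304) (nat_lit 0) (XT.nd (nat_lit 78) (nat_lit 304) (nat_lit 0) (XT.lf (nat_lit 0) (nat_lit 700141869) (nat_lit 380) (nat_lit 18823809035) (nat_lit 76) (nat_lit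 1744995387) (nat_lit 92) (nat_lit 5) (nat_lit 97) (nat_lit 5) (nat_lit 93) (nat_lit 5) (nat_lit 502) (nat_lit 402) (nat_lit 236)) (XT.nd (nat_lit 78) (nat_lit 304) (nat_lit 0) (XT.lf (nat_lit 0) (nat_lit 4662748800) (nat_lit 380) (nat_lit 8936215278) (nat_lit 76) (nat_lit 7964589234) (nat_lit 92) (nat_lit 5) (nat_lit 97) (nat_lit 5) (nat_lit 93) (nat_lit 5) (nat_lit 503) (nat_lit 402) (nat_lit 235)) (XT.lf (nat_lit 0) (nat_lit 1150494385) (nat_lit 304) (nat_lit 7552791858) (nat_lit 380) (nat_lit 13160796241) (nat_lit 88) (nat_lit 5) (nat_lit 92) (nat_lit 5) (nat_lit 93) (nat_lit 5) (nat_lit 504) (nat_lit 402) (nat_lit 234)))) (XT.nd (nat_lit 156) (nat_lit 304) (nat_lit 0) (XT.nd (nat_lit 78) (nat_lit 0) (nat_lit 0) (XT.lf (nat_lit 0) (nat_lit 11546436379) (nat_lit 304) (nat_lit 1329457222) (nat_lit 380) (nat_lit 9293706964) (nat_lit 88) (nat_lit 5) (nat_lit 92) (nat_lit 5) (nat_lit 93) (nat_lit 5) (nat_lit 505)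 (nat_lit 402) (nat_lit 233)) (XT.lf (nat_lit 0) (nat_lit 17155967354) (nat_lit 380) (nat_lit 377024293) (nat_lit 76) (nat_lit 4947760513) (nat_lit 88) (nat_lit 5) (nat_lit 93) (nat_lit 5) (nat_lit 89) (nat_lit 5) (nat_lit 506) (nat_lit 402) (nat_lit 232))) (XT.nd (nat_lit 78) (nat_lit 76) (nat_lit 0) (XT.lf (nat_lit 0) (nat_lit 10185574509) (nat_lit 228) (nat_lit 11402603764) (nat_lit 304) (nat_lit 1208621172) (nat_lit 85) (nat_lit 5) (nat_lit 88) (nat_lit 5) (nat_lit 89) (nat_lit 5) (nat_lit 507) (nat_lit 402) (nat_lit 231)) (XT.lf (nat_lit 0) (nat_lit 2944820638) (nat_lit 304) (nat_lit 2187282705) (nat_lit 76) (nat_lit 17986795978) (nat_lit 84) (nat_lit 5) (nat_lit 88) (nat_lit 5) (nat_lit 85) (nat_lit 5) (nat_lit 508) (nat_lit 402) (nat_lit 230))))) (XT.nd (nat_lit 234) (nat_lit 608) (nat_lit 0) (XT.nd (nat_lit 78) (nat_lit 228) (nat_lit 0) (XT.lf (nat_lit 0) (nat_lit 7220964240) (nat_lit 380) (nat_lit 14918860502)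 (nat_lit 76) (nat_lit 1306343523) (nat_lit 80) (nat_lit 5) (nat_lit 85) (nat_lit 5) (nat_lit 81) (nat_lit 5) (nat_lit 509) (nat_lit 402) (nat_lit 229)) (XT.nd (nat_lit 78) (nat_lit 228) (nat_lit 0) (XT.lf (nat_lit 0) (nat_lit 11623224275) (nat_lit 380) (nat_lit 4340995996) (nat_lit 76) (nat_lit 7814953561) (nat_lit 80) (nat_lit 5) (nat_lit 85) (nat_lit 5) (nat_lit 81) (nat_lit 5) (nat_lit 510) (nat_lit 402) (nat_lit 228)) (XT.lf (nat_lit 0) (nat_lit 6521146360) (nat_lit 228) (nat_lit 9626714031) (nat_lit 304) (nat_lit 7970295554) (nat_lit 77) (nat_lit 5) (nat_lit 80) (nat_lit 5) (nat_lit 81) (nat_lit 5) (nat_lit 511) (nat_lit 402) (nat_lit 227)))) (XT.nd (nat_lit 156) (nat_lit 228) (nat_lit 0) (XT.nd (nat_lit 78) (nat_lit 380) (nat_lit 0) (XT.lf (nat_lit 0) (nat_lit 17646653706) (nat_lit 228) (nat_lit 3137531604) (nat_lit 304) (nat_lit 3679311462) (nat_lit 77) (nat_lit 5) (nat_lit 80) (nat_lit 5) (nat_lit 81)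 (nat_lit 5) (nat_lit 512) (nat_lit 402) (nat_lit 226)) (XT.lf (nat_lit 0) (nat_lit 730676129) (nat_lit 380) (nat_lit 20620922217) (nat_lit 76) (nat_lit 3463211745) (nat_lit 72) (nat_lit 5) (nat_lit 77) (nat_lit 5) (nat_lit 73) (nat_lit 5) (nat_lit 513) (nat_lit 402) (nat_lit 225))) (XT.nd (nat_lit 78) (nat_lit 228) (nat_lit 0) (XT.lf (nat_lit 0) (nat_lit 5238678038) (nat_lit 380) (nat_lit 9713068123) (nat_lit 76) (nat_lit 10219738320) (nat_lit 72) (nat_lit 5) (nat_lit 77) (nat_lit 5) (nat_lit 73) (nat_lit 5) (nat_lit 514) (nat_lit 402) (nat_lit 224)) (XT.lf (nat_lit 0) (nat_lit 1419180093) (nat_lit 228) (nat_lit 8419235513) (nat_lit 304) (nat_lit 15696848007) (nat_lit 69) (nat_lit 5) (nat_lit 72) (nat_lit 5) (nat_lit 73) (nat_lit 5) (nat_lit 515) (nat_lit 402) (nat_lit 223))))))))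
noncomputable def xc157 : XT := (XT.nd (nat_lit 52026) (nat_lit 0) (nat_lit 15884) (XT.nd (nat_lit 50934) (nat_lit 0) (nat_lit 31160) (XT.nd (nat_lit 546) (nat_lit 0) (nat_lit 0) (XT.nd (nat_lit 234) (nat_lit 532) (nat_lit 0) (XT.nd (nat_lit 78) (nat_lit 228) (nat_lit 0) (XT.lf (nat_lit 0) (nat_lit 12893442129) (nat_lit 228) (nat_lit 1694316913) (nat_lit 304) (nat_lit 11317409774) (nat_lit 69) (nat_lit 5) (nat_lit 72) (nat_lit 5) (nat_lit 73) (nat_lit 5) (nat_lit 516) (nat_lit 402) (nat_lit 222)) (XT.nd (nat_lit 78) (nat_lit 228) (nat_lit 0) (XT.lf (nat_lit 0) (nat_lit 19458174244) (nat_lit 304) (nat_lit 1730992233) (nat_lit 76) (nat_lit 5092786607) (nat_lit 69) (nat_lit 5) (nat_lit 73) (nat_lit 5) (nat_lit 70) (nat_lit 5) (nat_lit 517) (nat_lit 402) (nat_lit 221)) (XT.lf (nat_lit 0) (nat_lit 9881802335) (nat_lit 228) (nat_lit 14612270998) (nat_lit 304) (nat_lit 2170840798) (nat_lit 66) (nat_lit 5) (nat_lit 69)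 (nat_lit 5) (nat_lit 70) (nat_lit 5) (nat_lit 518) (nat_lit 402) (nat_lit 220)))) (XT.nd (nat_lit 156) (nat_lit 228) (nat_lit 0) (XT.nd (nat_lit 78) (nat_lit 228) (nat_lit 0) (XT.lf (nat_lit 0) (nat_lit 2545786674) (nat_lit 304) (nat_lit 5333738169) (nat_lit 76) (nat_lit 19175589583) (nat_lit 65) (nat_lit 5) (nat_lit 69) (nat_lit 5) (nat_lit 66) (nat_lit 5) (nat_lit 519) (nat_lit 402) (nat_lit 219)) (XT.lf (nat_lit 0) (nat_lit 6402494417) (nat_lit 228) (nat_lit 959635554) (nat_lit 304) (nat_lit 20090015210) (nat_lit 62) (nat_lit 5) (nat_lit 65) (nat_lit 5) (nat_lit 66) (nat_lit 5) (nat_lit 520) (nat_lit 402) (nat_lit 218))) (XT.nd (nat_lit 78) (nat_lit 228) (nat_lit 0) (XT.lf (nat_lit 0) (nat_lit 12343315142) (nat_lit 304) (nat_lit 9462241584) (nat_lit 76) (nat_lit 6050191932) (nat_lit 62) (nat_lit 5) (nat_lit 66) (nat_lit 5) (nat_lit 63) (nat_lit 5) (nat_lit 521) (nat_lit 402) (nat_lit 217)) (XT.lf (nat_lit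 0) (nat_lit 2370116422) (nat_lit 228) (nat_lit 15068779883) (nat_lit 304) (nat_lit 10828234815) (nat_lit 59) (nat_lit 5) (nat_lit 62) (nat_lit 5) (nat_lit 63) (nat_lit 5) (nat_lit 522) (nat_lit 402) (nat_lit 216))))) (XT.nd (nat_lit 50076) (nat_lit 0) (nat_lit 33592) (XT.nd (nat_lit 78) (nat_lit 0) (nat_lit 0) (XT.lf (nat_lit 0) (nat_lit 14555931953) (nat_lit 228) (nat_lit 8137044812) (nat_lit 304) (nat_lit 5992635028) (nat_lit 59) (nat_lit 5) (nat_lit 62) (nat_lit 5) (nat_lit 63) (nat_lit 5) (nat_lit 523) (nat_lit 402) (nat_lit 215)) (XT.nd (nat_lit 49920) (nat_lit 0) (nat_lit 34808) (XT.lf (nat_lit 0) (nat_lit 26974235548) (nat_lit 228) (nat_lit 1071129806) (nat_lit 304) (nat_lit 1067234462) (nat_lit 59) (nat_lit 5) (nat_lit 62) (nat_lit 5) (nat_lit 63) (nat_lit 5) (nat_lit 524) (nat_lit 402) (nat_lit 214)) (XT.lf (nat_lit 0) (nat_lit 1184595809) (nat_lit 0) (nat_lit 1184595809) (nat_lit 1140) (nat_lit 1366169733)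 (nat_lit 517) (nat_lit 5) (nat_lit 517) (nat_lit 3) (nat_lit 532) (nat_lit 3) (nat_lit 403) (nat_lit 403) (nat_lit 334)))) (XT.nd (nat_lit 156) (nat_lit 0) (nat_lit 0) (XT.nd (nat_lit 78) (nat_lit 1216) (nat_lit 0) (XT.lf (nat_lit 0) (nat_lit 5859452375) (nat_lit 0) (nat_lit 324557231) (nat_lit 1140) (nat_lit 1332098960) (nat_lit 517) (nat_lit 5) (nat_lit 517) (nat_lit 3) (nat_lit 532) (nat_lit 3) (nat_lit 404) (nat_lit 403) (nat_lit 333)) (XT.lf (nat_lit 0) (nat_lit 81655661) (nat_lit 1216) (nat_lit 5712508007) (nat_lit 1292) (nat_lit 1768525470) (nat_lit 501) (nat_lit 5) (nat_lit 517) (nat_lit 5) (nat_lit 518) (nat_lit 5) (nat_lit 405) (nat_lit 403) (nat_lit 332))) (XT.nd (nat_lit 78) (nat_lit 0) (nat_lit 0) (XT.lf (nat_lit 0) (nat_lit 1482968145) (nat_lit 1216) (nat_lit 2191027885) (nat_lit 1292) (nat_lit 3936520998) (nat_lit 501) (nat_lit 5) (nat_lit 517) (nat_lit 5) (nat_lit 518) (nat_lit 5) (nat_lit 406)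 (nat_lit 403) (nat_lit 331)) (XT.lf (nat_lit 76) (nat_lit 1400012212) (nat_lit 0) (nat_lit 1485857864) (nat_lit 1292) (nat_lit 4773993665) (nat_lit 502) (nat_lit 5) (nat_lit 501) (nat_lit 5) (nat_lit 518) (nat_lit 5) (nat_lit 407) (nat_lit 403) (nat_lit 330)))))) (XT.nd (nat_lit 546) (nat_lit 1292) (nat_lit 0) (XT.nd (nat_lit 234) (nat_lit 1216) (nat_lit 0) (XT.nd (nat_lit 78) (nat_lit 0) (nat_lit 0) (XT.lf (nat_lit 0) (nat_lit 4301623031) (nat_lit 1216) (nat_lit 2642210812) (nat_lit 1292) (nat_lit 766700557) (nat_lit 502) (nat_lit 5) (nat_lit 518) (nat_lit 5) (nat_lit 519) (nat_lit 5) (nat_lit 408) (nat_lit 403) (nat_lit 329)) (XT.nd (nat_lit 78) (nat_lit 0) (nat_lit 0) (XT.lf (nat_lit 76) (nat_lit 1031928113) (nat_lit 0) (nat_lit 4696135225) (nat_lit 1292) (nat_lit 2034539918) (nat_lit 503) (nat_lit 5) (nat_lit 502) (nat_lit 5) (nat_lit 519) (nat_lit 5) (nat_lit 409) (nat_lit 403) (nat_lit 328)) (XT.lf (nat_lit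 76) (nat_lit 4795945879) (nat_lit 0) (nat_lit 2371193279) (nat_lit 1292) (nat_lit 648923790) (nat_lit 503) (nat_lit 5) (nat_lit 502) (nat_lit 5) (nat_lit 519) (nat_lit 5) (nat_lit 410) (nat_lit 403) (nat_lit 327)))) (XT.nd (nat_lit 156) (nat_lit 0) (nat_lit 0) (XT.nd (nat_lit 78) (nat_lit 0) (nat_lit 0) (XT.lf (nat_lit 0) (nat_lit 726191137) (nat_lit 1292) (nat_lit 7121230570) (nat_lit 1368) (nat_lit 23665001) (nat_lit 486) (nat_lit 5) (nat_lit 503) (nat_lit 5) (nat_lit 504) (nat_lit 5) (nat_lit 411) (nat_lit 403) (nat_lit 326)) (XT.lf (nat_lit 0) (nat_lit 2123629742) (nat_lit 1292) (nat_lit 3330925653) (nat_lit 1368) (nat_lit 2472529324) (nat_lit 486) (nat_lit 5) (nat_lit 503) (nat_lit 5) (nat_lit 504) (nat_lit 5) (nat_lit 412) (nat_lit 403) (nat_lit 325))) (XT.nd (nat_lit 78) (nat_lit 0) (nat_lit 0) (XT.lf (nat_lit 76) (nat_lit 522277930) (nat_lit 0) (nat_lit 2998167700) (nat_lit 1368) (nat_lit 4464357679)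 (nat_lit 487) (nat_lit 5) (nat_lit 486) (nat_lit 5) (nat_lit 504) (nat_lit 5) (nat_lit 413) (nat_lit 403) (nat_lit 324)) (XT.lf (nat_lit 76) (nat_lit 4478069942) (nat_lit 0) (nat_lit 458016979) (nat_lit 1368) (nat_lit 3107800187) (nat_lit 487) (nat_lit 5) (nat_lit 486) (nat_lit 5) (nat_lit 504) (nat_lit 5) (nat_lit 414) (nat_lit 403) (nat_lit 323))))) (XT.nd (nat_lit 234) (nat_lit 0) (nat_lit 76) (XT.nd (nat_lit 78) (nat_lit 1368) (nat_lit 0) (XT.lf (nat_lit 76) (nat_lit 379997817) (nat_lit 0) (nat_lit 5985587942) (nat_lit 1368) (nat_lit 1738883984) (nat_lit 488) (nat_lit 5) (nat_lit 487) (nat_lit 5) (nat_lit 505) (nat_lit 5) (nat_lit 415) (nat_lit 403) (nat_lit 322)) (XT.nd (nat_lit 78) (nat_lit 1368) (nat_lit 0) (XT.lf (nat_lit 76) (nat_lit 4430159799) (nat_lit 0) (nat_lit 3390160233) (nat_lit 1368) (nat_lit 346038597) (nat_lit 488) (nat_lit 5) (nat_lit 487) (nat_lit 5) (nat_lit 505) (nat_lit 5) (nat_lit 416)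 (nat_lit 403) (nat_lit 321)) (XT.lf (nat_lit 76) (nat_lit 309048887) (nat_lit 0) (nat_lit 723601358) (nat_lit 1444) (nat_lit 7197280316) (nat_lit 470) (nat_lit 5) (nat_lit 469) (nat_lit 5) (nat_lit 488) (nat_lit 5) (nat_lit 417) (nat_lit 403) (nat_lit 320)))) (XT.nd (nat_lit 156) (nat_lit 0) (nat_lit 0) (XT.nd (nat_lit 78) (nat_lit 0) (nat_lit 0) (XT.lf (nat_lit 0) (nat_lit 2443079095) (nat_lit 1368) (nat_lit 3844259072) (nat_lit 1444) (nat_lit 2007239945) (nat_lit 470) (nat_lit 5) (nat_lit 488) (nat_lit 5) (nat_lit 489) (nat_lit 5) (nat_lit 418) (nat_lit 403) (nat_lit 319)) (XT.lf (nat_lit 76) (nat_lit 292931674) (nat_lit 0) (nat_lit 3566651583) (nat_lit 1444) (nat_lit 4501403434) (nat_lit 471) (nat_lit 5) (nat_lit 470) (nat_lit 5) (nat_lit 489) (nat_lit 5) (nat_lit 419) (nat_lit 403) (nat_lit 318))) (XT.nd (nat_lit 78) (nat_lit 0) (nat_lit 76) (XT.lf (nat_lit 76) (nat_lit 4545093754) (nat_lit 0) (nat_lit 756729669)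 (nat_lit 1444) (nat_lit 3126976812) (nat_lit 471) (nat_lit 5) (nat_lit 470) (nat_lit 5) (nat_lit 489) (nat_lit 5) (nat_lit 420) (nat_lit 403) (nat_lit 317)) (XT.lf (nat_lit 76) (nat_lit 355163648) (nat_lit 0) (nat_lit 6405966033) (nat_lit 1444) (nat_lit 1737100368) (nat_lit 472) (nat_lit 5) (nat_lit 471) (nat_lit 5) (nat_lit 490) (nat_lit 5) (nat_lit 421) (nat_lit 403) (nat_lit 316))))))) (XT.nd (nat_lit 1092) (nat_lit 6460) (nat_lit 0) (XT.nd (nat_lit 546) (nat_lit 6232) (nat_lit 0) (XT.nd (nat_lit 234) (nat_lit 1292) (nat_lit 0) (XT.nd (nat_lit 78) (nat_lit 1444) (nat_lit 0) (XT.lf (nat_lit 76) (nat_lit 4706382364) (nat_lit 0) (nat_lit 3546914554) (nat_lit 1444) (nat_lit 315701991) (nat_lit 472) (nat_lit 5) (nat_lit 471) (nat_lit 5) (nat_lit 490) (nat_lit 5) (nat_lit 422) (nat_lit 403) (nat_lit 315)) (XT.nd (nat_lit 78) (nat_lit 0) (nat_lit 76) (XT.lf (nat_lit 76) (nat_lit 482420264) (nat_lit 0) (nat_lit 612932423)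 (nat_lit 1520) (nat_lit 7546184152) (nat_lit 453) (nat_lit 5) (nat_lit 452) (nat_lit 5) (nat_lit 472) (nat_lit 5) (nat_lit 423) (nat_lit 403) (nat_lit 314)) (XT.lf (nat_lit 0) (nat_lit 2545363248) (nat_lit 1444) (nat_lit 3786456930) (nat_lit 1520) (nat_lit 2383386938) (nat_lit 453) (nat_lit 5) (nat_lit 472) (nat_lit 5) (nat_lit 473) (nat_lit 5) (nat_lit 424) (nat_lit 403) (nat_lit 313)))) (XT.nd (nat_lit 156) (nat_lit 1368) (nat_lit 0) (XT.nd (nat_lit 78) (nat_lit 0) (nat_lit 0) (XT.lf (nat_lit 76) (nat_lit 658176682) (nat_lit 0) (nat_lit 3348466536) (nat_lit 1520) (nat_lit 4784084319) (nat_lit 454) (nat_lit 5) (nat_lit 453) (nat_lit 5) (nat_lit 473) (nat_lit 5) (nat_lit 425) (nat_lit 403) (nat_lit 312)) (XT.lf (nat_lit 76) (nat_lit 5223109133) (nat_lit 0) (nat_lit 273767205) (nat_lit 1520) (nat_lit 3370909165) (nat_lit 454) (nat_lit 5) (nat_lit 453) (nat_lit 5) (nat_lit 473) (nat_lit 5) (nat_lit 426) (nat_lit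 403) (nat_lit 311))) (XT.nd (nat_lit 78) (nat_lit 0) (nat_lit 0) (XT.lf (nat_lit 0) (nat_lit 906164184) (nat_lit 1444) (nat_lit 6110076791) (nat_lit 1520) (nat_lit 1930178380) (nat_lit 435) (nat_lit 5) (nat_lit 454) (nat_lit 5) (nat_lit 455) (nat_lit 5) (nat_lit 427) (nat_lit 403) (nat_lit 310)) (XT.lf (nat_lit 0) (nat_lit 5575629998) (nat_lit 1444) (nat_lit 2991843748) (nat_lit 1520) (nat_lit 459143367) (nat_lit 435) (nat_lit 5) (nat_lit 454) (nat_lit 5) (nat_lit 455) (nat_lit 5) (nat_lit 428) (nat_lit 403) (nat_lit 309))))) (XT.nd (nat_lit 234) (nat_lit 3040) (nat_lit 0) (XT.nd (nat_lit 78) (nat_lit 1596) (nat_lit 0) (XT.lf (nat_lit 0) (nat_lit 1012451576) (nat_lit 1596) (nat_lit 7890602130) (nat_lit 76) (nat_lit 205554014) (nat_lit 414) (nat_lit 5) (nat_lit 435) (nat_lit 5) (nat_lit 415) (nat_lit 5) (nat_lit 429) (nat_lit 403) (nat_lit 308)) (XT.nd (nat_lit 78) (nat_lit 1596) (nat_lit 0) (XT.lf (nat_lit 0)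 (nat_lit 2526367524) (nat_lit 1596) (nat_lit 3207937521) (nat_lit 76) (nat_lit 3457511299) (nat_lit 414) (nat_lit 5) (nat_lit 435) (nat_lit 5) (nat_lit 415) (nat_lit 5) (nat_lit 430) (nat_lit 403) (nat_lit 307)) (XT.lf (nat_lit 0) (nat_lit 1569044815) (nat_lit 1596) (nat_lit 2488083127) (nat_lit 1672) (nat_lit 5219849133) (nat_lit 393) (nat_lit 5) (nat_lit 414) (nat_lit 5) (nat_lit 415) (nat_lit 5) (nat_lit 431) (nat_lit 403) (nat_lit 306)))) (XT.nd (nat_lit 156) (nat_lit 1368) (nat_lit 0) (XT.nd (nat_lit 78) (nat_lit 1672) (nat_lit 0) (XT.lf (nat_lit 0) (nat_lit 5622253289) (nat_lit 1672) (nat_lit 2904135896) (nat_lit 76) (nat_lit 837395723) (nat_lit 393) (nat_lit 5) (nat_lit 415) (nat_lit 5) (nat_lit 394) (nat_lit 5) (nat_lit 432) (nat_lit 403) (nat_lit 305)) (XT.lf (nat_lit 0) (nat_lit 1985405609) (nat_lit 1672) (nat_lit 5239835960) (nat_lit 1748) (nat_lit 2226974630) (nat_lit 371) (nat_lit 5) (nat_lit 393)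 (nat_lit 5) (nat_lit 394) (nat_lit 5) (nat_lit 433) (nat_lit 403) (nat_lit 304))) (XT.nd (nat_lit 78) (nat_lit 1368) (nat_lit 0) (XT.lf (nat_lit 0) (nat_lit 6992342776) (nat_lit 1672) (nat_lit 1864946507) (nat_lit 1748) (nat_lit 685204988) (nat_lit 371) (nat_lit 5) (nat_lit 393) (nat_lit 5) (nat_lit 394) (nat_lit 5) (nat_lit 434) (nat_lit 403) (nat_lit 303)) (XT.lf (nat_lit 0) (nat_lit 880001663) (nat_lit 1368) (nat_lit 7173195189) (nat_lit 76) (nat_lit 1581198463) (nat_lit 353) (nat_lit 5) (nat_lit 371) (nat_lit 5) (nat_lit 354) (nat_lit 5) (nat_lit 435) (nat_lit 403) (nat_lit 302)))))) (XT.nd (nat_lit 546) (nat_lit 3876) (nat_lit 0) (XT.nd (nat_lit 234) (nat_lit 1748) (nat_lit 0) (XT.nd (nat_lit 78) (nat_lit 836) (nat_lit 0) (XT.lf (nat_lit 0) (nat_lit 2475035493) (nat_lit 1368) (nat_lit 2157474618) (nat_lit 76) (nat_lit 5095396827) (nat_lit 353) (nat_lit 5) (nat_lit 371) (nat_lit 5) (nat_lit 354) (nat_lit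 5) (nat_lit 436) (nat_lit 403) (nat_lit 301)) (XT.nd (nat_lit 78) (nat_lit 0) (nat_lit 0) (XT.lf (nat_lit 0) (nat_lit 2977982333) (nat_lit 836) (nat_lit 1121864405) (nat_lit 912) (nat_lit 5723501285) (nat_lit 342) (nat_lit 5) (nat_lit 353) (nat_lit 5) (nat_lit 354) (nat_lit 5) (nat_lit 437) (nat_lit 403) (nat_lit 300)) (XT.lf (nat_lit 0) (nat_lit 5766539879) (nat_lit 912) (nat_lit 1711032234) (nat_lit 76) (nat_lit 2442954542) (nat_lit 342) (nat_lit 5) (nat_lit 354) (nat_lit 5) (nat_lit 343) (nat_lit 5) (nat_lit 438) (nat_lit 403) (nat_lit 299)))) (XT.nd (nat_lit 156) (nat_lit 912) (nat_lit 0) (XT.nd (nat_lit 78) (nat_lit 0) (nat_lit 0) (XT.lf (nat_lit 0) (nat_lit 3545493287) (nat_lit 836) (nat_lit 3930784206) (nat_lit 912) (nat_lit 2543193270) (nat_lit 331) (nat_lit 5) (nat_lit 342) (nat_lit 5) (nat_lit 343) (nat_lit 5) (nat_lit 439) (nat_lit 403) (nat_lit 298)) (XT.lf (nat_lit 0) (nat_lit 8910906706) (nat_lit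 836) (nat_lit 300326878) (nat_lit 912) (nat_lit 909355491) (nat_lit 331) (nat_lit 5) (nat_lit 342) (nat_lit 5) (nat_lit 343) (nat_lit 5) (nat_lit 440) (nat_lit 403) (nat_lit 297))) (XT.nd (nat_lit 78) (nat_lit 0) (nat_lit 0) (XT.lf (nat_lit 0) (nat_lit 776542987) (nat_lit 912) (nat_lit 6055213286) (nat_lit 76) (nat_lit 3391304062) (nat_lit 319) (nat_lit 5) (nat_lit 331) (nat_lit 5) (nat_lit 320) (nat_lit 5) (nat_lit 441) (nat_lit 403) (nat_lit 296)) (XT.lf (nat_lit 0) (nat_lit 2474225794) (nat_lit 912) (nat_lit 685788678) (nat_lit 76) (nat_lit 7167656367) (nat_lit 319) (nat_lit 5) (nat_lit 331) (nat_lit 5) (nat_lit 320) (nat_lit 5) (nat_lit 442) (nat_lit 403) (nat_lit 295))))) (XT.nd (nat_lit 312) (nat_lit 1520) (nat_lit 0) (XT.nd (nat_lit 156) (nat_lit 1520) (nat_lit 0) (XT.nd (nat_lit 78) (nat_lit 0) (nat_lit 0) (XT.lf (nat_lit 0) (nat_lit 4221726340) (nat_lit 912) (nat_lit 5602966090) (nat_lit 76) (nat_lit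 609378438) (nat_lit 308) (nat_lit 5) (nat_lit 320) (nat_lit 5) (nat_lit 309) (nat_lit 5) (nat_lit 443) (nat_lit 403) (nat_lit 294)) (XT.lf (nat_lit 0) (nat_lit 6010458373) (nat_lit 912) (nat_lit 115351594) (nat_lit 76) (nat_lit 4416677609) (nat_lit 308) (nat_lit 5) (nat_lit 320) (nat_lit 5) (nat_lit 309) (nat_lit 5) (nat_lit 444) (nat_lit 403) (nat_lit 293))) (XT.nd (nat_lit 78) (nat_lit 760) (nat_lit 0) (XT.lf (nat_lit 0) (nat_lit 5535477541) (nat_lit 760) (nat_lit 2316527251) (nat_lit 836) (nat_lit 2800741060) (nat_lit 298) (nat_lit 5) (nat_lit 308) (nat_lit 5) (nat_lit 309) (nat_lit 5) (nat_lit 445) (nat_lit 403) (nat_lit 292)) (XT.lf (nat_lit 0) (nat_lit 512832189) (nat_lit 760) (nat_lit 9213189996) (nat_lit 836) (nat_lit 1039288061) (nat_lit 288) (nat_lit 5) (nat_lit 298) (nat_lit 5) (nat_lit 299) (nat_lit 5) (nat_lit 446) (nat_lit 403) (nat_lit 291)))) (XT.nd (nat_lit 156) (nat_lit 760) (nat_lit 0) (XT.nd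 (nat_lit 78) (nat_lit 684) (nat_lit 0) (XT.lf (nat_lit 0) (nat_lit 778818889) (nat_lit 836) (nat_lit 4594551849) (nat_lit 76) (nat_lit 5506042895) (nat_lit 287) (nat_lit 5) (nat_lit 298) (nat_lit 5) (nat_lit 288) (nat_lit 5) (nat_lit 447) (nat_lit 403) (nat_lit 290)) (XT.lf (nat_lit 0) (nat_lit 1165795513) (nat_lit 684) (nat_lit 1442972283) (nat_lit 760) (nat_lit 8387118941) (nat_lit 278) (nat_lit 5) (nat_lit 287) (nat_lit 5) (nat_lit 288) (nat_lit 5) (nat_lit 448) (nat_lit 403) (nat_lit 289))) (XT.nd (nat_lit 78) (nat_lit 760) (nat_lit 0) (XT.lf (nat_lit 0) (nat_lit 4505052078) (nat_lit 760) (nat_lit 4046690253) (nat_lit 76) (nat_lit 2562364951) (nat_lit 278) (nat_lit 5) (nat_lit 288) (nat_lit 5) (nat_lit 279) (nat_lit 5) (nat_lit 449) (nat_lit 403) (nat_lit 288)) (XT.lf (nat_lit 0) (nat_lit 1848057105) (nat_lit 760) (nat_lit 4595151973) (nat_lit 836) (nat_lit 4791416675) (nat_lit 268) (nat_lit 5) (nat_lit 278)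 (nat_lit 5) (nat_lit 279) (nat_lit 5) (nat_lit 450) (nat_lit 403) (nat_lit 287))))))))
noncomputable def xc158 : XT := (XT.nd (nat_lit 2184) (nat_lit 5472) (nat_lit 0) (XT.nd (nat_lit 1092) (nat_lit 3724) (nat_lit 0) (XT.nd (nat_lit 546) (nat_lit 2432) (nat_lit 0) (XT.nd (nat_lit 234) (nat_lit 1292) (nat_lit 0) (XT.nd (nat_lit 78) (nat_lit 760) (nat_lit 0) (XT.lf (nat_lit 0) (nat_lit 7896675255) (nat_lit 760) (nat_lit 533224181) (nat_lit 836) (nat_lit 2927471966) (nat_lit 268) (nat_lit 5) (nat_lit 278) (nat_lit 5) (nat_lit 279) (nat_lit 5) (nat_lit 451) (nat_lit 403) (nat_lit 286)) (XT.nd (nat_lit 78) (nat_lit 76) (nat_lit 0) (XT.lf (nat_lit 0) (nat_lit 2575178286) (nat_lit 684) (nat_lit 7904249400) (nat_lit 760) (nat_lit 1002694170) (nat_lit 259) (nat_lit 5) (nat_lit 268) (nat_lit 5) (nat_lit 269) (nat_lit 5) (nat_lit 452) (nat_lit 403) (nat_lit 285)) (XT.lf (nat_lit 0) (nat_lit 957925050) (nat_lit 760) (nat_lit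 2859108036) (nat_lit 76) (nat_lit 7792022128) (nat_lit 258) (nat_lit 5) (nat_lit 268) (nat_lit 5) (nat_lit 259) (nat_lit 5) (nat_lit 453) (nat_lit 403) (nat_lit 284)))) (XT.nd (nat_lit 156) (nat_lit 608) (nat_lit 0) (XT.nd (nat_lit 78) (nat_lit 0) (nat_lit 0) (XT.lf (nat_lit 0) (nat_lit 2951779150) (nat_lit 760) (nat_lit 8412665377) (nat_lit 76) (nat_lit 373812465) (nat_lit 249) (nat_lit 5) (nat_lit 259) (nat_lit 5) (nat_lit 250) (nat_lit 5) (nat_lit 454) (nat_lit 403) (nat_lit 283)) (XT.lf (nat_lit 0) (nat_lit 5013663283) (nat_lit 760) (nat_lit 2241119648) (nat_lit 76) (nat_lit 4614707878) (nat_lit 249) (nat_lit 5) (nat_lit 259) (nat_lit 5) (nat_lit 250) (nat_lit 5) (nat_lit 455) (nat_lit 403) (nat_lit 282))) (XT.nd (nat_lit 78) (nat_lit 0) (nat_lit 0) (XT.lf (nat_lit 0) (nat_lit 4089057919) (nat_lit 608) (nat_lit 3038159788) (nat_lit 684) (nat_lit 4875933789) (nat_lit 241) (nat_lit 5) (nat_lit 249) (nat_lit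 5) (nat_lit 250) (nat_lit 5) (nat_lit 456) (nat_lit 403) (nat_lit 281)) (XT.lf (nat_lit 0) (nat_lit 9290446194) (nat_lit 684) (nat_lit 1589885198) (nat_lit 76) (nat_lit 1259016576) (nat_lit 241) (nat_lit 5) (nat_lit 250) (nat_lit 5) (nat_lit 242) (nat_lit 5) (nat_lit 457) (nat_lit 403) (nat_lit 280))))) (XT.nd (nat_lit 234) (nat_lit 1140) (nat_lit 0) (XT.nd (nat_lit 78) (nat_lit 684) (nat_lit 0) (XT.lf (nat_lit 0) (nat_lit 4886519686) (nat_lit 608) (nat_lit 6646644176) (nat_lit 684) (nat_lit 744390439) (nat_lit 233) (nat_lit 5) (nat_lit 241) (nat_lit 5) (nat_lit 242) (nat_lit 5) (nat_lit 458) (nat_lit 403) (nat_lit 279)) (XT.nd (nat_lit 78) (nat_lit 608) (nat_lit 0) (XT.lf (nat_lit 0) (nat_lit 1379014592) (nat_lit 684) (nat_lit 931833642) (nat_lit 76) (nat_lit 10107600590) (nat_lit 232) (nat_lit 5) (nat_lit 241) (nat_lit 5) (nat_lit 233) (nat_lit 5) (nat_lit 459) (nat_lit 403) (nat_lit 278)) (XT.lf (nat_lit 0)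 (nat_lit 3570722493) (nat_lit 684) (nat_lit 6867108660) (nat_lit 76) (nat_lit 2123525454) (nat_lit 224) (nat_lit 5) (nat_lit 233) (nat_lit 5) (nat_lit 225) (nat_lit 5) (nat_lit 460) (nat_lit 403) (nat_lit 277)))) (XT.nd (nat_lit 156) (nat_lit 532) (nat_lit 0) (XT.nd (nat_lit 78) (nat_lit 608) (nat_lit 0) (XT.lf (nat_lit 0) (nat_lit 5812786133) (nat_lit 684) (nat_lit 275025926) (nat_lit 76) (nat_lit 6619189687) (nat_lit 224) (nat_lit 5) (nat_lit 233) (nat_lit 5) (nat_lit 225) (nat_lit 5) (nat_lit 461) (nat_lit 403) (nat_lit 276)) (XT.lf (nat_lit 0) (nat_lit 6516554620) (nat_lit 608) (nat_lit 1610665282) (nat_lit 684) (nat_lit 4727798748) (nat_lit 216) (nat_lit 5) (nat_lit 224) (nat_lit 5) (nat_lit 225) (nat_lit 5) (nat_lit 462) (nat_lit 403) (nat_lit 275))) (XT.nd (nat_lit 78) (nat_lit 0) (nat_lit 0) (XT.lf (nat_lit 0) (nat_lit 409933711) (nat_lit 532) (nat_lit 10087094435) (nat_lit 608) (nat_lit 2508795287) (nat_lit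 209) (nat_lit 5) (nat_lit 216) (nat_lit 5) (nat_lit 217) (nat_lit 5) (nat_lit 463) (nat_lit 403) (nat_lit 274)) (XT.lf (nat_lit 0) (nat_lit 7350554999) (nat_lit 532) (nat_lit 5602353297) (nat_lit 608) (nat_lit 205971575) (nat_lit 209) (nat_lit 5) (nat_lit 216) (nat_lit 5) (nat_lit 217) (nat_lit 5) (nat_lit 464) (nat_lit 403) (nat_lit 273)))))) (XT.nd (nat_lit 546) (nat_lit 1520) (nat_lit 0) (XT.nd (nat_lit 234) (nat_lit 1064) (nat_lit 0) (XT.nd (nat_lit 78) (nat_lit 532) (nat_lit 0) (XT.lf (nat_lit 0) (nat_lit 1097771705) (nat_lit 532) (nat_lit 1009885366) (nat_lit 608) (nat_lit 11207213762) (nat_lit 201) (nat_lit 5) (nat_lit 208) (nat_lit 5) (nat_lit 209) (nat_lit 5) (nat_lit 465) (nat_lit 403) (nat_lit 272)) (XT.nd (nat_lit 78) (nat_lit 532) (nat_lit 0) (XT.lf (nat_lit 0) (nat_lit 4513763549) (nat_lit 608) (nat_lit 5295813039) (nat_lit 76) (nat_lit 3663407085) (nat_lit 201) (nat_lit 5) (nat_lit 209) (nat_lit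 5) (nat_lit 202) (nat_lit 5) (nat_lit 466) (nat_lit 403) (nat_lit 271)) (XT.lf (nat_lit 0) (nat_lit 1762825143) (nat_lit 532) (nat_lit 5209446254) (nat_lit 608) (nat_lit 6661910170) (nat_lit 194) (nat_lit 5) (nat_lit 201) (nat_lit 5) (nat_lit 202) (nat_lit 5) (nat_lit 467) (nat_lit 403) (nat_lit 270)))) (XT.nd (nat_lit 156) (nat_lit 532) (nat_lit 0) (XT.nd (nat_lit 78) (nat_lit 532) (nat_lit 0) (XT.lf (nat_lit 0) (nat_lit 9017031982) (nat_lit 532) (nat_lit 484759685) (nat_lit 608) (nat_lit 4296383127) (nat_lit 194) (nat_lit 5) (nat_lit 201) (nat_lit 5) (nat_lit 202) (nat_lit 5) (nat_lit 468) (nat_lit 403) (nat_lit 269)) (XT.lf (nat_lit 0) (nat_lit 2437397707) (nat_lit 532) (nat_lit 9675021361) (nat_lit 608) (nat_lit 1852426540) (nat_lit 187) (nat_lit 5) (nat_lit 194) (nat_lit 5) (nat_lit 195) (nat_lit 5) (nat_lit 469) (nat_lit 403) (nat_lit 268))) (XT.nd (nat_lit 78) (nat_lit 456) (nat_lit 0) (XT.lf (nat_lit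 0) (nat_lit 654122747) (nat_lit 608) (nat_lit 4294044493) (nat_lit 76) (nat_lit 9186164931) (nat_lit 186) (nat_lit 5) (nat_lit 194) (nat_lit 5) (nat_lit 187) (nat_lit 5) (nat_lit 470) (nat_lit 403) (nat_lit 267)) (XT.lf (nat_lit 0) (nat_lit 3095321372) (nat_lit 456) (nat_lit 97666213) (nat_lit 532) (nat_lit 11113843812) (nat_lit 180) (nat_lit 5) (nat_lit 186) (nat_lit 5) (nat_lit 187) (nat_lit 5) (nat_lit 471) (nat_lit 403) (nat_lit 266))))) (XT.nd (nat_lit 234) (nat_lit 988) (nat_lit 0) (XT.nd (nat_lit 78) (nat_lit 532) (nat_lit 0) (XT.lf (nat_lit 0) (nat_lit 5830114796) (nat_lit 532) (nat_lit 3840365158) (nat_lit 76) (nat_lit 4811358394) (nat_lit 180) (nat_lit 5) (nat_lit 187) (nat_lit 5) (nat_lit 181) (nat_lit 5) (nat_lit 472) (nat_lit 403) (nat_lit 265)) (XT.nd (nat_lit 78) (nat_lit 0) (nat_lit 0) (XT.lf (nat_lit 0) (nat_lit 3709378429) (nat_lit 532) (nat_lit 4822582291) (nat_lit 608) (nat_lit 6128152495)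 (nat_lit 173) (nat_lit 5) (nat_lit 180) (nat_lit 5) (nat_lit 181) (nat_lit 5) (nat_lit 473) (nat_lit 403) (nat_lit 264)) (XT.lf (nat_lit 0) (nat_lit 11301939525) (nat_lit 608) (nat_lit 3397177276) (nat_lit 76) (nat_lit 142562013) (nat_lit 173) (nat_lit 5) (nat_lit 181) (nat_lit 5) (nat_lit 174) (nat_lit 5) (nat_lit 474) (nat_lit 403) (nat_lit 263)))) (XT.nd (nat_lit 156) (nat_lit 456) (nat_lit 0) (XT.nd (nat_lit 78) (nat_lit 76) (nat_lit 0) (XT.lf (nat_lit 0) (nat_lit 4315495968) (nat_lit 456) (nat_lit 9859387005) (nat_lit 532) (nat_lit 851048466) (nat_lit 167) (nat_lit 5) (nat_lit 173) (nat_lit 5) (nat_lit 174) (nat_lit 5) (nat_lit 475) (nat_lit 403) (nat_lit 262)) (XT.lf (nat_lit 0) (nat_lit 1877213953) (nat_lit 532) (nat_lit 3014049927) (nat_lit 76) (nat_lit 10322154292) (nat_lit 166) (nat_lit 5) (nat_lit 173) (nat_lit 5) (nat_lit 167) (nat_lit 5) (nat_lit 476) (nat_lit 403) (nat_lit 261))) (XT.nd (nat_lit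 78) (nat_lit 0) (nat_lit 0) (XT.lf (nat_lit 0) (nat_lit 4669591503) (nat_lit 532) (nat_lit 10527265042) (nat_lit 76) (nat_lit 207273286) (nat_lit 160) (nat_lit 5) (nat_lit 167) (nat_lit 5) (nat_lit 161) (nat_lit 5) (nat_lit 477) (nat_lit 403) (nat_lit 260)) (XT.lf (nat_lit 0) (nat_lit 7558571228) (nat_lit 532) (nat_lit 2680784894) (nat_lit 76) (nat_lit 5358490991) (nat_lit 160) (nat_lit 5) (nat_lit 167) (nat_lit 5) (nat_lit 161) (nat_lit 5) (nat_lit 478) (nat_lit 403) (nat_lit 259))))))) (XT.nd (nat_lit 1092) (nat_lit 2432) (nat_lit 0) (XT.nd (nat_lit 546) (nat_lit 1216) (nat_lit 0) (XT.nd (nat_lit 234) (nat_lit 836) (nat_lit 0) (XT.nd (nat_lit 78) (nat_lit 532) (nat_lit 0) (XT.lf (nat_lit 0) (nat_lit 5377006732) (nat_lit 456) (nat_lit 5151472498) (nat_lit 532) (nat_lit 5266502890) (nat_lit 154) (nat_lit 5) (nat_lit 160) (nat_lit 5) (nat_lit 161) (nat_lit 5) (nat_lit 479) (nat_lit 403) (nat_lit 258)) (XT.nd (nat_lit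 78) (nat_lit 532) (nat_lit 0) (XT.lf (nat_lit 0) (nat_lit 13564477409) (nat_lit 532) (nat_lit 2380016817) (nat_lit 76) (nat_lit 51437990) (nat_lit 154) (nat_lit 5) (nat_lit 161) (nat_lit 5) (nat_lit 155) (nat_lit 5) (nat_lit 480) (nat_lit 403) (nat_lit 257)) (XT.lf (nat_lit 0) (nat_lit 515284632) (nat_lit 532) (nat_lit 10357761411) (nat_lit 76) (nat_lit 5326580942) (nat_lit 147) (nat_lit 5) (nat_lit 154) (nat_lit 5) (nat_lit 148) (nat_lit 5) (nat_lit 481) (nat_lit 403) (nat_lit 256)))) (XT.nd (nat_lit 156) (nat_lit 456) (nat_lit 0) (XT.nd (nat_lit 78) (nat_lit 380) (nat_lit 0) (XT.lf (nat_lit 0) (nat_lit 3493114031) (nat_lit 532) (nat_lit 2178813792) (nat_lit 76) (nat_lit 10735058010) (nat_lit 147) (nat_lit 5) (nat_lit 154) (nat_lit 5) (nat_lit 148) (nat_lit 5) (nat_lit 482) (nat_lit 403) (nat_lit 255)) (XT.lf (nat_lit 0) (nat_lit 6229753573) (nat_lit 380) (nat_lit 330022551) (nat_lit 456) (nat_lit 10058135968)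 (nat_lit 142) (nat_lit 5) (nat_lit 147) (nat_lit 5) (nat_lit 148) (nat_lit 5) (nat_lit 483) (nat_lit 403) (nat_lit 254))) (XT.nd (nat_lit 78) (nat_lit 456) (nat_lit 0) (XT.lf (nat_lit 0) (nat_lit 9724640579) (nat_lit 456) (nat_lit 2045826679) (nat_lit 76) (nat_lit 5061857877) (nat_lit 142) (nat_lit 5) (nat_lit 148) (nat_lit 5) (nat_lit 143) (nat_lit 5) (nat_lit 484) (nat_lit 403) (nat_lit 253)) (XT.lf (nat_lit 0) (nat_lit 6531377441) (nat_lit 456) (nat_lit 6455150980) (nat_lit 532) (nat_lit 4063829028) (nat_lit 136) (nat_lit 5) (nat_lit 142) (nat_lit 5) (nat_lit 143) (nat_lit 5) (nat_lit 485) (nat_lit 403) (nat_lit 252))))) (XT.nd (nat_lit 234) (nat_lit 760) (nat_lit 0) (XT.nd (nat_lit 78) (nat_lit 456) (nat_lit 0) (XT.lf (nat_lit 0) (nat_lit 15292510036) (nat_lit 456) (nat_lit 1024120445) (nat_lit 532) (nat_lit 956065820) (nat_lit 136) (nat_lit 5) (nat_lit 142) (nat_lit 5) (nat_lit 143) (nat_lit 5) (nat_lit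 486) (nat_lit 403) (nat_lit 251)) (XT.nd (nat_lit 78) (nat_lit 0) (nat_lit 0) (XT.lf (nat_lit 0) (nat_lit 2247954179) (nat_lit 456) (nat_lit 10739351750) (nat_lit 76) (nat_lit 4510631005) (nat_lit 130) (nat_lit 5) (nat_lit 136) (nat_lit 5) (nat_lit 131) (nat_lit 5) (nat_lit 487) (nat_lit 403) (nat_lit 250)) (XT.lf (nat_lit 0) (nat_lit 5512887222) (nat_lit 456) (nat_lit 2056922625) (nat_lit 76) (nat_lit 10157558564) (nat_lit 130) (nat_lit 5) (nat_lit 136) (nat_lit 5) (nat_lit 131) (nat_lit 5) (nat_lit 488) (nat_lit 403) (nat_lit 249)))) (XT.nd (nat_lit 156) (nat_lit 380) (nat_lit 0) (XT.nd (nat_lit 78) (nat_lit 0) (nat_lit 0) (XT.lf (nat_lit 0) (nat_lit 6874334588) (nat_lit 380) (nat_lit 2003087713) (nat_lit 456) (nat_lit 9083285159) (nat_lit 125) (nat_lit 5) (nat_lit 130) (nat_lit 5) (nat_lit 131) (nat_lit 5) (nat_lit 489) (nat_lit 403) (nat_lit 248)) (XT.lf (nat_lit 0) (nat_lit 12336749191) (nat_lit 456) (nat_lit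 2225349131) (nat_lit 76) (nat_lit 3636069856) (nat_lit 125) (nat_lit 5) (nat_lit 131) (nat_lit 5) (nat_lit 126) (nat_lit 5) (nat_lit 490) (nat_lit 403) (nat_lit 247))) (XT.nd (nat_lit 78) (nat_lit 76) (nat_lit 0) (XT.lf (nat_lit 0) (nat_lit 6875032944) (nat_lit 304) (nat_lit 9038079810) (nat_lit 380) (nat_lit 2526313171) (nat_lit 121) (nat_lit 5) (nat_lit 125) (nat_lit 5) (nat_lit 126) (nat_lit 5) (nat_lit 491) (nat_lit 403) (nat_lit 246)) (XT.lf (nat_lit 0) (nat_lit 869023357) (nat_lit 380) (nat_lit 2518210119) (nat_lit 76) (nat_lit 15298066074) (nat_lit 120) (nat_lit 5) (nat_lit 125) (nat_lit 5) (nat_lit 121) (nat_lit 5) (nat_lit 492) (nat_lit 403) (nat_lit 245)))))) (XT.nd (nat_lit 546) (nat_lit 988) (nat_lit 0) (XT.nd (nat_lit 234) (nat_lit 760) (nat_lit 0) (XT.nd (nat_lit 78) (nat_lit 304) (nat_lit 0) (XT.lf (nat_lit 0) (nat_lit 4348379971) (nat_lit 456) (nat_lit 12184486398) (nat_lit 76) (nat_lit 2401896025)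 (nat_lit 115) (nat_lit 5) (nat_lit 121) (nat_lit 5) (nat_lit 116) (nat_lit 5) (nat_lit 493) (nat_lit 403) (nat_lit 244)) (XT.nd (nat_lit 78) (nat_lit 304) (nat_lit 0) (XT.lf (nat_lit 0) (nat_lit 7927009911) (nat_lit 456) (nat_lit 2987740951) (nat_lit 76) (nat_lit 8273874357) (nat_lit 115) (nat_lit 5) (nat_lit 121) (nat_lit 5) (nat_lit 116) (nat_lit 5) (nat_lit 494) (nat_lit 403) (nat_lit 243)) (XT.lf (nat_lit 0) (nat_lit 6463406830) (nat_lit 304) (nat_lit 5146205401) (nat_lit 380) (nat_lit 7837309435) (nat_lit 111) (nat_lit 5) (nat_lit 115) (nat_lit 5) (nat_lit 116) (nat_lit 5) (nat_lit 495) (nat_lit 403) (nat_lit 242)))) (XT.nd (nat_lit 156) (nat_lit 380) (nat_lit 0) (XT.nd (nat_lit 78) (nat_lit 380) (nat_lit 0) (XT.lf (nat_lit 0) (nat_lit 15381338000) (nat_lit 380) (nat_lit 3585198498) (nat_lit 76) (nat_lit 743542392) (nat_lit 111) (nat_lit 5) (nat_lit 116) (nat_lit 5) (nat_lit 112) (nat_lit 5) (nat_lit 496)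 (nat_lit 403) (nat_lit 241)) (XT.lf (nat_lit 0) (nat_lit 6032026073) (nat_lit 380) (nat_lit 13260402840) (nat_lit 456) (nat_lit 684795924) (nat_lit 106) (nat_lit 5) (nat_lit 111) (nat_lit 5) (nat_lit 112) (nat_lit 5) (nat_lit 497) (nat_lit 403) (nat_lit 240))) (XT.nd (nat_lit 78) (nat_lit 304) (nat_lit 0) (XT.lf (nat_lit 0) (nat_lit 3007192760) (nat_lit 456) (nat_lit 4393007491) (nat_lit 76) (nat_lit 12848825153) (nat_lit 105) (nat_lit 5) (nat_lit 111) (nat_lit 5) (nat_lit 106) (nat_lit 5) (nat_lit 498) (nat_lit 403) (nat_lit 239)) (XT.lf (nat_lit 0) (nat_lit 5402703751) (nat_lit 304) (nat_lit 1387129180) (nat_lit 380) (nat_lit 13735822852) (nat_lit 101) (nat_lit 5) (nat_lit 105) (nat_lit 5) (nat_lit 106) (nat_lit 5) (nat_lit 499) (nat_lit 403) (nat_lit 238))))) (XT.nd (nat_lit 234) (nat_lit 684) (nat_lit 0) (XT.nd (nat_lit 78) (nat_lit 304) (nat_lit 0) (XT.lf (nat_lit 0) (nat_lit 10699569108) (nat_lit 380) (nat_lit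 5398270864) (nat_lit 76) (nat_lit 4708953803) (nat_lit 101) (nat_lit 5) (nat_lit 106) (nat_lit 5) (nat_lit 102) (nat_lit 5) (nat_lit 500) (nat_lit 403) (nat_lit 237)) (XT.nd (nat_lit 78) (nat_lit 0) (nat_lit 0) (XT.lf (nat_lit 0) (nat_lit 4557858948) (nat_lit 304) (nat_lit 10159550463) (nat_lit 380) (nat_lit 6375550727) (nat_lit 97) (nat_lit 5) (nat_lit 101) (nat_lit 5) (nat_lit 102) (nat_lit 5) (nat_lit 501) (nat_lit 403) (nat_lit 236)) (XT.lf (nat_lit 0) (nat_lit 14772740218) (nat_lit 304) (nat_lit 4070307976) (nat_lit 380) (nat_lit 2541256522) (nat_lit 97) (nat_lit 5) (nat_lit 101) (nat_lit 5) (nat_lit 102) (nat_lit 5) (nat_lit 502) (nat_lit 403) (nat_lit 235)))) (XT.nd (nat_lit 156) (nat_lit 304) (nat_lit 0) (XT.nd (nat_lit 78) (nat_lit 0) (nat_lit 0) (XT.lf (nat_lit 0) (nat_lit 1380114932) (nat_lit 380) (nat_lit 18160589401) (nat_lit 76) (nat_lit 2140030456) (nat_lit 92) (nat_lit 5) (nat_lit 97) (nat_lit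 5) (nat_lit 93) (nat_lit 5) (nat_lit 503) (nat_lit 403) (nat_lit 234)) (XT.lf (nat_lit 0) (nat_lit 5408915763) (nat_lit 380) (nat_lit 8095629961) (nat_lit 76) (nat_lit 8476954707) (nat_lit 92) (nat_lit 5) (nat_lit 97) (nat_lit 5) (nat_lit 93) (nat_lit 5) (nat_lit 504) (nat_lit 403) (nat_lit 233))) (XT.nd (nat_lit 78) (nat_lit 0) (nat_lit 0) (XT.lf (nat_lit 0) (nat_lit 2186107911) (nat_lit 304) (nat_lit 7337928343) (nat_lit 380) (nat_lit 12764133697) (nat_lit 88) (nat_lit 5) (nat_lit 92) (nat_lit 5) (nat_lit 93) (nat_lit 5) (nat_lit 505) (nat_lit 403) (nat_lit 232)) (XT.lf (nat_lit 0) (nat_lit 12770113771) (nat_lit 304) (nat_lit 997301902) (nat_lit 380) (nat_lit 8832641428) (nat_lit 88) (nat_lit 5) (nat_lit 92) (nat_lit 5) (nat_lit 93) (nat_lit 5) (nat_lit 506) (nat_lit 403) (nat_lit 231))))))))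
noncomputable def xc159 : XT := (XT.nd (nat_lit 52104) (nat_lit 0) (nat_lit 19760) (XT.nd (nat_lit 1092) (nat_lit 456) (nat_lit 0) (XT.nd (nat_lit 546) (nat_lit 912) (nat_lit 0) (XT.nd (nat_lit 234) (nat_lit 532) (nat_lit 0) (XT.nd (nat_lit 78) (nat_lit 76) (nat_lit 0) (XT.lf (nat_lit 0) (nat_lit 607078469) (nat_lit 228) (nat_lit 17519806070) (nat_lit 304) (nat_lit 4790676325) (nat_lit 85) (nat_lit 5) (nat_lit 88) (nat_lit 5) (nat_lit 89) (nat_lit 5) (nat_lit 507) (nat_lit 403) (nat_lit 230)) (XT.nd (nat_lit 78) (nat_lit 76) (nat_lit 0) (XT.lf (nat_lit 0) (nat_lit 11366495718) (nat_lit 228) (nat_lit 11271414621) (nat_lit 304) (nat_lit 602220252) (nat_lit 85) (nat_lit 5) (nat_lit 88) (nat_lit 5) (nat_lit 89) (nat_lit 5) (nat_lit 508) (nat_lit 403) (nat_lit 229)) (XT.lf (nat_lit 0) (nat_lit 3613818287) (nat_lit 304) (nat_lit 1264635750) (nat_lit 76) (nat_lit 18690385306) (nat_lit 84) (nat_lit 5) (nat_lit 88) (nat_lit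 5) (nat_lit 85) (nat_lit 5) (nat_lit 509) (nat_lit 403) (nat_lit 228)))) (XT.nd (nat_lit 156) (nat_lit 228) (nat_lit 0) (XT.nd (nat_lit 78) (nat_lit 0) (nat_lit 0) (XT.lf (nat_lit 0) (nat_lit 7972064375) (nat_lit 380) (nat_lit 14247193401) (nat_lit 76) (nat_lit 1683468922) (nat_lit 80) (nat_lit 5) (nat_lit 85) (nat_lit 5) (nat_lit 81) (nat_lit 5) (nat_lit 510) (nat_lit 403) (nat_lit 227)) (XT.lf (nat_lit 0) (nat_lit 12450473907) (nat_lit 380) (nat_lit 3476792082) (nat_lit 76) (nat_lit 8315368837) (nat_lit 80) (nat_lit 5) (nat_lit 85) (nat_lit 5) (nat_lit 81) (nat_lit 5) (nat_lit 511) (nat_lit 403) (nat_lit 226))) (XT.nd (nat_lit 78) (nat_lit 0) (nat_lit 0) (XT.lf (nat_lit 0) (nat_lit 7596336386) (nat_lit 228) (nat_lit 9463737961) (nat_lit 304) (nat_lit 7528437249) (nat_lit 77) (nat_lit 5) (nat_lit 80) (nat_lit 5) (nat_lit 81) (nat_lit 5) (nat_lit 512) (nat_lit 403) (nat_lit 225)) (XT.lf (nat_lit 0) (nat_lit 18925829034)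 (nat_lit 228) (nat_lit 2851742676) (nat_lit 304) (nat_lit 3163422970) (nat_lit 77) (nat_lit 5) (nat_lit 80) (nat_lit 5) (nat_lit 81) (nat_lit 5) (nat_lit 513) (nat_lit 403) (nat_lit 224))))) (XT.nd (nat_lit 234) (nat_lit 304) (nat_lit 0) (XT.nd (nat_lit 78) (nat_lit 228) (nat_lit 0) (XT.lf (nat_lit 0) (nat_lit 1323935357) (nat_lit 380) (nat_lit 20095846183) (nat_lit 76) (nat_lit 3879542330) (nat_lit 72) (nat_lit 5) (nat_lit 77) (nat_lit 5) (nat_lit 73) (nat_lit 5) (nat_lit 514) (nat_lit 403) (nat_lit 223)) (XT.nd (nat_lit 78) (nat_lit 228) (nat_lit 0) (XT.lf (nat_lit 0) (nat_lit 5910751310) (nat_lit 380) (nat_lit 8988217252) (nat_lit 76) (nat_lit 10764394214) (nat_lit 72) (nat_lit 5) (nat_lit 77) (nat_lit 5) (nat_lit 73) (nat_lit 5) (nat_lit 515) (nat_lit 403) (nat_lit 222)) (XT.lf (nat_lit 0) (nat_lit 2360629138) (nat_lit 228) (nat_lit 8236659194) (nat_lit 304) (nat_lit 15437237091) (nat_lit 69) (nat_lit 5)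 (nat_lit 72) (nat_lit 5) (nat_lit 73) (nat_lit 5) (nat_lit 516) (nat_lit 403) (nat_lit 221)))) (XT.nd (nat_lit 156) (nat_lit 304) (nat_lit 0) (XT.nd (nat_lit 78) (nat_lit 0) (nat_lit 0) (XT.lf (nat_lit 0) (nat_lit 14046473170) (nat_lit 228) (nat_lit 1384123811) (nat_lit 304) (nat_lit 10981456131) (nat_lit 69) (nat_lit 5) (nat_lit 72) (nat_lit 5) (nat_lit 73) (nat_lit 5) (nat_lit 517) (nat_lit 403) (nat_lit 220)) (XT.lf (nat_lit 0) (nat_lit 20389805131) (nat_lit 304) (nat_lit 879193169) (nat_lit 76) (nat_lit 5527550943) (nat_lit 69) (nat_lit 5) (nat_lit 73) (nat_lit 5) (nat_lit 70) (nat_lit 5) (nat_lit 518) (nat_lit 403) (nat_lit 219))) (XT.nd (nat_lit 78) (nat_lit 76) (nat_lit 0) (XT.lf (nat_lit 0) (nat_lit 10960025587) (nat_lit 228) (nat_lit 14561477356) (nat_lit 304) (nat_lit 1665768749) (nat_lit 66) (nat_lit 5) (nat_lit 69) (nat_lit 5) (nat_lit 70) (nat_lit 5) (nat_lit 519) (nat_lit 403) (nat_lit 218)) (XT.lf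 (nat_lit 0) (nat_lit 3127384108) (nat_lit 304) (nat_lit 4569857271) (nat_lit 76) (nat_lit 19888179310) (nat_lit 65) (nat_lit 5) (nat_lit 69) (nat_lit 5) (nat_lit 66) (nat_lit 5) (nat_lit 520) (nat_lit 403) (nat_lit 217)))))) (XT.nd (nat_lit 50466) (nat_lit 0) (nat_lit 32376) (XT.nd (nat_lit 234) (nat_lit 0) (nat_lit 0) (XT.nd (nat_lit 78) (nat_lit 228) (nat_lit 0) (XT.lf (nat_lit 0) (nat_lit 7395372626) (nat_lit 228) (nat_lit 639891160) (nat_lit 304) (nat_lit 19955227660) (nat_lit 62) (nat_lit 5) (nat_lit 65) (nat_lit 5) (nat_lit 66) (nat_lit 5) (nat_lit 521) (nat_lit 403) (nat_lit 216)) (XT.nd (nat_lit 78) (nat_lit 228) (nat_lit 0) (XT.lf (nat_lit 0) (nat_lit 13107918524) (nat_lit 304) (nat_lit 8795286068) (nat_lit 76) (nat_lit 6499128989) (nat_lit 62) (nat_lit 5) (nat_lit 66) (nat_lit 5) (nat_lit 63) (nat_lit 5) (nat_lit 522) (nat_lit 403) (nat_lit 215)) (XT.lf (nat_lit 0) (nat_lit 3268086201) (nat_lit 228)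 (nat_lit 15032695850) (nat_lit 304) (nat_lit 10521257664) (nat_lit 59) (nat_lit 5) (nat_lit 62) (nat_lit 5) (nat_lit 63) (nat_lit 5) (nat_lit 523) (nat_lit 403) (nat_lit 214)))) (XT.nd (nat_lit 50076) (nat_lit 0) (nat_lit 33516) (XT.nd (nat_lit 49998) (nat_lit 0) (nat_lit 33516) (XT.lf (nat_lit 0) (nat_lit 15680940249) (nat_lit 228) (nat_lit 7968942932) (nat_lit 304) (nat_lit 5599211408) (nat_lit 59) (nat_lit 5) (nat_lit 62) (nat_lit 5) (nat_lit 63) (nat_lit 5) (nat_lit 524) (nat_lit 403) (nat_lit 213)) (XT.lf (nat_lit 0) (nat_lit 24476797) (nat_lit 1292) (nat_lit 1878228785) (nat_lit 1292) (nat_lit 1878228785) (nat_lit 500) (nat_lit 3) (nat_lit 517) (nat_lit 3) (nat_lit 517) (nat_lit 5) (nat_lit 404) (nat_lit 404) (nat_lit 332))) (XT.nd (nat_lit 78) (nat_lit 0) (nat_lit 76) (XT.lf (nat_lit 0) (nat_lit 1403577255) (nat_lit 1292) (nat_lit 279978081) (nat_lit 1292) (nat_lit 5925571129) (nat_lit 500) (nat_lit 3)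 (nat_lit 517) (nat_lit 3) (nat_lit 517) (nat_lit 5) (nat_lit 405) (nat_lit 404) (nat_lit 331)) (XT.lf (nat_lit 0) (nat_lit 2774517391) (nat_lit 1216) (nat_lit 4369959386) (nat_lit 1292) (nat_lit 513101623) (nat_lit 501) (nat_lit 5) (nat_lit 517) (nat_lit 5) (nat_lit 518) (nat_lit 5) (nat_lit 406) (nat_lit 404) (nat_lit 330))))) (XT.nd (nat_lit 234) (nat_lit 1216) (nat_lit 0) (XT.nd (nat_lit 78) (nat_lit 0) (nat_lit 0) (XT.lf (nat_lit 0) (nat_lit 4151086936) (nat_lit 1216) (nat_lit 806614343) (nat_lit 1292) (nat_lit 2749766755) (nat_lit 501) (nat_lit 5) (nat_lit 517) (nat_lit 5) (nat_lit 518) (nat_lit 5) (nat_lit 407) (nat_lit 404) (nat_lit 329)) (XT.nd (nat_lit 78) (nat_lit 0) (nat_lit 0) (XT.lf (nat_lit 76) (nat_lit 2846850278) (nat_lit 0) (nat_lit 2692674165) (nat_lit 1292) (nat_lit 2219176514) (nat_lit 502) (nat_lit 5) (nat_lit 501) (nat_lit 5) (nat_lit 518) (nat_lit 5) (nat_lit 408) (nat_lit 404) (nat_lit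 328)) (XT.lf (nat_lit 76) (nat_lit 6565955397) (nat_lit 0) (nat_lit 361591372) (nat_lit 1292) (nat_lit 884007045) (nat_lit 502) (nat_lit 5) (nat_lit 501) (nat_lit 5) (nat_lit 518) (nat_lit 5) (nat_lit 409) (nat_lit 404) (nat_lit 327)))) (XT.nd (nat_lit 156) (nat_lit 0) (nat_lit 0) (XT.nd (nat_lit 78) (nat_lit 0) (nat_lit 0) (XT.lf (nat_lit 0) (nat_lit 467991374) (nat_lit 1292) (nat_lit 5373825020) (nat_lit 1368) (nat_lit 2023687792) (nat_lit 485) (nat_lit 5) (nat_lit 502) (nat_lit 5) (nat_lit 503) (nat_lit 5) (nat_lit 410) (nat_lit 404) (nat_lit 326)) (XT.lf (nat_lit 0) (nat_lit 1813450335) (nat_lit 1292) (nat_lit 1627212244) (nat_lit 1368) (nat_lit 4480218745) (nat_lit 485) (nat_lit 5) (nat_lit 502) (nat_lit 5) (nat_lit 503) (nat_lit 5) (nat_lit 411) (nat_lit 404) (nat_lit 325))) (XT.nd (nat_lit 78) (nat_lit 0) (nat_lit 76) (XT.lf (nat_lit 76) (nat_lit 2204491943) (nat_lit 0) (nat_lit 963715773) (nat_lit 1368)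 (nat_lit 4809539693) (nat_lit 486) (nat_lit 5) (nat_lit 485) (nat_lit 5) (nat_lit 503) (nat_lit 5) (nat_lit 412) (nat_lit 404) (nat_lit 324)) (XT.lf (nat_lit 0) (nat_lit 4539862802) (nat_lit 1292) (nat_lit 1930233581) (nat_lit 1368) (nat_lit 1565886999) (nat_lit 486) (nat_lit 5) (nat_lit 503) (nat_lit 5) (nat_lit 504) (nat_lit 5) (nat_lit 413) (nat_lit 404) (nat_lit 323))))))) (XT.nd (nat_lit 1092) (nat_lit 10108) (nat_lit 0) (XT.nd (nat_lit 546) (nat_lit 1292) (nat_lit 0) (XT.nd (nat_lit 234) (nat_lit 0) (nat_lit 0) (XT.nd (nat_lit 78) (nat_lit 1292) (nat_lit 0) (XT.lf (nat_lit 76) (nat_lit 1990380714) (nat_lit 0) (nat_lit 3937154049) (nat_lit 1368) (nat_lit 2168105693) (nat_lit 487) (nat_lit 5) (nat_lit 486) (nat_lit 5) (nat_lit 504) (nat_lit 5) (nat_lit 414) (nat_lit 404) (nat_lit 322)) (XT.nd (nat_lit 78) (nat_lit 1292) (nat_lit 0) (XT.lf (nat_lit 76) (nat_lit 5996707052) (nat_lit 0) (nat_lit 1328964568)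 (nat_lit 1368) (nat_lit 831192329) (nat_lit 487) (nat_lit 5) (nat_lit 486) (nat_lit 5) (nat_lit 504) (nat_lit 5) (nat_lit 415) (nat_lit 404) (nat_lit 321)) (XT.lf (nat_lit 0) (nat_lit 516538032) (nat_lit 1368) (nat_lit 6362498290) (nat_lit 1444) (nat_lit 1340411644) (nat_lit 469) (nat_lit 5) (nat_lit 487) (nat_lit 5) (nat_lit 488) (nat_lit 5) (nat_lit 416) (nat_lit 404) (nat_lit 320)))) (XT.nd (nat_lit 156) (nat_lit 0) (nat_lit 76) (XT.nd (nat_lit 78) (nat_lit 0) (nat_lit 0) (XT.lf (nat_lit 0) (nat_lit 1874157800) (nat_lit 1368) (nat_lit 2333192644) (nat_lit 1444) (nat_lit 4075967966) (nat_lit 469) (nat_lit 5) (nat_lit 487) (nat_lit 5) (nat_lit 488) (nat_lit 5) (nat_lit 417) (nat_lit 404) (nat_lit 319)) (XT.lf (nat_lit 76) (nat_lit 1780961549) (nat_lit 0) (nat_lit 1460768050) (nat_lit 1444) (nat_lit 5107106082) (nat_lit 470) (nat_lit 5) (nat_lit 469) (nat_lit 5) (nat_lit 488) (nat_lit 5) (nat_lit 418) (nat_lit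 404) (nat_lit 318))) (XT.nd (nat_lit 78) (nat_lit 0) (nat_lit 0) (XT.lf (nat_lit 0) (nat_lit 4632856496) (nat_lit 1368) (nat_lit 2434754657) (nat_lit 1444) (nat_lit 1348152985) (nat_lit 470) (nat_lit 5) (nat_lit 488) (nat_lit 5) (nat_lit 489) (nat_lit 5) (nat_lit 419) (nat_lit 404) (nat_lit 317)) (XT.lf (nat_lit 76) (nat_lit 1775401025) (nat_lit 0) (nat_lit 4269898112) (nat_lit 1444) (nat_lit 2438886589) (nat_lit 471) (nat_lit 5) (nat_lit 470) (nat_lit 5) (nat_lit 489) (nat_lit 5) (nat_lit 420) (nat_lit 404) (nat_lit 316))))) (XT.nd (nat_lit 234) (nat_lit 0) (nat_lit 0) (XT.nd (nat_lit 78) (nat_lit 1368) (nat_lit 0) (XT.lf (nat_lit 76) (nat_lit 6083653195) (nat_lit 0) (nat_lit 1391387299) (nat_lit 1444) (nat_lit 1079178198) (nat_lit 471) (nat_lit 5) (nat_lit 470) (nat_lit 5) (nat_lit 489) (nat_lit 5) (nat_lit 421) (nat_lit 404) (nat_lit 315)) (XT.nd (nat_lit 78) (nat_lit 0) (nat_lit 0) (XT.lf (nat_lit 0) (nat_lit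 298955733) (nat_lit 1444) (nat_lit 6780466248) (nat_lit 1520) (nat_lit 1546308049) (nat_lit 452) (nat_lit 5) (nat_lit 471) (nat_lit 5) (nat_lit 472) (nat_lit 5) (nat_lit 422) (nat_lit 404) (nat_lit 314)) (XT.lf (nat_lit 0) (nat_lit 1689619108) (nat_lit 1444) (nat_lit 2453506069) (nat_lit 1520) (nat_lit 4555437975) (nat_lit 452) (nat_lit 5) (nat_lit 471) (nat_lit 5) (nat_lit 472) (nat_lit 5) (nat_lit 423) (nat_lit 404) (nat_lit 313)))) (XT.nd (nat_lit 156) (nat_lit 0) (nat_lit 76) (XT.nd (nat_lit 78) (nat_lit 0) (nat_lit 76) (XT.lf (nat_lit 76) (nat_lit 1966575787) (nat_lit 0) (nat_lit 1128308257) (nat_lit 1520) (nat_lit 5678255249) (nat_lit 453) (nat_lit 5) (nat_lit 452) (nat_lit 5) (nat_lit 472) (nat_lit 5) (nat_lit 424) (nat_lit 404) (nat_lit 312)) (XT.lf (nat_lit 0) (nat_lit 4531915349) (nat_lit 1444) (nat_lit 2372968450) (nat_lit 1520) (nat_lit 1944271625) (nat_lit 453) (nat_lit 5) (nat_lit 472) (nat_lit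 5) (nat_lit 473) (nat_lit 5) (nat_lit 425) (nat_lit 404) (nat_lit 311))) (XT.nd (nat_lit 78) (nat_lit 0) (nat_lit 0) (XT.lf (nat_lit 76) (nat_lit 2150760349) (nat_lit 0) (nat_lit 3843312125) (nat_lit 1520) (nat_lit 2932712962) (nat_lit 454) (nat_lit 5) (nat_lit 453) (nat_lit 5) (nat_lit 473) (nat_lit 5) (nat_lit 426) (nat_lit 404) (nat_lit 310)) (XT.lf (nat_lit 76) (nat_lit 6777983212) (nat_lit 0) (nat_lit 698729077) (nat_lit 1520) (nat_lit 1529451815) (nat_lit 454) (nat_lit 5) (nat_lit 453) (nat_lit 5) (nat_lit 473) (nat_lit 5) (nat_lit 427) (nat_lit 404) (nat_lit 309)))))) (XT.nd (nat_lit 546) (nat_lit 3952) (nat_lit 0) (XT.nd (nat_lit 234) (nat_lit 3268) (nat_lit 0) (XT.nd (nat_lit 78) (nat_lit 1596) (nat_lit 0) (XT.lf (nat_lit 0) (nat_lit 2406583527) (nat_lit 1444) (nat_lit 6590169884) (nat_lit 1520) (nat_lit 90242402) (nat_lit 435) (nat_lit 5) (nat_lit 454) (nat_lit 5) (nat_lit 455) (nat_lit 5) (nat_lit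 428) (nat_lit 404) (nat_lit 308)) (XT.nd (nat_lit 78) (nat_lit 1520) (nat_lit 0) (XT.lf (nat_lit 0) (nat_lit 1355367087) (nat_lit 1520) (nat_lit 2038092385) (nat_lit 76) (nat_lit 5775911714) (nat_lit 434) (nat_lit 5) (nat_lit 454) (nat_lit 5) (nat_lit 435) (nat_lit 5) (nat_lit 429) (nat_lit 404) (nat_lit 307)) (XT.lf (nat_lit 0) (nat_lit 2712917021) (nat_lit 1520) (nat_lit 109855752) (nat_lit 1596) (nat_lit 6430746776) (nat_lit 414) (nat_lit 5) (nat_lit 434) (nat_lit 5) (nat_lit 435) (nat_lit 5) (nat_lit 430) (nat_lit 404) (nat_lit 306)))) (XT.nd (nat_lit 156) (nat_lit 1672) (nat_lit 0) (XT.nd (nat_lit 78) (nat_lit 1596) (nat_lit 0) (XT.lf (nat_lit 0) (nat_lit 4331168315) (nat_lit 1596) (nat_lit 1793150291) (nat_lit 76) (nat_lit 3214818320) (nat_lit 414) (nat_lit 5) (nat_lit 435) (nat_lit 5) (nat_lit 415) (nat_lit 5) (nat_lit 431) (nat_lit 404) (nat_lit 305)) (XT.lf (nat_lit 0) (nat_lit 3069641784) (nat_lit 1596)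 (nat_lit 2798043764) (nat_lit 1672) (nat_lit 3558840536) (nat_lit 393) (nat_lit 5) (nat_lit 414) (nat_lit 5) (nat_lit 415) (nat_lit 5) (nat_lit 432) (nat_lit 404) (nat_lit 304))) (XT.nd (nat_lit 78) (nat_lit 1672) (nat_lit 0) (XT.lf (nat_lit 0) (nat_lit 7428547044) (nat_lit 1672) (nat_lit 1484869604) (nat_lit 76) (nat_lit 602392247) (nat_lit 393) (nat_lit 5) (nat_lit 415) (nat_lit 5) (nat_lit 394) (nat_lit 5) (nat_lit 433) (nat_lit 404) (nat_lit 303)) (XT.lf (nat_lit 0) (nat_lit 3492743330) (nat_lit 1672) (nat_lit 5547167866) (nat_lit 1748) (nat_lit 566598250) (nat_lit 371) (nat_lit 5) (nat_lit 393) (nat_lit 5) (nat_lit 394) (nat_lit 5) (nat_lit 434) (nat_lit 404) (nat_lit 302))))) (XT.nd (nat_lit 312) (nat_lit 1748) (nat_lit 0) (XT.nd (nat_lit 156) (nat_lit 836) (nat_lit 0) (XT.nd (nat_lit 78) (nat_lit 1292) (nat_lit 0) (XT.lf (nat_lit 0) (nat_lit 959821538) (nat_lit 1748) (nat_lit 1134546900) (nat_lit 76) (nat_lit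 7604779743) (nat_lit 370) (nat_lit 5) (nat_lit 393) (nat_lit 5) (nat_lit 371) (nat_lit 5) (nat_lit 435) (nat_lit 404) (nat_lit 301)) (XT.lf (nat_lit 0) (nat_lit 2523120864) (nat_lit 1368) (nat_lit 5829274064) (nat_lit 76) (nat_lit 1440907865) (nat_lit 353) (nat_lit 5) (nat_lit 371) (nat_lit 5) (nat_lit 354) (nat_lit 5) (nat_lit 436) (nat_lit 404) (nat_lit 300))) (XT.nd (nat_lit 78) (nat_lit 836) (nat_lit 0) (XT.lf (nat_lit 0) (nat_lit 4118182446) (nat_lit 1368) (nat_lit 742403494) (nat_lit 76) (nat_lit 5028761070) (nat_lit 353) (nat_lit 5) (nat_lit 371) (nat_lit 5) (nat_lit 354) (nat_lit 5) (nat_lit 437) (nat_lit 404) (nat_lit 299)) (XT.lf (nat_lit 0) (nat_lit 4486169039) (nat_lit 836) (nat_lit 1267478359) (nat_lit 912) (nat_lit 4233510785) (nat_lit 342) (nat_lit 5) (nat_lit 353) (nat_lit 5) (nat_lit 354) (nat_lit 5) (nat_lit 438) (nat_lit 404) (nat_lit 298)))) (XT.nd (nat_lit 156) (nat_lit 912) (nat_lit 0) (XT.nd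 (nat_lit 78) (nat_lit 836) (nat_lit 0) (XT.lf (nat_lit 0) (nat_lit 7422070657) (nat_lit 912) (nat_lit 292229736) (nat_lit 76) (nat_lit 2372636004) (nat_lit 342) (nat_lit 5) (nat_lit 354) (nat_lit 5) (nat_lit 343) (nat_lit 5) (nat_lit 439) (nat_lit 404) (nat_lit 297)) (XT.lf (nat_lit 0) (nat_lit 5059866932) (nat_lit 836) (nat_lit 4085308015) (nat_lit 912) (nat_lit 1043124467) (nat_lit 331) (nat_lit 5) (nat_lit 342) (nat_lit 5) (nat_lit 343) (nat_lit 5) (nat_lit 440) (nat_lit 404) (nat_lit 296))) (XT.nd (nat_lit 78) (nat_lit 0) (nat_lit 0) (XT.lf (nat_lit 0) (nat_lit 211145672) (nat_lit 836) (nat_lit 375427813) (nat_lit 912) (nat_lit 9705381029) (nat_lit 319) (nat_lit 5) (nat_lit 330) (nat_lit 5) (nat_lit 331) (nat_lit 5) (nat_lit 441) (nat_lit 404) (nat_lit 295)) (XT.lf (nat_lit 0) (nat_lit 2272146354) (nat_lit 912) (nat_lit 4718473853) (nat_lit 76) (nat_lit 3406194235) (nat_lit 319) (nat_lit 5) (nat_lit 331)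 (nat_lit 5) (nat_lit 320) (nat_lit 5) (nat_lit 442) (nat_lit 404) (nat_lit 294))))))))
noncomputable def xc160 : XT := (XT.nd (nat_lit 2184) (nat_lit 6232) (nat_lit 0) (XT.nd (nat_lit 1092) (nat_lit 4712) (nat_lit 0) (XT.nd (nat_lit 546) (nat_lit 2204) (nat_lit 0) (XT.nd (nat_lit 234) (nat_lit 1520) (nat_lit 0) (XT.nd (nat_lit 78) (nat_lit 760) (nat_lit 0) (XT.lf (nat_lit 0) (nat_lit 739452123) (nat_lit 836) (nat_lit 3240110677) (nat_lit 912) (nat_lit 6524460435) (nat_lit 308) (nat_lit 5) (nat_lit 319) (nat_lit 5) (nat_lit 320) (nat_lit 5) (nat_lit 443) (nat_lit 404) (nat_lit 293)) (XT.nd (nat_lit 78) (nat_lit 760) (nat_lit 0) (XT.lf (nat_lit 0) (nat_lit 5737901328) (nat_lit 912) (nat_lit 4265393151) (nat_lit 76) (nat_lit 609760279) (nat_lit 308) (nat_lit 5) (nat_lit 320) (nat_lit 5) (nat_lit 309) (nat_lit 5) (nat_lit 444) (nat_lit 404) (nat_lit 292)) (XT.lf (nat_lit 0) (nat_lit 1320872958) (nat_lit 760) (nat_lit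 6222037685) (nat_lit 836) (nat_lit 3181139943) (nat_lit 298) (nat_lit 5) (nat_lit 308) (nat_lit 5) (nat_lit 309) (nat_lit 5) (nat_lit 445) (nat_lit 404) (nat_lit 291)))) (XT.nd (nat_lit 156) (nat_lit 684) (nat_lit 0) (XT.nd (nat_lit 78) (nat_lit 836) (nat_lit 0) (XT.lf (nat_lit 0) (nat_lit 7058045136) (nat_lit 760) (nat_lit 2336310705) (nat_lit 836) (nat_lit 1442717259) (nat_lit 298) (nat_lit 5) (nat_lit 308) (nat_lit 5) (nat_lit 309) (nat_lit 5) (nat_lit 446) (nat_lit 404) (nat_lit 290)) (XT.lf (nat_lit 0) (nat_lit 331482094) (nat_lit 836) (nat_lit 9000417901) (nat_lit 76) (nat_lit 1620319268) (nat_lit 287) (nat_lit 5) (nat_lit 298) (nat_lit 5) (nat_lit 288) (nat_lit 5) (nat_lit 447) (nat_lit 404) (nat_lit 289))) (XT.nd (nat_lit 78) (nat_lit 684) (nat_lit 0) (XT.lf (nat_lit 0) (nat_lit 2145035324) (nat_lit 836) (nat_lit 3264651694) (nat_lit 76) (nat_lit 5659339552) (nat_lit 287) (nat_lit 5) (nat_lit 298) (nat_lit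 5) (nat_lit 288) (nat_lit 5) (nat_lit 448) (nat_lit 404) (nat_lit 288)) (XT.lf (nat_lit 0) (nat_lit 2601548726) (nat_lit 684) (nat_lit 1392721825) (nat_lit 760) (nat_lit 7193923711) (nat_lit 278) (nat_lit 5) (nat_lit 287) (nat_lit 5) (nat_lit 288) (nat_lit 5) (nat_lit 449) (nat_lit 404) (nat_lit 287))))) (XT.nd (nat_lit 234) (nat_lit 1444) (nat_lit 0) (XT.nd (nat_lit 78) (nat_lit 760) (nat_lit 0) (XT.lf (nat_lit 0) (nat_lit 5902840406) (nat_lit 760) (nat_lit 2716316334) (nat_lit 76) (nat_lit 2690153782) (nat_lit 278) (nat_lit 5) (nat_lit 288) (nat_lit 5) (nat_lit 279) (nat_lit 5) (nat_lit 450) (nat_lit 404) (nat_lit 286)) (XT.nd (nat_lit 78) (nat_lit 0) (nat_lit 0) (XT.lf (nat_lit 0) (nat_lit 3287041051) (nat_lit 760) (nat_lit 4576181430) (nat_lit 836) (nat_lit 3569365784) (nat_lit 268) (nat_lit 5) (nat_lit 278) (nat_lit 5) (nat_lit 279) (nat_lit 5) (nat_lit 451) (nat_lit 404) (nat_lit 285)) (XT.lf (nat_lit 0)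 (nat_lit 9429140922) (nat_lit 760) (nat_lit 435189074) (nat_lit 836) (nat_lit 1693982950) (nat_lit 268) (nat_lit 5) (nat_lit 278) (nat_lit 5) (nat_lit 279) (nat_lit 5) (nat_lit 452) (nat_lit 404) (nat_lit 284)))) (XT.nd (nat_lit 156) (nat_lit 684) (nat_lit 0) (XT.nd (nat_lit 78) (nat_lit 0) (nat_lit 0) (XT.lf (nat_lit 0) (nat_lit 250543215) (nat_lit 760) (nat_lit 7670022710) (nat_lit 76) (nat_lit 3765278917) (nat_lit 258) (nat_lit 5) (nat_lit 268) (nat_lit 5) (nat_lit 259) (nat_lit 5) (nat_lit 453) (nat_lit 404) (nat_lit 283)) (XT.lf (nat_lit 0) (nat_lit 2212257810) (nat_lit 760) (nat_lit 1535486889) (nat_lit 76) (nat_lit 8067950188) (nat_lit 258) (nat_lit 5) (nat_lit 268) (nat_lit 5) (nat_lit 259) (nat_lit 5) (nat_lit 454) (nat_lit 404) (nat_lit 282))) (XT.nd (nat_lit 78) (nat_lit 0) (nat_lit 0) (XT.lf (nat_lit 0) (nat_lit 4231661961) (nat_lit 760) (nat_lit 7184966831) (nat_lit 76) (nat_lit 531154881) (nat_lit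 249) (nat_lit 5) (nat_lit 259) (nat_lit 5) (nat_lit 250) (nat_lit 5) (nat_lit 455) (nat_lit 404) (nat_lit 281)) (XT.lf (nat_lit 0) (nat_lit 6310845596) (nat_lit 760) (nat_lit 917361793) (nat_lit 76) (nat_lit 4853929649) (nat_lit 249) (nat_lit 5) (nat_lit 259) (nat_lit 5) (nat_lit 250) (nat_lit 5) (nat_lit 456) (nat_lit 404) (nat_lit 280)))))) (XT.nd (nat_lit 546) (nat_lit 2204) (nat_lit 0) (XT.nd (nat_lit 234) (nat_lit 1216) (nat_lit 0) (XT.nd (nat_lit 78) (nat_lit 684) (nat_lit 0) (XT.lf (nat_lit 0) (nat_lit 5530415508) (nat_lit 608) (nat_lit 2921614068) (nat_lit 684) (nat_lit 3766749986) (nat_lit 241) (nat_lit 5) (nat_lit 249) (nat_lit 5) (nat_lit 250) (nat_lit 5) (nat_lit 457) (nat_lit 404) (nat_lit 279)) (XT.nd (nat_lit 78) (nat_lit 684) (nat_lit 0) (XT.lf (nat_lit 0) (nat_lit 10636469551) (nat_lit 684) (nat_lit 265937619) (nat_lit 76) (nat_lit 1455749337) (nat_lit 241) (nat_lit 5) (nat_lit 250) (nat_lit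 5) (nat_lit 242) (nat_lit 5) (nat_lit 458) (nat_lit 404) (nat_lit 278)) (XT.lf (nat_lit 0) (nat_lit 405229229) (nat_lit 684) (nat_lit 6171012240) (nat_lit 76) (nat_lit 5923127454) (nat_lit 232) (nat_lit 5) (nat_lit 241) (nat_lit 5) (nat_lit 233) (nat_lit 5) (nat_lit 459) (nat_lit 404) (nat_lit 277)))) (XT.nd (nat_lit 156) (nat_lit 608) (nat_lit 0) (XT.nd (nat_lit 78) (nat_lit 0) (nat_lit 0) (XT.lf (nat_lit 0) (nat_lit 390845229) (nat_lit 608) (nat_lit 2150198465) (nat_lit 684) (nat_lit 10102355649) (nat_lit 224) (nat_lit 5) (nat_lit 232) (nat_lit 5) (nat_lit 233) (nat_lit 5) (nat_lit 460) (nat_lit 404) (nat_lit 276)) (XT.lf (nat_lit 0) (nat_lit 4761829524) (nat_lit 684) (nat_lit 5655327513) (nat_lit 76) (nat_lit 2372317674) (nat_lit 224) (nat_lit 5) (nat_lit 233) (nat_lit 5) (nat_lit 225) (nat_lit 5) (nat_lit 461) (nat_lit 404) (nat_lit 275))) (XT.nd (nat_lit 78) (nat_lit 0) (nat_lit 0) (XT.lf (nat_lit 0) (nat_lit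 1055993015) (nat_lit 608) (nat_lit 5977642871) (nat_lit 684) (nat_lit 5904712860) (nat_lit 216) (nat_lit 5) (nat_lit 224) (nat_lit 5) (nat_lit 225) (nat_lit 5) (nat_lit 462) (nat_lit 404) (nat_lit 274)) (XT.lf (nat_lit 0) (nat_lit 7960853859) (nat_lit 608) (nat_lit 1413655147) (nat_lit 684) (nat_lit 3715227717) (nat_lit 216) (nat_lit 5) (nat_lit 224) (nat_lit 5) (nat_lit 225) (nat_lit 5) (nat_lit 463) (nat_lit 404) (nat_lit 273))))) (XT.nd (nat_lit 234) (nat_lit 1064) (nat_lit 0) (XT.nd (nat_lit 78) (nat_lit 608) (nat_lit 0) (XT.lf (nat_lit 0) (nat_lit 1744212573) (nat_lit 532) (nat_lit 10036300218) (nat_lit 608) (nat_lit 1463282301) (nat_lit 209) (nat_lit 5) (nat_lit 216) (nat_lit 5) (nat_lit 217) (nat_lit 5) (nat_lit 464) (nat_lit 404) (nat_lit 272)) (XT.nd (nat_lit 78) (nat_lit 532) (nat_lit 0) (XT.lf (nat_lit 0) (nat_lit 852780781) (nat_lit 608) (nat_lit 4608312556) (nat_lit 76) (nat_lit 7939141325) (nat_lit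 208) (nat_lit 5) (nat_lit 216) (nat_lit 5) (nat_lit 209) (nat_lit 5) (nat_lit 465) (nat_lit 404) (nat_lit 271)) (XT.lf (nat_lit 0) (nat_lit 2425891805) (nat_lit 532) (nat_lit 771728706) (nat_lit 608) (nat_lit 10361956476) (nat_lit 201) (nat_lit 5) (nat_lit 208) (nat_lit 5) (nat_lit 209) (nat_lit 5) (nat_lit 466) (nat_lit 404) (nat_lit 270)))) (XT.nd (nat_lit 156) (nat_lit 532) (nat_lit 0) (XT.nd (nat_lit 78) (nat_lit 532) (nat_lit 0) (XT.lf (nat_lit 0) (nat_lit 5632948336) (nat_lit 608) (nat_lit 4101652318) (nat_lit 76) (nat_lit 3986641897) (nat_lit 201) (nat_lit 5) (nat_lit 209) (nat_lit 5) (nat_lit 202) (nat_lit 5) (nat_lit 467) (nat_lit 404) (nat_lit 269)) (XT.lf (nat_lit 0) (nat_lit 3089605490) (nat_lit 532) (nat_lit 5039231584) (nat_lit 608) (nat_lit 5757075322) (nat_lit 194) (nat_lit 5) (nat_lit 201) (nat_lit 5) (nat_lit 202) (nat_lit 5) (nat_lit 468) (nat_lit 404) (nat_lit 268))) (XT.nd (nat_lit 78) (nat_lit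 532) (nat_lit 0) (XT.lf (nat_lit 0) (nat_lit 10463572468) (nat_lit 532) (nat_lit 225431747) (nat_lit 608) (nat_lit 3364592112) (nat_lit 194) (nat_lit 5) (nat_lit 201) (nat_lit 5) (nat_lit 202) (nat_lit 5) (nat_lit 469) (nat_lit 404) (nat_lit 267)) (XT.lf (nat_lit 0) (nat_lit 3762686879) (nat_lit 532) (nat_lit 9579605381) (nat_lit 608) (nat_lit 881511069) (nat_lit 187) (nat_lit 5) (nat_lit 194) (nat_lit 5) (nat_lit 195) (nat_lit 5) (nat_lit 470) (nat_lit 404) (nat_lit 266))))))) (XT.nd (nat_lit 1092) (nat_lit 2812) (nat_lit 0) (XT.nd (nat_lit 546) (nat_lit 1824) (nat_lit 0) (XT.nd (nat_lit 234) (nat_lit 1064) (nat_lit 0) (XT.nd (nat_lit 78) (nat_lit 456) (nat_lit 0) (XT.lf (nat_lit 0) (nat_lit 1642444783) (nat_lit 608) (nat_lit 3114890051) (nat_lit 76) (nat_lit 9639615276) (nat_lit 186) (nat_lit 5) (nat_lit 194) (nat_lit 5) (nat_lit 187) (nat_lit 5) (nat_lit 471) (nat_lit 404) (nat_lit 265)) (XT.nd (nat_lit 78)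 (nat_lit 0) (nat_lit 0) (XT.lf (nat_lit 0) (nat_lit 4222375878) (nat_lit 532) (nat_lit 10160440999) (nat_lit 76) (nat_lit 190287721) (nat_lit 180) (nat_lit 5) (nat_lit 187) (nat_lit 5) (nat_lit 181) (nat_lit 5) (nat_lit 472) (nat_lit 404) (nat_lit 264)) (XT.lf (nat_lit 0) (nat_lit 6893947815) (nat_lit 532) (nat_lit 2667513216) (nat_lit 76) (nat_lit 5190527454) (nat_lit 180) (nat_lit 5) (nat_lit 187) (nat_lit 5) (nat_lit 181) (nat_lit 5) (nat_lit 473) (nat_lit 404) (nat_lit 263)))) (XT.nd (nat_lit 156) (nat_lit 532) (nat_lit 0) (XT.nd (nat_lit 78) (nat_lit 0) (nat_lit 0) (XT.lf (nat_lit 0) (nat_lit 5025003800) (nat_lit 532) (nat_lit 4614313944) (nat_lit 608) (nat_lit 5294731992) (nat_lit 173) (nat_lit 5) (nat_lit 180) (nat_lit 5) (nat_lit 181) (nat_lit 5) (nat_lit 474) (nat_lit 404) (nat_lit 262)) (XT.lf (nat_lit 0) (nat_lit 12448268760) (nat_lit 608) (nat_lit 2231076604) (nat_lit 76) (nat_lit 440240250) (nat_lit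 173) (nat_lit 5) (nat_lit 181) (nat_lit 5) (nat_lit 174) (nat_lit 5) (nat_lit 475) (nat_lit 404) (nat_lit 261))) (XT.nd (nat_lit 78) (nat_lit 0) (nat_lit 0) (XT.lf (nat_lit 0) (nat_lit 60052408) (nat_lit 532) (nat_lit 9680398902) (nat_lit 76) (nat_lit 5567276001) (nat_lit 166) (nat_lit 5) (nat_lit 173) (nat_lit 5) (nat_lit 167) (nat_lit 5) (nat_lit 476) (nat_lit 404) (nat_lit 260)) (XT.lf (nat_lit 0) (nat_lit 2813519955) (nat_lit 532) (nat_lit 1860008185) (nat_lit 76) (nat_lit 10825692240) (nat_lit 166) (nat_lit 5) (nat_lit 173) (nat_lit 5) (nat_lit 167) (nat_lit 5) (nat_lit 477) (nat_lit 404) (nat_lit 259))))) (XT.nd (nat_lit 234) (nat_lit 912) (nat_lit 0) (XT.nd (nat_lit 78) (nat_lit 456) (nat_lit 0) (XT.lf (nat_lit 0) (nat_lit 5654015125) (nat_lit 532) (nat_lit 9515276376) (nat_lit 76) (nat_lit 524618997) (nat_lit 160) (nat_lit 5) (nat_lit 167) (nat_lit 5) (nat_lit 161) (nat_lit 5) (nat_lit 478) (nat_lit 404)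 (nat_lit 258)) (XT.nd (nat_lit 78) (nat_lit 456) (nat_lit 0) (XT.lf (nat_lit 0) (nat_lit 8583303233) (nat_lit 532) (nat_lit 1535837879) (nat_lit 76) (nat_lit 5772719875) (nat_lit 160) (nat_lit 5) (nat_lit 167) (nat_lit 5) (nat_lit 161) (nat_lit 5) (nat_lit 479) (nat_lit 404) (nat_lit 257)) (XT.lf (nat_lit 0) (nat_lit 6675224298) (nat_lit 456) (nat_lit 4927987125) (nat_lit 532) (nat_lit 4489924482) (nat_lit 154) (nat_lit 5) (nat_lit 160) (nat_lit 5) (nat_lit 161) (nat_lit 5) (nat_lit 480) (nat_lit 404) (nat_lit 256)))) (XT.nd (nat_lit 156) (nat_lit 380) (nat_lit 0) (XT.nd (nat_lit 78) (nat_lit 532) (nat_lit 0) (XT.lf (nat_lit 0) (nat_lit 14685063585) (nat_lit 532) (nat_lit 1244966822) (nat_lit 76) (nat_lit 368380987) (nat_lit 154) (nat_lit 5) (nat_lit 161) (nat_lit 5) (nat_lit 155) (nat_lit 5) (nat_lit 481) (nat_lit 404) (nat_lit 255)) (XT.lf (nat_lit 0) (nat_lit 1371865634) (nat_lit 532) (nat_lit 9378364426)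 (nat_lit 76) (nat_lit 5756028036) (nat_lit 147) (nat_lit 5) (nat_lit 154) (nat_lit 5) (nat_lit 148) (nat_lit 5) (nat_lit 482) (nat_lit 404) (nat_lit 254))) (XT.nd (nat_lit 78) (nat_lit 380) (nat_lit 0) (XT.lf (nat_lit 0) (nat_lit 4392657988) (nat_lit 532) (nat_lit 1059103584) (nat_lit 76) (nat_lit 11266342970) (nat_lit 147) (nat_lit 5) (nat_lit 154) (nat_lit 5) (nat_lit 148) (nat_lit 5) (nat_lit 483) (nat_lit 404) (nat_lit 253)) (XT.lf (nat_lit 0) (nat_lit 7509981928) (nat_lit 380) (nat_lit 1906264) (nat_lit 456) (nat_lit 9421544816) (nat_lit 142) (nat_lit 5) (nat_lit 147) (nat_lit 5) (nat_lit 148) (nat_lit 5) (nat_lit 484) (nat_lit 404) (nat_lit 252)))))) (XT.nd (nat_lit 546) (nat_lit 1520) (nat_lit 0) (XT.nd (nat_lit 234) (nat_lit 836) (nat_lit 0) (XT.nd (nat_lit 78) (nat_lit 456) (nat_lit 0) (XT.lf (nat_lit 0) (nat_lit 10726084125) (nat_lit 456) (nat_lit 939392814) (nat_lit 76) (nat_lit 5486944904) (nat_lit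 142) (nat_lit 5) (nat_lit 148) (nat_lit 5) (nat_lit 143) (nat_lit 5) (nat_lit 485) (nat_lit 404) (nat_lit 251)) (XT.nd (nat_lit 78) (nat_lit 0) (nat_lit 0) (XT.lf (nat_lit 0) (nat_lit 7801807030) (nat_lit 456) (nat_lit 6242980480) (nat_lit 532) (nat_lit 3330203791) (nat_lit 136) (nat_lit 5) (nat_lit 142) (nat_lit 5) (nat_lit 143) (nat_lit 5) (nat_lit 486) (nat_lit 404) (nat_lit 250)) (XT.lf (nat_lit 0) (nat_lit 16715813217) (nat_lit 456) (nat_lit 710020972) (nat_lit 532) (nat_lit 176263786) (nat_lit 136) (nat_lit 5) (nat_lit 142) (nat_lit 5) (nat_lit 143) (nat_lit 5) (nat_lit 487) (nat_lit 404) (nat_lit 249)))) (XT.nd (nat_lit 156) (nat_lit 380) (nat_lit 0) (XT.nd (nat_lit 78) (nat_lit 0) (nat_lit 0) (XT.lf (nat_lit 0) (nat_lit 3075388078) (nat_lit 456) (nat_lit 9819470685) (nat_lit 76) (nat_lit 4937007917) (nat_lit 130) (nat_lit 5) (nat_lit 136) (nat_lit 5) (nat_lit 131) (nat_lit 5) (nat_lit 488) (nat_lit 404)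 (nat_lit 248)) (XT.lf (nat_lit 0) (nat_lit 6390277138) (nat_lit 456) (nat_lit 985641372) (nat_lit 76) (nat_lit 10690282571) (nat_lit 130) (nat_lit 5) (nat_lit 136) (nat_lit 5) (nat_lit 131) (nat_lit 5) (nat_lit 489) (nat_lit 404) (nat_lit 247))) (XT.nd (nat_lit 78) (nat_lit 0) (nat_lit 0) (XT.lf (nat_lit 0) (nat_lit 8116922435) (nat_lit 380) (nat_lit 1697313726) (nat_lit 456) (nat_lit 8490135379) (nat_lit 125) (nat_lit 5) (nat_lit 130) (nat_lit 5) (nat_lit 131) (nat_lit 5) (nat_lit 490) (nat_lit 404) (nat_lit 246)) (XT.lf (nat_lit 0) (nat_lit 13330063400) (nat_lit 456) (nat_lit 1173379811) (nat_lit 76) (nat_lit 4043399139) (nat_lit 125) (nat_lit 5) (nat_lit 131) (nat_lit 5) (nat_lit 126) (nat_lit 5) (nat_lit 491) (nat_lit 404) (nat_lit 245))))) (XT.nd (nat_lit 234) (nat_lit 760) (nat_lit 0) (XT.nd (nat_lit 78) (nat_lit 456) (nat_lit 0) (XT.lf (nat_lit 0) (nat_lit 8101796247) (nat_lit 304) (nat_lit 8868591394)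 (nat_lit 380) (nat_lit 1822695953) (nat_lit 121) (nat_lit 5) (nat_lit 125) (nat_lit 5) (nat_lit 126) (nat_lit 5) (nat_lit 492) (nat_lit 404) (nat_lit 244)) (XT.nd (nat_lit 78) (nat_lit 380) (nat_lit 0) (XT.lf (nat_lit 0) (nat_lit 1616063386) (nat_lit 380) (nat_lit 1490635995) (nat_lit 76) (nat_lit 15937375986) (nat_lit 120) (nat_lit 5) (nat_lit 125) (nat_lit 5) (nat_lit 121) (nat_lit 5) (nat_lit 493) (nat_lit 404) (nat_lit 243)) (XT.lf (nat_lit 0) (nat_lit 5159915692) (nat_lit 456) (nat_lit 11344815983) (nat_lit 76) (nat_lit 2793904230) (nat_lit 115) (nat_lit 5) (nat_lit 121) (nat_lit 5) (nat_lit 116) (nat_lit 5) (nat_lit 494) (nat_lit 404) (nat_lit 242)))) (XT.nd (nat_lit 156) (nat_lit 456) (nat_lit 0) (XT.nd (nat_lit 78) (nat_lit 304) (nat_lit 0) (XT.lf (nat_lit 0) (nat_lit 8795911012) (nat_lit 456) (nat_lit 1985377983) (nat_lit 76) (nat_lit 8776577613) (nat_lit 115) (nat_lit 5) (nat_lit 121) (nat_lit 5) (nat_lit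 116) (nat_lit 5) (nat_lit 495) (nat_lit 404) (nat_lit 241)) (XT.lf (nat_lit 0) (nat_lit 7647805136) (nat_lit 304) (nat_lit 4897282202) (nat_lit 380) (nat_lit 7276389558) (nat_lit 111) (nat_lit 5) (nat_lit 115) (nat_lit 5) (nat_lit 116) (nat_lit 5) (nat_lit 496) (nat_lit 404) (nat_lit 240))) (XT.nd (nat_lit 78) (nat_lit 456) (nat_lit 0) (XT.lf (nat_lit 0) (nat_lit 16380697396) (nat_lit 380) (nat_lit 2610599578) (nat_lit 76) (nat_lit 1098837521) (nat_lit 111) (nat_lit 5) (nat_lit 116) (nat_lit 5) (nat_lit 112) (nat_lit 5) (nat_lit 497) (nat_lit 404) (nat_lit 239)) (XT.lf (nat_lit 0) (nat_lit 423946) (nat_lit 456) (nat_lit 13170682638) (nat_lit 76) (nat_lit 7191659121) (nat_lit 105) (nat_lit 5) (nat_lit 111) (nat_lit 5) (nat_lit 106) (nat_lit 5) (nat_lit 498) (nat_lit 404) (nat_lit 238))))))))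
noncomputable def xc161 : XT := (XT.nd (nat_lit 52182) (nat_lit 0) (nat_lit 25384) (XT.nd (nat_lit 1092) (nat_lit 1596) (nat_lit 0) (XT.nd (nat_lit 546) (nat_lit 912) (nat_lit 0) (XT.nd (nat_lit 234) (nat_lit 684) (nat_lit 0) (XT.nd (nat_lit 78) (nat_lit 304) (nat_lit 0) (XT.lf (nat_lit 0) (nat_lit 3743566952) (nat_lit 456) (nat_lit 3452548985) (nat_lit 76) (nat_lit 13444072006) (nat_lit 105) (nat_lit 5) (nat_lit 111) (nat_lit 5) (nat_lit 106) (nat_lit 5) (nat_lit 499) (nat_lit 404) (nat_lit 237)) (XT.nd (nat_lit 78) (nat_lit 0) (nat_lit 0) (XT.lf (nat_lit 0) (nat_lit 6532311228) (nat_lit 304) (nat_lit 1062921882) (nat_lit 380) (nat_lit 13327256107) (nat_lit 101) (nat_lit 5) (nat_lit 105) (nat_lit 5) (nat_lit 106) (nat_lit 5) (nat_lit 500) (nat_lit 404) (nat_lit 236)) (XT.lf (nat_lit 0) (nat_lit 11572274816) (nat_lit 380) (nat_lit 4493542172) (nat_lit 76) (nat_lit 5143656404) (nat_lit 101) (nat_lit 5) (nat_lit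 106) (nat_lit 5) (nat_lit 102) (nat_lit 5) (nat_lit 501) (nat_lit 404) (nat_lit 235)))) (XT.nd (nat_lit 156) (nat_lit 380) (nat_lit 0) (XT.nd (nat_lit 78) (nat_lit 0) (nat_lit 0) (XT.lf (nat_lit 0) (nat_lit 5655047775) (nat_lit 304) (nat_lit 10009040008) (nat_lit 380) (nat_lit 5837408511) (nat_lit 97) (nat_lit 5) (nat_lit 101) (nat_lit 5) (nat_lit 102) (nat_lit 5) (nat_lit 502) (nat_lit 404) (nat_lit 234)) (XT.lf (nat_lit 0) (nat_lit 16054500559) (nat_lit 304) (nat_lit 3804947994) (nat_lit 380) (nat_lit 1939480447) (nat_lit 97) (nat_lit 5) (nat_lit 101) (nat_lit 5) (nat_lit 102) (nat_lit 5) (nat_lit 503) (nat_lit 404) (nat_lit 233))) (XT.nd (nat_lit 78) (nat_lit 0) (nat_lit 0) (XT.lf (nat_lit 0) (nat_lit 2047827022) (nat_lit 380) (nat_lit 17524478029) (nat_lit 76) (nat_lit 2528981740) (nat_lit 92) (nat_lit 5) (nat_lit 97) (nat_lit 5) (nat_lit 93) (nat_lit 5) (nat_lit 504) (nat_lit 404) (nat_lit 232)) (XT.lf (nat_lit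 0) (nat_lit 6144652696) (nat_lit 380) (nat_lit 7277813973) (nat_lit 76) (nat_lit 8985857207) (nat_lit 92) (nat_lit 5) (nat_lit 97) (nat_lit 5) (nat_lit 93) (nat_lit 5) (nat_lit 505) (nat_lit 404) (nat_lit 231))))) (XT.nd (nat_lit 234) (nat_lit 380) (nat_lit 0) (XT.nd (nat_lit 78) (nat_lit 228) (nat_lit 0) (XT.lf (nat_lit 0) (nat_lit 3203113074) (nat_lit 304) (nat_lit 7132976651) (nat_lit 380) (nat_lit 12385161786) (nat_lit 88) (nat_lit 5) (nat_lit 92) (nat_lit 5) (nat_lit 93) (nat_lit 5) (nat_lit 506) (nat_lit 404) (nat_lit 230)) (XT.nd (nat_lit 78) (nat_lit 228) (nat_lit 0) (XT.lf (nat_lit 0) (nat_lit 13979715071) (nat_lit 304) (nat_lit 672433961) (nat_lit 380) (nat_lit 8387476037) (nat_lit 88) (nat_lit 5) (nat_lit 92) (nat_lit 5) (nat_lit 93) (nat_lit 5) (nat_lit 507) (nat_lit 404) (nat_lit 229)) (XT.lf (nat_lit 0) (nat_lit 1577268783) (nat_lit 228) (nat_lit 17518004918) (nat_lit 304) (nat_lit 4268280691) (nat_lit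 85) (nat_lit 5) (nat_lit 88) (nat_lit 5) (nat_lit 89) (nat_lit 5) (nat_lit 508) (nat_lit 404) (nat_lit 228)))) (XT.nd (nat_lit 156) (nat_lit 304) (nat_lit 0) (XT.nd (nat_lit 78) (nat_lit 76) (nat_lit 0) (XT.lf (nat_lit 0) (nat_lit 12533089107) (nat_lit 228) (nat_lit 11151551469) (nat_lit 304) (nat_lit 8177245) (nat_lit 85) (nat_lit 5) (nat_lit 88) (nat_lit 5) (nat_lit 89) (nat_lit 5) (nat_lit 509) (nat_lit 404) (nat_lit 227)) (XT.lf (nat_lit 0) (nat_lit 4272504914) (nat_lit 304) (nat_lit 361062058) (nat_lit 76) (nat_lit 19394694172) (nat_lit 84) (nat_lit 5) (nat_lit 88) (nat_lit 5) (nat_lit 85) (nat_lit 5) (nat_lit 510) (nat_lit 404) (nat_lit 226))) (XT.nd (nat_lit 78) (nat_lit 0) (nat_lit 0) (XT.lf (nat_lit 0) (nat_lit 8714628356) (nat_lit 380) (nat_lit 13599760961) (nat_lit 76) (nat_lit 2054507129) (nat_lit 80) (nat_lit 5) (nat_lit 85) (nat_lit 5) (nat_lit 81) (nat_lit 5) (nat_lit 511) (nat_lit 404) (nat_lit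 225)) (XT.lf (nat_lit 0) (nat_lit 13271172300) (nat_lit 380) (nat_lit 2632233503) (nat_lit 76) (nat_lit 8812429967) (nat_lit 80) (nat_lit 5) (nat_lit 85) (nat_lit 5) (nat_lit 81) (nat_lit 5) (nat_lit 512) (nat_lit 404) (nat_lit 224)))))) (XT.nd (nat_lit 546) (nat_lit 760) (nat_lit 0) (XT.nd (nat_lit 234) (nat_lit 228) (nat_lit 0) (XT.nd (nat_lit 78) (nat_lit 380) (nat_lit 0) (XT.lf (nat_lit 0) (nat_lit 8656343754) (nat_lit 228) (nat_lit 9311307269) (nat_lit 304) (nat_lit 7101089601) (nat_lit 77) (nat_lit 5) (nat_lit 80) (nat_lit 5) (nat_lit 81) (nat_lit 5) (nat_lit 513) (nat_lit 404) (nat_lit 223)) (XT.nd (nat_lit 78) (nat_lit 380) (nat_lit 0) (XT.lf (nat_lit 0) (nat_lit 20194620753) (nat_lit 228) (nat_lit 2573772186) (nat_lit 304) (nat_lit 2660106730) (nat_lit 77) (nat_lit 5) (nat_lit 80) (nat_lit 5) (nat_lit 81) (nat_lit 5) (nat_lit 514) (nat_lit 404) (nat_lit 222)) (XT.lf (nat_lit 0) (nat_lit 1906590251) (nat_lit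 380) (nat_lit 19596672681) (nat_lit 76) (nat_lit 4290722517) (nat_lit 72) (nat_lit 5) (nat_lit 77) (nat_lit 5) (nat_lit 73) (nat_lit 5) (nat_lit 515) (nat_lit 404) (nat_lit 221)))) (XT.nd (nat_lit 156) (nat_lit 0) (nat_lit 0) (XT.nd (nat_lit 78) (nat_lit 228) (nat_lit 0) (XT.lf (nat_lit 0) (nat_lit 6574237108) (nat_lit 380) (nat_lit 8284559612) (nat_lit 76) (nat_lit 11306730471) (nat_lit 72) (nat_lit 5) (nat_lit 77) (nat_lit 5) (nat_lit 73) (nat_lit 5) (nat_lit 516) (nat_lit 404) (nat_lit 220)) (XT.lf (nat_lit 0) (nat_lit 3285451719) (nat_lit 228) (nat_lit 8064059594) (nat_lit 304) (nat_lit 15194705520) (nat_lit 69) (nat_lit 5) (nat_lit 72) (nat_lit 5) (nat_lit 73) (nat_lit 5) (nat_lit 517) (nat_lit 404) (nat_lit 219))) (XT.nd (nat_lit 78) (nat_lit 0) (nat_lit 0) (XT.lf (nat_lit 0) (nat_lit 15187804593) (nat_lit 228) (nat_lit 1081087872) (nat_lit 304) (nat_lit 10660618280) (nat_lit 69) (nat_lit 5) (nat_lit 72)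 (nat_lit 5) (nat_lit 73) (nat_lit 5) (nat_lit 518) (nat_lit 404) (nat_lit 218)) (XT.lf (nat_lit 0) (nat_lit 21319003966) (nat_lit 304) (nat_lit 44778850) (nat_lit 76) (nat_lit 5958083319) (nat_lit 69) (nat_lit 5) (nat_lit 73) (nat_lit 5) (nat_lit 70) (nat_lit 5) (nat_lit 519) (nat_lit 404) (nat_lit 217))))) (XT.nd (nat_lit 234) (nat_lit 228) (nat_lit 0) (XT.nd (nat_lit 78) (nat_lit 304) (nat_lit 0) (XT.lf (nat_lit 0) (nat_lit 12025619030) (nat_lit 228) (nat_lit 14522988465) (nat_lit 304) (nat_lit 1171893750) (nat_lit 66) (nat_lit 5) (nat_lit 69) (nat_lit 5) (nat_lit 70) (nat_lit 5) (nat_lit 520) (nat_lit 404) (nat_lit 216)) (XT.nd (nat_lit 78) (nat_lit 228) (nat_lit 0) (XT.lf (nat_lit 0) (nat_lit 3700006474) (nat_lit 304) (nat_lit 3824503493) (nat_lit 76) (nat_lit 20602242334) (nat_lit 65) (nat_lit 5) (nat_lit 69) (nat_lit 5) (nat_lit 66) (nat_lit 5) (nat_lit 521) (nat_lit 404) (nat_lit 215)) (XT.lf (nat_lit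 0) (nat_lit 8374526061) (nat_lit 228) (nat_lit 326913220) (nat_lit 304) (nat_lit 19838580718) (nat_lit 62) (nat_lit 5) (nat_lit 65) (nat_lit 5) (nat_lit 66) (nat_lit 5) (nat_lit 522) (nat_lit 404) (nat_lit 214)))) (XT.nd (nat_lit 50154) (nat_lit 0) (nat_lit 33516) (XT.nd (nat_lit 78) (nat_lit 228) (nat_lit 0) (XT.lf (nat_lit 0) (nat_lit 13867709612) (nat_lit 304) (nat_lit 8148238745) (nat_lit 76) (nat_lit 6944310742) (nat_lit 62) (nat_lit 5) (nat_lit 66) (nat_lit 5) (nat_lit 63) (nat_lit 5) (nat_lit 523) (nat_lit 404) (nat_lit 213)) (XT.lf (nat_lit 0) (nat_lit 4150986805) (nat_lit 228) (nat_lit 15008994105) (nat_lit 304) (nat_lit 10228470739) (nat_lit 59) (nat_lit 5) (nat_lit 62) (nat_lit 5) (nat_lit 63) (nat_lit 5) (nat_lit 524) (nat_lit 404) (nat_lit 212))) (XT.nd (nat_lit 78) (nat_lit 0) (nat_lit 0) (XT.lf (nat_lit 0) (nat_lit 1370308521) (nat_lit 1292) (nat_lit 1229033857) (nat_lit 1292) (nat_lit 1229033857)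 (nat_lit 500) (nat_lit 3) (nat_lit 517) (nat_lit 3) (nat_lit 517) (nat_lit 5) (nat_lit 405) (nat_lit 405) (nat_lit 330)) (XT.lf (nat_lit 76) (nat_lit 1075109876) (nat_lit 0) (nat_lit 3001445108) (nat_lit 1292) (nat_lit 3629365741) (nat_lit 501) (nat_lit 5) (nat_lit 500) (nat_lit 3) (nat_lit 517) (nat_lit 5) (nat_lit 406) (nat_lit 405) (nat_lit 329))))))) (XT.nd (nat_lit 1092) (nat_lit 5700) (nat_lit 0) (XT.nd (nat_lit 546) (nat_lit 1216) (nat_lit 0) (XT.nd (nat_lit 234) (nat_lit 0) (nat_lit 0) (XT.nd (nat_lit 78) (nat_lit 1216) (nat_lit 0) (XT.lf (nat_lit 76) (nat_lit 4694611574) (nat_lit 0) (nat_lit 726840222) (nat_lit 1292) (nat_lit 2335007971) (nat_lit 501) (nat_lit 5) (nat_lit 500) (nat_lit 3) (nat_lit 517) (nat_lit 5) (nat_lit 407) (nat_lit 405) (nat_lit 328)) (XT.nd (nat_lit 78) (nat_lit 1292) (nat_lit 0) (XT.lf (nat_lit 76) (nat_lit 557336971) (nat_lit 0) (nat_lit 6216395137) (nat_lit 1292) (nat_lit 1034699368)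 (nat_lit 502) (nat_lit 5) (nat_lit 501) (nat_lit 5) (nat_lit 518) (nat_lit 5) (nat_lit 408) (nat_lit 405) (nat_lit 327)) (XT.lf (nat_lit 0) (nat_lit 280100330) (nat_lit 1292) (nat_lit 3595938647) (nat_lit 1368) (nat_lit 3985549953) (nat_lit 484) (nat_lit 5) (nat_lit 501) (nat_lit 5) (nat_lit 502) (nat_lit 5) (nat_lit 409) (nat_lit 405) (nat_lit 326)))) (XT.nd (nat_lit 156) (nat_lit 0) (nat_lit 76) (XT.nd (nat_lit 78) (nat_lit 0) (nat_lit 76) (XT.lf (nat_lit 76) (nat_lit 108782941) (nat_lit 0) (nat_lit 1466741735) (nat_lit 1368) (nat_lit 6340814177) (nat_lit 485) (nat_lit 5) (nat_lit 484) (nat_lit 5) (nat_lit 502) (nat_lit 5) (nat_lit 410) (nat_lit 405) (nat_lit 325)) (XT.lf (nat_lit 0) (nat_lit 2895656724) (nat_lit 1292) (nat_lit 4060703816) (nat_lit 1368) (nat_lit 1015876440) (nat_lit 485) (nat_lit 5) (nat_lit 502) (nat_lit 5) (nat_lit 503) (nat_lit 5) (nat_lit 411) (nat_lit 405) (nat_lit 324))) (XT.nd (nat_lit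 78) (nat_lit 0) (nat_lit 0) (XT.lf (nat_lit 0) (nat_lit 4220607109) (nat_lit 1292) (nat_lit 267013641) (nat_lit 1368) (nat_lit 3542092622) (nat_lit 485) (nat_lit 5) (nat_lit 502) (nat_lit 5) (nat_lit 503) (nat_lit 5) (nat_lit 412) (nat_lit 405) (nat_lit 323)) (XT.lf (nat_lit 76) (nat_lit 3632161847) (nat_lit 0) (nat_lit 1932792915) (nat_lit 1368) (nat_lit 2523554622) (nat_lit 486) (nat_lit 5) (nat_lit 485) (nat_lit 5) (nat_lit 503) (nat_lit 5) (nat_lit 413) (nat_lit 405) (nat_lit 322))))) (XT.nd (nat_lit 234) (nat_lit 0) (nat_lit 76) (XT.nd (nat_lit 78) (nat_lit 1368) (nat_lit 0) (XT.lf (nat_lit 0) (nat_lit 6912244511) (nat_lit 1292) (nat_lit 558505127) (nat_lit 1368) (nat_lit 678238081) (nat_lit 486) (nat_lit 5) (nat_lit 503) (nat_lit 5) (nat_lit 504) (nat_lit 5) (nat_lit 414) (nat_lit 405) (nat_lit 321)) (XT.nd (nat_lit 78) (nat_lit 0) (nat_lit 0) (XT.lf (nat_lit 0) (nat_lit 80369866) (nat_lit 1368) (nat_lit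 4779877399) (nat_lit 1444) (nat_lit 3350333757) (nat_lit 468) (nat_lit 5) (nat_lit 486) (nat_lit 5) (nat_lit 487) (nat_lit 5) (nat_lit 415) (nat_lit 405) (nat_lit 320)) (XT.lf (nat_lit 0) (nat_lit 1381767670) (nat_lit 1368) (nat_lit 792826801) (nat_lit 1444) (nat_lit 6099184094) (nat_lit 468) (nat_lit 5) (nat_lit 486) (nat_lit 5) (nat_lit 487) (nat_lit 5) (nat_lit 416) (nat_lit 405) (nat_lit 319)))) (XT.nd (nat_lit 156) (nat_lit 0) (nat_lit 0) (XT.nd (nat_lit 78) (nat_lit 0) (nat_lit 0) (XT.lf (nat_lit 0) (nat_lit 2705778640) (nat_lit 1368) (nat_lit 5043239906) (nat_lit 1444) (nat_lit 589315219) (nat_lit 469) (nat_lit 5) (nat_lit 487) (nat_lit 5) (nat_lit 488) (nat_lit 5) (nat_lit 417) (nat_lit 405) (nat_lit 318)) (XT.lf (nat_lit 0) (nat_lit 4047827081) (nat_lit 1368) (nat_lit 961711056) (nat_lit 1444) (nat_lit 3394835701) (nat_lit 469) (nat_lit 5) (nat_lit 487) (nat_lit 5) (nat_lit 488) (nat_lit 5) (nat_lit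 418) (nat_lit 405) (nat_lit 317))) (XT.nd (nat_lit 78) (nat_lit 0) (nat_lit 76) (XT.lf (nat_lit 76) (nat_lit 3225396317) (nat_lit 0) (nat_lit 2184614962) (nat_lit 1444) (nat_lit 3061881960) (nat_lit 470) (nat_lit 5) (nat_lit 469) (nat_lit 5) (nat_lit 488) (nat_lit 5) (nat_lit 419) (nat_lit 405) (nat_lit 316)) (XT.lf (nat_lit 0) (nat_lit 6783295076) (nat_lit 1368) (nat_lit 1054778474) (nat_lit 1444) (nat_lit 703036307) (nat_lit 470) (nat_lit 5) (nat_lit 488) (nat_lit 5) (nat_lit 489) (nat_lit 5) (nat_lit 420) (nat_lit 405) (nat_lit 315)))))) (XT.nd (nat_lit 546) (nat_lit 4408) (nat_lit 0) (XT.nd (nat_lit 234) (nat_lit 0) (nat_lit 76) (XT.nd (nat_lit 78) (nat_lit 1444) (nat_lit 0) (XT.lf (nat_lit 76) (nat_lit 3230181169) (nat_lit 0) (nat_lit 4962671600) (nat_lit 1444) (nat_lit 418705349) (nat_lit 471) (nat_lit 5) (nat_lit 470) (nat_lit 5) (nat_lit 489) (nat_lit 5) (nat_lit 421) (nat_lit 405) (nat_lit 314)) (XT.nd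 (nat_lit 78) (nat_lit 0) (nat_lit 76) (XT.lf (nat_lit 0) (nat_lit 915463360) (nat_lit 1444) (nat_lit 1093074646) (nat_lit 1520) (nat_lit 6675162916) (nat_lit 451) (nat_lit 5) (nat_lit 470) (nat_lit 5) (nat_lit 471) (nat_lit 5) (nat_lit 422) (nat_lit 405) (nat_lit 313)) (XT.lf (nat_lit 0) (nat_lit 2272985672) (nat_lit 1444) (nat_lit 5460906881) (nat_lit 1520) (nat_lit 1023315264) (nat_lit 452) (nat_lit 5) (nat_lit 471) (nat_lit 5) (nat_lit 472) (nat_lit 5) (nat_lit 423) (nat_lit 405) (nat_lit 312)))) (XT.nd (nat_lit 156) (nat_lit 0) (nat_lit 76) (XT.nd (nat_lit 78) (nat_lit 0) (nat_lit 0) (XT.lf (nat_lit 0) (nat_lit 3652873083) (nat_lit 1444) (nat_lit 1075940219) (nat_lit 1520) (nat_lit 4103488944) (nat_lit 452) (nat_lit 5) (nat_lit 471) (nat_lit 5) (nat_lit 472) (nat_lit 5) (nat_lit 424) (nat_lit 405) (nat_lit 311)) (XT.lf (nat_lit 76) (nat_lit 3423157512) (nat_lit 0) (nat_lit 1634454954) (nat_lit 1520) (nat_lit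 3851362275) (nat_lit 453) (nat_lit 5) (nat_lit 452) (nat_lit 5) (nat_lit 472) (nat_lit 5) (nat_lit 425) (nat_lit 405) (nat_lit 310))) (XT.nd (nat_lit 78) (nat_lit 0) (nat_lit 0) (XT.lf (nat_lit 0) (nat_lit 6483035044) (nat_lit 1444) (nat_lit 989038336) (nat_lit 1520) (nat_lit 1515276384) (nat_lit 453) (nat_lit 5) (nat_lit 472) (nat_lit 5) (nat_lit 473) (nat_lit 5) (nat_lit 426) (nat_lit 405) (nat_lit 309)) (XT.lf (nat_lit 76) (nat_lit 3615748003) (nat_lit 0) (nat_lit 4331439670) (nat_lit 1520) (nat_lit 1119920620) (nat_lit 454) (nat_lit 5) (nat_lit 453) (nat_lit 5) (nat_lit 473) (nat_lit 5) (nat_lit 427) (nat_lit 405) (nat_lit 308))))) (XT.nd (nat_lit 234) (nat_lit 3040) (nat_lit 0) (XT.nd (nat_lit 78) (nat_lit 0) (nat_lit 76) (XT.lf (nat_lit 0) (nat_lit 271107837) (nat_lit 1520) (nat_lit 842973900) (nat_lit 1596) (nat_lit 8034706397) (nat_lit 433) (nat_lit 5) (nat_lit 453) (nat_lit 5) (nat_lit 454) (nat_lit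 5) (nat_lit 428) (nat_lit 405) (nat_lit 307)) (XT.nd (nat_lit 78) (nat_lit 0) (nat_lit 0) (XT.lf (nat_lit 0) (nat_lit 1691072847) (nat_lit 1520) (nat_lit 5363546637) (nat_lit 76) (nat_lit 2177031058) (nat_lit 434) (nat_lit 5) (nat_lit 454) (nat_lit 5) (nat_lit 435) (nat_lit 5) (nat_lit 429) (nat_lit 405) (nat_lit 306)) (XT.lf (nat_lit 0) (nat_lit 3129447842) (nat_lit 1520) (nat_lit 657406916) (nat_lit 76) (nat_lit 5529534107) (nat_lit 434) (nat_lit 5) (nat_lit 454) (nat_lit 5) (nat_lit 435) (nat_lit 5) (nat_lit 430) (nat_lit 405) (nat_lit 305)))) (XT.nd (nat_lit 156) (nat_lit 1596) (nat_lit 0) (XT.nd (nat_lit 78) (nat_lit 0) (nat_lit 0) (XT.lf (nat_lit 0) (nat_lit 4179271051) (nat_lit 1520) (nat_lit 421844472) (nat_lit 1596) (nat_lit 4801634439) (nat_lit 414) (nat_lit 5) (nat_lit 434) (nat_lit 5) (nat_lit 435) (nat_lit 5) (nat_lit 431) (nat_lit 405) (nat_lit 304)) (XT.lf (nat_lit 0) (nat_lit 6103944546) (nat_lit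 1596) (nat_lit 407496591) (nat_lit 76) (nat_lit 2979380733) (nat_lit 414) (nat_lit 5) (nat_lit 435) (nat_lit 5) (nat_lit 415) (nat_lit 5) (nat_lit 432) (nat_lit 405) (nat_lit 303))) (XT.nd (nat_lit 78) (nat_lit 0) (nat_lit 0) (XT.lf (nat_lit 0) (nat_lit 4543199242) (nat_lit 1596) (nat_lit 3104099771) (nat_lit 1672) (nat_lit 1933164617) (nat_lit 393) (nat_lit 5) (nat_lit 414) (nat_lit 5) (nat_lit 415) (nat_lit 5) (nat_lit 433) (nat_lit 405) (nat_lit 302)) (XT.lf (nat_lit 0) (nat_lit 9205192465) (nat_lit 1672) (nat_lit 94585249) (nat_lit 76) (nat_lit 372464515) (nat_lit 393) (nat_lit 5) (nat_lit 415) (nat_lit 5) (nat_lit 394) (nat_lit 5) (nat_lit 434) (nat_lit 405) (nat_lit 301))))))))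
noncomputable def xc162 : XT := (XT.nd (nat_lit 2184) (nat_lit 7524) (nat_lit 0) (XT.nd (nat_lit 1092) (nat_lit 4788) (nat_lit 0) (XT.nd (nat_lit 546) (nat_lit 3268) (nat_lit 0) (XT.nd (nat_lit 234) (nat_lit 1748) (nat_lit 0) (XT.nd (nat_lit 78) (nat_lit 1292) (nat_lit 0) (XT.lf (nat_lit 0) (nat_lit 1046869352) (nat_lit 1748) (nat_lit 4798887325) (nat_lit 76) (nat_lit 3919343562) (nat_lit 370) (nat_lit 5) (nat_lit 393) (nat_lit 5) (nat_lit 371) (nat_lit 5) (nat_lit 435) (nat_lit 405) (nat_lit 300)) (XT.nd (nat_lit 78) (nat_lit 0) (nat_lit 0) (XT.lf (nat_lit 0) (nat_lit 251354612) (nat_lit 1292) (nat_lit 2314805032) (nat_lit 1368) (nat_lit 7293983525) (nat_lit 353) (nat_lit 5) (nat_lit 370) (nat_lit 5) (nat_lit 371) (nat_lit 5) (nat_lit 436) (nat_lit 405) (nat_lit 299)) (XT.lf (nat_lit 0) (nat_lit 4135981558) (nat_lit 1368) (nat_lit 4516231491) (nat_lit 76) (nat_lit 1304487108) (nat_lit 353) (nat_lit 5) (nat_lit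 371) (nat_lit 5) (nat_lit 354) (nat_lit 5) (nat_lit 437) (nat_lit 405) (nat_lit 298)))) (XT.nd (nat_lit 156) (nat_lit 912) (nat_lit 0) (XT.nd (nat_lit 78) (nat_lit 0) (nat_lit 0) (XT.lf (nat_lit 0) (nat_lit 652907568) (nat_lit 836) (nat_lit 5083640652) (nat_lit 912) (nat_lit 4318668896) (nat_lit 342) (nat_lit 5) (nat_lit 353) (nat_lit 5) (nat_lit 354) (nat_lit 5) (nat_lit 438) (nat_lit 405) (nat_lit 297)) (XT.lf (nat_lit 0) (nat_lit 5968267525) (nat_lit 836) (nat_lit 1411221492) (nat_lit 912) (nat_lit 2776023631) (nat_lit 342) (nat_lit 5) (nat_lit 353) (nat_lit 5) (nat_lit 354) (nat_lit 5) (nat_lit 439) (nat_lit 405) (nat_lit 296))) (XT.nd (nat_lit 78) (nat_lit 76) (nat_lit 0) (XT.lf (nat_lit 0) (nat_lit 1113124986) (nat_lit 836) (nat_lit 7945006368) (nat_lit 912) (nat_lit 1199641068) (nat_lit 331) (nat_lit 5) (nat_lit 342) (nat_lit 5) (nat_lit 343) (nat_lit 5) (nat_lit 440) (nat_lit 405) (nat_lit 295)) (XT.lf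 (nat_lit 0) (nat_lit 421124581) (nat_lit 912) (nat_lit 3816024147) (nat_lit 76) (nat_lit 6124526044) (nat_lit 330) (nat_lit 5) (nat_lit 342) (nat_lit 5) (nat_lit 331) (nat_lit 5) (nat_lit 441) (nat_lit 405) (nat_lit 294))))) (XT.nd (nat_lit 234) (nat_lit 1596) (nat_lit 0) (XT.nd (nat_lit 78) (nat_lit 836) (nat_lit 0) (XT.lf (nat_lit 0) (nat_lit 1614173851) (nat_lit 836) (nat_lit 435524015) (nat_lit 912) (nat_lit 8417983909) (nat_lit 319) (nat_lit 5) (nat_lit 330) (nat_lit 5) (nat_lit 331) (nat_lit 5) (nat_lit 442) (nat_lit 405) (nat_lit 293)) (XT.nd (nat_lit 78) (nat_lit 836) (nat_lit 0) (XT.lf (nat_lit 0) (nat_lit 3740188768) (nat_lit 912) (nat_lit 3411609479) (nat_lit 76) (nat_lit 3423437778) (nat_lit 319) (nat_lit 5) (nat_lit 331) (nat_lit 5) (nat_lit 320) (nat_lit 5) (nat_lit 443) (nat_lit 405) (nat_lit 292)) (XT.lf (nat_lit 0) (nat_lit 2146256374) (nat_lit 836) (nat_lit 3316640949) (nat_lit 912) (nat_lit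 5222089634) (nat_lit 308) (nat_lit 5) (nat_lit 319) (nat_lit 5) (nat_lit 320) (nat_lit 5) (nat_lit 444) (nat_lit 405) (nat_lit 291)))) (XT.nd (nat_lit 156) (nat_lit 836) (nat_lit 0) (XT.nd (nat_lit 78) (nat_lit 760) (nat_lit 0) (XT.lf (nat_lit 0) (nat_lit 7228803590) (nat_lit 912) (nat_lit 2957359742) (nat_lit 76) (nat_lit 610608188) (nat_lit 308) (nat_lit 5) (nat_lit 320) (nat_lit 5) (nat_lit 309) (nat_lit 5) (nat_lit 445) (nat_lit 405) (nat_lit 290)) (XT.lf (nat_lit 0) (nat_lit 2731464971) (nat_lit 760) (nat_lit 6320451878) (nat_lit 836) (nat_lit 1858450367) (nat_lit 298) (nat_lit 5) (nat_lit 308) (nat_lit 5) (nat_lit 309) (nat_lit 5) (nat_lit 446) (nat_lit 405) (nat_lit 289))) (XT.nd (nat_lit 78) (nat_lit 836) (nat_lit 0) (XT.lf (nat_lit 0) (nat_lit 8556239915) (nat_lit 760) (nat_lit 2357520684) (nat_lit 836) (nat_lit 112441825) (nat_lit 298) (nat_lit 5) (nat_lit 308) (nat_lit 5) (nat_lit 309) (nat_lit 5)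 (nat_lit 447) (nat_lit 405) (nat_lit 288)) (XT.lf (nat_lit 0) (nat_lit 1662268655) (nat_lit 836) (nat_lit 7786513325) (nat_lit 76) (nat_lit 1695054867) (nat_lit 287) (nat_lit 5) (nat_lit 298) (nat_lit 5) (nat_lit 288) (nat_lit 5) (nat_lit 448) (nat_lit 405) (nat_lit 287)))))) (XT.nd (nat_lit 546) (nat_lit 2584) (nat_lit 0) (XT.nd (nat_lit 234) (nat_lit 1520) (nat_lit 0) (XT.nd (nat_lit 78) (nat_lit 684) (nat_lit 0) (XT.lf (nat_lit 0) (nat_lit 3486129089) (nat_lit 836) (nat_lit 1963363421) (nat_lit 76) (nat_lit 5814025572) (nat_lit 287) (nat_lit 5) (nat_lit 298) (nat_lit 5) (nat_lit 288) (nat_lit 5) (nat_lit 449) (nat_lit 405) (nat_lit 286)) (XT.nd (nat_lit 78) (nat_lit 0) (nat_lit 0) (XT.lf (nat_lit 0) (nat_lit 4011170341) (nat_lit 684) (nat_lit 1344538291) (nat_lit 760) (nat_lit 6029711443) (nat_lit 278) (nat_lit 5) (nat_lit 287) (nat_lit 5) (nat_lit 288) (nat_lit 5) (nat_lit 450) (nat_lit 405) (nat_lit 285))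 (XT.lf (nat_lit 0) (nat_lit 7277805411) (nat_lit 760) (nat_lit 1414137736) (nat_lit 76) (nat_lit 2817526189) (nat_lit 278) (nat_lit 5) (nat_lit 288) (nat_lit 5) (nat_lit 279) (nat_lit 5) (nat_lit 451) (nat_lit 405) (nat_lit 284)))) (XT.nd (nat_lit 156) (nat_lit 760) (nat_lit 0) (XT.nd (nat_lit 78) (nat_lit 0) (nat_lit 0) (XT.lf (nat_lit 0) (nat_lit 4700362423) (nat_lit 760) (nat_lit 4561136832) (nat_lit 836) (nat_lit 2374048731) (nat_lit 268) (nat_lit 5) (nat_lit 278) (nat_lit 5) (nat_lit 279) (nat_lit 5) (nat_lit 452) (nat_lit 405) (nat_lit 283)) (XT.lf (nat_lit 0) (nat_lit 10938881142) (nat_lit 760) (nat_lit 339414202) (nat_lit 836) (nat_lit 485995581) (nat_lit 268) (nat_lit 5) (nat_lit 278) (nat_lit 5) (nat_lit 279) (nat_lit 5) (nat_lit 453) (nat_lit 405) (nat_lit 282))) (XT.nd (nat_lit 78) (nat_lit 0) (nat_lit 0) (XT.lf (nat_lit 0) (nat_lit 1466509236) (nat_lit 760) (nat_lit 6469694431) (nat_lit 76) (nat_lit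 3958317454) (nat_lit 258) (nat_lit 5) (nat_lit 268) (nat_lit 5) (nat_lit 259) (nat_lit 5) (nat_lit 454) (nat_lit 405) (nat_lit 281)) (XT.lf (nat_lit 0) (nat_lit 3443713904) (nat_lit 760) (nat_lit 239011595) (nat_lit 76) (nat_lit 8344733661) (nat_lit 258) (nat_lit 5) (nat_lit 268) (nat_lit 5) (nat_lit 259) (nat_lit 5) (nat_lit 455) (nat_lit 405) (nat_lit 280))))) (XT.nd (nat_lit 234) (nat_lit 1292) (nat_lit 0) (XT.nd (nat_lit 78) (nat_lit 608) (nat_lit 0) (XT.lf (nat_lit 0) (nat_lit 5489735442) (nat_lit 760) (nat_lit 5986920827) (nat_lit 76) (nat_lit 685824658) (nat_lit 249) (nat_lit 5) (nat_lit 259) (nat_lit 5) (nat_lit 250) (nat_lit 5) (nat_lit 456) (nat_lit 405) (nat_lit 279)) (XT.nd (nat_lit 78) (nat_lit 0) (nat_lit 0) (XT.lf (nat_lit 0) (nat_lit 384773959) (nat_lit 608) (nat_lit 7205218367) (nat_lit 684) (nat_lit 4709954726) (nat_lit 241) (nat_lit 5) (nat_lit 249) (nat_lit 5) (nat_lit 250) (nat_lit 5) (nat_lit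 457) (nat_lit 405) (nat_lit 278)) (XT.lf (nat_lit 0) (nat_lit 6947806238) (nat_lit 608) (nat_lit 2809622554) (nat_lit 684) (nat_lit 2682240235) (nat_lit 241) (nat_lit 5) (nat_lit 249) (nat_lit 5) (nat_lit 250) (nat_lit 5) (nat_lit 458) (nat_lit 405) (nat_lit 277)))) (XT.nd (nat_lit 156) (nat_lit 608) (nat_lit 0) (XT.nd (nat_lit 78) (nat_lit 76) (nat_lit 0) (XT.lf (nat_lit 0) (nat_lit 1045556327) (nat_lit 608) (nat_lit 10925592952) (nat_lit 684) (nat_lit 610987281) (nat_lit 233) (nat_lit 5) (nat_lit 241) (nat_lit 5) (nat_lit 242) (nat_lit 5) (nat_lit 459) (nat_lit 405) (nat_lit 276)) (XT.lf (nat_lit 0) (nat_lit 1523050661) (nat_lit 684) (nat_lit 4984442740) (nat_lit 76) (nat_lit 6218953386) (nat_lit 232) (nat_lit 5) (nat_lit 241) (nat_lit 5) (nat_lit 233) (nat_lit 5) (nat_lit 460) (nat_lit 405) (nat_lit 275))) (XT.nd (nat_lit 78) (nat_lit 0) (nat_lit 0) (XT.lf (nat_lit 0) (nat_lit 1700033524) (nat_lit 608) (nat_lit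 1988238103) (nat_lit 684) (nat_lit 9185366407) (nat_lit 224) (nat_lit 5) (nat_lit 232) (nat_lit 5) (nat_lit 233) (nat_lit 5) (nat_lit 461) (nat_lit 405) (nat_lit 274)) (XT.lf (nat_lit 0) (nat_lit 5933279667) (nat_lit 684) (nat_lit 4471698846) (nat_lit 76) (nat_lit 2618074015) (nat_lit 224) (nat_lit 5) (nat_lit 233) (nat_lit 5) (nat_lit 225) (nat_lit 5) (nat_lit 462) (nat_lit 405) (nat_lit 273))))))) (XT.nd (nat_lit 1092) (nat_lit 3648) (nat_lit 0) (XT.nd (nat_lit 546) (nat_lit 1596) (nat_lit 0) (XT.nd (nat_lit 234) (nat_lit 1140) (nat_lit 0) (XT.nd (nat_lit 78) (nat_lit 532) (nat_lit 0) (XT.lf (nat_lit 0) (nat_lit 2365316940) (nat_lit 608) (nat_lit 5872466865) (nat_lit 684) (nat_lit 4937388484) (nat_lit 216) (nat_lit 5) (nat_lit 224) (nat_lit 5) (nat_lit 225) (nat_lit 5) (nat_lit 463) (nat_lit 405) (nat_lit 272)) (XT.nd (nat_lit 78) (nat_lit 532) (nat_lit 0) (XT.lf (nat_lit 0) (nat_lit 9383016098) (nat_lit 608)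 (nat_lit 1221605835) (nat_lit 684) (nat_lit 2725396356) (nat_lit 216) (nat_lit 5) (nat_lit 224) (nat_lit 5) (nat_lit 225) (nat_lit 5) (nat_lit 464) (nat_lit 405) (nat_lit 271)) (XT.lf (nat_lit 0) (nat_lit 3053683703) (nat_lit 532) (nat_lit 9994296401) (nat_lit 608) (nat_lit 439405990) (nat_lit 209) (nat_lit 5) (nat_lit 216) (nat_lit 5) (nat_lit 217) (nat_lit 5) (nat_lit 465) (nat_lit 405) (nat_lit 270)))) (XT.nd (nat_lit 156) (nat_lit 532) (nat_lit 0) (XT.nd (nat_lit 78) (nat_lit 532) (nat_lit 0) (XT.lf (nat_lit 0) (nat_lit 1888787191) (nat_lit 608) (nat_lit 3436719904) (nat_lit 76) (nat_lit 8321730640) (nat_lit 208) (nat_lit 5) (nat_lit 216) (nat_lit 5) (nat_lit 209) (nat_lit 5) (nat_lit 466) (nat_lit 405) (nat_lit 269)) (XT.lf (nat_lit 0) (nat_lit 3729854342) (nat_lit 532) (nat_lit 538841127) (nat_lit 608) (nat_lit 9541320210) (nat_lit 201) (nat_lit 5) (nat_lit 208) (nat_lit 5) (nat_lit 209) (nat_lit 5) (nat_lit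 467) (nat_lit 405) (nat_lit 268))) (XT.nd (nat_lit 78) (nat_lit 532) (nat_lit 0) (XT.lf (nat_lit 0) (nat_lit 6734563008) (nat_lit 608) (nat_lit 2934091956) (nat_lit 76) (nat_lit 4306634895) (nat_lit 201) (nat_lit 5) (nat_lit 209) (nat_lit 5) (nat_lit 202) (nat_lit 5) (nat_lit 468) (nat_lit 405) (nat_lit 267)) (XT.lf (nat_lit 0) (nat_lit 4392769999) (nat_lit 532) (nat_lit 4876268047) (nat_lit 608) (nat_lit 4874453419) (nat_lit 194) (nat_lit 5) (nat_lit 201) (nat_lit 5) (nat_lit 202) (nat_lit 5) (nat_lit 469) (nat_lit 405) (nat_lit 266))))) (XT.nd (nat_lit 234) (nat_lit 988) (nat_lit 0) (XT.nd (nat_lit 78) (nat_lit 608) (nat_lit 0) (XT.lf (nat_lit 0) (nat_lit 11861425353) (nat_lit 608) (nat_lit 2425234204) (nat_lit 76) (nat_lit 28260684) (nat_lit 194) (nat_lit 5) (nat_lit 202) (nat_lit 5) (nat_lit 195) (nat_lit 5) (nat_lit 470) (nat_lit 405) (nat_lit 265)) (XT.nd (nat_lit 78) (nat_lit 0) (nat_lit 0) (XT.lf (nat_lit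 0) (nat_lit 68768344) (nat_lit 608) (nat_lit 9424270240) (nat_lit 76) (nat_lit 4995682367) (nat_lit 186) (nat_lit 5) (nat_lit 194) (nat_lit 5) (nat_lit 187) (nat_lit 5) (nat_lit 471) (nat_lit 405) (nat_lit 264)) (XT.lf (nat_lit 0) (nat_lit 2612663517) (nat_lit 608) (nat_lit 1961275384) (nat_lit 76) (nat_lit 10091660798) (nat_lit 186) (nat_lit 5) (nat_lit 194) (nat_lit 5) (nat_lit 187) (nat_lit 5) (nat_lit 472) (nat_lit 405) (nat_lit 263)))) (XT.nd (nat_lit 156) (nat_lit 532) (nat_lit 0) (XT.nd (nat_lit 78) (nat_lit 0) (nat_lit 0) (XT.lf (nat_lit 0) (nat_lit 5235480967) (nat_lit 532) (nat_lit 9138493696) (nat_lit 76) (nat_lit 471487487) (nat_lit 180) (nat_lit 5) (nat_lit 187) (nat_lit 5) (nat_lit 181) (nat_lit 5) (nat_lit 473) (nat_lit 405) (nat_lit 262)) (XT.lf (nat_lit 0) (nat_lit 7942275371) (nat_lit 532) (nat_lit 1519730027) (nat_lit 76) (nat_lit 5566292917) (nat_lit 180) (nat_lit 5) (nat_lit 187) (nat_lit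 5) (nat_lit 181) (nat_lit 5) (nat_lit 474) (nat_lit 405) (nat_lit 261))) (XT.nd (nat_lit 78) (nat_lit 0) (nat_lit 0) (XT.lf (nat_lit 0) (nat_lit 6318735136) (nat_lit 532) (nat_lit 4413712878) (nat_lit 608) (nat_lit 4481765085) (nat_lit 173) (nat_lit 5) (nat_lit 180) (nat_lit 5) (nat_lit 181) (nat_lit 5) (nat_lit 475) (nat_lit 405) (nat_lit 260)) (XT.lf (nat_lit 0) (nat_lit 13581788580) (nat_lit 608) (nat_lit 1089573359) (nat_lit 76) (nat_lit 732423559) (nat_lit 173) (nat_lit 5) (nat_lit 181) (nat_lit 5) (nat_lit 174) (nat_lit 5) (nat_lit 476) (nat_lit 405) (nat_lit 259)))))) (XT.nd (nat_lit 546) (nat_lit 1672) (nat_lit 0) (XT.nd (nat_lit 234) (nat_lit 988) (nat_lit 0) (XT.nd (nat_lit 78) (nat_lit 456) (nat_lit 0) (XT.lf (nat_lit 0) (nat_lit 942392401) (nat_lit 532) (nat_lit 8683494389) (nat_lit 76) (nat_lit 5969890995) (nat_lit 166) (nat_lit 5) (nat_lit 173) (nat_lit 5) (nat_lit 167) (nat_lit 5) (nat_lit 477)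 (nat_lit 405) (nat_lit 258)) (XT.nd (nat_lit 78) (nat_lit 456) (nat_lit 0) (XT.lf (nat_lit 0) (nat_lit 3733652065) (nat_lit 532) (nat_lit 730039239) (nat_lit 76) (nat_lit 11327764393) (nat_lit 166) (nat_lit 5) (nat_lit 173) (nat_lit 5) (nat_lit 167) (nat_lit 5) (nat_lit 478) (nat_lit 405) (nat_lit 257)) (XT.lf (nat_lit 0) (nat_lit 6623527368) (nat_lit 532) (nat_lit 8530520420) (nat_lit 76) (nat_lit 836149676) (nat_lit 160) (nat_lit 5) (nat_lit 167) (nat_lit 5) (nat_lit 161) (nat_lit 5) (nat_lit 479) (nat_lit 405) (nat_lit 256)))) (XT.nd (nat_lit 156) (nat_lit 532) (nat_lit 0) (XT.nd (nat_lit 78) (nat_lit 456) (nat_lit 0) (XT.lf (nat_lit 0) (nat_lit 9594608455) (nat_lit 532) (nat_lit 414533575) (nat_lit 76) (nat_lit 6183309859) (nat_lit 160) (nat_lit 5) (nat_lit 167) (nat_lit 5) (nat_lit 161) (nat_lit 5) (nat_lit 480) (nat_lit 405) (nat_lit 255)) (XT.lf (nat_lit 0) (nat_lit 7953170760) (nat_lit 456) (nat_lit 4712711013)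 (nat_lit 532) (nat_lit 3732060086) (nat_lit 154) (nat_lit 5) (nat_lit 160) (nat_lit 5) (nat_lit 161) (nat_lit 5) (nat_lit 481) (nat_lit 405) (nat_lit 254))) (XT.nd (nat_lit 78) (nat_lit 532) (nat_lit 0) (XT.lf (nat_lit 0) (nat_lit 15795082260) (nat_lit 532) (nat_lit 133139580) (nat_lit 76) (nat_lit 679395510) (nat_lit 154) (nat_lit 5) (nat_lit 161) (nat_lit 5) (nat_lit 155) (nat_lit 5) (nat_lit 482) (nat_lit 405) (nat_lit 253)) (XT.lf (nat_lit 0) (nat_lit 2212716354) (nat_lit 532) (nat_lit 8425454770) (nat_lit 76) (nat_lit 6181524870) (nat_lit 147) (nat_lit 5) (nat_lit 154) (nat_lit 5) (nat_lit 148) (nat_lit 5) (nat_lit 483) (nat_lit 405) (nat_lit 252))))) (XT.nd (nat_lit 234) (nat_lit 836) (nat_lit 0) (XT.nd (nat_lit 78) (nat_lit 456) (nat_lit 0) (XT.lf (nat_lit 0) (nat_lit 38331722) (nat_lit 380) (nat_lit 5239892425) (nat_lit 456) (nat_lit 11757877446) (nat_lit 142) (nat_lit 5) (nat_lit 147) (nat_lit 5) (nat_lit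 148) (nat_lit 5) (nat_lit 484) (nat_lit 405) (nat_lit 251)) (XT.nd (nat_lit 78) (nat_lit 456) (nat_lit 0) (XT.lf (nat_lit 0) (nat_lit 8453241503) (nat_lit 456) (nat_lit 8487054146) (nat_lit 76) (nat_lit 315580983) (nat_lit 142) (nat_lit 5) (nat_lit 148) (nat_lit 5) (nat_lit 143) (nat_lit 5) (nat_lit 485) (nat_lit 405) (nat_lit 250)) (XT.lf (nat_lit 0) (nat_lit 146538592) (nat_lit 456) (nat_lit 11570634493) (nat_lit 532) (nat_lit 5762371020) (nat_lit 136) (nat_lit 5) (nat_lit 142) (nat_lit 5) (nat_lit 143) (nat_lit 5) (nat_lit 486) (nat_lit 405) (nat_lit 249)))) (XT.nd (nat_lit 156) (nat_lit 380) (nat_lit 0) (XT.nd (nat_lit 78) (nat_lit 456) (nat_lit 0) (XT.lf (nat_lit 0) (nat_lit 9053385309) (nat_lit 456) (nat_lit 6039818637) (nat_lit 532) (nat_lit 2613549681) (nat_lit 136) (nat_lit 5) (nat_lit 142) (nat_lit 5) (nat_lit 143) (nat_lit 5) (nat_lit 487) (nat_lit 405) (nat_lit 248)) (XT.lf (nat_lit 0) (nat_lit 184075158)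 (nat_lit 380) (nat_lit 397517916) (nat_lit 456) (nat_lit 17357017668) (nat_lit 130) (nat_lit 5) (nat_lit 135) (nat_lit 5) (nat_lit 136) (nat_lit 5) (nat_lit 488) (nat_lit 405) (nat_lit 247))) (XT.nd (nat_lit 78) (nat_lit 380) (nat_lit 0) (XT.lf (nat_lit 0) (nat_lit 3888986204) (nat_lit 456) (nat_lit 8925252544) (nat_lit 76) (nat_lit 5358858698) (nat_lit 130) (nat_lit 5) (nat_lit 136) (nat_lit 5) (nat_lit 131) (nat_lit 5) (nat_lit 489) (nat_lit 405) (nat_lit 246)) (XT.lf (nat_lit 0) (nat_lit 64717677) (nat_lit 380) (nat_lit 7191128688) (nat_lit 456) (nat_lit 11156565855) (nat_lit 125) (nat_lit 5) (nat_lit 130) (nat_lit 5) (nat_lit 131) (nat_lit 5) (nat_lit 490) (nat_lit 405) (nat_lit 245))))))))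
noncomputable def xc163 : XT := (XT.nd (nat_lit 2184) (nat_lit 532) (nat_lit 0) (XT.nd (nat_lit 1092) (nat_lit 2128) (nat_lit 0) (XT.nd (nat_lit 546) (nat_lit 1064) (nat_lit 0) (XT.nd (nat_lit 234) (nat_lit 760) (nat_lit 0) (XT.nd (nat_lit 78) (nat_lit 304) (nat_lit 0) (XT.lf (nat_lit 0) (nat_lit 9341449615) (nat_lit 380) (nat_lit 1398853483) (nat_lit 456) (nat_lit 7915209633) (nat_lit 125) (nat_lit 5) (nat_lit 130) (nat_lit 5) (nat_lit 131) (nat_lit 5) (nat_lit 491) (nat_lit 405) (nat_lit 244)) (XT.nd (nat_lit 78) (nat_lit 304) (nat_lit 0) (XT.lf (nat_lit 0) (nat_lit 14314253311) (nat_lit 456) (nat_lit 142948615) (nat_lit 76) (nat_lit 4445881776) (nat_lit 125) (nat_lit 5) (nat_lit 131) (nat_lit 5) (nat_lit 126) (nat_lit 5) (nat_lit 492) (nat_lit 405) (nat_lit 243)) (XT.lf (nat_lit 0) (nat_lit 9310797419) (nat_lit 304) (nat_lit 8709313846) (nat_lit 380) (nat_lit 1134290701) (nat_lit 121) (nat_lit 5) (nat_lit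 125) (nat_lit 5) (nat_lit 126) (nat_lit 5) (nat_lit 493) (nat_lit 405) (nat_lit 242)))) (XT.nd (nat_lit 156) (nat_lit 304) (nat_lit 0) (XT.nd (nat_lit 78) (nat_lit 380) (nat_lit 0) (XT.lf (nat_lit 0) (nat_lit 2349710647) (nat_lit 380) (nat_lit 484368048) (nat_lit 76) (nat_lit 16576527764) (nat_lit 120) (nat_lit 5) (nat_lit 125) (nat_lit 5) (nat_lit 121) (nat_lit 5) (nat_lit 494) (nat_lit 405) (nat_lit 241)) (XT.lf (nat_lit 0) (nat_lit 5959546263) (nat_lit 456) (nat_lit 10530420354) (nat_lit 76) (nat_lit 3180395813) (nat_lit 115) (nat_lit 5) (nat_lit 121) (nat_lit 5) (nat_lit 116) (nat_lit 5) (nat_lit 495) (nat_lit 405) (nat_lit 240))) (XT.nd (nat_lit 78) (nat_lit 304) (nat_lit 0) (XT.lf (nat_lit 0) (nat_lit 9654605956) (nat_lit 456) (nat_lit 1004211084) (nat_lit 76) (nat_lit 9276240046) (nat_lit 115) (nat_lit 5) (nat_lit 121) (nat_lit 5) (nat_lit 116) (nat_lit 5) (nat_lit 496) (nat_lit 405) (nat_lit 239)) (XT.lf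 (nat_lit 0) (nat_lit 8814919419) (nat_lit 304) (nat_lit 4657043198) (nat_lit 380) (nat_lit 6732119131) (nat_lit 111) (nat_lit 5) (nat_lit 115) (nat_lit 5) (nat_lit 116) (nat_lit 5) (nat_lit 497) (nat_lit 405) (nat_lit 238))))) (XT.nd (nat_lit 234) (nat_lit 608) (nat_lit 0) (XT.nd (nat_lit 78) (nat_lit 456) (nat_lit 0) (XT.lf (nat_lit 0) (nat_lit 17373183159) (nat_lit 380) (nat_lit 1657137896) (nat_lit 76) (nat_lit 1448019462) (nat_lit 111) (nat_lit 5) (nat_lit 116) (nat_lit 5) (nat_lit 112) (nat_lit 5) (nat_lit 498) (nat_lit 405) (nat_lit 237)) (XT.nd (nat_lit 78) (nat_lit 0) (nat_lit 0) (XT.lf (nat_lit 0) (nat_lit 663403343) (nat_lit 456) (nat_lit 12425940746) (nat_lit 76) (nat_lit 7667129900) (nat_lit 105) (nat_lit 5) (nat_lit 111) (nat_lit 5) (nat_lit 106) (nat_lit 5) (nat_lit 499) (nat_lit 405) (nat_lit 236)) (XT.lf (nat_lit 0) (nat_lit 4468409779) (nat_lit 456) (nat_lit 2533212176) (nat_lit 76) (nat_lit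 14038088345) (nat_lit 105) (nat_lit 5) (nat_lit 111) (nat_lit 5) (nat_lit 106) (nat_lit 5) (nat_lit 500) (nat_lit 405) (nat_lit 235)))) (XT.nd (nat_lit 156) (nat_lit 304) (nat_lit 0) (XT.nd (nat_lit 78) (nat_lit 0) (nat_lit 0) (XT.lf (nat_lit 0) (nat_lit 7644842690) (nat_lit 304) (nat_lit 745897081) (nat_lit 380) (nat_lit 12937050746) (nat_lit 101) (nat_lit 5) (nat_lit 105) (nat_lit 5) (nat_lit 106) (nat_lit 5) (nat_lit 501) (nat_lit 405) (nat_lit 234)) (XT.lf (nat_lit 0) (nat_lit 12436855958) (nat_lit 380) (nat_lit 3610043053) (nat_lit 76) (nat_lit 5573830114) (nat_lit 101) (nat_lit 5) (nat_lit 106) (nat_lit 5) (nat_lit 102) (nat_lit 5) (nat_lit 502) (nat_lit 405) (nat_lit 233))) (XT.nd (nat_lit 78) (nat_lit 0) (nat_lit 0) (XT.lf (nat_lit 0) (nat_lit 6735114943) (nat_lit 304) (nat_lit 9869254002) (nat_lit 380) (nat_lit 5314351578) (nat_lit 97) (nat_lit 5) (nat_lit 101) (nat_lit 5) (nat_lit 102) (nat_lit 5) (nat_lit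 503) (nat_lit 405) (nat_lit 232)) (XT.lf (nat_lit 0) (nat_lit 17323596661) (nat_lit 304) (nat_lit 3547746164) (nat_lit 380) (nat_lit 1351010150) (nat_lit 97) (nat_lit 5) (nat_lit 101) (nat_lit 5) (nat_lit 102) (nat_lit 5) (nat_lit 504) (nat_lit 405) (nat_lit 231)))))) (XT.nd (nat_lit 546) (nat_lit 836) (nat_lit 0) (XT.nd (nat_lit 234) (nat_lit 608) (nat_lit 0) (XT.nd (nat_lit 78) (nat_lit 304) (nat_lit 0) (XT.lf (nat_lit 0) (nat_lit 2704037110) (nat_lit 380) (nat_lit 16914449367) (nat_lit 76) (nat_lit 2912270596) (nat_lit 92) (nat_lit 5) (nat_lit 97) (nat_lit 5) (nat_lit 93) (nat_lit 5) (nat_lit 505) (nat_lit 405) (nat_lit 230)) (XT.nd (nat_lit 78) (nat_lit 304) (nat_lit 0) (XT.lf (nat_lit 0) (nat_lit 6870735503) (nat_lit 380) (nat_lit 6481685720) (nat_lit 76) (nat_lit 9491759863) (nat_lit 92) (nat_lit 5) (nat_lit 97) (nat_lit 5) (nat_lit 93) (nat_lit 5) (nat_lit 506) (nat_lit 405) (nat_lit 229)) (XT.lf (nat_lit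 0) (nat_lit 4202664575) (nat_lit 304) (nat_lit 6937583263) (nat_lit 380) (nat_lit 12023239317) (nat_lit 88) (nat_lit 5) (nat_lit 92) (nat_lit 5) (nat_lit 93) (nat_lit 5) (nat_lit 507) (nat_lit 405) (nat_lit 228)))) (XT.nd (nat_lit 156) (nat_lit 380) (nat_lit 0) (XT.nd (nat_lit 78) (nat_lit 228) (nat_lit 0) (XT.lf (nat_lit 0) (nat_lit 15176455686) (nat_lit 304) (nat_lit 354458209) (nat_lit 380) (nat_lit 7957553297) (nat_lit 88) (nat_lit 5) (nat_lit 92) (nat_lit 5) (nat_lit 93) (nat_lit 5) (nat_lit 508) (nat_lit 405) (nat_lit 227)) (XT.lf (nat_lit 0) (nat_lit 2529660702) (nat_lit 228) (nat_lit 17529843992) (nat_lit 304) (nat_lit 3759442959) (nat_lit 85) (nat_lit 5) (nat_lit 88) (nat_lit 5) (nat_lit 89) (nat_lit 5) (nat_lit 509) (nat_lit 405) (nat_lit 226))) (XT.nd (nat_lit 78) (nat_lit 304) (nat_lit 0) (XT.lf (nat_lit 0) (nat_lit 566680621) (nat_lit 304) (nat_lit 10472215795) (nat_lit 76) (nat_lit 13116058271)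 (nat_lit 84) (nat_lit 5) (nat_lit 88) (nat_lit 5) (nat_lit 85) (nat_lit 5) (nat_lit 510) (nat_lit 405) (nat_lit 225)) (XT.lf (nat_lit 0) (nat_lit 531484609) (nat_lit 304) (nat_lit 4393560390) (nat_lit 380) (nat_lit 19572221595) (nat_lit 80) (nat_lit 5) (nat_lit 84) (nat_lit 5) (nat_lit 85) (nat_lit 5) (nat_lit 511) (nat_lit 405) (nat_lit 224))))) (XT.nd (nat_lit 234) (nat_lit 608) (nat_lit 0) (XT.nd (nat_lit 78) (nat_lit 228) (nat_lit 0) (XT.lf (nat_lit 0) (nat_lit 9449400251) (nat_lit 380) (nat_lit 12975585181) (nat_lit 76) (nat_lit 2419865657) (nat_lit 80) (nat_lit 5) (nat_lit 85) (nat_lit 5) (nat_lit 81) (nat_lit 5) (nat_lit 512) (nat_lit 405) (nat_lit 223)) (XT.nd (nat_lit 78) (nat_lit 228) (nat_lit 0) (XT.lf (nat_lit 0) (nat_lit 14086085284) (nat_lit 380) (nat_lit 1806279154) (nat_lit 76) (nat_lit 9306588748) (nat_lit 80) (nat_lit 5) (nat_lit 85) (nat_lit 5) (nat_lit 81) (nat_lit 5) (nat_lit 513) (nat_lit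 405) (nat_lit 222)) (XT.lf (nat_lit 0) (nat_lit 9702289392) (nat_lit 228) (nat_lit 9169096803) (nat_lit 304) (nat_lit 6687636197) (nat_lit 77) (nat_lit 5) (nat_lit 80) (nat_lit 5) (nat_lit 81) (nat_lit 5) (nat_lit 514) (nat_lit 405) (nat_lit 221)))) (XT.nd (nat_lit 156) (nat_lit 228) (nat_lit 0) (XT.nd (nat_lit 78) (nat_lit 380) (nat_lit 0) (XT.lf (nat_lit 0) (nat_lit 21454217837) (nat_lit 228) (nat_lit 2303250952) (nat_lit 304) (nat_lit 2168725339) (nat_lit 77) (nat_lit 5) (nat_lit 80) (nat_lit 5) (nat_lit 81) (nat_lit 5) (nat_lit 515) (nat_lit 405) (nat_lit 220)) (XT.lf (nat_lit 0) (nat_lit 2479301245) (nat_lit 380) (nat_lit 19122506149) (nat_lit 76) (nat_lit 4697172627) (nat_lit 72) (nat_lit 5) (nat_lit 77) (nat_lit 5) (nat_lit 73) (nat_lit 5) (nat_lit 516) (nat_lit 405) (nat_lit 219))) (XT.nd (nat_lit 78) (nat_lit 228) (nat_lit 0) (XT.lf (nat_lit 0) (nat_lit 7229819094) (nat_lit 380) (nat_lit 7601133171)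 (nat_lit 76) (nat_lit 11847213766) (nat_lit 72) (nat_lit 5) (nat_lit 77) (nat_lit 5) (nat_lit 73) (nat_lit 5) (nat_lit 517) (nat_lit 405) (nat_lit 218)) (XT.lf (nat_lit 0) (nat_lit 4194692086) (nat_lit 228) (nat_lit 7901107045) (nat_lit 304) (nat_lit 14968730048) (nat_lit 69) (nat_lit 5) (nat_lit 72) (nat_lit 5) (nat_lit 73) (nat_lit 5) (nat_lit 518) (nat_lit 405) (nat_lit 217))))))) (XT.nd (nat_lit 51168) (nat_lit 0) (nat_lit 28196) (XT.nd (nat_lit 50622) (nat_lit 0) (nat_lit 31996) (XT.nd (nat_lit 234) (nat_lit 304) (nat_lit 0) (XT.nd (nat_lit 78) (nat_lit 228) (nat_lit 0) (XT.lf (nat_lit 0) (nat_lit 16318552187) (nat_lit 228) (nat_lit 784833412) (nat_lit 304) (nat_lit 10354350663) (nat_lit 69) (nat_lit 5) (nat_lit 72) (nat_lit 5) (nat_lit 73) (nat_lit 5) (nat_lit 519) (nat_lit 405) (nat_lit 216)) (XT.nd (nat_lit 78) (nat_lit 0) (nat_lit 0) (XT.lf (nat_lit 0) (nat_lit 783515574) (nat_lit 228) (nat_lit 21468111602)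 (nat_lit 304) (nat_lit 5606372605) (nat_lit 66) (nat_lit 5) (nat_lit 69) (nat_lit 5) (nat_lit 70) (nat_lit 5) (nat_lit 520) (nat_lit 405) (nat_lit 215)) (XT.lf (nat_lit 0) (nat_lit 13079657873) (nat_lit 228) (nat_lit 14496533166) (nat_lit 304) (nat_lit 688612696) (nat_lit 66) (nat_lit 5) (nat_lit 69) (nat_lit 5) (nat_lit 70) (nat_lit 5) (nat_lit 521) (nat_lit 405) (nat_lit 214)))) (XT.nd (nat_lit 156) (nat_lit 0) (nat_lit 0) (XT.nd (nat_lit 78) (nat_lit 228) (nat_lit 0) (XT.lf (nat_lit 0) (nat_lit 4264274466) (nat_lit 304) (nat_lit 3096734698) (nat_lit 76) (nat_lit 21318304327) (nat_lit 65) (nat_lit 5) (nat_lit 69) (nat_lit 5) (nat_lit 66) (nat_lit 5) (nat_lit 522) (nat_lit 405) (nat_lit 213)) (XT.lf (nat_lit 0) (nat_lit 9340984271) (nat_lit 228) (nat_lit 20325991) (nat_lit 304) (nat_lit 19739628097) (nat_lit 62) (nat_lit 5) (nat_lit 65) (nat_lit 5) (nat_lit 66) (nat_lit 5) (nat_lit 523) (nat_lit 405) (nat_lit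 212))) (XT.nd (nat_lit 50154) (nat_lit 0) (nat_lit 33288) (XT.lf (nat_lit 0) (nat_lit 14623372837) (nat_lit 304) (nat_lit 7520206744) (nat_lit 76) (nat_lit 7386156561) (nat_lit 62) (nat_lit 5) (nat_lit 66) (nat_lit 5) (nat_lit 63) (nat_lit 5) (nat_lit 524) (nat_lit 405) (nat_lit 211)) (XT.lf (nat_lit 0) (nat_lit 2690815602) (nat_lit 1292) (nat_lit 593522740) (nat_lit 1292) (nat_lit 593522740) (nat_lit 500) (nat_lit 3) (nat_lit 517) (nat_lit 3) (nat_lit 517) (nat_lit 5) (nat_lit 406) (nat_lit 406) (nat_lit 328))))) (XT.nd (nat_lit 234) (nat_lit 0) (nat_lit 76) (XT.nd (nat_lit 78) (nat_lit 1292) (nat_lit 0) (XT.lf (nat_lit 76) (nat_lit 2408110244) (nat_lit 0) (nat_lit 4293982938) (nat_lit 1292) (nat_lit 1104672365) (nat_lit 501) (nat_lit 5) (nat_lit 500) (nat_lit 3) (nat_lit 517) (nat_lit 5) (nat_lit 407) (nat_lit 406) (nat_lit 327)) (XT.nd (nat_lit 78) (nat_lit 0) (nat_lit 76) (XT.lf (nat_lit 0) (nat_lit 162486131)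 (nat_lit 1292) (nat_lit 1786142613) (nat_lit 1368) (nat_lit 5910709827) (nat_lit 483) (nat_lit 5) (nat_lit 500) (nat_lit 3) (nat_lit 501) (nat_lit 5) (nat_lit 408) (nat_lit 406) (nat_lit 326)) (XT.lf (nat_lit 0) (nat_lit 1423128099) (nat_lit 1292) (nat_lit 6017251814) (nat_lit 1368) (nat_lit 472808241) (nat_lit 484) (nat_lit 5) (nat_lit 501) (nat_lit 5) (nat_lit 502) (nat_lit 5) (nat_lit 409) (nat_lit 406) (nat_lit 325)))) (XT.nd (nat_lit 156) (nat_lit 0) (nat_lit 76) (XT.nd (nat_lit 78) (nat_lit 0) (nat_lit 0) (XT.lf (nat_lit 0) (nat_lit 2702055064) (nat_lit 1292) (nat_lit 2322747353) (nat_lit 1368) (nat_lit 2943480058) (nat_lit 484) (nat_lit 5) (nat_lit 501) (nat_lit 5) (nat_lit 502) (nat_lit 5) (nat_lit 410) (nat_lit 406) (nat_lit 324)) (XT.lf (nat_lit 76) (nat_lit 1447219257) (nat_lit 0) (nat_lit 2537465065) (nat_lit 1368) (nat_lit 4040260503) (nat_lit 485) (nat_lit 5) (nat_lit 484) (nat_lit 5) (nat_lit 502)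 (nat_lit 5) (nat_lit 411) (nat_lit 406) (nat_lit 323))) (XT.nd (nat_lit 78) (nat_lit 0) (nat_lit 0) (XT.lf (nat_lit 0) (nat_lit 5277969631) (nat_lit 1292) (nat_lit 2776483728) (nat_lit 1368) (nat_lit 28615050) (nat_lit 485) (nat_lit 5) (nat_lit 502) (nat_lit 5) (nat_lit 503) (nat_lit 5) (nat_lit 412) (nat_lit 406) (nat_lit 322)) (XT.lf (nat_lit 76) (nat_lit 1080477690) (nat_lit 0) (nat_lit 5510380046) (nat_lit 1368) (nat_lit 1551649493) (nat_lit 486) (nat_lit 5) (nat_lit 485) (nat_lit 5) (nat_lit 503) (nat_lit 5) (nat_lit 413) (nat_lit 406) (nat_lit 321)))))) (XT.nd (nat_lit 546) (nat_lit 2584) (nat_lit 0) (XT.nd (nat_lit 234) (nat_lit 0) (nat_lit 76) (XT.nd (nat_lit 78) (nat_lit 1368) (nat_lit 0) (XT.lf (nat_lit 76) (nat_lit 5034659049) (nat_lit 0) (nat_lit 2884369599) (nat_lit 1368) (nat_lit 284352641) (nat_lit 486) (nat_lit 5) (nat_lit 485) (nat_lit 5) (nat_lit 503) (nat_lit 5) (nat_lit 414) (nat_lit 406)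 (nat_lit 320)) (XT.nd (nat_lit 78) (nat_lit 0) (nat_lit 76) (XT.lf (nat_lit 76) (nat_lit 788622039) (nat_lit 0) (nat_lit 182320042) (nat_lit 1444) (nat_lit 7294908223) (nat_lit 468) (nat_lit 5) (nat_lit 467) (nat_lit 5) (nat_lit 486) (nat_lit 5) (nat_lit 415) (nat_lit 406) (nat_lit 319)) (XT.lf (nat_lit 0) (nat_lit 2256942542) (nat_lit 1368) (nat_lit 3497995879) (nat_lit 1444) (nat_lit 2574429952) (nat_lit 468) (nat_lit 5) (nat_lit 486) (nat_lit 5) (nat_lit 487) (nat_lit 5) (nat_lit 416) (nat_lit 406) (nat_lit 318)))) (XT.nd (nat_lit 156) (nat_lit 0) (nat_lit 76) (XT.nd (nat_lit 78) (nat_lit 0) (nat_lit 0) (XT.lf (nat_lit 76) (nat_lit 548986392) (nat_lit 0) (nat_lit 2996299915) (nat_lit 1444) (nat_lit 4849362944) (nat_lit 469) (nat_lit 5) (nat_lit 468) (nat_lit 5) (nat_lit 487) (nat_lit 5) (nat_lit 417) (nat_lit 406) (nat_lit 317)) (XT.lf (nat_lit 76) (nat_lit 4706614450) (nat_lit 0) (nat_lit 148544333) (nat_lit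 1444) (nat_lit 3606186151) (nat_lit 469) (nat_lit 5) (nat_lit 468) (nat_lit 5) (nat_lit 487) (nat_lit 5) (nat_lit 418) (nat_lit 406) (nat_lit 316))) (XT.nd (nat_lit 78) (nat_lit 0) (nat_lit 0) (XT.lf (nat_lit 76) (nat_lit 387210179) (nat_lit 0) (nat_lit 5797322882) (nat_lit 1444) (nat_lit 2344999327) (nat_lit 470) (nat_lit 5) (nat_lit 469) (nat_lit 5) (nat_lit 488) (nat_lit 5) (nat_lit 419) (nat_lit 406) (nat_lit 315)) (XT.lf (nat_lit 76) (nat_lit 4644013756) (nat_lit 0) (nat_lit 2895965422) (nat_lit 1444) (nat_lit 1059138204) (nat_lit 470) (nat_lit 5) (nat_lit 469) (nat_lit 5) (nat_lit 488) (nat_lit 5) (nat_lit 420) (nat_lit 406) (nat_lit 314))))) (XT.nd (nat_lit 312) (nat_lit 1368) (nat_lit 0) (XT.nd (nat_lit 156) (nat_lit 0) (nat_lit 0) (XT.nd (nat_lit 78) (nat_lit 0) (nat_lit 0) (XT.lf (nat_lit 0) (nat_lit 225207500) (nat_lit 1444) (nat_lit 8370802142) (nat_lit 1520) (nat_lit 74552653) (nat_lit 451) (nat_lit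 5) (nat_lit 470) (nat_lit 5) (nat_lit 471) (nat_lit 5) (nat_lit 421) (nat_lit 406) (nat_lit 313)) (XT.lf (nat_lit 0) (nat_lit 1541059447) (nat_lit 1444) (nat_lit 4094314659) (nat_lit 1520) (nat_lit 3107544082) (nat_lit 451) (nat_lit 5) (nat_lit 470) (nat_lit 5) (nat_lit 471) (nat_lit 5) (nat_lit 422) (nat_lit 406) (nat_lit 312))) (XT.nd (nat_lit 78) (nat_lit 0) (nat_lit 76) (XT.lf (nat_lit 76) (nat_lit 253006544) (nat_lit 0) (nat_lit 2606465318) (nat_lit 1520) (nat_lit 5957746156) (nat_lit 452) (nat_lit 5) (nat_lit 451) (nat_lit 5) (nat_lit 471) (nat_lit 5) (nat_lit 423) (nat_lit 406) (nat_lit 311)) (XT.lf (nat_lit 0) (nat_lit 4210074399) (nat_lit 1444) (nat_lit 4171462301) (nat_lit 1520) (nat_lit 511371970) (nat_lit 452) (nat_lit 5) (nat_lit 471) (nat_lit 5) (nat_lit 472) (nat_lit 5) (nat_lit 424) (nat_lit 406) (nat_lit 310)))) (XT.nd (nat_lit 156) (nat_lit 1444) (nat_lit 0) (XT.nd (nat_lit 78) (nat_lit 0) (nat_lit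 0) (XT.lf (nat_lit 76) (nat_lit 277417312) (nat_lit 0) (nat_lit 5304852657) (nat_lit 1520) (nat_lit 3387972392) (nat_lit 453) (nat_lit 5) (nat_lit 452) (nat_lit 5) (nat_lit 472) (nat_lit 5) (nat_lit 425) (nat_lit 406) (nat_lit 309)) (XT.lf (nat_lit 76) (nat_lit 4853837318) (nat_lit 0) (nat_lit 2131946564) (nat_lit 1520) (nat_lit 2063281793) (nat_lit 453) (nat_lit 5) (nat_lit 452) (nat_lit 5) (nat_lit 472) (nat_lit 5) (nat_lit 426) (nat_lit 406) (nat_lit 308))) (XT.nd (nat_lit 78) (nat_lit 1520) (nat_lit 0) (XT.lf (nat_lit 76) (nat_lit 371864855) (nat_lit 0) (nat_lit 8031481910) (nat_lit 1520) (nat_lit 726419153) (nat_lit 454) (nat_lit 5) (nat_lit 453) (nat_lit 5) (nat_lit 473) (nat_lit 5) (nat_lit 427) (nat_lit 406) (nat_lit 307)) (XT.lf (nat_lit 0) (nat_lit 647847463) (nat_lit 1520) (nat_lit 4161165126) (nat_lit 1596) (nat_lit 4402623626) (nat_lit 433) (nat_lit 5) (nat_lit 453) (nat_lit 5) (nat_lit 454) (nat_lit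 5) (nat_lit 428) (nat_lit 406) (nat_lit 306))))))))
noncomputable def xc164 : XT := (XT.nd (nat_lit 2184) (nat_lit 7752) (nat_lit 0) (XT.nd (nat_lit 1092) (nat_lit 6156) (nat_lit 0) (XT.nd (nat_lit 546) (nat_lit 3040) (nat_lit 0) (XT.nd (nat_lit 234) (nat_lit 3344) (nat_lit 0) (XT.nd (nat_lit 78) (nat_lit 1444) (nat_lit 0) (XT.lf (nat_lit 76) (nat_lit 511388948) (nat_lit 0) (nat_lit 1508838553) (nat_lit 1596) (nat_lit 7275232169) (nat_lit 434) (nat_lit 5) (nat_lit 433) (nat_lit 5) (nat_lit 454) (nat_lit 5) (nat_lit 429) (nat_lit 406) (nat_lit 305)) (XT.nd (nat_lit 78) (nat_lit 1520) (nat_lit 0) (XT.lf (nat_lit 0) (nat_lit 3437613337) (nat_lit 1520) (nat_lit 4077241769) (nat_lit 76) (nat_lit 1865771835) (nat_lit 434) (nat_lit 5) (nat_lit 454) (nat_lit 5) (nat_lit 435) (nat_lit 5) (nat_lit 430) (nat_lit 406) (nat_lit 304)) (XT.lf (nat_lit 0) (nat_lit 704941160) (nat_lit 1520) (nat_lit 4170808891) (nat_lit 1596)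 (nat_lit 4591917590) (nat_lit 414) (nat_lit 5) (nat_lit 434) (nat_lit 5) (nat_lit 435) (nat_lit 5) (nat_lit 431) (nat_lit 406) (nat_lit 303)))) (XT.nd (nat_lit 156) (nat_lit 1748) (nat_lit 0) (XT.nd (nat_lit 78) (nat_lit 1596) (nat_lit 0) (XT.lf (nat_lit 0) (nat_lit 5620118765) (nat_lit 1520) (nat_lit 728043381) (nat_lit 1596) (nat_lit 3208194548) (nat_lit 414) (nat_lit 5) (nat_lit 434) (nat_lit 5) (nat_lit 435) (nat_lit 5) (nat_lit 432) (nat_lit 406) (nat_lit 302)) (XT.lf (nat_lit 0) (nat_lit 963304873) (nat_lit 1596) (nat_lit 6889650472) (nat_lit 1672) (nat_lit 1793822969) (nat_lit 393) (nat_lit 5) (nat_lit 414) (nat_lit 5) (nat_lit 415) (nat_lit 5) (nat_lit 433) (nat_lit 406) (nat_lit 301))) (XT.nd (nat_lit 78) (nat_lit 1748) (nat_lit 0) (XT.lf (nat_lit 0) (nat_lit 5991391776) (nat_lit 1596) (nat_lit 3406565398) (nat_lit 1672) (nat_lit 340866039) (nat_lit 393) (nat_lit 5) (nat_lit 414) (nat_lit 5) (nat_lit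 415) (nat_lit 5) (nat_lit 434) (nat_lit 406) (nat_lit 300)) (XT.lf (nat_lit 0) (nat_lit 1114727985) (nat_lit 1748) (nat_lit 8555065713) (nat_lit 76) (nat_lit 163012680) (nat_lit 370) (nat_lit 5) (nat_lit 393) (nat_lit 5) (nat_lit 371) (nat_lit 5) (nat_lit 435) (nat_lit 406) (nat_lit 299))))) (XT.nd (nat_lit 234) (nat_lit 1748) (nat_lit 0) (XT.nd (nat_lit 78) (nat_lit 1292) (nat_lit 0) (XT.lf (nat_lit 0) (nat_lit 2622228028) (nat_lit 1748) (nat_lit 3517124003) (nat_lit 76) (nat_lit 3788741060) (nat_lit 370) (nat_lit 5) (nat_lit 393) (nat_lit 5) (nat_lit 371) (nat_lit 5) (nat_lit 436) (nat_lit 406) (nat_lit 298)) (XT.nd (nat_lit 78) (nat_lit 0) (nat_lit 0) (XT.lf (nat_lit 0) (nat_lit 1625058687) (nat_lit 1292) (nat_lit 2525252949) (nat_lit 1368) (nat_lit 5875181029) (nat_lit 353) (nat_lit 5) (nat_lit 370) (nat_lit 5) (nat_lit 371) (nat_lit 5) (nat_lit 437) (nat_lit 406) (nat_lit 297)) (XT.lf (nat_lit 0) (nat_lit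 5720429637) (nat_lit 1368) (nat_lit 3232442265) (nat_lit 76) (nat_lit 1171754364) (nat_lit 353) (nat_lit 5) (nat_lit 371) (nat_lit 5) (nat_lit 354) (nat_lit 5) (nat_lit 438) (nat_lit 406) (nat_lit 296)))) (XT.nd (nat_lit 156) (nat_lit 912) (nat_lit 0) (XT.nd (nat_lit 78) (nat_lit 0) (nat_lit 0) (XT.lf (nat_lit 0) (nat_lit 2031039352) (nat_lit 836) (nat_lit 5301385588) (nat_lit 912) (nat_lit 2893123285) (nat_lit 342) (nat_lit 5) (nat_lit 353) (nat_lit 5) (nat_lit 354) (nat_lit 5) (nat_lit 439) (nat_lit 406) (nat_lit 295)) (XT.lf (nat_lit 0) (nat_lit 7425940359) (nat_lit 836) (nat_lit 1553242120) (nat_lit 912) (nat_lit 1349270585) (nat_lit 342) (nat_lit 5) (nat_lit 353) (nat_lit 5) (nat_lit 354) (nat_lit 5) (nat_lit 440) (nat_lit 406) (nat_lit 294))) (XT.nd (nat_lit 78) (nat_lit 0) (nat_lit 0) (XT.lf (nat_lit 0) (nat_lit 234725228) (nat_lit 912) (nat_lit 7939136059) (nat_lit 76) (nat_lit 2259295286) (nat_lit 330)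 (nat_lit 5) (nat_lit 342) (nat_lit 5) (nat_lit 331) (nat_lit 5) (nat_lit 441) (nat_lit 406) (nat_lit 293)) (XT.lf (nat_lit 0) (nat_lit 1843577406) (nat_lit 912) (nat_lit 2538952783) (nat_lit 76) (nat_lit 6157034755) (nat_lit 330) (nat_lit 5) (nat_lit 342) (nat_lit 5) (nat_lit 331) (nat_lit 5) (nat_lit 442) (nat_lit 406) (nat_lit 292)))))) (XT.nd (nat_lit 546) (nat_lit 2888) (nat_lit 0) (XT.nd (nat_lit 234) (nat_lit 1596) (nat_lit 0) (XT.nd (nat_lit 78) (nat_lit 836) (nat_lit 0) (XT.lf (nat_lit 0) (nat_lit 2990945280) (nat_lit 836) (nat_lit 494780098) (nat_lit 912) (nat_lit 7162367482) (nat_lit 319) (nat_lit 5) (nat_lit 330) (nat_lit 5) (nat_lit 331) (nat_lit 5) (nat_lit 443) (nat_lit 406) (nat_lit 291)) (XT.nd (nat_lit 78) (nat_lit 836) (nat_lit 0) (XT.lf (nat_lit 0) (nat_lit 5182350759) (nat_lit 912) (nat_lit 2133019435) (nat_lit 76) (nat_lit 3443001937) (nat_lit 319) (nat_lit 5) (nat_lit 331) (nat_lit 5) (nat_lit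 320) (nat_lit 5) (nat_lit 444) (nat_lit 406) (nat_lit 290)) (XT.lf (nat_lit 0) (nat_lit 3527143062) (nat_lit 836) (nat_lit 3394246411) (nat_lit 912) (nat_lit 3949311117) (nat_lit 308) (nat_lit 5) (nat_lit 319) (nat_lit 5) (nat_lit 320) (nat_lit 5) (nat_lit 445) (nat_lit 406) (nat_lit 289)))) (XT.nd (nat_lit 156) (nat_lit 836) (nat_lit 0) (XT.nd (nat_lit 78) (nat_lit 760) (nat_lit 0) (XT.lf (nat_lit 0) (nat_lit 8696086539) (nat_lit 912) (nat_lit 1677270804) (nat_lit 76) (nat_lit 611913685) (nat_lit 308) (nat_lit 5) (nat_lit 320) (nat_lit 5) (nat_lit 309) (nat_lit 5) (nat_lit 446) (nat_lit 406) (nat_lit 288)) (XT.lf (nat_lit 0) (nat_lit 4116519639) (nat_lit 760) (nat_lit 6421844999) (nat_lit 836) (nat_lit 563139198) (nat_lit 298) (nat_lit 5) (nat_lit 308) (nat_lit 5) (nat_lit 309) (nat_lit 5) (nat_lit 447) (nat_lit 406) (nat_lit 287))) (XT.nd (nat_lit 78) (nat_lit 760) (nat_lit 0) (XT.lf (nat_lit 0) (nat_lit 1176033584)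 (nat_lit 836) (nat_lit 1196220299) (nat_lit 76) (nat_lit 8847777921) (nat_lit 297) (nat_lit 5) (nat_lit 308) (nat_lit 5) (nat_lit 298) (nat_lit 5) (nat_lit 448) (nat_lit 406) (nat_lit 286)) (XT.lf (nat_lit 0) (nat_lit 2968252320) (nat_lit 836) (nat_lit 6602457997) (nat_lit 76) (nat_lit 1769641484) (nat_lit 287) (nat_lit 5) (nat_lit 298) (nat_lit 5) (nat_lit 288) (nat_lit 5) (nat_lit 449) (nat_lit 406) (nat_lit 285))))) (XT.nd (nat_lit 234) (nat_lit 2204) (nat_lit 0) (XT.nd (nat_lit 78) (nat_lit 684) (nat_lit 0) (XT.lf (nat_lit 0) (nat_lit 4803634310) (nat_lit 836) (nat_lit 689115400) (nat_lit 76) (nat_lit 5970193848) (nat_lit 287) (nat_lit 5) (nat_lit 298) (nat_lit 5) (nat_lit 288) (nat_lit 5) (nat_lit 450) (nat_lit 406) (nat_lit 284)) (XT.nd (nat_lit 78) (nat_lit 0) (nat_lit 0) (XT.lf (nat_lit 0) (nat_lit 5396267489) (nat_lit 684) (nat_lit 1298343735) (nat_lit 760) (nat_lit 4893009687) (nat_lit 278) (nat_lit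 5) (nat_lit 287) (nat_lit 5) (nat_lit 288) (nat_lit 5) (nat_lit 451) (nat_lit 406) (nat_lit 283)) (XT.lf (nat_lit 0) (nat_lit 8631462438) (nat_lit 760) (nat_lit 138590305) (nat_lit 76) (nat_lit 2944589258) (nat_lit 278) (nat_lit 5) (nat_lit 288) (nat_lit 5) (nat_lit 279) (nat_lit 5) (nat_lit 452) (nat_lit 406) (nat_lit 282)))) (XT.nd (nat_lit 156) (nat_lit 684) (nat_lit 0) (XT.nd (nat_lit 78) (nat_lit 760) (nat_lit 0) (XT.lf (nat_lit 0) (nat_lit 6089622026) (nat_lit 760) (nat_lit 4549929517) (nat_lit 836) (nat_lit 1204013012) (nat_lit 268) (nat_lit 5) (nat_lit 278) (nat_lit 5) (nat_lit 279) (nat_lit 5) (nat_lit 453) (nat_lit 406) (nat_lit 281)) (XT.lf (nat_lit 0) (nat_lit 453564625) (nat_lit 684) (nat_lit 238155085) (nat_lit 760) (nat_lit 11283497322) (nat_lit 258) (nat_lit 5) (nat_lit 267) (nat_lit 5) (nat_lit 268) (nat_lit 5) (nat_lit 454) (nat_lit 406) (nat_lit 280))) (XT.nd (nat_lit 78) (nat_lit 684) (nat_lit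 0) (XT.lf (nat_lit 0) (nat_lit 2659771712) (nat_lit 760) (nat_lit 5297926524) (nat_lit 76) (nat_lit 4150645048) (nat_lit 258) (nat_lit 5) (nat_lit 268) (nat_lit 5) (nat_lit 259) (nat_lit 5) (nat_lit 455) (nat_lit 406) (nat_lit 279)) (XT.lf (nat_lit 0) (nat_lit 1045569828) (nat_lit 684) (nat_lit 3614916976) (nat_lit 760) (nat_lit 7583789435) (nat_lit 249) (nat_lit 5) (nat_lit 258) (nat_lit 5) (nat_lit 259) (nat_lit 5) (nat_lit 456) (nat_lit 406) (nat_lit 278))))))) (XT.nd (nat_lit 1092) (nat_lit 3572) (nat_lit 0) (XT.nd (nat_lit 546) (nat_lit 2280) (nat_lit 0) (XT.nd (nat_lit 234) (nat_lit 1292) (nat_lit 0) (XT.nd (nat_lit 78) (nat_lit 608) (nat_lit 0) (XT.lf (nat_lit 0) (nat_lit 6727404279) (nat_lit 760) (nat_lit 4817015509) (nat_lit 76) (nat_lit 837994324) (nat_lit 249) (nat_lit 5) (nat_lit 259) (nat_lit 5) (nat_lit 250) (nat_lit 5) (nat_lit 457) (nat_lit 406) (nat_lit 277)) (XT.nd (nat_lit 78) (nat_lit 0) (nat_lit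 0) (XT.lf (nat_lit 0) (nat_lit 1673628674) (nat_lit 608) (nat_lit 7182240582) (nat_lit 684) (nat_lit 3667051124) (nat_lit 241) (nat_lit 5) (nat_lit 249) (nat_lit 5) (nat_lit 250) (nat_lit 5) (nat_lit 458) (nat_lit 406) (nat_lit 276)) (XT.lf (nat_lit 0) (nat_lit 8342800830) (nat_lit 608) (nat_lit 2702008974) (nat_lit 684) (nat_lit 1621078475) (nat_lit 241) (nat_lit 5) (nat_lit 249) (nat_lit 5) (nat_lit 250) (nat_lit 5) (nat_lit 459) (nat_lit 406) (nat_lit 275)))) (XT.nd (nat_lit 156) (nat_lit 608) (nat_lit 0) (XT.nd (nat_lit 78) (nat_lit 0) (nat_lit 0) (XT.lf (nat_lit 0) (nat_lit 472924138) (nat_lit 684) (nat_lit 10478961894) (nat_lit 76) (nat_lit 1859513877) (nat_lit 232) (nat_lit 5) (nat_lit 241) (nat_lit 5) (nat_lit 233) (nat_lit 5) (nat_lit 460) (nat_lit 406) (nat_lit 274)) (XT.lf (nat_lit 0) (nat_lit 2620136864) (nat_lit 684) (nat_lit 3825010349) (nat_lit 76) (nat_lit 6513808600) (nat_lit 232) (nat_lit 5)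 (nat_lit 241) (nat_lit 5) (nat_lit 233) (nat_lit 5) (nat_lit 461) (nat_lit 406) (nat_lit 273))) (XT.nd (nat_lit 78) (nat_lit 0) (nat_lit 0) (XT.lf (nat_lit 0) (nat_lit 2984871748) (nat_lit 608) (nat_lit 1830997549) (nat_lit 684) (nat_lit 8293490925) (nat_lit 224) (nat_lit 5) (nat_lit 232) (nat_lit 5) (nat_lit 233) (nat_lit 5) (nat_lit 462) (nat_lit 406) (nat_lit 272)) (XT.lf (nat_lit 0) (nat_lit 7086368129) (nat_lit 684) (nat_lit 3314751414) (nat_lit 76) (nat_lit 2861044864) (nat_lit 224) (nat_lit 5) (nat_lit 233) (nat_lit 5) (nat_lit 225) (nat_lit 5) (nat_lit 463) (nat_lit 406) (nat_lit 271))))) (XT.nd (nat_lit 234) (nat_lit 1064) (nat_lit 0) (XT.nd (nat_lit 78) (nat_lit 608) (nat_lit 0) (XT.lf (nat_lit 0) (nat_lit 3650804810) (nat_lit 608) (nat_lit 5773913835) (nat_lit 684) (nat_lit 3992865748) (nat_lit 216) (nat_lit 5) (nat_lit 224) (nat_lit 5) (nat_lit 225) (nat_lit 5) (nat_lit 464) (nat_lit 406) (nat_lit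 270)) (XT.nd (nat_lit 78) (nat_lit 608) (nat_lit 0) (XT.lf (nat_lit 0) (nat_lit 10784579882) (nat_lit 608) (nat_lit 1034270924) (nat_lit 684) (nat_lit 1757090063) (nat_lit 216) (nat_lit 5) (nat_lit 224) (nat_lit 5) (nat_lit 225) (nat_lit 5) (nat_lit 465) (nat_lit 406) (nat_lit 269)) (XT.lf (nat_lit 0) (nat_lit 556655403) (nat_lit 608) (nat_lit 9400487149) (nat_lit 76) (nat_lit 3779459639) (nat_lit 208) (nat_lit 5) (nat_lit 216) (nat_lit 5) (nat_lit 209) (nat_lit 5) (nat_lit 466) (nat_lit 406) (nat_lit 268)))) (XT.nd (nat_lit 156) (nat_lit 532) (nat_lit 0) (XT.nd (nat_lit 78) (nat_lit 532) (nat_lit 0) (XT.lf (nat_lit 0) (nat_lit 2905946629) (nat_lit 608) (nat_lit 2290768697) (nat_lit 76) (nat_lit 8703281061) (nat_lit 208) (nat_lit 5) (nat_lit 216) (nat_lit 5) (nat_lit 209) (nat_lit 5) (nat_lit 467) (nat_lit 406) (nat_lit 267)) (XT.lf (nat_lit 0) (nat_lit 5011145681) (nat_lit 532) (nat_lit 310938448) (nat_lit 608)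 (nat_lit 8744184873) (nat_lit 201) (nat_lit 5) (nat_lit 208) (nat_lit 5) (nat_lit 209) (nat_lit 5) (nat_lit 468) (nat_lit 406) (nat_lit 266))) (XT.nd (nat_lit 78) (nat_lit 532) (nat_lit 0) (XT.lf (nat_lit 0) (nat_lit 7819807618) (nat_lit 608) (nat_lit 1791703622) (nat_lit 76) (nat_lit 4623698159) (nat_lit 201) (nat_lit 5) (nat_lit 209) (nat_lit 5) (nat_lit 202) (nat_lit 5) (nat_lit 469) (nat_lit 406) (nat_lit 265)) (XT.lf (nat_lit 0) (nat_lit 5673793795) (nat_lit 532) (nat_lit 4720286902) (nat_lit 608) (nat_lit 4012923448) (nat_lit 194) (nat_lit 5) (nat_lit 201) (nat_lit 5) (nat_lit 202) (nat_lit 5) (nat_lit 470) (nat_lit 406) (nat_lit 264)))))) (XT.nd (nat_lit 546) (nat_lit 1520) (nat_lit 0) (XT.nd (nat_lit 234) (nat_lit 1444) (nat_lit 0) (XT.nd (nat_lit 78) (nat_lit 608) (nat_lit 0) (XT.lf (nat_lit 0) (nat_lit 13021504666) (nat_lit 608) (nat_lit 1286602012) (nat_lit 76) (nat_lit 274102096) (nat_lit 194) (nat_lit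 5) (nat_lit 202) (nat_lit 5) (nat_lit 195) (nat_lit 5) (nat_lit 471) (nat_lit 406) (nat_lit 263)) (XT.nd (nat_lit 78) (nat_lit 0) (nat_lit 0) (XT.lf (nat_lit 0) (nat_lit 989133749) (nat_lit 608) (nat_lit 8420684598) (nat_lit 76) (nat_lit 5349765835) (nat_lit 186) (nat_lit 5) (nat_lit 194) (nat_lit 5) (nat_lit 187) (nat_lit 5) (nat_lit 472) (nat_lit 406) (nat_lit 262)) (XT.lf (nat_lit 0) (nat_lit 3565887413) (nat_lit 608) (nat_lit 831803787) (nat_lit 76) (nat_lit 10542680113) (nat_lit 186) (nat_lit 5) (nat_lit 194) (nat_lit 5) (nat_lit 187) (nat_lit 5) (nat_lit 473) (nat_lit 406) (nat_lit 261)))) (XT.nd (nat_lit 156) (nat_lit 988) (nat_lit 0) (XT.nd (nat_lit 78) (nat_lit 0) (nat_lit 0) (XT.lf (nat_lit 0) (nat_lit 6232787253) (nat_lit 532) (nat_lit 8143681753) (nat_lit 76) (nat_lit 747539702) (nat_lit 180) (nat_lit 5) (nat_lit 187) (nat_lit 5) (nat_lit 181) (nat_lit 5) (nat_lit 474) (nat_lit 406) (nat_lit 260))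 (XT.lf (nat_lit 0) (nat_lit 8976215650) (nat_lit 532) (nat_lit 395632650) (nat_lit 76) (nat_lit 5939013349) (nat_lit 180) (nat_lit 5) (nat_lit 187) (nat_lit 5) (nat_lit 181) (nat_lit 5) (nat_lit 475) (nat_lit 406) (nat_lit 259))) (XT.nd (nat_lit 78) (nat_lit 456) (nat_lit 0) (XT.lf (nat_lit 0) (nat_lit 7592006475) (nat_lit 532) (nat_lit 4220472963) (nat_lit 608) (nat_lit 3688219354) (nat_lit 173) (nat_lit 5) (nat_lit 180) (nat_lit 5) (nat_lit 181) (nat_lit 5) (nat_lit 476) (nat_lit 406) (nat_lit 258)) (XT.lf (nat_lit 0) (nat_lit 29082704) (nat_lit 456) (nat_lit 14674736589) (nat_lit 532) (nat_lit 990552722) (nat_lit 167) (nat_lit 5) (nat_lit 173) (nat_lit 5) (nat_lit 174) (nat_lit 5) (nat_lit 477) (nat_lit 406) (nat_lit 257))))) (XT.nd (nat_lit 234) (nat_lit 988) (nat_lit 0) (XT.nd (nat_lit 78) (nat_lit 456) (nat_lit 0) (XT.lf (nat_lit 0) (nat_lit 1808163495) (nat_lit 532) (nat_lit 7712880836) (nat_lit 76) (nat_lit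 6369247940) (nat_lit 166) (nat_lit 5) (nat_lit 173) (nat_lit 5) (nat_lit 167) (nat_lit 5) (nat_lit 478) (nat_lit 406) (nat_lit 256)) (XT.nd (nat_lit 78) (nat_lit 0) (nat_lit 0) (XT.lf (nat_lit 0) (nat_lit 382219361) (nat_lit 456) (nat_lit 4258904274) (nat_lit 532) (nat_lit 11449051672) (nat_lit 160) (nat_lit 5) (nat_lit 166) (nat_lit 5) (nat_lit 167) (nat_lit 5) (nat_lit 479) (nat_lit 406) (nat_lit 255)) (XT.lf (nat_lit 0) (nat_lit 7579173561) (nat_lit 532) (nat_lit 7571698415) (nat_lit 76) (nat_lit 1142221284) (nat_lit 160) (nat_lit 5) (nat_lit 167) (nat_lit 5) (nat_lit 161) (nat_lit 5) (nat_lit 480) (nat_lit 406) (nat_lit 254)))) (XT.nd (nat_lit 156) (nat_lit 532) (nat_lit 0) (XT.nd (nat_lit 78) (nat_lit 0) (nat_lit 0) (XT.lf (nat_lit 0) (nat_lit 693558578) (nat_lit 456) (nat_lit 9904480034) (nat_lit 532) (nat_lit 5901595632) (nat_lit 154) (nat_lit 5) (nat_lit 160) (nat_lit 5) (nat_lit 161) (nat_lit 5) (nat_lit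 481) (nat_lit 406) (nat_lit 253)) (XT.lf (nat_lit 0) (nat_lit 9212236075) (nat_lit 456) (nat_lit 4505316008) (nat_lit 532) (nat_lit 2991954186) (nat_lit 154) (nat_lit 5) (nat_lit 160) (nat_lit 5) (nat_lit 161) (nat_lit 5) (nat_lit 482) (nat_lit 406) (nat_lit 252))) (XT.nd (nat_lit 78) (nat_lit 76) (nat_lit 0) (XT.lf (nat_lit 0) (nat_lit 969498878) (nat_lit 456) (nat_lit 15932398461) (nat_lit 532) (nat_lit 21635094) (nat_lit 148) (nat_lit 5) (nat_lit 154) (nat_lit 5) (nat_lit 155) (nat_lit 5) (nat_lit 483) (nat_lit 406) (nat_lit 251)) (XT.lf (nat_lit 0) (nat_lit 3038798255) (nat_lit 532) (nat_lit 7497773030) (nat_lit 76) (nat_lit 6603479352) (nat_lit 147) (nat_lit 5) (nat_lit 154) (nat_lit 5) (nat_lit 148) (nat_lit 5) (nat_lit 484) (nat_lit 406) (nat_lit 250))))))))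
noncomputable def xc165 : XT := (XT.nd (nat_lit 2184) (nat_lit 1140) (nat_lit 0) (XT.nd (nat_lit 1092) (nat_lit 2356) (nat_lit 0) (XT.nd (nat_lit 546) (nat_lit 1064) (nat_lit 0) (XT.nd (nat_lit 234) (nat_lit 836) (nat_lit 0) (XT.nd (nat_lit 78) (nat_lit 456) (nat_lit 0) (XT.lf (nat_lit 0) (nat_lit 1128077410) (nat_lit 380) (nat_lit 5029279215) (nat_lit 456) (nat_lit 11203600810) (nat_lit 142) (nat_lit 5) (nat_lit 147) (nat_lit 5) (nat_lit 148) (nat_lit 5) (nat_lit 485) (nat_lit 406) (nat_lit 249)) (XT.nd (nat_lit 78) (nat_lit 456) (nat_lit 0) (XT.lf (nat_lit 0) (nat_lit 9382714032) (nat_lit 456) (nat_lit 7575621323) (nat_lit 76) (nat_lit 627063568) (nat_lit 142) (nat_lit 5) (nat_lit 148) (nat_lit 5) (nat_lit 143) (nat_lit 5) (nat_lit 486) (nat_lit 406) (nat_lit 248)) (XT.lf (nat_lit 0) (nat_lit 1223530284) (nat_lit 456) (nat_lit 11480457524) (nat_lit 532) (nat_lit 5109718258) (nat_lit 136) (nat_lit 5) (nat_lit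 142) (nat_lit 5) (nat_lit 143) (nat_lit 5) (nat_lit 487) (nat_lit 406) (nat_lit 247)))) (XT.nd (nat_lit 156) (nat_lit 380) (nat_lit 0) (XT.nd (nat_lit 78) (nat_lit 456) (nat_lit 0) (XT.lf (nat_lit 0) (nat_lit 10287453917) (nat_lit 456) (nat_lit 5845331030) (nat_lit 532) (nat_lit 1912977358) (nat_lit 136) (nat_lit 5) (nat_lit 142) (nat_lit 5) (nat_lit 143) (nat_lit 5) (nat_lit 488) (nat_lit 406) (nat_lit 246)) (XT.lf (nat_lit 0) (nat_lit 1244001004) (nat_lit 380) (nat_lit 84483379) (nat_lit 456) (nat_lit 16953835776) (nat_lit 130) (nat_lit 5) (nat_lit 135) (nat_lit 5) (nat_lit 136) (nat_lit 5) (nat_lit 489) (nat_lit 406) (nat_lit 245))) (XT.nd (nat_lit 78) (nat_lit 380) (nat_lit 0) (XT.lf (nat_lit 0) (nat_lit 4689651707) (nat_lit 456) (nat_lit 8055499660) (nat_lit 76) (nat_lit 5776599715) (nat_lit 130) (nat_lit 5) (nat_lit 136) (nat_lit 5) (nat_lit 131) (nat_lit 5) (nat_lit 490) (nat_lit 406) (nat_lit 244)) (XT.lf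 (nat_lit 0) (nat_lit 1107373531) (nat_lit 380) (nat_lit 7009062518) (nat_lit 456) (nat_lit 10649571237) (nat_lit 125) (nat_lit 5) (nat_lit 130) (nat_lit 5) (nat_lit 131) (nat_lit 5) (nat_lit 491) (nat_lit 406) (nat_lit 243))))) (XT.nd (nat_lit 234) (nat_lit 760) (nat_lit 0) (XT.nd (nat_lit 78) (nat_lit 304) (nat_lit 0) (XT.lf (nat_lit 0) (nat_lit 10549221255) (nat_lit 380) (nat_lit 1107331784) (nat_lit 456) (nat_lit 7357704086) (nat_lit 125) (nat_lit 5) (nat_lit 130) (nat_lit 5) (nat_lit 131) (nat_lit 5) (nat_lit 492) (nat_lit 406) (nat_lit 242)) (XT.nd (nat_lit 78) (nat_lit 0) (nat_lit 0) (XT.lf (nat_lit 0) (nat_lit 878691223) (nat_lit 304) (nat_lit 14417276002) (nat_lit 380) (nat_lit 3970939199) (nat_lit 121) (nat_lit 5) (nat_lit 125) (nat_lit 5) (nat_lit 126) (nat_lit 5) (nat_lit 493) (nat_lit 406) (nat_lit 241)) (XT.lf (nat_lit 0) (nat_lit 10503323678) (nat_lit 304) (nat_lit 8559923251) (nat_lit 380) (nat_lit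 460264510) (nat_lit 121) (nat_lit 5) (nat_lit 125) (nat_lit 5) (nat_lit 126) (nat_lit 5) (nat_lit 494) (nat_lit 406) (nat_lit 240)))) (XT.nd (nat_lit 156) (nat_lit 304) (nat_lit 0) (XT.nd (nat_lit 78) (nat_lit 0) (nat_lit 0) (XT.lf (nat_lit 0) (nat_lit 508461548) (nat_lit 380) (nat_lit 2565637230) (nat_lit 456) (nat_lit 16710860611) (nat_lit 115) (nat_lit 5) (nat_lit 120) (nat_lit 5) (nat_lit 121) (nat_lit 5) (nat_lit 495) (nat_lit 406) (nat_lit 239)) (XT.lf (nat_lit 0) (nat_lit 6748126133) (nat_lit 456) (nat_lit 9740171449) (nat_lit 76) (nat_lit 3561779103) (nat_lit 115) (nat_lit 5) (nat_lit 121) (nat_lit 5) (nat_lit 116) (nat_lit 5) (nat_lit 496) (nat_lit 406) (nat_lit 238))) (XT.nd (nat_lit 78) (nat_lit 304) (nat_lit 0) (XT.lf (nat_lit 0) (nat_lit 10503961746) (nat_lit 456) (nat_lit 43062646) (nat_lit 76) (nat_lit 9773309331) (nat_lit 115) (nat_lit 5) (nat_lit 121) (nat_lit 5) (nat_lit 116) (nat_lit 5) (nat_lit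 497) (nat_lit 406) (nat_lit 237)) (XT.lf (nat_lit 0) (nat_lit 9965994989) (nat_lit 304) (nat_lit 4425131537) (nat_lit 380) (nat_lit 6203749000) (nat_lit 111) (nat_lit 5) (nat_lit 115) (nat_lit 5) (nat_lit 116) (nat_lit 5) (nat_lit 498) (nat_lit 406) (nat_lit 236)))))) (XT.nd (nat_lit 546) (nat_lit 1292) (nat_lit 0) (XT.nd (nat_lit 234) (nat_lit 608) (nat_lit 0) (XT.nd (nat_lit 78) (nat_lit 456) (nat_lit 0) (XT.lf (nat_lit 0) (nat_lit 18359700854) (nat_lit 380) (nat_lit 723658516) (nat_lit 76) (nat_lit 1791479266) (nat_lit 111) (nat_lit 5) (nat_lit 116) (nat_lit 5) (nat_lit 112) (nat_lit 5) (nat_lit 499) (nat_lit 406) (nat_lit 235)) (XT.nd (nat_lit 78) (nat_lit 0) (nat_lit 0) (XT.lf (nat_lit 0) (nat_lit 1313898359) (nat_lit 456) (nat_lit 11705451925) (nat_lit 76) (nat_lit 8139232203) (nat_lit 105) (nat_lit 5) (nat_lit 111) (nat_lit 5) (nat_lit 106) (nat_lit 5) (nat_lit 500) (nat_lit 406) (nat_lit 234)) (XT.lf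 (nat_lit 0) (nat_lit 5182510278) (nat_lit 456) (nat_lit 1633868933) (nat_lit 76) (nat_lit 14631359627) (nat_lit 105) (nat_lit 5) (nat_lit 111) (nat_lit 5) (nat_lit 106) (nat_lit 5) (nat_lit 501) (nat_lit 406) (nat_lit 233)))) (XT.nd (nat_lit 156) (nat_lit 304) (nat_lit 0) (XT.nd (nat_lit 78) (nat_lit 0) (nat_lit 0) (XT.lf (nat_lit 0) (nat_lit 8741496981) (nat_lit 304) (nat_lit 435667735) (nat_lit 380) (nat_lit 12564543700) (nat_lit 101) (nat_lit 5) (nat_lit 105) (nat_lit 5) (nat_lit 106) (nat_lit 5) (nat_lit 502) (nat_lit 406) (nat_lit 232)) (XT.lf (nat_lit 0) (nat_lit 13294143295) (nat_lit 380) (nat_lit 2746671094) (nat_lit 76) (nat_lit 5999897817) (nat_lit 101) (nat_lit 5) (nat_lit 106) (nat_lit 5) (nat_lit 102) (nat_lit 5) (nat_lit 503) (nat_lit 406) (nat_lit 231))) (XT.nd (nat_lit 78) (nat_lit 0) (nat_lit 0) (XT.lf (nat_lit 0) (nat_lit 7799234978) (nat_lit 304) (nat_lit 9739873602) (nat_lit 380) (nat_lit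 4805677917) (nat_lit 97) (nat_lit 5) (nat_lit 101) (nat_lit 5) (nat_lit 102) (nat_lit 5) (nat_lit 504) (nat_lit 406) (nat_lit 230)) (XT.lf (nat_lit 0) (nat_lit 18581262454) (nat_lit 304) (nat_lit 3298342774) (nat_lit 380) (nat_lit 775127713) (nat_lit 97) (nat_lit 5) (nat_lit 101) (nat_lit 5) (nat_lit 102) (nat_lit 5) (nat_lit 505) (nat_lit 406) (nat_lit 229))))) (XT.nd (nat_lit 234) (nat_lit 608) (nat_lit 0) (XT.nd (nat_lit 78) (nat_lit 304) (nat_lit 0) (XT.lf (nat_lit 0) (nat_lit 3349480354) (nat_lit 380) (nat_lit 16329518224) (nat_lit 76) (nat_lit 3290305726) (nat_lit 92) (nat_lit 5) (nat_lit 97) (nat_lit 5) (nat_lit 93) (nat_lit 5) (nat_lit 506) (nat_lit 406) (nat_lit 228)) (XT.nd (nat_lit 78) (nat_lit 304) (nat_lit 0) (XT.lf (nat_lit 0) (nat_lit 7587917372) (nat_lit 380) (nat_lit 5706201660) (nat_lit 76) (nat_lit 9995114391) (nat_lit 92) (nat_lit 5) (nat_lit 97) (nat_lit 5) (nat_lit 93) (nat_lit 5) (nat_lit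 507) (nat_lit 406) (nat_lit 227)) (XT.lf (nat_lit 0) (nat_lit 5185880919) (nat_lit 304) (nat_lit 6751409015) (nat_lit 380) (nat_lit 11677750906) (nat_lit 88) (nat_lit 5) (nat_lit 92) (nat_lit 5) (nat_lit 93) (nat_lit 5) (nat_lit 508) (nat_lit 406) (nat_lit 226)))) (XT.nd (nat_lit 156) (nat_lit 380) (nat_lit 0) (XT.nd (nat_lit 78) (nat_lit 228) (nat_lit 0) (XT.lf (nat_lit 0) (nat_lit 16361517204) (nat_lit 304) (nat_lit 42992556) (nat_lit 380) (nat_lit 7542240445) (nat_lit 88) (nat_lit 5) (nat_lit 92) (nat_lit 5) (nat_lit 93) (nat_lit 5) (nat_lit 509) (nat_lit 406) (nat_lit 225)) (XT.lf (nat_lit 0) (nat_lit 3465342866) (nat_lit 228) (nat_lit 17555065032) (nat_lit 304) (nat_lit 3263502114) (nat_lit 85) (nat_lit 5) (nat_lit 88) (nat_lit 5) (nat_lit 89) (nat_lit 5) (nat_lit 510) (nat_lit 406) (nat_lit 224))) (XT.nd (nat_lit 78) (nat_lit 304) (nat_lit 0) (XT.lf (nat_lit 0) (nat_lit 1130601720) (nat_lit 304) (nat_lit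 9806368549) (nat_lit 76) (nat_lit 13689818062) (nat_lit 84) (nat_lit 5) (nat_lit 88) (nat_lit 5) (nat_lit 85) (nat_lit 5) (nat_lit 511) (nat_lit 406) (nat_lit 223)) (XT.lf (nat_lit 0) (nat_lit 1411647365) (nat_lit 304) (nat_lit 4159296557) (nat_lit 380) (nat_lit 19405110534) (nat_lit 80) (nat_lit 5) (nat_lit 84) (nat_lit 5) (nat_lit 85) (nat_lit 5) (nat_lit 512) (nat_lit 406) (nat_lit 222))))))) (XT.nd (nat_lit 51324) (nat_lit 0) (nat_lit 29260) (XT.nd (nat_lit 546) (nat_lit 304) (nat_lit 0) (XT.nd (nat_lit 234) (nat_lit 608) (nat_lit 0) (XT.nd (nat_lit 78) (nat_lit 228) (nat_lit 0) (XT.lf (nat_lit 0) (nat_lit 10177103489) (nat_lit 380) (nat_lit 12373725297) (nat_lit 76) (nat_lit 2779939619) (nat_lit 80) (nat_lit 5) (nat_lit 85) (nat_lit 5) (nat_lit 81) (nat_lit 5) (nat_lit 513) (nat_lit 406) (nat_lit 221)) (XT.nd (nat_lit 78) (nat_lit 228) (nat_lit 0) (XT.lf (nat_lit 0) (nat_lit 14895959179) (nat_lit 380) (nat_lit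 997922788) (nat_lit 76) (nat_lit 9798285865) (nat_lit 80) (nat_lit 5) (nat_lit 85) (nat_lit 5) (nat_lit 81) (nat_lit 5) (nat_lit 514) (nat_lit 406) (nat_lit 220)) (XT.lf (nat_lit 0) (nat_lit 10735261326) (nat_lit 228) (nat_lit 9036795722) (nat_lit 304) (nat_lit 6287483505) (nat_lit 77) (nat_lit 5) (nat_lit 80) (nat_lit 5) (nat_lit 81) (nat_lit 5) (nat_lit 515) (nat_lit 406) (nat_lit 219)))) (XT.nd (nat_lit 156) (nat_lit 228) (nat_lit 0) (XT.nd (nat_lit 78) (nat_lit 380) (nat_lit 0) (XT.lf (nat_lit 0) (nat_lit 22705778808) (nat_lit 228) (nat_lit 2039822817) (nat_lit 304) (nat_lit 1688663163) (nat_lit 77) (nat_lit 5) (nat_lit 80) (nat_lit 5) (nat_lit 81) (nat_lit 5) (nat_lit 516) (nat_lit 406) (nat_lit 218)) (XT.lf (nat_lit 0) (nat_lit 3042708096) (nat_lit 380) (nat_lit 18672488005) (nat_lit 76) (nat_lit 5099301065) (nat_lit 72) (nat_lit 5) (nat_lit 77) (nat_lit 5) (nat_lit 73) (nat_lit 5) (nat_lit 517) (nat_lit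 406) (nat_lit 217))) (XT.nd (nat_lit 78) (nat_lit 228) (nat_lit 0) (XT.lf (nat_lit 0) (nat_lit 7878161384) (nat_lit 380) (nat_lit 6937010474) (nat_lit 76) (nat_lit 12386300184) (nat_lit 72) (nat_lit 5) (nat_lit 77) (nat_lit 5) (nat_lit 73) (nat_lit 5) (nat_lit 518) (nat_lit 406) (nat_lit 216)) (XT.lf (nat_lit 0) (nat_lit 5089361911) (nat_lit 228) (nat_lit 7747485836) (nat_lit 304) (nat_lit 14758810549) (nat_lit 69) (nat_lit 5) (nat_lit 72) (nat_lit 5) (nat_lit 73) (nat_lit 5) (nat_lit 519) (nat_lit 406) (nat_lit 215))))) (XT.nd (nat_lit 234) (nat_lit 76) (nat_lit 0) (XT.nd (nat_lit 78) (nat_lit 228) (nat_lit 0) (XT.lf (nat_lit 0) (nat_lit 17439801646) (nat_lit 228) (nat_lit 494997385) (nat_lit 304) (nat_lit 10062129735) (nat_lit 69) (nat_lit 5) (nat_lit 72) (nat_lit 5) (nat_lit 73) (nat_lit 5) (nat_lit 520) (nat_lit 406) (nat_lit 214)) (XT.nd (nat_lit 78) (nat_lit 0) (nat_lit 0) (XT.lf (nat_lit 0) (nat_lit 1596760849)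 (nat_lit 228) (nat_lit 21586772786) (nat_lit 304) (nat_lit 5221716793) (nat_lit 66) (nat_lit 5) (nat_lit 69) (nat_lit 5) (nat_lit 70) (nat_lit 5) (nat_lit 521) (nat_lit 406) (nat_lit 213)) (XT.lf (nat_lit 0) (nat_lit 14123187268) (nat_lit 228) (nat_lit 14481854958) (nat_lit 304) (nat_lit 215342534) (nat_lit 66) (nat_lit 5) (nat_lit 69) (nat_lit 5) (nat_lit 70) (nat_lit 5) (nat_lit 522) (nat_lit 406) (nat_lit 212)))) (XT.nd (nat_lit 50388) (nat_lit 0) (nat_lit 31768) (XT.nd (nat_lit 50310) (nat_lit 0) (nat_lit 31768) (XT.lf (nat_lit 0) (nat_lit 4820790119) (nat_lit 304) (nat_lit 2385640879) (nat_lit 76) (nat_lit 22036882202) (nat_lit 65) (nat_lit 5) (nat_lit 69) (nat_lit 5) (nat_lit 66) (nat_lit 5) (nat_lit 523) (nat_lit 406) (nat_lit 211)) (XT.lf (nat_lit 0) (nat_lit 28875203) (nat_lit 0) (nat_lit 28875203) (nat_lit 1292) (nat_lit 3871621725) (nat_lit 483) (nat_lit 5) (nat_lit 483) (nat_lit 3) (nat_lit 500) (nat_lit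 3) (nat_lit 407) (nat_lit 407) (nat_lit 326))) (XT.nd (nat_lit 78) (nat_lit 0) (nat_lit 0) (XT.lf (nat_lit 0) (nat_lit 1351695974) (nat_lit 1292) (nat_lit 4203745135) (nat_lit 1368) (nat_lit 2356076980) (nat_lit 483) (nat_lit 5) (nat_lit 500) (nat_lit 3) (nat_lit 501) (nat_lit 5) (nat_lit 408) (nat_lit 407) (nat_lit 325)) (XT.lf (nat_lit 0) (nat_lit 2581112375) (nat_lit 1292) (nat_lit 551701187) (nat_lit 1368) (nat_lit 4833193072) (nat_lit 483) (nat_lit 5) (nat_lit 500) (nat_lit 3) (nat_lit 501) (nat_lit 5) (nat_lit 409) (nat_lit 407) (nat_lit 324)))))) (XT.nd (nat_lit 546) (nat_lit 1292) (nat_lit 0) (XT.nd (nat_lit 234) (nat_lit 1216) (nat_lit 0) (XT.nd (nat_lit 78) (nat_lit 0) (nat_lit 76) (XT.lf (nat_lit 76) (nat_lit 3198899251) (nat_lit 0) (nat_lit 625727309) (nat_lit 1368) (nat_lit 4197196818) (nat_lit 484) (nat_lit 5) (nat_lit 483) (nat_lit 5) (nat_lit 501) (nat_lit 5) (nat_lit 410) (nat_lit 407) (nat_lit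 323)) (XT.nd (nat_lit 78) (nat_lit 0) (nat_lit 0) (XT.lf (nat_lit 0) (nat_lit 5078618971) (nat_lit 1292) (nat_lit 1076324498) (nat_lit 1368) (nat_lit 1924128885) (nat_lit 484) (nat_lit 5) (nat_lit 501) (nat_lit 5) (nat_lit 502) (nat_lit 5) (nat_lit 411) (nat_lit 407) (nat_lit 322)) (XT.lf (nat_lit 76) (nat_lit 2760535670) (nat_lit 0) (nat_lit 3589164476) (nat_lit 1368) (nat_lit 1787953490) (nat_lit 485) (nat_lit 5) (nat_lit 484) (nat_lit 5) (nat_lit 502) (nat_lit 5) (nat_lit 412) (nat_lit 407) (nat_lit 321)))) (XT.nd (nat_lit 156) (nat_lit 0) (nat_lit 0) (XT.nd (nat_lit 78) (nat_lit 1292) (nat_lit 0) (XT.lf (nat_lit 76) (nat_lit 6672100500) (nat_lit 0) (nat_lit 951748401) (nat_lit 1368) (nat_lit 574031691) (nat_lit 485) (nat_lit 5) (nat_lit 484) (nat_lit 5) (nat_lit 502) (nat_lit 5) (nat_lit 413) (nat_lit 407) (nat_lit 320)) (XT.lf (nat_lit 0) (nat_lit 653411543) (nat_lit 1368) (nat_lit 5857811784) (nat_lit 1444)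 (nat_lit 1748069361) (nat_lit 467) (nat_lit 5) (nat_lit 485) (nat_lit 5) (nat_lit 486) (nat_lit 5) (nat_lit 414) (nat_lit 407) (nat_lit 319))) (XT.nd (nat_lit 78) (nat_lit 0) (nat_lit 0) (XT.lf (nat_lit 0) (nat_lit 1885663112) (nat_lit 1368) (nat_lit 1921211083) (nat_lit 1444) (nat_lit 4515249441) (nat_lit 467) (nat_lit 5) (nat_lit 485) (nat_lit 5) (nat_lit 486) (nat_lit 5) (nat_lit 415) (nat_lit 407) (nat_lit 318)) (XT.lf (nat_lit 76) (nat_lit 2104785093) (nat_lit 0) (nat_lit 1023331460) (nat_lit 1444) (nat_lit 5258408426) (nat_lit 468) (nat_lit 5) (nat_lit 467) (nat_lit 5) (nat_lit 486) (nat_lit 5) (nat_lit 416) (nat_lit 407) (nat_lit 317))))) (XT.nd (nat_lit 234) (nat_lit 1368) (nat_lit 0) (XT.nd (nat_lit 78) (nat_lit 0) (nat_lit 0) (XT.lf (nat_lit 0) (nat_lit 4392590119) (nat_lit 1368) (nat_lit 2243965920) (nat_lit 1444) (nat_lit 1815739313) (nat_lit 468) (nat_lit 5) (nat_lit 486) (nat_lit 5) (nat_lit 487)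 (nat_lit 5) (nat_lit 417) (nat_lit 407) (nat_lit 316)) (XT.nd (nat_lit 78) (nat_lit 0) (nat_lit 0) (XT.lf (nat_lit 76) (nat_lit 1875245537) (nat_lit 0) (nat_lit 3799004522) (nat_lit 1444) (nat_lit 2845317081) (nat_lit 469) (nat_lit 5) (nat_lit 468) (nat_lit 5) (nat_lit 487) (nat_lit 5) (nat_lit 418) (nat_lit 407) (nat_lit 315)) (XT.lf (nat_lit 76) (nat_lit 6090236363) (nat_lit 0) (nat_lit 879729542) (nat_lit 1444) (nat_lit 1618473480) (nat_lit 469) (nat_lit 5) (nat_lit 468) (nat_lit 5) (nat_lit 487) (nat_lit 5) (nat_lit 419) (nat_lit 407) (nat_lit 314)))) (XT.nd (nat_lit 156) (nat_lit 0) (nat_lit 0) (XT.nd (nat_lit 78) (nat_lit 1444) (nat_lit 0) (XT.lf (nat_lit 76) (nat_lit 1722512728) (nat_lit 0) (nat_lit 6567836164) (nat_lit 1444) (nat_lit 368388142) (nat_lit 470) (nat_lit 5) (nat_lit 469) (nat_lit 5) (nat_lit 488) (nat_lit 5) (nat_lit 420) (nat_lit 407) (nat_lit 313)) (XT.lf (nat_lit 0) (nat_lit 891663771)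 (nat_lit 1444) (nat_lit 2697969605) (nat_lit 1520) (nat_lit 5140774516) (nat_lit 450) (nat_lit 5) (nat_lit 469) (nat_lit 5) (nat_lit 470) (nat_lit 5) (nat_lit 421) (nat_lit 407) (nat_lit 312))) (XT.nd (nat_lit 78) (nat_lit 0) (nat_lit 76) (XT.lf (nat_lit 76) (nat_lit 1626742701) (nat_lit 0) (nat_lit 530469658) (nat_lit 1520) (nat_lit 6646568230) (nat_lit 451) (nat_lit 5) (nat_lit 450) (nat_lit 5) (nat_lit 470) (nat_lit 5) (nat_lit 422) (nat_lit 407) (nat_lit 311)) (XT.lf (nat_lit 0) (nat_lit 3458210586) (nat_lit 1444) (nat_lit 2838333837) (nat_lit 1520) (nat_lit 2581894807) (nat_lit 451) (nat_lit 5) (nat_lit 470) (nat_lit 5) (nat_lit 471) (nat_lit 5) (nat_lit 423) (nat_lit 407) (nat_lit 310))))))))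
noncomputable def xc166 : XT := (XT.nd (nat_lit 2184) (nat_lit 8512) (nat_lit 0) (XT.nd (nat_lit 1092) (nat_lit 6992) (nat_lit 0) (XT.nd (nat_lit 546) (nat_lit 4788) (nat_lit 0) (XT.nd (nat_lit 234) (nat_lit 1368) (nat_lit 0) (XT.nd (nat_lit 78) (nat_lit 0) (nat_lit 76) (XT.lf (nat_lit 76) (nat_lit 1587132033) (nat_lit 0) (nat_lit 3187501528) (nat_lit 1520) (nat_lit 4180190231) (nat_lit 452) (nat_lit 5) (nat_lit 451) (nat_lit 5) (nat_lit 471) (nat_lit 5) (nat_lit 424) (nat_lit 407) (nat_lit 309)) (XT.nd (nat_lit 78) (nat_lit 0) (nat_lit 0) (XT.lf (nat_lit 0) (nat_lit 6112450639) (nat_lit 1444) (nat_lit 2910540608) (nat_lit 1520) (nat_lit 9863924) (nat_lit 452) (nat_lit 5) (nat_lit 471) (nat_lit 5) (nat_lit 472) (nat_lit 5) (nat_lit 425) (nat_lit 407) (nat_lit 308)) (XT.lf (nat_lit 76) (nat_lit 1618472184) (nat_lit 0) (nat_lit 5866638446) (nat_lit 1520) (nat_lit 1627194853) (nat_lit 453) (nat_lit 5) (nat_lit 452)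 (nat_lit 5) (nat_lit 472) (nat_lit 5) (nat_lit 426) (nat_lit 407) (nat_lit 307)))) (XT.nd (nat_lit 156) (nat_lit 0) (nat_lit 0) (XT.nd (nat_lit 78) (nat_lit 1444) (nat_lit 0) (XT.lf (nat_lit 76) (nat_lit 6260234187) (nat_lit 0) (nat_lit 2621339158) (nat_lit 1520) (nat_lit 311864108) (nat_lit 453) (nat_lit 5) (nat_lit 452) (nat_lit 5) (nat_lit 472) (nat_lit 5) (nat_lit 427) (nat_lit 407) (nat_lit 306)) (XT.lf (nat_lit 0) (nat_lit 1009147356) (nat_lit 1520) (nat_lit 7563732992) (nat_lit 1596) (nat_lit 703339282) (nat_lit 433) (nat_lit 5) (nat_lit 453) (nat_lit 5) (nat_lit 454) (nat_lit 5) (nat_lit 428) (nat_lit 407) (nat_lit 305))) (XT.nd (nat_lit 78) (nat_lit 0) (nat_lit 0) (XT.lf (nat_lit 0) (nat_lit 2367056601) (nat_lit 1520) (nat_lit 2906628262) (nat_lit 1596) (nat_lit 4086656801) (nat_lit 433) (nat_lit 5) (nat_lit 453) (nat_lit 5) (nat_lit 454) (nat_lit 5) (nat_lit 429) (nat_lit 407) (nat_lit 304)) (XT.lf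 (nat_lit 76) (nat_lit 1850575840) (nat_lit 0) (nat_lit 1891480959) (nat_lit 1596) (nat_lit 5704308833) (nat_lit 434) (nat_lit 5) (nat_lit 433) (nat_lit 5) (nat_lit 454) (nat_lit 5) (nat_lit 430) (nat_lit 407) (nat_lit 303))))) (XT.nd (nat_lit 234) (nat_lit 3344) (nat_lit 0) (XT.nd (nat_lit 78) (nat_lit 1520) (nat_lit 0) (XT.lf (nat_lit 0) (nat_lit 5152577670) (nat_lit 1520) (nat_lit 2819325050) (nat_lit 76) (nat_lit 1562064737) (nat_lit 434) (nat_lit 5) (nat_lit 454) (nat_lit 5) (nat_lit 435) (nat_lit 5) (nat_lit 431) (nat_lit 407) (nat_lit 302)) (XT.nd (nat_lit 78) (nat_lit 0) (nat_lit 0) (XT.lf (nat_lit 0) (nat_lit 2049689291) (nat_lit 1520) (nat_lit 4546148617) (nat_lit 1596) (nat_lit 3027410275) (nat_lit 414) (nat_lit 5) (nat_lit 434) (nat_lit 5) (nat_lit 435) (nat_lit 5) (nat_lit 432) (nat_lit 407) (nat_lit 301)) (XT.lf (nat_lit 0) (nat_lit 7037079285) (nat_lit 1520) (nat_lit 1028803806) (nat_lit 1596) (nat_lit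 1648490138) (nat_lit 414) (nat_lit 5) (nat_lit 434) (nat_lit 5) (nat_lit 435) (nat_lit 5) (nat_lit 433) (nat_lit 407) (nat_lit 300)))) (XT.nd (nat_lit 156) (nat_lit 1672) (nat_lit 0) (XT.nd (nat_lit 78) (nat_lit 76) (nat_lit 0) (XT.lf (nat_lit 0) (nat_lit 2313285234) (nat_lit 1596) (nat_lit 7263113709) (nat_lit 1672) (nat_lit 230717203) (nat_lit 393) (nat_lit 5) (nat_lit 414) (nat_lit 5) (nat_lit 415) (nat_lit 5) (nat_lit 434) (nat_lit 407) (nat_lit 299)) (XT.lf (nat_lit 0) (nat_lit 1203946458) (nat_lit 1672) (nat_lit 2493720376) (nat_lit 76) (nat_lit 6203815866) (nat_lit 392) (nat_lit 5) (nat_lit 414) (nat_lit 5) (nat_lit 393) (nat_lit 5) (nat_lit 435) (nat_lit 407) (nat_lit 298))) (XT.nd (nat_lit 78) (nat_lit 0) (nat_lit 0) (XT.lf (nat_lit 0) (nat_lit 2622087225) (nat_lit 1672) (nat_lit 39131830) (nat_lit 1748) (nat_lit 7336562729) (nat_lit 370) (nat_lit 5) (nat_lit 392) (nat_lit 5) (nat_lit 393) (nat_lit 5)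 (nat_lit 436) (nat_lit 407) (nat_lit 297)) (XT.lf (nat_lit 0) (nat_lit 4168733805) (nat_lit 1748) (nat_lit 2263224779) (nat_lit 76) (nat_lit 3663641819) (nat_lit 370) (nat_lit 5) (nat_lit 393) (nat_lit 5) (nat_lit 371) (nat_lit 5) (nat_lit 437) (nat_lit 407) (nat_lit 296)))))) (XT.nd (nat_lit 546) (nat_lit 3116) (nat_lit 0) (XT.nd (nat_lit 234) (nat_lit 1748) (nat_lit 0) (XT.nd (nat_lit 78) (nat_lit 836) (nat_lit 0) (XT.lf (nat_lit 0) (nat_lit 2973089448) (nat_lit 1292) (nat_lit 2733535610) (nat_lit 1368) (nat_lit 4488760998) (nat_lit 353) (nat_lit 5) (nat_lit 370) (nat_lit 5) (nat_lit 371) (nat_lit 5) (nat_lit 438) (nat_lit 407) (nat_lit 295)) (XT.nd (nat_lit 78) (nat_lit 836) (nat_lit 0) (XT.lf (nat_lit 0) (nat_lit 7278252732) (nat_lit 1368) (nat_lit 1976335771) (nat_lit 76) (nat_lit 1042534235) (nat_lit 353) (nat_lit 5) (nat_lit 371) (nat_lit 5) (nat_lit 354) (nat_lit 5) (nat_lit 439) (nat_lit 407) (nat_lit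 294)) (XT.lf (nat_lit 0) (nat_lit 3383726298) (nat_lit 836) (nat_lit 5518978201) (nat_lit 912) (nat_lit 1497776419) (nat_lit 342) (nat_lit 5) (nat_lit 353) (nat_lit 5) (nat_lit 354) (nat_lit 5) (nat_lit 440) (nat_lit 407) (nat_lit 293)))) (XT.nd (nat_lit 156) (nat_lit 836) (nat_lit 0) (XT.nd (nat_lit 78) (nat_lit 836) (nat_lit 0) (XT.lf (nat_lit 0) (nat_lit 47823484) (nat_lit 912) (nat_lit 1645539911) (nat_lit 76) (nat_lit 8812654133) (nat_lit 341) (nat_lit 5) (nat_lit 353) (nat_lit 5) (nat_lit 342) (nat_lit 5) (nat_lit 441) (nat_lit 407) (nat_lit 292)) (XT.lf (nat_lit 0) (nat_lit 1625723980) (nat_lit 912) (nat_lit 6771064029) (nat_lit 76) (nat_lit 2216263732) (nat_lit 330) (nat_lit 5) (nat_lit 342) (nat_lit 5) (nat_lit 331) (nat_lit 5) (nat_lit 442) (nat_lit 407) (nat_lit 291))) (XT.nd (nat_lit 78) (nat_lit 836) (nat_lit 0) (XT.lf (nat_lit 0) (nat_lit 3239570765) (nat_lit 912) (nat_lit 1288893848) (nat_lit 76)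 (nat_lit 6193687744) (nat_lit 330) (nat_lit 5) (nat_lit 342) (nat_lit 5) (nat_lit 331) (nat_lit 5) (nat_lit 443) (nat_lit 407) (nat_lit 290)) (XT.lf (nat_lit 0) (nat_lit 4343044032) (nat_lit 836) (nat_lit 553258556) (nat_lit 912) (nat_lit 5936933454) (nat_lit 319) (nat_lit 5) (nat_lit 330) (nat_lit 5) (nat_lit 331) (nat_lit 5) (nat_lit 444) (nat_lit 407) (nat_lit 289))))) (XT.nd (nat_lit 234) (nat_lit 2280) (nat_lit 0) (XT.nd (nat_lit 78) (nat_lit 836) (nat_lit 0) (XT.lf (nat_lit 0) (nat_lit 6600259804) (nat_lit 912) (nat_lit 881156339) (nat_lit 76) (nat_lit 3464856405) (nat_lit 319) (nat_lit 5) (nat_lit 331) (nat_lit 5) (nat_lit 320) (nat_lit 5) (nat_lit 445) (nat_lit 407) (nat_lit 288)) (XT.nd (nat_lit 78) (nat_lit 0) (nat_lit 0) (XT.lf (nat_lit 0) (nat_lit 4883692805) (nat_lit 836) (nat_lit 3472966252) (nat_lit 912) (nat_lit 2704556173) (nat_lit 308) (nat_lit 5) (nat_lit 319) (nat_lit 5) (nat_lit 320) (nat_lit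 5) (nat_lit 446) (nat_lit 407) (nat_lit 287)) (XT.lf (nat_lit 0) (nat_lit 10141352826) (nat_lit 912) (nat_lit 423584258) (nat_lit 76) (nat_lit 613668810) (nat_lit 308) (nat_lit 5) (nat_lit 320) (nat_lit 5) (nat_lit 309) (nat_lit 5) (nat_lit 447) (nat_lit 407) (nat_lit 286)))) (XT.nd (nat_lit 156) (nat_lit 684) (nat_lit 0) (XT.nd (nat_lit 78) (nat_lit 760) (nat_lit 0) (XT.lf (nat_lit 0) (nat_lit 697072635) (nat_lit 836) (nat_lit 5824487021) (nat_lit 76) (nat_lit 4775863003) (nat_lit 297) (nat_lit 5) (nat_lit 308) (nat_lit 5) (nat_lit 298) (nat_lit 5) (nat_lit 448) (nat_lit 407) (nat_lit 285)) (XT.lf (nat_lit 0) (nat_lit 51578284) (nat_lit 760) (nat_lit 2387468924) (nat_lit 836) (nat_lit 8979706141) (nat_lit 287) (nat_lit 5) (nat_lit 297) (nat_lit 5) (nat_lit 298) (nat_lit 5) (nat_lit 449) (nat_lit 407) (nat_lit 284))) (XT.nd (nat_lit 78) (nat_lit 684) (nat_lit 0) (XT.lf (nat_lit 0) (nat_lit 4250933679) (nat_lit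 836) (nat_lit 5446747069) (nat_lit 76) (nat_lit 1844139964) (nat_lit 287) (nat_lit 5) (nat_lit 298) (nat_lit 5) (nat_lit 288) (nat_lit 5) (nat_lit 450) (nat_lit 407) (nat_lit 283)) (XT.lf (nat_lit 0) (nat_lit 567049133) (nat_lit 684) (nat_lit 5535669240) (nat_lit 760) (nat_lit 5564569124) (nat_lit 278) (nat_lit 5) (nat_lit 287) (nat_lit 5) (nat_lit 288) (nat_lit 5) (nat_lit 451) (nat_lit 407) (nat_lit 282))))))) (XT.nd (nat_lit 1092) (nat_lit 3800) (nat_lit 0) (XT.nd (nat_lit 546) (nat_lit 2508) (nat_lit 0) (XT.nd (nat_lit 234) (nat_lit 1444) (nat_lit 0) (XT.nd (nat_lit 78) (nat_lit 760) (nat_lit 0) (XT.lf (nat_lit 0) (nat_lit 6758396743) (nat_lit 684) (nat_lit 1254063279) (nat_lit 760) (nat_lit 3782396231) (nat_lit 278) (nat_lit 5) (nat_lit 287) (nat_lit 5) (nat_lit 288) (nat_lit 5) (nat_lit 452) (nat_lit 407) (nat_lit 281)) (XT.nd (nat_lit 78) (nat_lit 0) (nat_lit 0) (XT.lf (nat_lit 0) (nat_lit 1126614510)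 (nat_lit 760) (nat_lit 8845980792) (nat_lit 836) (nat_lit 1952147951) (nat_lit 268) (nat_lit 5) (nat_lit 278) (nat_lit 5) (nat_lit 279) (nat_lit 5) (nat_lit 453) (nat_lit 407) (nat_lit 280)) (XT.lf (nat_lit 0) (nat_lit 7456370595) (nat_lit 760) (nat_lit 4542475539) (nat_lit 836) (nat_lit 57854236) (nat_lit 268) (nat_lit 5) (nat_lit 278) (nat_lit 5) (nat_lit 279) (nat_lit 5) (nat_lit 454) (nat_lit 407) (nat_lit 279)))) (XT.nd (nat_lit 156) (nat_lit 684) (nat_lit 0) (XT.nd (nat_lit 78) (nat_lit 0) (nat_lit 0) (XT.lf (nat_lit 0) (nat_lit 1715432886) (nat_lit 684) (nat_lit 130501424) (nat_lit 760) (nat_lit 10345205327) (nat_lit 258) (nat_lit 5) (nat_lit 267) (nat_lit 5) (nat_lit 268) (nat_lit 5) (nat_lit 455) (nat_lit 407) (nat_lit 278)) (XT.lf (nat_lit 0) (nat_lit 3831702528) (nat_lit 760) (nat_lit 4153248957) (nat_lit 76) (nat_lit 4342425005) (nat_lit 258) (nat_lit 5) (nat_lit 268) (nat_lit 5) (nat_lit 259) (nat_lit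 5) (nat_lit 456) (nat_lit 407) (nat_lit 277))) (XT.nd (nat_lit 78) (nat_lit 0) (nat_lit 0) (XT.lf (nat_lit 0) (nat_lit 2308889453) (nat_lit 684) (nat_lit 3549673020) (nat_lit 760) (nat_lit 6607757902) (nat_lit 249) (nat_lit 5) (nat_lit 258) (nat_lit 5) (nat_lit 259) (nat_lit 5) (nat_lit 457) (nat_lit 407) (nat_lit 276)) (XT.lf (nat_lit 0) (nat_lit 7946029765) (nat_lit 760) (nat_lit 3673790523) (nat_lit 76) (nat_lit 987831077) (nat_lit 249) (nat_lit 5) (nat_lit 259) (nat_lit 5) (nat_lit 250) (nat_lit 5) (nat_lit 458) (nat_lit 407) (nat_lit 275))))) (XT.nd (nat_lit 234) (nat_lit 1216) (nat_lit 0) (XT.nd (nat_lit 78) (nat_lit 684) (nat_lit 0) (XT.lf (nat_lit 0) (nat_lit 2938511509) (nat_lit 608) (nat_lit 7165291245) (nat_lit 684) (nat_lit 2647444534) (nat_lit 241) (nat_lit 5) (nat_lit 249) (nat_lit 5) (nat_lit 250) (nat_lit 5) (nat_lit 459) (nat_lit 407) (nat_lit 274)) (XT.nd (nat_lit 78) (nat_lit 684) (nat_lit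 0) (XT.lf (nat_lit 0) (nat_lit 9716921809) (nat_lit 608) (nat_lit 2598603910) (nat_lit 684) (nat_lit 581982777) (nat_lit 241) (nat_lit 5) (nat_lit 249) (nat_lit 5) (nat_lit 250) (nat_lit 5) (nat_lit 460) (nat_lit 407) (nat_lit 273)) (XT.lf (nat_lit 0) (nat_lit 1528093590) (nat_lit 684) (nat_lit 9454108538) (nat_lit 76) (nat_lit 2063837631) (nat_lit 232) (nat_lit 5) (nat_lit 241) (nat_lit 5) (nat_lit 233) (nat_lit 5) (nat_lit 461) (nat_lit 407) (nat_lit 272)))) (XT.nd (nat_lit 156) (nat_lit 608) (nat_lit 0) (XT.nd (nat_lit 78) (nat_lit 608) (nat_lit 0) (XT.lf (nat_lit 0) (nat_lit 3697746435) (nat_lit 684) (nat_lit 2691282523) (nat_lit 76) (nat_lit 6807941121) (nat_lit 232) (nat_lit 5) (nat_lit 241) (nat_lit 5) (nat_lit 233) (nat_lit 5) (nat_lit 462) (nat_lit 407) (nat_lit 271)) (XT.lf (nat_lit 0) (nat_lit 4246835190) (nat_lit 608) (nat_lit 1678262140) (nat_lit 684) (nat_lit 7425544125) (nat_lit 224) (nat_lit 5)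 (nat_lit 232) (nat_lit 5) (nat_lit 233) (nat_lit 5) (nat_lit 463) (nat_lit 407) (nat_lit 270))) (XT.nd (nat_lit 78) (nat_lit 608) (nat_lit 0) (XT.lf (nat_lit 0) (nat_lit 8222350460) (nat_lit 684) (nat_lit 2183063542) (nat_lit 76) (nat_lit 3101473536) (nat_lit 224) (nat_lit 5) (nat_lit 233) (nat_lit 5) (nat_lit 225) (nat_lit 5) (nat_lit 464) (nat_lit 407) (nat_lit 269)) (XT.lf (nat_lit 0) (nat_lit 4913922339) (nat_lit 608) (nat_lit 5681777379) (nat_lit 684) (nat_lit 3069964023) (nat_lit 216) (nat_lit 5) (nat_lit 224) (nat_lit 5) (nat_lit 225) (nat_lit 5) (nat_lit 465) (nat_lit 407) (nat_lit 268)))))) (XT.nd (nat_lit 546) (nat_lit 2128) (nat_lit 0) (XT.nd (nat_lit 234) (nat_lit 1064) (nat_lit 0) (XT.nd (nat_lit 78) (nat_lit 608) (nat_lit 0) (XT.lf (nat_lit 0) (nat_lit 12167037590) (nat_lit 608) (nat_lit 851412487) (nat_lit 684) (nat_lit 809134766) (nat_lit 216) (nat_lit 5) (nat_lit 224) (nat_lit 5) (nat_lit 225)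 (nat_lit 5) (nat_lit 466) (nat_lit 407) (nat_lit 267)) (XT.nd (nat_lit 78) (nat_lit 0) (nat_lit 0) (XT.lf (nat_lit 0) (nat_lit 1527968603) (nat_lit 608) (nat_lit 8397628651) (nat_lit 76) (nat_lit 4065946684) (nat_lit 208) (nat_lit 5) (nat_lit 216) (nat_lit 5) (nat_lit 209) (nat_lit 5) (nat_lit 467) (nat_lit 407) (nat_lit 266)) (XT.lf (nat_lit 0) (nat_lit 3905418593) (nat_lit 608) (nat_lit 1169066188) (nat_lit 76) (nat_lit 9084109282) (nat_lit 208) (nat_lit 5) (nat_lit 216) (nat_lit 5) (nat_lit 209) (nat_lit 5) (nat_lit 468) (nat_lit 407) (nat_lit 265)))) (XT.nd (nat_lit 156) (nat_lit 532) (nat_lit 0) (XT.nd (nat_lit 78) (nat_lit 0) (nat_lit 0) (XT.lf (nat_lit 0) (nat_lit 6271205439) (nat_lit 532) (nat_lit 87745932) (nat_lit 608) (nat_lit 7969470588) (nat_lit 201) (nat_lit 5) (nat_lit 208) (nat_lit 5) (nat_lit 209) (nat_lit 5) (nat_lit 469) (nat_lit 407) (nat_lit 264)) (XT.lf (nat_lit 0) (nat_lit 8889845975) (nat_lit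 608) (nat_lit 673106539) (nat_lit 76) (nat_lit 4938135372) (nat_lit 201) (nat_lit 5) (nat_lit 209) (nat_lit 5) (nat_lit 202) (nat_lit 5) (nat_lit 470) (nat_lit 407) (nat_lit 263))) (XT.nd (nat_lit 78) (nat_lit 0) (nat_lit 0) (XT.lf (nat_lit 0) (nat_lit 6934105883) (nat_lit 532) (nat_lit 4571030100) (nat_lit 608) (nat_lit 3171402755) (nat_lit 194) (nat_lit 5) (nat_lit 201) (nat_lit 5) (nat_lit 202) (nat_lit 5) (nat_lit 471) (nat_lit 407) (nat_lit 262)) (XT.lf (nat_lit 0) (nat_lit 14168950144) (nat_lit 608) (nat_lit 171295148) (nat_lit 76) (nat_lit 515335963) (nat_lit 194) (nat_lit 5) (nat_lit 202) (nat_lit 5) (nat_lit 195) (nat_lit 5) (nat_lit 472) (nat_lit 407) (nat_lit 261))))) (XT.nd (nat_lit 234) (nat_lit 1064) (nat_lit 0) (XT.nd (nat_lit 78) (nat_lit 456) (nat_lit 0) (XT.lf (nat_lit 0) (nat_lit 1892220959) (nat_lit 608) (nat_lit 7443316815) (nat_lit 76) (nat_lit 5701061248) (nat_lit 186) (nat_lit 5) (nat_lit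 194) (nat_lit 5) (nat_lit 187) (nat_lit 5) (nat_lit 473) (nat_lit 407) (nat_lit 260)) (XT.nd (nat_lit 78) (nat_lit 0) (nat_lit 0) (XT.lf (nat_lit 0) (nat_lit 278528256) (nat_lit 456) (nat_lit 4226470134) (nat_lit 532) (nat_lit 10716323747) (nat_lit 180) (nat_lit 5) (nat_lit 186) (nat_lit 5) (nat_lit 187) (nat_lit 5) (nat_lit 474) (nat_lit 407) (nat_lit 259)) (XT.lf (nat_lit 0) (nat_lit 7215379048) (nat_lit 532) (nat_lit 7174700508) (nat_lit 76) (nat_lit 1018759685) (nat_lit 180) (nat_lit 5) (nat_lit 187) (nat_lit 5) (nat_lit 181) (nat_lit 5) (nat_lit 475) (nat_lit 407) (nat_lit 258)))) (XT.nd (nat_lit 156) (nat_lit 532) (nat_lit 0) (XT.nd (nat_lit 78) (nat_lit 0) (nat_lit 0) (XT.lf (nat_lit 0) (nat_lit 715500258) (nat_lit 532) (nat_lit 9285998981) (nat_lit 608) (nat_lit 5598183162) (nat_lit 173) (nat_lit 5) (nat_lit 180) (nat_lit 5) (nat_lit 181) (nat_lit 5) (nat_lit 476) (nat_lit 407) (nat_lit 257)) (XT.lf (nat_lit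 0) (nat_lit 8846207846) (nat_lit 532) (nat_lit 4034299788) (nat_lit 608) (nat_lit 2913097704) (nat_lit 173) (nat_lit 5) (nat_lit 180) (nat_lit 5) (nat_lit 181) (nat_lit 5) (nat_lit 477) (nat_lit 407) (nat_lit 256))) (XT.nd (nat_lit 78) (nat_lit 76) (nat_lit 0) (XT.lf (nat_lit 0) (nat_lit 1140022860) (nat_lit 456) (nat_lit 14682273582) (nat_lit 532) (nat_lit 169012394) (nat_lit 167) (nat_lit 5) (nat_lit 173) (nat_lit 5) (nat_lit 174) (nat_lit 5) (nat_lit 478) (nat_lit 407) (nat_lit 255)) (XT.lf (nat_lit 0) (nat_lit 2658362949) (nat_lit 532) (nat_lit 6767288933) (nat_lit 76) (nat_lit 6765720870) (nat_lit 166) (nat_lit 5) (nat_lit 173) (nat_lit 5) (nat_lit 167) (nat_lit 5) (nat_lit 479) (nat_lit 407) (nat_lit 254))))))))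
noncomputable def xc167 : XT := (XT.nd (nat_lit 2184) (nat_lit 2052) (nat_lit 0) (XT.nd (nat_lit 1092) (nat_lit 2508) (nat_lit 0) (XT.nd (nat_lit 546) (nat_lit 1292) (nat_lit 0) (XT.nd (nat_lit 234) (nat_lit 912) (nat_lit 0) (XT.nd (nat_lit 78) (nat_lit 456) (nat_lit 0) (XT.lf (nat_lit 0) (nat_lit 1482477415) (nat_lit 456) (nat_lit 4056637355) (nat_lit 532) (nat_lit 10856324746) (nat_lit 160) (nat_lit 5) (nat_lit 166) (nat_lit 5) (nat_lit 167) (nat_lit 5) (nat_lit 480) (nat_lit 407) (nat_lit 253)) (XT.nd (nat_lit 78) (nat_lit 456) (nat_lit 0) (XT.lf (nat_lit 0) (nat_lit 8521967764) (nat_lit 532) (nat_lit 6637557207) (nat_lit 76) (nat_lit 1443178564) (nat_lit 160) (nat_lit 5) (nat_lit 167) (nat_lit 5) (nat_lit 161) (nat_lit 5) (nat_lit 481) (nat_lit 407) (nat_lit 252)) (XT.lf (nat_lit 0) (nat_lit 1785862985) (nat_lit 456) (nat_lit 9806835100) (nat_lit 532) (nat_lit 5220855875) (nat_lit 154) (nat_lit 5) (nat_lit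 160) (nat_lit 5) (nat_lit 161) (nat_lit 5) (nat_lit 482) (nat_lit 407) (nat_lit 251)))) (XT.nd (nat_lit 156) (nat_lit 380) (nat_lit 0) (XT.nd (nat_lit 78) (nat_lit 532) (nat_lit 0) (XT.lf (nat_lit 0) (nat_lit 10453768281) (nat_lit 456) (nat_lit 4305486509) (nat_lit 532) (nat_lit 2268683790) (nat_lit 154) (nat_lit 5) (nat_lit 160) (nat_lit 5) (nat_lit 161) (nat_lit 5) (nat_lit 483) (nat_lit 407) (nat_lit 250)) (XT.lf (nat_lit 0) (nat_lit 744719247) (nat_lit 532) (nat_lit 15198274051) (nat_lit 76) (nat_lit 1303287868) (nat_lit 147) (nat_lit 5) (nat_lit 154) (nat_lit 5) (nat_lit 148) (nat_lit 5) (nat_lit 484) (nat_lit 407) (nat_lit 249))) (XT.nd (nat_lit 78) (nat_lit 380) (nat_lit 0) (XT.lf (nat_lit 0) (nat_lit 3851042476) (nat_lit 532) (nat_lit 6594104082) (nat_lit 76) (nat_lit 7022288640) (nat_lit 147) (nat_lit 5) (nat_lit 154) (nat_lit 5) (nat_lit 148) (nat_lit 5) (nat_lit 485) (nat_lit 407) (nat_lit 248)) (XT.lf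 (nat_lit 0) (nat_lit 2197331628) (nat_lit 380) (nat_lit 4826701538) (nat_lit 456) (nat_lit 10668893334) (nat_lit 142) (nat_lit 5) (nat_lit 147) (nat_lit 5) (nat_lit 148) (nat_lit 5) (nat_lit 486) (nat_lit 407) (nat_lit 247))))) (XT.nd (nat_lit 234) (nat_lit 836) (nat_lit 0) (XT.nd (nat_lit 78) (nat_lit 456) (nat_lit 0) (XT.lf (nat_lit 0) (nat_lit 10301248454) (nat_lit 456) (nat_lit 6687943144) (nat_lit 76) (nat_lit 932925645) (nat_lit 142) (nat_lit 5) (nat_lit 148) (nat_lit 5) (nat_lit 143) (nat_lit 5) (nat_lit 487) (nat_lit 407) (nat_lit 246)) (XT.nd (nat_lit 78) (nat_lit 0) (nat_lit 0) (XT.lf (nat_lit 0) (nat_lit 2280354715) (nat_lit 456) (nat_lit 11400964733) (nat_lit 532) (nat_lit 4473830940) (nat_lit 136) (nat_lit 5) (nat_lit 142) (nat_lit 5) (nat_lit 143) (nat_lit 5) (nat_lit 488) (nat_lit 407) (nat_lit 245)) (XT.lf (nat_lit 0) (nat_lit 11505314589) (nat_lit 456) (nat_lit 5659196531) (nat_lit 532) (nat_lit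 1227627412) (nat_lit 136) (nat_lit 5) (nat_lit 142) (nat_lit 5) (nat_lit 143) (nat_lit 5) (nat_lit 489) (nat_lit 407) (nat_lit 244)))) (XT.nd (nat_lit 156) (nat_lit 380) (nat_lit 0) (XT.nd (nat_lit 78) (nat_lit 0) (nat_lit 0) (XT.lf (nat_lit 0) (nat_lit 2063206127) (nat_lit 456) (nat_lit 16350822190) (nat_lit 76) (nat_lit 219431483) (nat_lit 130) (nat_lit 5) (nat_lit 136) (nat_lit 5) (nat_lit 131) (nat_lit 5) (nat_lit 490) (nat_lit 407) (nat_lit 243)) (XT.lf (nat_lit 0) (nat_lit 5478259984) (nat_lit 456) (nat_lit 7209056852) (nat_lit 76) (nat_lit 6190635980) (nat_lit 130) (nat_lit 5) (nat_lit 136) (nat_lit 5) (nat_lit 131) (nat_lit 5) (nat_lit 491) (nat_lit 407) (nat_lit 242))) (XT.nd (nat_lit 78) (nat_lit 0) (nat_lit 0) (XT.lf (nat_lit 0) (nat_lit 2130445166) (nat_lit 380) (nat_lit 6836009682) (nat_lit 456) (nat_lit 10160788407) (nat_lit 125) (nat_lit 5) (nat_lit 130) (nat_lit 5) (nat_lit 131) (nat_lit 5) (nat_lit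 492) (nat_lit 407) (nat_lit 241)) (XT.lf (nat_lit 0) (nat_lit 11741503880) (nat_lit 380) (nat_lit 822386179) (nat_lit 456) (nat_lit 6816844192) (nat_lit 125) (nat_lit 5) (nat_lit 130) (nat_lit 5) (nat_lit 131) (nat_lit 5) (nat_lit 493) (nat_lit 407) (nat_lit 240)))))) (XT.nd (nat_lit 546) (nat_lit 1064) (nat_lit 0) (XT.nd (nat_lit 234) (nat_lit 684) (nat_lit 0) (XT.nd (nat_lit 78) (nat_lit 456) (nat_lit 0) (XT.lf (nat_lit 0) (nat_lit 1882843783) (nat_lit 304) (nat_lit 14388389295) (nat_lit 380) (nat_lit 3367306997) (nat_lit 121) (nat_lit 5) (nat_lit 125) (nat_lit 5) (nat_lit 126) (nat_lit 5) (nat_lit 494) (nat_lit 407) (nat_lit 239)) (XT.nd (nat_lit 78) (nat_lit 380) (nat_lit 0) (XT.lf (nat_lit 0) (nat_lit 197562526) (nat_lit 380) (nat_lit 8221221454) (nat_lit 76) (nat_lit 11481735932) (nat_lit 120) (nat_lit 5) (nat_lit 125) (nat_lit 5) (nat_lit 121) (nat_lit 5) (nat_lit 495) (nat_lit 407) (nat_lit 238)) (XT.lf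 (nat_lit 0) (nat_lit 1488529561) (nat_lit 380) (nat_lit 2301265229) (nat_lit 456) (nat_lit 16377480276) (nat_lit 115) (nat_lit 5) (nat_lit 120) (nat_lit 5) (nat_lit 121) (nat_lit 5) (nat_lit 496) (nat_lit 407) (nat_lit 237)))) (XT.nd (nat_lit 156) (nat_lit 380) (nat_lit 0) (XT.nd (nat_lit 78) (nat_lit 304) (nat_lit 0) (XT.lf (nat_lit 0) (nat_lit 7526484412) (nat_lit 456) (nat_lit 8972982075) (nat_lit 76) (nat_lit 3938450454) (nat_lit 115) (nat_lit 5) (nat_lit 121) (nat_lit 5) (nat_lit 116) (nat_lit 5) (nat_lit 497) (nat_lit 407) (nat_lit 236)) (XT.lf (nat_lit 0) (nat_lit 911156278) (nat_lit 304) (nat_lit 10439580687) (nat_lit 380) (nat_lit 9362981902) (nat_lit 111) (nat_lit 5) (nat_lit 115) (nat_lit 5) (nat_lit 116) (nat_lit 5) (nat_lit 498) (nat_lit 407) (nat_lit 235))) (XT.nd (nat_lit 78) (nat_lit 380) (nat_lit 0) (XT.lf (nat_lit 0) (nat_lit 11102240284) (nat_lit 304) (nat_lit 4201203828) (nat_lit 380) (nat_lit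 5690557052) (nat_lit 111) (nat_lit 5) (nat_lit 115) (nat_lit 5) (nat_lit 116) (nat_lit 5) (nat_lit 499) (nat_lit 407) (nat_lit 234)) (XT.lf (nat_lit 0) (nat_lit 193493032) (nat_lit 380) (nat_lit 19148896909) (nat_lit 456) (nat_lit 1937359123) (nat_lit 106) (nat_lit 5) (nat_lit 111) (nat_lit 5) (nat_lit 112) (nat_lit 5) (nat_lit 500) (nat_lit 407) (nat_lit 233))))) (XT.nd (nat_lit 234) (nat_lit 684) (nat_lit 0) (XT.nd (nat_lit 78) (nat_lit 304) (nat_lit 0) (XT.lf (nat_lit 0) (nat_lit 1952658977) (nat_lit 456) (nat_lit 11008181074) (nat_lit 76) (nat_lit 8608398724) (nat_lit 105) (nat_lit 5) (nat_lit 111) (nat_lit 5) (nat_lit 106) (nat_lit 5) (nat_lit 501) (nat_lit 407) (nat_lit 232)) (XT.nd (nat_lit 78) (nat_lit 304) (nat_lit 0) (XT.lf (nat_lit 0) (nat_lit 5886633670) (nat_lit 456) (nat_lit 753428773) (nat_lit 76) (nat_lit 15224361209) (nat_lit 105) (nat_lit 5) (nat_lit 111) (nat_lit 5) (nat_lit 106) (nat_lit 5)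 (nat_lit 502) (nat_lit 407) (nat_lit 231)) (XT.lf (nat_lit 0) (nat_lit 9823437107) (nat_lit 304) (nat_lit 131859667) (nat_lit 380) (nat_lit 12209098645) (nat_lit 101) (nat_lit 5) (nat_lit 105) (nat_lit 5) (nat_lit 106) (nat_lit 5) (nat_lit 503) (nat_lit 407) (nat_lit 230)))) (XT.nd (nat_lit 156) (nat_lit 380) (nat_lit 0) (XT.nd (nat_lit 78) (nat_lit 304) (nat_lit 0) (XT.lf (nat_lit 0) (nat_lit 14144945631) (nat_lit 380) (nat_lit 1902361128) (nat_lit 76) (nat_lit 6422270918) (nat_lit 101) (nat_lit 5) (nat_lit 106) (nat_lit 5) (nat_lit 102) (nat_lit 5) (nat_lit 504) (nat_lit 407) (nat_lit 229)) (XT.lf (nat_lit 0) (nat_lit 8848546991) (nat_lit 304) (nat_lit 9620594296) (nat_lit 380) (nat_lit 4310710457) (nat_lit 97) (nat_lit 5) (nat_lit 101) (nat_lit 5) (nat_lit 102) (nat_lit 5) (nat_lit 505) (nat_lit 407) (nat_lit 228))) (XT.nd (nat_lit 78) (nat_lit 380) (nat_lit 0) (XT.lf (nat_lit 0) (nat_lit 19828698794) (nat_lit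 304) (nat_lit 3056391219) (nat_lit 380) (nat_lit 211139073) (nat_lit 97) (nat_lit 5) (nat_lit 101) (nat_lit 5) (nat_lit 102) (nat_lit 5) (nat_lit 506) (nat_lit 407) (nat_lit 227)) (XT.lf (nat_lit 0) (nat_lit 3984869137) (nat_lit 380) (nat_lit 15768738222) (nat_lit 76) (nat_lit 3663483733) (nat_lit 92) (nat_lit 5) (nat_lit 97) (nat_lit 5) (nat_lit 93) (nat_lit 5) (nat_lit 507) (nat_lit 407) (nat_lit 226))))))) (XT.nd (nat_lit 1092) (nat_lit 304) (nat_lit 0) (XT.nd (nat_lit 546) (nat_lit 836) (nat_lit 0) (XT.nd (nat_lit 234) (nat_lit 608) (nat_lit 0) (XT.nd (nat_lit 78) (nat_lit 304) (nat_lit 0) (XT.lf (nat_lit 0) (nat_lit 8296929813) (nat_lit 380) (nat_lit 4950354745) (nat_lit 76) (nat_lit 10496361671) (nat_lit 92) (nat_lit 5) (nat_lit 97) (nat_lit 5) (nat_lit 93) (nat_lit 5) (nat_lit 508) (nat_lit 407) (nat_lit 225)) (XT.nd (nat_lit 78) (nat_lit 0) (nat_lit 0) (XT.lf (nat_lit 0) (nat_lit 6153845992) (nat_lit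 304) (nat_lit 6574128551) (nat_lit 380) (nat_lit 11348106005) (nat_lit 88) (nat_lit 5) (nat_lit 92) (nat_lit 5) (nat_lit 93) (nat_lit 5) (nat_lit 509) (nat_lit 407) (nat_lit 224)) (XT.lf (nat_lit 0) (nat_lit 17275419673) (nat_lit 380) (nat_lit 6880299168) (nat_lit 76) (nat_lit 258891999) (nat_lit 88) (nat_lit 5) (nat_lit 93) (nat_lit 5) (nat_lit 89) (nat_lit 5) (nat_lit 510) (nat_lit 407) (nat_lit 223)))) (XT.nd (nat_lit 156) (nat_lit 304) (nat_lit 0) (XT.nd (nat_lit 78) (nat_lit 76) (nat_lit 0) (XT.lf (nat_lit 0) (nat_lit 4385369591) (nat_lit 228) (nat_lit 17593425233) (nat_lit 304) (nat_lit 2779820113) (nat_lit 85) (nat_lit 5) (nat_lit 88) (nat_lit 5) (nat_lit 89) (nat_lit 5) (nat_lit 511) (nat_lit 407) (nat_lit 222)) (XT.lf (nat_lit 0) (nat_lit 1684343595) (nat_lit 304) (nat_lit 9161192997) (nat_lit 76) (nat_lit 14262959507) (nat_lit 84) (nat_lit 5) (nat_lit 88) (nat_lit 5) (nat_lit 85) (nat_lit 5) (nat_lit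 512) (nat_lit 407) (nat_lit 221))) (XT.nd (nat_lit 78) (nat_lit 0) (nat_lit 0) (XT.lf (nat_lit 0) (nat_lit 2275648348) (nat_lit 304) (nat_lit 3932856344) (nat_lit 380) (nat_lit 19256346642) (nat_lit 80) (nat_lit 5) (nat_lit 84) (nat_lit 5) (nat_lit 85) (nat_lit 5) (nat_lit 513) (nat_lit 407) (nat_lit 220)) (XT.lf (nat_lit 0) (nat_lit 10898441823) (nat_lit 380) (nat_lit 11793276324) (nat_lit 76) (nat_lit 3135112276) (nat_lit 80) (nat_lit 5) (nat_lit 85) (nat_lit 5) (nat_lit 81) (nat_lit 5) (nat_lit 514) (nat_lit 407) (nat_lit 219))))) (XT.nd (nat_lit 234) (nat_lit 608) (nat_lit 0) (XT.nd (nat_lit 78) (nat_lit 228) (nat_lit 0) (XT.lf (nat_lit 0) (nat_lit 15701521759) (nat_lit 380) (nat_lit 206191559) (nat_lit 76) (nat_lit 10287951449) (nat_lit 80) (nat_lit 5) (nat_lit 85) (nat_lit 5) (nat_lit 81) (nat_lit 5) (nat_lit 515) (nat_lit 407) (nat_lit 218)) (XT.nd (nat_lit 78) (nat_lit 0) (nat_lit 0) (XT.lf (nat_lit 0)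 (nat_lit 11756316174) (nat_lit 228) (nat_lit 8914106975) (nat_lit 304) (nat_lit 5900059956) (nat_lit 77) (nat_lit 5) (nat_lit 80) (nat_lit 5) (nat_lit 81) (nat_lit 5) (nat_lit 516) (nat_lit 407) (nat_lit 217)) (XT.lf (nat_lit 0) (nat_lit 23950433229) (nat_lit 228) (nat_lit 1783144115) (nat_lit 304) (nat_lit 1219325428) (nat_lit 77) (nat_lit 5) (nat_lit 80) (nat_lit 5) (nat_lit 81) (nat_lit 5) (nat_lit 517) (nat_lit 407) (nat_lit 216)))) (XT.nd (nat_lit 156) (nat_lit 228) (nat_lit 0) (XT.nd (nat_lit 78) (nat_lit 0) (nat_lit 0) (XT.lf (nat_lit 0) (nat_lit 3597430796) (nat_lit 380) (nat_lit 18245795255) (nat_lit 76) (nat_lit 5497504874) (nat_lit 72) (nat_lit 5) (nat_lit 77) (nat_lit 5) (nat_lit 73) (nat_lit 5) (nat_lit 518) (nat_lit 407) (nat_lit 215)) (XT.lf (nat_lit 0) (nat_lit 8519909453) (nat_lit 380) (nat_lit 6291297242) (nat_lit 76) (nat_lit 12924435784) (nat_lit 72) (nat_lit 5) (nat_lit 77) (nat_lit 5) (nat_lit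 73) (nat_lit 5) (nat_lit 519) (nat_lit 407) (nat_lit 214))) (XT.nd (nat_lit 78) (nat_lit 0) (nat_lit 0) (XT.lf (nat_lit 0) (nat_lit 5970441713) (nat_lit 228) (nat_lit 7602893694) (nat_lit 304) (nat_lit 14564469171) (nat_lit 69) (nat_lit 5) (nat_lit 72) (nat_lit 5) (nat_lit 73) (nat_lit 5) (nat_lit 520) (nat_lit 407) (nat_lit 213)) (XT.lf (nat_lit 0) (nat_lit 18552609996) (nat_lit 228) (nat_lit 211228844) (nat_lit 304) (nat_lit 9783453124) (nat_lit 69) (nat_lit 5) (nat_lit 72) (nat_lit 5) (nat_lit 73) (nat_lit 5) (nat_lit 521) (nat_lit 407) (nat_lit 212)))))) (XT.nd (nat_lit 50856) (nat_lit 0) (nat_lit 29184) (XT.nd (nat_lit 50544) (nat_lit 0) (nat_lit 31768) (XT.nd (nat_lit 78) (nat_lit 76) (nat_lit 0) (XT.lf (nat_lit 0) (nat_lit 2395300221) (nat_lit 228) (nat_lit 21719872094) (nat_lit 304) (nat_lit 4848658564) (nat_lit 66) (nat_lit 5) (nat_lit 69) (nat_lit 5) (nat_lit 70) (nat_lit 5) (nat_lit 522) (nat_lit 407)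 (nat_lit 211)) (XT.nd (nat_lit 50388) (nat_lit 0) (nat_lit 31768) (XT.lf (nat_lit 0) (nat_lit 245221711) (nat_lit 304) (nat_lit 14231844242) (nat_lit 76) (nat_lit 14910356436) (nat_lit 65) (nat_lit 5) (nat_lit 69) (nat_lit 5) (nat_lit 66) (nat_lit 5) (nat_lit 523) (nat_lit 407) (nat_lit 210)) (XT.lf (nat_lit 0) (nat_lit 635263500) (nat_lit 0) (nat_lit 635263500) (nat_lit 1292) (nat_lit 2712094553) (nat_lit 483) (nat_lit 5) (nat_lit 483) (nat_lit 3) (nat_lit 500) (nat_lit 3) (nat_lit 408) (nat_lit 408) (nat_lit 324)))) (XT.nd (nat_lit 156) (nat_lit 0) (nat_lit 0) (XT.nd (nat_lit 78) (nat_lit 0) (nat_lit 0) (XT.lf (nat_lit 0) (nat_lit 3746746091) (nat_lit 1292) (nat_lit 3042560941) (nat_lit 1368) (nat_lit 1230913274) (nat_lit 483) (nat_lit 5) (nat_lit 500) (nat_lit 3) (nat_lit 501) (nat_lit 5) (nat_lit 409) (nat_lit 408) (nat_lit 323)) (XT.lf (nat_lit 76) (nat_lit 666852936) (nat_lit 0) (nat_lit 4291795844) (nat_lit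 1368) (nat_lit 3118034388) (nat_lit 484) (nat_lit 5) (nat_lit 483) (nat_lit 5) (nat_lit 501) (nat_lit 5) (nat_lit 410) (nat_lit 408) (nat_lit 322))) (XT.nd (nat_lit 78) (nat_lit 0) (nat_lit 76) (XT.lf (nat_lit 76) (nat_lit 4475687630) (nat_lit 0) (nat_lit 1709369073) (nat_lit 1368) (nat_lit 1949440748) (nat_lit 484) (nat_lit 5) (nat_lit 483) (nat_lit 5) (nat_lit 501) (nat_lit 5) (nat_lit 411) (nat_lit 408) (nat_lit 321)) (XT.lf (nat_lit 76) (nat_lit 146747412) (nat_lit 0) (nat_lit 7266733134) (nat_lit 1368) (nat_lit 780464683) (nat_lit 485) (nat_lit 5) (nat_lit 484) (nat_lit 5) (nat_lit 502) (nat_lit 5) (nat_lit 412) (nat_lit 408) (nat_lit 320))))) (XT.nd (nat_lit 312) (nat_lit 1292) (nat_lit 0) (XT.nd (nat_lit 156) (nat_lit 0) (nat_lit 76) (XT.nd (nat_lit 78) (nat_lit 0) (nat_lit 0) (XT.lf (nat_lit 0) (nat_lit 413309407) (nat_lit 1368) (nat_lit 4206946832) (nat_lit 1444) (nat_lit 3634161749) (nat_lit 466) (nat_lit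 5) (nat_lit 484) (nat_lit 5) (nat_lit 485) (nat_lit 5) (nat_lit 413) (nat_lit 408) (nat_lit 319)) (XT.lf (nat_lit 0) (nat_lit 1591876234) (nat_lit 1368) (nat_lit 311442452) (nat_lit 1444) (nat_lit 6413276396) (nat_lit 466) (nat_lit 5) (nat_lit 484) (nat_lit 5) (nat_lit 485) (nat_lit 5) (nat_lit 414) (nat_lit 408) (nat_lit 318))) (XT.nd (nat_lit 78) (nat_lit 0) (nat_lit 0) (XT.lf (nat_lit 0) (nat_lit 2795792406) (nat_lit 1368) (nat_lit 4691632263) (nat_lit 1444) (nat_lit 892580402) (nat_lit 467) (nat_lit 5) (nat_lit 485) (nat_lit 5) (nat_lit 486) (nat_lit 5) (nat_lit 415) (nat_lit 408) (nat_lit 317)) (XT.lf (nat_lit 0) (nat_lit 4010937777) (nat_lit 1368) (nat_lit 701462994) (nat_lit 1444) (nat_lit 3732563894) (nat_lit 467) (nat_lit 5) (nat_lit 485) (nat_lit 5) (nat_lit 486) (nat_lit 5) (nat_lit 416) (nat_lit 408) (nat_lit 316)))) (XT.nd (nat_lit 156) (nat_lit 1368) (nat_lit 0) (XT.nd (nat_lit 78) (nat_lit 0) (nat_lit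 76) (XT.lf (nat_lit 76) (nat_lit 3396775656) (nat_lit 0) (nat_lit 1848647201) (nat_lit 1444) (nat_lit 3265923806) (nat_lit 468) (nat_lit 5) (nat_lit 467) (nat_lit 5) (nat_lit 486) (nat_lit 5) (nat_lit 417) (nat_lit 408) (nat_lit 315)) (XT.lf (nat_lit 0) (nat_lit 6489773646) (nat_lit 1368) (nat_lit 1016267502) (nat_lit 1444) (nat_lit 1073335107) (nat_lit 468) (nat_lit 5) (nat_lit 486) (nat_lit 5) (nat_lit 487) (nat_lit 5) (nat_lit 418) (nat_lit 408) (nat_lit 314))) (XT.nd (nat_lit 78) (nat_lit 1444) (nat_lit 0) (XT.lf (nat_lit 76) (nat_lit 3176955962) (nat_lit 0) (nat_lit 4588920222) (nat_lit 1444) (nat_lit 882775977) (nat_lit 469) (nat_lit 5) (nat_lit 468) (nat_lit 5) (nat_lit 487) (nat_lit 5) (nat_lit 419) (nat_lit 408) (nat_lit 313)) (XT.lf (nat_lit 0) (nat_lit 324692494) (nat_lit 1444) (nat_lit 1270389653) (nat_lit 1520) (nat_lit 7124586910) (nat_lit 449) (nat_lit 5) (nat_lit 468) (nat_lit 5) (nat_lit 469)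 (nat_lit 5) (nat_lit 420) (nat_lit 408) (nat_lit 312))))))))
noncomputable def xc168 : XT := (XT.nd (nat_lit 2184) (nat_lit 8892) (nat_lit 0) (XT.nd (nat_lit 1092) (nat_lit 8892) (nat_lit 0) (XT.nd (nat_lit 546) (nat_lit 1368) (nat_lit 0) (XT.nd (nat_lit 234) (nat_lit 1368) (nat_lit 0) (XT.nd (nat_lit 78) (nat_lit 0) (nat_lit 0) (XT.lf (nat_lit 0) (nat_lit 1548599785) (nat_lit 1444) (nat_lit 5769350379) (nat_lit 1520) (nat_lit 1473978914) (nat_lit 450) (nat_lit 5) (nat_lit 469) (nat_lit 5) (nat_lit 470) (nat_lit 5) (nat_lit 421) (nat_lit 408) (nat_lit 311)) (XT.nd (nat_lit 78) (nat_lit 0) (nat_lit 0) (XT.lf (nat_lit 0) (nat_lit 2791288796) (nat_lit 1444) (nat_lit 1474322373) (nat_lit 1520) (nat_lit 4600158323) (nat_lit 450) (nat_lit 5) (nat_lit 469) (nat_lit 5) (nat_lit 470) (nat_lit 5) (nat_lit 422) (nat_lit 408) (nat_lit 310)) (XT.lf (nat_lit 76) (nat_lit 2928478874) (nat_lit 0) (nat_lit 1125012102) (nat_lit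 1520) (nat_lit 4887723397) (nat_lit 451) (nat_lit 5) (nat_lit 450) (nat_lit 5) (nat_lit 470) (nat_lit 5) (nat_lit 423) (nat_lit 408) (nat_lit 309)))) (XT.nd (nat_lit 156) (nat_lit 1444) (nat_lit 0) (XT.nd (nat_lit 78) (nat_lit 0) (nat_lit 0) (XT.lf (nat_lit 0) (nat_lit 5340456257) (nat_lit 1444) (nat_lit 1609184409) (nat_lit 1520) (nat_lit 2068557542) (nat_lit 451) (nat_lit 5) (nat_lit 470) (nat_lit 5) (nat_lit 471) (nat_lit 5) (nat_lit 424) (nat_lit 408) (nat_lit 308)) (XT.lf (nat_lit 76) (nat_lit 2896330804) (nat_lit 0) (nat_lit 3759620363) (nat_lit 1520) (nat_lit 2440734782) (nat_lit 452) (nat_lit 5) (nat_lit 451) (nat_lit 5) (nat_lit 471) (nat_lit 5) (nat_lit 425) (nat_lit 408) (nat_lit 307))) (XT.nd (nat_lit 78) (nat_lit 1444) (nat_lit 0) (XT.lf (nat_lit 76) (nat_lit 7497236342) (nat_lit 0) (nat_lit 488205877) (nat_lit 1520) (nat_lit 1191567145) (nat_lit 452) (nat_lit 5) (nat_lit 451) (nat_lit 5) (nat_lit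 471) (nat_lit 5) (nat_lit 426) (nat_lit 408) (nat_lit 306)) (XT.lf (nat_lit 0) (nat_lit 96511332) (nat_lit 1520) (nat_lit 6324806027) (nat_lit 1596) (nat_lit 2837329833) (nat_lit 432) (nat_lit 5) (nat_lit 452) (nat_lit 5) (nat_lit 453) (nat_lit 5) (nat_lit 427) (nat_lit 408) (nat_lit 305))))) (XT.nd (nat_lit 234) (nat_lit 1368) (nat_lit 0) (XT.nd (nat_lit 78) (nat_lit 0) (nat_lit 76) (XT.lf (nat_lit 0) (nat_lit 1386543419) (nat_lit 1520) (nat_lit 1707323759) (nat_lit 1596) (nat_lit 6248068642) (nat_lit 432) (nat_lit 5) (nat_lit 452) (nat_lit 5) (nat_lit 453) (nat_lit 5) (nat_lit 428) (nat_lit 408) (nat_lit 304)) (XT.nd (nat_lit 78) (nat_lit 0) (nat_lit 0) (XT.lf (nat_lit 0) (nat_lit 2702126567) (nat_lit 1520) (nat_lit 6403478077) (nat_lit 1596) (nat_lit 321308717) (nat_lit 433) (nat_lit 5) (nat_lit 453) (nat_lit 5) (nat_lit 454) (nat_lit 5) (nat_lit 429) (nat_lit 408) (nat_lit 303)) (XT.lf (nat_lit 0) (nat_lit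 4054394070) (nat_lit 1520) (nat_lit 1678947519) (nat_lit 1596) (nat_lit 3780059201) (nat_lit 433) (nat_lit 5) (nat_lit 453) (nat_lit 5) (nat_lit 454) (nat_lit 5) (nat_lit 430) (nat_lit 408) (nat_lit 302)))) (XT.nd (nat_lit 156) (nat_lit 1444) (nat_lit 0) (XT.nd (nat_lit 78) (nat_lit 0) (nat_lit 76) (XT.lf (nat_lit 76) (nat_lit 3164941367) (nat_lit 0) (nat_lit 2268089543) (nat_lit 1596) (nat_lit 4168618020) (nat_lit 434) (nat_lit 5) (nat_lit 433) (nat_lit 5) (nat_lit 454) (nat_lit 5) (nat_lit 431) (nat_lit 408) (nat_lit 301)) (XT.lf (nat_lit 0) (nat_lit 6837916868) (nat_lit 1520) (nat_lit 1588262921) (nat_lit 76) (nat_lit 1265525819) (nat_lit 434) (nat_lit 5) (nat_lit 454) (nat_lit 5) (nat_lit 435) (nat_lit 5) (nat_lit 432) (nat_lit 408) (nat_lit 300))) (XT.nd (nat_lit 78) (nat_lit 0) (nat_lit 0) (XT.lf (nat_lit 0) (nat_lit 3369661649) (nat_lit 1520) (nat_lit 4917659391) (nat_lit 1596) (nat_lit 1495930734) (nat_lit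 414) (nat_lit 5) (nat_lit 434) (nat_lit 5) (nat_lit 435) (nat_lit 5) (nat_lit 433) (nat_lit 408) (nat_lit 299)) (XT.lf (nat_lit 0) (nat_lit 8431721432) (nat_lit 1520) (nat_lit 1324465962) (nat_lit 1596) (nat_lit 120648425) (nat_lit 414) (nat_lit 5) (nat_lit 434) (nat_lit 5) (nat_lit 435) (nat_lit 5) (nat_lit 434) (nat_lit 408) (nat_lit 298)))))) (XT.nd (nat_lit 546) (nat_lit 3420) (nat_lit 0) (XT.nd (nat_lit 234) (nat_lit 2128) (nat_lit 0) (XT.nd (nat_lit 78) (nat_lit 1672) (nat_lit 0) (XT.lf (nat_lit 0) (nat_lit 1284490052) (nat_lit 1672) (nat_lit 6341785192) (nat_lit 76) (nat_lit 2345482289) (nat_lit 392) (nat_lit 5) (nat_lit 414) (nat_lit 5) (nat_lit 393) (nat_lit 5) (nat_lit 435) (nat_lit 408) (nat_lit 297)) (XT.nd (nat_lit 78) (nat_lit 1672) (nat_lit 0) (XT.lf (nat_lit 0) (nat_lit 2715020666) (nat_lit 1672) (nat_lit 1268698303) (nat_lit 76) (nat_lit 6084880154) (nat_lit 392) (nat_lit 5) (nat_lit 414) (nat_lit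 5) (nat_lit 393) (nat_lit 5) (nat_lit 436) (nat_lit 408) (nat_lit 296)) (XT.lf (nat_lit 0) (nat_lit 3941037973) (nat_lit 1672) (nat_lit 239466988) (nat_lit 1748) (nat_lit 5986760909) (nat_lit 370) (nat_lit 5) (nat_lit 392) (nat_lit 5) (nat_lit 393) (nat_lit 5) (nat_lit 437) (nat_lit 408) (nat_lit 295)))) (XT.nd (nat_lit 156) (nat_lit 836) (nat_lit 0) (XT.nd (nat_lit 78) (nat_lit 1292) (nat_lit 0) (XT.lf (nat_lit 0) (nat_lit 5688153479) (nat_lit 1748) (nat_lit 1035669490) (nat_lit 76) (nat_lit 3543840779) (nat_lit 370) (nat_lit 5) (nat_lit 393) (nat_lit 5) (nat_lit 371) (nat_lit 5) (nat_lit 438) (nat_lit 408) (nat_lit 294)) (XT.lf (nat_lit 0) (nat_lit 4296997207) (nat_lit 1292) (nat_lit 2939857227) (nat_lit 1368) (nat_lit 3133011756) (nat_lit 353) (nat_lit 5) (nat_lit 370) (nat_lit 5) (nat_lit 371) (nat_lit 5) (nat_lit 439) (nat_lit 408) (nat_lit 293))) (XT.nd (nat_lit 78) (nat_lit 836) (nat_lit 0) (XT.lf (nat_lit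 0) (nat_lit 8811182745) (nat_lit 1368) (nat_lit 746393686) (nat_lit 76) (nat_lit 916657493) (nat_lit 353) (nat_lit 5) (nat_lit 371) (nat_lit 5) (nat_lit 354) (nat_lit 5) (nat_lit 440) (nat_lit 408) (nat_lit 292)) (XT.lf (nat_lit 0) (nat_lit 4712517856) (nat_lit 836) (nat_lit 5736590465) (nat_lit 912) (nat_lit 130952505) (nat_lit 342) (nat_lit 5) (nat_lit 353) (nat_lit 5) (nat_lit 354) (nat_lit 5) (nat_lit 441) (nat_lit 408) (nat_lit 291))))) (XT.nd (nat_lit 234) (nat_lit 2508) (nat_lit 0) (XT.nd (nat_lit 78) (nat_lit 836) (nat_lit 0) (XT.lf (nat_lit 0) (nat_lit 1400211747) (nat_lit 912) (nat_lit 423080195) (nat_lit 76) (nat_lit 8864795850) (nat_lit 341) (nat_lit 5) (nat_lit 353) (nat_lit 5) (nat_lit 342) (nat_lit 5) (nat_lit 442) (nat_lit 408) (nat_lit 290)) (XT.nd (nat_lit 78) (nat_lit 0) (nat_lit 0) (XT.lf (nat_lit 0) (nat_lit 2990710824) (nat_lit 912) (nat_lit 5631153946) (nat_lit 76) (nat_lit 2175797137)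 (nat_lit 330) (nat_lit 5) (nat_lit 342) (nat_lit 5) (nat_lit 331) (nat_lit 5) (nat_lit 443) (nat_lit 408) (nat_lit 289)) (XT.lf (nat_lit 0) (nat_lit 4610707636) (nat_lit 912) (nat_lit 64346858) (nat_lit 76) (nat_lit 6234432216) (nat_lit 330) (nat_lit 5) (nat_lit 342) (nat_lit 5) (nat_lit 331) (nat_lit 5) (nat_lit 444) (nat_lit 408) (nat_lit 288)))) (XT.nd (nat_lit 156) (nat_lit 836) (nat_lit 0) (XT.nd (nat_lit 78) (nat_lit 836) (nat_lit 0) (XT.lf (nat_lit 0) (nat_lit 5672003958) (nat_lit 836) (nat_lit 611020051) (nat_lit 912) (nat_lit 4740138312) (nat_lit 319) (nat_lit 5) (nat_lit 330) (nat_lit 5) (nat_lit 331) (nat_lit 5) (nat_lit 445) (nat_lit 408) (nat_lit 287)) (XT.lf (nat_lit 0) (nat_lit 350067288) (nat_lit 836) (nat_lit 7647698213) (nat_lit 912) (nat_lit 3141178825) (nat_lit 308) (nat_lit 5) (nat_lit 319) (nat_lit 5) (nat_lit 320) (nat_lit 5) (nat_lit 446) (nat_lit 408) (nat_lit 286))) (XT.nd (nat_lit 78)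 (nat_lit 836) (nat_lit 0) (XT.lf (nat_lit 0) (nat_lit 6217436330) (nat_lit 836) (nat_lit 3552839757) (nat_lit 912) (nat_lit 1486308613) (nat_lit 308) (nat_lit 5) (nat_lit 319) (nat_lit 5) (nat_lit 320) (nat_lit 5) (nat_lit 447) (nat_lit 408) (nat_lit 285)) (XT.lf (nat_lit 0) (nat_lit 192174479) (nat_lit 836) (nat_lit 10562098021) (nat_lit 76) (nat_lit 622427728) (nat_lit 297) (nat_lit 5) (nat_lit 308) (nat_lit 5) (nat_lit 298) (nat_lit 5) (nat_lit 448) (nat_lit 408) (nat_lit 284))))))) (XT.nd (nat_lit 1092) (nat_lit 3952) (nat_lit 0) (XT.nd (nat_lit 546) (nat_lit 2660) (nat_lit 0) (XT.nd (nat_lit 234) (nat_lit 1520) (nat_lit 0) (XT.nd (nat_lit 78) (nat_lit 760) (nat_lit 0) (XT.lf (nat_lit 0) (nat_lit 1925874942) (nat_lit 836) (nat_lit 4694852711) (nat_lit 76) (nat_lit 4877474444) (nat_lit 297) (nat_lit 5) (nat_lit 308) (nat_lit 5) (nat_lit 298) (nat_lit 5) (nat_lit 449) (nat_lit 408) (nat_lit 283)) (XT.nd (nat_lit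 78) (nat_lit 0) (nat_lit 0) (XT.lf (nat_lit 0) (nat_lit 1290535716) (nat_lit 760) (nat_lit 2396369925) (nat_lit 836) (nat_lit 7935386521) (nat_lit 287) (nat_lit 5) (nat_lit 297) (nat_lit 5) (nat_lit 298) (nat_lit 5) (nat_lit 450) (nat_lit 408) (nat_lit 282)) (XT.lf (nat_lit 0) (nat_lit 5511765803) (nat_lit 836) (nat_lit 4317927216) (nat_lit 76) (nat_lit 1918609894) (nat_lit 287) (nat_lit 5) (nat_lit 298) (nat_lit 5) (nat_lit 288) (nat_lit 5) (nat_lit 451) (nat_lit 408) (nat_lit 281)))) (XT.nd (nat_lit 156) (nat_lit 836) (nat_lit 0) (XT.nd (nat_lit 78) (nat_lit 0) (nat_lit 0) (XT.lf (nat_lit 0) (nat_lit 1808001786) (nat_lit 684) (nat_lit 5577512693) (nat_lit 760) (nat_lit 4491082419) (nat_lit 278) (nat_lit 5) (nat_lit 287) (nat_lit 5) (nat_lit 288) (nat_lit 5) (nat_lit 452) (nat_lit 408) (nat_lit 280)) (XT.lf (nat_lit 0) (nat_lit 8099066316) (nat_lit 684) (nat_lit 1211625003) (nat_lit 760) (nat_lit 2696497011)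 (nat_lit 278) (nat_lit 5) (nat_lit 287) (nat_lit 5) (nat_lit 288) (nat_lit 5) (nat_lit 453) (nat_lit 408) (nat_lit 279))) (XT.nd (nat_lit 78) (nat_lit 76) (nat_lit 0) (XT.lf (nat_lit 0) (nat_lit 2369692024) (nat_lit 760) (nat_lit 8926378282) (nat_lit 836) (nat_lit 843897737) (nat_lit 268) (nat_lit 5) (nat_lit 278) (nat_lit 5) (nat_lit 279) (nat_lit 5) (nat_lit 454) (nat_lit 408) (nat_lit 278)) (XT.lf (nat_lit 0) (nat_lit 1051807933) (nat_lit 836) (nat_lit 3479829396) (nat_lit 76) (nat_lit 7743244852) (nat_lit 267) (nat_lit 5) (nat_lit 278) (nat_lit 5) (nat_lit 268) (nat_lit 5) (nat_lit 455) (nat_lit 408) (nat_lit 277))))) (XT.nd (nat_lit 234) (nat_lit 1292) (nat_lit 0) (XT.nd (nat_lit 78) (nat_lit 684) (nat_lit 0) (XT.lf (nat_lit 0) (nat_lit 2953890879) (nat_lit 684) (nat_lit 25059970) (nat_lit 760) (nat_lit 9433345553) (nat_lit 258) (nat_lit 5) (nat_lit 267) (nat_lit 5) (nat_lit 268) (nat_lit 5) (nat_lit 456)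 (nat_lit 408) (nat_lit 276)) (XT.nd (nat_lit 78) (nat_lit 684) (nat_lit 0) (XT.lf (nat_lit 0) (nat_lit 4983630103) (nat_lit 760) (nat_lit 3034241562) (nat_lit 76) (nat_lit 4533817003) (nat_lit 258) (nat_lit 5) (nat_lit 268) (nat_lit 5) (nat_lit 259) (nat_lit 5) (nat_lit 457) (nat_lit 408) (nat_lit 275)) (XT.lf (nat_lit 0) (nat_lit 3549231245) (nat_lit 684) (nat_lit 3488465119) (nat_lit 760) (nat_lit 5655995988) (nat_lit 249) (nat_lit 5) (nat_lit 258) (nat_lit 5) (nat_lit 259) (nat_lit 5) (nat_lit 458) (nat_lit 408) (nat_lit 274)))) (XT.nd (nat_lit 156) (nat_lit 684) (nat_lit 0) (XT.nd (nat_lit 78) (nat_lit 608) (nat_lit 0) (XT.lf (nat_lit 0) (nat_lit 9146931714) (nat_lit 760) (nat_lit 2555834868) (nat_lit 76) (nat_lit 1135497028) (nat_lit 249) (nat_lit 5) (nat_lit 259) (nat_lit 5) (nat_lit 250) (nat_lit 5) (nat_lit 459) (nat_lit 408) (nat_lit 273)) (XT.lf (nat_lit 0) (nat_lit 4180874839) (nat_lit 608) (nat_lit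 7154238988) (nat_lit 684) (nat_lit 1649886299) (nat_lit 241) (nat_lit 5) (nat_lit 249) (nat_lit 5) (nat_lit 250) (nat_lit 5) (nat_lit 460) (nat_lit 408) (nat_lit 272))) (XT.nd (nat_lit 78) (nat_lit 608) (nat_lit 0) (XT.lf (nat_lit 0) (nat_lit 430564537) (nat_lit 684) (nat_lit 2065790683) (nat_lit 76) (nat_lit 10638191785) (nat_lit 240) (nat_lit 5) (nat_lit 249) (nat_lit 5) (nat_lit 241) (nat_lit 5) (nat_lit 461) (nat_lit 408) (nat_lit 271)) (XT.lf (nat_lit 0) (nat_lit 2563760201) (nat_lit 684) (nat_lit 8456692637) (nat_lit 76) (nat_lit 2265757864) (nat_lit 232) (nat_lit 5) (nat_lit 241) (nat_lit 5) (nat_lit 233) (nat_lit 5) (nat_lit 462) (nat_lit 408) (nat_lit 270)))))) (XT.nd (nat_lit 546) (nat_lit 2128) (nat_lit 0) (XT.nd (nat_lit 234) (nat_lit 1216) (nat_lit 0) (XT.nd (nat_lit 78) (nat_lit 608) (nat_lit 0) (XT.lf (nat_lit 0) (nat_lit 4757098166) (nat_lit 684) (nat_lit 1581874769) (nat_lit 76) (nat_lit 7101593552)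 (nat_lit 232) (nat_lit 5) (nat_lit 241) (nat_lit 5) (nat_lit 233) (nat_lit 5) (nat_lit 463) (nat_lit 408) (nat_lit 269)) (XT.nd (nat_lit 78) (nat_lit 0) (nat_lit 0) (XT.lf (nat_lit 0) (nat_lit 5487352446) (nat_lit 608) (nat_lit 1529824922) (nat_lit 684) (nat_lit 6580382749) (nat_lit 224) (nat_lit 5) (nat_lit 232) (nat_lit 5) (nat_lit 233) (nat_lit 5) (nat_lit 464) (nat_lit 408) (nat_lit 268)) (XT.lf (nat_lit 0) (nat_lit 9342444305) (nat_lit 684) (nat_lit 1075261049) (nat_lit 76) (nat_lit 3339596601) (nat_lit 224) (nat_lit 5) (nat_lit 233) (nat_lit 5) (nat_lit 225) (nat_lit 5) (nat_lit 465) (nat_lit 408) (nat_lit 267)))) (XT.nd (nat_lit 156) (nat_lit 532) (nat_lit 0) (XT.nd (nat_lit 78) (nat_lit 76) (nat_lit 0) (XT.lf (nat_lit 0) (nat_lit 6156089130) (nat_lit 608) (nat_lit 5595860127) (nat_lit 684) (nat_lit 2167542620) (nat_lit 216) (nat_lit 5) (nat_lit 224) (nat_lit 5) (nat_lit 225) (nat_lit 5) (nat_lit 466)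 (nat_lit 408) (nat_lit 266)) (XT.lf (nat_lit 0) (nat_lit 118036139) (nat_lit 684) (nat_lit 553972514) (nat_lit 76) (nat_lit 13413009279) (nat_lit 215) (nat_lit 5) (nat_lit 224) (nat_lit 5) (nat_lit 216) (nat_lit 5) (nat_lit 467) (nat_lit 408) (nat_lit 265))) (XT.nd (nat_lit 78) (nat_lit 0) (nat_lit 0) (XT.lf (nat_lit 0) (nat_lit 2481423104) (nat_lit 608) (nat_lit 7420955849) (nat_lit 76) (nat_lit 4349974049) (nat_lit 208) (nat_lit 5) (nat_lit 216) (nat_lit 5) (nat_lit 209) (nat_lit 5) (nat_lit 468) (nat_lit 408) (nat_lit 264)) (XT.lf (nat_lit 0) (nat_lit 4888326110) (nat_lit 608) (nat_lit 70265771) (nat_lit 76) (nat_lit 9464525224) (nat_lit 208) (nat_lit 5) (nat_lit 216) (nat_lit 5) (nat_lit 209) (nat_lit 5) (nat_lit 469) (nat_lit 408) (nat_lit 263))))) (XT.nd (nat_lit 234) (nat_lit 1064) (nat_lit 0) (XT.nd (nat_lit 78) (nat_lit 532) (nat_lit 0) (XT.lf (nat_lit 0) (nat_lit 7381276952) (nat_lit 608) (nat_lit 7085984502)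 (nat_lit 76) (nat_lit 129283998) (nat_lit 201) (nat_lit 5) (nat_lit 209) (nat_lit 5) (nat_lit 202) (nat_lit 5) (nat_lit 470) (nat_lit 408) (nat_lit 262)) (XT.nd (nat_lit 78) (nat_lit 0) (nat_lit 0) (XT.lf (nat_lit 0) (nat_lit 428656421) (nat_lit 532) (nat_lit 9519933960) (nat_lit 608) (nat_lit 4824368926) (nat_lit 194) (nat_lit 5) (nat_lit 201) (nat_lit 5) (nat_lit 202) (nat_lit 5) (nat_lit 471) (nat_lit 408) (nat_lit 261)) (XT.lf (nat_lit 0) (nat_lit 8175091166) (nat_lit 532) (nat_lit 4428249876) (nat_lit 608) (nat_lit 2348845456) (nat_lit 194) (nat_lit 5) (nat_lit 201) (nat_lit 5) (nat_lit 202) (nat_lit 5) (nat_lit 472) (nat_lit 408) (nat_lit 260)))) (XT.nd (nat_lit 156) (nat_lit 456) (nat_lit 0) (XT.nd (nat_lit 78) (nat_lit 0) (nat_lit 0) (XT.lf (nat_lit 0) (nat_lit 173649407) (nat_lit 608) (nat_lit 14201888862) (nat_lit 76) (nat_lit 759448262) (nat_lit 186) (nat_lit 5) (nat_lit 194) (nat_lit 5) (nat_lit 187)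 (nat_lit 5) (nat_lit 473) (nat_lit 408) (nat_lit 259)) (XT.lf (nat_lit 0) (nat_lit 2779070122) (nat_lit 608) (nat_lit 6490893767) (nat_lit 76) (nat_lit 6049896099) (nat_lit 186) (nat_lit 5) (nat_lit 194) (nat_lit 5) (nat_lit 187) (nat_lit 5) (nat_lit 474) (nat_lit 408) (nat_lit 258))) (XT.nd (nat_lit 78) (nat_lit 0) (nat_lit 0) (XT.lf (nat_lit 0) (nat_lit 1378142880) (nat_lit 456) (nat_lit 4056416329) (nat_lit 532) (nat_lit 10073918859) (nat_lit 180) (nat_lit 5) (nat_lit 186) (nat_lit 5) (nat_lit 187) (nat_lit 5) (nat_lit 475) (nat_lit 408) (nat_lit 257)) (XT.lf (nat_lit 0) (nat_lit 8184307976) (nat_lit 532) (nat_lit 6230290942) (nat_lit 76) (nat_lit 1285452823) (nat_lit 180) (nat_lit 5) (nat_lit 187) (nat_lit 5) (nat_lit 181) (nat_lit 5) (nat_lit 476) (nat_lit 408) (nat_lit 256))))))))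
noncomputable def xc169 : XT := (XT.nd (nat_lit 2184) (nat_lit 2660) (nat_lit 0) (XT.nd (nat_lit 1092) (nat_lit 2660) (nat_lit 0) (XT.nd (nat_lit 546) (nat_lit 1368) (nat_lit 0) (XT.nd (nat_lit 234) (nat_lit 912) (nat_lit 0) (XT.nd (nat_lit 78) (nat_lit 532) (nat_lit 0) (XT.lf (nat_lit 0) (nat_lit 1810556579) (nat_lit 532) (nat_lit 9206441868) (nat_lit 608) (nat_lit 4877905613) (nat_lit 173) (nat_lit 5) (nat_lit 180) (nat_lit 5) (nat_lit 181) (nat_lit 5) (nat_lit 477) (nat_lit 408) (nat_lit 255)) (XT.nd (nat_lit 78) (nat_lit 532) (nat_lit 0) (XT.lf (nat_lit 0) (nat_lit 10082687214) (nat_lit 532) (nat_lit 3854910204) (nat_lit 608) (nat_lit 2155436901) (nat_lit 173) (nat_lit 5) (nat_lit 180) (nat_lit 5) (nat_lit 181) (nat_lit 5) (nat_lit 478) (nat_lit 408) (nat_lit 254)) (XT.lf (nat_lit 0) (nat_lit 627943007) (nat_lit 532) (nat_lit 14068908566) (nat_lit 76) (nat_lit 1597908408) (nat_lit 166) (nat_lit 5) (nat_lit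 173) (nat_lit 5) (nat_lit 167) (nat_lit 5) (nat_lit 479) (nat_lit 408) (nat_lit 253)))) (XT.nd (nat_lit 156) (nat_lit 456) (nat_lit 0) (XT.nd (nat_lit 78) (nat_lit 456) (nat_lit 0) (XT.lf (nat_lit 0) (nat_lit 3493956374) (nat_lit 532) (nat_lit 5845493690) (nat_lit 76) (nat_lit 7159674244) (nat_lit 166) (nat_lit 5) (nat_lit 173) (nat_lit 5) (nat_lit 167) (nat_lit 5) (nat_lit 480) (nat_lit 408) (nat_lit 252)) (XT.lf (nat_lit 0) (nat_lit 2562313111) (nat_lit 456) (nat_lit 3861486937) (nat_lit 532) (nat_lit 10283651204) (nat_lit 160) (nat_lit 5) (nat_lit 166) (nat_lit 5) (nat_lit 167) (nat_lit 5) (nat_lit 481) (nat_lit 408) (nat_lit 251))) (XT.nd (nat_lit 78) (nat_lit 456) (nat_lit 0) (XT.lf (nat_lit 0) (nat_lit 9452894174) (nat_lit 532) (nat_lit 5726887382) (nat_lit 76) (nat_lit 1739355529) (nat_lit 160) (nat_lit 5) (nat_lit 167) (nat_lit 5) (nat_lit 161) (nat_lit 5) (nat_lit 482) (nat_lit 408) (nat_lit 250)) (XT.lf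 (nat_lit 0) (nat_lit 2858136602) (nat_lit 456) (nat_lit 9718720999) (nat_lit 532) (nat_lit 4557518601) (nat_lit 154) (nat_lit 5) (nat_lit 160) (nat_lit 5) (nat_lit 161) (nat_lit 5) (nat_lit 483) (nat_lit 408) (nat_lit 249))))) (XT.nd (nat_lit 234) (nat_lit 836) (nat_lit 0) (XT.nd (nat_lit 78) (nat_lit 532) (nat_lit 0) (XT.lf (nat_lit 0) (nat_lit 11679075370) (nat_lit 456) (nat_lit 4112918982) (nat_lit 532) (nat_lit 1561357082) (nat_lit 154) (nat_lit 5) (nat_lit 160) (nat_lit 5) (nat_lit 161) (nat_lit 5) (nat_lit 484) (nat_lit 408) (nat_lit 248)) (XT.nd (nat_lit 78) (nat_lit 0) (nat_lit 0) (XT.lf (nat_lit 0) (nat_lit 1496347217) (nat_lit 532) (nat_lit 14469274425) (nat_lit 76) (nat_lit 1610470979) (nat_lit 147) (nat_lit 5) (nat_lit 154) (nat_lit 5) (nat_lit 148) (nat_lit 5) (nat_lit 485) (nat_lit 408) (nat_lit 247)) (XT.lf (nat_lit 0) (nat_lit 4650351154) (nat_lit 532) (nat_lit 5713275274) (nat_lit 76) (nat_lit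 7438339661) (nat_lit 147) (nat_lit 5) (nat_lit 154) (nat_lit 5) (nat_lit 148) (nat_lit 5) (nat_lit 486) (nat_lit 408) (nat_lit 246)))) (XT.nd (nat_lit 156) (nat_lit 456) (nat_lit 0) (XT.nd (nat_lit 78) (nat_lit 0) (nat_lit 0) (XT.lf (nat_lit 0) (nat_lit 3247326578) (nat_lit 380) (nat_lit 4631844506) (nat_lit 456) (nat_lit 10152956040) (nat_lit 142) (nat_lit 5) (nat_lit 147) (nat_lit 5) (nat_lit 148) (nat_lit 5) (nat_lit 487) (nat_lit 408) (nat_lit 245)) (XT.lf (nat_lit 0) (nat_lit 11209772598) (nat_lit 456) (nat_lit 5822864439) (nat_lit 76) (nat_lit 1233514959) (nat_lit 142) (nat_lit 5) (nat_lit 148) (nat_lit 5) (nat_lit 143) (nat_lit 5) (nat_lit 488) (nat_lit 408) (nat_lit 244))) (XT.nd (nat_lit 78) (nat_lit 0) (nat_lit 0) (XT.lf (nat_lit 0) (nat_lit 3318228078) (nat_lit 456) (nat_lit 11331884892) (nat_lit 532) (nat_lit 3853886488) (nat_lit 136) (nat_lit 5) (nat_lit 142) (nat_lit 5) (nat_lit 143) (nat_lit 5)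 (nat_lit 489) (nat_lit 408) (nat_lit 243)) (XT.lf (nat_lit 0) (nat_lit 12708230948) (nat_lit 456) (nat_lit 5481106799) (nat_lit 532) (nat_lit 556669106) (nat_lit 136) (nat_lit 5) (nat_lit 142) (nat_lit 5) (nat_lit 143) (nat_lit 5) (nat_lit 490) (nat_lit 408) (nat_lit 242)))))) (XT.nd (nat_lit 546) (nat_lit 1064) (nat_lit 0) (XT.nd (nat_lit 234) (nat_lit 760) (nat_lit 0) (XT.nd (nat_lit 78) (nat_lit 380) (nat_lit 0) (XT.lf (nat_lit 0) (nat_lit 2785661664) (nat_lit 456) (nat_lit 15690041769) (nat_lit 76) (nat_lit 516471359) (nat_lit 130) (nat_lit 5) (nat_lit 136) (nat_lit 5) (nat_lit 131) (nat_lit 5) (nat_lit 491) (nat_lit 408) (nat_lit 241)) (XT.nd (nat_lit 78) (nat_lit 380) (nat_lit 0) (XT.lf (nat_lit 0) (nat_lit 6255659904) (nat_lit 456) (nat_lit 6384809691) (nat_lit 76) (nat_lit 6601361686) (nat_lit 130) (nat_lit 5) (nat_lit 136) (nat_lit 5) (nat_lit 131) (nat_lit 5) (nat_lit 492) (nat_lit 408) (nat_lit 240))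 (XT.lf (nat_lit 0) (nat_lit 3135111129) (nat_lit 380) (nat_lit 6671659051) (nat_lit 456) (nat_lit 9689480670) (nat_lit 125) (nat_lit 5) (nat_lit 130) (nat_lit 5) (nat_lit 131) (nat_lit 5) (nat_lit 493) (nat_lit 408) (nat_lit 239)))) (XT.nd (nat_lit 156) (nat_lit 456) (nat_lit 0) (XT.nd (nat_lit 78) (nat_lit 304) (nat_lit 0) (XT.lf (nat_lit 0) (nat_lit 12919527153) (nat_lit 380) (nat_lit 543666427) (nat_lit 456) (nat_lit 6291883522) (nat_lit 125) (nat_lit 5) (nat_lit 130) (nat_lit 5) (nat_lit 131) (nat_lit 5) (nat_lit 494) (nat_lit 408) (nat_lit 238)) (XT.lf (nat_lit 0) (nat_lit 2868769341) (nat_lit 304) (nat_lit 14371243368) (nat_lit 380) (nat_lit 2778125853) (nat_lit 121) (nat_lit 5) (nat_lit 125) (nat_lit 5) (nat_lit 126) (nat_lit 5) (nat_lit 495) (nat_lit 408) (nat_lit 237))) (XT.nd (nat_lit 78) (nat_lit 380) (nat_lit 0) (XT.lf (nat_lit 0) (nat_lit 836726336) (nat_lit 380) (nat_lit 7447235701) (nat_lit 76)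 (nat_lit 12001570659) (nat_lit 120) (nat_lit 5) (nat_lit 125) (nat_lit 5) (nat_lit 121) (nat_lit 5) (nat_lit 496) (nat_lit 408) (nat_lit 236)) (XT.lf (nat_lit 0) (nat_lit 2450536583) (nat_lit 380) (nat_lit 2043864210) (nat_lit 456) (nat_lit 16063355960) (nat_lit 115) (nat_lit 5) (nat_lit 120) (nat_lit 5) (nat_lit 121) (nat_lit 5) (nat_lit 497) (nat_lit 408) (nat_lit 235))))) (XT.nd (nat_lit 234) (nat_lit 760) (nat_lit 0) (XT.nd (nat_lit 78) (nat_lit 304) (nat_lit 0) (XT.lf (nat_lit 0) (nat_lit 8295426015) (nat_lit 456) (nat_lit 8227804266) (nat_lit 76) (nat_lit 4310794789) (nat_lit 115) (nat_lit 5) (nat_lit 121) (nat_lit 5) (nat_lit 116) (nat_lit 5) (nat_lit 498) (nat_lit 408) (nat_lit 234)) (XT.nd (nat_lit 78) (nat_lit 0) (nat_lit 0) (XT.lf (nat_lit 0) (nat_lit 1847933713) (nat_lit 304) (nat_lit 10342068046) (nat_lit 380) (nat_lit 8925470041) (nat_lit 111) (nat_lit 5) (nat_lit 115) (nat_lit 5) (nat_lit 116)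 (nat_lit 5) (nat_lit 499) (nat_lit 408) (nat_lit 233)) (XT.lf (nat_lit 0) (nat_lit 12224828530) (nat_lit 304) (nat_lit 3984929616) (nat_lit 380) (nat_lit 5191847115) (nat_lit 111) (nat_lit 5) (nat_lit 115) (nat_lit 5) (nat_lit 116) (nat_lit 5) (nat_lit 500) (nat_lit 408) (nat_lit 232)))) (XT.nd (nat_lit 156) (nat_lit 304) (nat_lit 0) (XT.nd (nat_lit 78) (nat_lit 76) (nat_lit 0) (XT.lf (nat_lit 0) (nat_lit 1102239960) (nat_lit 380) (nat_lit 19223259986) (nat_lit 456) (nat_lit 1367653147) (nat_lit 106) (nat_lit 5) (nat_lit 111) (nat_lit 5) (nat_lit 112) (nat_lit 5) (nat_lit 501) (nat_lit 408) (nat_lit 231)) (XT.lf (nat_lit 0) (nat_lit 2580411359) (nat_lit 456) (nat_lit 10333131423) (nat_lit 76) (nat_lit 9075051395) (nat_lit 105) (nat_lit 5) (nat_lit 111) (nat_lit 5) (nat_lit 106) (nat_lit 5) (nat_lit 502) (nat_lit 408) (nat_lit 230))) (XT.nd (nat_lit 78) (nat_lit 0) (nat_lit 0) (XT.lf (nat_lit 0) (nat_lit 110613437)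 (nat_lit 304) (nat_lit 6471627163) (nat_lit 380) (nat_lit 15707663657) (nat_lit 101) (nat_lit 5) (nat_lit 105) (nat_lit 5) (nat_lit 106) (nat_lit 5) (nat_lit 503) (nat_lit 408) (nat_lit 229)) (XT.lf (nat_lit 0) (nat_lit 10726979929) (nat_lit 380) (nat_lit 11705293072) (nat_lit 76) (nat_lit 163713309) (nat_lit 101) (nat_lit 5) (nat_lit 106) (nat_lit 5) (nat_lit 102) (nat_lit 5) (nat_lit 504) (nat_lit 408) (nat_lit 228))))))) (XT.nd (nat_lit 1092) (nat_lit 836) (nat_lit 0) (XT.nd (nat_lit 546) (nat_lit 836) (nat_lit 0) (XT.nd (nat_lit 234) (nat_lit 608) (nat_lit 0) (XT.nd (nat_lit 78) (nat_lit 380) (nat_lit 0) (XT.lf (nat_lit 0) (nat_lit 14990050878) (nat_lit 380) (nat_lit 1076083679) (nat_lit 76) (nat_lit 6841349886) (nat_lit 101) (nat_lit 5) (nat_lit 106) (nat_lit 5) (nat_lit 102) (nat_lit 5) (nat_lit 505) (nat_lit 408) (nat_lit 227)) (XT.nd (nat_lit 78) (nat_lit 76) (nat_lit 0) (XT.lf (nat_lit 0) (nat_lit 9884156255)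 (nat_lit 304) (nat_lit 9511125388) (nat_lit 380) (nat_lit 3828796043) (nat_lit 97) (nat_lit 5) (nat_lit 101) (nat_lit 5) (nat_lit 102) (nat_lit 5) (nat_lit 506) (nat_lit 408) (nat_lit 226)) (XT.lf (nat_lit 0) (nat_lit 337146491) (nat_lit 380) (nat_lit 2482148559) (nat_lit 76) (nat_lit 20727666127) (nat_lit 96) (nat_lit 5) (nat_lit 101) (nat_lit 5) (nat_lit 97) (nat_lit 5) (nat_lit 507) (nat_lit 408) (nat_lit 225)))) (XT.nd (nat_lit 156) (nat_lit 304) (nat_lit 0) (XT.nd (nat_lit 78) (nat_lit 0) (nat_lit 0) (XT.lf (nat_lit 0) (nat_lit 4610894062) (nat_lit 380) (nat_lit 15231200292) (nat_lit 76) (nat_lit 4032189675) (nat_lit 92) (nat_lit 5) (nat_lit 97) (nat_lit 5) (nat_lit 93) (nat_lit 5) (nat_lit 508) (nat_lit 408) (nat_lit 224)) (XT.lf (nat_lit 0) (nat_lit 8998483647) (nat_lit 380) (nat_lit 4213172924) (nat_lit 76) (nat_lit 10995932304) (nat_lit 92) (nat_lit 5) (nat_lit 97) (nat_lit 5) (nat_lit 93) (nat_lit 5)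 (nat_lit 509) (nat_lit 408) (nat_lit 223))) (XT.nd (nat_lit 78) (nat_lit 0) (nat_lit 0) (XT.lf (nat_lit 0) (nat_lit 7107610585) (nat_lit 304) (nat_lit 6405429803) (nat_lit 380) (nat_lit 11033737944) (nat_lit 88) (nat_lit 5) (nat_lit 92) (nat_lit 5) (nat_lit 93) (nat_lit 5) (nat_lit 510) (nat_lit 408) (nat_lit 222)) (XT.lf (nat_lit 0) (nat_lit 18142943096) (nat_lit 380) (nat_lit 6194804638) (nat_lit 76) (nat_lit 554505513) (nat_lit 88) (nat_lit 5) (nat_lit 93) (nat_lit 5) (nat_lit 89) (nat_lit 5) (nat_lit 511) (nat_lit 408) (nat_lit 221))))) (XT.nd (nat_lit 234) (nat_lit 228) (nat_lit 0) (XT.nd (nat_lit 78) (nat_lit 380) (nat_lit 0) (XT.lf (nat_lit 0) (nat_lit 5290762361) (nat_lit 228) (nat_lit 17644696756) (nat_lit 304) (nat_lit 2307780950) (nat_lit 85) (nat_lit 5) (nat_lit 88) (nat_lit 5) (nat_lit 89) (nat_lit 5) (nat_lit 512) (nat_lit 408) (nat_lit 220)) (XT.nd (nat_lit 78) (nat_lit 304) (nat_lit 0) (XT.lf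 (nat_lit 0) (nat_lit 2228535889) (nat_lit 304) (nat_lit 8535782752) (nat_lit 76) (nat_lit 14835939847) (nat_lit 84) (nat_lit 5) (nat_lit 88) (nat_lit 5) (nat_lit 85) (nat_lit 5) (nat_lit 513) (nat_lit 408) (nat_lit 219)) (XT.lf (nat_lit 0) (nat_lit 3124475459) (nat_lit 304) (nat_lit 3713910487) (nat_lit 380) (nat_lit 19125454637) (nat_lit 80) (nat_lit 5) (nat_lit 84) (nat_lit 5) (nat_lit 85) (nat_lit 5) (nat_lit 514) (nat_lit 408) (nat_lit 218)))) (XT.nd (nat_lit 156) (nat_lit 0) (nat_lit 0) (XT.nd (nat_lit 78) (nat_lit 228) (nat_lit 0) (XT.lf (nat_lit 0) (nat_lit 11614100263) (nat_lit 380) (nat_lit 11233367649) (nat_lit 76) (nat_lit 3485755568) (nat_lit 80) (nat_lit 5) (nat_lit 85) (nat_lit 5) (nat_lit 81) (nat_lit 5) (nat_lit 515) (nat_lit 408) (nat_lit 217)) (XT.lf (nat_lit 0) (nat_lit 577428473) (nat_lit 228) (nat_lit 15929803753) (nat_lit 304) (nat_lit 10202326197) (nat_lit 77) (nat_lit 5) (nat_lit 80) (nat_lit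 5) (nat_lit 81) (nat_lit 5) (nat_lit 516) (nat_lit 408) (nat_lit 216))) (XT.nd (nat_lit 78) (nat_lit 0) (nat_lit 0) (XT.lf (nat_lit 0) (nat_lit 12766480581) (nat_lit 228) (nat_lit 8800746803) (nat_lit 304) (nat_lit 5524815078) (nat_lit 77) (nat_lit 5) (nat_lit 80) (nat_lit 5) (nat_lit 81) (nat_lit 5) (nat_lit 517) (nat_lit 408) (nat_lit 215)) (XT.lf (nat_lit 0) (nat_lit 25189283151) (nat_lit 228) (nat_lit 1532883162) (nat_lit 304) (nat_lit 760137351) (nat_lit 77) (nat_lit 5) (nat_lit 80) (nat_lit 5) (nat_lit 81) (nat_lit 5) (nat_lit 518) (nat_lit 408) (nat_lit 214)))))) (XT.nd (nat_lit 50934) (nat_lit 0) (nat_lit 30324) (XT.nd (nat_lit 234) (nat_lit 228) (nat_lit 0) (XT.nd (nat_lit 78) (nat_lit 228) (nat_lit 0) (XT.lf (nat_lit 0) (nat_lit 4144070433) (nat_lit 380) (nat_lit 17841639158) (nat_lit 76) (nat_lit 5892170261) (nat_lit 72) (nat_lit 5) (nat_lit 77) (nat_lit 5) (nat_lit 73) (nat_lit 5) (nat_lit 519) (nat_lit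 408) (nat_lit 213)) (XT.nd (nat_lit 78) (nat_lit 228) (nat_lit 0) (XT.lf (nat_lit 0) (nat_lit 9155690996) (nat_lit 380) (nat_lit 5663131028) (nat_lit 76) (nat_lit 13462057136) (nat_lit 72) (nat_lit 5) (nat_lit 77) (nat_lit 5) (nat_lit 73) (nat_lit 5) (nat_lit 520) (nat_lit 408) (nat_lit 212)) (XT.lf (nat_lit 0) (nat_lit 6838882231) (nat_lit 228) (nat_lit 7467041285) (nat_lit 304) (nat_lit 14385249529) (nat_lit 69) (nat_lit 5) (nat_lit 72) (nat_lit 5) (nat_lit 73) (nat_lit 5) (nat_lit 521) (nat_lit 408) (nat_lit 211)))) (XT.nd (nat_lit 50544) (nat_lit 0) (nat_lit 31692) (XT.nd (nat_lit 78) (nat_lit 228) (nat_lit 0) (XT.lf (nat_lit 0) (nat_lit 19591629206) (nat_lit 304) (nat_lit 9451461052) (nat_lit 76) (nat_lit 65935317) (nat_lit 69) (nat_lit 5) (nat_lit 73) (nat_lit 5) (nat_lit 70) (nat_lit 5) (nat_lit 522) (nat_lit 408) (nat_lit 210)) (XT.lf (nat_lit 0) (nat_lit 3180042207) (nat_lit 228) (nat_lit 21867229794)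 (nat_lit 304) (nat_lit 4486680790) (nat_lit 66) (nat_lit 5) (nat_lit 69) (nat_lit 5) (nat_lit 70) (nat_lit 5) (nat_lit 523) (nat_lit 408) (nat_lit 209))) (XT.nd (nat_lit 78) (nat_lit 0) (nat_lit 0) (XT.lf (nat_lit 0) (nat_lit 1230255192) (nat_lit 0) (nat_lit 1230255192) (nat_lit 1292) (nat_lit 1577409486) (nat_lit 483) (nat_lit 5) (nat_lit 483) (nat_lit 3) (nat_lit 500) (nat_lit 3) (nat_lit 409) (nat_lit 409) (nat_lit 322)) (XT.lf (nat_lit 0) (nat_lit 6097744255) (nat_lit 1292) (nat_lit 1906507991) (nat_lit 1368) (nat_lit 128767558) (nat_lit 483) (nat_lit 5) (nat_lit 500) (nat_lit 3) (nat_lit 501) (nat_lit 5) (nat_lit 410) (nat_lit 409) (nat_lit 321))))) (XT.nd (nat_lit 234) (nat_lit 0) (nat_lit 76) (XT.nd (nat_lit 78) (nat_lit 1368) (nat_lit 0) (XT.lf (nat_lit 76) (nat_lit 1869219793) (nat_lit 0) (nat_lit 5427756484) (nat_lit 1368) (nat_lit 894414678) (nat_lit 484) (nat_lit 5) (nat_lit 483) (nat_lit 5) (nat_lit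 501) (nat_lit 5) (nat_lit 411) (nat_lit 409) (nat_lit 320)) (XT.nd (nat_lit 78) (nat_lit 0) (nat_lit 0) (XT.lf (nat_lit 0) (nat_lit 249413120) (nat_lit 1368) (nat_lit 2522003682) (nat_lit 1444) (nat_lit 5479830058) (nat_lit 465) (nat_lit 5) (nat_lit 483) (nat_lit 5) (nat_lit 484) (nat_lit 5) (nat_lit 412) (nat_lit 409) (nat_lit 319)) (XT.lf (nat_lit 76) (nat_lit 1350462870) (nat_lit 0) (nat_lit 33832931) (nat_lit 1444) (nat_lit 6928308160) (nat_lit 466) (nat_lit 5) (nat_lit 465) (nat_lit 5) (nat_lit 484) (nat_lit 5) (nat_lit 413) (nat_lit 409) (nat_lit 318)))) (XT.nd (nat_lit 156) (nat_lit 0) (nat_lit 76) (XT.nd (nat_lit 78) (nat_lit 0) (nat_lit 0) (XT.lf (nat_lit 0) (nat_lit 2548741733) (nat_lit 1368) (nat_lit 3074368408) (nat_lit 1444) (nat_lit 2751965665) (nat_lit 466) (nat_lit 5) (nat_lit 484) (nat_lit 5) (nat_lit 485) (nat_lit 5) (nat_lit 414) (nat_lit 409) (nat_lit 317)) (XT.lf (nat_lit 76) (nat_lit 886819655)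 (nat_lit 0) (nat_lit 2828108923) (nat_lit 1444) (nat_lit 4724323895) (nat_lit 467) (nat_lit 5) (nat_lit 466) (nat_lit 5) (nat_lit 485) (nat_lit 5) (nat_lit 415) (nat_lit 409) (nat_lit 316))) (XT.nd (nat_lit 78) (nat_lit 0) (nat_lit 0) (XT.lf (nat_lit 0) (nat_lit 4898337080) (nat_lit 1368) (nat_lit 3551962643) (nat_lit 1444) (nat_lit 54558936) (nat_lit 467) (nat_lit 5) (nat_lit 485) (nat_lit 5) (nat_lit 486) (nat_lit 5) (nat_lit 416) (nat_lit 409) (nat_lit 315)) (XT.lf (nat_lit 76) (nat_lit 500386348) (nat_lit 0) (nat_lit 5600517874) (nat_lit 1444) (nat_lit 2470986415) (nat_lit 468) (nat_lit 5) (nat_lit 467) (nat_lit 5) (nat_lit 486) (nat_lit 5) (nat_lit 417) (nat_lit 409) (nat_lit 314))))))))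
noncomputable def xc170 : XT := (XT.nd (nat_lit 2184) (nat_lit 9500) (nat_lit 0) (XT.nd (nat_lit 1092) (nat_lit 8512) (nat_lit 0) (XT.nd (nat_lit 546) (nat_lit 1368) (nat_lit 0) (XT.nd (nat_lit 234) (nat_lit 0) (nat_lit 0) (XT.nd (nat_lit 78) (nat_lit 1368) (nat_lit 0) (XT.lf (nat_lit 76) (nat_lit 4666071089) (nat_lit 0) (nat_lit 2659215985) (nat_lit 1444) (nat_lit 1315043907) (nat_lit 468) (nat_lit 5) (nat_lit 467) (nat_lit 5) (nat_lit 486) (nat_lit 5) (nat_lit 418) (nat_lit 409) (nat_lit 313)) (XT.nd (nat_lit 78) (nat_lit 1444) (nat_lit 0) (XT.lf (nat_lit 76) (nat_lit 189048544) (nat_lit 0) (nat_lit 8363054927) (nat_lit 1444) (nat_lit 158500309) (nat_lit 469) (nat_lit 5) (nat_lit 468) (nat_lit 5) (nat_lit 487) (nat_lit 5) (nat_lit 419) (nat_lit 409) (nat_lit 312)) (XT.lf (nat_lit 0) (nat_lit 1026950708) (nat_lit 1444) (nat_lit 4333069158) (nat_lit 1520) (nat_lit 3421767866) (nat_lit 449) (nat_lit 5) (nat_lit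 468) (nat_lit 5) (nat_lit 469) (nat_lit 5) (nat_lit 420) (nat_lit 409) (nat_lit 311)))) (XT.nd (nat_lit 156) (nat_lit 0) (nat_lit 76) (XT.nd (nat_lit 78) (nat_lit 0) (nat_lit 76) (XT.lf (nat_lit 0) (nat_lit 2209198975) (nat_lit 1444) (nat_lit 77939831) (nat_lit 1520) (nat_lit 6567752654) (nat_lit 449) (nat_lit 5) (nat_lit 468) (nat_lit 5) (nat_lit 469) (nat_lit 5) (nat_lit 421) (nat_lit 409) (nat_lit 310)) (XT.lf (nat_lit 0) (nat_lit 3424465653) (nat_lit 1444) (nat_lit 4632181872) (nat_lit 1520) (nat_lit 872643117) (nat_lit 450) (nat_lit 5) (nat_lit 469) (nat_lit 5) (nat_lit 470) (nat_lit 5) (nat_lit 422) (nat_lit 409) (nat_lit 309))) (XT.nd (nat_lit 78) (nat_lit 0) (nat_lit 0) (XT.lf (nat_lit 0) (nat_lit 4655834055) (nat_lit 1444) (nat_lit 275813218) (nat_lit 1520) (nat_lit 4073715043) (nat_lit 450) (nat_lit 5) (nat_lit 469) (nat_lit 5) (nat_lit 470) (nat_lit 5) (nat_lit 423) (nat_lit 409) (nat_lit 308)) (XT.lf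 (nat_lit 76) (nat_lit 4206965135) (nat_lit 0) (nat_lit 1708770563) (nat_lit 1520) (nat_lit 3167161643) (nat_lit 451) (nat_lit 5) (nat_lit 450) (nat_lit 5) (nat_lit 470) (nat_lit 5) (nat_lit 424) (nat_lit 409) (nat_lit 307))))) (XT.nd (nat_lit 234) (nat_lit 0) (nat_lit 76) (XT.nd (nat_lit 78) (nat_lit 1520) (nat_lit 0) (XT.lf (nat_lit 0) (nat_lit 7189942678) (nat_lit 1444) (nat_lit 405385682) (nat_lit 1520) (nat_lit 1566892207) (nat_lit 451) (nat_lit 5) (nat_lit 470) (nat_lit 5) (nat_lit 471) (nat_lit 5) (nat_lit 425) (nat_lit 409) (nat_lit 306)) (XT.nd (nat_lit 78) (nat_lit 1520) (nat_lit 0) (XT.lf (nat_lit 76) (nat_lit 4182108372) (nat_lit 0) (nat_lit 4323440995) (nat_lit 1520) (nat_lit 737281836) (nat_lit 452) (nat_lit 5) (nat_lit 451) (nat_lit 5) (nat_lit 471) (nat_lit 5) (nat_lit 426) (nat_lit 409) (nat_lit 305)) (XT.lf (nat_lit 0) (nat_lit 495920442) (nat_lit 1520) (nat_lit 477768943) (nat_lit 1596) (nat_lit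 8351708182) (nat_lit 431) (nat_lit 5) (nat_lit 451) (nat_lit 5) (nat_lit 452) (nat_lit 5) (nat_lit 427) (nat_lit 409) (nat_lit 304)))) (XT.nd (nat_lit 156) (nat_lit 0) (nat_lit 0) (XT.nd (nat_lit 78) (nat_lit 0) (nat_lit 0) (XT.lf (nat_lit 0) (nat_lit 1765571807) (nat_lit 1520) (nat_lit 5193970533) (nat_lit 1596) (nat_lit 2449560455) (nat_lit 432) (nat_lit 5) (nat_lit 452) (nat_lit 5) (nat_lit 453) (nat_lit 5) (nat_lit 428) (nat_lit 409) (nat_lit 303)) (XT.lf (nat_lit 0) (nat_lit 3048715708) (nat_lit 1520) (nat_lit 508792180) (nat_lit 1596) (nat_lit 5937230040) (nat_lit 432) (nat_lit 5) (nat_lit 452) (nat_lit 5) (nat_lit 453) (nat_lit 5) (nat_lit 429) (nat_lit 409) (nat_lit 302))) (XT.nd (nat_lit 78) (nat_lit 0) (nat_lit 76) (XT.lf (nat_lit 76) (nat_lit 4310671594) (nat_lit 0) (nat_lit 53685612) (nat_lit 1596) (nat_lit 5217609306) (nat_lit 433) (nat_lit 5) (nat_lit 432) (nat_lit 5) (nat_lit 453) (nat_lit 5) (nat_lit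 430) (nat_lit 409) (nat_lit 301)) (XT.lf (nat_lit 0) (nat_lit 5711795232) (nat_lit 1520) (nat_lit 476642859) (nat_lit 1596) (nat_lit 3482409004) (nat_lit 433) (nat_lit 5) (nat_lit 453) (nat_lit 5) (nat_lit 454) (nat_lit 5) (nat_lit 431) (nat_lit 409) (nat_lit 300)))))) (XT.nd (nat_lit 546) (nat_lit 3876) (nat_lit 0) (XT.nd (nat_lit 234) (nat_lit 3268) (nat_lit 0) (XT.nd (nat_lit 78) (nat_lit 1520) (nat_lit 0) (XT.lf (nat_lit 76) (nat_lit 4455992992) (nat_lit 0) (nat_lit 2639075099) (nat_lit 1596) (nat_lit 2666276243) (nat_lit 434) (nat_lit 5) (nat_lit 433) (nat_lit 5) (nat_lit 454) (nat_lit 5) (nat_lit 432) (nat_lit 409) (nat_lit 299)) (XT.nd (nat_lit 78) (nat_lit 1596) (nat_lit 0) (XT.lf (nat_lit 0) (nat_lit 8495520692) (nat_lit 1520) (nat_lit 382572750) (nat_lit 76) (nat_lit 975784227) (nat_lit 434) (nat_lit 5) (nat_lit 454) (nat_lit 5) (nat_lit 435) (nat_lit 5) (nat_lit 433) (nat_lit 409) (nat_lit 298)) (XT.lf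 (nat_lit 0) (nat_lit 4300862) (nat_lit 1596) (nat_lit 5281375090) (nat_lit 76) (nat_lit 4662039434) (nat_lit 413) (nat_lit 5) (nat_lit 434) (nat_lit 5) (nat_lit 414) (nat_lit 5) (nat_lit 434) (nat_lit 409) (nat_lit 297)))) (XT.nd (nat_lit 156) (nat_lit 1672) (nat_lit 0) (XT.nd (nat_lit 78) (nat_lit 1596) (nat_lit 0) (XT.lf (nat_lit 0) (nat_lit 1359080444) (nat_lit 1596) (nat_lit 247158844) (nat_lit 76) (nat_lit 8437365346) (nat_lit 413) (nat_lit 5) (nat_lit 434) (nat_lit 5) (nat_lit 414) (nat_lit 5) (nat_lit 435) (nat_lit 409) (nat_lit 296)) (XT.lf (nat_lit 0) (nat_lit 2768018362) (nat_lit 1672) (nat_lit 5218722385) (nat_lit 76) (nat_lit 2154144848) (nat_lit 392) (nat_lit 5) (nat_lit 414) (nat_lit 5) (nat_lit 393) (nat_lit 5) (nat_lit 436) (nat_lit 409) (nat_lit 295))) (XT.nd (nat_lit 78) (nat_lit 1672) (nat_lit 0) (XT.lf (nat_lit 0) (nat_lit 4198574520) (nat_lit 1672) (nat_lit 68681572) (nat_lit 76) (nat_lit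 5973002182) (nat_lit 392) (nat_lit 5) (nat_lit 414) (nat_lit 5) (nat_lit 393) (nat_lit 5) (nat_lit 437) (nat_lit 409) (nat_lit 294)) (XT.lf (nat_lit 0) (nat_lit 5237187649) (nat_lit 1672) (nat_lit 436059981) (nat_lit 1748) (nat_lit 4668075256) (nat_lit 370) (nat_lit 5) (nat_lit 392) (nat_lit 5) (nat_lit 393) (nat_lit 5) (nat_lit 438) (nat_lit 409) (nat_lit 293))))) (XT.nd (nat_lit 234) (nat_lit 1748) (nat_lit 0) (XT.nd (nat_lit 78) (nat_lit 836) (nat_lit 0) (XT.lf (nat_lit 0) (nat_lit 169231259) (nat_lit 1292) (nat_lit 7014065672) (nat_lit 1368) (nat_lit 3261008514) (nat_lit 353) (nat_lit 5) (nat_lit 370) (nat_lit 5) (nat_lit 371) (nat_lit 5) (nat_lit 439) (nat_lit 409) (nat_lit 292)) (XT.nd (nat_lit 78) (nat_lit 836) (nat_lit 0) (XT.lf (nat_lit 0) (nat_lit 5598283144) (nat_lit 1292) (nat_lit 3144416487) (nat_lit 1368) (nat_lit 1806279005) (nat_lit 353) (nat_lit 5) (nat_lit 370) (nat_lit 5) (nat_lit 371) (nat_lit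 5) (nat_lit 440) (nat_lit 409) (nat_lit 291)) (XT.lf (nat_lit 0) (nat_lit 464950123) (nat_lit 836) (nat_lit 9858966926) (nat_lit 912) (nat_lit 332029461) (nat_lit 342) (nat_lit 5) (nat_lit 353) (nat_lit 5) (nat_lit 354) (nat_lit 5) (nat_lit 441) (nat_lit 409) (nat_lit 290)))) (XT.nd (nat_lit 156) (nat_lit 836) (nat_lit 0) (XT.nd (nat_lit 78) (nat_lit 836) (nat_lit 0) (XT.lf (nat_lit 0) (nat_lit 1193113390) (nat_lit 912) (nat_lit 4753271189) (nat_lit 76) (nat_lit 4817794725) (nat_lit 341) (nat_lit 5) (nat_lit 353) (nat_lit 5) (nat_lit 342) (nat_lit 5) (nat_lit 442) (nat_lit 409) (nat_lit 289)) (XT.lf (nat_lit 0) (nat_lit 785381567) (nat_lit 836) (nat_lit 1946887682) (nat_lit 912) (nat_lit 8142517449) (nat_lit 330) (nat_lit 5) (nat_lit 341) (nat_lit 5) (nat_lit 342) (nat_lit 5) (nat_lit 443) (nat_lit 409) (nat_lit 288))) (XT.nd (nat_lit 78) (nat_lit 836) (nat_lit 0) (XT.lf (nat_lit 0) (nat_lit 4331255879) (nat_lit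 912) (nat_lit 4517968332) (nat_lit 76) (nat_lit 2137813783) (nat_lit 330) (nat_lit 5) (nat_lit 342) (nat_lit 5) (nat_lit 331) (nat_lit 5) (nat_lit 444) (nat_lit 409) (nat_lit 287)) (XT.lf (nat_lit 0) (nat_lit 1151238127) (nat_lit 836) (nat_lit 4814776731) (nat_lit 912) (nat_lit 5135456062) (nat_lit 319) (nat_lit 5) (nat_lit 330) (nat_lit 5) (nat_lit 331) (nat_lit 5) (nat_lit 445) (nat_lit 409) (nat_lit 286))))))) (XT.nd (nat_lit 1092) (nat_lit 4180) (nat_lit 0) (XT.nd (nat_lit 546) (nat_lit 2888) (nat_lit 0) (XT.nd (nat_lit 234) (nat_lit 1596) (nat_lit 0) (XT.nd (nat_lit 78) (nat_lit 836) (nat_lit 0) (XT.lf (nat_lit 0) (nat_lit 6979310863) (nat_lit 836) (nat_lit 668123501) (nat_lit 912) (nat_lit 3570491048) (nat_lit 319) (nat_lit 5) (nat_lit 330) (nat_lit 5) (nat_lit 331) (nat_lit 5) (nat_lit 446) (nat_lit 409) (nat_lit 285)) (XT.nd (nat_lit 78) (nat_lit 0) (nat_lit 0) (XT.lf (nat_lit 0) (nat_lit 1568901642)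 (nat_lit 836) (nat_lit 7810862158) (nat_lit 912) (nat_lit 1956611536) (nat_lit 308) (nat_lit 5) (nat_lit 319) (nat_lit 5) (nat_lit 320) (nat_lit 5) (nat_lit 447) (nat_lit 409) (nat_lit 284)) (XT.lf (nat_lit 0) (nat_lit 7529856633) (nat_lit 836) (nat_lit 3633906337) (nat_lit 912) (nat_lit 293102564) (nat_lit 308) (nat_lit 5) (nat_lit 319) (nat_lit 5) (nat_lit 320) (nat_lit 5) (nat_lit 448) (nat_lit 409) (nat_lit 283)))) (XT.nd (nat_lit 156) (nat_lit 760) (nat_lit 0) (XT.nd (nat_lit 78) (nat_lit 0) (nat_lit 0) (XT.lf (nat_lit 0) (nat_lit 1387058022) (nat_lit 836) (nat_lit 9551649736) (nat_lit 76) (nat_lit 640850971) (nat_lit 297) (nat_lit 5) (nat_lit 308) (nat_lit 5) (nat_lit 298) (nat_lit 5) (nat_lit 449) (nat_lit 409) (nat_lit 282)) (XT.lf (nat_lit 0) (nat_lit 3132078768) (nat_lit 836) (nat_lit 3591014230) (nat_lit 76) (nat_lit 4980881470) (nat_lit 297) (nat_lit 5) (nat_lit 308) (nat_lit 5) (nat_lit 298) (nat_lit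 5) (nat_lit 450) (nat_lit 409) (nat_lit 281))) (XT.nd (nat_lit 78) (nat_lit 0) (nat_lit 0) (XT.lf (nat_lit 0) (nat_lit 2506202126) (nat_lit 760) (nat_lit 2406957477) (nat_lit 836) (nat_lit 6917706572) (nat_lit 287) (nat_lit 5) (nat_lit 297) (nat_lit 5) (nat_lit 298) (nat_lit 5) (nat_lit 451) (nat_lit 409) (nat_lit 280)) (XT.lf (nat_lit 0) (nat_lit 6752156299) (nat_lit 836) (nat_lit 3214594494) (nat_lit 76) (nat_lit 1993109669) (nat_lit 287) (nat_lit 5) (nat_lit 298) (nat_lit 5) (nat_lit 288) (nat_lit 5) (nat_lit 452) (nat_lit 409) (nat_lit 279))))) (XT.nd (nat_lit 234) (nat_lit 1368) (nat_lit 0) (XT.nd (nat_lit 78) (nat_lit 836) (nat_lit 0) (XT.lf (nat_lit 0) (nat_lit 3026026172) (nat_lit 684) (nat_lit 5622867319) (nat_lit 760) (nat_lit 3442132356) (nat_lit 278) (nat_lit 5) (nat_lit 287) (nat_lit 5) (nat_lit 288) (nat_lit 5) (nat_lit 453) (nat_lit 409) (nat_lit 278)) (XT.nd (nat_lit 78) (nat_lit 836) (nat_lit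 0) (XT.lf (nat_lit 0) (nat_lit 9419738182) (nat_lit 684) (nat_lit 1170959828) (nat_lit 760) (nat_lit 1633984098) (nat_lit 278) (nat_lit 5) (nat_lit 287) (nat_lit 5) (nat_lit 288) (nat_lit 5) (nat_lit 454) (nat_lit 409) (nat_lit 277)) (XT.lf (nat_lit 0) (nat_lit 238793252) (nat_lit 836) (nat_lit 8771736113) (nat_lit 76) (nat_lit 3349840148) (nat_lit 267) (nat_lit 5) (nat_lit 278) (nat_lit 5) (nat_lit 268) (nat_lit 5) (nat_lit 455) (nat_lit 409) (nat_lit 276)))) (XT.nd (nat_lit 156) (nat_lit 684) (nat_lit 0) (XT.nd (nat_lit 78) (nat_lit 684) (nat_lit 0) (XT.lf (nat_lit 0) (nat_lit 2139784990) (nat_lit 836) (nat_lit 2384370395) (nat_lit 76) (nat_lit 7974156140) (nat_lit 267) (nat_lit 5) (nat_lit 278) (nat_lit 5) (nat_lit 268) (nat_lit 5) (nat_lit 456) (nat_lit 409) (nat_lit 275)) (XT.lf (nat_lit 0) (nat_lit 4092573243) (nat_lit 760) (nat_lit 8468905347) (nat_lit 76) (nat_lit 77267695) (nat_lit 258) (nat_lit 5) (nat_lit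 268) (nat_lit 5) (nat_lit 259) (nat_lit 5) (nat_lit 457) (nat_lit 409) (nat_lit 274))) (XT.nd (nat_lit 78) (nat_lit 684) (nat_lit 0) (XT.lf (nat_lit 0) (nat_lit 6116841271) (nat_lit 760) (nat_lit 1939531955) (nat_lit 76) (nat_lit 4724977290) (nat_lit 258) (nat_lit 5) (nat_lit 268) (nat_lit 5) (nat_lit 259) (nat_lit 5) (nat_lit 458) (nat_lit 409) (nat_lit 273)) (XT.lf (nat_lit 0) (nat_lit 4768009029) (nat_lit 684) (nat_lit 3431166601) (nat_lit 760) (nat_lit 4727288656) (nat_lit 249) (nat_lit 5) (nat_lit 258) (nat_lit 5) (nat_lit 259) (nat_lit 5) (nat_lit 459) (nat_lit 409) (nat_lit 272)))))) (XT.nd (nat_lit 546) (nat_lit 1672) (nat_lit 0) (XT.nd (nat_lit 234) (nat_lit 1824) (nat_lit 0) (XT.nd (nat_lit 78) (nat_lit 684) (nat_lit 0) (XT.lf (nat_lit 0) (nat_lit 10331390296) (nat_lit 760) (nat_lit 1461784836) (nat_lit 76) (nat_lit 1281149423) (nat_lit 249) (nat_lit 5) (nat_lit 259) (nat_lit 5) (nat_lit 250) (nat_lit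 5) (nat_lit 460) (nat_lit 409) (nat_lit 271)) (XT.nd (nat_lit 78) (nat_lit 76) (nat_lit 0) (XT.lf (nat_lit 0) (nat_lit 5402125073) (nat_lit 608) (nat_lit 7148959599) (nat_lit 684) (nat_lit 673169372) (nat_lit 241) (nat_lit 5) (nat_lit 249) (nat_lit 5) (nat_lit 250) (nat_lit 5) (nat_lit 461) (nat_lit 409) (nat_lit 270)) (XT.lf (nat_lit 0) (nat_lit 1416109224) (nat_lit 684) (nat_lit 978162295) (nat_lit 76) (nat_lit 10982792701) (nat_lit 240) (nat_lit 5) (nat_lit 249) (nat_lit 5) (nat_lit 241) (nat_lit 5) (nat_lit 462) (nat_lit 409) (nat_lit 269)))) (XT.nd (nat_lit 156) (nat_lit 1216) (nat_lit 0) (XT.nd (nat_lit 78) (nat_lit 0) (nat_lit 0) (XT.lf (nat_lit 0) (nat_lit 3581110702) (nat_lit 684) (nat_lit 7485401584) (nat_lit 76) (nat_lit 2465478519) (nat_lit 232) (nat_lit 5) (nat_lit 241) (nat_lit 5) (nat_lit 233) (nat_lit 5) (nat_lit 463) (nat_lit 409) (nat_lit 268)) (XT.lf (nat_lit 0) (nat_lit 5799372773) (nat_lit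 684) (nat_lit 495448631) (nat_lit 76) (nat_lit 7395003362) (nat_lit 232) (nat_lit 5) (nat_lit 241) (nat_lit 5) (nat_lit 233) (nat_lit 5) (nat_lit 464) (nat_lit 409) (nat_lit 267))) (XT.nd (nat_lit 78) (nat_lit 608) (nat_lit 0) (XT.lf (nat_lit 0) (nat_lit 6707807447) (nat_lit 608) (nat_lit 1385486338) (nat_lit 684) (nat_lit 5756903649) (nat_lit 224) (nat_lit 5) (nat_lit 232) (nat_lit 5) (nat_lit 233) (nat_lit 5) (nat_lit 465) (nat_lit 409) (nat_lit 266)) (XT.lf (nat_lit 0) (nat_lit 10117443) (nat_lit 608) (nat_lit 10437779342) (nat_lit 684) (nat_lit 3565592443) (nat_lit 216) (nat_lit 5) (nat_lit 224) (nat_lit 5) (nat_lit 225) (nat_lit 5) (nat_lit 466) (nat_lit 409) (nat_lit 265))))) (XT.nd (nat_lit 234) (nat_lit 1064) (nat_lit 0) (XT.nd (nat_lit 78) (nat_lit 608) (nat_lit 0) (XT.lf (nat_lit 0) (nat_lit 7378680678) (nat_lit 608) (nat_lit 5515973409) (nat_lit 684) (nat_lit 1284499120) (nat_lit 216) (nat_lit 5) (nat_lit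 224) (nat_lit 5) (nat_lit 225) (nat_lit 5) (nat_lit 467) (nat_lit 409) (nat_lit 264)) (XT.nd (nat_lit 78) (nat_lit 0) (nat_lit 0) (XT.lf (nat_lit 0) (nat_lit 532305302) (nat_lit 532) (nat_lit 487865799) (nat_lit 608) (nat_lit 13327998849) (nat_lit 208) (nat_lit 5) (nat_lit 215) (nat_lit 5) (nat_lit 216) (nat_lit 5) (nat_lit 468) (nat_lit 409) (nat_lit 263)) (XT.lf (nat_lit 0) (nat_lit 3418109552) (nat_lit 608) (nat_lit 6469196789) (nat_lit 76) (nat_lit 4631810546) (nat_lit 208) (nat_lit 5) (nat_lit 216) (nat_lit 5) (nat_lit 209) (nat_lit 5) (nat_lit 469) (nat_lit 409) (nat_lit 262)))) (XT.nd (nat_lit 156) (nat_lit 532) (nat_lit 0) (XT.nd (nat_lit 78) (nat_lit 0) (nat_lit 0) (XT.lf (nat_lit 0) (nat_lit 1020316604) (nat_lit 532) (nat_lit 4842065292) (nat_lit 608) (nat_lit 8831140379) (nat_lit 201) (nat_lit 5) (nat_lit 208) (nat_lit 5) (nat_lit 209) (nat_lit 5) (nat_lit 470) (nat_lit 409) (nat_lit 261)) (XT.lf (nat_lit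 0) (nat_lit 8389847946) (nat_lit 608) (nat_lit 6139857931) (nat_lit 76) (nat_lit 341030606) (nat_lit 201) (nat_lit 5) (nat_lit 209) (nat_lit 5) (nat_lit 202) (nat_lit 5) (nat_lit 471) (nat_lit 409) (nat_lit 260))) (XT.nd (nat_lit 78) (nat_lit 0) (nat_lit 0) (XT.lf (nat_lit 0) (nat_lit 1517918927) (nat_lit 532) (nat_lit 9480723986) (nat_lit 608) (nat_lit 4052243213) (nat_lit 194) (nat_lit 5) (nat_lit 201) (nat_lit 5) (nat_lit 202) (nat_lit 5) (nat_lit 472) (nat_lit 409) (nat_lit 259)) (XT.lf (nat_lit 0) (nat_lit 9398092379) (nat_lit 532) (nat_lit 4291708351) (nat_lit 608) (nat_lit 1544240902) (nat_lit 194) (nat_lit 5) (nat_lit 201) (nat_lit 5) (nat_lit 202) (nat_lit 5) (nat_lit 473) (nat_lit 409) (nat_lit 258))))))))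
noncomputable def xc171 : XT := (XT.nd (nat_lit 2184) (nat_lit 3192) (nat_lit 0) (XT.nd (nat_lit 1092) (nat_lit 2736) (nat_lit 0) (XT.nd (nat_lit 546) (nat_lit 1444) (nat_lit 0) (XT.nd (nat_lit 234) (nat_lit 1064) (nat_lit 0) (XT.nd (nat_lit 78) (nat_lit 456) (nat_lit 0) (XT.lf (nat_lit 0) (nat_lit 1009479987) (nat_lit 608) (nat_lit 13406231165) (nat_lit 76) (nat_lit 1004846664) (nat_lit 186) (nat_lit 5) (nat_lit 194) (nat_lit 5) (nat_lit 187) (nat_lit 5) (nat_lit 474) (nat_lit 409) (nat_lit 257)) (XT.nd (nat_lit 78) (nat_lit 456) (nat_lit 0) (XT.lf (nat_lit 0) (nat_lit 3650688379) (nat_lit 608) (nat_lit 5562186667) (nat_lit 76) (nat_lit 6396589547) (nat_lit 186) (nat_lit 5) (nat_lit 194) (nat_lit 5) (nat_lit 187) (nat_lit 5) (nat_lit 475) (nat_lit 409) (nat_lit 256)) (XT.lf (nat_lit 0) (nat_lit 2457266733) (nat_lit 456) (nat_lit 3892847223) (nat_lit 532) (nat_lit 9451933797) (nat_lit 180) (nat_lit 5) (nat_lit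 186) (nat_lit 5) (nat_lit 187) (nat_lit 5) (nat_lit 476) (nat_lit 409) (nat_lit 255)))) (XT.nd (nat_lit 156) (nat_lit 532) (nat_lit 0) (XT.nd (nat_lit 78) (nat_lit 532) (nat_lit 0) (XT.lf (nat_lit 0) (nat_lit 9140594431) (nat_lit 532) (nat_lit 5309237807) (nat_lit 76) (nat_lit 1547914998) (nat_lit 180) (nat_lit 5) (nat_lit 187) (nat_lit 5) (nat_lit 181) (nat_lit 5) (nat_lit 477) (nat_lit 409) (nat_lit 254)) (XT.lf (nat_lit 0) (nat_lit 2885547329) (nat_lit 532) (nat_lit 9135594646) (nat_lit 608) (nat_lit 4175539453) (nat_lit 173) (nat_lit 5) (nat_lit 180) (nat_lit 5) (nat_lit 181) (nat_lit 5) (nat_lit 478) (nat_lit 409) (nat_lit 253))) (XT.nd (nat_lit 78) (nat_lit 532) (nat_lit 0) (XT.lf (nat_lit 0) (nat_lit 11302752349) (nat_lit 532) (nat_lit 3682031879) (nat_lit 608) (nat_lit 1414306156) (nat_lit 173) (nat_lit 5) (nat_lit 180) (nat_lit 5) (nat_lit 181) (nat_lit 5) (nat_lit 479) (nat_lit 409) (nat_lit 252)) (XT.lf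 (nat_lit 0) (nat_lit 1407586344) (nat_lit 532) (nat_lit 13313873970) (nat_lit 76) (nat_lit 1883434182) (nat_lit 166) (nat_lit 5) (nat_lit 173) (nat_lit 5) (nat_lit 167) (nat_lit 5) (nat_lit 480) (nat_lit 409) (nat_lit 251))))) (XT.nd (nat_lit 234) (nat_lit 988) (nat_lit 0) (XT.nd (nat_lit 78) (nat_lit 456) (nat_lit 0) (XT.lf (nat_lit 0) (nat_lit 4315879107) (nat_lit 532) (nat_lit 4946312615) (nat_lit 76) (nat_lit 7551463420) (nat_lit 166) (nat_lit 5) (nat_lit 173) (nat_lit 5) (nat_lit 167) (nat_lit 5) (nat_lit 481) (nat_lit 409) (nat_lit 250)) (XT.nd (nat_lit 78) (nat_lit 0) (nat_lit 0) (XT.lf (nat_lit 0) (nat_lit 3622965513) (nat_lit 456) (nat_lit 3673161922) (nat_lit 532) (nat_lit 9730193089) (nat_lit 160) (nat_lit 5) (nat_lit 166) (nat_lit 5) (nat_lit 167) (nat_lit 5) (nat_lit 482) (nat_lit 409) (nat_lit 249)) (XT.lf (nat_lit 0) (nat_lit 10372908473) (nat_lit 532) (nat_lit 4838521468) (nat_lit 76) (nat_lit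 2031075929) (nat_lit 160) (nat_lit 5) (nat_lit 167) (nat_lit 5) (nat_lit 161) (nat_lit 5) (nat_lit 483) (nat_lit 409) (nat_lit 248)))) (XT.nd (nat_lit 156) (nat_lit 532) (nat_lit 0) (XT.nd (nat_lit 78) (nat_lit 0) (nat_lit 0) (XT.lf (nat_lit 0) (nat_lit 3911604945) (nat_lit 456) (nat_lit 9639882422) (nat_lit 532) (nat_lit 3910727421) (nat_lit 154) (nat_lit 5) (nat_lit 160) (nat_lit 5) (nat_lit 161) (nat_lit 5) (nat_lit 484) (nat_lit 409) (nat_lit 247)) (XT.lf (nat_lit 0) (nat_lit 12889427085) (nat_lit 456) (nat_lit 3927321482) (nat_lit 532) (nat_lit 869112113) (nat_lit 154) (nat_lit 5) (nat_lit 160) (nat_lit 5) (nat_lit 161) (nat_lit 5) (nat_lit 485) (nat_lit 409) (nat_lit 246))) (XT.nd (nat_lit 78) (nat_lit 0) (nat_lit 0) (XT.lf (nat_lit 0) (nat_lit 2234399483) (nat_lit 532) (nat_lit 13765806100) (nat_lit 76) (nat_lit 1912881623) (nat_lit 147) (nat_lit 5) (nat_lit 154) (nat_lit 5) (nat_lit 148) (nat_lit 5) (nat_lit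 486) (nat_lit 409) (nat_lit 245)) (XT.lf (nat_lit 0) (nat_lit 5437598688) (nat_lit 532) (nat_lit 4854154689) (nat_lit 76) (nat_lit 7852009616) (nat_lit 147) (nat_lit 5) (nat_lit 154) (nat_lit 5) (nat_lit 148) (nat_lit 5) (nat_lit 487) (nat_lit 409) (nat_lit 244)))))) (XT.nd (nat_lit 546) (nat_lit 1064) (nat_lit 0) (XT.nd (nat_lit 234) (nat_lit 836) (nat_lit 0) (XT.nd (nat_lit 78) (nat_lit 456) (nat_lit 0) (XT.lf (nat_lit 0) (nat_lit 4279255345) (nat_lit 380) (nat_lit 4444405403) (nat_lit 456) (nat_lit 9655020197) (nat_lit 142) (nat_lit 5) (nat_lit 147) (nat_lit 5) (nat_lit 148) (nat_lit 5) (nat_lit 488) (nat_lit 409) (nat_lit 243)) (XT.nd (nat_lit 78) (nat_lit 456) (nat_lit 0) (XT.lf (nat_lit 0) (nat_lit 12109188326) (nat_lit 456) (nat_lit 4979270240) (nat_lit 76) (nat_lit 1529168342) (nat_lit 142) (nat_lit 5) (nat_lit 148) (nat_lit 5) (nat_lit 143) (nat_lit 5) (nat_lit 489) (nat_lit 409) (nat_lit 242)) (XT.lf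 (nat_lit 0) (nat_lit 4338327999) (nat_lit 456) (nat_lit 11272960175) (nat_lit 532) (nat_lit 3249090831) (nat_lit 136) (nat_lit 5) (nat_lit 142) (nat_lit 5) (nat_lit 143) (nat_lit 5) (nat_lit 490) (nat_lit 409) (nat_lit 241)))) (XT.nd (nat_lit 156) (nat_lit 380) (nat_lit 0) (XT.nd (nat_lit 78) (nat_lit 380) (nat_lit 0) (XT.lf (nat_lit 0) (nat_lit 99380121) (nat_lit 532) (nat_lit 5210718769) (nat_lit 76) (nat_lit 13797383218) (nat_lit 135) (nat_lit 5) (nat_lit 142) (nat_lit 5) (nat_lit 136) (nat_lit 5) (nat_lit 491) (nat_lit 409) (nat_lit 240)) (XT.lf (nat_lit 0) (nat_lit 3496114819) (nat_lit 456) (nat_lit 15054403097) (nat_lit 76) (nat_lit 808088027) (nat_lit 130) (nat_lit 5) (nat_lit 136) (nat_lit 5) (nat_lit 131) (nat_lit 5) (nat_lit 492) (nat_lit 409) (nat_lit 239))) (XT.nd (nat_lit 78) (nat_lit 380) (nat_lit 0) (XT.lf (nat_lit 0) (nat_lit 7022674986) (nat_lit 456) (nat_lit 5581682838) (nat_lit 76) (nat_lit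 7009160725) (nat_lit 130) (nat_lit 5) (nat_lit 136) (nat_lit 5) (nat_lit 131) (nat_lit 5) (nat_lit 493) (nat_lit 409) (nat_lit 238)) (XT.lf (nat_lit 0) (nat_lit 4122512562) (nat_lit 380) (nat_lit 6515712354) (nat_lit 456) (nat_lit 9234939348) (nat_lit 125) (nat_lit 5) (nat_lit 130) (nat_lit 5) (nat_lit 131) (nat_lit 5) (nat_lit 494) (nat_lit 409) (nat_lit 237))))) (XT.nd (nat_lit 234) (nat_lit 684) (nat_lit 0) (XT.nd (nat_lit 78) (nat_lit 380) (nat_lit 0) (XT.lf (nat_lit 0) (nat_lit 14084485550) (nat_lit 380) (nat_lit 270833993) (nat_lit 456) (nat_lit 5782102628) (nat_lit 125) (nat_lit 5) (nat_lit 130) (nat_lit 5) (nat_lit 131) (nat_lit 5) (nat_lit 495) (nat_lit 409) (nat_lit 236)) (XT.nd (nat_lit 78) (nat_lit 76) (nat_lit 0) (XT.lf (nat_lit 0) (nat_lit 3837590980) (nat_lit 304) (nat_lit 14365594694) (nat_lit 380) (nat_lit 2202654841) (nat_lit 121) (nat_lit 5) (nat_lit 125) (nat_lit 5) (nat_lit 126) (nat_lit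 5) (nat_lit 496) (nat_lit 409) (nat_lit 235)) (XT.lf (nat_lit 0) (nat_lit 1464007343) (nat_lit 380) (nat_lit 6694209844) (nat_lit 76) (nat_lit 12520533260) (nat_lit 120) (nat_lit 5) (nat_lit 125) (nat_lit 5) (nat_lit 121) (nat_lit 5) (nat_lit 497) (nat_lit 409) (nat_lit 234)))) (XT.nd (nat_lit 156) (nat_lit 304) (nat_lit 0) (XT.nd (nat_lit 78) (nat_lit 0) (nat_lit 0) (XT.lf (nat_lit 0) (nat_lit 3395583869) (nat_lit 380) (nat_lit 1793097586) (nat_lit 456) (nat_lit 15767866138) (nat_lit 115) (nat_lit 5) (nat_lit 120) (nat_lit 5) (nat_lit 121) (nat_lit 5) (nat_lit 498) (nat_lit 409) (nat_lit 233)) (XT.lf (nat_lit 0) (nat_lit 9055732761) (nat_lit 456) (nat_lit 7503627700) (nat_lit 76) (nat_lit 4679186122) (nat_lit 115) (nat_lit 5) (nat_lit 121) (nat_lit 5) (nat_lit 116) (nat_lit 5) (nat_lit 499) (nat_lit 409) (nat_lit 232))) (XT.nd (nat_lit 78) (nat_lit 0) (nat_lit 0) (XT.lf (nat_lit 0) (nat_lit 2767778113) (nat_lit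 304) (nat_lit 10254499320) (nat_lit 380) (nat_lit 8503468582) (nat_lit 111) (nat_lit 5) (nat_lit 115) (nat_lit 5) (nat_lit 116) (nat_lit 5) (nat_lit 500) (nat_lit 409) (nat_lit 231)) (XT.lf (nat_lit 0) (nat_lit 13334899342) (nat_lit 304) (nat_lit 3775990868) (nat_lit 380) (nat_lit 4706947920) (nat_lit 111) (nat_lit 5) (nat_lit 115) (nat_lit 5) (nat_lit 116) (nat_lit 5) (nat_lit 501) (nat_lit 409) (nat_lit 230))))))) (XT.nd (nat_lit 1092) (nat_lit 836) (nat_lit 0) (XT.nd (nat_lit 546) (nat_lit 1216) (nat_lit 0) (XT.nd (nat_lit 234) (nat_lit 380) (nat_lit 0) (XT.nd (nat_lit 78) (nat_lit 380) (nat_lit 0) (XT.lf (nat_lit 0) (nat_lit 1994024347) (nat_lit 380) (nat_lit 19311094217) (nat_lit 456) (nat_lit 810180028) (nat_lit 106) (nat_lit 5) (nat_lit 111) (nat_lit 5) (nat_lit 112) (nat_lit 5) (nat_lit 502) (nat_lit 409) (nat_lit 229)) (XT.nd (nat_lit 78) (nat_lit 304) (nat_lit 0) (XT.lf (nat_lit 0) (nat_lit 3197858881)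 (nat_lit 456) (nat_lit 9679343001) (nat_lit 76) (nat_lit 9539601918) (nat_lit 105) (nat_lit 5) (nat_lit 111) (nat_lit 5) (nat_lit 106) (nat_lit 5) (nat_lit 503) (nat_lit 409) (nat_lit 228)) (XT.lf (nat_lit 0) (nat_lit 967615894) (nat_lit 304) (nat_lit 6306563790) (nat_lit 380) (nat_lit 15450076113) (nat_lit 101) (nat_lit 5) (nat_lit 105) (nat_lit 5) (nat_lit 106) (nat_lit 5) (nat_lit 504) (nat_lit 409) (nat_lit 227)))) (XT.nd (nat_lit 156) (nat_lit 380) (nat_lit 0) (XT.nd (nat_lit 78) (nat_lit 0) (nat_lit 0) (XT.lf (nat_lit 0) (nat_lit 11492702208) (nat_lit 380) (nat_lit 11092021804) (nat_lit 76) (nat_lit 451922428) (nat_lit 101) (nat_lit 5) (nat_lit 106) (nat_lit 5) (nat_lit 102) (nat_lit 5) (nat_lit 505) (nat_lit 409) (nat_lit 226)) (XT.lf (nat_lit 0) (nat_lit 15830227073) (nat_lit 380) (nat_lit 266843462) (nat_lit 76) (nat_lit 7257524778) (nat_lit 101) (nat_lit 5) (nat_lit 106) (nat_lit 5) (nat_lit 102) (nat_lit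 5) (nat_lit 506) (nat_lit 409) (nat_lit 225))) (XT.nd (nat_lit 78) (nat_lit 76) (nat_lit 0) (XT.lf (nat_lit 0) (nat_lit 10907135732) (nat_lit 304) (nat_lit 9411189501) (nat_lit 380) (nat_lit 3359304468) (nat_lit 97) (nat_lit 5) (nat_lit 101) (nat_lit 5) (nat_lit 102) (nat_lit 5) (nat_lit 507) (nat_lit 409) (nat_lit 224)) (XT.lf (nat_lit 0) (nat_lit 872228364) (nat_lit 380) (nat_lit 1715438140) (nat_lit 76) (nat_lit 21419449144) (nat_lit 96) (nat_lit 5) (nat_lit 101) (nat_lit 5) (nat_lit 97) (nat_lit 5) (nat_lit 508) (nat_lit 409) (nat_lit 223))))) (XT.nd (nat_lit 234) (nat_lit 608) (nat_lit 0) (XT.nd (nat_lit 78) (nat_lit 304) (nat_lit 0) (XT.lf (nat_lit 0) (nat_lit 5228224922) (nat_lit 380) (nat_lit 14716031243) (nat_lit 76) (nat_lit 4396797586) (nat_lit 92) (nat_lit 5) (nat_lit 97) (nat_lit 5) (nat_lit 93) (nat_lit 5) (nat_lit 509) (nat_lit 409) (nat_lit 222)) (XT.nd (nat_lit 78) (nat_lit 304) (nat_lit 0) (XT.lf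 (nat_lit 0) (nat_lit 9693269966) (nat_lit 380) (nat_lit 3493717701) (nat_lit 76) (nat_lit 11494247144) (nat_lit 92) (nat_lit 5) (nat_lit 97) (nat_lit 5) (nat_lit 93) (nat_lit 5) (nat_lit 510) (nat_lit 409) (nat_lit 221)) (XT.lf (nat_lit 0) (nat_lit 8048193855) (nat_lit 304) (nat_lit 6245013486) (nat_lit 380) (nat_lit 10734103034) (nat_lit 88) (nat_lit 5) (nat_lit 92) (nat_lit 5) (nat_lit 93) (nat_lit 5) (nat_lit 511) (nat_lit 409) (nat_lit 220)))) (XT.nd (nat_lit 156) (nat_lit 380) (nat_lit 0) (XT.nd (nat_lit 78) (nat_lit 228) (nat_lit 0) (XT.lf (nat_lit 0) (nat_lit 19007546507) (nat_lit 380) (nat_lit 5527562214) (nat_lit 76) (nat_lit 844753326) (nat_lit 88) (nat_lit 5) (nat_lit 93) (nat_lit 5) (nat_lit 89) (nat_lit 5) (nat_lit 512) (nat_lit 409) (nat_lit 219)) (XT.lf (nat_lit 0) (nat_lit 6182511267) (nat_lit 228) (nat_lit 17708666257) (nat_lit 304) (nat_lit 1846789735) (nat_lit 85) (nat_lit 5) (nat_lit 88) (nat_lit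 5) (nat_lit 89) (nat_lit 5) (nat_lit 513) (nat_lit 409) (nat_lit 218))) (XT.nd (nat_lit 78) (nat_lit 304) (nat_lit 0) (XT.lf (nat_lit 0) (nat_lit 2763788481) (nat_lit 304) (nat_lit 7929264550) (nat_lit 76) (nat_lit 15409207230) (nat_lit 84) (nat_lit 5) (nat_lit 88) (nat_lit 5) (nat_lit 85) (nat_lit 5) (nat_lit 514) (nat_lit 409) (nat_lit 217)) (XT.lf (nat_lit 0) (nat_lit 3959085445) (nat_lit 304) (nat_lit 3502141999) (nat_lit 380) (nat_lit 19011982437) (nat_lit 80) (nat_lit 5) (nat_lit 84) (nat_lit 5) (nat_lit 85) (nat_lit 5) (nat_lit 515) (nat_lit 409) (nat_lit 216)))))) (XT.nd (nat_lit 546) (nat_lit 0) (nat_lit 0) (XT.nd (nat_lit 234) (nat_lit 608) (nat_lit 0) (XT.nd (nat_lit 78) (nat_lit 228) (nat_lit 0) (XT.lf (nat_lit 0) (nat_lit 12324745979) (nat_lit 380) (nat_lit 10693161682) (nat_lit 76) (nat_lit 3832230624) (nat_lit 80) (nat_lit 5) (nat_lit 85) (nat_lit 5) (nat_lit 81) (nat_lit 5) (nat_lit 516) (nat_lit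 409) (nat_lit 215)) (XT.nd (nat_lit 78) (nat_lit 0) (nat_lit 0) (XT.lf (nat_lit 0) (nat_lit 1348818300) (nat_lit 228) (nat_lit 15962475993) (nat_lit 304) (nat_lit 9922798135) (nat_lit 77) (nat_lit 5) (nat_lit 80) (nat_lit 5) (nat_lit 81) (nat_lit 5) (nat_lit 517) (nat_lit 409) (nat_lit 214)) (XT.lf (nat_lit 0) (nat_lit 13766752602) (nat_lit 228) (nat_lit 8696444254) (nat_lit 304) (nat_lit 5161218649) (nat_lit 77) (nat_lit 5) (nat_lit 80) (nat_lit 5) (nat_lit 81) (nat_lit 5) (nat_lit 518) (nat_lit 409) (nat_lit 213)))) (XT.nd (nat_lit 156) (nat_lit 228) (nat_lit 0) (XT.nd (nat_lit 78) (nat_lit 380) (nat_lit 0) (XT.lf (nat_lit 0) (nat_lit 26423404510) (nat_lit 228) (nat_lit 1288719762) (nat_lit 304) (nat_lit 310543303) (nat_lit 77) (nat_lit 5) (nat_lit 80) (nat_lit 5) (nat_lit 81) (nat_lit 5) (nat_lit 519) (nat_lit 409) (nat_lit 212)) (XT.lf (nat_lit 0) (nat_lit 4683210031) (nat_lit 380) (nat_lit 17459263943) (nat_lit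 76) (nat_lit 6283673115) (nat_lit 72) (nat_lit 5) (nat_lit 77) (nat_lit 5) (nat_lit 73) (nat_lit 5) (nat_lit 520) (nat_lit 409) (nat_lit 211))) (XT.nd (nat_lit 78) (nat_lit 228) (nat_lit 0) (XT.lf (nat_lit 0) (nat_lit 9786116766) (nat_lit 380) (nat_lit 5051679925) (nat_lit 76) (nat_lit 13999591856) (nat_lit 72) (nat_lit 5) (nat_lit 77) (nat_lit 5) (nat_lit 73) (nat_lit 5) (nat_lit 521) (nat_lit 409) (nat_lit 210)) (XT.lf (nat_lit 0) (nat_lit 7695605746) (nat_lit 228) (nat_lit 7339651734) (nat_lit 304) (nat_lit 14220715934) (nat_lit 69) (nat_lit 5) (nat_lit 72) (nat_lit 5) (nat_lit 73) (nat_lit 5) (nat_lit 522) (nat_lit 409) (nat_lit 209))))) (XT.nd (nat_lit 50778) (nat_lit 0) (nat_lit 30096) (XT.nd (nat_lit 50622) (nat_lit 0) (nat_lit 30020) (XT.nd (nat_lit 50544) (nat_lit 0) (nat_lit 31464) (XT.lf (nat_lit 0) (nat_lit 20419748272) (nat_lit 304) (nat_lit 8927576307) (nat_lit 76) (nat_lit 335000109) (nat_lit 69)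 (nat_lit 5) (nat_lit 73) (nat_lit 5) (nat_lit 70) (nat_lit 5) (nat_lit 523) (nat_lit 409) (nat_lit 208)) (XT.lf (nat_lit 0) (nat_lit 1814535826) (nat_lit 0) (nat_lit 1814535826) (nat_lit 1292) (nat_lit 466198201) (nat_lit 483) (nat_lit 5) (nat_lit 483) (nat_lit 3) (nat_lit 500) (nat_lit 3) (nat_lit 410) (nat_lit 410) (nat_lit 320))) (XT.nd (nat_lit 78) (nat_lit 0) (nat_lit 76) (XT.lf (nat_lit 0) (nat_lit 161693588) (nat_lit 1444) (nat_lit 801535974) (nat_lit 1444) (nat_lit 7286547793) (nat_lit 464) (nat_lit 3) (nat_lit 483) (nat_lit 3) (nat_lit 483) (nat_lit 5) (nat_lit 411) (nat_lit 410) (nat_lit 319)) (XT.lf (nat_lit 0) (nat_lit 1268058195) (nat_lit 1368) (nat_lit 5269091179) (nat_lit 1444) (nat_lit 1772894978) (nat_lit 465) (nat_lit 5) (nat_lit 483) (nat_lit 5) (nat_lit 484) (nat_lit 5) (nat_lit 412) (nat_lit 410) (nat_lit 318)))) (XT.nd (nat_lit 156) (nat_lit 0) (nat_lit 76) (XT.nd (nat_lit 78) (nat_lit 0)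 (nat_lit 0) (XT.lf (nat_lit 0) (nat_lit 2380279961) (nat_lit 1368) (nat_lit 1421855393) (nat_lit 1444) (nat_lit 4569731652) (nat_lit 465) (nat_lit 5) (nat_lit 483) (nat_lit 5) (nat_lit 484) (nat_lit 5) (nat_lit 413) (nat_lit 410) (nat_lit 317)) (XT.lf (nat_lit 76) (nat_lit 2520490829) (nat_lit 0) (nat_lit 983106808) (nat_lit 1444) (nat_lit 4931575870) (nat_lit 466) (nat_lit 5) (nat_lit 465) (nat_lit 5) (nat_lit 484) (nat_lit 5) (nat_lit 414) (nat_lit 410) (nat_lit 316))) (XT.nd (nat_lit 78) (nat_lit 0) (nat_lit 0) (XT.lf (nat_lit 0) (nat_lit 4644282252) (nat_lit 1368) (nat_lit 1966385033) (nat_lit 1444) (nat_lit 1889204787) (nat_lit 466) (nat_lit 5) (nat_lit 484) (nat_lit 5) (nat_lit 485) (nat_lit 5) (nat_lit 415) (nat_lit 410) (nat_lit 315)) (XT.lf (nat_lit 76) (nat_lit 2066332905) (nat_lit 0) (nat_lit 3734913432) (nat_lit 1444) (nat_lit 2764772433) (nat_lit 467) (nat_lit 5) (nat_lit 466) (nat_lit 5) (nat_lit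 485) (nat_lit 5) (nat_lit 416) (nat_lit 410) (nat_lit 314))))))))
noncomputable def xc172 : XT := (XT.nd (nat_lit 2184) (nat_lit 9804) (nat_lit 0) (XT.nd (nat_lit 1092) (nat_lit 7676) (nat_lit 0) (XT.nd (nat_lit 546) (nat_lit 1292) (nat_lit 0) (XT.nd (nat_lit 234) (nat_lit 0) (nat_lit 0) (XT.nd (nat_lit 78) (nat_lit 1368) (nat_lit 0) (XT.lf (nat_lit 76) (nat_lit 6191324297) (nat_lit 0) (nat_lit 777181236) (nat_lit 1444) (nat_lit 1665262767) (nat_lit 467) (nat_lit 5) (nat_lit 466) (nat_lit 5) (nat_lit 485) (nat_lit 5) (nat_lit 417) (nat_lit 410) (nat_lit 313)) (XT.nd (nat_lit 78) (nat_lit 1444) (nat_lit 0) (XT.lf (nat_lit 76) (nat_lit 1688197918) (nat_lit 0) (nat_lit 6470955526) (nat_lit 1444) (nat_lit 543741070) (nat_lit 468) (nat_lit 5) (nat_lit 467) (nat_lit 5) (nat_lit 486) (nat_lit 5) (nat_lit 418) (nat_lit 410) (nat_lit 312)) (XT.lf (nat_lit 0) (nat_lit 588738128) (nat_lit 1444) (nat_lit 2863267605) (nat_lit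 1520) (nat_lit 5321413290) (nat_lit 448) (nat_lit 5) (nat_lit 467) (nat_lit 5) (nat_lit 468) (nat_lit 5) (nat_lit 419) (nat_lit 410) (nat_lit 311)))) (XT.nd (nat_lit 156) (nat_lit 0) (nat_lit 76) (XT.nd (nat_lit 78) (nat_lit 0) (nat_lit 76) (XT.lf (nat_lit 76) (nat_lit 1370265809) (nat_lit 0) (nat_lit 350472340) (nat_lit 1520) (nat_lit 7124882215) (nat_lit 449) (nat_lit 5) (nat_lit 448) (nat_lit 5) (nat_lit 468) (nat_lit 5) (nat_lit 420) (nat_lit 410) (nat_lit 310)) (XT.lf (nat_lit 0) (nat_lit 2888678577) (nat_lit 1444) (nat_lit 3225752488) (nat_lit 1520) (nat_lit 2804589505) (nat_lit 449) (nat_lit 5) (nat_lit 468) (nat_lit 5) (nat_lit 469) (nat_lit 5) (nat_lit 421) (nat_lit 410) (nat_lit 309))) (XT.nd (nat_lit 78) (nat_lit 0) (nat_lit 76) (XT.lf (nat_lit 76) (nat_lit 1105567811) (nat_lit 0) (nat_lit 2960080336) (nat_lit 1520) (nat_lit 4928547663) (nat_lit 450) (nat_lit 5) (nat_lit 449) (nat_lit 5) (nat_lit 469)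 (nat_lit 5) (nat_lit 422) (nat_lit 410) (nat_lit 308)) (XT.lf (nat_lit 0) (nat_lit 5266209361) (nat_lit 1444) (nat_lit 3520908252) (nat_lit 1520) (nat_lit 283775934) (nat_lit 450) (nat_lit 5) (nat_lit 469) (nat_lit 5) (nat_lit 470) (nat_lit 5) (nat_lit 423) (nat_lit 410) (nat_lit 307))))) (XT.nd (nat_lit 234) (nat_lit 1444) (nat_lit 0) (XT.nd (nat_lit 78) (nat_lit 0) (nat_lit 0) (XT.lf (nat_lit 76) (nat_lit 910928545) (nat_lit 0) (nat_lit 5582421243) (nat_lit 1520) (nat_lit 2655743733) (nat_lit 451) (nat_lit 5) (nat_lit 450) (nat_lit 5) (nat_lit 470) (nat_lit 5) (nat_lit 424) (nat_lit 410) (nat_lit 306)) (XT.nd (nat_lit 78) (nat_lit 0) (nat_lit 76) (XT.lf (nat_lit 76) (nat_lit 5463650270) (nat_lit 0) (nat_lit 2282409853) (nat_lit 1520) (nat_lit 1482796090) (nat_lit 451) (nat_lit 5) (nat_lit 450) (nat_lit 5) (nat_lit 470) (nat_lit 5) (nat_lit 425) (nat_lit 410) (nat_lit 305)) (XT.lf (nat_lit 76) (nat_lit 784786937)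 (nat_lit 0) (nat_lit 8229056964) (nat_lit 1520) (nat_lit 296588752) (nat_lit 452) (nat_lit 5) (nat_lit 451) (nat_lit 5) (nat_lit 471) (nat_lit 5) (nat_lit 426) (nat_lit 410) (nat_lit 304)))) (XT.nd (nat_lit 156) (nat_lit 0) (nat_lit 76) (XT.nd (nat_lit 78) (nat_lit 0) (nat_lit 0) (XT.lf (nat_lit 0) (nat_lit 919971542) (nat_lit 1520) (nat_lit 3953418973) (nat_lit 1596) (nat_lit 4519777507) (nat_lit 431) (nat_lit 5) (nat_lit 451) (nat_lit 5) (nat_lit 452) (nat_lit 5) (nat_lit 427) (nat_lit 410) (nat_lit 303)) (XT.lf (nat_lit 76) (nat_lit 701916391) (nat_lit 0) (nat_lit 1438024904) (nat_lit 1596) (nat_lit 7337934394) (nat_lit 432) (nat_lit 5) (nat_lit 431) (nat_lit 5) (nat_lit 452) (nat_lit 5) (nat_lit 428) (nat_lit 410) (nat_lit 302))) (XT.nd (nat_lit 78) (nat_lit 0) (nat_lit 0) (XT.lf (nat_lit 0) (nat_lit 3403276793) (nat_lit 1520) (nat_lit 4089342047) (nat_lit 1596) (nat_lit 2071296786) (nat_lit 432) (nat_lit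 5) (nat_lit 452) (nat_lit 5) (nat_lit 453) (nat_lit 5) (nat_lit 429) (nat_lit 410) (nat_lit 301)) (XT.lf (nat_lit 76) (nat_lit 674692350) (nat_lit 0) (nat_lit 4010352289) (nat_lit 1596) (nat_lit 4966785509) (nat_lit 433) (nat_lit 5) (nat_lit 432) (nat_lit 5) (nat_lit 453) (nat_lit 5) (nat_lit 430) (nat_lit 410) (nat_lit 300)))))) (XT.nd (nat_lit 546) (nat_lit 4712) (nat_lit 0) (XT.nd (nat_lit 234) (nat_lit 3040) (nat_lit 0) (XT.nd (nat_lit 78) (nat_lit 0) (nat_lit 76) (XT.lf (nat_lit 76) (nat_lit 5573901875) (nat_lit 0) (nat_lit 425555104) (nat_lit 1596) (nat_lit 3741922566) (nat_lit 433) (nat_lit 5) (nat_lit 432) (nat_lit 5) (nat_lit 453) (nat_lit 5) (nat_lit 431) (nat_lit 410) (nat_lit 299)) (XT.nd (nat_lit 78) (nat_lit 0) (nat_lit 0) (XT.lf (nat_lit 76) (nat_lit 711042477) (nat_lit 0) (nat_lit 6634708332) (nat_lit 1596) (nat_lit 2486873692) (nat_lit 434) (nat_lit 5) (nat_lit 433) (nat_lit 5) (nat_lit 454)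 (nat_lit 5) (nat_lit 432) (nat_lit 410) (nat_lit 298)) (XT.lf (nat_lit 76) (nat_lit 5725190512) (nat_lit 0) (nat_lit 3004835998) (nat_lit 1596) (nat_lit 1195462842) (nat_lit 434) (nat_lit 5) (nat_lit 433) (nat_lit 5) (nat_lit 454) (nat_lit 5) (nat_lit 433) (nat_lit 410) (nat_lit 297)))) (XT.nd (nat_lit 156) (nat_lit 1596) (nat_lit 0) (XT.nd (nat_lit 78) (nat_lit 0) (nat_lit 0) (XT.lf (nat_lit 0) (nat_lit 110590880) (nat_lit 1596) (nat_lit 9211345069) (nat_lit 76) (nat_lit 698466991) (nat_lit 413) (nat_lit 5) (nat_lit 434) (nat_lit 5) (nat_lit 414) (nat_lit 5) (nat_lit 434) (nat_lit 410) (nat_lit 296)) (XT.lf (nat_lit 0) (nat_lit 1455884787) (nat_lit 1596) (nat_lit 4184984126) (nat_lit 76) (nat_lit 4475620505) (nat_lit 413) (nat_lit 5) (nat_lit 434) (nat_lit 5) (nat_lit 414) (nat_lit 5) (nat_lit 435) (nat_lit 410) (nat_lit 295))) (XT.nd (nat_lit 78) (nat_lit 0) (nat_lit 0) (XT.lf (nat_lit 0) (nat_lit 938658125)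 (nat_lit 1596) (nat_lit 1876735483) (nat_lit 1672) (nat_lit 7399372724) (nat_lit 392) (nat_lit 5) (nat_lit 413) (nat_lit 5) (nat_lit 414) (nat_lit 5) (nat_lit 436) (nat_lit 410) (nat_lit 294)) (XT.lf (nat_lit 0) (nat_lit 4224607593) (nat_lit 1672) (nat_lit 4121733405) (nat_lit 76) (nat_lit 1968232082) (nat_lit 392) (nat_lit 5) (nat_lit 414) (nat_lit 5) (nat_lit 393) (nat_lit 5) (nat_lit 437) (nat_lit 410) (nat_lit 293))))) (XT.nd (nat_lit 234) (nat_lit 1748) (nat_lit 0) (XT.nd (nat_lit 78) (nat_lit 1292) (nat_lit 0) (XT.lf (nat_lit 0) (nat_lit 1122473520) (nat_lit 1672) (nat_lit 4541114120) (nat_lit 1748) (nat_lit 4752770997) (nat_lit 370) (nat_lit 5) (nat_lit 392) (nat_lit 5) (nat_lit 393) (nat_lit 5) (nat_lit 438) (nat_lit 410) (nat_lit 292)) (XT.nd (nat_lit 78) (nat_lit 1292) (nat_lit 0) (XT.lf (nat_lit 0) (nat_lit 6511989952) (nat_lit 1672) (nat_lit 629136865) (nat_lit 1748) (nat_lit 3378871525) (nat_lit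 370) (nat_lit 5) (nat_lit 392) (nat_lit 5) (nat_lit 393) (nat_lit 5) (nat_lit 439) (nat_lit 410) (nat_lit 291)) (XT.lf (nat_lit 0) (nat_lit 1364131563) (nat_lit 1292) (nat_lit 7297251020) (nat_lit 1368) (nat_lit 1964078698) (nat_lit 353) (nat_lit 5) (nat_lit 370) (nat_lit 5) (nat_lit 371) (nat_lit 5) (nat_lit 440) (nat_lit 410) (nat_lit 290)))) (XT.nd (nat_lit 156) (nat_lit 836) (nat_lit 0) (XT.nd (nat_lit 78) (nat_lit 912) (nat_lit 0) (XT.lf (nat_lit 0) (nat_lit 6878401433) (nat_lit 1292) (nat_lit 3347406811) (nat_lit 1368) (nat_lit 506963421) (nat_lit 353) (nat_lit 5) (nat_lit 370) (nat_lit 5) (nat_lit 371) (nat_lit 5) (nat_lit 441) (nat_lit 410) (nat_lit 289)) (XT.lf (nat_lit 0) (nat_lit 964725717) (nat_lit 912) (nat_lit 9185994497) (nat_lit 76) (nat_lit 691428336) (nat_lit 341) (nat_lit 5) (nat_lit 353) (nat_lit 5) (nat_lit 342) (nat_lit 5) (nat_lit 442) (nat_lit 410) (nat_lit 288))) (XT.nd (nat_lit 78) (nat_lit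 836) (nat_lit 0) (XT.lf (nat_lit 0) (nat_lit 2490460020) (nat_lit 912) (nat_lit 3665372939) (nat_lit 76) (nat_lit 4797197708) (nat_lit 341) (nat_lit 5) (nat_lit 353) (nat_lit 5) (nat_lit 342) (nat_lit 5) (nat_lit 443) (nat_lit 410) (nat_lit 287)) (XT.lf (nat_lit 0) (nat_lit 1976270216) (nat_lit 836) (nat_lit 2066788554) (nat_lit 912) (nat_lit 7023157118) (nat_lit 330) (nat_lit 5) (nat_lit 341) (nat_lit 5) (nat_lit 342) (nat_lit 5) (nat_lit 444) (nat_lit 410) (nat_lit 286))))))) (XT.nd (nat_lit 1092) (nat_lit 4332) (nat_lit 0) (XT.nd (nat_lit 546) (nat_lit 2964) (nat_lit 0) (XT.nd (nat_lit 234) (nat_lit 1672) (nat_lit 0) (XT.nd (nat_lit 78) (nat_lit 836) (nat_lit 0) (XT.lf (nat_lit 0) (nat_lit 5648879496) (nat_lit 912) (nat_lit 3430118651) (nat_lit 76) (nat_lit 2102235478) (nat_lit 330) (nat_lit 5) (nat_lit 342) (nat_lit 5) (nat_lit 331) (nat_lit 5) (nat_lit 445) (nat_lit 410) (nat_lit 285)) (XT.nd (nat_lit 78)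 (nat_lit 0) (nat_lit 0) (XT.lf (nat_lit 0) (nat_lit 2344720562) (nat_lit 836) (nat_lit 4955075255) (nat_lit 912) (nat_lit 3998508291) (nat_lit 319) (nat_lit 5) (nat_lit 330) (nat_lit 5) (nat_lit 331) (nat_lit 5) (nat_lit 446) (nat_lit 410) (nat_lit 284)) (XT.lf (nat_lit 0) (nat_lit 8266404602) (nat_lit 836) (nat_lit 724626157) (nat_lit 912) (nat_lit 2426550974) (nat_lit 319) (nat_lit 5) (nat_lit 330) (nat_lit 5) (nat_lit 331) (nat_lit 5) (nat_lit 447) (nat_lit 410) (nat_lit 283)))) (XT.nd (nat_lit 156) (nat_lit 760) (nat_lit 0) (XT.nd (nat_lit 78) (nat_lit 76) (nat_lit 0) (XT.lf (nat_lit 0) (nat_lit 2765055730) (nat_lit 836) (nat_lit 7976892916) (nat_lit 912) (nat_lit 796790608) (nat_lit 308) (nat_lit 5) (nat_lit 319) (nat_lit 5) (nat_lit 320) (nat_lit 5) (nat_lit 448) (nat_lit 410) (nat_lit 282)) (XT.lf (nat_lit 0) (nat_lit 864984469) (nat_lit 912) (nat_lit 2845416586) (nat_lit 76) (nat_lit 7951602104) (nat_lit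 307) (nat_lit 5) (nat_lit 319) (nat_lit 5) (nat_lit 308) (nat_lit 5) (nat_lit 449) (nat_lit 410) (nat_lit 281))) (XT.nd (nat_lit 78) (nat_lit 0) (nat_lit 0) (XT.lf (nat_lit 0) (nat_lit 2559589699) (nat_lit 836) (nat_lit 8568432206) (nat_lit 76) (nat_lit 659410673) (nat_lit 297) (nat_lit 5) (nat_lit 308) (nat_lit 5) (nat_lit 298) (nat_lit 5) (nat_lit 450) (nat_lit 410) (nat_lit 280)) (XT.lf (nat_lit 0) (nat_lit 4317063987) (nat_lit 836) (nat_lit 2511608510) (nat_lit 76) (nat_lit 5086129181) (nat_lit 297) (nat_lit 5) (nat_lit 308) (nat_lit 5) (nat_lit 298) (nat_lit 5) (nat_lit 451) (nat_lit 410) (nat_lit 279))))) (XT.nd (nat_lit 234) (nat_lit 1520) (nat_lit 0) (XT.nd (nat_lit 78) (nat_lit 684) (nat_lit 0) (XT.lf (nat_lit 0) (nat_lit 3699978318) (nat_lit 760) (nat_lit 2419206731) (nat_lit 836) (nat_lit 5925353590) (nat_lit 287) (nat_lit 5) (nat_lit 297) (nat_lit 5) (nat_lit 298) (nat_lit 5) (nat_lit 452) (nat_lit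 410) (nat_lit 278)) (XT.nd (nat_lit 78) (nat_lit 684) (nat_lit 0) (XT.lf (nat_lit 0) (nat_lit 7973469303) (nat_lit 836) (nat_lit 2135392278) (nat_lit 76) (nat_lit 2067696561) (nat_lit 287) (nat_lit 5) (nat_lit 298) (nat_lit 5) (nat_lit 288) (nat_lit 5) (nat_lit 453) (nat_lit 410) (nat_lit 277)) (XT.lf (nat_lit 0) (nat_lit 4222517813) (nat_lit 684) (nat_lit 5671699494) (nat_lit 760) (nat_lit 2416423186) (nat_lit 278) (nat_lit 5) (nat_lit 287) (nat_lit 5) (nat_lit 288) (nat_lit 5) (nat_lit 454) (nat_lit 410) (nat_lit 276)))) (XT.nd (nat_lit 156) (nat_lit 684) (nat_lit 0) (XT.nd (nat_lit 78) (nat_lit 836) (nat_lit 0) (XT.lf (nat_lit 0) (nat_lit 10721830120) (nat_lit 684) (nat_lit 1132001406) (nat_lit 760) (nat_lit 593573763) (nat_lit 278) (nat_lit 5) (nat_lit 287) (nat_lit 5) (nat_lit 288) (nat_lit 5) (nat_lit 455) (nat_lit 410) (nat_lit 275)) (XT.lf (nat_lit 0) (nat_lit 1289589605) (nat_lit 836) (nat_lit 7804959474)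 (nat_lit 76) (nat_lit 3491392236) (nat_lit 267) (nat_lit 5) (nat_lit 278) (nat_lit 5) (nat_lit 268) (nat_lit 5) (nat_lit 456) (nat_lit 410) (nat_lit 274))) (XT.nd (nat_lit 78) (nat_lit 684) (nat_lit 0) (XT.lf (nat_lit 0) (nat_lit 3208090973) (nat_lit 836) (nat_lit 1312242743) (nat_lit 76) (nat_lit 8206732679) (nat_lit 267) (nat_lit 5) (nat_lit 278) (nat_lit 5) (nat_lit 268) (nat_lit 5) (nat_lit 457) (nat_lit 410) (nat_lit 273)) (XT.lf (nat_lit 0) (nat_lit 5187697812) (nat_lit 760) (nat_lit 7505543808) (nat_lit 76) (nat_lit 177326722) (nat_lit 258) (nat_lit 5) (nat_lit 268) (nat_lit 5) (nat_lit 259) (nat_lit 5) (nat_lit 458) (nat_lit 410) (nat_lit 272)))))) (XT.nd (nat_lit 546) (nat_lit 1748) (nat_lit 0) (XT.nd (nat_lit 234) (nat_lit 1900) (nat_lit 0) (XT.nd (nat_lit 78) (nat_lit 684) (nat_lit 0) (XT.lf (nat_lit 0) (nat_lit 7232583100) (nat_lit 760) (nat_lit 867793530) (nat_lit 76) (nat_lit 4916058868) (nat_lit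 258) (nat_lit 5) (nat_lit 268) (nat_lit 5) (nat_lit 259) (nat_lit 5) (nat_lit 459) (nat_lit 410) (nat_lit 271)) (XT.nd (nat_lit 78) (nat_lit 0) (nat_lit 0) (XT.lf (nat_lit 0) (nat_lit 5966592162) (nat_lit 684) (nat_lit 3377656310) (nat_lit 760) (nat_lit 3820462599) (nat_lit 249) (nat_lit 5) (nat_lit 258) (nat_lit 5) (nat_lit 259) (nat_lit 5) (nat_lit 460) (nat_lit 410) (nat_lit 270)) (XT.lf (nat_lit 0) (nat_lit 11500647810) (nat_lit 760) (nat_lit 390322024) (nat_lit 76) (nat_lit 1424940861) (nat_lit 249) (nat_lit 5) (nat_lit 259) (nat_lit 5) (nat_lit 250) (nat_lit 5) (nat_lit 461) (nat_lit 410) (nat_lit 269)))) (XT.nd (nat_lit 156) (nat_lit 608) (nat_lit 0) (XT.nd (nat_lit 78) (nat_lit 608) (nat_lit 0) (XT.lf (nat_lit 0) (nat_lit 280150391) (nat_lit 684) (nat_lit 6867305435) (nat_lit 76) (nat_lit 6321594299) (nat_lit 240) (nat_lit 5) (nat_lit 249) (nat_lit 5) (nat_lit 241) (nat_lit 5) (nat_lit 462) (nat_lit 410)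 (nat_lit 268)) (XT.lf (nat_lit 0) (nat_lit 88541619) (nat_lit 608) (nat_lit 2295462541) (nat_lit 684) (nat_lit 11241199492) (nat_lit 232) (nat_lit 5) (nat_lit 240) (nat_lit 5) (nat_lit 241) (nat_lit 5) (nat_lit 463) (nat_lit 410) (nat_lit 267))) (XT.nd (nat_lit 78) (nat_lit 608) (nat_lit 0) (XT.lf (nat_lit 0) (nat_lit 4581294331) (nat_lit 684) (nat_lit 6538968799) (nat_lit 76) (nat_lit 2663197834) (nat_lit 232) (nat_lit 5) (nat_lit 241) (nat_lit 5) (nat_lit 233) (nat_lit 5) (nat_lit 464) (nat_lit 410) (nat_lit 266)) (XT.lf (nat_lit 0) (nat_lit 576855822) (nat_lit 608) (nat_lit 6252604065) (nat_lit 684) (nat_lit 7115292686) (nat_lit 224) (nat_lit 5) (nat_lit 232) (nat_lit 5) (nat_lit 233) (nat_lit 5) (nat_lit 465) (nat_lit 410) (nat_lit 265))))) (XT.nd (nat_lit 234) (nat_lit 1140) (nat_lit 0) (XT.nd (nat_lit 78) (nat_lit 608) (nat_lit 0) (XT.lf (nat_lit 0) (nat_lit 7909541404) (nat_lit 608) (nat_lit 1245053924)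 (nat_lit 684) (nat_lit 4954042151) (nat_lit 224) (nat_lit 5) (nat_lit 232) (nat_lit 5) (nat_lit 233) (nat_lit 5) (nat_lit 466) (nat_lit 410) (nat_lit 264)) (XT.nd (nat_lit 78) (nat_lit 0) (nat_lit 0) (XT.lf (nat_lit 0) (nat_lit 1088231327) (nat_lit 608) (nat_lit 10458491869) (nat_lit 684) (nat_lit 2728674535) (nat_lit 216) (nat_lit 5) (nat_lit 224) (nat_lit 5) (nat_lit 225) (nat_lit 5) (nat_lit 467) (nat_lit 410) (nat_lit 263)) (XT.lf (nat_lit 0) (nat_lit 8583030306) (nat_lit 608) (nat_lit 5441936936) (nat_lit 684) (nat_lit 419767771) (nat_lit 216) (nat_lit 5) (nat_lit 224) (nat_lit 5) (nat_lit 225) (nat_lit 5) (nat_lit 468) (nat_lit 410) (nat_lit 262)))) (XT.nd (nat_lit 156) (nat_lit 532) (nat_lit 0) (XT.nd (nat_lit 78) (nat_lit 0) (nat_lit 0) (XT.lf (nat_lit 0) (nat_lit 1604914605) (nat_lit 532) (nat_lit 304067921) (nat_lit 608) (nat_lit 12708251275) (nat_lit 208) (nat_lit 5) (nat_lit 215) (nat_lit 5) (nat_lit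 216) (nat_lit 5) (nat_lit 469) (nat_lit 410) (nat_lit 261)) (XT.lf (nat_lit 0) (nat_lit 4339084187) (nat_lit 608) (nat_lit 5541123807) (nat_lit 76) (nat_lit 4911718014) (nat_lit 208) (nat_lit 5) (nat_lit 216) (nat_lit 5) (nat_lit 209) (nat_lit 5) (nat_lit 470) (nat_lit 410) (nat_lit 260))) (XT.nd (nat_lit 78) (nat_lit 0) (nat_lit 0) (XT.lf (nat_lit 0) (nat_lit 2091222900) (nat_lit 532) (nat_lit 4731121729) (nat_lit 608) (nat_lit 8147683036) (nat_lit 201) (nat_lit 5) (nat_lit 208) (nat_lit 5) (nat_lit 209) (nat_lit 5) (nat_lit 471) (nat_lit 410) (nat_lit 259)) (XT.lf (nat_lit 0) (nat_lit 9385158799) (nat_lit 608) (nat_lit 5217051225) (nat_lit 76) (nat_lit 548890172) (nat_lit 201) (nat_lit 5) (nat_lit 209) (nat_lit 5) (nat_lit 202) (nat_lit 5) (nat_lit 472) (nat_lit 410) (nat_lit 258))))))))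
noncomputable def xc173 : XT := (XT.nd (nat_lit 2184) (nat_lit 3496) (nat_lit 0) (XT.nd (nat_lit 1092) (nat_lit 2964) (nat_lit 0) (XT.nd (nat_lit 546) (nat_lit 1444) (nat_lit 0) (XT.nd (nat_lit 234) (nat_lit 988) (nat_lit 0) (XT.nd (nat_lit 78) (nat_lit 608) (nat_lit 0) (XT.lf (nat_lit 0) (nat_lit 2587002197) (nat_lit 532) (nat_lit 9449645797) (nat_lit 608) (nat_lit 3298404290) (nat_lit 194) (nat_lit 5) (nat_lit 201) (nat_lit 5) (nat_lit 202) (nat_lit 5) (nat_lit 473) (nat_lit 410) (nat_lit 257)) (XT.nd (nat_lit 78) (nat_lit 608) (nat_lit 0) (XT.lf (nat_lit 0) (nat_lit 10604411964) (nat_lit 532) (nat_lit 4161177156) (nat_lit 608) (nat_lit 756612204) (nat_lit 194) (nat_lit 5) (nat_lit 201) (nat_lit 5) (nat_lit 202) (nat_lit 5) (nat_lit 474) (nat_lit 410) (nat_lit 256)) (XT.lf (nat_lit 0) (nat_lit 1829705718) (nat_lit 608) (nat_lit 12636586205) (nat_lit 76) (nat_lit 1246213722) (nat_lit 186) (nat_lit 5) (nat_lit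 194) (nat_lit 5) (nat_lit 187) (nat_lit 5) (nat_lit 475) (nat_lit 410) (nat_lit 255)))) (XT.nd (nat_lit 156) (nat_lit 532) (nat_lit 0) (XT.nd (nat_lit 78) (nat_lit 456) (nat_lit 0) (XT.lf (nat_lit 0) (nat_lit 4508051296) (nat_lit 608) (nat_lit 4656009241) (nat_lit 76) (nat_lit 6741452832) (nat_lit 186) (nat_lit 5) (nat_lit 194) (nat_lit 5) (nat_lit 187) (nat_lit 5) (nat_lit 476) (nat_lit 410) (nat_lit 254)) (XT.lf (nat_lit 0) (nat_lit 3517139668) (nat_lit 456) (nat_lit 3735508636) (nat_lit 532) (nat_lit 8849485123) (nat_lit 180) (nat_lit 5) (nat_lit 186) (nat_lit 5) (nat_lit 187) (nat_lit 5) (nat_lit 477) (nat_lit 410) (nat_lit 253))) (XT.nd (nat_lit 78) (nat_lit 532) (nat_lit 0) (XT.lf (nat_lit 0) (nat_lit 10085228980) (nat_lit 532) (nat_lit 4410367821) (nat_lit 76) (nat_lit 1806433004) (nat_lit 180) (nat_lit 5) (nat_lit 187) (nat_lit 5) (nat_lit 181) (nat_lit 5) (nat_lit 478) (nat_lit 410) (nat_lit 252)) (XT.lf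 (nat_lit 0) (nat_lit 3941700816) (nat_lit 532) (nat_lit 9073231511) (nat_lit 608) (nat_lit 3490188005) (nat_lit 173) (nat_lit 5) (nat_lit 180) (nat_lit 5) (nat_lit 181) (nat_lit 5) (nat_lit 479) (nat_lit 410) (nat_lit 251))))) (XT.nd (nat_lit 234) (nat_lit 912) (nat_lit 0) (XT.nd (nat_lit 78) (nat_lit 532) (nat_lit 0) (XT.lf (nat_lit 0) (nat_lit 12507672632) (nat_lit 532) (nat_lit 3515402881) (nat_lit 608) (nat_lit 688805772) (nat_lit 173) (nat_lit 5) (nat_lit 180) (nat_lit 5) (nat_lit 181) (nat_lit 5) (nat_lit 480) (nat_lit 410) (nat_lit 250)) (XT.nd (nat_lit 78) (nat_lit 0) (nat_lit 0) (XT.lf (nat_lit 0) (nat_lit 2173035723) (nat_lit 532) (nat_lit 12583983854) (nat_lit 76) (nat_lit 2164824131) (nat_lit 166) (nat_lit 5) (nat_lit 173) (nat_lit 5) (nat_lit 167) (nat_lit 5) (nat_lit 481) (nat_lit 410) (nat_lit 249)) (XT.lf (nat_lit 0) (nat_lit 5125037524) (nat_lit 532) (nat_lit 4068603969) (nat_lit 76) (nat_lit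 7941435106) (nat_lit 166) (nat_lit 5) (nat_lit 173) (nat_lit 5) (nat_lit 167) (nat_lit 5) (nat_lit 482) (nat_lit 410) (nat_lit 248)))) (XT.nd (nat_lit 156) (nat_lit 456) (nat_lit 0) (XT.nd (nat_lit 78) (nat_lit 0) (nat_lit 0) (XT.lf (nat_lit 0) (nat_lit 4665634491) (nat_lit 456) (nat_lit 3491382222) (nat_lit 532) (nat_lit 9195143799) (nat_lit 160) (nat_lit 5) (nat_lit 166) (nat_lit 5) (nat_lit 167) (nat_lit 5) (nat_lit 483) (nat_lit 410) (nat_lit 247)) (XT.lf (nat_lit 0) (nat_lit 11282939129) (nat_lit 532) (nat_lit 3971332207) (nat_lit 76) (nat_lit 2318653704) (nat_lit 160) (nat_lit 5) (nat_lit 167) (nat_lit 5) (nat_lit 161) (nat_lit 5) (nat_lit 484) (nat_lit 410) (nat_lit 246))) (XT.nd (nat_lit 78) (nat_lit 0) (nat_lit 0) (XT.lf (nat_lit 0) (nat_lit 4947454894) (nat_lit 456) (nat_lit 9570076266) (nat_lit 532) (nat_lit 3279655586) (nat_lit 154) (nat_lit 5) (nat_lit 160) (nat_lit 5) (nat_lit 161) (nat_lit 5) (nat_lit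 485) (nat_lit 410) (nat_lit 245)) (XT.lf (nat_lit 0) (nat_lit 14086056656) (nat_lit 456) (nat_lit 3748413202) (nat_lit 532) (nat_lit 191115548) (nat_lit 154) (nat_lit 5) (nat_lit 160) (nat_lit 5) (nat_lit 161) (nat_lit 5) (nat_lit 486) (nat_lit 410) (nat_lit 244)))))) (XT.nd (nat_lit 546) (nat_lit 1140) (nat_lit 0) (XT.nd (nat_lit 234) (nat_lit 912) (nat_lit 0) (XT.nd (nat_lit 78) (nat_lit 380) (nat_lit 0) (XT.lf (nat_lit 0) (nat_lit 2959715424) (nat_lit 532) (nat_lit 13086822133) (nat_lit 76) (nat_lit 2210848237) (nat_lit 147) (nat_lit 5) (nat_lit 154) (nat_lit 5) (nat_lit 148) (nat_lit 5) (nat_lit 487) (nat_lit 410) (nat_lit 243)) (XT.nd (nat_lit 78) (nat_lit 380) (nat_lit 0) (XT.lf (nat_lit 0) (nat_lit 6213632968) (nat_lit 532) (nat_lit 4015649459) (nat_lit 76) (nat_lit 8263666456) (nat_lit 147) (nat_lit 5) (nat_lit 154) (nat_lit 5) (nat_lit 148) (nat_lit 5) (nat_lit 488) (nat_lit 410) (nat_lit 242)) (XT.lf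 (nat_lit 0) (nat_lit 5294273588) (nat_lit 380) (nat_lit 4264093210) (nat_lit 456) (nat_lit 9174346126) (nat_lit 142) (nat_lit 5) (nat_lit 147) (nat_lit 5) (nat_lit 148) (nat_lit 5) (nat_lit 489) (nat_lit 410) (nat_lit 241)))) (XT.nd (nat_lit 156) (nat_lit 456) (nat_lit 0) (XT.nd (nat_lit 78) (nat_lit 456) (nat_lit 0) (XT.lf (nat_lit 0) (nat_lit 13000372742) (nat_lit 456) (nat_lit 4156084126) (nat_lit 76) (nat_lit 1820212190) (nat_lit 142) (nat_lit 5) (nat_lit 148) (nat_lit 5) (nat_lit 143) (nat_lit 5) (nat_lit 490) (nat_lit 410) (nat_lit 240)) (XT.lf (nat_lit 0) (nat_lit 5341795212) (nat_lit 456) (nat_lit 11223945701) (nat_lit 532) (nat_lit 2658677236) (nat_lit 136) (nat_lit 5) (nat_lit 142) (nat_lit 5) (nat_lit 143) (nat_lit 5) (nat_lit 491) (nat_lit 410) (nat_lit 239))) (XT.nd (nat_lit 78) (nat_lit 380) (nat_lit 0) (XT.lf (nat_lit 0) (nat_lit 735485158) (nat_lit 532) (nat_lit 4407468607) (nat_lit 76) (nat_lit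 14333684317) (nat_lit 135) (nat_lit 5) (nat_lit 142) (nat_lit 5) (nat_lit 136) (nat_lit 5) (nat_lit 492) (nat_lit 410) (nat_lit 238)) (XT.lf (nat_lit 0) (nat_lit 4195352688) (nat_lit 456) (nat_lit 14442919544) (nat_lit 76) (nat_lit 1094614303) (nat_lit 130) (nat_lit 5) (nat_lit 136) (nat_lit 5) (nat_lit 131) (nat_lit 5) (nat_lit 493) (nat_lit 410) (nat_lit 237))))) (XT.nd (nat_lit 234) (nat_lit 760) (nat_lit 0) (XT.nd (nat_lit 78) (nat_lit 380) (nat_lit 0) (XT.lf (nat_lit 0) (nat_lit 7780104537) (nat_lit 456) (nat_lit 4798638441) (nat_lit 76) (nat_lit 7414407190) (nat_lit 130) (nat_lit 5) (nat_lit 136) (nat_lit 5) (nat_lit 131) (nat_lit 5) (nat_lit 494) (nat_lit 410) (nat_lit 236)) (XT.nd (nat_lit 78) (nat_lit 0) (nat_lit 0) (XT.lf (nat_lit 0) (nat_lit 5093754827) (nat_lit 380) (nat_lit 6367883697) (nat_lit 456) (nat_lit 8796482680) (nat_lit 125) (nat_lit 5) (nat_lit 130) (nat_lit 5) (nat_lit 131) (nat_lit 5)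 (nat_lit 495) (nat_lit 410) (nat_lit 235)) (XT.lf (nat_lit 0) (nat_lit 15237539981) (nat_lit 380) (nat_lit 3561551) (nat_lit 456) (nat_lit 5286807960) (nat_lit 125) (nat_lit 5) (nat_lit 130) (nat_lit 5) (nat_lit 131) (nat_lit 5) (nat_lit 496) (nat_lit 410) (nat_lit 234)))) (XT.nd (nat_lit 156) (nat_lit 380) (nat_lit 0) (XT.nd (nat_lit 78) (nat_lit 76) (nat_lit 0) (XT.lf (nat_lit 0) (nat_lit 4790396484) (nat_lit 304) (nat_lit 14371213449) (nat_lit 380) (nat_lit 1640178210) (nat_lit 121) (nat_lit 5) (nat_lit 125) (nat_lit 5) (nat_lit 126) (nat_lit 5) (nat_lit 497) (nat_lit 410) (nat_lit 233)) (XT.lf (nat_lit 0) (nat_lit 2080125707) (nat_lit 380) (nat_lit 5961148087) (nat_lit 76) (nat_lit 13039043876) (nat_lit 120) (nat_lit 5) (nat_lit 125) (nat_lit 5) (nat_lit 121) (nat_lit 5) (nat_lit 498) (nat_lit 410) (nat_lit 232))) (XT.nd (nat_lit 78) (nat_lit 0) (nat_lit 0) (XT.lf (nat_lit 0) (nat_lit 4324737909) (nat_lit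 380) (nat_lit 1548640517) (nat_lit 456) (nat_lit 15490415943) (nat_lit 115) (nat_lit 5) (nat_lit 120) (nat_lit 5) (nat_lit 121) (nat_lit 5) (nat_lit 499) (nat_lit 410) (nat_lit 231)) (XT.lf (nat_lit 0) (nat_lit 9808164435) (nat_lit 456) (nat_lit 6799478174) (nat_lit 76) (nat_lit 5043988066) (nat_lit 115) (nat_lit 5) (nat_lit 121) (nat_lit 5) (nat_lit 116) (nat_lit 5) (nat_lit 500) (nat_lit 410) (nat_lit 230))))))) (XT.nd (nat_lit 1092) (nat_lit 1216) (nat_lit 0) (XT.nd (nat_lit 546) (nat_lit 912) (nat_lit 0) (XT.nd (nat_lit 234) (nat_lit 684) (nat_lit 0) (XT.nd (nat_lit 78) (nat_lit 380) (nat_lit 0) (XT.lf (nat_lit 0) (nat_lit 3671735872) (nat_lit 304) (nat_lit 10176611522) (nat_lit 380) (nat_lit 8096345662) (nat_lit 111) (nat_lit 5) (nat_lit 115) (nat_lit 5) (nat_lit 116) (nat_lit 5) (nat_lit 501) (nat_lit 410) (nat_lit 229)) (XT.nd (nat_lit 78) (nat_lit 380) (nat_lit 0) (XT.lf (nat_lit 0) (nat_lit 14433560267)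 (nat_lit 304) (nat_lit 3574081484) (nat_lit 380) (nat_lit 4235212083) (nat_lit 111) (nat_lit 5) (nat_lit 115) (nat_lit 5) (nat_lit 116) (nat_lit 5) (nat_lit 502) (nat_lit 410) (nat_lit 228)) (XT.lf (nat_lit 0) (nat_lit 2869871373) (nat_lit 380) (nat_lit 19412203674) (nat_lit 456) (nat_lit 264266961) (nat_lit 106) (nat_lit 5) (nat_lit 111) (nat_lit 5) (nat_lit 112) (nat_lit 5) (nat_lit 503) (nat_lit 410) (nat_lit 227)))) (XT.nd (nat_lit 156) (nat_lit 304) (nat_lit 0) (XT.nd (nat_lit 78) (nat_lit 304) (nat_lit 0) (XT.lf (nat_lit 0) (nat_lit 3805683124) (nat_lit 456) (nat_lit 9045891174) (nat_lit 76) (nat_lit 10002452296) (nat_lit 105) (nat_lit 5) (nat_lit 111) (nat_lit 5) (nat_lit 106) (nat_lit 5) (nat_lit 504) (nat_lit 410) (nat_lit 226)) (XT.lf (nat_lit 0) (nat_lit 1808565855) (nat_lit 304) (nat_lit 6149634785) (nat_lit 380) (nat_lit 15209538210) (nat_lit 101) (nat_lit 5) (nat_lit 105) (nat_lit 5) (nat_lit 106)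 (nat_lit 5) (nat_lit 505) (nat_lit 410) (nat_lit 225))) (XT.nd (nat_lit 78) (nat_lit 304) (nat_lit 0) (XT.lf (nat_lit 0) (nat_lit 12252335838) (nat_lit 380) (nat_lit 10499389799) (nat_lit 76) (nat_lit 734831361) (nat_lit 101) (nat_lit 5) (nat_lit 106) (nat_lit 5) (nat_lit 102) (nat_lit 5) (nat_lit 506) (nat_lit 410) (nat_lit 224)) (XT.lf (nat_lit 0) (nat_lit 533316604) (nat_lit 304) (nat_lit 16136369405) (nat_lit 380) (nat_lit 7141321789) (nat_lit 97) (nat_lit 5) (nat_lit 101) (nat_lit 5) (nat_lit 102) (nat_lit 5) (nat_lit 507) (nat_lit 410) (nat_lit 223))))) (XT.nd (nat_lit 234) (nat_lit 532) (nat_lit 0) (XT.nd (nat_lit 78) (nat_lit 380) (nat_lit 0) (XT.lf (nat_lit 0) (nat_lit 11918527535) (nat_lit 304) (nat_lit 9320522100) (nat_lit 380) (nat_lit 2901627528) (nat_lit 97) (nat_lit 5) (nat_lit 101) (nat_lit 5) (nat_lit 102) (nat_lit 5) (nat_lit 508) (nat_lit 410) (nat_lit 222)) (XT.nd (nat_lit 78) (nat_lit 304)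 (nat_lit 0) (XT.lf (nat_lit 0) (nat_lit 1397495830) (nat_lit 380) (nat_lit 965093509) (nat_lit 76) (nat_lit 22114302654) (nat_lit 96) (nat_lit 5) (nat_lit 101) (nat_lit 5) (nat_lit 97) (nat_lit 5) (nat_lit 509) (nat_lit 410) (nat_lit 221)) (XT.lf (nat_lit 0) (nat_lit 5837511622) (nat_lit 380) (nat_lit 14222392376) (nat_lit 76) (nat_lit 4757670982) (nat_lit 92) (nat_lit 5) (nat_lit 97) (nat_lit 5) (nat_lit 93) (nat_lit 5) (nat_lit 510) (nat_lit 410) (nat_lit 220)))) (XT.nd (nat_lit 156) (nat_lit 228) (nat_lit 0) (XT.nd (nat_lit 78) (nat_lit 304) (nat_lit 0) (XT.lf (nat_lit 0) (nat_lit 10381961053) (nat_lit 380) (nat_lit 2791082750) (nat_lit 76) (nat_lit 11991717817) (nat_lit 92) (nat_lit 5) (nat_lit 97) (nat_lit 5) (nat_lit 93) (nat_lit 5) (nat_lit 511) (nat_lit 410) (nat_lit 219)) (XT.lf (nat_lit 0) (nat_lit 8976584739) (nat_lit 304) (nat_lit 6092592617) (nat_lit 380) (nat_lit 10448679683) (nat_lit 88) (nat_lit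 5) (nat_lit 92) (nat_lit 5) (nat_lit 93) (nat_lit 5) (nat_lit 512) (nat_lit 410) (nat_lit 218))) (XT.nd (nat_lit 78) (nat_lit 228) (nat_lit 0) (XT.lf (nat_lit 0) (nat_lit 19869958635) (nat_lit 380) (nat_lit 4877695814) (nat_lit 76) (nat_lit 1129966061) (nat_lit 88) (nat_lit 5) (nat_lit 93) (nat_lit 5) (nat_lit 89) (nat_lit 5) (nat_lit 513) (nat_lit 410) (nat_lit 217)) (XT.lf (nat_lit 0) (nat_lit 7061576389) (nat_lit 228) (nat_lit 17785134435) (nat_lit 304) (nat_lit 1396271826) (nat_lit 85) (nat_lit 5) (nat_lit 88) (nat_lit 5) (nat_lit 89) (nat_lit 5) (nat_lit 514) (nat_lit 410) (nat_lit 216)))))) (XT.nd (nat_lit 546) (nat_lit 228) (nat_lit 0) (XT.nd (nat_lit 234) (nat_lit 608) (nat_lit 0) (XT.nd (nat_lit 78) (nat_lit 304) (nat_lit 0) (XT.lf (nat_lit 0) (nat_lit 3290692350) (nat_lit 304) (nat_lit 7340796921) (nat_lit 76) (nat_lit 15983201243) (nat_lit 84) (nat_lit 5) (nat_lit 88) (nat_lit 5) (nat_lit 85) (nat_lit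 5) (nat_lit 515) (nat_lit 410) (nat_lit 215)) (XT.nd (nat_lit 78) (nat_lit 0) (nat_lit 0) (XT.lf (nat_lit 0) (nat_lit 4780405251) (nat_lit 304) (nat_lit 3297245684) (nat_lit 380) (nat_lit 18915500351) (nat_lit 80) (nat_lit 5) (nat_lit 84) (nat_lit 5) (nat_lit 85) (nat_lit 5) (nat_lit 516) (nat_lit 410) (nat_lit 214)) (XT.lf (nat_lit 0) (nat_lit 13031029162) (nat_lit 380) (nat_lit 10171852560) (nat_lit 76) (nat_lit 4174888255) (nat_lit 80) (nat_lit 5) (nat_lit 85) (nat_lit 5) (nat_lit 81) (nat_lit 5) (nat_lit 517) (nat_lit 410) (nat_lit 213)))) (XT.nd (nat_lit 156) (nat_lit 380) (nat_lit 0) (XT.nd (nat_lit 78) (nat_lit 0) (nat_lit 0) (XT.lf (nat_lit 0) (nat_lit 2106130362) (nat_lit 228) (nat_lit 16006904449) (nat_lit 304) (nat_lit 9656457303) (nat_lit 77) (nat_lit 5) (nat_lit 80) (nat_lit 5) (nat_lit 81) (nat_lit 5) (nat_lit 518) (nat_lit 410) (nat_lit 212)) (XT.lf (nat_lit 0) (nat_lit 14758103043) (nat_lit 228)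 (nat_lit 8600940723) (nat_lit 304) (nat_lit 4808759889) (nat_lit 77) (nat_lit 5) (nat_lit 80) (nat_lit 5) (nat_lit 81) (nat_lit 5) (nat_lit 519) (nat_lit 410) (nat_lit 211))) (XT.nd (nat_lit 78) (nat_lit 304) (nat_lit 0) (XT.lf (nat_lit 0) (nat_lit 128289104) (nat_lit 304) (nat_lit 921194737) (nat_lit 76) (nat_lit 27524698479) (nat_lit 76) (nat_lit 5) (nat_lit 80) (nat_lit 5) (nat_lit 77) (nat_lit 5) (nat_lit 520) (nat_lit 410) (nat_lit 210)) (XT.lf (nat_lit 0) (nat_lit 5215415360) (nat_lit 380) (nat_lit 17097945571) (nat_lit 76) (nat_lit 6672379495) (nat_lit 72) (nat_lit 5) (nat_lit 77) (nat_lit 5) (nat_lit 73) (nat_lit 5) (nat_lit 521) (nat_lit 410) (nat_lit 209))))) (XT.nd (nat_lit 50778) (nat_lit 0) (nat_lit 30020) (XT.nd (nat_lit 78) (nat_lit 228) (nat_lit 0) (XT.lf (nat_lit 0) (nat_lit 10411781384) (nat_lit 380) (nat_lit 4456141317) (nat_lit 76) (nat_lit 14537459103) (nat_lit 72) (nat_lit 5) (nat_lit 77)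 (nat_lit 5) (nat_lit 73) (nat_lit 5) (nat_lit 522) (nat_lit 410) (nat_lit 208)) (XT.nd (nat_lit 50622) (nat_lit 0) (nat_lit 30020) (XT.lf (nat_lit 0) (nat_lit 8541507355) (nat_lit 228) (nat_lit 7220460171) (nat_lit 304) (nat_lit 14070452642) (nat_lit 69) (nat_lit 5) (nat_lit 72) (nat_lit 5) (nat_lit 73) (nat_lit 5) (nat_lit 523) (nat_lit 410) (nat_lit 207)) (XT.lf (nat_lit 0) (nat_lit 614693611) (nat_lit 1444) (nat_lit 1769950660) (nat_lit 1444) (nat_lit 1769950660) (nat_lit 464) (nat_lit 3) (nat_lit 483) (nat_lit 3) (nat_lit 483) (nat_lit 5) (nat_lit 411) (nat_lit 411) (nat_lit 318)))) (XT.nd (nat_lit 156) (nat_lit 0) (nat_lit 76) (XT.nd (nat_lit 78) (nat_lit 0) (nat_lit 76) (XT.lf (nat_lit 76) (nat_lit 270909156) (nat_lit 0) (nat_lit 2021226673) (nat_lit 1444) (nat_lit 6078205686) (nat_lit 465) (nat_lit 5) (nat_lit 464) (nat_lit 3) (nat_lit 483) (nat_lit 5) (nat_lit 412) (nat_lit 411) (nat_lit 317)) (XT.lf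 (nat_lit 0) (nat_lit 3377614044) (nat_lit 1368) (nat_lit 4246445197) (nat_lit 1444) (nat_lit 808651890) (nat_lit 465) (nat_lit 5) (nat_lit 483) (nat_lit 5) (nat_lit 484) (nat_lit 5) (nat_lit 413) (nat_lit 411) (nat_lit 316))) (XT.nd (nat_lit 78) (nat_lit 0) (nat_lit 0) (XT.lf (nat_lit 0) (nat_lit 4471213683) (nat_lit 1368) (nat_lit 344382887) (nat_lit 1444) (nat_lit 3681027278) (nat_lit 465) (nat_lit 5) (nat_lit 483) (nat_lit 5) (nat_lit 484) (nat_lit 5) (nat_lit 414) (nat_lit 411) (nat_lit 315)) (XT.lf (nat_lit 76) (nat_lit 3669534539) (nat_lit 0) (nat_lit 1914530976) (nat_lit 1444) (nat_lit 2977825175) (nat_lit 466) (nat_lit 5) (nat_lit 465) (nat_lit 5) (nat_lit 484) (nat_lit 5) (nat_lit 415) (nat_lit 411) (nat_lit 314))))))))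
noncomputable def xc174 : XT := (XT.nd (nat_lit 2184) (nat_lit 10108) (nat_lit 0) (XT.nd (nat_lit 1092) (nat_lit 6764) (nat_lit 0) (XT.nd (nat_lit 546) (nat_lit 1292) (nat_lit 0) (XT.nd (nat_lit 234) (nat_lit 0) (nat_lit 76) (XT.nd (nat_lit 78) (nat_lit 1444) (nat_lit 0) (XT.lf (nat_lit 0) (nat_lit 6702340604) (nat_lit 1368) (nat_lit 881653965) (nat_lit 1444) (nat_lit 1044827992) (nat_lit 466) (nat_lit 5) (nat_lit 484) (nat_lit 5) (nat_lit 485) (nat_lit 5) (nat_lit 416) (nat_lit 411) (nat_lit 313)) (XT.nd (nat_lit 78) (nat_lit 1444) (nat_lit 0) (XT.lf (nat_lit 76) (nat_lit 3224323208) (nat_lit 0) (nat_lit 4626838085) (nat_lit 1444) (nat_lit 845790739) (nat_lit 467) (nat_lit 5) (nat_lit 466) (nat_lit 5) (nat_lit 485) (nat_lit 5) (nat_lit 417) (nat_lit 411) (nat_lit 312)) (XT.lf (nat_lit 0) (nat_lit 233889534) (nat_lit 1444) (nat_lit 1358468142) (nat_lit 1520) (nat_lit 7174460006) (nat_lit 447) (nat_lit 5) (nat_lit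 466) (nat_lit 5) (nat_lit 467) (nat_lit 5) (nat_lit 418) (nat_lit 411) (nat_lit 311)))) (XT.nd (nat_lit 156) (nat_lit 0) (nat_lit 0) (XT.nd (nat_lit 78) (nat_lit 0) (nat_lit 0) (XT.lf (nat_lit 0) (nat_lit 1327649109) (nat_lit 1444) (nat_lit 5992792941) (nat_lit 1520) (nat_lit 1517471827) (nat_lit 448) (nat_lit 5) (nat_lit 467) (nat_lit 5) (nat_lit 468) (nat_lit 5) (nat_lit 419) (nat_lit 411) (nat_lit 310)) (XT.lf (nat_lit 0) (nat_lit 2438739473) (nat_lit 1444) (nat_lit 1784653885) (nat_lit 1520) (nat_lit 4687150373) (nat_lit 448) (nat_lit 5) (nat_lit 467) (nat_lit 5) (nat_lit 468) (nat_lit 5) (nat_lit 420) (nat_lit 411) (nat_lit 309))) (XT.nd (nat_lit 78) (nat_lit 0) (nat_lit 76) (XT.lf (nat_lit 76) (nat_lit 2526077308) (nat_lit 0) (nat_lit 1038584889) (nat_lit 1520) (nat_lit 5420132211) (nat_lit 449) (nat_lit 5) (nat_lit 448) (nat_lit 5) (nat_lit 468) (nat_lit 5) (nat_lit 421) (nat_lit 411) (nat_lit 308)) (XT.lf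 (nat_lit 0) (nat_lit 4716145396) (nat_lit 1444) (nat_lit 2142653107) (nat_lit 1520) (nat_lit 2201690792) (nat_lit 449) (nat_lit 5) (nat_lit 468) (nat_lit 5) (nat_lit 469) (nat_lit 5) (nat_lit 422) (nat_lit 411) (nat_lit 307))))) (XT.nd (nat_lit 234) (nat_lit 1444) (nat_lit 0) (XT.nd (nat_lit 78) (nat_lit 0) (nat_lit 0) (XT.lf (nat_lit 76) (nat_lit 2267743503) (nat_lit 0) (nat_lit 3621613040) (nat_lit 1520) (nat_lit 3248387215) (nat_lit 450) (nat_lit 5) (nat_lit 449) (nat_lit 5) (nat_lit 469) (nat_lit 5) (nat_lit 423) (nat_lit 411) (nat_lit 306)) (XT.nd (nat_lit 78) (nat_lit 0) (nat_lit 76) (XT.lf (nat_lit 76) (nat_lit 6780637505) (nat_lit 0) (nat_lit 297222574) (nat_lit 1520) (nat_lit 2138865926) (nat_lit 450) (nat_lit 5) (nat_lit 449) (nat_lit 5) (nat_lit 469) (nat_lit 5) (nat_lit 424) (nat_lit 411) (nat_lit 305)) (XT.lf (nat_lit 76) (nat_lit 2078701854) (nat_lit 0) (nat_lit 6222955823) (nat_lit 1520) (nat_lit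 995418621) (nat_lit 451) (nat_lit 5) (nat_lit 450) (nat_lit 5) (nat_lit 470) (nat_lit 5) (nat_lit 425) (nat_lit 411) (nat_lit 304)))) (XT.nd (nat_lit 156) (nat_lit 0) (nat_lit 76) (XT.nd (nat_lit 78) (nat_lit 0) (nat_lit 76) (XT.lf (nat_lit 0) (nat_lit 165195748) (nat_lit 1520) (nat_lit 2680269590) (nat_lit 1596) (nat_lit 6533633426) (nat_lit 430) (nat_lit 5) (nat_lit 450) (nat_lit 5) (nat_lit 451) (nat_lit 5) (nat_lit 426) (nat_lit 411) (nat_lit 303)) (XT.lf (nat_lit 0) (nat_lit 1330992220) (nat_lit 1520) (nat_lit 7514159514) (nat_lit 1596) (nat_lit 617590172) (nat_lit 431) (nat_lit 5) (nat_lit 451) (nat_lit 5) (nat_lit 452) (nat_lit 5) (nat_lit 427) (nat_lit 411) (nat_lit 302))) (XT.nd (nat_lit 78) (nat_lit 0) (nat_lit 0) (XT.lf (nat_lit 0) (nat_lit 2535964245) (nat_lit 1520) (nat_lit 2875590339) (nat_lit 1596) (nat_lit 4136203579) (nat_lit 431) (nat_lit 5) (nat_lit 451) (nat_lit 5) (nat_lit 452) (nat_lit 5)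 (nat_lit 428) (nat_lit 411) (nat_lit 301)) (XT.lf (nat_lit 76) (nat_lit 1865240568) (nat_lit 0) (nat_lit 1891229393) (nat_lit 1596) (nat_lit 5878193200) (nat_lit 432) (nat_lit 5) (nat_lit 431) (nat_lit 5) (nat_lit 452) (nat_lit 5) (nat_lit 429) (nat_lit 411) (nat_lit 300)))))) (XT.nd (nat_lit 546) (nat_lit 5396) (nat_lit 0) (XT.nd (nat_lit 234) (nat_lit 1520) (nat_lit 0) (XT.nd (nat_lit 78) (nat_lit 0) (nat_lit 0) (XT.lf (nat_lit 0) (nat_lit 5011512983) (nat_lit 1520) (nat_lit 3009548826) (nat_lit 1596) (nat_lit 1702058671) (nat_lit 432) (nat_lit 5) (nat_lit 452) (nat_lit 5) (nat_lit 453) (nat_lit 5) (nat_lit 430) (nat_lit 411) (nat_lit 299)) (XT.nd (nat_lit 78) (nat_lit 0) (nat_lit 0) (XT.lf (nat_lit 76) (nat_lit 1842124285) (nat_lit 0) (nat_lit 4454084609) (nat_lit 1596) (nat_lit 3517063448) (nat_lit 433) (nat_lit 5) (nat_lit 432) (nat_lit 5) (nat_lit 453) (nat_lit 5) (nat_lit 431) (nat_lit 411) (nat_lit 298))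 (XT.lf (nat_lit 76) (nat_lit 6816691764) (nat_lit 0) (nat_lit 790463533) (nat_lit 1596) (nat_lit 2298076928) (nat_lit 433) (nat_lit 5) (nat_lit 432) (nat_lit 5) (nat_lit 453) (nat_lit 5) (nat_lit 432) (nat_lit 411) (nat_lit 297)))) (XT.nd (nat_lit 156) (nat_lit 0) (nat_lit 76) (XT.nd (nat_lit 78) (nat_lit 1596) (nat_lit 0) (XT.lf (nat_lit 76) (nat_lit 1882202209) (nat_lit 0) (nat_lit 7074245045) (nat_lit 1596) (nat_lit 1042357317) (nat_lit 434) (nat_lit 5) (nat_lit 433) (nat_lit 5) (nat_lit 454) (nat_lit 5) (nat_lit 433) (nat_lit 411) (nat_lit 296)) (XT.lf (nat_lit 0) (nat_lit 242361793) (nat_lit 1596) (nat_lit 3121770575) (nat_lit 1672) (nat_lit 6729959960) (nat_lit 412) (nat_lit 5) (nat_lit 433) (nat_lit 5) (nat_lit 434) (nat_lit 5) (nat_lit 434) (nat_lit 411) (nat_lit 295))) (XT.nd (nat_lit 78) (nat_lit 0) (nat_lit 0) (XT.lf (nat_lit 0) (nat_lit 1535839863) (nat_lit 1596) (nat_lit 8217122494) (nat_lit 76)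 (nat_lit 438260136) (nat_lit 413) (nat_lit 5) (nat_lit 434) (nat_lit 5) (nat_lit 414) (nat_lit 5) (nat_lit 435) (nat_lit 411) (nat_lit 294)) (XT.lf (nat_lit 0) (nat_lit 2880136958) (nat_lit 1596) (nat_lit 3113341184) (nat_lit 76) (nat_lit 4296332724) (nat_lit 413) (nat_lit 5) (nat_lit 434) (nat_lit 5) (nat_lit 414) (nat_lit 5) (nat_lit 436) (nat_lit 411) (nat_lit 293))))) (XT.nd (nat_lit 234) (nat_lit 2204) (nat_lit 0) (XT.nd (nat_lit 78) (nat_lit 1672) (nat_lit 0) (XT.lf (nat_lit 0) (nat_lit 2105172973) (nat_lit 1596) (nat_lit 2141759304) (nat_lit 1672) (nat_lit 6143540794) (nat_lit 392) (nat_lit 5) (nat_lit 413) (nat_lit 5) (nat_lit 414) (nat_lit 5) (nat_lit 437) (nat_lit 411) (nat_lit 292)) (XT.nd (nat_lit 78) (nat_lit 1672) (nat_lit 0) (XT.lf (nat_lit 0) (nat_lit 5655917183) (nat_lit 1672) (nat_lit 3049455051) (nat_lit 76) (nat_lit 1787493242) (nat_lit 392) (nat_lit 5) (nat_lit 414) (nat_lit 5) (nat_lit 393)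 (nat_lit 5) (nat_lit 438) (nat_lit 411) (nat_lit 291)) (XT.lf (nat_lit 0) (nat_lit 2292039216) (nat_lit 1672) (nat_lit 4812677269) (nat_lit 1748) (nat_lit 3492370303) (nat_lit 370) (nat_lit 5) (nat_lit 392) (nat_lit 5) (nat_lit 393) (nat_lit 5) (nat_lit 439) (nat_lit 411) (nat_lit 290)))) (XT.nd (nat_lit 156) (nat_lit 912) (nat_lit 0) (XT.nd (nat_lit 78) (nat_lit 1292) (nat_lit 0) (XT.lf (nat_lit 0) (nat_lit 7766853502) (nat_lit 1672) (nat_lit 818916531) (nat_lit 1748) (nat_lit 2117570413) (nat_lit 370) (nat_lit 5) (nat_lit 392) (nat_lit 5) (nat_lit 393) (nat_lit 5) (nat_lit 440) (nat_lit 411) (nat_lit 289)) (XT.lf (nat_lit 0) (nat_lit 2536661867) (nat_lit 1292) (nat_lit 7580550938) (nat_lit 1368) (nat_lit 694104229) (nat_lit 353) (nat_lit 5) (nat_lit 370) (nat_lit 5) (nat_lit 371) (nat_lit 5) (nat_lit 441) (nat_lit 411) (nat_lit 288))) (XT.nd (nat_lit 78) (nat_lit 836) (nat_lit 0) (XT.lf (nat_lit 0) (nat_lit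 756429119) (nat_lit 1368) (nat_lit 2787511454) (nat_lit 76) (nat_lit 7377256140) (nat_lit 352) (nat_lit 5) (nat_lit 370) (nat_lit 5) (nat_lit 353) (nat_lit 5) (nat_lit 442) (nat_lit 411) (nat_lit 287)) (XT.lf (nat_lit 0) (nat_lit 2232534312) (nat_lit 912) (nat_lit 8209946080) (nat_lit 76) (nat_lit 590597186) (nat_lit 341) (nat_lit 5) (nat_lit 353) (nat_lit 5) (nat_lit 342) (nat_lit 5) (nat_lit 443) (nat_lit 411) (nat_lit 286))))))) (XT.nd (nat_lit 1092) (nat_lit 4484) (nat_lit 0) (XT.nd (nat_lit 546) (nat_lit 3040) (nat_lit 0) (XT.nd (nat_lit 234) (nat_lit 1748) (nat_lit 0) (XT.nd (nat_lit 78) (nat_lit 836) (nat_lit 0) (XT.lf (nat_lit 0) (nat_lit 3764302633) (nat_lit 912) (nat_lit 2601652646) (nat_lit 76) (nat_lit 4780730175) (nat_lit 341) (nat_lit 5) (nat_lit 353) (nat_lit 5) (nat_lit 342) (nat_lit 5) (nat_lit 444) (nat_lit 411) (nat_lit 285)) (XT.nd (nat_lit 78) (nat_lit 0) (nat_lit 0) (XT.lf (nat_lit 0) (nat_lit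 3145342927) (nat_lit 836) (nat_lit 2185943546) (nat_lit 912) (nat_lit 5931199384) (nat_lit 330) (nat_lit 5) (nat_lit 341) (nat_lit 5) (nat_lit 342) (nat_lit 5) (nat_lit 445) (nat_lit 411) (nat_lit 284)) (XT.lf (nat_lit 0) (nat_lit 6945054413) (nat_lit 912) (nat_lit 2366263270) (nat_lit 76) (nat_lit 2068987435) (nat_lit 330) (nat_lit 5) (nat_lit 342) (nat_lit 5) (nat_lit 331) (nat_lit 5) (nat_lit 446) (nat_lit 411) (nat_lit 283)))) (XT.nd (nat_lit 156) (nat_lit 912) (nat_lit 0) (XT.nd (nat_lit 78) (nat_lit 0) (nat_lit 0) (XT.lf (nat_lit 0) (nat_lit 3516622347) (nat_lit 836) (nat_lit 5096471060) (nat_lit 912) (nat_lit 2886958952) (nat_lit 319) (nat_lit 5) (nat_lit 330) (nat_lit 5) (nat_lit 331) (nat_lit 5) (nat_lit 447) (nat_lit 411) (nat_lit 282)) (XT.lf (nat_lit 0) (nat_lit 9534681100) (nat_lit 836) (nat_lit 780583679) (nat_lit 912) (nat_lit 1306925616) (nat_lit 319) (nat_lit 5) (nat_lit 330) (nat_lit 5) (nat_lit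 331) (nat_lit 5) (nat_lit 448) (nat_lit 411) (nat_lit 281))) (XT.nd (nat_lit 78) (nat_lit 0) (nat_lit 0) (XT.lf (nat_lit 0) (nat_lit 335215093) (nat_lit 912) (nat_lit 7808398654) (nat_lit 76) (nat_lit 3602438663) (nat_lit 307) (nat_lit 5) (nat_lit 319) (nat_lit 5) (nat_lit 308) (nat_lit 5) (nat_lit 449) (nat_lit 411) (nat_lit 280)) (XT.lf (nat_lit 0) (nat_lit 1997266963) (nat_lit 912) (nat_lit 1789107485) (nat_lit 76) (nat_lit 8085763712) (nat_lit 307) (nat_lit 5) (nat_lit 319) (nat_lit 5) (nat_lit 308) (nat_lit 5) (nat_lit 450) (nat_lit 411) (nat_lit 279))))) (XT.nd (nat_lit 234) (nat_lit 1520) (nat_lit 0) (XT.nd (nat_lit 78) (nat_lit 760) (nat_lit 0) (XT.lf (nat_lit 0) (nat_lit 3711118398) (nat_lit 836) (nat_lit 7611147905) (nat_lit 76) (nat_lit 678118575) (nat_lit 297) (nat_lit 5) (nat_lit 308) (nat_lit 5) (nat_lit 298) (nat_lit 5) (nat_lit 451) (nat_lit 411) (nat_lit 278)) (XT.nd (nat_lit 78) (nat_lit 760)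 (nat_lit 0) (XT.lf (nat_lit 0) (nat_lit 5482166939) (nat_lit 836) (nat_lit 1455318185) (nat_lit 76) (nat_lit 5193263224) (nat_lit 297) (nat_lit 5) (nat_lit 308) (nat_lit 5) (nat_lit 298) (nat_lit 5) (nat_lit 452) (nat_lit 411) (nat_lit 277)) (XT.lf (nat_lit 0) (nat_lit 4873220626) (nat_lit 760) (nat_lit 2433094619) (nat_lit 836) (nat_lit 4957060284) (nat_lit 287) (nat_lit 5) (nat_lit 297) (nat_lit 5) (nat_lit 298) (nat_lit 5) (nat_lit 453) (nat_lit 411) (nat_lit 276)))) (XT.nd (nat_lit 156) (nat_lit 836) (nat_lit 0) (XT.nd (nat_lit 78) (nat_lit 684) (nat_lit 0) (XT.lf (nat_lit 0) (nat_lit 9177027383) (nat_lit 836) (nat_lit 1079009289) (nat_lit 76) (nat_lit 2142426789) (nat_lit 287) (nat_lit 5) (nat_lit 298) (nat_lit 5) (nat_lit 288) (nat_lit 5) (nat_lit 454) (nat_lit 411) (nat_lit 275)) (XT.lf (nat_lit 0) (nat_lit 5398828144) (nat_lit 684) (nat_lit 5723978955) (nat_lit 760) (nat_lit 1412702614) (nat_lit 278)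 (nat_lit 5) (nat_lit 287) (nat_lit 5) (nat_lit 288) (nat_lit 5) (nat_lit 455) (nat_lit 411) (nat_lit 274))) (XT.nd (nat_lit 78) (nat_lit 760) (nat_lit 0) (XT.lf (nat_lit 0) (nat_lit 420388640) (nat_lit 760) (nat_lit 671476344) (nat_lit 76) (nat_lit 11583508008) (nat_lit 277) (nat_lit 5) (nat_lit 287) (nat_lit 5) (nat_lit 278) (nat_lit 5) (nat_lit 456) (nat_lit 411) (nat_lit 273)) (XT.lf (nat_lit 0) (nat_lit 2320783636) (nat_lit 836) (nat_lit 6863200762) (nat_lit 76) (nat_lit 3632880294) (nat_lit 267) (nat_lit 5) (nat_lit 278) (nat_lit 5) (nat_lit 268) (nat_lit 5) (nat_lit 457) (nat_lit 411) (nat_lit 272)))))) (XT.nd (nat_lit 546) (nat_lit 1824) (nat_lit 0) (XT.nd (nat_lit 234) (nat_lit 1292) (nat_lit 0) (XT.nd (nat_lit 78) (nat_lit 1368) (nat_lit 0) (XT.lf (nat_lit 0) (nat_lit 4257941261) (nat_lit 836) (nat_lit 262156322) (nat_lit 76) (nat_lit 8441122443) (nat_lit 267) (nat_lit 5) (nat_lit 278) (nat_lit 5) (nat_lit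 268) (nat_lit 5) (nat_lit 458) (nat_lit 411) (nat_lit 271)) (XT.nd (nat_lit 78) (nat_lit 684) (nat_lit 0) (XT.lf (nat_lit 0) (nat_lit 6265378242) (nat_lit 760) (nat_lit 6566900700) (nat_lit 76) (nat_lit 275561523) (nat_lit 258) (nat_lit 5) (nat_lit 268) (nat_lit 5) (nat_lit 259) (nat_lit 5) (nat_lit 459) (nat_lit 411) (nat_lit 270)) (XT.lf (nat_lit 0) (nat_lit 184678558) (nat_lit 684) (nat_lit 8148585136) (nat_lit 760) (nat_lit 4923732177) (nat_lit 249) (nat_lit 5) (nat_lit 258) (nat_lit 5) (nat_lit 259) (nat_lit 5) (nat_lit 460) (nat_lit 411) (nat_lit 269)))) (XT.nd (nat_lit 156) (nat_lit 684) (nat_lit 0) (XT.nd (nat_lit 78) (nat_lit 608) (nat_lit 0) (XT.lf (nat_lit 0) (nat_lit 7146307465) (nat_lit 684) (nat_lit 3327818411) (nat_lit 760) (nat_lit 2934384510) (nat_lit 249) (nat_lit 5) (nat_lit 258) (nat_lit 5) (nat_lit 259) (nat_lit 5) (nat_lit 461) (nat_lit 411) (nat_lit 268)) (XT.lf (nat_lit 0) (nat_lit 668597354)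 (nat_lit 608) (nat_lit 11991654012) (nat_lit 684) (nat_lit 902763125) (nat_lit 241) (nat_lit 5) (nat_lit 249) (nat_lit 5) (nat_lit 250) (nat_lit 5) (nat_lit 462) (nat_lit 411) (nat_lit 267))) (XT.nd (nat_lit 78) (nat_lit 608) (nat_lit 0) (XT.lf (nat_lit 0) (nat_lit 1206339557) (nat_lit 684) (nat_lit 5940822208) (nat_lit 76) (nat_lit 6572259210) (nat_lit 240) (nat_lit 5) (nat_lit 249) (nat_lit 5) (nat_lit 241) (nat_lit 5) (nat_lit 463) (nat_lit 411) (nat_lit 266)) (XT.lf (nat_lit 0) (nat_lit 1147142910) (nat_lit 608) (nat_lit 2193938427) (nat_lit 684) (nat_lit 10537851751) (nat_lit 232) (nat_lit 5) (nat_lit 240) (nat_lit 5) (nat_lit 241) (nat_lit 5) (nat_lit 464) (nat_lit 411) (nat_lit 265))))) (XT.nd (nat_lit 234) (nat_lit 1216) (nat_lit 0) (XT.nd (nat_lit 78) (nat_lit 608) (nat_lit 0) (XT.lf (nat_lit 0) (nat_lit 5565424462) (nat_lit 684) (nat_lit 5616171842) (nat_lit 76) (nat_lit 2859108603) (nat_lit 232) (nat_lit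 5) (nat_lit 241) (nat_lit 5) (nat_lit 233) (nat_lit 5) (nat_lit 465) (nat_lit 411) (nat_lit 264)) (XT.nd (nat_lit 78) (nat_lit 0) (nat_lit 0) (XT.lf (nat_lit 0) (nat_lit 1635037848) (nat_lit 608) (nat_lit 6212810911) (nat_lit 684) (nat_lit 6357598960) (nat_lit 224) (nat_lit 5) (nat_lit 232) (nat_lit 5) (nat_lit 233) (nat_lit 5) (nat_lit 466) (nat_lit 411) (nat_lit 263)) (XT.lf (nat_lit 0) (nat_lit 9093854692) (nat_lit 608) (nat_lit 1108342026) (nat_lit 684) (nat_lit 4170770464) (nat_lit 224) (nat_lit 5) (nat_lit 232) (nat_lit 5) (nat_lit 233) (nat_lit 5) (nat_lit 467) (nat_lit 411) (nat_lit 262)))) (XT.nd (nat_lit 156) (nat_lit 532) (nat_lit 0) (XT.nd (nat_lit 78) (nat_lit 76) (nat_lit 0) (XT.lf (nat_lit 0) (nat_lit 2146050869) (nat_lit 608) (nat_lit 10486920588) (nat_lit 684) (nat_lit 1910285937) (nat_lit 216) (nat_lit 5) (nat_lit 224) (nat_lit 5) (nat_lit 225) (nat_lit 5) (nat_lit 468) (nat_lit 411) (nat_lit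 261)) (XT.lf (nat_lit 0) (nat_lit 422072930) (nat_lit 684) (nat_lit 4948673237) (nat_lit 76) (nat_lit 9345525764) (nat_lit 215) (nat_lit 5) (nat_lit 224) (nat_lit 5) (nat_lit 216) (nat_lit 5) (nat_lit 469) (nat_lit 411) (nat_lit 260))) (XT.nd (nat_lit 78) (nat_lit 0) (nat_lit 0) (XT.lf (nat_lit 0) (nat_lit 2657738769) (nat_lit 532) (nat_lit 124110070) (nat_lit 608) (nat_lit 12110525152) (nat_lit 208) (nat_lit 5) (nat_lit 215) (nat_lit 5) (nat_lit 216) (nat_lit 5) (nat_lit 470) (nat_lit 411) (nat_lit 259)) (XT.lf (nat_lit 0) (nat_lit 5245370334) (nat_lit 608) (nat_lit 4635551707) (nat_lit 76) (nat_lit 5189951660) (nat_lit 208) (nat_lit 5) (nat_lit 216) (nat_lit 5) (nat_lit 209) (nat_lit 5) (nat_lit 471) (nat_lit 411) (nat_lit 258))))))))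
noncomputable def xc175 : XT := (XT.nd (nat_lit 2184) (nat_lit 3648) (nat_lit 0) (XT.nd (nat_lit 1092) (nat_lit 3040) (nat_lit 0) (XT.nd (nat_lit 546) (nat_lit 1520) (nat_lit 0) (XT.nd (nat_lit 234) (nat_lit 1064) (nat_lit 0) (XT.nd (nat_lit 78) (nat_lit 532) (nat_lit 0) (XT.lf (nat_lit 0) (nat_lit 3142755128) (nat_lit 532) (nat_lit 4626027834) (nat_lit 608) (nat_lit 7483954508) (nat_lit 201) (nat_lit 5) (nat_lit 208) (nat_lit 5) (nat_lit 209) (nat_lit 5) (nat_lit 472) (nat_lit 411) (nat_lit 257)) (XT.nd (nat_lit 78) (nat_lit 532) (nat_lit 0) (XT.lf (nat_lit 0) (nat_lit 10368242496) (nat_lit 608) (nat_lit 4316390458) (nat_lit 76) (nat_lit 753100342) (nat_lit 201) (nat_lit 5) (nat_lit 209) (nat_lit 5) (nat_lit 202) (nat_lit 5) (nat_lit 473) (nat_lit 411) (nat_lit 256)) (XT.lf (nat_lit 0) (nat_lit 3637132179) (nat_lit 532) (nat_lit 9426515809) (nat_lit 608) (nat_lit 2561908144) (nat_lit 194) (nat_lit 5) (nat_lit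 201) (nat_lit 5) (nat_lit 202) (nat_lit 5) (nat_lit 474) (nat_lit 411) (nat_lit 255)))) (XT.nd (nat_lit 156) (nat_lit 456) (nat_lit 0) (XT.nd (nat_lit 78) (nat_lit 532) (nat_lit 0) (XT.lf (nat_lit 0) (nat_lit 14788657) (nat_lit 608) (nat_lit 4021549171) (nat_lit 76) (nat_lit 11780425971) (nat_lit 193) (nat_lit 5) (nat_lit 201) (nat_lit 5) (nat_lit 194) (nat_lit 5) (nat_lit 475) (nat_lit 411) (nat_lit 254)) (XT.lf (nat_lit 0) (nat_lit 2635269586) (nat_lit 608) (nat_lit 11891846203) (nat_lit 76) (nat_lit 1483815932) (nat_lit 186) (nat_lit 5) (nat_lit 194) (nat_lit 5) (nat_lit 187) (nat_lit 5) (nat_lit 476) (nat_lit 411) (nat_lit 253))) (XT.nd (nat_lit 78) (nat_lit 456) (nat_lit 0) (XT.lf (nat_lit 0) (nat_lit 5352104237) (nat_lit 608) (nat_lit 3771215969) (nat_lit 76) (nat_lit 7084789669) (nat_lit 186) (nat_lit 5) (nat_lit 194) (nat_lit 5) (nat_lit 187) (nat_lit 5) (nat_lit 477) (nat_lit 411) (nat_lit 252)) (XT.lf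 (nat_lit 0) (nat_lit 4558962277) (nat_lit 456) (nat_lit 3584156206) (nat_lit 532) (nat_lit 8265721893) (nat_lit 180) (nat_lit 5) (nat_lit 186) (nat_lit 5) (nat_lit 187) (nat_lit 5) (nat_lit 478) (nat_lit 411) (nat_lit 251))))) (XT.nd (nat_lit 234) (nat_lit 912) (nat_lit 0) (XT.nd (nat_lit 78) (nat_lit 608) (nat_lit 0) (XT.lf (nat_lit 0) (nat_lit 11019173717) (nat_lit 532) (nat_lit 3532547935) (nat_lit 76) (nat_lit 2061284950) (nat_lit 180) (nat_lit 5) (nat_lit 187) (nat_lit 5) (nat_lit 181) (nat_lit 5) (nat_lit 479) (nat_lit 411) (nat_lit 250)) (XT.nd (nat_lit 78) (nat_lit 76) (nat_lit 0) (XT.lf (nat_lit 0) (nat_lit 4980206632) (nat_lit 532) (nat_lit 9019137675) (nat_lit 608) (nat_lit 2820985385) (nat_lit 173) (nat_lit 5) (nat_lit 180) (nat_lit 5) (nat_lit 181) (nat_lit 5) (nat_lit 480) (nat_lit 411) (nat_lit 249)) (XT.lf (nat_lit 0) (nat_lit 21646500) (nat_lit 608) (nat_lit 3332979507) (nat_lit 76) (nat_lit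 13676889030) (nat_lit 172) (nat_lit 5) (nat_lit 180) (nat_lit 5) (nat_lit 173) (nat_lit 5) (nat_lit 481) (nat_lit 411) (nat_lit 248)))) (XT.nd (nat_lit 156) (nat_lit 456) (nat_lit 0) (XT.nd (nat_lit 78) (nat_lit 0) (nat_lit 0) (XT.lf (nat_lit 0) (nat_lit 2925163923) (nat_lit 532) (nat_lit 11878178336) (nat_lit 76) (nat_lit 2442377886) (nat_lit 166) (nat_lit 5) (nat_lit 173) (nat_lit 5) (nat_lit 167) (nat_lit 5) (nat_lit 482) (nat_lit 411) (nat_lit 247)) (XT.lf (nat_lit 0) (nat_lit 5922310319) (nat_lit 532) (nat_lit 3211265074) (nat_lit 76) (nat_lit 8329927801) (nat_lit 166) (nat_lit 5) (nat_lit 173) (nat_lit 5) (nat_lit 167) (nat_lit 5) (nat_lit 483) (nat_lit 411) (nat_lit 246))) (XT.nd (nat_lit 78) (nat_lit 0) (nat_lit 0) (XT.lf (nat_lit 0) (nat_lit 5691482426) (nat_lit 456) (nat_lit 3315878323) (nat_lit 532) (nat_lit 8677726844) (nat_lit 160) (nat_lit 5) (nat_lit 166) (nat_lit 5) (nat_lit 167) (nat_lit 5) (nat_lit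 484) (nat_lit 411) (nat_lit 245)) (XT.lf (nat_lit 0) (nat_lit 12183888653) (nat_lit 532) (nat_lit 3124230891) (nat_lit 76) (nat_lit 2602393422) (nat_lit 160) (nat_lit 5) (nat_lit 167) (nat_lit 5) (nat_lit 161) (nat_lit 5) (nat_lit 485) (nat_lit 411) (nat_lit 244)))))) (XT.nd (nat_lit 546) (nat_lit 1216) (nat_lit 0) (XT.nd (nat_lit 234) (nat_lit 836) (nat_lit 0) (XT.nd (nat_lit 78) (nat_lit 532) (nat_lit 0) (XT.lf (nat_lit 0) (nat_lit 5966836374) (nat_lit 456) (nat_lit 9509071214) (nat_lit 532) (nat_lit 2663504769) (nat_lit 154) (nat_lit 5) (nat_lit 160) (nat_lit 5) (nat_lit 161) (nat_lit 5) (nat_lit 486) (nat_lit 411) (nat_lit 243)) (XT.nd (nat_lit 78) (nat_lit 456) (nat_lit 0) (XT.lf (nat_lit 0) (nat_lit 467229308) (nat_lit 532) (nat_lit 3105559373) (nat_lit 76) (nat_lit 14799797813) (nat_lit 153) (nat_lit 5) (nat_lit 160) (nat_lit 5) (nat_lit 154) (nat_lit 5) (nat_lit 487) (nat_lit 411) (nat_lit 242)) (XT.lf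 (nat_lit 0) (nat_lit 3673108072) (nat_lit 532) (nat_lit 12431315122) (nat_lit 76) (nat_lit 2504689367) (nat_lit 147) (nat_lit 5) (nat_lit 154) (nat_lit 5) (nat_lit 148) (nat_lit 5) (nat_lit 488) (nat_lit 411) (nat_lit 241)))) (XT.nd (nat_lit 156) (nat_lit 456) (nat_lit 0) (XT.nd (nat_lit 78) (nat_lit 380) (nat_lit 0) (XT.lf (nat_lit 0) (nat_lit 6979276548) (nat_lit 532) (nat_lit 3196704161) (nat_lit 76) (nat_lit 8673669359) (nat_lit 147) (nat_lit 5) (nat_lit 154) (nat_lit 5) (nat_lit 148) (nat_lit 5) (nat_lit 489) (nat_lit 411) (nat_lit 240)) (XT.lf (nat_lit 0) (nat_lit 6293501175) (nat_lit 380) (nat_lit 4090628149) (nat_lit 456) (nat_lit 8710222058) (nat_lit 142) (nat_lit 5) (nat_lit 147) (nat_lit 5) (nat_lit 148) (nat_lit 5) (nat_lit 490) (nat_lit 411) (nat_lit 239))) (XT.nd (nat_lit 78) (nat_lit 456) (nat_lit 0) (XT.lf (nat_lit 0) (nat_lit 13884179361) (nat_lit 456) (nat_lit 3352266633) (nat_lit 76) (nat_lit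 2106962917) (nat_lit 142) (nat_lit 5) (nat_lit 148) (nat_lit 5) (nat_lit 143) (nat_lit 5) (nat_lit 491) (nat_lit 411) (nat_lit 238)) (XT.lf (nat_lit 0) (nat_lit 6329735166) (nat_lit 456) (nat_lit 11184609084) (nat_lit 532) (nat_lit 2081905171) (nat_lit 136) (nat_lit 5) (nat_lit 142) (nat_lit 5) (nat_lit 143) (nat_lit 5) (nat_lit 492) (nat_lit 411) (nat_lit 237))))) (XT.nd (nat_lit 234) (nat_lit 760) (nat_lit 0) (XT.nd (nat_lit 78) (nat_lit 380) (nat_lit 0) (XT.lf (nat_lit 0) (nat_lit 1359688743) (nat_lit 532) (nat_lit 3623391396) (nat_lit 76) (nat_lit 14870601596) (nat_lit 135) (nat_lit 5) (nat_lit 142) (nat_lit 5) (nat_lit 136) (nat_lit 5) (nat_lit 493) (nat_lit 411) (nat_lit 236)) (XT.nd (nat_lit 78) (nat_lit 0) (nat_lit 0) (XT.lf (nat_lit 0) (nat_lit 4884138224) (nat_lit 456) (nat_lit 13854642588) (nat_lit 76) (nat_lit 1376372520) (nat_lit 130) (nat_lit 5) (nat_lit 136) (nat_lit 5) (nat_lit 131) (nat_lit 5)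 (nat_lit 494) (nat_lit 411) (nat_lit 235)) (XT.lf (nat_lit 0) (nat_lit 8528724748) (nat_lit 456) (nat_lit 4034674596) (nat_lit 76) (nat_lit 7817465854) (nat_lit 130) (nat_lit 5) (nat_lit 136) (nat_lit 5) (nat_lit 131) (nat_lit 5) (nat_lit 495) (nat_lit 411) (nat_lit 234)))) (XT.nd (nat_lit 156) (nat_lit 380) (nat_lit 0) (XT.nd (nat_lit 78) (nat_lit 0) (nat_lit 0) (XT.lf (nat_lit 0) (nat_lit 6049909061) (nat_lit 380) (nat_lit 6227899095) (nat_lit 456) (nat_lit 8373454764) (nat_lit 125) (nat_lit 5) (nat_lit 130) (nat_lit 5) (nat_lit 131) (nat_lit 5) (nat_lit 496) (nat_lit 411) (nat_lit 233)) (XT.lf (nat_lit 0) (nat_lit 16123029999) (nat_lit 456) (nat_lit 4548541470) (nat_lit 76) (nat_lit 255077640) (nat_lit 125) (nat_lit 5) (nat_lit 131) (nat_lit 5) (nat_lit 126) (nat_lit 5) (nat_lit 497) (nat_lit 411) (nat_lit 232))) (XT.nd (nat_lit 78) (nat_lit 76) (nat_lit 0) (XT.lf (nat_lit 0) (nat_lit 5728239865) (nat_lit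 304) (nat_lit 14387883067) (nat_lit 380) (nat_lit 1090004335) (nat_lit 121) (nat_lit 5) (nat_lit 125) (nat_lit 5) (nat_lit 126) (nat_lit 5) (nat_lit 498) (nat_lit 411) (nat_lit 231)) (XT.lf (nat_lit 0) (nat_lit 2685778796) (nat_lit 380) (nat_lit 5247089662) (nat_lit 76) (nat_lit 13557514056) (nat_lit 120) (nat_lit 5) (nat_lit 125) (nat_lit 5) (nat_lit 121) (nat_lit 5) (nat_lit 499) (nat_lit 411) (nat_lit 230))))))) (XT.nd (nat_lit 1092) (nat_lit 1216) (nat_lit 0) (XT.nd (nat_lit 546) (nat_lit 988) (nat_lit 0) (XT.nd (nat_lit 234) (nat_lit 760) (nat_lit 0) (XT.nd (nat_lit 78) (nat_lit 304) (nat_lit 0) (XT.lf (nat_lit 0) (nat_lit 5239031939) (nat_lit 380) (nat_lit 1310179436) (nat_lit 456) (nat_lit 15230436183) (nat_lit 115) (nat_lit 5) (nat_lit 120) (nat_lit 5) (nat_lit 121) (nat_lit 5) (nat_lit 500) (nat_lit 411) (nat_lit 229)) (XT.nd (nat_lit 78) (nat_lit 304) (nat_lit 0) (XT.lf (nat_lit 0) (nat_lit 10553459807)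 (nat_lit 456) (nat_lit 6114416143) (nat_lit 76) (nat_lit 5405554315) (nat_lit 115) (nat_lit 5) (nat_lit 121) (nat_lit 5) (nat_lit 116) (nat_lit 5) (nat_lit 501) (nat_lit 411) (nat_lit 228)) (XT.lf (nat_lit 0) (nat_lit 4560820530) (nat_lit 304) (nat_lit 10108154340) (nat_lit 380) (nat_lit 7703493364) (nat_lit 111) (nat_lit 5) (nat_lit 115) (nat_lit 5) (nat_lit 116) (nat_lit 5) (nat_lit 502) (nat_lit 411) (nat_lit 227)))) (XT.nd (nat_lit 156) (nat_lit 304) (nat_lit 0) (XT.nd (nat_lit 78) (nat_lit 456) (nat_lit 0) (XT.lf (nat_lit 0) (nat_lit 15521888276) (nat_lit 304) (nat_lit 3378906828) (nat_lit 380) (nat_lit 3776015137) (nat_lit 111) (nat_lit 5) (nat_lit 115) (nat_lit 5) (nat_lit 116) (nat_lit 5) (nat_lit 503) (nat_lit 411) (nat_lit 226)) (XT.lf (nat_lit 0) (nat_lit 267185932) (nat_lit 456) (nat_lit 19257427693) (nat_lit 76) (nat_lit 3461794850) (nat_lit 105) (nat_lit 5) (nat_lit 111) (nat_lit 5) (nat_lit 106)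 (nat_lit 5) (nat_lit 504) (nat_lit 411) (nat_lit 225))) (XT.nd (nat_lit 78) (nat_lit 304) (nat_lit 0) (XT.lf (nat_lit 0) (nat_lit 4404544831) (nat_lit 456) (nat_lit 8431885230) (nat_lit 76) (nat_lit 10463995324) (nat_lit 105) (nat_lit 5) (nat_lit 111) (nat_lit 5) (nat_lit 106) (nat_lit 5) (nat_lit 505) (nat_lit 411) (nat_lit 224)) (XT.lf (nat_lit 0) (nat_lit 2634431178) (nat_lit 304) (nat_lit 6000558775) (nat_lit 380) (nat_lit 14985528835) (nat_lit 101) (nat_lit 5) (nat_lit 105) (nat_lit 5) (nat_lit 106) (nat_lit 5) (nat_lit 506) (nat_lit 411) (nat_lit 223))))) (XT.nd (nat_lit 234) (nat_lit 684) (nat_lit 0) (XT.nd (nat_lit 78) (nat_lit 304) (nat_lit 0) (XT.lf (nat_lit 0) (nat_lit 13006590153) (nat_lit 380) (nat_lit 9926532111) (nat_lit 76) (nat_lit 1012763749) (nat_lit 101) (nat_lit 5) (nat_lit 106) (nat_lit 5) (nat_lit 102) (nat_lit 5) (nat_lit 507) (nat_lit 411) (nat_lit 222)) (XT.nd (nat_lit 78) (nat_lit 0)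 (nat_lit 0) (XT.lf (nat_lit 0) (nat_lit 1321678122) (nat_lit 304) (nat_lit 16185674057) (nat_lit 380) (nat_lit 6769576627) (nat_lit 97) (nat_lit 5) (nat_lit 101) (nat_lit 5) (nat_lit 102) (nat_lit 5) (nat_lit 508) (nat_lit 411) (nat_lit 221)) (XT.lf (nat_lit 0) (nat_lit 12919344346) (nat_lit 304) (nat_lit 9238871036) (nat_lit 380) (nat_lit 2455178121) (nat_lit 97) (nat_lit 5) (nat_lit 101) (nat_lit 5) (nat_lit 102) (nat_lit 5) (nat_lit 509) (nat_lit 411) (nat_lit 220)))) (XT.nd (nat_lit 156) (nat_lit 304) (nat_lit 0) (XT.nd (nat_lit 78) (nat_lit 304) (nat_lit 0) (XT.lf (nat_lit 0) (nat_lit 1913549263) (nat_lit 380) (nat_lit 230211034) (nat_lit 76) (nat_lit 22812706093) (nat_lit 96) (nat_lit 5) (nat_lit 101) (nat_lit 5) (nat_lit 97) (nat_lit 5) (nat_lit 510) (nat_lit 411) (nat_lit 219)) (XT.lf (nat_lit 0) (nat_lit 6439385078) (nat_lit 380) (nat_lit 13749478160) (nat_lit 76) (nat_lit 5115163353) (nat_lit 92) (nat_lit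 5) (nat_lit 97) (nat_lit 5) (nat_lit 93) (nat_lit 5) (nat_lit 511) (nat_lit 411) (nat_lit 218))) (XT.nd (nat_lit 78) (nat_lit 304) (nat_lit 0) (XT.lf (nat_lit 0) (nat_lit 11065211277) (nat_lit 380) (nat_lit 2104392577) (nat_lit 76) (nat_lit 12488747223) (nat_lit 92) (nat_lit 5) (nat_lit 97) (nat_lit 5) (nat_lit 93) (nat_lit 5) (nat_lit 512) (nat_lit 411) (nat_lit 217)) (XT.lf (nat_lit 0) (nat_lit 9893743315) (nat_lit 304) (nat_lit 5947892049) (nat_lit 380) (nat_lit 10176967568) (nat_lit 88) (nat_lit 5) (nat_lit 92) (nat_lit 5) (nat_lit 93) (nat_lit 5) (nat_lit 513) (nat_lit 411) (nat_lit 216)))))) (XT.nd (nat_lit 546) (nat_lit 380) (nat_lit 0) (XT.nd (nat_lit 234) (nat_lit 532) (nat_lit 0) (XT.nd (nat_lit 78) (nat_lit 304) (nat_lit 0) (XT.lf (nat_lit 0) (nat_lit 20730892215) (nat_lit 380) (nat_lit 4244360030) (nat_lit 76) (nat_lit 1410463949) (nat_lit 88) (nat_lit 5) (nat_lit 93) (nat_lit 5) (nat_lit 89) (nat_lit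 5) (nat_lit 514) (nat_lit 411) (nat_lit 215)) (XT.nd (nat_lit 78) (nat_lit 76) (nat_lit 0) (XT.lf (nat_lit 0) (nat_lit 7928889132) (nat_lit 228) (nat_lit 17873915607) (nat_lit 304) (nat_lit 955671980) (nat_lit 85) (nat_lit 5) (nat_lit 88) (nat_lit 5) (nat_lit 89) (nat_lit 5) (nat_lit 515) (nat_lit 411) (nat_lit 214)) (XT.lf (nat_lit 0) (nat_lit 3809820402) (nat_lit 304) (nat_lit 6769568916) (nat_lit 76) (nat_lit 16558353414) (nat_lit 84) (nat_lit 5) (nat_lit 88) (nat_lit 5) (nat_lit 85) (nat_lit 5) (nat_lit 516) (nat_lit 411) (nat_lit 213)))) (XT.nd (nat_lit 156) (nat_lit 228) (nat_lit 0) (XT.nd (nat_lit 78) (nat_lit 0) (nat_lit 0) (XT.lf (nat_lit 0) (nat_lit 5589333327) (nat_lit 304) (nat_lit 3098927665) (nat_lit 380) (nat_lit 18835600309) (nat_lit 80) (nat_lit 5) (nat_lit 84) (nat_lit 5) (nat_lit 85) (nat_lit 5) (nat_lit 517) (nat_lit 411) (nat_lit 212)) (XT.lf (nat_lit 0) (nat_lit 13733583871) (nat_lit 380)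 (nat_lit 9668664894) (nat_lit 76) (nat_lit 4514069429) (nat_lit 80) (nat_lit 5) (nat_lit 85) (nat_lit 5) (nat_lit 81) (nat_lit 5) (nat_lit 518) (nat_lit 411) (nat_lit 211))) (XT.nd (nat_lit 78) (nat_lit 0) (nat_lit 0) (XT.lf (nat_lit 0) (nat_lit 2850228840) (nat_lit 228) (nat_lit 16062893111) (nat_lit 304) (nat_lit 9402838280) (nat_lit 77) (nat_lit 5) (nat_lit 80) (nat_lit 5) (nat_lit 81) (nat_lit 5) (nat_lit 519) (nat_lit 411) (nat_lit 210)) (XT.lf (nat_lit 0) (nat_lit 15741476741) (nat_lit 228) (nat_lit 8513989511) (nat_lit 304) (nat_lit 4466946686) (nat_lit 77) (nat_lit 5) (nat_lit 80) (nat_lit 5) (nat_lit 81) (nat_lit 5) (nat_lit 520) (nat_lit 411) (nat_lit 209))))) (XT.nd (nat_lit 51012) (nat_lit 0) (nat_lit 29792) (XT.nd (nat_lit 50856) (nat_lit 0) (nat_lit 29792) (XT.nd (nat_lit 78) (nat_lit 304) (nat_lit 0) (XT.lf (nat_lit 0) (nat_lit 554623616) (nat_lit 304) (nat_lit 259114008) (nat_lit 76) (nat_lit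 28323297300) (nat_lit 76) (nat_lit 5) (nat_lit 80) (nat_lit 5) (nat_lit 77) (nat_lit 5) (nat_lit 521) (nat_lit 411) (nat_lit 208)) (XT.lf (nat_lit 0) (nat_lit 5741235709) (nat_lit 380) (nat_lit 16756990555) (nat_lit 76) (nat_lit 7058646114) (nat_lit 72) (nat_lit 5) (nat_lit 77) (nat_lit 5) (nat_lit 73) (nat_lit 5) (nat_lit 522) (nat_lit 411) (nat_lit 207))) (XT.nd (nat_lit 78) (nat_lit 0) (nat_lit 0) (XT.lf (nat_lit 0) (nat_lit 1668874467) (nat_lit 1444) (nat_lit 1273524758) (nat_lit 1444) (nat_lit 1273524758) (nat_lit 464) (nat_lit 3) (nat_lit 483) (nat_lit 3) (nat_lit 483) (nat_lit 5) (nat_lit 412) (nat_lit 412) (nat_lit 316)) (XT.lf (nat_lit 76) (nat_lit 1332979474) (nat_lit 0) (nat_lit 3054775214) (nat_lit 1444) (nat_lit 4107184199) (nat_lit 465) (nat_lit 5) (nat_lit 464) (nat_lit 3) (nat_lit 483) (nat_lit 5) (nat_lit 413) (nat_lit 412) (nat_lit 315)))) (XT.nd (nat_lit 156) (nat_lit 0) (nat_lit 76) (XT.nd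 (nat_lit 78) (nat_lit 0) (nat_lit 76) (XT.lf (nat_lit 76) (nat_lit 5311459729) (nat_lit 0) (nat_lit 137864569) (nat_lit 1444) (nat_lit 3110179528) (nat_lit 465) (nat_lit 5) (nat_lit 464) (nat_lit 3) (nat_lit 483) (nat_lit 5) (nat_lit 414) (nat_lit 412) (nat_lit 314)) (XT.lf (nat_lit 76) (nat_lit 721153306) (nat_lit 0) (nat_lit 5808150056) (nat_lit 1444) (nat_lit 2096136155) (nat_lit 466) (nat_lit 5) (nat_lit 465) (nat_lit 5) (nat_lit 484) (nat_lit 5) (nat_lit 415) (nat_lit 412) (nat_lit 313))) (XT.nd (nat_lit 78) (nat_lit 0) (nat_lit 76) (XT.lf (nat_lit 76) (nat_lit 4798897830) (nat_lit 0) (nat_lit 2829178797) (nat_lit 1444) (nat_lit 1064695969) (nat_lit 466) (nat_lit 5) (nat_lit 465) (nat_lit 5) (nat_lit 484) (nat_lit 5) (nat_lit 416) (nat_lit 412) (nat_lit 312)) (XT.lf (nat_lit 76) (nat_lit 183530183) (nat_lit 0) (nat_lit 8542911488) (nat_lit 1444) (nat_lit 35480459) (nat_lit 467) (nat_lit 5) (nat_lit 466)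 (nat_lit 5) (nat_lit 485) (nat_lit 5) (nat_lit 417) (nat_lit 412) (nat_lit 311))))))))
noncomputable def xc176 : XT := (XT.nd (nat_lit 2184) (nat_lit 10640) (nat_lit 0) (XT.nd (nat_lit 1092) (nat_lit 6764) (nat_lit 0) (XT.nd (nat_lit 546) (nat_lit 1292) (nat_lit 0) (XT.nd (nat_lit 234) (nat_lit 0) (nat_lit 76) (XT.nd (nat_lit 78) (nat_lit 0) (nat_lit 0) (XT.lf (nat_lit 0) (nat_lit 1021334009) (nat_lit 1444) (nat_lit 4476679636) (nat_lit 1520) (nat_lit 3333924208) (nat_lit 447) (nat_lit 5) (nat_lit 466) (nat_lit 5) (nat_lit 467) (nat_lit 5) (nat_lit 418) (nat_lit 412) (nat_lit 310)) (XT.nd (nat_lit 78) (nat_lit 0) (nat_lit 76) (XT.lf (nat_lit 0) (nat_lit 2074573219) (nat_lit 1444) (nat_lit 307401719) (nat_lit 1520) (nat_lit 6521879839) (nat_lit 447) (nat_lit 5) (nat_lit 466) (nat_lit 5) (nat_lit 467) (nat_lit 5) (nat_lit 419) (nat_lit 412) (nat_lit 309)) (XT.lf (nat_lit 0) (nat_lit 3156385015) (nat_lit 1444) (nat_lit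 4999041867) (nat_lit 1520) (nat_lit 821653437) (nat_lit 448) (nat_lit 5) (nat_lit 467) (nat_lit 5) (nat_lit 468) (nat_lit 5) (nat_lit 420) (nat_lit 412) (nat_lit 308)))) (XT.nd (nat_lit 156) (nat_lit 0) (nat_lit 76) (XT.nd (nat_lit 78) (nat_lit 0) (nat_lit 0) (XT.lf (nat_lit 0) (nat_lit 4254360267) (nat_lit 1444) (nat_lit 728575460) (nat_lit 1520) (nat_lit 4068964139) (nat_lit 448) (nat_lit 5) (nat_lit 467) (nat_lit 5) (nat_lit 468) (nat_lit 5) (nat_lit 421) (nat_lit 412) (nat_lit 307)) (XT.lf (nat_lit 76) (nat_lit 3661187650) (nat_lit 0) (nat_lit 1714011626) (nat_lit 1520) (nat_lit 3753018085) (nat_lit 449) (nat_lit 5) (nat_lit 448) (nat_lit 5) (nat_lit 468) (nat_lit 5) (nat_lit 422) (nat_lit 412) (nat_lit 306))) (XT.nd (nat_lit 78) (nat_lit 0) (nat_lit 0) (XT.lf (nat_lit 0) (nat_lit 6511442205) (nat_lit 1444) (nat_lit 1082455006) (nat_lit 1520) (nat_lit 1612323510) (nat_lit 449) (nat_lit 5) (nat_lit 468) (nat_lit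 5) (nat_lit 469) (nat_lit 5) (nat_lit 423) (nat_lit 412) (nat_lit 305)) (XT.lf (nat_lit 76) (nat_lit 3408892621) (nat_lit 0) (nat_lit 4272987149) (nat_lit 1520) (nat_lit 1603693865) (nat_lit 450) (nat_lit 5) (nat_lit 449) (nat_lit 5) (nat_lit 469) (nat_lit 5) (nat_lit 424) (nat_lit 412) (nat_lit 304))))) (XT.nd (nat_lit 234) (nat_lit 0) (nat_lit 76) (XT.nd (nat_lit 78) (nat_lit 1444) (nat_lit 0) (XT.lf (nat_lit 76) (nat_lit 7990558341) (nat_lit 0) (nat_lit 870757072) (nat_lit 1520) (nat_lit 505504917) (nat_lit 450) (nat_lit 5) (nat_lit 449) (nat_lit 5) (nat_lit 469) (nat_lit 5) (nat_lit 425) (nat_lit 412) (nat_lit 303)) (XT.nd (nat_lit 78) (nat_lit 0) (nat_lit 0) (XT.lf (nat_lit 0) (nat_lit 623294771) (nat_lit 1520) (nat_lit 6228286394) (nat_lit 1596) (nat_lit 2597714610) (nat_lit 430) (nat_lit 5) (nat_lit 450) (nat_lit 5) (nat_lit 451) (nat_lit 5) (nat_lit 426) (nat_lit 412) (nat_lit 302)) (XT.lf (nat_lit 0)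 (nat_lit 1761936494) (nat_lit 1520) (nat_lit 1628126586) (nat_lit 1596) (nat_lit 6143427567) (nat_lit 430) (nat_lit 5) (nat_lit 450) (nat_lit 5) (nat_lit 451) (nat_lit 5) (nat_lit 427) (nat_lit 412) (nat_lit 301)))) (XT.nd (nat_lit 156) (nat_lit 0) (nat_lit 0) (XT.nd (nat_lit 78) (nat_lit 0) (nat_lit 0) (XT.lf (nat_lit 0) (nat_lit 2923879978) (nat_lit 1520) (nat_lit 6530229945) (nat_lit 1596) (nat_lit 165266017) (nat_lit 431) (nat_lit 5) (nat_lit 451) (nat_lit 5) (nat_lit 452) (nat_lit 5) (nat_lit 428) (nat_lit 412) (nat_lit 300)) (XT.lf (nat_lit 0) (nat_lit 4122240308) (nat_lit 1520) (nat_lit 1821128853) (nat_lit 1596) (nat_lit 3763362985) (nat_lit 431) (nat_lit 5) (nat_lit 451) (nat_lit 5) (nat_lit 452) (nat_lit 5) (nat_lit 429) (nat_lit 412) (nat_lit 299))) (XT.nd (nat_lit 78) (nat_lit 0) (nat_lit 76) (XT.lf (nat_lit 76) (nat_lit 3007203058) (nat_lit 0) (nat_lit 2337016294) (nat_lit 1596) (nat_lit 4451639531)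 (nat_lit 432) (nat_lit 5) (nat_lit 431) (nat_lit 5) (nat_lit 452) (nat_lit 5) (nat_lit 430) (nat_lit 412) (nat_lit 298)) (XT.lf (nat_lit 0) (nat_lit 6592107194) (nat_lit 1520) (nat_lit 1953265310) (nat_lit 1596) (nat_lit 1341382380) (nat_lit 432) (nat_lit 5) (nat_lit 452) (nat_lit 5) (nat_lit 453) (nat_lit 5) (nat_lit 431) (nat_lit 412) (nat_lit 297)))))) (XT.nd (nat_lit 546) (nat_lit 3876) (nat_lit 0) (XT.nd (nat_lit 234) (nat_lit 1520) (nat_lit 0) (XT.nd (nat_lit 78) (nat_lit 1520) (nat_lit 0) (XT.lf (nat_lit 76) (nat_lit 2988096036) (nat_lit 0) (nat_lit 4892575445) (nat_lit 1596) (nat_lit 2098498748) (nat_lit 433) (nat_lit 5) (nat_lit 432) (nat_lit 5) (nat_lit 453) (nat_lit 5) (nat_lit 432) (nat_lit 412) (nat_lit 296)) (XT.nd (nat_lit 78) (nat_lit 1520) (nat_lit 0) (XT.lf (nat_lit 76) (nat_lit 8040407232) (nat_lit 0) (nat_lit 1148830788) (nat_lit 1596) (nat_lit 884326732) (nat_lit 433) (nat_lit 5) (nat_lit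 432) (nat_lit 5) (nat_lit 453) (nat_lit 5) (nat_lit 433) (nat_lit 412) (nat_lit 295)) (XT.lf (nat_lit 0) (nat_lit 368133387) (nat_lit 1596) (nat_lit 7140053666) (nat_lit 1672) (nat_lit 2661256033) (nat_lit 412) (nat_lit 5) (nat_lit 433) (nat_lit 5) (nat_lit 434) (nat_lit 5) (nat_lit 434) (nat_lit 412) (nat_lit 294)))) (XT.nd (nat_lit 156) (nat_lit 1520) (nat_lit 0) (XT.nd (nat_lit 78) (nat_lit 0) (nat_lit 76) (XT.lf (nat_lit 0) (nat_lit 1636810728) (nat_lit 1596) (nat_lit 2074423912) (nat_lit 1672) (nat_lit 6555841850) (nat_lit 412) (nat_lit 5) (nat_lit 433) (nat_lit 5) (nat_lit 434) (nat_lit 5) (nat_lit 435) (nat_lit 412) (nat_lit 293)) (XT.lf (nat_lit 0) (nat_lit 2934335557) (nat_lit 1596) (nat_lit 7248776097) (nat_lit 76) (nat_lit 183495740) (nat_lit 413) (nat_lit 5) (nat_lit 434) (nat_lit 5) (nat_lit 414) (nat_lit 5) (nat_lit 436) (nat_lit 412) (nat_lit 292))) (XT.nd (nat_lit 78) (nat_lit 1596) (nat_lit 0)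 (XT.lf (nat_lit 0) (nat_lit 4278699401) (nat_lit 1596) (nat_lit 2065128746) (nat_lit 76) (nat_lit 4123897027) (nat_lit 413) (nat_lit 5) (nat_lit 434) (nat_lit 5) (nat_lit 414) (nat_lit 5) (nat_lit 437) (nat_lit 412) (nat_lit 291)) (XT.lf (nat_lit 0) (nat_lit 3250449910) (nat_lit 1596) (nat_lit 2403249922) (nat_lit 1672) (nat_lit 4917104244) (nat_lit 392) (nat_lit 5) (nat_lit 413) (nat_lit 5) (nat_lit 414) (nat_lit 5) (nat_lit 438) (nat_lit 412) (nat_lit 290))))) (XT.nd (nat_lit 234) (nat_lit 2204) (nat_lit 0) (XT.nd (nat_lit 78) (nat_lit 1672) (nat_lit 0) (XT.lf (nat_lit 0) (nat_lit 7063554403) (nat_lit 1672) (nat_lit 2000570044) (nat_lit 76) (nat_lit 1611686512) (nat_lit 392) (nat_lit 5) (nat_lit 414) (nat_lit 5) (nat_lit 393) (nat_lit 5) (nat_lit 439) (nat_lit 412) (nat_lit 289)) (XT.nd (nat_lit 78) (nat_lit 0) (nat_lit 0) (XT.lf (nat_lit 0) (nat_lit 3440452305) (nat_lit 1672) (nat_lit 5082653294) (nat_lit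 1748) (nat_lit 2259395608) (nat_lit 370) (nat_lit 5) (nat_lit 392) (nat_lit 5) (nat_lit 393) (nat_lit 5) (nat_lit 440) (nat_lit 412) (nat_lit 288)) (XT.lf (nat_lit 0) (nat_lit 9003143812) (nat_lit 1672) (nat_lit 1005611017) (nat_lit 1748) (nat_lit 882645252) (nat_lit 370) (nat_lit 5) (nat_lit 392) (nat_lit 5) (nat_lit 393) (nat_lit 5) (nat_lit 441) (nat_lit 412) (nat_lit 287)))) (XT.nd (nat_lit 156) (nat_lit 836) (nat_lit 0) (XT.nd (nat_lit 78) (nat_lit 0) (nat_lit 0) (XT.lf (nat_lit 0) (nat_lit 543210735) (nat_lit 1368) (nat_lit 7317327230) (nat_lit 76) (nat_lit 3141315448) (nat_lit 352) (nat_lit 5) (nat_lit 370) (nat_lit 5) (nat_lit 353) (nat_lit 5) (nat_lit 442) (nat_lit 412) (nat_lit 286)) (XT.lf (nat_lit 0) (nat_lit 1989118174) (nat_lit 1368) (nat_lit 1746963326) (nat_lit 76) (nat_lit 7378262779) (nat_lit 352) (nat_lit 5) (nat_lit 370) (nat_lit 5) (nat_lit 353) (nat_lit 5) (nat_lit 443) (nat_lit 412) (nat_lit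 285))) (XT.nd (nat_lit 78) (nat_lit 0) (nat_lit 0) (XT.lf (nat_lit 0) (nat_lit 3477217756) (nat_lit 912) (nat_lit 7259411912) (nat_lit 76) (nat_lit 492201789) (nat_lit 341) (nat_lit 5) (nat_lit 353) (nat_lit 5) (nat_lit 342) (nat_lit 5) (nat_lit 444) (nat_lit 412) (nat_lit 284)) (XT.lf (nat_lit 0) (nat_lit 5016091388) (nat_lit 912) (nat_lit 1560810120) (nat_lit 76) (nat_lit 4768298366) (nat_lit 341) (nat_lit 5) (nat_lit 353) (nat_lit 5) (nat_lit 342) (nat_lit 5) (nat_lit 445) (nat_lit 412) (nat_lit 283))))))) (XT.nd (nat_lit 1092) (nat_lit 4332) (nat_lit 0) (XT.nd (nat_lit 546) (nat_lit 2964) (nat_lit 0) (XT.nd (nat_lit 234) (nat_lit 1672) (nat_lit 0) (XT.nd (nat_lit 78) (nat_lit 836) (nat_lit 0) (XT.lf (nat_lit 0) (nat_lit 4293935393) (nat_lit 836) (nat_lit 2304459823) (nat_lit 912) (nat_lit 4865258900) (nat_lit 330) (nat_lit 5) (nat_lit 341) (nat_lit 5) (nat_lit 342) (nat_lit 5) (nat_lit 446) (nat_lit 412)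 (nat_lit 282)) (XT.nd (nat_lit 78) (nat_lit 836) (nat_lit 0) (XT.lf (nat_lit 0) (nat_lit 8221207834) (nat_lit 912) (nat_lit 1325105496) (nat_lit 76) (nat_lit 2037998140) (nat_lit 330) (nat_lit 5) (nat_lit 342) (nat_lit 5) (nat_lit 331) (nat_lit 5) (nat_lit 447) (nat_lit 412) (nat_lit 281)) (XT.lf (nat_lit 0) (nat_lit 4668276761) (nat_lit 836) (nat_lit 5239052441) (nat_lit 912) (nat_lit 1799446781) (nat_lit 319) (nat_lit 5) (nat_lit 330) (nat_lit 5) (nat_lit 331) (nat_lit 5) (nat_lit 448) (nat_lit 412) (nat_lit 280)))) (XT.nd (nat_lit 156) (nat_lit 760) (nat_lit 0) (XT.nd (nat_lit 78) (nat_lit 912) (nat_lit 0) (XT.lf (nat_lit 0) (nat_lit 10785494297) (nat_lit 836) (nat_lit 836050216) (nat_lit 912) (nat_lit 210268688) (nat_lit 319) (nat_lit 5) (nat_lit 330) (nat_lit 5) (nat_lit 331) (nat_lit 5) (nat_lit 449) (nat_lit 412) (nat_lit 279)) (XT.lf (nat_lit 0) (nat_lit 1435039792) (nat_lit 912) (nat_lit 6873176988)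 (nat_lit 76) (nat_lit 3650104657) (nat_lit 307) (nat_lit 5) (nat_lit 319) (nat_lit 5) (nat_lit 308) (nat_lit 5) (nat_lit 450) (nat_lit 412) (nat_lit 278))) (XT.nd (nat_lit 78) (nat_lit 760) (nat_lit 0) (XT.lf (nat_lit 0) (nat_lit 3108898966) (nat_lit 912) (nat_lit 754899792) (nat_lit 76) (nat_lit 8223574300) (nat_lit 307) (nat_lit 5) (nat_lit 319) (nat_lit 5) (nat_lit 308) (nat_lit 5) (nat_lit 451) (nat_lit 412) (nat_lit 277)) (XT.lf (nat_lit 0) (nat_lit 4842950249) (nat_lit 836) (nat_lit 6678544887) (nat_lit 76) (nat_lit 696986298) (nat_lit 297) (nat_lit 5) (nat_lit 308) (nat_lit 5) (nat_lit 298) (nat_lit 5) (nat_lit 452) (nat_lit 412) (nat_lit 276))))) (XT.nd (nat_lit 234) (nat_lit 2204) (nat_lit 0) (XT.nd (nat_lit 78) (nat_lit 760) (nat_lit 0) (XT.lf (nat_lit 0) (nat_lit 6628682319) (nat_lit 836) (nat_lit 420869670) (nat_lit 76) (nat_lit 5302329813) (nat_lit 297) (nat_lit 5) (nat_lit 308) (nat_lit 5) (nat_lit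 298) (nat_lit 5) (nat_lit 453) (nat_lit 412) (nat_lit 275)) (XT.nd (nat_lit 78) (nat_lit 0) (nat_lit 0) (XT.lf (nat_lit 0) (nat_lit 6027242846) (nat_lit 760) (nat_lit 2448599796) (nat_lit 836) (nat_lit 4011602896) (nat_lit 287) (nat_lit 5) (nat_lit 297) (nat_lit 5) (nat_lit 298) (nat_lit 5) (nat_lit 454) (nat_lit 412) (nat_lit 274)) (XT.lf (nat_lit 0) (nat_lit 10364113388) (nat_lit 836) (nat_lit 44177676) (nat_lit 76) (nat_lit 2217355579) (nat_lit 287) (nat_lit 5) (nat_lit 298) (nat_lit 5) (nat_lit 288) (nat_lit 5) (nat_lit 455) (nat_lit 412) (nat_lit 273)))) (XT.nd (nat_lit 156) (nat_lit 684) (nat_lit 0) (XT.nd (nat_lit 78) (nat_lit 836) (nat_lit 0) (XT.lf (nat_lit 0) (nat_lit 6556266428) (nat_lit 684) (nat_lit 5779678710) (nat_lit 760) (nat_lit 429759977) (nat_lit 278) (nat_lit 5) (nat_lit 287) (nat_lit 5) (nat_lit 288) (nat_lit 5) (nat_lit 456) (nat_lit 412) (nat_lit 272)) (XT.lf (nat_lit 0) (nat_lit 362407118)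 (nat_lit 760) (nat_lit 1047109599) (nat_lit 836) (nat_lit 11499075401) (nat_lit 267) (nat_lit 5) (nat_lit 277) (nat_lit 5) (nat_lit 278) (nat_lit 5) (nat_lit 457) (nat_lit 412) (nat_lit 271))) (XT.nd (nat_lit 78) (nat_lit 684) (nat_lit 0) (XT.lf (nat_lit 0) (nat_lit 3333560552) (nat_lit 836) (nat_lit 5945238036) (nat_lit 76) (nat_lit 3774415459) (nat_lit 267) (nat_lit 5) (nat_lit 278) (nat_lit 5) (nat_lit 268) (nat_lit 5) (nat_lit 458) (nat_lit 412) (nat_lit 270)) (XT.lf (nat_lit 0) (nat_lit 777331413) (nat_lit 684) (nat_lit 4518228608) (nat_lit 760) (nat_lit 7905187448) (nat_lit 258) (nat_lit 5) (nat_lit 267) (nat_lit 5) (nat_lit 268) (nat_lit 5) (nat_lit 459) (nat_lit 412) (nat_lit 269)))))) (XT.nd (nat_lit 546) (nat_lit 2356) (nat_lit 0) (XT.nd (nat_lit 234) (nat_lit 1292) (nat_lit 0) (XT.nd (nat_lit 78) (nat_lit 684) (nat_lit 0) (XT.lf (nat_lit 0) (nat_lit 7326793530) (nat_lit 760) (nat_lit 5651762374) (nat_lit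 76) (nat_lit 372084160) (nat_lit 258) (nat_lit 5) (nat_lit 268) (nat_lit 5) (nat_lit 259) (nat_lit 5) (nat_lit 460) (nat_lit 412) (nat_lit 268)) (XT.nd (nat_lit 78) (nat_lit 0) (nat_lit 0) (XT.lf (nat_lit 0) (nat_lit 1227963757) (nat_lit 684) (nat_lit 8196467598) (nat_lit 760) (nat_lit 4078591780) (nat_lit 249) (nat_lit 5) (nat_lit 258) (nat_lit 5) (nat_lit 259) (nat_lit 5) (nat_lit 461) (nat_lit 412) (nat_lit 267)) (XT.lf (nat_lit 0) (nat_lit 8308441093) (nat_lit 684) (nat_lit 3281542191) (nat_lit 760) (nat_lit 2067959416) (nat_lit 249) (nat_lit 5) (nat_lit 258) (nat_lit 5) (nat_lit 259) (nat_lit 5) (nat_lit 462) (nat_lit 412) (nat_lit 266)))) (XT.nd (nat_lit 156) (nat_lit 608) (nat_lit 0) (XT.nd (nat_lit 78) (nat_lit 76) (nat_lit 0) (XT.lf (nat_lit 0) (nat_lit 1712358322) (nat_lit 608) (nat_lit 12097109093) (nat_lit 684) (nat_lit 6288717) (nat_lit 241) (nat_lit 5) (nat_lit 249) (nat_lit 5) (nat_lit 250) (nat_lit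 5) (nat_lit 463) (nat_lit 412) (nat_lit 265)) (XT.lf (nat_lit 0) (nat_lit 2115305024) (nat_lit 684) (nat_lit 5037119107) (nat_lit 76) (nat_lit 6823113300) (nat_lit 240) (nat_lit 5) (nat_lit 249) (nat_lit 5) (nat_lit 241) (nat_lit 5) (nat_lit 464) (nat_lit 412) (nat_lit 264))) (XT.nd (nat_lit 78) (nat_lit 0) (nat_lit 0) (XT.lf (nat_lit 0) (nat_lit 2185878211) (nat_lit 608) (nat_lit 2096108849) (nat_lit 684) (nat_lit 9856479096) (nat_lit 232) (nat_lit 5) (nat_lit 240) (nat_lit 5) (nat_lit 241) (nat_lit 5) (nat_lit 465) (nat_lit 412) (nat_lit 263)) (XT.lf (nat_lit 0) (nat_lit 6534580167) (nat_lit 684) (nat_lit 4715830599) (nat_lit 76) (nat_lit 3053398439) (nat_lit 232) (nat_lit 5) (nat_lit 241) (nat_lit 5) (nat_lit 233) (nat_lit 5) (nat_lit 466) (nat_lit 412) (nat_lit 262))))) (XT.nd (nat_lit 234) (nat_lit 1140) (nat_lit 0) (XT.nd (nat_lit 78) (nat_lit 608) (nat_lit 0) (XT.lf (nat_lit 0) (nat_lit 2673741018) (nat_lit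 608) (nat_lit 6178623034) (nat_lit 684) (nat_lit 5619699440) (nat_lit 224) (nat_lit 5) (nat_lit 232) (nat_lit 5) (nat_lit 233) (nat_lit 5) (nat_lit 467) (nat_lit 412) (nat_lit 261)) (XT.nd (nat_lit 78) (nat_lit 608) (nat_lit 0) (XT.lf (nat_lit 0) (nat_lit 10262008661) (nat_lit 608) (nat_lit 975171519) (nat_lit 684) (nat_lit 3406096168) (nat_lit 224) (nat_lit 5) (nat_lit 232) (nat_lit 5) (nat_lit 233) (nat_lit 5) (nat_lit 468) (nat_lit 412) (nat_lit 260)) (XT.lf (nat_lit 0) (nat_lit 3184795528) (nat_lit 608) (nat_lit 10522936279) (nat_lit 684) (nat_lit 1109427748) (nat_lit 216) (nat_lit 5) (nat_lit 224) (nat_lit 5) (nat_lit 225) (nat_lit 5) (nat_lit 469) (nat_lit 412) (nat_lit 259)))) (XT.nd (nat_lit 156) (nat_lit 532) (nat_lit 0) (XT.nd (nat_lit 78) (nat_lit 532) (nat_lit 0) (XT.lf (nat_lit 0) (nat_lit 1242337362) (nat_lit 684) (nat_lit 4060059576) (nat_lit 76) (nat_lit 9691463234) (nat_lit 215) (nat_lit 5) (nat_lit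 224) (nat_lit 5) (nat_lit 216) (nat_lit 5) (nat_lit 470) (nat_lit 412) (nat_lit 258)) (XT.lf (nat_lit 0) (nat_lit 3640099644) (nat_lit 608) (nat_lit 11482040735) (nat_lit 76) (nat_lit 51537896) (nat_lit 208) (nat_lit 5) (nat_lit 216) (nat_lit 5) (nat_lit 209) (nat_lit 5) (nat_lit 471) (nat_lit 412) (nat_lit 257))) (XT.nd (nat_lit 78) (nat_lit 532) (nat_lit 0) (XT.lf (nat_lit 0) (nat_lit 6137959846) (nat_lit 608) (nat_lit 3751336005) (nat_lit 76) (nat_lit 5466760387) (nat_lit 208) (nat_lit 5) (nat_lit 216) (nat_lit 5) (nat_lit 209) (nat_lit 5) (nat_lit 472) (nat_lit 412) (nat_lit 256)) (XT.lf (nat_lit 0) (nat_lit 4176109818) (nat_lit 532) (nat_lit 4526587290) (nat_lit 608) (nat_lit 6839052485) (nat_lit 201) (nat_lit 5) (nat_lit 208) (nat_lit 5) (nat_lit 209) (nat_lit 5) (nat_lit 473) (nat_lit 412) (nat_lit 255))))))))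
noncomputable def xc177 : XT := (XT.nd (nat_lit 2184) (nat_lit 3268) (nat_lit 0) (XT.nd (nat_lit 1092) (nat_lit 2964) (nat_lit 0) (XT.nd (nat_lit 546) (nat_lit 1976) (nat_lit 0) (XT.nd (nat_lit 234) (nat_lit 988) (nat_lit 0) (XT.nd (nat_lit 78) (nat_lit 608) (nat_lit 0) (XT.lf (nat_lit 0) (nat_lit 11340102273) (nat_lit 608) (nat_lit 3436741919) (nat_lit 76) (nat_lit 953891267) (nat_lit 201) (nat_lit 5) (nat_lit 209) (nat_lit 5) (nat_lit 202) (nat_lit 5) (nat_lit 474) (nat_lit 412) (nat_lit 254)) (XT.nd (nat_lit 78) (nat_lit 76) (nat_lit 0) (XT.lf (nat_lit 0) (nat_lit 4669496063) (nat_lit 532) (nat_lit 9411160212) (nat_lit 608) (nat_lit 1841842739) (nat_lit 194) (nat_lit 5) (nat_lit 201) (nat_lit 5) (nat_lit 202) (nat_lit 5) (nat_lit 475) (nat_lit 412) (nat_lit 253)) (XT.lf (nat_lit 0) (nat_lit 761346962) (nat_lit 608) (nat_lit 3150821658) (nat_lit 76) (nat_lit 12205569282) (nat_lit 193) (nat_lit 5) (nat_lit 201)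 (nat_lit 5) (nat_lit 194) (nat_lit 5) (nat_lit 476) (nat_lit 412) (nat_lit 252)))) (XT.nd (nat_lit 156) (nat_lit 456) (nat_lit 0) (XT.nd (nat_lit 78) (nat_lit 0) (nat_lit 0) (XT.lf (nat_lit 0) (nat_lit 3427084699) (nat_lit 608) (nat_lit 11170944444) (nat_lit 76) (nat_lit 1717911643) (nat_lit 186) (nat_lit 5) (nat_lit 194) (nat_lit 5) (nat_lit 187) (nat_lit 5) (nat_lit 477) (nat_lit 412) (nat_lit 251)) (XT.lf (nat_lit 0) (nat_lit 6183763696) (nat_lit 608) (nat_lit 2906700403) (nat_lit 76) (nat_lit 7426896631) (nat_lit 186) (nat_lit 5) (nat_lit 194) (nat_lit 5) (nat_lit 187) (nat_lit 5) (nat_lit 478) (nat_lit 412) (nat_lit 250))) (XT.nd (nat_lit 78) (nat_lit 0) (nat_lit 0) (XT.lf (nat_lit 0) (nat_lit 5583897592) (nat_lit 456) (nat_lit 3438555013) (nat_lit 532) (nat_lit 7699824362) (nat_lit 180) (nat_lit 5) (nat_lit 186) (nat_lit 5) (nat_lit 187) (nat_lit 5) (nat_lit 479) (nat_lit 412) (nat_lit 249)) (XT.lf (nat_lit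 0) (nat_lit 11943363571) (nat_lit 532) (nat_lit 2674683667) (nat_lit 76) (nat_lit 2312740643) (nat_lit 180) (nat_lit 5) (nat_lit 187) (nat_lit 5) (nat_lit 181) (nat_lit 5) (nat_lit 480) (nat_lit 412) (nat_lit 248))))) (XT.nd (nat_lit 234) (nat_lit 912) (nat_lit 0) (XT.nd (nat_lit 78) (nat_lit 532) (nat_lit 0) (XT.lf (nat_lit 0) (nat_lit 6002217338) (nat_lit 532) (nat_lit 8973108985) (nat_lit 608) (nat_lit 2167095231) (nat_lit 173) (nat_lit 5) (nat_lit 180) (nat_lit 5) (nat_lit 181) (nat_lit 5) (nat_lit 481) (nat_lit 412) (nat_lit 247)) (XT.nd (nat_lit 78) (nat_lit 456) (nat_lit 0) (XT.lf (nat_lit 0) (nat_lit 709328469) (nat_lit 608) (nat_lit 2485806251) (nat_lit 76) (nat_lit 14162886139) (nat_lit 172) (nat_lit 5) (nat_lit 180) (nat_lit 5) (nat_lit 173) (nat_lit 5) (nat_lit 482) (nat_lit 412) (nat_lit 246)) (XT.lf (nat_lit 0) (nat_lit 3664816265) (nat_lit 532) (nat_lit 11195437026) (nat_lit 76) (nat_lit 2716386220)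 (nat_lit 166) (nat_lit 5) (nat_lit 173) (nat_lit 5) (nat_lit 167) (nat_lit 5) (nat_lit 483) (nat_lit 412) (nat_lit 245)))) (XT.nd (nat_lit 156) (nat_lit 456) (nat_lit 0) (XT.nd (nat_lit 78) (nat_lit 456) (nat_lit 0) (XT.lf (nat_lit 0) (nat_lit 6708549725) (nat_lit 532) (nat_lit 2373230692) (nat_lit 76) (nat_lit 8717272216) (nat_lit 166) (nat_lit 5) (nat_lit 173) (nat_lit 5) (nat_lit 167) (nat_lit 5) (nat_lit 484) (nat_lit 412) (nat_lit 244)) (XT.lf (nat_lit 0) (nat_lit 6701635839) (nat_lit 456) (nat_lit 3146390868) (nat_lit 532) (nat_lit 8177194654) (nat_lit 160) (nat_lit 5) (nat_lit 166) (nat_lit 5) (nat_lit 167) (nat_lit 5) (nat_lit 485) (nat_lit 412) (nat_lit 243))) (XT.nd (nat_lit 78) (nat_lit 456) (nat_lit 0) (XT.lf (nat_lit 0) (nat_lit 13076634804) (nat_lit 532) (nat_lit 2296165758) (nat_lit 76) (nat_lit 2882590698) (nat_lit 160) (nat_lit 5) (nat_lit 167) (nat_lit 5) (nat_lit 161) (nat_lit 5) (nat_lit 486)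 (nat_lit 412) (nat_lit 242)) (XT.lf (nat_lit 0) (nat_lit 6970863972) (nat_lit 456) (nat_lit 9456647315) (nat_lit 532) (nat_lit 2061503884) (nat_lit 154) (nat_lit 5) (nat_lit 160) (nat_lit 5) (nat_lit 161) (nat_lit 5) (nat_lit 487) (nat_lit 412) (nat_lit 241)))))) (XT.nd (nat_lit 546) (nat_lit 1520) (nat_lit 0) (XT.nd (nat_lit 234) (nat_lit 912) (nat_lit 0) (XT.nd (nat_lit 78) (nat_lit 456) (nat_lit 0) (XT.lf (nat_lit 0) (nat_lit 1110570938) (nat_lit 532) (nat_lit 2291570707) (nat_lit 76) (nat_lit 15324886263) (nat_lit 153) (nat_lit 5) (nat_lit 160) (nat_lit 5) (nat_lit 154) (nat_lit 5) (nat_lit 488) (nat_lit 412) (nat_lit 240)) (XT.nd (nat_lit 78) (nat_lit 0) (nat_lit 0) (XT.lf (nat_lit 0) (nat_lit 4375365254) (nat_lit 532) (nat_lit 11798315652) (nat_lit 76) (nat_lit 2794714109) (nat_lit 147) (nat_lit 5) (nat_lit 154) (nat_lit 5) (nat_lit 148) (nat_lit 5) (nat_lit 489) (nat_lit 412) (nat_lit 239)) (XT.lf (nat_lit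 0) (nat_lit 7735327785) (nat_lit 532) (nat_lit 2396299251) (nat_lit 76) (nat_lit 9082369172) (nat_lit 147) (nat_lit 5) (nat_lit 154) (nat_lit 5) (nat_lit 148) (nat_lit 5) (nat_lit 490) (nat_lit 412) (nat_lit 238)))) (XT.nd (nat_lit 156) (nat_lit 532) (nat_lit 0) (XT.nd (nat_lit 78) (nat_lit 0) (nat_lit 0) (XT.lf (nat_lit 0) (nat_lit 7278023750) (nat_lit 380) (nat_lit 3923741246) (nat_lit 456) (nat_lit 8261963032) (nat_lit 142) (nat_lit 5) (nat_lit 147) (nat_lit 5) (nat_lit 148) (nat_lit 5) (nat_lit 491) (nat_lit 412) (nat_lit 237)) (XT.lf (nat_lit 0) (nat_lit 14761439229) (nat_lit 456) (nat_lit 2566813719) (nat_lit 76) (nat_lit 2389727399) (nat_lit 142) (nat_lit 5) (nat_lit 148) (nat_lit 5) (nat_lit 143) (nat_lit 5) (nat_lit 492) (nat_lit 412) (nat_lit 236))) (XT.nd (nat_lit 78) (nat_lit 76) (nat_lit 0) (XT.lf (nat_lit 0) (nat_lit 7303219575) (nat_lit 456) (nat_lit 11154730014) (nat_lit 532) (nat_lit 1518059221)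 (nat_lit 136) (nat_lit 5) (nat_lit 142) (nat_lit 5) (nat_lit 143) (nat_lit 5) (nat_lit 493) (nat_lit 412) (nat_lit 235)) (XT.lf (nat_lit 0) (nat_lit 1972709010) (nat_lit 532) (nat_lit 2857502262) (nat_lit 76) (nat_lit 15408539958) (nat_lit 135) (nat_lit 5) (nat_lit 142) (nat_lit 5) (nat_lit 136) (nat_lit 5) (nat_lit 494) (nat_lit 412) (nat_lit 234))))) (XT.nd (nat_lit 234) (nat_lit 760) (nat_lit 0) (XT.nd (nat_lit 78) (nat_lit 380) (nat_lit 0) (XT.lf (nat_lit 0) (nat_lit 5563211302) (nat_lit 456) (nat_lit 13288660328) (nat_lit 76) (nat_lit 1653674991) (nat_lit 130) (nat_lit 5) (nat_lit 136) (nat_lit 5) (nat_lit 131) (nat_lit 5) (nat_lit 495) (nat_lit 412) (nat_lit 233)) (XT.nd (nat_lit 78) (nat_lit 380) (nat_lit 0) (XT.lf (nat_lit 0) (nat_lit 9269289746) (nat_lit 456) (nat_lit 3288823860) (nat_lit 76) (nat_lit 8218692643) (nat_lit 130) (nat_lit 5) (nat_lit 136) (nat_lit 5) (nat_lit 131) (nat_lit 5) (nat_lit 496)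 (nat_lit 412) (nat_lit 232)) (XT.lf (nat_lit 0) (nat_lit 6992013678) (nat_lit 380) (nat_lit 6095496027) (nat_lit 456) (nat_lit 7965224542) (nat_lit 125) (nat_lit 5) (nat_lit 130) (nat_lit 5) (nat_lit 131) (nat_lit 5) (nat_lit 497) (nat_lit 412) (nat_lit 231)))) (XT.nd (nat_lit 156) (nat_lit 456) (nat_lit 0) (XT.nd (nat_lit 78) (nat_lit 304) (nat_lit 0) (XT.lf (nat_lit 0) (nat_lit 17000209960) (nat_lit 456) (nat_lit 3824814254) (nat_lit 76) (nat_lit 508797781) (nat_lit 125) (nat_lit 5) (nat_lit 131) (nat_lit 5) (nat_lit 126) (nat_lit 5) (nat_lit 498) (nat_lit 412) (nat_lit 230)) (XT.lf (nat_lit 0) (nat_lit 6652142851) (nat_lit 304) (nat_lit 14415399811) (nat_lit 380) (nat_lit 551464707) (nat_lit 121) (nat_lit 5) (nat_lit 125) (nat_lit 5) (nat_lit 126) (nat_lit 5) (nat_lit 499) (nat_lit 412) (nat_lit 229))) (XT.nd (nat_lit 78) (nat_lit 380) (nat_lit 0) (XT.lf (nat_lit 0) (nat_lit 3281642174) (nat_lit 380) (nat_lit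 4551107401) (nat_lit 76) (nat_lit 14076347250) (nat_lit 120) (nat_lit 5) (nat_lit 125) (nat_lit 5) (nat_lit 121) (nat_lit 5) (nat_lit 500) (nat_lit 412) (nat_lit 228)) (XT.lf (nat_lit 0) (nat_lit 6139467395) (nat_lit 380) (nat_lit 1077411580) (nat_lit 456) (nat_lit 14987382393) (nat_lit 115) (nat_lit 5) (nat_lit 120) (nat_lit 5) (nat_lit 121) (nat_lit 5) (nat_lit 501) (nat_lit 412) (nat_lit 227))))))) (XT.nd (nat_lit 1092) (nat_lit 1216) (nat_lit 0) (XT.nd (nat_lit 546) (nat_lit 988) (nat_lit 0) (XT.nd (nat_lit 234) (nat_lit 760) (nat_lit 0) (XT.nd (nat_lit 78) (nat_lit 304) (nat_lit 0) (XT.lf (nat_lit 0) (nat_lit 11292337618) (nat_lit 456) (nat_lit 5447535305) (nat_lit 76) (nat_lit 5764229115) (nat_lit 115) (nat_lit 5) (nat_lit 121) (nat_lit 5) (nat_lit 116) (nat_lit 5) (nat_lit 502) (nat_lit 412) (nat_lit 226)) (XT.nd (nat_lit 78) (nat_lit 0) (nat_lit 0) (XT.lf (nat_lit 0) (nat_lit 5436014199) (nat_lit 304)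 (nat_lit 10048889695) (nat_lit 380) (nat_lit 7324326773) (nat_lit 111) (nat_lit 5) (nat_lit 115) (nat_lit 5) (nat_lit 116) (nat_lit 5) (nat_lit 503) (nat_lit 412) (nat_lit 225)) (XT.lf (nat_lit 0) (nat_lit 16600931197) (nat_lit 304) (nat_lit 3190183266) (nat_lit 380) (nat_lit 3328754598) (nat_lit 111) (nat_lit 5) (nat_lit 115) (nat_lit 5) (nat_lit 116) (nat_lit 5) (nat_lit 504) (nat_lit 412) (nat_lit 224)))) (XT.nd (nat_lit 156) (nat_lit 304) (nat_lit 0) (XT.nd (nat_lit 78) (nat_lit 0) (nat_lit 0) (XT.lf (nat_lit 0) (nat_lit 785027733) (nat_lit 456) (nat_lit 18863239220) (nat_lit 76) (nat_lit 3787397397) (nat_lit 105) (nat_lit 5) (nat_lit 111) (nat_lit 5) (nat_lit 106) (nat_lit 5) (nat_lit 505) (nat_lit 412) (nat_lit 223)) (XT.lf (nat_lit 0) (nat_lit 4995084829) (nat_lit 456) (nat_lit 7836467027) (nat_lit 76) (nat_lit 10924615082) (nat_lit 105) (nat_lit 5) (nat_lit 111) (nat_lit 5) (nat_lit 106) (nat_lit 5) (nat_lit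 506) (nat_lit 412) (nat_lit 222))) (XT.nd (nat_lit 78) (nat_lit 0) (nat_lit 0) (XT.lf (nat_lit 0) (nat_lit 3446149026) (nat_lit 304) (nat_lit 5859066005) (nat_lit 380) (nat_lit 14777549928) (nat_lit 101) (nat_lit 5) (nat_lit 105) (nat_lit 5) (nat_lit 106) (nat_lit 5) (nat_lit 507) (nat_lit 412) (nat_lit 221)) (XT.lf (nat_lit 0) (nat_lit 13756156404) (nat_lit 380) (nat_lit 9372616113) (nat_lit 76) (nat_lit 1286033018) (nat_lit 101) (nat_lit 5) (nat_lit 106) (nat_lit 5) (nat_lit 102) (nat_lit 5) (nat_lit 508) (nat_lit 412) (nat_lit 220))))) (XT.nd (nat_lit 234) (nat_lit 304) (nat_lit 0) (XT.nd (nat_lit 78) (nat_lit 380) (nat_lit 0) (XT.lf (nat_lit 0) (nat_lit 2095608017) (nat_lit 304) (nat_lit 16246582141) (nat_lit 380) (nat_lit 6410378005) (nat_lit 97) (nat_lit 5) (nat_lit 101) (nat_lit 5) (nat_lit 102) (nat_lit 5) (nat_lit 509) (nat_lit 412) (nat_lit 219)) (XT.nd (nat_lit 78) (nat_lit 380) (nat_lit 0) (XT.lf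 (nat_lit 0) (nat_lit 13910570775) (nat_lit 304) (nat_lit 9165996106) (nat_lit 380) (nat_lit 2019389374) (nat_lit 97) (nat_lit 5) (nat_lit 101) (nat_lit 5) (nat_lit 102) (nat_lit 5) (nat_lit 510) (nat_lit 412) (nat_lit 218)) (XT.lf (nat_lit 0) (nat_lit 496596141) (nat_lit 304) (nat_lit 1927598200) (nat_lit 380) (nat_lit 23021760340) (nat_lit 92) (nat_lit 5) (nat_lit 96) (nat_lit 5) (nat_lit 97) (nat_lit 5) (nat_lit 511) (nat_lit 412) (nat_lit 217)))) (XT.nd (nat_lit 156) (nat_lit 304) (nat_lit 0) (XT.nd (nat_lit 78) (nat_lit 0) (nat_lit 0) (XT.lf (nat_lit 0) (nat_lit 7034458077) (nat_lit 380) (nat_lit 13296514951) (nat_lit 76) (nat_lit 5469618629) (nat_lit 92) (nat_lit 5) (nat_lit 97) (nat_lit 5) (nat_lit 93) (nat_lit 5) (nat_lit 512) (nat_lit 412) (nat_lit 216)) (XT.lf (nat_lit 0) (nat_lit 11743657951) (nat_lit 380) (nat_lit 1432801241) (nat_lit 76) (nat_lit 12985730020) (nat_lit 92) (nat_lit 5) (nat_lit 97)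 (nat_lit 5) (nat_lit 93) (nat_lit 5) (nat_lit 513) (nat_lit 412) (nat_lit 215))) (XT.nd (nat_lit 78) (nat_lit 0) (nat_lit 0) (XT.lf (nat_lit 0) (nat_lit 10800602112) (nat_lit 304) (nat_lit 5810648024) (nat_lit 380) (nat_lit 9918486823) (nat_lit 88) (nat_lit 5) (nat_lit 92) (nat_lit 5) (nat_lit 93) (nat_lit 5) (nat_lit 514) (nat_lit 412) (nat_lit 214)) (XT.lf (nat_lit 0) (nat_lit 21591044861) (nat_lit 380) (nat_lit 3626738868) (nat_lit 76) (nat_lit 1686557279) (nat_lit 88) (nat_lit 5) (nat_lit 93) (nat_lit 5) (nat_lit 89) (nat_lit 5) (nat_lit 515) (nat_lit 412) (nat_lit 213)))))) (XT.nd (nat_lit 51324) (nat_lit 0) (nat_lit 28424) (XT.nd (nat_lit 234) (nat_lit 608) (nat_lit 0) (XT.nd (nat_lit 78) (nat_lit 380) (nat_lit 0) (XT.lf (nat_lit 0) (nat_lit 8785353511) (nat_lit 228) (nat_lit 17974837289) (nat_lit 304) (nat_lit 524453544) (nat_lit 85) (nat_lit 5) (nat_lit 88) (nat_lit 5) (nat_lit 89) (nat_lit 5) (nat_lit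 516) (nat_lit 412) (nat_lit 212)) (XT.nd (nat_lit 78) (nat_lit 304) (nat_lit 0) (XT.lf (nat_lit 0) (nat_lit 4321728272) (nat_lit 304) (nat_lit 6214798872) (nat_lit 76) (nat_lit 17135087713) (nat_lit 84) (nat_lit 5) (nat_lit 88) (nat_lit 5) (nat_lit 85) (nat_lit 5) (nat_lit 517) (nat_lit 412) (nat_lit 211)) (XT.lf (nat_lit 0) (nat_lit 6386740880) (nat_lit 304) (nat_lit 2906904937) (nat_lit 380) (nat_lit 18771895120) (nat_lit 80) (nat_lit 5) (nat_lit 84) (nat_lit 5) (nat_lit 85) (nat_lit 5) (nat_lit 518) (nat_lit 412) (nat_lit 210)))) (XT.nd (nat_lit 156) (nat_lit 380) (nat_lit 0) (XT.nd (nat_lit 78) (nat_lit 228) (nat_lit 0) (XT.lf (nat_lit 0) (nat_lit 14433028833) (nat_lit 380) (nat_lit 9182852573) (nat_lit 76) (nat_lit 4850105728) (nat_lit 80) (nat_lit 5) (nat_lit 85) (nat_lit 5) (nat_lit 81) (nat_lit 5) (nat_lit 519) (nat_lit 412) (nat_lit 209)) (XT.lf (nat_lit 0) (nat_lit 3581950709) (nat_lit 228) (nat_lit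 16130258790) (nat_lit 304) (nat_lit 9161494653) (nat_lit 77) (nat_lit 5) (nat_lit 80) (nat_lit 5) (nat_lit 81) (nat_lit 5) (nat_lit 520) (nat_lit 412) (nat_lit 208))) (XT.nd (nat_lit 78) (nat_lit 380) (nat_lit 0) (XT.lf (nat_lit 0) (nat_lit 16717793817) (nat_lit 228) (nat_lit 8435355396) (nat_lit 304) (nat_lit 4135304842) (nat_lit 77) (nat_lit 5) (nat_lit 80) (nat_lit 5) (nat_lit 81) (nat_lit 5) (nat_lit 521) (nat_lit 412) (nat_lit 207)) (XT.lf (nat_lit 0) (nat_lit 394963528) (nat_lit 304) (nat_lit 580630198) (nat_lit 380) (nat_lit 28735834719) (nat_lit 72) (nat_lit 5) (nat_lit 76) (nat_lit 5) (nat_lit 77) (nat_lit 5) (nat_lit 522) (nat_lit 412) (nat_lit 206))))) (XT.nd (nat_lit 234) (nat_lit 1368) (nat_lit 0) (XT.nd (nat_lit 78) (nat_lit 0) (nat_lit 0) (XT.lf (nat_lit 0) (nat_lit 2703681200) (nat_lit 1444) (nat_lit 787821747) (nat_lit 1444) (nat_lit 787821747) (nat_lit 464) (nat_lit 3) (nat_lit 483) (nat_lit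 3) (nat_lit 483) (nat_lit 5) (nat_lit 413) (nat_lit 413) (nat_lit 314)) (XT.nd (nat_lit 78) (nat_lit 0) (nat_lit 0) (XT.lf (nat_lit 76) (nat_lit 2375260108) (nat_lit 0) (nat_lit 4070430509) (nat_lit 1444) (nat_lit 2177999931) (nat_lit 465) (nat_lit 5) (nat_lit 464) (nat_lit 3) (nat_lit 483) (nat_lit 5) (nat_lit 414) (nat_lit 413) (nat_lit 313)) (XT.lf (nat_lit 76) (nat_lit 6413395830) (nat_lit 0) (nat_lit 1076464793) (nat_lit 1444) (nat_lit 1200492970) (nat_lit 465) (nat_lit 5) (nat_lit 464) (nat_lit 3) (nat_lit 483) (nat_lit 5) (nat_lit 415) (nat_lit 413) (nat_lit 312)))) (XT.nd (nat_lit 156) (nat_lit 0) (nat_lit 0) (XT.nd (nat_lit 78) (nat_lit 1444) (nat_lit 0) (XT.lf (nat_lit 76) (nat_lit 1770843627) (nat_lit 0) (nat_lit 6783486784) (nat_lit 1444) (nat_lit 204053281) (nat_lit 466) (nat_lit 5) (nat_lit 465) (nat_lit 5) (nat_lit 484) (nat_lit 5) (nat_lit 416) (nat_lit 413) (nat_lit 311)) (XT.lf (nat_lit 0) (nat_lit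 799469501) (nat_lit 1444) (nat_lit 2923255193) (nat_lit 1520) (nat_lit 5105009320) (nat_lit 446) (nat_lit 5) (nat_lit 465) (nat_lit 5) (nat_lit 466) (nat_lit 5) (nat_lit 417) (nat_lit 413) (nat_lit 310))) (XT.nd (nat_lit 78) (nat_lit 0) (nat_lit 76) (XT.lf (nat_lit 76) (nat_lit 1223532432) (nat_lit 0) (nat_lit 580527199) (nat_lit 1520) (nat_lit 7094730999) (nat_lit 447) (nat_lit 5) (nat_lit 446) (nat_lit 5) (nat_lit 466) (nat_lit 5) (nat_lit 418) (nat_lit 413) (nat_lit 309)) (XT.lf (nat_lit 0) (nat_lit 2841766468) (nat_lit 1444) (nat_lit 3509119321) (nat_lit 1520) (nat_lit 2620142529) (nat_lit 447) (nat_lit 5) (nat_lit 466) (nat_lit 5) (nat_lit 467) (nat_lit 5) (nat_lit 419) (nat_lit 413) (nat_lit 308))))))))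
noncomputable def xc178 : XT := (XT.nd (nat_lit 2184) (nat_lit 9804) (nat_lit 0) (XT.nd (nat_lit 1092) (nat_lit 7524) (nat_lit 0) (XT.nd (nat_lit 546) (nat_lit 0) (nat_lit 76) (XT.nd (nat_lit 234) (nat_lit 1368) (nat_lit 0) (XT.nd (nat_lit 78) (nat_lit 0) (nat_lit 76) (XT.lf (nat_lit 76) (nat_lit 732422677) (nat_lit 0) (nat_lit 3153108928) (nat_lit 1520) (nat_lit 5159493108) (nat_lit 448) (nat_lit 5) (nat_lit 447) (nat_lit 5) (nat_lit 467) (nat_lit 5) (nat_lit 420) (nat_lit 413) (nat_lit 307)) (XT.nd (nat_lit 78) (nat_lit 0) (nat_lit 0) (XT.lf (nat_lit 0) (nat_lit 4951714680) (nat_lit 1444) (nat_lit 4028658485) (nat_lit 1520) (nat_lit 140116661) (nat_lit 448) (nat_lit 5) (nat_lit 467) (nat_lit 5) (nat_lit 468) (nat_lit 5) (nat_lit 421) (nat_lit 413) (nat_lit 306)) (XT.lf (nat_lit 76) (nat_lit 310299347) (nat_lit 0) (nat_lit 5729400014) (nat_lit 1520) (nat_lit 3157774582) (nat_lit 449) (nat_lit 5) (nat_lit 448)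 (nat_lit 5) (nat_lit 468) (nat_lit 5) (nat_lit 422) (nat_lit 413) (nat_lit 305)))) (XT.nd (nat_lit 156) (nat_lit 1444) (nat_lit 0) (XT.nd (nat_lit 78) (nat_lit 0) (nat_lit 76) (XT.lf (nat_lit 76) (nat_lit 4776884294) (nat_lit 0) (nat_lit 2377525844) (nat_lit 1520) (nat_lit 2121507156) (nat_lit 449) (nat_lit 5) (nat_lit 448) (nat_lit 5) (nat_lit 468) (nat_lit 5) (nat_lit 423) (nat_lit 413) (nat_lit 304)) (XT.lf (nat_lit 0) (nat_lit 8276594061) (nat_lit 1444) (nat_lit 43885764) (nat_lit 1520) (nat_lit 1035764619) (nat_lit 449) (nat_lit 5) (nat_lit 468) (nat_lit 5) (nat_lit 469) (nat_lit 5) (nat_lit 424) (nat_lit 413) (nat_lit 303))) (XT.nd (nat_lit 78) (nat_lit 0) (nat_lit 0) (XT.lf (nat_lit 0) (nat_lit 7406695) (nat_lit 1520) (nat_lit 4907451323) (nat_lit 1596) (nat_lit 4522857296) (nat_lit 429) (nat_lit 5) (nat_lit 449) (nat_lit 5) (nat_lit 450) (nat_lit 5) (nat_lit 425) (nat_lit 413) (nat_lit 302)) (XT.lf (nat_lit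 0) (nat_lit 1081069966) (nat_lit 1520) (nat_lit 345397532) (nat_lit 1596) (nat_lit 8094636387) (nat_lit 429) (nat_lit 5) (nat_lit 449) (nat_lit 5) (nat_lit 450) (nat_lit 5) (nat_lit 426) (nat_lit 413) (nat_lit 301))))) (XT.nd (nat_lit 234) (nat_lit 0) (nat_lit 76) (XT.nd (nat_lit 78) (nat_lit 0) (nat_lit 0) (XT.lf (nat_lit 0) (nat_lit 2197953638) (nat_lit 1520) (nat_lit 5268785067) (nat_lit 1596) (nat_lit 2139003680) (nat_lit 430) (nat_lit 5) (nat_lit 450) (nat_lit 5) (nat_lit 451) (nat_lit 5) (nat_lit 427) (nat_lit 413) (nat_lit 300)) (XT.nd (nat_lit 78) (nat_lit 0) (nat_lit 0) (XT.lf (nat_lit 0) (nat_lit 3328736962) (nat_lit 1520) (nat_lit 597878281) (nat_lit 1596) (nat_lit 5765643939) (nat_lit 430) (nat_lit 5) (nat_lit 450) (nat_lit 5) (nat_lit 451) (nat_lit 5) (nat_lit 428) (nat_lit 413) (nat_lit 299)) (XT.lf (nat_lit 76) (nat_lit 4207878779) (nat_lit 0) (nat_lit 281755967) (nat_lit 1596) (nat_lit 5290738029)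 (nat_lit 431) (nat_lit 5) (nat_lit 430) (nat_lit 5) (nat_lit 451) (nat_lit 5) (nat_lit 429) (nat_lit 413) (nat_lit 298)))) (XT.nd (nat_lit 156) (nat_lit 0) (nat_lit 76) (XT.nd (nat_lit 78) (nat_lit 0) (nat_lit 0) (XT.lf (nat_lit 0) (nat_lit 5680614351) (nat_lit 1520) (nat_lit 788757415) (nat_lit 1596) (nat_lit 3400755710) (nat_lit 431) (nat_lit 5) (nat_lit 451) (nat_lit 5) (nat_lit 452) (nat_lit 5) (nat_lit 430) (nat_lit 413) (nat_lit 297)) (XT.lf (nat_lit 76) (nat_lit 4129109594) (nat_lit 0) (nat_lit 2775877259) (nat_lit 1596) (nat_lit 3056514753) (nat_lit 432) (nat_lit 5) (nat_lit 431) (nat_lit 5) (nat_lit 452) (nat_lit 5) (nat_lit 431) (nat_lit 413) (nat_lit 296))) (XT.nd (nat_lit 78) (nat_lit 0) (nat_lit 0) (XT.lf (nat_lit 0) (nat_lit 8146828953) (nat_lit 1520) (nat_lit 919210189) (nat_lit 1596) (nat_lit 988819923) (nat_lit 432) (nat_lit 5) (nat_lit 452) (nat_lit 5) (nat_lit 453) (nat_lit 5) (nat_lit 432)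 (nat_lit 413) (nat_lit 295)) (XT.lf (nat_lit 76) (nat_lit 4113918382) (nat_lit 0) (nat_lit 5326268116) (nat_lit 1596) (nat_lit 709378787) (nat_lit 433) (nat_lit 5) (nat_lit 432) (nat_lit 5) (nat_lit 453) (nat_lit 5) (nat_lit 433) (nat_lit 413) (nat_lit 294)))))) (XT.nd (nat_lit 546) (nat_lit 4712) (nat_lit 0) (XT.nd (nat_lit 234) (nat_lit 1444) (nat_lit 0) (XT.nd (nat_lit 78) (nat_lit 0) (nat_lit 76) (XT.lf (nat_lit 0) (nat_lit 494445165) (nat_lit 1596) (nat_lit 1003300292) (nat_lit 1672) (nat_lit 8748609503) (nat_lit 411) (nat_lit 5) (nat_lit 432) (nat_lit 5) (nat_lit 433) (nat_lit 5) (nat_lit 434) (nat_lit 413) (nat_lit 293)) (XT.nd (nat_lit 78) (nat_lit 0) (nat_lit 0) (XT.lf (nat_lit 0) (nat_lit 1737850662) (nat_lit 1596) (nat_lit 6194833098) (nat_lit 1672) (nat_lit 2411817125) (nat_lit 412) (nat_lit 5) (nat_lit 433) (nat_lit 5) (nat_lit 434) (nat_lit 5) (nat_lit 435) (nat_lit 413) (nat_lit 292)) (XT.lf (nat_lit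 0) (nat_lit 3005188715) (nat_lit 1596) (nat_lit 1049224507) (nat_lit 1672) (nat_lit 6390229247) (nat_lit 412) (nat_lit 5) (nat_lit 433) (nat_lit 5) (nat_lit 434) (nat_lit 5) (nat_lit 436) (nat_lit 413) (nat_lit 291)))) (XT.nd (nat_lit 156) (nat_lit 1520) (nat_lit 0) (XT.nd (nat_lit 78) (nat_lit 0) (nat_lit 76) (XT.lf (nat_lit 76) (nat_lit 4241114104) (nat_lit 0) (nat_lit 67009611) (nat_lit 1672) (nat_lit 6238471920) (nat_lit 413) (nat_lit 5) (nat_lit 412) (nat_lit 5) (nat_lit 434) (nat_lit 5) (nat_lit 437) (nat_lit 413) (nat_lit 290)) (XT.lf (nat_lit 0) (nat_lit 5653161992) (nat_lit 1596) (nat_lit 1039073322) (nat_lit 76) (nat_lit 3958045141) (nat_lit 413) (nat_lit 5) (nat_lit 434) (nat_lit 5) (nat_lit 414) (nat_lit 5) (nat_lit 438) (nat_lit 413) (nat_lit 289))) (XT.nd (nat_lit 78) (nat_lit 0) (nat_lit 0) (XT.lf (nat_lit 0) (nat_lit 4375794815) (nat_lit 1596) (nat_lit 2661479696) (nat_lit 1672) (nat_lit 3718534212)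 (nat_lit 392) (nat_lit 5) (nat_lit 413) (nat_lit 5) (nat_lit 414) (nat_lit 5) (nat_lit 439) (nat_lit 413) (nat_lit 288)) (XT.lf (nat_lit 0) (nat_lit 8449076621) (nat_lit 1672) (nat_lit 973805101) (nat_lit 76) (nat_lit 1440578648) (nat_lit 392) (nat_lit 5) (nat_lit 414) (nat_lit 5) (nat_lit 393) (nat_lit 5) (nat_lit 440) (nat_lit 413) (nat_lit 287))))) (XT.nd (nat_lit 234) (nat_lit 1672) (nat_lit 0) (XT.nd (nat_lit 78) (nat_lit 1368) (nat_lit 0) (XT.lf (nat_lit 0) (nat_lit 4569019430) (nat_lit 1672) (nat_lit 5351282983) (nat_lit 1748) (nat_lit 1052351590) (nat_lit 370) (nat_lit 5) (nat_lit 392) (nat_lit 5) (nat_lit 393) (nat_lit 5) (nat_lit 441) (nat_lit 413) (nat_lit 286)) (XT.nd (nat_lit 78) (nat_lit 1292) (nat_lit 0) (XT.lf (nat_lit 0) (nat_lit 323086555) (nat_lit 1748) (nat_lit 864171173) (nat_lit 76) (nat_lit 9896930560) (nat_lit 369) (nat_lit 5) (nat_lit 392) (nat_lit 5) (nat_lit 370) (nat_lit 5) (nat_lit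 442) (nat_lit 413) (nat_lit 285)) (XT.lf (nat_lit 0) (nat_lit 1747761687) (nat_lit 1368) (nat_lit 6388871464) (nat_lit 76) (nat_lit 3060476577) (nat_lit 352) (nat_lit 5) (nat_lit 370) (nat_lit 5) (nat_lit 353) (nat_lit 5) (nat_lit 443) (nat_lit 413) (nat_lit 284)))) (XT.nd (nat_lit 156) (nat_lit 836) (nat_lit 0) (XT.nd (nat_lit 78) (nat_lit 836) (nat_lit 0) (XT.lf (nat_lit 0) (nat_lit 3199181653) (nat_lit 1368) (nat_lit 728174837) (nat_lit 76) (nat_lit 7384979819) (nat_lit 352) (nat_lit 5) (nat_lit 370) (nat_lit 5) (nat_lit 353) (nat_lit 5) (nat_lit 444) (nat_lit 413) (nat_lit 283)) (XT.lf (nat_lit 0) (nat_lit 4700196134) (nat_lit 912) (nat_lit 6333153504) (nat_lit 76) (nat_lit 396117970) (nat_lit 341) (nat_lit 5) (nat_lit 353) (nat_lit 5) (nat_lit 342) (nat_lit 5) (nat_lit 445) (nat_lit 413) (nat_lit 282))) (XT.nd (nat_lit 78) (nat_lit 836) (nat_lit 0) (XT.lf (nat_lit 0) (nat_lit 6247230886) (nat_lit 912) (nat_lit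 541588435) (nat_lit 76) (nat_lit 4759813496) (nat_lit 341) (nat_lit 5) (nat_lit 353) (nat_lit 5) (nat_lit 342) (nat_lit 5) (nat_lit 446) (nat_lit 413) (nat_lit 281)) (XT.lf (nat_lit 0) (nat_lit 5423341213) (nat_lit 836) (nat_lit 2422441951) (nat_lit 912) (nat_lit 3823997688) (nat_lit 330) (nat_lit 5) (nat_lit 341) (nat_lit 5) (nat_lit 342) (nat_lit 5) (nat_lit 447) (nat_lit 413) (nat_lit 280))))))) (XT.nd (nat_lit 1092) (nat_lit 4332) (nat_lit 0) (XT.nd (nat_lit 546) (nat_lit 2204) (nat_lit 0) (XT.nd (nat_lit 234) (nat_lit 2356) (nat_lit 0) (XT.nd (nat_lit 78) (nat_lit 912) (nat_lit 0) (XT.lf (nat_lit 0) (nat_lit 9478723429) (nat_lit 912) (nat_lit 305391690) (nat_lit 76) (nat_lit 2009199237) (nat_lit 330) (nat_lit 5) (nat_lit 342) (nat_lit 5) (nat_lit 331) (nat_lit 5) (nat_lit 448) (nat_lit 413) (nat_lit 279)) (XT.nd (nat_lit 78) (nat_lit 76) (nat_lit 0) (XT.lf (nat_lit 0) (nat_lit 5800975213) (nat_lit 836) (nat_lit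 5382906885) (nat_lit 912) (nat_lit 734655872) (nat_lit 319) (nat_lit 5) (nat_lit 330) (nat_lit 5) (nat_lit 331) (nat_lit 5) (nat_lit 449) (nat_lit 413) (nat_lit 278)) (XT.lf (nat_lit 0) (nat_lit 853380881) (nat_lit 912) (nat_lit 31970954) (nat_lit 76) (nat_lit 11161050507) (nat_lit 318) (nat_lit 5) (nat_lit 330) (nat_lit 5) (nat_lit 319) (nat_lit 5) (nat_lit 450) (nat_lit 413) (nat_lit 277)))) (XT.nd (nat_lit 156) (nat_lit 760) (nat_lit 0) (XT.nd (nat_lit 78) (nat_lit 760) (nat_lit 0) (XT.lf (nat_lit 0) (nat_lit 2514413787) (nat_lit 912) (nat_lit 5961630878) (nat_lit 76) (nat_lit 3699670784) (nat_lit 307) (nat_lit 5) (nat_lit 319) (nat_lit 5) (nat_lit 308) (nat_lit 5) (nat_lit 451) (nat_lit 413) (nat_lit 276)) (XT.lf (nat_lit 0) (nat_lit 261877616) (nat_lit 760) (nat_lit 3940971376) (nat_lit 836) (nat_lit 8104892016) (nat_lit 297) (nat_lit 5) (nat_lit 307) (nat_lit 5) (nat_lit 308) (nat_lit 5) (nat_lit 452) (nat_lit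 413) (nat_lit 275))) (XT.nd (nat_lit 78) (nat_lit 760) (nat_lit 0) (XT.lf (nat_lit 0) (nat_lit 5956350471) (nat_lit 836) (nat_lit 5769414923) (nat_lit 76) (nat_lit 716025362) (nat_lit 297) (nat_lit 5) (nat_lit 308) (nat_lit 5) (nat_lit 298) (nat_lit 5) (nat_lit 453) (nat_lit 413) (nat_lit 274)) (XT.lf (nat_lit 0) (nat_lit 600848924) (nat_lit 760) (nat_lit 7160917188) (nat_lit 836) (nat_lit 4816427947) (nat_lit 287) (nat_lit 5) (nat_lit 297) (nat_lit 5) (nat_lit 298) (nat_lit 5) (nat_lit 454) (nat_lit 413) (nat_lit 273))))) (XT.nd (nat_lit 234) (nat_lit 1444) (nat_lit 0) (XT.nd (nat_lit 78) (nat_lit 760) (nat_lit 0) (XT.lf (nat_lit 0) (nat_lit 7163318082) (nat_lit 760) (nat_lit 2465702592) (nat_lit 836) (nat_lit 3087799396) (nat_lit 287) (nat_lit 5) (nat_lit 297) (nat_lit 5) (nat_lit 298) (nat_lit 5) (nat_lit 455) (nat_lit 413) (nat_lit 272)) (XT.nd (nat_lit 78) (nat_lit 76) (nat_lit 0) (XT.lf (nat_lit 0) (nat_lit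 983223970) (nat_lit 684) (nat_lit 10559131992) (nat_lit 760) (nat_lit 1315697001) (nat_lit 278) (nat_lit 5) (nat_lit 287) (nat_lit 5) (nat_lit 288) (nat_lit 5) (nat_lit 456) (nat_lit 413) (nat_lit 271)) (XT.lf (nat_lit 0) (nat_lit 526577574) (nat_lit 760) (nat_lit 5308663766) (nat_lit 76) (nat_lit 7165990413) (nat_lit 277) (nat_lit 5) (nat_lit 287) (nat_lit 5) (nat_lit 278) (nat_lit 5) (nat_lit 457) (nat_lit 413) (nat_lit 270)))) (XT.nd (nat_lit 156) (nat_lit 684) (nat_lit 0) (XT.nd (nat_lit 78) (nat_lit 0) (nat_lit 0) (XT.lf (nat_lit 0) (nat_lit 1385048405) (nat_lit 760) (nat_lit 999627374) (nat_lit 836) (nat_lit 10762501048) (nat_lit 267) (nat_lit 5) (nat_lit 277) (nat_lit 5) (nat_lit 278) (nat_lit 5) (nat_lit 458) (nat_lit 413) (nat_lit 269)) (XT.lf (nat_lit 0) (nat_lit 4329068022) (nat_lit 836) (nat_lit 5049891795) (nat_lit 76) (nat_lit 3916106727) (nat_lit 267) (nat_lit 5) (nat_lit 278) (nat_lit 5) (nat_lit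 268) (nat_lit 5) (nat_lit 459) (nat_lit 413) (nat_lit 268))) (XT.nd (nat_lit 78) (nat_lit 0) (nat_lit 0) (XT.lf (nat_lit 0) (nat_lit 1800456339) (nat_lit 684) (nat_lit 4518180533) (nat_lit 760) (nat_lit 7127159629) (nat_lit 258) (nat_lit 5) (nat_lit 267) (nat_lit 5) (nat_lit 268) (nat_lit 5) (nat_lit 460) (nat_lit 413) (nat_lit 267)) (XT.lf (nat_lit 0) (nat_lit 8373086919) (nat_lit 760) (nat_lit 4758957233) (nat_lit 76) (nat_lit 467003166) (nat_lit 258) (nat_lit 5) (nat_lit 268) (nat_lit 5) (nat_lit 259) (nat_lit 5) (nat_lit 461) (nat_lit 413) (nat_lit 266)))))) (XT.nd (nat_lit 546) (nat_lit 1748) (nat_lit 0) (XT.nd (nat_lit 234) (nat_lit 1216) (nat_lit 0) (XT.nd (nat_lit 78) (nat_lit 684) (nat_lit 0) (XT.lf (nat_lit 0) (nat_lit 2251746050) (nat_lit 684) (nat_lit 8249776765) (nat_lit 760) (nat_lit 3253190298) (nat_lit 249) (nat_lit 5) (nat_lit 258) (nat_lit 5) (nat_lit 259) (nat_lit 5) (nat_lit 462) (nat_lit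 413) (nat_lit 265)) (XT.nd (nat_lit 78) (nat_lit 684) (nat_lit 0) (XT.lf (nat_lit 0) (nat_lit 9454240324) (nat_lit 684) (nat_lit 3238721873) (nat_lit 760) (nat_lit 1220129077) (nat_lit 249) (nat_lit 5) (nat_lit 258) (nat_lit 5) (nat_lit 259) (nat_lit 5) (nat_lit 463) (nat_lit 413) (nat_lit 264)) (XT.lf (nat_lit 0) (nat_lit 861158533) (nat_lit 684) (nat_lit 11342953976) (nat_lit 76) (nat_lit 1870045887) (nat_lit 240) (nat_lit 5) (nat_lit 249) (nat_lit 5) (nat_lit 241) (nat_lit 5) (nat_lit 464) (nat_lit 413) (nat_lit 263)))) (XT.nd (nat_lit 156) (nat_lit 608) (nat_lit 0) (XT.nd (nat_lit 78) (nat_lit 608) (nat_lit 0) (XT.lf (nat_lit 0) (nat_lit 3008090436) (nat_lit 684) (nat_lit 4155047623) (nat_lit 76) (nat_lit 7074347678) (nat_lit 240) (nat_lit 5) (nat_lit 249) (nat_lit 5) (nat_lit 241) (nat_lit 5) (nat_lit 465) (nat_lit 413) (nat_lit 262)) (XT.lf (nat_lit 0) (nat_lit 3205943760) (nat_lit 608) (nat_lit 2001825386)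 (nat_lit 684) (nat_lit 9196121470) (nat_lit 232) (nat_lit 5) (nat_lit 240) (nat_lit 5) (nat_lit 241) (nat_lit 5) (nat_lit 466) (nat_lit 413) (nat_lit 261))) (XT.nd (nat_lit 78) (nat_lit 608) (nat_lit 0) (XT.lf (nat_lit 0) (nat_lit 7489807734) (nat_lit 684) (nat_lit 3836805534) (nat_lit 76) (nat_lit 3246250014) (nat_lit 232) (nat_lit 5) (nat_lit 241) (nat_lit 5) (nat_lit 233) (nat_lit 5) (nat_lit 467) (nat_lit 413) (nat_lit 260)) (XT.lf (nat_lit 0) (nat_lit 3694153951) (nat_lit 608) (nat_lit 6149903978) (nat_lit 684) (nat_lit 4900632933) (nat_lit 224) (nat_lit 5) (nat_lit 232) (nat_lit 5) (nat_lit 233) (nat_lit 5) (nat_lit 468) (nat_lit 413) (nat_lit 259))))) (XT.nd (nat_lit 234) (nat_lit 1064) (nat_lit 0) (XT.nd (nat_lit 78) (nat_lit 684) (nat_lit 0) (XT.lf (nat_lit 0) (nat_lit 11415227376) (nat_lit 608) (nat_lit 845369540) (nat_lit 684) (nat_lit 2659060743) (nat_lit 224) (nat_lit 5) (nat_lit 232) (nat_lit 5)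 (nat_lit 233) (nat_lit 5) (nat_lit 469) (nat_lit 413) (nat_lit 258)) (XT.nd (nat_lit 78) (nat_lit 76) (nat_lit 0) (XT.lf (nat_lit 0) (nat_lit 4205646034) (nat_lit 608) (nat_lit 10566418149) (nat_lit 684) (nat_lit 325134271) (nat_lit 216) (nat_lit 5) (nat_lit 224) (nat_lit 5) (nat_lit 225) (nat_lit 5) (nat_lit 470) (nat_lit 413) (nat_lit 257)) (XT.lf (nat_lit 0) (nat_lit 2047483008) (nat_lit 684) (nat_lit 3192022853) (nat_lit 76) (nat_lit 10038144243) (nat_lit 215) (nat_lit 5) (nat_lit 224) (nat_lit 5) (nat_lit 216) (nat_lit 5) (nat_lit 471) (nat_lit 413) (nat_lit 256)))) (XT.nd (nat_lit 156) (nat_lit 532) (nat_lit 0) (XT.nd (nat_lit 78) (nat_lit 0) (nat_lit 0) (XT.lf (nat_lit 0) (nat_lit 4485138995) (nat_lit 608) (nat_lit 10753910239) (nat_lit 76) (nat_lit 222186001) (nat_lit 208) (nat_lit 5) (nat_lit 216) (nat_lit 5) (nat_lit 209) (nat_lit 5) (nat_lit 472) (nat_lit 413) (nat_lit 255)) (XT.lf (nat_lit 0) (nat_lit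 7017814493) (nat_lit 608) (nat_lit 2887371244) (nat_lit 76) (nat_lit 5742387112) (nat_lit 208) (nat_lit 5) (nat_lit 216) (nat_lit 5) (nat_lit 209) (nat_lit 5) (nat_lit 473) (nat_lit 413) (nat_lit 254))) (XT.nd (nat_lit 78) (nat_lit 0) (nat_lit 0) (XT.lf (nat_lit 0) (nat_lit 5192445919) (nat_lit 532) (nat_lit 4432612018) (nat_lit 608) (nat_lit 6212106976) (nat_lit 201) (nat_lit 5) (nat_lit 208) (nat_lit 5) (nat_lit 209) (nat_lit 5) (nat_lit 474) (nat_lit 413) (nat_lit 253)) (XT.lf (nat_lit 0) (nat_lit 12301712974) (nat_lit 608) (nat_lit 2577010449) (nat_lit 76) (nat_lit 1151485930) (nat_lit 201) (nat_lit 5) (nat_lit 209) (nat_lit 5) (nat_lit 202) (nat_lit 5) (nat_lit 475) (nat_lit 413) (nat_lit 252))))))))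
noncomputable def xc179 : XT := (XT.nd (nat_lit 2184) (nat_lit 2888) (nat_lit 0) (XT.nd (nat_lit 1092) (nat_lit 2888) (nat_lit 0) (XT.nd (nat_lit 546) (nat_lit 1520) (nat_lit 0) (XT.nd (nat_lit 234) (nat_lit 988) (nat_lit 0) (XT.nd (nat_lit 78) (nat_lit 608) (nat_lit 0) (XT.lf (nat_lit 0) (nat_lit 5685243962) (nat_lit 532) (nat_lit 9403414641) (nat_lit 608) (nat_lit 1137326684) (nat_lit 194) (nat_lit 5) (nat_lit 201) (nat_lit 5) (nat_lit 202) (nat_lit 5) (nat_lit 476) (nat_lit 413) (nat_lit 251)) (XT.nd (nat_lit 78) (nat_lit 532) (nat_lit 0) (XT.lf (nat_lit 0) (nat_lit 1493858150) (nat_lit 608) (nat_lit 2299614238) (nat_lit 76) (nat_lit 12631855591) (nat_lit 193) (nat_lit 5) (nat_lit 201) (nat_lit 5) (nat_lit 194) (nat_lit 5) (nat_lit 477) (nat_lit 413) (nat_lit 250)) (XT.lf (nat_lit 0) (nat_lit 4206035583) (nat_lit 608) (nat_lit 10472853641) (nat_lit 76) (nat_lit 1948751413) (nat_lit 186) (nat_lit 5) (nat_lit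 194) (nat_lit 5) (nat_lit 187) (nat_lit 5) (nat_lit 478) (nat_lit 413) (nat_lit 249)))) (XT.nd (nat_lit 156) (nat_lit 532) (nat_lit 0) (XT.nd (nat_lit 78) (nat_lit 456) (nat_lit 0) (XT.lf (nat_lit 0) (nat_lit 7003918567) (nat_lit 608) (nat_lit 2061393537) (nat_lit 76) (nat_lit 7768063522) (nat_lit 186) (nat_lit 5) (nat_lit 194) (nat_lit 5) (nat_lit 187) (nat_lit 5) (nat_lit 479) (nat_lit 413) (nat_lit 248)) (XT.lf (nat_lit 0) (nat_lit 6593072728) (nat_lit 456) (nat_lit 3298479212) (nat_lit 532) (nat_lit 7151002733) (nat_lit 180) (nat_lit 5) (nat_lit 186) (nat_lit 5) (nat_lit 187) (nat_lit 5) (nat_lit 480) (nat_lit 413) (nat_lit 247))) (XT.nd (nat_lit 78) (nat_lit 532) (nat_lit 0) (XT.lf (nat_lit 0) (nat_lit 12858707563) (nat_lit 532) (nat_lit 1835717492) (nat_lit 76) (nat_lit 2561061963) (nat_lit 180) (nat_lit 5) (nat_lit 187) (nat_lit 5) (nat_lit 181) (nat_lit 5) (nat_lit 481) (nat_lit 413) (nat_lit 246)) (XT.lf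 (nat_lit 0) (nat_lit 7008850087) (nat_lit 532) (nat_lit 8934951553) (nat_lit 608) (nat_lit 1527709472) (nat_lit 173) (nat_lit 5) (nat_lit 180) (nat_lit 5) (nat_lit 181) (nat_lit 5) (nat_lit 482) (nat_lit 413) (nat_lit 245))))) (XT.nd (nat_lit 234) (nat_lit 988) (nat_lit 0) (XT.nd (nat_lit 78) (nat_lit 456) (nat_lit 0) (XT.lf (nat_lit 0) (nat_lit 1384077360) (nat_lit 608) (nat_lit 1657174774) (nat_lit 76) (nat_lit 14650353136) (nat_lit 172) (nat_lit 5) (nat_lit 180) (nat_lit 5) (nat_lit 173) (nat_lit 5) (nat_lit 483) (nat_lit 413) (nat_lit 244)) (XT.nd (nat_lit 78) (nat_lit 0) (nat_lit 0) (XT.lf (nat_lit 0) (nat_lit 4392811805) (nat_lit 532) (nat_lit 10534777449) (nat_lit 76) (nat_lit 2987131454) (nat_lit 166) (nat_lit 5) (nat_lit 173) (nat_lit 5) (nat_lit 167) (nat_lit 5) (nat_lit 484) (nat_lit 413) (nat_lit 243)) (XT.lf (nat_lit 0) (nat_lit 7484582695) (nat_lit 532) (nat_lit 1553471465) (nat_lit 76) (nat_lit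 9103791689) (nat_lit 166) (nat_lit 5) (nat_lit 173) (nat_lit 5) (nat_lit 167) (nat_lit 5) (nat_lit 485) (nat_lit 413) (nat_lit 242)))) (XT.nd (nat_lit 156) (nat_lit 532) (nat_lit 0) (XT.nd (nat_lit 78) (nat_lit 0) (nat_lit 0) (XT.lf (nat_lit 0) (nat_lit 7697186976) (nat_lit 456) (nat_lit 2982670260) (nat_lit 532) (nat_lit 7692827429) (nat_lit 160) (nat_lit 5) (nat_lit 166) (nat_lit 5) (nat_lit 167) (nat_lit 5) (nat_lit 486) (nat_lit 413) (nat_lit 241)) (XT.lf (nat_lit 0) (nat_lit 13962031763) (nat_lit 532) (nat_lit 1486120455) (nat_lit 76) (nat_lit 3159532600) (nat_lit 160) (nat_lit 5) (nat_lit 167) (nat_lit 5) (nat_lit 161) (nat_lit 5) (nat_lit 487) (nat_lit 413) (nat_lit 240))) (XT.nd (nat_lit 78) (nat_lit 76) (nat_lit 0) (XT.lf (nat_lit 0) (nat_lit 7960618497) (nat_lit 456) (nat_lit 9412595598) (nat_lit 532) (nat_lit 1472907952) (nat_lit 154) (nat_lit 5) (nat_lit 160) (nat_lit 5) (nat_lit 161) (nat_lit 5)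 (nat_lit 488) (nat_lit 413) (nat_lit 239)) (XT.lf (nat_lit 0) (nat_lit 1742160521) (nat_lit 532) (nat_lit 1495322294) (nat_lit 76) (nat_lit 15851580542) (nat_lit 153) (nat_lit 5) (nat_lit 160) (nat_lit 5) (nat_lit 154) (nat_lit 5) (nat_lit 489) (nat_lit 413) (nat_lit 238)))))) (XT.nd (nat_lit 546) (nat_lit 1140) (nat_lit 0) (XT.nd (nat_lit 234) (nat_lit 912) (nat_lit 0) (XT.nd (nat_lit 78) (nat_lit 380) (nat_lit 0) (XT.lf (nat_lit 0) (nat_lit 5067250703) (nat_lit 532) (nat_lit 11186890796) (nat_lit 76) (nat_lit 3081222534) (nat_lit 147) (nat_lit 5) (nat_lit 154) (nat_lit 5) (nat_lit 148) (nat_lit 5) (nat_lit 490) (nat_lit 413) (nat_lit 237)) (XT.nd (nat_lit 78) (nat_lit 380) (nat_lit 0) (XT.lf (nat_lit 0) (nat_lit 8482561933) (nat_lit 532) (nat_lit 1613449580) (nat_lit 76) (nat_lit 9490108853) (nat_lit 147) (nat_lit 5) (nat_lit 154) (nat_lit 5) (nat_lit 148) (nat_lit 5) (nat_lit 491) (nat_lit 413) (nat_lit 236))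 (XT.lf (nat_lit 0) (nat_lit 8248894252) (nat_lit 380) (nat_lit 3763173907) (nat_lit 456) (nat_lit 7828909841) (nat_lit 142) (nat_lit 5) (nat_lit 147) (nat_lit 5) (nat_lit 148) (nat_lit 5) (nat_lit 492) (nat_lit 413) (nat_lit 235)))) (XT.nd (nat_lit 156) (nat_lit 456) (nat_lit 0) (XT.nd (nat_lit 78) (nat_lit 456) (nat_lit 0) (XT.lf (nat_lit 0) (nat_lit 15632962018) (nat_lit 456) (nat_lit 1798755293) (nat_lit 76) (nat_lit 2668803400) (nat_lit 142) (nat_lit 5) (nat_lit 148) (nat_lit 5) (nat_lit 143) (nat_lit 5) (nat_lit 493) (nat_lit 413) (nat_lit 234)) (XT.lf (nat_lit 0) (nat_lit 8263287912) (nat_lit 456) (nat_lit 11134099843) (nat_lit 532) (nat_lit 966448036) (nat_lit 136) (nat_lit 5) (nat_lit 142) (nat_lit 5) (nat_lit 143) (nat_lit 5) (nat_lit 494) (nat_lit 413) (nat_lit 233))) (XT.nd (nat_lit 78) (nat_lit 380) (nat_lit 0) (XT.lf (nat_lit 0) (nat_lit 2575241325) (nat_lit 532) (nat_lit 2108849768) (nat_lit 76)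 (nat_lit 15947897156) (nat_lit 135) (nat_lit 5) (nat_lit 142) (nat_lit 5) (nat_lit 136) (nat_lit 5) (nat_lit 495) (nat_lit 413) (nat_lit 232)) (XT.lf (nat_lit 0) (nat_lit 6233289747) (nat_lit 456) (nat_lit 12744096057) (nat_lit 76) (nat_lit 1926824443) (nat_lit 130) (nat_lit 5) (nat_lit 136) (nat_lit 5) (nat_lit 131) (nat_lit 5) (nat_lit 496) (nat_lit 413) (nat_lit 231))))) (XT.nd (nat_lit 234) (nat_lit 760) (nat_lit 0) (XT.nd (nat_lit 78) (nat_lit 380) (nat_lit 0) (XT.lf (nat_lit 0) (nat_lit 10002532618) (nat_lit 456) (nat_lit 2560151829) (nat_lit 76) (nat_lit 8618435076) (nat_lit 130) (nat_lit 5) (nat_lit 136) (nat_lit 5) (nat_lit 131) (nat_lit 5) (nat_lit 497) (nat_lit 413) (nat_lit 230)) (XT.nd (nat_lit 78) (nat_lit 0) (nat_lit 0) (XT.lf (nat_lit 0) (nat_lit 7921075825) (nat_lit 380) (nat_lit 5970423008) (nat_lit 456) (nat_lit 7571184823) (nat_lit 125) (nat_lit 5) (nat_lit 130) (nat_lit 5) (nat_lit 131) (nat_lit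 5) (nat_lit 498) (nat_lit 413) (nat_lit 229)) (XT.lf (nat_lit 0) (nat_lit 17873393092) (nat_lit 456) (nat_lit 3118248213) (nat_lit 76) (nat_lit 757938162) (nat_lit 125) (nat_lit 5) (nat_lit 131) (nat_lit 5) (nat_lit 126) (nat_lit 5) (nat_lit 499) (nat_lit 413) (nat_lit 228)))) (XT.nd (nat_lit 156) (nat_lit 380) (nat_lit 0) (XT.nd (nat_lit 78) (nat_lit 76) (nat_lit 0) (XT.lf (nat_lit 0) (nat_lit 7563096309) (nat_lit 304) (nat_lit 14453572361) (nat_lit 380) (nat_lit 23912960) (nat_lit 121) (nat_lit 5) (nat_lit 125) (nat_lit 5) (nat_lit 126) (nat_lit 5) (nat_lit 500) (nat_lit 413) (nat_lit 227)) (XT.lf (nat_lit 0) (nat_lit 3868370561) (nat_lit 380) (nat_lit 3872306351) (nat_lit 76) (nat_lit 14595939278) (nat_lit 120) (nat_lit 5) (nat_lit 125) (nat_lit 5) (nat_lit 121) (nat_lit 5) (nat_lit 501) (nat_lit 413) (nat_lit 226))) (XT.nd (nat_lit 78) (nat_lit 0) (nat_lit 0) (XT.lf (nat_lit 0) (nat_lit 7027015314) (nat_lit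 380) (nat_lit 850044543) (nat_lit 456) (nat_lit 14760733930) (nat_lit 115) (nat_lit 5) (nat_lit 120) (nat_lit 5) (nat_lit 121) (nat_lit 5) (nat_lit 502) (nat_lit 413) (nat_lit 225)) (XT.lf (nat_lit 0) (nat_lit 12025497533) (nat_lit 456) (nat_lit 4797961251) (nat_lit 76) (nat_lit 6120347717) (nat_lit 115) (nat_lit 5) (nat_lit 121) (nat_lit 5) (nat_lit 116) (nat_lit 5) (nat_lit 503) (nat_lit 413) (nat_lit 224))))))) (XT.nd (nat_lit 1092) (nat_lit 608) (nat_lit 0) (XT.nd (nat_lit 546) (nat_lit 912) (nat_lit 0) (XT.nd (nat_lit 234) (nat_lit 608) (nat_lit 0) (XT.nd (nat_lit 78) (nat_lit 456) (nat_lit 0) (XT.lf (nat_lit 0) (nat_lit 6298268948) (nat_lit 304) (nat_lit 9998591314) (nat_lit 380) (nat_lit 6958283072) (nat_lit 111) (nat_lit 5) (nat_lit 115) (nat_lit 5) (nat_lit 116) (nat_lit 5) (nat_lit 504) (nat_lit 413) (nat_lit 223)) (XT.nd (nat_lit 78) (nat_lit 456) (nat_lit 0) (XT.lf (nat_lit 0) (nat_lit 17671709101)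 (nat_lit 304) (nat_lit 3007637741) (nat_lit 380) (nat_lit 2892849066) (nat_lit 111) (nat_lit 5) (nat_lit 115) (nat_lit 5) (nat_lit 116) (nat_lit 5) (nat_lit 505) (nat_lit 413) (nat_lit 222)) (XT.lf (nat_lit 0) (nat_lit 1293325445) (nat_lit 456) (nat_lit 18491429584) (nat_lit 76) (nat_lit 4109556964) (nat_lit 105) (nat_lit 5) (nat_lit 111) (nat_lit 5) (nat_lit 106) (nat_lit 5) (nat_lit 506) (nat_lit 413) (nat_lit 221)))) (XT.nd (nat_lit 156) (nat_lit 304) (nat_lit 0) (XT.nd (nat_lit 78) (nat_lit 304) (nat_lit 0) (XT.lf (nat_lit 0) (nat_lit 5577924915) (nat_lit 456) (nat_lit 7258809681) (nat_lit 76) (nat_lit 11384687403) (nat_lit 105) (nat_lit 5) (nat_lit 111) (nat_lit 5) (nat_lit 106) (nat_lit 5) (nat_lit 507) (nat_lit 413) (nat_lit 220)) (XT.lf (nat_lit 0) (nat_lit 4244627201) (nat_lit 304) (nat_lit 5724897896) (nat_lit 380) (nat_lit 14585125644) (nat_lit 101) (nat_lit 5) (nat_lit 105) (nat_lit 5) (nat_lit 106)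 (nat_lit 5) (nat_lit 508) (nat_lit 413) (nat_lit 219))) (XT.nd (nat_lit 78) (nat_lit 304) (nat_lit 0) (XT.lf (nat_lit 0) (nat_lit 14501708643) (nat_lit 380) (nat_lit 8836840215) (nat_lit 76) (nat_lit 1554942832) (nat_lit 101) (nat_lit 5) (nat_lit 106) (nat_lit 5) (nat_lit 102) (nat_lit 5) (nat_lit 509) (nat_lit 413) (nat_lit 218)) (XT.lf (nat_lit 0) (nat_lit 2855990317) (nat_lit 304) (nat_lit 16318913439) (nat_lit 380) (nat_lit 6063200948) (nat_lit 97) (nat_lit 5) (nat_lit 101) (nat_lit 5) (nat_lit 102) (nat_lit 5) (nat_lit 510) (nat_lit 413) (nat_lit 217))))) (XT.nd (nat_lit 234) (nat_lit 532) (nat_lit 0) (XT.nd (nat_lit 78) (nat_lit 380) (nat_lit 0) (XT.lf (nat_lit 0) (nat_lit 14893164680) (nat_lit 304) (nat_lit 9101668632) (nat_lit 380) (nat_lit 1593713812) (nat_lit 97) (nat_lit 5) (nat_lit 101) (nat_lit 5) (nat_lit 102) (nat_lit 5) (nat_lit 511) (nat_lit 413) (nat_lit 216)) (XT.nd (nat_lit 78) (nat_lit 0)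 (nat_lit 0) (XT.lf (nat_lit 0) (nat_lit 1212537260) (nat_lit 304) (nat_lit 1715657049) (nat_lit 380) (nat_lit 23017383106) (nat_lit 92) (nat_lit 5) (nat_lit 96) (nat_lit 5) (nat_lit 97) (nat_lit 5) (nat_lit 512) (nat_lit 413) (nat_lit 215)) (XT.lf (nat_lit 0) (nat_lit 7623326109) (nat_lit 380) (nat_lit 12862759772) (nat_lit 76) (nat_lit 5821371642) (nat_lit 92) (nat_lit 5) (nat_lit 97) (nat_lit 5) (nat_lit 93) (nat_lit 5) (nat_lit 513) (nat_lit 413) (nat_lit 214)))) (XT.nd (nat_lit 156) (nat_lit 228) (nat_lit 0) (XT.nd (nat_lit 78) (nat_lit 304) (nat_lit 0) (XT.lf (nat_lit 0) (nat_lit 12417922160) (nat_lit 380) (nat_lit 775491110) (nat_lit 76) (nat_lit 13483053091) (nat_lit 92) (nat_lit 5) (nat_lit 97) (nat_lit 5) (nat_lit 93) (nat_lit 5) (nat_lit 514) (nat_lit 413) (nat_lit 213)) (XT.lf (nat_lit 0) (nat_lit 11698067375) (nat_lit 304) (nat_lit 5680607750) (nat_lit 380) (nat_lit 9672777266) (nat_lit 88) (nat_lit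 5) (nat_lit 92) (nat_lit 5) (nat_lit 93) (nat_lit 5) (nat_lit 515) (nat_lit 413) (nat_lit 212))) (XT.nd (nat_lit 78) (nat_lit 228) (nat_lit 0) (XT.lf (nat_lit 0) (nat_lit 22451099900) (nat_lit 380) (nat_lit 3024044539) (nat_lit 76) (nat_lit 1958546836) (nat_lit 88) (nat_lit 5) (nat_lit 93) (nat_lit 5) (nat_lit 89) (nat_lit 5) (nat_lit 516) (nat_lit 413) (nat_lit 211)) (XT.lf (nat_lit 0) (nat_lit 9631847391) (nat_lit 228) (nat_lit 18087739812) (nat_lit 304) (nat_lit 102097676) (nat_lit 85) (nat_lit 5) (nat_lit 88) (nat_lit 5) (nat_lit 89) (nat_lit 5) (nat_lit 517) (nat_lit 413) (nat_lit 210)))))) (XT.nd (nat_lit 51402) (nat_lit 0) (nat_lit 27968) (XT.nd (nat_lit 234) (nat_lit 228) (nat_lit 0) (XT.nd (nat_lit 78) (nat_lit 304) (nat_lit 0) (XT.lf (nat_lit 0) (nat_lit 4826955093) (nat_lit 304) (nat_lit 5675733236) (nat_lit 76) (nat_lit 17713821023) (nat_lit 84) (nat_lit 5) (nat_lit 88) (nat_lit 5) (nat_lit 85) (nat_lit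 5) (nat_lit 518) (nat_lit 413) (nat_lit 209)) (XT.nd (nat_lit 78) (nat_lit 0) (nat_lit 0) (XT.lf (nat_lit 0) (nat_lit 7173473090) (nat_lit 304) (nat_lit 2720904933) (nat_lit 380) (nat_lit 18724017765) (nat_lit 80) (nat_lit 5) (nat_lit 84) (nat_lit 5) (nat_lit 85) (nat_lit 5) (nat_lit 519) (nat_lit 413) (nat_lit 208)) (XT.lf (nat_lit 0) (nat_lit 15129968230) (nat_lit 380) (nat_lit 8713697611) (nat_lit 76) (nat_lit 5183319791) (nat_lit 80) (nat_lit 5) (nat_lit 85) (nat_lit 5) (nat_lit 81) (nat_lit 5) (nat_lit 520) (nat_lit 413) (nat_lit 207)))) (XT.nd (nat_lit 51012) (nat_lit 0) (nat_lit 29412) (XT.nd (nat_lit 78) (nat_lit 0) (nat_lit 0) (XT.lf (nat_lit 0) (nat_lit 4302106920) (nat_lit 228) (nat_lit 16208830725) (nat_lit 304) (nat_lit 8931998294) (nat_lit 77) (nat_lit 5) (nat_lit 80) (nat_lit 5) (nat_lit 81) (nat_lit 5) (nat_lit 521) (nat_lit 413) (nat_lit 206)) (XT.lf (nat_lit 0) (nat_lit 17687950868) (nat_lit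 228) (nat_lit 8364814229) (nat_lit 304) (nat_lit 3813377358) (nat_lit 77) (nat_lit 5) (nat_lit 80) (nat_lit 5) (nat_lit 81) (nat_lit 5) (nat_lit 522) (nat_lit 413) (nat_lit 205))) (XT.nd (nat_lit 78) (nat_lit 0) (nat_lit 0) (XT.lf (nat_lit 0) (nat_lit 3720297349) (nat_lit 1444) (nat_lit 312254166) (nat_lit 1444) (nat_lit 312254166) (nat_lit 464) (nat_lit 3) (nat_lit 483) (nat_lit 3) (nat_lit 483) (nat_lit 5) (nat_lit 414) (nat_lit 414) (nat_lit 312)) (XT.lf (nat_lit 76) (nat_lit 3398948553) (nat_lit 0) (nat_lit 5069332191) (nat_lit 1444) (nat_lit 288334294) (nat_lit 465) (nat_lit 5) (nat_lit 464) (nat_lit 3) (nat_lit 483) (nat_lit 5) (nat_lit 415) (nat_lit 414) (nat_lit 311))))) (XT.nd (nat_lit 312) (nat_lit 0) (nat_lit 152) (XT.nd (nat_lit 156) (nat_lit 0) (nat_lit 76) (XT.nd (nat_lit 78) (nat_lit 0) (nat_lit 76) (XT.lf (nat_lit 0) (nat_lit 662018543) (nat_lit 1444) (nat_lit 1331036063) (nat_lit 1520) (nat_lit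 6832245105) (nat_lit 445) (nat_lit 5) (nat_lit 464) (nat_lit 3) (nat_lit 465) (nat_lit 5) (nat_lit 416) (nat_lit 414) (nat_lit 310)) (XT.lf (nat_lit 0) (nat_lit 1629121291) (nat_lit 1444) (nat_lit 6104913931) (nat_lit 1520) (nat_lit 1161273512) (nat_lit 446) (nat_lit 5) (nat_lit 465) (nat_lit 5) (nat_lit 466) (nat_lit 5) (nat_lit 417) (nat_lit 414) (nat_lit 309))) (XT.nd (nat_lit 78) (nat_lit 0) (nat_lit 0) (XT.lf (nat_lit 0) (nat_lit 2614013714) (nat_lit 1444) (nat_lit 1980714817) (nat_lit 1520) (nat_lit 4372040891) (nat_lit 446) (nat_lit 5) (nat_lit 465) (nat_lit 5) (nat_lit 466) (nat_lit 5) (nat_lit 418) (nat_lit 414) (nat_lit 308)) (XT.lf (nat_lit 76) (nat_lit 2242422999) (nat_lit 0) (nat_lit 1367463301) (nat_lit 1520) (nat_lit 5429967414) (nat_lit 447) (nat_lit 5) (nat_lit 446) (nat_lit 5) (nat_lit 466) (nat_lit 5) (nat_lit 419) (nat_lit 414) (nat_lit 307)))) (XT.nd (nat_lit 156) (nat_lit 0) (nat_lit 0)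 (XT.nd (nat_lit 78) (nat_lit 0) (nat_lit 0) (XT.lf (nat_lit 0) (nat_lit 4628711158) (nat_lit 1444) (nat_lit 2563256045) (nat_lit 1520) (nat_lit 1922391435) (nat_lit 447) (nat_lit 5) (nat_lit 466) (nat_lit 5) (nat_lit 467) (nat_lit 5) (nat_lit 420) (nat_lit 414) (nat_lit 306)) (XT.lf (nat_lit 76) (nat_lit 1756432282) (nat_lit 0) (nat_lit 3909549044) (nat_lit 1520) (nat_lit 3524430217) (nat_lit 448) (nat_lit 5) (nat_lit 447) (nat_lit 5) (nat_lit 467) (nat_lit 5) (nat_lit 421) (nat_lit 414) (nat_lit 305))) (XT.nd (nat_lit 78) (nat_lit 0) (nat_lit 76) (XT.lf (nat_lit 76) (nat_lit 6184196788) (nat_lit 0) (nat_lit 534963978) (nat_lit 1520) (nat_lit 2548940346) (nat_lit 448) (nat_lit 5) (nat_lit 447) (nat_lit 5) (nat_lit 467) (nat_lit 5) (nat_lit 422) (nat_lit 414) (nat_lit 304)) (XT.lf (nat_lit 76) (nat_lit 1338537580) (nat_lit 0) (nat_lit 6460884079) (nat_lit 1520) (nat_lit 1547820965) (nat_lit 449) (nat_lit 5) (nat_lit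 448) (nat_lit 5) (nat_lit 468) (nat_lit 5) (nat_lit 423) (nat_lit 414) (nat_lit 303))))))))
noncomputable def xc180 : XT := (XT.nd (nat_lit 2184) (nat_lit 9196) (nat_lit 0) (XT.nd (nat_lit 1092) (nat_lit 7904) (nat_lit 0) (XT.nd (nat_lit 546) (nat_lit 1368) (nat_lit 0) (XT.nd (nat_lit 234) (nat_lit 0) (nat_lit 0) (XT.nd (nat_lit 78) (nat_lit 1444) (nat_lit 0) (XT.lf (nat_lit 76) (nat_lit 5874414378) (nat_lit 0) (nat_lit 3029876424) (nat_lit 1520) (nat_lit 523634251) (nat_lit 449) (nat_lit 5) (nat_lit 448) (nat_lit 5) (nat_lit 468) (nat_lit 5) (nat_lit 424) (nat_lit 414) (nat_lit 302)) (XT.nd (nat_lit 78) (nat_lit 0) (nat_lit 0) (XT.lf (nat_lit 0) (nat_lit 502825765) (nat_lit 1520) (nat_lit 8526539650) (nat_lit 1596) (nat_lit 481033039) (nat_lit 429) (nat_lit 5) (nat_lit 449) (nat_lit 5) (nat_lit 450) (nat_lit 5) (nat_lit 425) (nat_lit 414) (nat_lit 301)) (XT.lf (nat_lit 0) (nat_lit 1566302475) (nat_lit 1520)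 (nat_lit 3971245465) (nat_lit 1596) (nat_lit 4056451283) (nat_lit 429) (nat_lit 5) (nat_lit 449) (nat_lit 5) (nat_lit 450) (nat_lit 5) (nat_lit 426) (nat_lit 414) (nat_lit 300)))) (XT.nd (nat_lit 156) (nat_lit 0) (nat_lit 76) (XT.nd (nat_lit 78) (nat_lit 0) (nat_lit 76) (XT.lf (nat_lit 76) (nat_lit 670562481) (nat_lit 0) (nat_lit 1964666587) (nat_lit 1596) (nat_lit 7044376097) (nat_lit 430) (nat_lit 5) (nat_lit 429) (nat_lit 5) (nat_lit 450) (nat_lit 5) (nat_lit 427) (nat_lit 414) (nat_lit 299)) (XT.lf (nat_lit 0) (nat_lit 3743443826) (nat_lit 1520) (nat_lit 4332189359) (nat_lit 1596) (nat_lit 1690948283) (nat_lit 430) (nat_lit 5) (nat_lit 450) (nat_lit 5) (nat_lit 451) (nat_lit 5) (nat_lit 428) (nat_lit 414) (nat_lit 298))) (XT.nd (nat_lit 78) (nat_lit 0) (nat_lit 0) (XT.lf (nat_lit 76) (nat_lit 417176090) (nat_lit 0) (nat_lit 4452933523) (nat_lit 1596) (nat_lit 4985278067) (nat_lit 431) (nat_lit 5) (nat_lit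 430) (nat_lit 5) (nat_lit 451) (nat_lit 5) (nat_lit 429) (nat_lit 414) (nat_lit 297)) (XT.lf (nat_lit 76) (nat_lit 5306856290) (nat_lit 0) (nat_lit 722384867) (nat_lit 1596) (nat_lit 3916546008) (nat_lit 431) (nat_lit 5) (nat_lit 430) (nat_lit 5) (nat_lit 451) (nat_lit 5) (nat_lit 430) (nat_lit 414) (nat_lit 296))))) (XT.nd (nat_lit 234) (nat_lit 1520) (nat_lit 0) (XT.nd (nat_lit 78) (nat_lit 0) (nat_lit 0) (XT.lf (nat_lit 76) (nat_lit 225719224) (nat_lit 0) (nat_lit 6988590039) (nat_lit 1596) (nat_lit 2823645787) (nat_lit 432) (nat_lit 5) (nat_lit 431) (nat_lit 5) (nat_lit 452) (nat_lit 5) (nat_lit 431) (nat_lit 414) (nat_lit 295)) (XT.nd (nat_lit 78) (nat_lit 0) (nat_lit 76) (XT.lf (nat_lit 76) (nat_lit 5232224730) (nat_lit 0) (nat_lit 3208288921) (nat_lit 1596) (nat_lit 1691119128) (nat_lit 432) (nat_lit 5) (nat_lit 431) (nat_lit 5) (nat_lit 452) (nat_lit 5) (nat_lit 432) (nat_lit 414) (nat_lit 294)) (XT.lf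 (nat_lit 76) (nat_lit 95102749) (nat_lit 0) (nat_lit 9582907717) (nat_lit 1596) (nat_lit 549453117) (nat_lit 433) (nat_lit 5) (nat_lit 432) (nat_lit 5) (nat_lit 453) (nat_lit 5) (nat_lit 433) (nat_lit 414) (nat_lit 293)))) (XT.nd (nat_lit 156) (nat_lit 0) (nat_lit 76) (XT.nd (nat_lit 78) (nat_lit 0) (nat_lit 0) (XT.lf (nat_lit 0) (nat_lit 643402130) (nat_lit 1596) (nat_lit 5107873820) (nat_lit 1672) (nat_lit 4573141051) (nat_lit 411) (nat_lit 5) (nat_lit 432) (nat_lit 5) (nat_lit 433) (nat_lit 5) (nat_lit 434) (nat_lit 414) (nat_lit 292)) (XT.lf (nat_lit 0) (nat_lit 1835195628) (nat_lit 1596) (nat_lit 44584) (nat_lit 1672) (nat_lit 8588361900) (nat_lit 411) (nat_lit 5) (nat_lit 432) (nat_lit 5) (nat_lit 433) (nat_lit 5) (nat_lit 435) (nat_lit 414) (nat_lit 291))) (XT.nd (nat_lit 78) (nat_lit 0) (nat_lit 0) (XT.lf (nat_lit 0) (nat_lit 3082060393) (nat_lit 1596) (nat_lit 5272957326) (nat_lit 1672) (nat_lit 2169142251)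 (nat_lit 412) (nat_lit 5) (nat_lit 433) (nat_lit 5) (nat_lit 434) (nat_lit 5) (nat_lit 436) (nat_lit 414) (nat_lit 290)) (XT.lf (nat_lit 0) (nat_lit 4349069663) (nat_lit 1596) (nat_lit 44941904) (nat_lit 1672) (nat_lit 6232826757) (nat_lit 412) (nat_lit 5) (nat_lit 433) (nat_lit 5) (nat_lit 434) (nat_lit 5) (nat_lit 437) (nat_lit 414) (nat_lit 289)))))) (XT.nd (nat_lit 546) (nat_lit 3420) (nat_lit 0) (XT.nd (nat_lit 234) (nat_lit 3040) (nat_lit 0) (XT.nd (nat_lit 78) (nat_lit 1520) (nat_lit 0) (XT.lf (nat_lit 76) (nat_lit 5344458300) (nat_lit 0) (nat_lit 315045881) (nat_lit 1672) (nat_lit 5071717584) (nat_lit 413) (nat_lit 5) (nat_lit 412) (nat_lit 5) (nat_lit 434) (nat_lit 5) (nat_lit 438) (nat_lit 414) (nat_lit 288)) (XT.nd (nat_lit 78) (nat_lit 1596) (nat_lit 0) (XT.lf (nat_lit 0) (nat_lit 7005064720) (nat_lit 1596) (nat_lit 33943602) (nat_lit 76) (nat_lit 3798519167) (nat_lit 413) (nat_lit 5) (nat_lit 434)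 (nat_lit 5) (nat_lit 414) (nat_lit 5) (nat_lit 439) (nat_lit 414) (nat_lit 287)) (XT.lf (nat_lit 0) (nat_lit 5482472482) (nat_lit 1596) (nat_lit 2916713111) (nat_lit 1672) (nat_lit 2546353457) (nat_lit 392) (nat_lit 5) (nat_lit 413) (nat_lit 5) (nat_lit 414) (nat_lit 5) (nat_lit 440) (nat_lit 414) (nat_lit 286)))) (XT.nd (nat_lit 156) (nat_lit 1292) (nat_lit 0) (XT.nd (nat_lit 78) (nat_lit 76) (nat_lit 0) (XT.lf (nat_lit 0) (nat_lit 32497120) (nat_lit 1672) (nat_lit 9781707368) (nat_lit 1748) (nat_lit 1241658500) (nat_lit 370) (nat_lit 5) (nat_lit 392) (nat_lit 5) (nat_lit 393) (nat_lit 5) (nat_lit 441) (nat_lit 414) (nat_lit 285)) (XT.lf (nat_lit 0) (nat_lit 128499919) (nat_lit 1748) (nat_lit 5489439138) (nat_lit 76) (nat_lit 5549643977) (nat_lit 369) (nat_lit 5) (nat_lit 392) (nat_lit 5) (nat_lit 370) (nat_lit 5) (nat_lit 442) (nat_lit 414) (nat_lit 284))) (XT.nd (nat_lit 78) (nat_lit 0) (nat_lit 0) (XT.lf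 (nat_lit 0) (nat_lit 135319069) (nat_lit 1292) (nat_lit 1359637922) (nat_lit 1368) (nat_lit 9786717656) (nat_lit 352) (nat_lit 5) (nat_lit 369) (nat_lit 5) (nat_lit 370) (nat_lit 5) (nat_lit 443) (nat_lit 414) (nat_lit 283)) (XT.lf (nat_lit 0) (nat_lit 2930051348) (nat_lit 1368) (nat_lit 5483582466) (nat_lit 76) (nat_lit 2983599623) (nat_lit 352) (nat_lit 5) (nat_lit 370) (nat_lit 5) (nat_lit 353) (nat_lit 5) (nat_lit 444) (nat_lit 414) (nat_lit 282))))) (XT.nd (nat_lit 234) (nat_lit 1748) (nat_lit 0) (XT.nd (nat_lit 78) (nat_lit 836) (nat_lit 0) (XT.lf (nat_lit 0) (nat_lit 273661001) (nat_lit 836) (nat_lit 4116118747) (nat_lit 912) (nat_lit 7125416295) (nat_lit 341) (nat_lit 5) (nat_lit 352) (nat_lit 5) (nat_lit 353) (nat_lit 5) (nat_lit 445) (nat_lit 414) (nat_lit 281)) (XT.nd (nat_lit 78) (nat_lit 836) (nat_lit 0) (XT.lf (nat_lit 0) (nat_lit 5902844830) (nat_lit 912) (nat_lit 5429975507) (nat_lit 76) (nat_lit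 302225783) (nat_lit 341) (nat_lit 5) (nat_lit 353) (nat_lit 5) (nat_lit 342) (nat_lit 5) (nat_lit 446) (nat_lit 414) (nat_lit 280)) (XT.lf (nat_lit 0) (nat_lit 463304219) (nat_lit 836) (nat_lit 6998786004) (nat_lit 912) (nat_lit 4294895441) (nat_lit 330) (nat_lit 5) (nat_lit 341) (nat_lit 5) (nat_lit 342) (nat_lit 5) (nat_lit 447) (nat_lit 414) (nat_lit 279)))) (XT.nd (nat_lit 156) (nat_lit 912) (nat_lit 0) (XT.nd (nat_lit 78) (nat_lit 836) (nat_lit 0) (XT.lf (nat_lit 0) (nat_lit 6534813720) (nat_lit 836) (nat_lit 2539992031) (nat_lit 912) (nat_lit 2806123173) (nat_lit 330) (nat_lit 5) (nat_lit 341) (nat_lit 5) (nat_lit 342) (nat_lit 5) (nat_lit 448) (nat_lit 414) (nat_lit 278)) (XT.lf (nat_lit 0) (nat_lit 703314650) (nat_lit 836) (nat_lit 10020194998) (nat_lit 912) (nat_lit 1283777146) (nat_lit 319) (nat_lit 5) (nat_lit 330) (nat_lit 5) (nat_lit 331) (nat_lit 5) (nat_lit 449) (nat_lit 414) (nat_lit 277))) (XT.nd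 (nat_lit 78) (nat_lit 836) (nat_lit 0) (XT.lf (nat_lit 0) (nat_lit 304637755) (nat_lit 912) (nat_lit 5221439115) (nat_lit 76) (nat_lit 6609287034) (nat_lit 318) (nat_lit 5) (nat_lit 330) (nat_lit 5) (nat_lit 319) (nat_lit 5) (nat_lit 450) (nat_lit 414) (nat_lit 276)) (XT.lf (nat_lit 0) (nat_lit 973897394) (nat_lit 836) (nat_lit 926559487) (nat_lit 912) (nat_lit 10365529269) (nat_lit 307) (nat_lit 5) (nat_lit 318) (nat_lit 5) (nat_lit 319) (nat_lit 5) (nat_lit 451) (nat_lit 414) (nat_lit 275))))))) (XT.nd (nat_lit 1092) (nat_lit 4104) (nat_lit 0) (XT.nd (nat_lit 546) (nat_lit 2812) (nat_lit 0) (XT.nd (nat_lit 234) (nat_lit 1520) (nat_lit 0) (XT.nd (nat_lit 78) (nat_lit 760) (nat_lit 0) (XT.lf (nat_lit 0) (nat_lit 3574576342) (nat_lit 912) (nat_lit 5072588169) (nat_lit 76) (nat_lit 3751138281) (nat_lit 307) (nat_lit 5) (nat_lit 319) (nat_lit 5) (nat_lit 308) (nat_lit 5) (nat_lit 452) (nat_lit 414) (nat_lit 274))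 (XT.nd (nat_lit 78) (nat_lit 0) (nat_lit 0) (XT.lf (nat_lit 0) (nat_lit 1268757105) (nat_lit 760) (nat_lit 4014725013) (nat_lit 836) (nat_lit 7249767010) (nat_lit 297) (nat_lit 5) (nat_lit 307) (nat_lit 5) (nat_lit 308) (nat_lit 5) (nat_lit 453) (nat_lit 414) (nat_lit 273)) (XT.lf (nat_lit 0) (nat_lit 7052545163) (nat_lit 836) (nat_lit 4882591706) (nat_lit 76) (nat_lit 735247195) (nat_lit 297) (nat_lit 5) (nat_lit 308) (nat_lit 5) (nat_lit 298) (nat_lit 5) (nat_lit 454) (nat_lit 414) (nat_lit 272)))) (XT.nd (nat_lit 156) (nat_lit 760) (nat_lit 0) (XT.nd (nat_lit 78) (nat_lit 0) (nat_lit 0) (XT.lf (nat_lit 0) (nat_lit 1608483921) (nat_lit 760) (nat_lit 7272891218) (nat_lit 836) (nat_lit 3928407920) (nat_lit 287) (nat_lit 5) (nat_lit 297) (nat_lit 5) (nat_lit 298) (nat_lit 5) (nat_lit 455) (nat_lit 414) (nat_lit 271)) (XT.lf (nat_lit 0) (nat_lit 8282680541) (nat_lit 760) (nat_lit 2484384964) (nat_lit 836) (nat_lit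 2184507750) (nat_lit 287) (nat_lit 5) (nat_lit 297) (nat_lit 5) (nat_lit 298) (nat_lit 5) (nat_lit 456) (nat_lit 414) (nat_lit 270))) (XT.nd (nat_lit 78) (nat_lit 76) (nat_lit 0) (XT.lf (nat_lit 0) (nat_lit 1991819668) (nat_lit 684) (nat_lit 10714925091) (nat_lit 760) (nat_lit 389137716) (nat_lit 278) (nat_lit 5) (nat_lit 287) (nat_lit 5) (nat_lit 288) (nat_lit 5) (nat_lit 457) (nat_lit 414) (nat_lit 269)) (XT.lf (nat_lit 0) (nat_lit 1459046500) (nat_lit 760) (nat_lit 4432409511) (nat_lit 76) (nat_lit 7350726572) (nat_lit 277) (nat_lit 5) (nat_lit 287) (nat_lit 5) (nat_lit 278) (nat_lit 5) (nat_lit 458) (nat_lit 414) (nat_lit 268))))) (XT.nd (nat_lit 234) (nat_lit 1368) (nat_lit 0) (XT.nd (nat_lit 78) (nat_lit 684) (nat_lit 0) (XT.lf (nat_lit 0) (nat_lit 2388713564) (nat_lit 760) (nat_lit 953852508) (nat_lit 836) (nat_lit 10048727751) (nat_lit 267) (nat_lit 5) (nat_lit 277) (nat_lit 5) (nat_lit 278) (nat_lit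 5) (nat_lit 459) (nat_lit 414) (nat_lit 267)) (XT.nd (nat_lit 78) (nat_lit 684) (nat_lit 0) (XT.lf (nat_lit 0) (nat_lit 5308417798) (nat_lit 836) (nat_lit 4176023232) (nat_lit 76) (nat_lit 4058061080) (nat_lit 267) (nat_lit 5) (nat_lit 278) (nat_lit 5) (nat_lit 268) (nat_lit 5) (nat_lit 460) (nat_lit 414) (nat_lit 266)) (XT.lf (nat_lit 0) (nat_lit 2804918269) (nat_lit 684) (nat_lit 4521642330) (nat_lit 760) (nat_lit 6369922383) (nat_lit 258) (nat_lit 5) (nat_lit 267) (nat_lit 5) (nat_lit 268) (nat_lit 5) (nat_lit 461) (nat_lit 414) (nat_lit 265)))) (XT.nd (nat_lit 156) (nat_lit 684) (nat_lit 0) (XT.nd (nat_lit 78) (nat_lit 684) (nat_lit 0) (XT.lf (nat_lit 0) (nat_lit 9405367494) (nat_lit 760) (nat_lit 3887353997) (nat_lit 76) (nat_lit 560423701) (nat_lit 258) (nat_lit 5) (nat_lit 268) (nat_lit 5) (nat_lit 259) (nat_lit 5) (nat_lit 462) (nat_lit 414) (nat_lit 264)) (XT.lf (nat_lit 0) (nat_lit 3257202941) (nat_lit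 684) (nat_lit 8308447632) (nat_lit 760) (nat_lit 2446499665) (nat_lit 249) (nat_lit 5) (nat_lit 258) (nat_lit 5) (nat_lit 259) (nat_lit 5) (nat_lit 463) (nat_lit 414) (nat_lit 263))) (XT.nd (nat_lit 78) (nat_lit 684) (nat_lit 0) (XT.lf (nat_lit 0) (nat_lit 10584915297) (nat_lit 684) (nat_lit 3199256440) (nat_lit 760) (nat_lit 389870444) (nat_lit 249) (nat_lit 5) (nat_lit 258) (nat_lit 5) (nat_lit 259) (nat_lit 5) (nat_lit 464) (nat_lit 414) (nat_lit 262)) (XT.lf (nat_lit 0) (nat_lit 1712184950) (nat_lit 684) (nat_lit 10606270050) (nat_lit 76) (nat_lit 2019968484) (nat_lit 240) (nat_lit 5) (nat_lit 249) (nat_lit 5) (nat_lit 241) (nat_lit 5) (nat_lit 465) (nat_lit 414) (nat_lit 261)))))) (XT.nd (nat_lit 546) (nat_lit 2204) (nat_lit 0) (XT.nd (nat_lit 234) (nat_lit 1292) (nat_lit 0) (XT.nd (nat_lit 78) (nat_lit 608) (nat_lit 0) (XT.lf (nat_lit 0) (nat_lit 3885706409) (nat_lit 684) (nat_lit 3293498571) (nat_lit 76)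 (nat_lit 7326150002) (nat_lit 240) (nat_lit 5) (nat_lit 249) (nat_lit 5) (nat_lit 241) (nat_lit 5) (nat_lit 466) (nat_lit 414) (nat_lit 260)) (XT.nd (nat_lit 78) (nat_lit 0) (nat_lit 0) (XT.lf (nat_lit 0) (nat_lit 4208497838) (nat_lit 608) (nat_lit 1910945286) (nat_lit 684) (nat_lit 8555853965) (nat_lit 232) (nat_lit 5) (nat_lit 240) (nat_lit 5) (nat_lit 241) (nat_lit 5) (nat_lit 467) (nat_lit 414) (nat_lit 259)) (XT.lf (nat_lit 0) (nat_lit 8432122116) (nat_lit 684) (nat_lit 2977996013) (nat_lit 76) (nat_lit 3437841302) (nat_lit 232) (nat_lit 5) (nat_lit 241) (nat_lit 5) (nat_lit 233) (nat_lit 5) (nat_lit 468) (nat_lit 414) (nat_lit 258)))) (XT.nd (nat_lit 156) (nat_lit 684) (nat_lit 0) (XT.nd (nat_lit 78) (nat_lit 0) (nat_lit 0) (XT.lf (nat_lit 0) (nat_lit 4697427757) (nat_lit 608) (nat_lit 6126524205) (nat_lit 684) (nat_lit 4199471721) (nat_lit 224) (nat_lit 5) (nat_lit 232) (nat_lit 5) (nat_lit 233) (nat_lit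 5) (nat_lit 469) (nat_lit 414) (nat_lit 257)) (XT.lf (nat_lit 0) (nat_lit 12554699303) (nat_lit 608) (nat_lit 718769233) (nat_lit 684) (nat_lit 1928738163) (nat_lit 224) (nat_lit 5) (nat_lit 232) (nat_lit 5) (nat_lit 233) (nat_lit 5) (nat_lit 470) (nat_lit 414) (nat_lit 256))) (XT.nd (nat_lit 78) (nat_lit 0) (nat_lit 0) (XT.lf (nat_lit 0) (nat_lit 437711441) (nat_lit 684) (nat_lit 10176604855) (nat_lit 76) (nat_lit 4769097355) (nat_lit 215) (nat_lit 5) (nat_lit 224) (nat_lit 5) (nat_lit 216) (nat_lit 5) (nat_lit 471) (nat_lit 414) (nat_lit 255)) (XT.lf (nat_lit 0) (nat_lit 2838431609) (nat_lit 684) (nat_lit 2343485462) (nat_lit 76) (nat_lit 10385823452) (nat_lit 215) (nat_lit 5) (nat_lit 224) (nat_lit 5) (nat_lit 216) (nat_lit 5) (nat_lit 472) (nat_lit 414) (nat_lit 254))))) (XT.nd (nat_lit 234) (nat_lit 1140) (nat_lit 0) (XT.nd (nat_lit 78) (nat_lit 532) (nat_lit 0) (XT.lf (nat_lit 0) (nat_lit 5317092216) (nat_lit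 608) (nat_lit 10048408561) (nat_lit 76) (nat_lit 389660620) (nat_lit 208) (nat_lit 5) (nat_lit 216) (nat_lit 5) (nat_lit 209) (nat_lit 5) (nat_lit 473) (nat_lit 414) (nat_lit 253)) (XT.nd (nat_lit 78) (nat_lit 532) (nat_lit 0) (XT.lf (nat_lit 0) (nat_lit 7885867294) (nat_lit 608) (nat_lit 2042589372) (nat_lit 76) (nat_lit 6017069069) (nat_lit 208) (nat_lit 5) (nat_lit 216) (nat_lit 5) (nat_lit 209) (nat_lit 5) (nat_lit 474) (nat_lit 414) (nat_lit 252)) (XT.lf (nat_lit 0) (nat_lit 6192886442) (nat_lit 532) (nat_lit 4343921873) (nat_lit 608) (nat_lit 5602278989) (nat_lit 201) (nat_lit 5) (nat_lit 208) (nat_lit 5) (nat_lit 209) (nat_lit 5) (nat_lit 475) (nat_lit 414) (nat_lit 251)))) (XT.nd (nat_lit 156) (nat_lit 608) (nat_lit 0) (XT.nd (nat_lit 78) (nat_lit 532) (nat_lit 0) (XT.lf (nat_lit 0) (nat_lit 13254022375) (nat_lit 608) (nat_lit 1736137827) (nat_lit 76) (nat_lit 1346100461) (nat_lit 201) (nat_lit 5) (nat_lit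 209) (nat_lit 5) (nat_lit 202) (nat_lit 5) (nat_lit 476) (nat_lit 414) (nat_lit 250)) (XT.lf (nat_lit 0) (nat_lit 6685490535) (nat_lit 532) (nat_lit 9403123866) (nat_lit 608) (nat_lit 447507944) (nat_lit 194) (nat_lit 5) (nat_lit 201) (nat_lit 5) (nat_lit 202) (nat_lit 5) (nat_lit 477) (nat_lit 414) (nat_lit 249))) (XT.nd (nat_lit 78) (nat_lit 532) (nat_lit 0) (XT.lf (nat_lit 0) (nat_lit 2213166540) (nat_lit 608) (nat_lit 1466883096) (nat_lit 76) (nat_lit 13059593553) (nat_lit 193) (nat_lit 5) (nat_lit 201) (nat_lit 5) (nat_lit 194) (nat_lit 5) (nat_lit 478) (nat_lit 414) (nat_lit 248)) (XT.lf (nat_lit 0) (nat_lit 4972979430) (nat_lit 608) (nat_lit 9796584367) (nat_lit 76) (nat_lit 2176578362) (nat_lit 186) (nat_lit 5) (nat_lit 194) (nat_lit 5) (nat_lit 187) (nat_lit 5) (nat_lit 479) (nat_lit 414) (nat_lit 247))))))))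
noncomputable def xc181 : XT := (XT.nd (nat_lit 2184) (nat_lit 2128) (nat_lit 0) (XT.nd (nat_lit 1092) (nat_lit 2812) (nat_lit 0) (XT.nd (nat_lit 546) (nat_lit 1824) (nat_lit 0) (XT.nd (nat_lit 234) (nat_lit 1064) (nat_lit 0) (XT.nd (nat_lit 78) (nat_lit 456) (nat_lit 0) (XT.lf (nat_lit 0) (nat_lit 7813431385) (nat_lit 608) (nat_lit 1234262244) (nat_lit 76) (nat_lit 8108573734) (nat_lit 186) (nat_lit 5) (nat_lit 194) (nat_lit 5) (nat_lit 187) (nat_lit 5) (nat_lit 480) (nat_lit 414) (nat_lit 246)) (XT.nd (nat_lit 78) (nat_lit 0) (nat_lit 0) (XT.lf (nat_lit 0) (nat_lit 7587580457) (nat_lit 456) (nat_lit 3163711674) (nat_lit 532) (nat_lit 6618495955) (nat_lit 180) (nat_lit 5) (nat_lit 186) (nat_lit 5) (nat_lit 187) (nat_lit 5) (nat_lit 481) (nat_lit 414) (nat_lit 245)) (XT.lf (nat_lit 0) (nat_lit 13766090019) (nat_lit 532) (nat_lit 1014627297) (nat_lit 76) (nat_lit 2806503220) (nat_lit 180) (nat_lit 5) (nat_lit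 187) (nat_lit 5) (nat_lit 181) (nat_lit 5) (nat_lit 482) (nat_lit 414) (nat_lit 244)))) (XT.nd (nat_lit 156) (nat_lit 456) (nat_lit 0) (XT.nd (nat_lit 78) (nat_lit 76) (nat_lit 0) (XT.lf (nat_lit 0) (nat_lit 8001188183) (nat_lit 532) (nat_lit 8904481408) (nat_lit 608) (nat_lit 902047145) (nat_lit 173) (nat_lit 5) (nat_lit 180) (nat_lit 5) (nat_lit 181) (nat_lit 5) (nat_lit 483) (nat_lit 414) (nat_lit 243)) (XT.lf (nat_lit 0) (nat_lit 2046670788) (nat_lit 608) (nat_lit 846077975) (nat_lit 76) (nat_lit 15139639778) (nat_lit 172) (nat_lit 5) (nat_lit 180) (nat_lit 5) (nat_lit 173) (nat_lit 5) (nat_lit 484) (nat_lit 414) (nat_lit 242))) (XT.nd (nat_lit 78) (nat_lit 0) (nat_lit 0) (XT.lf (nat_lit 0) (nat_lit 5109944488) (nat_lit 532) (nat_lit 9895253547) (nat_lit 76) (nat_lit 3254887837) (nat_lit 166) (nat_lit 5) (nat_lit 173) (nat_lit 5) (nat_lit 167) (nat_lit 5) (nat_lit 485) (nat_lit 414) (nat_lit 241)) (XT.lf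 (nat_lit 0) (nat_lit 8251212042) (nat_lit 532) (nat_lit 750992413) (nat_lit 76) (nat_lit 9489802576) (nat_lit 166) (nat_lit 5) (nat_lit 173) (nat_lit 5) (nat_lit 167) (nat_lit 5) (nat_lit 486) (nat_lit 414) (nat_lit 240))))) (XT.nd (nat_lit 234) (nat_lit 912) (nat_lit 0) (XT.nd (nat_lit 78) (nat_lit 456) (nat_lit 0) (XT.lf (nat_lit 0) (nat_lit 8679195326) (nat_lit 456) (nat_lit 2824476275) (nat_lit 532) (nat_lit 7223932038) (nat_lit 160) (nat_lit 5) (nat_lit 166) (nat_lit 5) (nat_lit 167) (nat_lit 5) (nat_lit 487) (nat_lit 414) (nat_lit 239)) (XT.nd (nat_lit 78) (nat_lit 456) (nat_lit 0) (XT.lf (nat_lit 0) (nat_lit 14840911251) (nat_lit 532) (nat_lit 693112551) (nat_lit 76) (nat_lit 3433498039) (nat_lit 160) (nat_lit 5) (nat_lit 167) (nat_lit 5) (nat_lit 161) (nat_lit 5) (nat_lit 488) (nat_lit 414) (nat_lit 238)) (XT.lf (nat_lit 0) (nat_lit 8937148481) (nat_lit 456) (nat_lit 9376717692) (nat_lit 532) (nat_lit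 896997013) (nat_lit 154) (nat_lit 5) (nat_lit 160) (nat_lit 5) (nat_lit 161) (nat_lit 5) (nat_lit 489) (nat_lit 414) (nat_lit 237)))) (XT.nd (nat_lit 156) (nat_lit 380) (nat_lit 0) (XT.nd (nat_lit 78) (nat_lit 456) (nat_lit 0) (XT.lf (nat_lit 0) (nat_lit 2362719000) (nat_lit 532) (nat_lit 715847898) (nat_lit 76) (nat_lit 16380258205) (nat_lit 153) (nat_lit 5) (nat_lit 160) (nat_lit 5) (nat_lit 154) (nat_lit 5) (nat_lit 490) (nat_lit 414) (nat_lit 236)) (XT.lf (nat_lit 0) (nat_lit 5749505120) (nat_lit 532) (nat_lit 10596142674) (nat_lit 76) (nat_lit 3364506100) (nat_lit 147) (nat_lit 5) (nat_lit 154) (nat_lit 5) (nat_lit 148) (nat_lit 5) (nat_lit 491) (nat_lit 414) (nat_lit 235))) (XT.nd (nat_lit 78) (nat_lit 380) (nat_lit 0) (XT.lf (nat_lit 0) (nat_lit 9221732194) (nat_lit 532) (nat_lit 847202947) (nat_lit 76) (nat_lit 9897223888) (nat_lit 147) (nat_lit 5) (nat_lit 154) (nat_lit 5) (nat_lit 148) (nat_lit 5) (nat_lit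 492) (nat_lit 414) (nat_lit 234)) (XT.lf (nat_lit 0) (nat_lit 9207134370) (nat_lit 380) (nat_lit 3608677521) (nat_lit 456) (nat_lit 7410428011) (nat_lit 142) (nat_lit 5) (nat_lit 147) (nat_lit 5) (nat_lit 148) (nat_lit 5) (nat_lit 493) (nat_lit 414) (nat_lit 233)))))) (XT.nd (nat_lit 546) (nat_lit 1520) (nat_lit 0) (XT.nd (nat_lit 234) (nat_lit 760) (nat_lit 0) (XT.nd (nat_lit 78) (nat_lit 532) (nat_lit 0) (XT.lf (nat_lit 0) (nat_lit 16499537064) (nat_lit 456) (nat_lit 1047153793) (nat_lit 76) (nat_lit 2944479980) (nat_lit 142) (nat_lit 5) (nat_lit 148) (nat_lit 5) (nat_lit 143) (nat_lit 5) (nat_lit 494) (nat_lit 414) (nat_lit 232)) (XT.nd (nat_lit 78) (nat_lit 76) (nat_lit 0) (XT.lf (nat_lit 0) (nat_lit 9210948851) (nat_lit 456) (nat_lit 11122521199) (nat_lit 532) (nat_lit 426403323) (nat_lit 136) (nat_lit 5) (nat_lit 142) (nat_lit 5) (nat_lit 143) (nat_lit 5) (nat_lit 495) (nat_lit 414) (nat_lit 231)) (XT.lf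 (nat_lit 0) (nat_lit 3167959276) (nat_lit 532) (nat_lit 1376514518) (nat_lit 76) (nat_lit 16489064248) (nat_lit 135) (nat_lit 5) (nat_lit 142) (nat_lit 5) (nat_lit 136) (nat_lit 5) (nat_lit 496) (nat_lit 414) (nat_lit 230)))) (XT.nd (nat_lit 156) (nat_lit 380) (nat_lit 0) (XT.nd (nat_lit 78) (nat_lit 0) (nat_lit 0) (XT.lf (nat_lit 0) (nat_lit 6895070324) (nat_lit 456) (nat_lit 12220106892) (nat_lit 76) (nat_lit 2196114442) (nat_lit 130) (nat_lit 5) (nat_lit 136) (nat_lit 5) (nat_lit 131) (nat_lit 5) (nat_lit 497) (nat_lit 414) (nat_lit 229)) (XT.lf (nat_lit 0) (nat_lit 10729166390) (nat_lit 456) (nat_lit 1847755762) (nat_lit 76) (nat_lit 9017032709) (nat_lit 130) (nat_lit 5) (nat_lit 136) (nat_lit 5) (nat_lit 131) (nat_lit 5) (nat_lit 498) (nat_lit 414) (nat_lit 228))) (XT.nd (nat_lit 78) (nat_lit 0) (nat_lit 0) (XT.lf (nat_lit 0) (nat_lit 8838072767) (nat_lit 380) (nat_lit 5852439177) (nat_lit 456) (nat_lit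 7190751338) (nat_lit 125) (nat_lit 5) (nat_lit 130) (nat_lit 5) (nat_lit 131) (nat_lit 5) (nat_lit 499) (nat_lit 414) (nat_lit 227)) (XT.lf (nat_lit 0) (nat_lit 18743335898) (nat_lit 456) (nat_lit 2427958115) (nat_lit 76) (nat_lit 1002782070) (nat_lit 125) (nat_lit 5) (nat_lit 131) (nat_lit 5) (nat_lit 126) (nat_lit 5) (nat_lit 500) (nat_lit 414) (nat_lit 226))))) (XT.nd (nat_lit 234) (nat_lit 760) (nat_lit 0) (XT.nd (nat_lit 78) (nat_lit 380) (nat_lit 0) (XT.lf (nat_lit 0) (nat_lit 486806658) (nat_lit 380) (nat_lit 14012148039) (nat_lit 76) (nat_lit 7971988232) (nat_lit 120) (nat_lit 5) (nat_lit 125) (nat_lit 5) (nat_lit 121) (nat_lit 5) (nat_lit 501) (nat_lit 414) (nat_lit 225)) (XT.nd (nat_lit 78) (nat_lit 380) (nat_lit 0) (XT.lf (nat_lit 0) (nat_lit 4446598740) (nat_lit 380) (nat_lit 3209822454) (nat_lit 76) (nat_lit 15116678790) (nat_lit 120) (nat_lit 5) (nat_lit 125) (nat_lit 5) (nat_lit 121) (nat_lit 5)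 (nat_lit 502) (nat_lit 414) (nat_lit 224)) (XT.lf (nat_lit 0) (nat_lit 7902617685) (nat_lit 380) (nat_lit 627795850) (nat_lit 456) (nat_lit 14549993101) (nat_lit 115) (nat_lit 5) (nat_lit 120) (nat_lit 5) (nat_lit 121) (nat_lit 5) (nat_lit 503) (nat_lit 414) (nat_lit 223)))) (XT.nd (nat_lit 156) (nat_lit 456) (nat_lit 0) (XT.nd (nat_lit 78) (nat_lit 304) (nat_lit 0) (XT.lf (nat_lit 0) (nat_lit 12753621058) (nat_lit 456) (nat_lit 4164850156) (nat_lit 76) (nat_lit 6474236812) (nat_lit 115) (nat_lit 5) (nat_lit 121) (nat_lit 5) (nat_lit 116) (nat_lit 5) (nat_lit 504) (nat_lit 414) (nat_lit 222)) (XT.lf (nat_lit 0) (nat_lit 7148508132) (nat_lit 304) (nat_lit 9957044326) (nat_lit 380) (nat_lit 6604820670) (nat_lit 111) (nat_lit 5) (nat_lit 115) (nat_lit 5) (nat_lit 116) (nat_lit 5) (nat_lit 505) (nat_lit 414) (nat_lit 221))) (XT.nd (nat_lit 78) (nat_lit 456) (nat_lit 0) (XT.lf (nat_lit 0) (nat_lit 18735215640) (nat_lit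 304) (nat_lit 2831007344) (nat_lit 380) (nat_lit 2467737358) (nat_lit 111) (nat_lit 5) (nat_lit 115) (nat_lit 5) (nat_lit 116) (nat_lit 5) (nat_lit 506) (nat_lit 414) (nat_lit 220)) (XT.lf (nat_lit 0) (nat_lit 1792660964) (nat_lit 456) (nat_lit 18141271229) (nat_lit 76) (nat_lit 4428591260) (nat_lit 105) (nat_lit 5) (nat_lit 111) (nat_lit 5) (nat_lit 106) (nat_lit 5) (nat_lit 507) (nat_lit 414) (nat_lit 219))))))) (XT.nd (nat_lit 1092) (nat_lit 228) (nat_lit 0) (XT.nd (nat_lit 546) (nat_lit 912) (nat_lit 0) (XT.nd (nat_lit 234) (nat_lit 684) (nat_lit 0) (XT.nd (nat_lit 78) (nat_lit 304) (nat_lit 0) (XT.lf (nat_lit 0) (nat_lit 6153668717) (nat_lit 456) (nat_lit 6698116318) (nat_lit 76) (nat_lit 11844580324) (nat_lit 105) (nat_lit 5) (nat_lit 111) (nat_lit 5) (nat_lit 106) (nat_lit 5) (nat_lit 508) (nat_lit 414) (nat_lit 218)) (XT.nd (nat_lit 78) (nat_lit 0) (nat_lit 0) (XT.lf (nat_lit 0) (nat_lit 5030745423) (nat_lit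 304) (nat_lit 5597806629) (nat_lit 380) (nat_lit 14407801549) (nat_lit 101) (nat_lit 5) (nat_lit 105) (nat_lit 5) (nat_lit 106) (nat_lit 5) (nat_lit 509) (nat_lit 414) (nat_lit 217)) (XT.lf (nat_lit 0) (nat_lit 15243904591) (nat_lit 380) (nat_lit 8318432633) (nat_lit 76) (nat_lit 1819787510) (nat_lit 101) (nat_lit 5) (nat_lit 106) (nat_lit 5) (nat_lit 102) (nat_lit 5) (nat_lit 510) (nat_lit 414) (nat_lit 216)))) (XT.nd (nat_lit 156) (nat_lit 380) (nat_lit 0) (XT.nd (nat_lit 78) (nat_lit 0) (nat_lit 0) (XT.lf (nat_lit 0) (nat_lit 3603681192) (nat_lit 304) (nat_lit 16402500143) (nat_lit 380) (nat_lit 5727540115) (nat_lit 97) (nat_lit 5) (nat_lit 101) (nat_lit 5) (nat_lit 102) (nat_lit 5) (nat_lit 511) (nat_lit 414) (nat_lit 215)) (XT.lf (nat_lit 0) (nat_lit 15868058433) (nat_lit 304) (nat_lit 9045671059) (nat_lit 380) (nat_lit 1177622547) (nat_lit 97) (nat_lit 5) (nat_lit 101) (nat_lit 5) (nat_lit 102) (nat_lit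 5) (nat_lit 512) (nat_lit 414) (nat_lit 214))) (XT.nd (nat_lit 78) (nat_lit 0) (nat_lit 0) (XT.lf (nat_lit 0) (nat_lit 1915382003) (nat_lit 304) (nat_lit 1509204028) (nat_lit 380) (nat_lit 23030967561) (nat_lit 92) (nat_lit 5) (nat_lit 96) (nat_lit 5) (nat_lit 97) (nat_lit 5) (nat_lit 513) (nat_lit 414) (nat_lit 213)) (XT.lf (nat_lit 0) (nat_lit 8206568171) (nat_lit 380) (nat_lit 12447499128) (nat_lit 76) (nat_lit 6170748555) (nat_lit 92) (nat_lit 5) (nat_lit 97) (nat_lit 5) (nat_lit 93) (nat_lit 5) (nat_lit 514) (nat_lit 414) (nat_lit 212))))) (XT.nd (nat_lit 234) (nat_lit 608) (nat_lit 0) (XT.nd (nat_lit 78) (nat_lit 304) (nat_lit 0) (XT.lf (nat_lit 0) (nat_lit 13088609564) (nat_lit 380) (nat_lit 131671678) (nat_lit 76) (nat_lit 13981095997) (nat_lit 92) (nat_lit 5) (nat_lit 97) (nat_lit 5) (nat_lit 93) (nat_lit 5) (nat_lit 515) (nat_lit 414) (nat_lit 211)) (XT.nd (nat_lit 78) (nat_lit 0) (nat_lit 0) (XT.lf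 (nat_lit 0) (nat_lit 12587020283) (nat_lit 304) (nat_lit 5557528983) (nat_lit 380) (nat_lit 9439397659) (nat_lit 88) (nat_lit 5) (nat_lit 92) (nat_lit 5) (nat_lit 93) (nat_lit 5) (nat_lit 516) (nat_lit 414) (nat_lit 210)) (XT.lf (nat_lit 0) (nat_lit 23311727186) (nat_lit 380) (nat_lit 2435516292) (nat_lit 76) (nat_lit 2226724319) (nat_lit 88) (nat_lit 5) (nat_lit 93) (nat_lit 5) (nat_lit 89) (nat_lit 5) (nat_lit 517) (nat_lit 414) (nat_lit 209)))) (XT.nd (nat_lit 156) (nat_lit 304) (nat_lit 0) (XT.nd (nat_lit 78) (nat_lit 0) (nat_lit 0) (XT.lf (nat_lit 0) (nat_lit 307806822) (nat_lit 304) (nat_lit 17902603572) (nat_lit 76) (nat_lit 10159351312) (nat_lit 84) (nat_lit 5) (nat_lit 88) (nat_lit 5) (nat_lit 85) (nat_lit 5) (nat_lit 518) (nat_lit 414) (nat_lit 208)) (XT.lf (nat_lit 0) (nat_lit 5326024236) (nat_lit 304) (nat_lit 5151645427) (nat_lit 76) (nat_lit 18294963607) (nat_lit 84) (nat_lit 5) (nat_lit 88) (nat_lit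 5) (nat_lit 85) (nat_lit 5) (nat_lit 519) (nat_lit 414) (nat_lit 207))) (XT.nd (nat_lit 78) (nat_lit 0) (nat_lit 0) (XT.lf (nat_lit 0) (nat_lit 7950350272) (nat_lit 304) (nat_lit 2540665110) (nat_lit 380) (nat_lit 18691620710) (nat_lit 80) (nat_lit 5) (nat_lit 84) (nat_lit 5) (nat_lit 85) (nat_lit 5) (nat_lit 520) (nat_lit 414) (nat_lit 206)) (XT.lf (nat_lit 0) (nat_lit 15824992451) (nat_lit 380) (nat_lit 8260509037) (nat_lit 76) (nat_lit 5514025736) (nat_lit 80) (nat_lit 5) (nat_lit 85) (nat_lit 5) (nat_lit 81) (nat_lit 5) (nat_lit 521) (nat_lit 414) (nat_lit 205)))))) (XT.nd (nat_lit 51480) (nat_lit 0) (nat_lit 26676) (XT.nd (nat_lit 51168) (nat_lit 0) (nat_lit 27968) (XT.nd (nat_lit 51012) (nat_lit 0) (nat_lit 27968) (XT.lf (nat_lit 0) (nat_lit 5011483543) (nat_lit 228) (nat_lit 16298450208) (nat_lit 304) (nat_lit 8713938670) (nat_lit 77) (nat_lit 5) (nat_lit 80) (nat_lit 5) (nat_lit 81) (nat_lit 5) (nat_lit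 522) (nat_lit 414) (nat_lit 204)) (XT.nd (nat_lit 78) (nat_lit 0) (nat_lit 0) (XT.lf (nat_lit 0) (nat_lit 152734568) (nat_lit 0) (nat_lit 152734568) (nat_lit 1444) (nat_lit 4106827747) (nat_lit 445) (nat_lit 5) (nat_lit 445) (nat_lit 3) (nat_lit 464) (nat_lit 3) (nat_lit 415) (nat_lit 415) (nat_lit 310)) (XT.lf (nat_lit 0) (nat_lit 1543542283) (nat_lit 1444) (nat_lit 4498684267) (nat_lit 1520) (nat_lit 2851304116) (nat_lit 445) (nat_lit 5) (nat_lit 464) (nat_lit 3) (nat_lit 465) (nat_lit 5) (nat_lit 416) (nat_lit 415) (nat_lit 309)))) (XT.nd (nat_lit 156) (nat_lit 0) (nat_lit 76) (XT.nd (nat_lit 78) (nat_lit 0) (nat_lit 76) (XT.lf (nat_lit 0) (nat_lit 2473088401) (nat_lit 1444) (nat_lit 412337128) (nat_lit 1520) (nat_lit 6078875409) (nat_lit 445) (nat_lit 5) (nat_lit 464) (nat_lit 3) (nat_lit 465) (nat_lit 5) (nat_lit 417) (nat_lit 415) (nat_lit 308)) (XT.lf (nat_lit 0) (nat_lit 3424992759) (nat_lit 1444) (nat_lit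 5245634287) (nat_lit 1520) (nat_lit 365804261) (nat_lit 446) (nat_lit 5) (nat_lit 465) (nat_lit 5) (nat_lit 466) (nat_lit 5) (nat_lit 418) (nat_lit 415) (nat_lit 307))) (XT.nd (nat_lit 78) (nat_lit 0) (nat_lit 0) (XT.lf (nat_lit 0) (nat_lit 4395008735) (nat_lit 1444) (nat_lit 1058193895) (nat_lit 1520) (nat_lit 3656839825) (nat_lit 446) (nat_lit 5) (nat_lit 465) (nat_lit 5) (nat_lit 466) (nat_lit 5) (nat_lit 419) (nat_lit 415) (nat_lit 306)) (XT.lf (nat_lit 76) (nat_lit 3243076839) (nat_lit 0) (nat_lit 2140031288) (nat_lit 1520) (nat_lit 3802063296) (nat_lit 447) (nat_lit 5) (nat_lit 446) (nat_lit 5) (nat_lit 466) (nat_lit 5) (nat_lit 420) (nat_lit 415) (nat_lit 305))))) (XT.nd (nat_lit 234) (nat_lit 1444) (nat_lit 0) (XT.nd (nat_lit 78) (nat_lit 0) (nat_lit 0) (XT.lf (nat_lit 0) (nat_lit 6384212487) (nat_lit 1444) (nat_lit 1637929795) (nat_lit 1520) (nat_lit 1239814711) (nat_lit 447) (nat_lit 5) (nat_lit 466)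 (nat_lit 5) (nat_lit 467) (nat_lit 5) (nat_lit 421) (nat_lit 415) (nat_lit 304)) (XT.nd (nat_lit 78) (nat_lit 0) (nat_lit 0) (XT.lf (nat_lit 76) (nat_lit 2761727356) (nat_lit 0) (nat_lit 4654193253) (nat_lit 1520) (nat_lit 1924164541) (nat_lit 448) (nat_lit 5) (nat_lit 447) (nat_lit 5) (nat_lit 467) (nat_lit 5) (nat_lit 422) (nat_lit 415) (nat_lit 303)) (XT.lf (nat_lit 76) (nat_lit 7259024280) (nat_lit 0) (nat_lit 1199048775) (nat_lit 1520) (nat_lit 961924760) (nat_lit 448) (nat_lit 5) (nat_lit 447) (nat_lit 5) (nat_lit 467) (nat_lit 5) (nat_lit 423) (nat_lit 415) (nat_lit 302)))) (XT.nd (nat_lit 156) (nat_lit 0) (nat_lit 0) (XT.nd (nat_lit 78) (nat_lit 0) (nat_lit 0) (XT.lf (nat_lit 0) (nat_lit 28977758) (nat_lit 1520) (nat_lit 7153870784) (nat_lit 1596) (nat_lit 2318481605) (nat_lit 428) (nat_lit 5) (nat_lit 448) (nat_lit 5) (nat_lit 449) (nat_lit 5) (nat_lit 424) (nat_lit 415) (nat_lit 301)) (XT.lf (nat_lit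 0) (nat_lit 1028828554) (nat_lit 1520) (nat_lit 2636056357) (nat_lit 1596) (nat_lit 5919253943) (nat_lit 428) (nat_lit 5) (nat_lit 448) (nat_lit 5) (nat_lit 449) (nat_lit 5) (nat_lit 425) (nat_lit 415) (nat_lit 300))) (XT.nd (nat_lit 78) (nat_lit 0) (nat_lit 76) (XT.lf (nat_lit 76) (nat_lit 1985404645) (nat_lit 0) (nat_lit 56025355) (nat_lit 1596) (nat_lit 7627335425) (nat_lit 429) (nat_lit 5) (nat_lit 428) (nat_lit 5) (nat_lit 449) (nat_lit 5) (nat_lit 426) (nat_lit 415) (nat_lit 299)) (XT.lf (nat_lit 0) (nat_lit 3095848099) (nat_lit 1520) (nat_lit 3056480750) (nat_lit 1596) (nat_lit 3602340825) (nat_lit 429) (nat_lit 5) (nat_lit 449) (nat_lit 5) (nat_lit 450) (nat_lit 5) (nat_lit 427) (nat_lit 415) (nat_lit 298))))))))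
noncomputable def xc182 : XT := (XT.nd (nat_lit 2184) (nat_lit 8892) (nat_lit 0) (XT.nd (nat_lit 1092) (nat_lit 7220) (nat_lit 0) (XT.nd (nat_lit 546) (nat_lit 1444) (nat_lit 0) (XT.nd (nat_lit 234) (nat_lit 1368) (nat_lit 0) (XT.nd (nat_lit 78) (nat_lit 0) (nat_lit 76) (XT.lf (nat_lit 76) (nat_lit 1671622633) (nat_lit 0) (nat_lit 2491566208) (nat_lit 1596) (nat_lit 5679282596) (nat_lit 430) (nat_lit 5) (nat_lit 429) (nat_lit 5) (nat_lit 450) (nat_lit 5) (nat_lit 428) (nat_lit 415) (nat_lit 297)) (XT.nd (nat_lit 78) (nat_lit 0) (nat_lit 0) (XT.lf (nat_lit 0) (nat_lit 5261537535) (nat_lit 1520) (nat_lit 3417322757) (nat_lit 1596) (nat_lit 1252991518) (nat_lit 430) (nat_lit 5) (nat_lit 450) (nat_lit 5) (nat_lit 451) (nat_lit 5) (nat_lit 429) (nat_lit 415) (nat_lit 296)) (XT.lf (nat_lit 76) (nat_lit 1420441117) (nat_lit 0) (nat_lit 4968456685) (nat_lit 1596) (nat_lit 3633996587) (nat_lit 431) (nat_lit 5) (nat_lit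 430) (nat_lit 5) (nat_lit 451) (nat_lit 5) (nat_lit 430) (nat_lit 415) (nat_lit 295)))) (XT.nd (nat_lit 156) (nat_lit 1444) (nat_lit 0) (XT.nd (nat_lit 78) (nat_lit 0) (nat_lit 76) (XT.lf (nat_lit 76) (nat_lit 6388406657) (nat_lit 0) (nat_lit 1154935006) (nat_lit 1596) (nat_lit 2572340613) (nat_lit 431) (nat_lit 5) (nat_lit 430) (nat_lit 5) (nat_lit 451) (nat_lit 5) (nat_lit 431) (nat_lit 415) (nat_lit 294)) (XT.lf (nat_lit 76) (nat_lit 1230756103) (nat_lit 0) (nat_lit 7497865876) (nat_lit 1596) (nat_lit 1481563878) (nat_lit 432) (nat_lit 5) (nat_lit 431) (nat_lit 5) (nat_lit 452) (nat_lit 5) (nat_lit 432) (nat_lit 415) (nat_lit 293))) (XT.nd (nat_lit 78) (nat_lit 1520) (nat_lit 0) (XT.lf (nat_lit 76) (nat_lit 6317773631) (nat_lit 0) (nat_lit 3634713559) (nat_lit 1596) (nat_lit 353809330) (nat_lit 432) (nat_lit 5) (nat_lit 431) (nat_lit 5) (nat_lit 452) (nat_lit 5) (nat_lit 433) (nat_lit 415) (nat_lit 292)) (XT.lf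 (nat_lit 0) (nat_lit 777769679) (nat_lit 1596) (nat_lit 9308047575) (nat_lit 1672) (nat_lit 318588429) (nat_lit 411) (nat_lit 5) (nat_lit 432) (nat_lit 5) (nat_lit 433) (nat_lit 5) (nat_lit 434) (nat_lit 415) (nat_lit 291))))) (XT.nd (nat_lit 234) (nat_lit 1444) (nat_lit 0) (XT.nd (nat_lit 78) (nat_lit 0) (nat_lit 0) (XT.lf (nat_lit 0) (nat_lit 1961036408) (nat_lit 1596) (nat_lit 4206774714) (nat_lit 1672) (nat_lit 4335957016) (nat_lit 411) (nat_lit 5) (nat_lit 432) (nat_lit 5) (nat_lit 433) (nat_lit 5) (nat_lit 435) (nat_lit 415) (nat_lit 290)) (XT.nd (nat_lit 78) (nat_lit 0) (nat_lit 76) (XT.lf (nat_lit 76) (nat_lit 996610129) (nat_lit 0) (nat_lit 2160942648) (nat_lit 1672) (nat_lit 7447786862) (nat_lit 412) (nat_lit 5) (nat_lit 411) (nat_lit 5) (nat_lit 433) (nat_lit 5) (nat_lit 436) (nat_lit 415) (nat_lit 289)) (XT.lf (nat_lit 0) (nat_lit 4402306673) (nat_lit 1596) (nat_lit 4373252655) (nat_lit 1672) (nat_lit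 1932910317) (nat_lit 412) (nat_lit 5) (nat_lit 433) (nat_lit 5) (nat_lit 434) (nat_lit 5) (nat_lit 437) (nat_lit 415) (nat_lit 288)))) (XT.nd (nat_lit 156) (nat_lit 1520) (nat_lit 0) (XT.nd (nat_lit 78) (nat_lit 0) (nat_lit 0) (XT.lf (nat_lit 76) (nat_lit 952100954) (nat_lit 0) (nat_lit 4724058315) (nat_lit 1672) (nat_lit 5137431873) (nat_lit 413) (nat_lit 5) (nat_lit 412) (nat_lit 5) (nat_lit 434) (nat_lit 5) (nat_lit 438) (nat_lit 415) (nat_lit 287)) (XT.lf (nat_lit 76) (nat_lit 6430318934) (nat_lit 0) (nat_lit 558463367) (nat_lit 1672) (nat_lit 3931779604) (nat_lit 413) (nat_lit 5) (nat_lit 412) (nat_lit 5) (nat_lit 434) (nat_lit 5) (nat_lit 439) (nat_lit 415) (nat_lit 286))) (XT.nd (nat_lit 78) (nat_lit 0) (nat_lit 0) (XT.lf (nat_lit 0) (nat_lit 964095617) (nat_lit 1596) (nat_lit 7378063786) (nat_lit 1672) (nat_lit 2687235106) (nat_lit 392) (nat_lit 5) (nat_lit 413) (nat_lit 5) (nat_lit 414) (nat_lit 5) (nat_lit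 440) (nat_lit 415) (nat_lit 285)) (XT.lf (nat_lit 0) (nat_lit 6571708409) (nat_lit 1596) (nat_lit 3169207140) (nat_lit 1672) (nat_lit 1399134199) (nat_lit 392) (nat_lit 5) (nat_lit 413) (nat_lit 5) (nat_lit 414) (nat_lit 5) (nat_lit 441) (nat_lit 415) (nat_lit 284)))))) (XT.nd (nat_lit 546) (nat_lit 2508) (nat_lit 0) (XT.nd (nat_lit 234) (nat_lit 1672) (nat_lit 0) (XT.nd (nat_lit 78) (nat_lit 1368) (nat_lit 0) (XT.lf (nat_lit 0) (nat_lit 1031780769) (nat_lit 1672) (nat_lit 10134687317) (nat_lit 1748) (nat_lit 86485554) (nat_lit 370) (nat_lit 5) (nat_lit 392) (nat_lit 5) (nat_lit 393) (nat_lit 5) (nat_lit 442) (nat_lit 415) (nat_lit 283)) (XT.nd (nat_lit 78) (nat_lit 1292) (nat_lit 0) (XT.lf (nat_lit 0) (nat_lit 1272766118) (nat_lit 1748) (nat_lit 4604130928) (nat_lit 76) (nat_lit 5490331928) (nat_lit 369) (nat_lit 5) (nat_lit 392) (nat_lit 5) (nat_lit 370) (nat_lit 5) (nat_lit 443) (nat_lit 415) (nat_lit 282))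 (XT.lf (nat_lit 0) (nat_lit 1126575752) (nat_lit 1292) (nat_lit 1524008702) (nat_lit 1368) (nat_lit 8833354415) (nat_lit 352) (nat_lit 5) (nat_lit 369) (nat_lit 5) (nat_lit 370) (nat_lit 5) (nat_lit 444) (nat_lit 415) (nat_lit 281)))) (XT.nd (nat_lit 156) (nat_lit 836) (nat_lit 0) (XT.nd (nat_lit 78) (nat_lit 836) (nat_lit 0) (XT.lf (nat_lit 0) (nat_lit 4091434408) (nat_lit 1368) (nat_lit 4600302917) (nat_lit 76) (nat_lit 2910547196) (nat_lit 352) (nat_lit 5) (nat_lit 370) (nat_lit 5) (nat_lit 353) (nat_lit 5) (nat_lit 445) (nat_lit 415) (nat_lit 280)) (XT.lf (nat_lit 0) (nat_lit 1265552846) (nat_lit 836) (nat_lit 4299585837) (nat_lit 912) (nat_lit 6157788500) (nat_lit 341) (nat_lit 5) (nat_lit 352) (nat_lit 5) (nat_lit 353) (nat_lit 5) (nat_lit 446) (nat_lit 415) (nat_lit 279))) (XT.nd (nat_lit 78) (nat_lit 836) (nat_lit 0) (XT.lf (nat_lit 0) (nat_lit 7086496473) (nat_lit 912) (nat_lit 4548723935) (nat_lit 76)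 (nat_lit 210409334) (nat_lit 341) (nat_lit 5) (nat_lit 353) (nat_lit 5) (nat_lit 342) (nat_lit 5) (nat_lit 447) (nat_lit 415) (nat_lit 278)) (XT.lf (nat_lit 0) (nat_lit 1455909208) (nat_lit 836) (nat_lit 7206508039) (nat_lit 912) (nat_lit 3307896812) (nat_lit 330) (nat_lit 5) (nat_lit 341) (nat_lit 5) (nat_lit 342) (nat_lit 5) (nat_lit 448) (nat_lit 415) (nat_lit 277))))) (XT.nd (nat_lit 234) (nat_lit 1596) (nat_lit 0) (XT.nd (nat_lit 78) (nat_lit 912) (nat_lit 0) (XT.lf (nat_lit 0) (nat_lit 7629567745) (nat_lit 836) (nat_lit 2657209828) (nat_lit 912) (nat_lit 1810386286) (nat_lit 330) (nat_lit 5) (nat_lit 341) (nat_lit 5) (nat_lit 342) (nat_lit 5) (nat_lit 449) (nat_lit 415) (nat_lit 276)) (XT.nd (nat_lit 78) (nat_lit 76) (nat_lit 0) (XT.lf (nat_lit 0) (nat_lit 1696767564) (nat_lit 836) (nat_lit 10257418631) (nat_lit 912) (nat_lit 272163256) (nat_lit 319) (nat_lit 5) (nat_lit 330) (nat_lit 5) (nat_lit 331) (nat_lit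 5) (nat_lit 450) (nat_lit 415) (nat_lit 275)) (XT.lf (nat_lit 0) (nat_lit 1314343447) (nat_lit 912) (nat_lit 4351617967) (nat_lit 76) (nat_lit 6691308029) (nat_lit 318) (nat_lit 5) (nat_lit 330) (nat_lit 5) (nat_lit 319) (nat_lit 5) (nat_lit 451) (nat_lit 415) (nat_lit 274)))) (XT.nd (nat_lit 156) (nat_lit 760) (nat_lit 0) (XT.nd (nat_lit 78) (nat_lit 0) (nat_lit 0) (XT.lf (nat_lit 0) (nat_lit 1961215733) (nat_lit 836) (nat_lit 967468399) (nat_lit 912) (nat_lit 9562102201) (nat_lit 307) (nat_lit 5) (nat_lit 318) (nat_lit 5) (nat_lit 319) (nat_lit 5) (nat_lit 452) (nat_lit 415) (nat_lit 273)) (XT.lf (nat_lit 0) (nat_lit 4616727498) (nat_lit 912) (nat_lit 4204917165) (nat_lit 76) (nat_lit 3804509836) (nat_lit 307) (nat_lit 5) (nat_lit 319) (nat_lit 5) (nat_lit 308) (nat_lit 5) (nat_lit 453) (nat_lit 415) (nat_lit 272))) (XT.nd (nat_lit 78) (nat_lit 0) (nat_lit 0) (XT.lf (nat_lit 0) (nat_lit 2256879206) (nat_lit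 760) (nat_lit 4090150434) (nat_lit 836) (nat_lit 6417039506) (nat_lit 297) (nat_lit 5) (nat_lit 307) (nat_lit 5) (nat_lit 308) (nat_lit 5) (nat_lit 454) (nat_lit 415) (nat_lit 271)) (XT.lf (nat_lit 0) (nat_lit 8132723020) (nat_lit 836) (nat_lit 4016949118) (nat_lit 76) (nat_lit 754663139) (nat_lit 297) (nat_lit 5) (nat_lit 308) (nat_lit 5) (nat_lit 298) (nat_lit 5) (nat_lit 455) (nat_lit 415) (nat_lit 270))))))) (XT.nd (nat_lit 1092) (nat_lit 3952) (nat_lit 0) (XT.nd (nat_lit 546) (nat_lit 1976) (nat_lit 0) (XT.nd (nat_lit 234) (nat_lit 1444) (nat_lit 0) (XT.nd (nat_lit 78) (nat_lit 760) (nat_lit 0) (XT.lf (nat_lit 0) (nat_lit 2597610558) (nat_lit 760) (nat_lit 7388317983) (nat_lit 836) (nat_lit 3060850947) (nat_lit 287) (nat_lit 5) (nat_lit 297) (nat_lit 5) (nat_lit 298) (nat_lit 5) (nat_lit 456) (nat_lit 415) (nat_lit 269)) (XT.nd (nat_lit 78) (nat_lit 760) (nat_lit 0) (XT.lf (nat_lit 0) (nat_lit 9386527248)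 (nat_lit 760) (nat_lit 2504630448) (nat_lit 836) (nat_lit 1300624247) (nat_lit 287) (nat_lit 5) (nat_lit 297) (nat_lit 5) (nat_lit 298) (nat_lit 5) (nat_lit 457) (nat_lit 415) (nat_lit 268)) (XT.lf (nat_lit 0) (nat_lit 512145383) (nat_lit 760) (nat_lit 10360402747) (nat_lit 76) (nat_lit 2466603727) (nat_lit 277) (nat_lit 5) (nat_lit 287) (nat_lit 5) (nat_lit 278) (nat_lit 5) (nat_lit 458) (nat_lit 415) (nat_lit 267)))) (XT.nd (nat_lit 156) (nat_lit 684) (nat_lit 0) (XT.nd (nat_lit 78) (nat_lit 760) (nat_lit 0) (XT.lf (nat_lit 0) (nat_lit 2374364852) (nat_lit 760) (nat_lit 3576779029) (nat_lit 76) (nat_lit 7537549208) (nat_lit 277) (nat_lit 5) (nat_lit 287) (nat_lit 5) (nat_lit 278) (nat_lit 5) (nat_lit 459) (nat_lit 415) (nat_lit 266)) (XT.lf (nat_lit 0) (nat_lit 3374554148) (nat_lit 760) (nat_lit 909715973) (nat_lit 836) (nat_lit 9356754095) (nat_lit 267) (nat_lit 5) (nat_lit 277) (nat_lit 5) (nat_lit 278) (nat_lit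 5) (nat_lit 460) (nat_lit 415) (nat_lit 265))) (XT.nd (nat_lit 78) (nat_lit 684) (nat_lit 0) (XT.lf (nat_lit 0) (nat_lit 6272687283) (nat_lit 836) (nat_lit 3322532549) (nat_lit 76) (nat_lit 4200383603) (nat_lit 267) (nat_lit 5) (nat_lit 278) (nat_lit 5) (nat_lit 268) (nat_lit 5) (nat_lit 461) (nat_lit 415) (nat_lit 264)) (XT.lf (nat_lit 0) (nat_lit 3791863236) (nat_lit 684) (nat_lit 4528547866) (nat_lit 760) (nat_lit 5632479963) (nat_lit 258) (nat_lit 5) (nat_lit 267) (nat_lit 5) (nat_lit 268) (nat_lit 5) (nat_lit 462) (nat_lit 415) (nat_lit 263))))) (XT.nd (nat_lit 234) (nat_lit 1216) (nat_lit 0) (XT.nd (nat_lit 78) (nat_lit 760) (nat_lit 0) (XT.lf (nat_lit 0) (nat_lit 10424711712) (nat_lit 760) (nat_lit 3035860034) (nat_lit 76) (nat_lit 652447699) (nat_lit 258) (nat_lit 5) (nat_lit 268) (nat_lit 5) (nat_lit 259) (nat_lit 5) (nat_lit 463) (nat_lit 415) (nat_lit 262)) (XT.nd (nat_lit 78) (nat_lit 76) (nat_lit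 0) (XT.lf (nat_lit 0) (nat_lit 4245474614) (nat_lit 684) (nat_lit 8372420633) (nat_lit 760) (nat_lit 1657526507) (nat_lit 249) (nat_lit 5) (nat_lit 258) (nat_lit 5) (nat_lit 259) (nat_lit 5) (nat_lit 464) (nat_lit 415) (nat_lit 261)) (XT.lf (nat_lit 0) (nat_lit 418247535) (nat_lit 760) (nat_lit 2741995263) (nat_lit 76) (nat_lit 11280586480) (nat_lit 248) (nat_lit 5) (nat_lit 258) (nat_lit 5) (nat_lit 249) (nat_lit 5) (nat_lit 465) (nat_lit 415) (nat_lit 260)))) (XT.nd (nat_lit 156) (nat_lit 608) (nat_lit 0) (XT.nd (nat_lit 78) (nat_lit 0) (nat_lit 0) (XT.lf (nat_lit 0) (nat_lit 2547854300) (nat_lit 684) (nat_lit 9892267995) (nat_lit 76) (nat_lit 2168520178) (nat_lit 240) (nat_lit 5) (nat_lit 249) (nat_lit 5) (nat_lit 241) (nat_lit 5) (nat_lit 466) (nat_lit 415) (nat_lit 259)) (XT.lf (nat_lit 0) (nat_lit 4749131959) (nat_lit 684) (nat_lit 2451400448) (nat_lit 76) (nat_lit 7578704693) (nat_lit 240) (nat_lit 5)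 (nat_lit 249) (nat_lit 5) (nat_lit 241) (nat_lit 5) (nat_lit 467) (nat_lit 415) (nat_lit 258))) (XT.nd (nat_lit 78) (nat_lit 0) (nat_lit 0) (XT.lf (nat_lit 0) (nat_lit 5194662415) (nat_lit 608) (nat_lit 1823331234) (nat_lit 684) (nat_lit 7934785410) (nat_lit 232) (nat_lit 5) (nat_lit 240) (nat_lit 5) (nat_lit 241) (nat_lit 5) (nat_lit 468) (nat_lit 415) (nat_lit 257)) (XT.lf (nat_lit 0) (nat_lit 9362508337) (nat_lit 684) (nat_lit 2138338677) (nat_lit 76) (nat_lit 3628345809) (nat_lit 232) (nat_lit 5) (nat_lit 241) (nat_lit 5) (nat_lit 233) (nat_lit 5) (nat_lit 469) (nat_lit 415) (nat_lit 256)))))) (XT.nd (nat_lit 546) (nat_lit 1596) (nat_lit 0) (XT.nd (nat_lit 234) (nat_lit 1064) (nat_lit 0) (XT.nd (nat_lit 78) (nat_lit 684) (nat_lit 0) (XT.lf (nat_lit 0) (nat_lit 5684677664) (nat_lit 608) (nat_lit 6108360868) (nat_lit 684) (nat_lit 3515320180) (nat_lit 224) (nat_lit 5) (nat_lit 232) (nat_lit 5) (nat_lit 233)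 (nat_lit 5) (nat_lit 470) (nat_lit 415) (nat_lit 255)) (XT.nd (nat_lit 78) (nat_lit 684) (nat_lit 0) (XT.lf (nat_lit 0) (nat_lit 13681578928) (nat_lit 608) (nat_lit 595209499) (nat_lit 684) (nat_lit 1214233539) (nat_lit 224) (nat_lit 5) (nat_lit 232) (nat_lit 5) (nat_lit 233) (nat_lit 5) (nat_lit 471) (nat_lit 415) (nat_lit 254)) (XT.lf (nat_lit 0) (nat_lit 1181758749) (nat_lit 684) (nat_lit 9485648865) (nat_lit 76) (nat_lit 5008514915) (nat_lit 215) (nat_lit 5) (nat_lit 224) (nat_lit 5) (nat_lit 216) (nat_lit 5) (nat_lit 472) (nat_lit 415) (nat_lit 253)))) (XT.nd (nat_lit 156) (nat_lit 532) (nat_lit 0) (XT.nd (nat_lit 78) (nat_lit 532) (nat_lit 0) (XT.lf (nat_lit 0) (nat_lit 3616075809) (nat_lit 684) (nat_lit 1513406066) (nat_lit 76) (nat_lit 10734751306) (nat_lit 215) (nat_lit 5) (nat_lit 224) (nat_lit 5) (nat_lit 216) (nat_lit 5) (nat_lit 473) (nat_lit 415) (nat_lit 252)) (XT.lf (nat_lit 0) (nat_lit 6136862012)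 (nat_lit 608) (nat_lit 9364544088) (nat_lit 76) (nat_lit 554154043) (nat_lit 208) (nat_lit 5) (nat_lit 216) (nat_lit 5) (nat_lit 209) (nat_lit 5) (nat_lit 474) (nat_lit 415) (nat_lit 251))) (XT.nd (nat_lit 78) (nat_lit 532) (nat_lit 0) (XT.lf (nat_lit 0) (nat_lit 8743023808) (nat_lit 608) (nat_lit 1215958175) (nat_lit 76) (nat_lit 6291038108) (nat_lit 208) (nat_lit 5) (nat_lit 216) (nat_lit 5) (nat_lit 209) (nat_lit 5) (nat_lit 475) (nat_lit 415) (nat_lit 250)) (XT.lf (nat_lit 0) (nat_lit 7178520030) (nat_lit 532) (nat_lit 4260344347) (nat_lit 608) (nat_lit 5008759280) (nat_lit 201) (nat_lit 5) (nat_lit 208) (nat_lit 5) (nat_lit 209) (nat_lit 5) (nat_lit 476) (nat_lit 415) (nat_lit 249))))) (XT.nd (nat_lit 234) (nat_lit 988) (nat_lit 0) (XT.nd (nat_lit 78) (nat_lit 608) (nat_lit 0) (XT.lf (nat_lit 0) (nat_lit 14197952438) (nat_lit 608) (nat_lit 913101231) (nat_lit 76) (nat_lit 1537944434) (nat_lit 201) (nat_lit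 5) (nat_lit 209) (nat_lit 5) (nat_lit 202) (nat_lit 5) (nat_lit 477) (nat_lit 415) (nat_lit 248)) (XT.nd (nat_lit 78) (nat_lit 0) (nat_lit 0) (XT.lf (nat_lit 0) (nat_lit 225441393) (nat_lit 608) (nat_lit 9183187263) (nat_lit 76) (nat_lit 7444362320) (nat_lit 193) (nat_lit 5) (nat_lit 201) (nat_lit 5) (nat_lit 194) (nat_lit 5) (nat_lit 478) (nat_lit 415) (nat_lit 247)) (XT.lf (nat_lit 0) (nat_lit 2920089643) (nat_lit 608) (nat_lit 651619233) (nat_lit 76) (nat_lit 13489086894) (nat_lit 193) (nat_lit 5) (nat_lit 201) (nat_lit 5) (nat_lit 194) (nat_lit 5) (nat_lit 479) (nat_lit 415) (nat_lit 246)))) (XT.nd (nat_lit 156) (nat_lit 456) (nat_lit 0) (XT.nd (nat_lit 78) (nat_lit 0) (nat_lit 0) (XT.lf (nat_lit 0) (nat_lit 5728747299) (nat_lit 608) (nat_lit 9141183541) (nat_lit 76) (nat_lit 2401628499) (nat_lit 186) (nat_lit 5) (nat_lit 194) (nat_lit 5) (nat_lit 187) (nat_lit 5) (nat_lit 480) (nat_lit 415) (nat_lit 245))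 (XT.lf (nat_lit 0) (nat_lit 8613139504) (nat_lit 608) (nat_lit 424307770) (nat_lit 76) (nat_lit 8448704591) (nat_lit 186) (nat_lit 5) (nat_lit 194) (nat_lit 5) (nat_lit 187) (nat_lit 5) (nat_lit 481) (nat_lit 415) (nat_lit 244))) (XT.nd (nat_lit 78) (nat_lit 0) (nat_lit 0) (XT.lf (nat_lit 0) (nat_lit 8568480735) (nat_lit 456) (nat_lit 3034043652) (nat_lit 532) (nat_lit 6101570572) (nat_lit 180) (nat_lit 5) (nat_lit 186) (nat_lit 5) (nat_lit 187) (nat_lit 5) (nat_lit 482) (nat_lit 415) (nat_lit 243)) (XT.lf (nat_lit 0) (nat_lit 14666371744) (nat_lit 532) (nat_lit 210424893) (nat_lit 76) (nat_lit 3049311503) (nat_lit 180) (nat_lit 5) (nat_lit 187) (nat_lit 5) (nat_lit 181) (nat_lit 5) (nat_lit 483) (nat_lit 415) (nat_lit 242))))))))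
noncomputable def xc183 : XT := (XT.nd (nat_lit 2184) (nat_lit 1596) (nat_lit 0) (XT.nd (nat_lit 1092) (nat_lit 2584) (nat_lit 0) (XT.nd (nat_lit 546) (nat_lit 1444) (nat_lit 0) (XT.nd (nat_lit 234) (nat_lit 912) (nat_lit 0) (XT.nd (nat_lit 78) (nat_lit 532) (nat_lit 0) (XT.lf (nat_lit 0) (nat_lit 8980282588) (nat_lit 532) (nat_lit 8881524153) (nat_lit 608) (nat_lit 289353258) (nat_lit 173) (nat_lit 5) (nat_lit 180) (nat_lit 5) (nat_lit 181) (nat_lit 5) (nat_lit 484) (nat_lit 415) (nat_lit 241)) (XT.nd (nat_lit 78) (nat_lit 456) (nat_lit 0) (XT.lf (nat_lit 0) (nat_lit 2697861683) (nat_lit 608) (nat_lit 51542119) (nat_lit 76) (nat_lit 15631090377) (nat_lit 172) (nat_lit 5) (nat_lit 180) (nat_lit 5) (nat_lit 173) (nat_lit 5) (nat_lit 485) (nat_lit 415) (nat_lit 240)) (XT.lf (nat_lit 0) (nat_lit 5816984253) (nat_lit 532) (nat_lit 9275954224) (nat_lit 76) (nat_lit 3519921920) (nat_lit 166) (nat_lit 5) (nat_lit 173)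 (nat_lit 5) (nat_lit 167) (nat_lit 5) (nat_lit 486) (nat_lit 415) (nat_lit 239)))) (XT.nd (nat_lit 156) (nat_lit 456) (nat_lit 0) (XT.nd (nat_lit 78) (nat_lit 0) (nat_lit 0) (XT.lf (nat_lit 0) (nat_lit 35635888) (nat_lit 456) (nat_lit 8973813017) (nat_lit 532) (nat_lit 9840210117) (nat_lit 160) (nat_lit 5) (nat_lit 166) (nat_lit 5) (nat_lit 167) (nat_lit 5) (nat_lit 487) (nat_lit 415) (nat_lit 238)) (XT.lf (nat_lit 0) (nat_lit 9648689085) (nat_lit 456) (nat_lit 2671577690) (nat_lit 532) (nat_lit 6769840957) (nat_lit 160) (nat_lit 5) (nat_lit 166) (nat_lit 5) (nat_lit 167) (nat_lit 5) (nat_lit 488) (nat_lit 415) (nat_lit 237))) (XT.nd (nat_lit 78) (nat_lit 0) (nat_lit 0) (XT.lf (nat_lit 0) (nat_lit 84921653) (nat_lit 456) (nat_lit 15629713335) (nat_lit 532) (nat_lit 3620387859) (nat_lit 154) (nat_lit 5) (nat_lit 160) (nat_lit 5) (nat_lit 161) (nat_lit 5) (nat_lit 489) (nat_lit 415) (nat_lit 236)) (XT.lf (nat_lit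 0) (nat_lit 9901471626) (nat_lit 456) (nat_lit 9348825462) (nat_lit 532) (nat_lit 333075075) (nat_lit 154) (nat_lit 5) (nat_lit 160) (nat_lit 5) (nat_lit 161) (nat_lit 5) (nat_lit 490) (nat_lit 415) (nat_lit 235))))) (XT.nd (nat_lit 234) (nat_lit 912) (nat_lit 0) (XT.nd (nat_lit 78) (nat_lit 0) (nat_lit 0) (XT.lf (nat_lit 0) (nat_lit 48421801) (nat_lit 456) (nat_lit 2924837196) (nat_lit 532) (nat_lit 16863183533) (nat_lit 147) (nat_lit 5) (nat_lit 153) (nat_lit 5) (nat_lit 154) (nat_lit 5) (nat_lit 491) (nat_lit 415) (nat_lit 234)) (XT.nd (nat_lit 78) (nat_lit 0) (nat_lit 0) (XT.lf (nat_lit 0) (nat_lit 6422847206) (nat_lit 532) (nat_lit 10025207072) (nat_lit 76) (nat_lit 3644848043) (nat_lit 147) (nat_lit 5) (nat_lit 154) (nat_lit 5) (nat_lit 148) (nat_lit 5) (nat_lit 492) (nat_lit 415) (nat_lit 233)) (XT.lf (nat_lit 0) (nat_lit 9953570744) (nat_lit 532) (nat_lit 96638716) (nat_lit 76) (nat_lit 10304042700) (nat_lit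 147) (nat_lit 5) (nat_lit 154) (nat_lit 5) (nat_lit 148) (nat_lit 5) (nat_lit 493) (nat_lit 415) (nat_lit 232)))) (XT.nd (nat_lit 156) (nat_lit 532) (nat_lit 0) (XT.nd (nat_lit 78) (nat_lit 0) (nat_lit 0) (XT.lf (nat_lit 0) (nat_lit 10153735950) (nat_lit 380) (nat_lit 3460013062) (nat_lit 456) (nat_lit 7005906827) (nat_lit 142) (nat_lit 5) (nat_lit 147) (nat_lit 5) (nat_lit 148) (nat_lit 5) (nat_lit 494) (nat_lit 415) (nat_lit 231)) (XT.lf (nat_lit 0) (nat_lit 17361934384) (nat_lit 456) (nat_lit 311102822) (nat_lit 76) (nat_lit 3217037893) (nat_lit 142) (nat_lit 5) (nat_lit 148) (nat_lit 5) (nat_lit 143) (nat_lit 5) (nat_lit 495) (nat_lit 415) (nat_lit 230))) (XT.nd (nat_lit 78) (nat_lit 0) (nat_lit 0) (XT.lf (nat_lit 0) (nat_lit 101373916) (nat_lit 532) (nat_lit 11017753420) (nat_lit 76) (nat_lit 10045127462) (nat_lit 135) (nat_lit 5) (nat_lit 142) (nat_lit 5) (nat_lit 136) (nat_lit 5) (nat_lit 496) (nat_lit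 415) (nat_lit 229)) (XT.lf (nat_lit 0) (nat_lit 3751515621) (nat_lit 532) (nat_lit 659607818) (nat_lit 76) (nat_lit 17032426030) (nat_lit 135) (nat_lit 5) (nat_lit 142) (nat_lit 5) (nat_lit 136) (nat_lit 5) (nat_lit 497) (nat_lit 415) (nat_lit 228)))))) (XT.nd (nat_lit 546) (nat_lit 1064) (nat_lit 0) (XT.nd (nat_lit 234) (nat_lit 760) (nat_lit 0) (XT.nd (nat_lit 78) (nat_lit 380) (nat_lit 0) (XT.lf (nat_lit 0) (nat_lit 7549229690) (nat_lit 456) (nat_lit 11715882457) (nat_lit 76) (nat_lit 2461829801) (nat_lit 130) (nat_lit 5) (nat_lit 136) (nat_lit 5) (nat_lit 131) (nat_lit 5) (nat_lit 498) (nat_lit 415) (nat_lit 227)) (XT.nd (nat_lit 78) (nat_lit 380) (nat_lit 0) (XT.lf (nat_lit 0) (nat_lit 11449884973) (nat_lit 456) (nat_lit 1150763257) (nat_lit 76) (nat_lit 9414817550) (nat_lit 130) (nat_lit 5) (nat_lit 136) (nat_lit 5) (nat_lit 131) (nat_lit 5) (nat_lit 499) (nat_lit 415) (nat_lit 226)) (XT.lf (nat_lit 0)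 (nat_lit 9743953240) (nat_lit 380) (nat_lit 5741313902) (nat_lit 456) (nat_lit 6823361847) (nat_lit 125) (nat_lit 5) (nat_lit 130) (nat_lit 5) (nat_lit 131) (nat_lit 5) (nat_lit 500) (nat_lit 415) (nat_lit 225)))) (XT.nd (nat_lit 156) (nat_lit 380) (nat_lit 0) (XT.nd (nat_lit 78) (nat_lit 380) (nat_lit 0) (XT.lf (nat_lit 0) (nat_lit 19610777533) (nat_lit 456) (nat_lit 1753088729) (nat_lit 76) (nat_lit 1243603903) (nat_lit 125) (nat_lit 5) (nat_lit 131) (nat_lit 5) (nat_lit 126) (nat_lit 5) (nat_lit 501) (nat_lit 415) (nat_lit 224)) (XT.lf (nat_lit 0) (nat_lit 987582760) (nat_lit 380) (nat_lit 13566969408) (nat_lit 76) (nat_lit 8355762041) (nat_lit 120) (nat_lit 5) (nat_lit 125) (nat_lit 5) (nat_lit 121) (nat_lit 5) (nat_lit 502) (nat_lit 415) (nat_lit 223))) (XT.nd (nat_lit 78) (nat_lit 380) (nat_lit 0) (XT.lf (nat_lit 0) (nat_lit 5016942448) (nat_lit 380) (nat_lit 2562821263) (nat_lit 76) (nat_lit 15638947704)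 (nat_lit 120) (nat_lit 5) (nat_lit 125) (nat_lit 5) (nat_lit 121) (nat_lit 5) (nat_lit 503) (nat_lit 415) (nat_lit 222)) (XT.lf (nat_lit 0) (nat_lit 8767188746) (nat_lit 380) (nat_lit 410392535) (nat_lit 456) (nat_lit 14354684324) (nat_lit 115) (nat_lit 5) (nat_lit 120) (nat_lit 5) (nat_lit 121) (nat_lit 5) (nat_lit 504) (nat_lit 415) (nat_lit 221))))) (XT.nd (nat_lit 234) (nat_lit 760) (nat_lit 0) (XT.nd (nat_lit 78) (nat_lit 304) (nat_lit 0) (XT.lf (nat_lit 0) (nat_lit 13477372424) (nat_lit 456) (nat_lit 3547387529) (nat_lit 76) (nat_lit 6826214955) (nat_lit 115) (nat_lit 5) (nat_lit 121) (nat_lit 5) (nat_lit 116) (nat_lit 5) (nat_lit 505) (nat_lit 415) (nat_lit 220)) (XT.nd (nat_lit 78) (nat_lit 0) (nat_lit 0) (XT.lf (nat_lit 0) (nat_lit 7987627664) (nat_lit 304) (nat_lit 9924044868) (nat_lit 380) (nat_lit 6263418368) (nat_lit 111) (nat_lit 5) (nat_lit 115) (nat_lit 5) (nat_lit 116) (nat_lit 5) (nat_lit 506)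 (nat_lit 415) (nat_lit 219)) (XT.lf (nat_lit 0) (nat_lit 19792419335) (nat_lit 304) (nat_lit 2660038918) (nat_lit 380) (nat_lit 2052877678) (nat_lit 111) (nat_lit 5) (nat_lit 115) (nat_lit 5) (nat_lit 116) (nat_lit 5) (nat_lit 507) (nat_lit 415) (nat_lit 218)))) (XT.nd (nat_lit 156) (nat_lit 304) (nat_lit 0) (XT.nd (nat_lit 78) (nat_lit 0) (nat_lit 0) (XT.lf (nat_lit 0) (nat_lit 2283597814) (nat_lit 456) (nat_lit 17812067677) (nat_lit 76) (nat_lit 4744809333) (nat_lit 105) (nat_lit 5) (nat_lit 111) (nat_lit 5) (nat_lit 106) (nat_lit 5) (nat_lit 508) (nat_lit 415) (nat_lit 217)) (XT.lf (nat_lit 0) (nat_lit 6722902514) (nat_lit 456) (nat_lit 6153618864) (nat_lit 76) (nat_lit 12304654526) (nat_lit 105) (nat_lit 5) (nat_lit 111) (nat_lit 5) (nat_lit 106) (nat_lit 5) (nat_lit 509) (nat_lit 415) (nat_lit 216))) (XT.nd (nat_lit 78) (nat_lit 0) (nat_lit 0) (XT.lf (nat_lit 0) (nat_lit 5805356561) (nat_lit 304) (nat_lit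 5477554742) (nat_lit 380) (nat_lit 14245143848) (nat_lit 101) (nat_lit 5) (nat_lit 105) (nat_lit 5) (nat_lit 106) (nat_lit 5) (nat_lit 510) (nat_lit 415) (nat_lit 215)) (XT.lf (nat_lit 0) (nat_lit 15983386465) (nat_lit 380) (nat_lit 7816650202) (nat_lit 76) (nat_lit 2080852447) (nat_lit 101) (nat_lit 5) (nat_lit 106) (nat_lit 5) (nat_lit 102) (nat_lit 5) (nat_lit 511) (nat_lit 415) (nat_lit 214))))))) (XT.nd (nat_lit 52104) (nat_lit 0) (nat_lit 26372) (XT.nd (nat_lit 546) (nat_lit 608) (nat_lit 0) (XT.nd (nat_lit 234) (nat_lit 304) (nat_lit 0) (XT.nd (nat_lit 78) (nat_lit 380) (nat_lit 0) (XT.lf (nat_lit 0) (nat_lit 4339510168) (nat_lit 304) (nat_lit 16497186474) (nat_lit 380) (nat_lit 5402909013) (nat_lit 97) (nat_lit 5) (nat_lit 101) (nat_lit 5) (nat_lit 102) (nat_lit 5) (nat_lit 512) (nat_lit 415) (nat_lit 213)) (XT.nd (nat_lit 78) (nat_lit 380) (nat_lit 0) (XT.lf (nat_lit 0) (nat_lit 16836160143) (nat_lit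 304) (nat_lit 8997796566) (nat_lit 380) (nat_lit 770604504) (nat_lit 97) (nat_lit 5) (nat_lit 101) (nat_lit 5) (nat_lit 102) (nat_lit 5) (nat_lit 513) (nat_lit 415) (nat_lit 212)) (XT.lf (nat_lit 0) (nat_lit 2605933009) (nat_lit 304) (nat_lit 1307971190) (nat_lit 380) (nat_lit 23062172065) (nat_lit 92) (nat_lit 5) (nat_lit 96) (nat_lit 5) (nat_lit 97) (nat_lit 5) (nat_lit 514) (nat_lit 415) (nat_lit 211)))) (XT.nd (nat_lit 156) (nat_lit 0) (nat_lit 0) (XT.nd (nat_lit 78) (nat_lit 304) (nat_lit 0) (XT.lf (nat_lit 0) (nat_lit 8784747534) (nat_lit 380) (nat_lit 12050047882) (nat_lit 76) (nat_lit 6518067295) (nat_lit 92) (nat_lit 5) (nat_lit 97) (nat_lit 5) (nat_lit 93) (nat_lit 5) (nat_lit 515) (nat_lit 415) (nat_lit 210)) (XT.lf (nat_lit 0) (nat_lit 506058632) (nat_lit 304) (nat_lit 13253538202) (nat_lit 380) (nat_lit 13977458451) (nat_lit 88) (nat_lit 5) (nat_lit 92) (nat_lit 5) (nat_lit 93) (nat_lit 5) (nat_lit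 516) (nat_lit 415) (nat_lit 209))) (XT.nd (nat_lit 78) (nat_lit 0) (nat_lit 0) (XT.lf (nat_lit 0) (nat_lit 13468318130) (nat_lit 304) (nat_lit 5441179638) (nat_lit 380) (nat_lit 9217924988) (nat_lit 88) (nat_lit 5) (nat_lit 92) (nat_lit 5) (nat_lit 93) (nat_lit 5) (nat_lit 517) (nat_lit 415) (nat_lit 208)) (XT.lf (nat_lit 0) (nat_lit 24173583883) (nat_lit 380) (nat_lit 1860419297) (nat_lit 76) (nat_lit 2491372749) (nat_lit 88) (nat_lit 5) (nat_lit 93) (nat_lit 5) (nat_lit 89) (nat_lit 5) (nat_lit 518) (nat_lit 415) (nat_lit 207))))) (XT.nd (nat_lit 234) (nat_lit 0) (nat_lit 0) (XT.nd (nat_lit 78) (nat_lit 304) (nat_lit 0) (XT.lf (nat_lit 0) (nat_lit 708600254) (nat_lit 304) (nat_lit 17635555179) (nat_lit 76) (nat_lit 10584956145) (nat_lit 84) (nat_lit 5) (nat_lit 88) (nat_lit 5) (nat_lit 85) (nat_lit 5) (nat_lit 519) (nat_lit 415) (nat_lit 206)) (XT.nd (nat_lit 78) (nat_lit 304) (nat_lit 0) (XT.lf (nat_lit 0)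 (nat_lit 5819444030) (nat_lit 304) (nat_lit 4641834743) (nat_lit 76) (nat_lit 18878919552) (nat_lit 84) (nat_lit 5) (nat_lit 88) (nat_lit 5) (nat_lit 85) (nat_lit 5) (nat_lit 520) (nat_lit 415) (nat_lit 205)) (XT.lf (nat_lit 0) (nat_lit 8718169004) (nat_lit 304) (nat_lit 2365932544) (nat_lit 380) (nat_lit 18674375259) (nat_lit 80) (nat_lit 5) (nat_lit 84) (nat_lit 5) (nat_lit 85) (nat_lit 5) (nat_lit 521) (nat_lit 415) (nat_lit 204)))) (XT.nd (nat_lit 51168) (nat_lit 0) (nat_lit 27740) (XT.nd (nat_lit 51090) (nat_lit 0) (nat_lit 27740) (XT.lf (nat_lit 0) (nat_lit 16518678821) (nat_lit 380) (nat_lit 7822621825) (nat_lit 76) (nat_lit 5842529579) (nat_lit 80) (nat_lit 5) (nat_lit 85) (nat_lit 5) (nat_lit 81) (nat_lit 5) (nat_lit 522) (nat_lit 415) (nat_lit 203)) (XT.lf (nat_lit 0) (nat_lit 606710471) (nat_lit 0) (nat_lit 606710471) (nat_lit 1444) (nat_lit 3268310942) (nat_lit 445) (nat_lit 5) (nat_lit 445) (nat_lit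 3) (nat_lit 464) (nat_lit 3) (nat_lit 416) (nat_lit 416) (nat_lit 308))) (XT.nd (nat_lit 78) (nat_lit 0) (nat_lit 0) (XT.lf (nat_lit 0) (nat_lit 3336991057) (nat_lit 1444) (nat_lit 3661873975) (nat_lit 1520) (nat_lit 2035766867) (nat_lit 445) (nat_lit 5) (nat_lit 464) (nat_lit 3) (nat_lit 465) (nat_lit 5) (nat_lit 417) (nat_lit 416) (nat_lit 307)) (XT.lf (nat_lit 76) (nat_lit 494513504) (nat_lit 0) (nat_lit 3759264951) (nat_lit 1520) (nat_lit 4853695877) (nat_lit 446) (nat_lit 5) (nat_lit 445) (nat_lit 5) (nat_lit 465) (nat_lit 5) (nat_lit 418) (nat_lit 416) (nat_lit 306)))))) (XT.nd (nat_lit 546) (nat_lit 0) (nat_lit 76) (XT.nd (nat_lit 234) (nat_lit 1368) (nat_lit 0) (XT.nd (nat_lit 78) (nat_lit 0) (nat_lit 76) (XT.lf (nat_lit 76) (nat_lit 4771750827) (nat_lit 0) (nat_lit 419282425) (nat_lit 1520) (nat_lit 3990716986) (nat_lit 446) (nat_lit 5) (nat_lit 445) (nat_lit 5) (nat_lit 465) (nat_lit 5) (nat_lit 419)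 (nat_lit 416) (nat_lit 305)) (XT.nd (nat_lit 78) (nat_lit 0) (nat_lit 0) (XT.lf (nat_lit 0) (nat_lit 6144495556) (nat_lit 1444) (nat_lit 154583439) (nat_lit 1520) (nat_lit 2958502300) (nat_lit 446) (nat_lit 5) (nat_lit 465) (nat_lit 5) (nat_lit 466) (nat_lit 5) (nat_lit 420) (nat_lit 416) (nat_lit 304)) (XT.lf (nat_lit 76) (nat_lit 4226628669) (nat_lit 0) (nat_lit 2899112884) (nat_lit 1520) (nat_lit 2209031642) (nat_lit 447) (nat_lit 5) (nat_lit 446) (nat_lit 5) (nat_lit 466) (nat_lit 5) (nat_lit 421) (nat_lit 416) (nat_lit 303)))) (XT.nd (nat_lit 156) (nat_lit 1520) (nat_lit 0) (XT.nd (nat_lit 78) (nat_lit 0) (nat_lit 0) (XT.lf (nat_lit 0) (nat_lit 8110250356) (nat_lit 1444) (nat_lit 732019252) (nat_lit 1520) (nat_lit 571584715) (nat_lit 447) (nat_lit 5) (nat_lit 466) (nat_lit 5) (nat_lit 467) (nat_lit 5) (nat_lit 422) (nat_lit 416) (nat_lit 302)) (XT.lf (nat_lit 76) (nat_lit 3749455587) (nat_lit 0) (nat_lit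 5387851154) (nat_lit 1520) (nat_lit 356770976) (nat_lit 448) (nat_lit 5) (nat_lit 447) (nat_lit 5) (nat_lit 467) (nat_lit 5) (nat_lit 423) (nat_lit 416) (nat_lit 301))) (XT.nd (nat_lit 78) (nat_lit 0) (nat_lit 76) (XT.lf (nat_lit 0) (nat_lit 585445554) (nat_lit 1520) (nat_lit 1261669309) (nat_lit 1596) (nat_lit 7729040057) (nat_lit 427) (nat_lit 5) (nat_lit 447) (nat_lit 5) (nat_lit 448) (nat_lit 5) (nat_lit 424) (nat_lit 416) (nat_lit 300)) (XT.lf (nat_lit 0) (nat_lit 1554979453) (nat_lit 1520) (nat_lit 6331206282) (nat_lit 1596) (nat_lit 1773392528) (nat_lit 428) (nat_lit 5) (nat_lit 448) (nat_lit 5) (nat_lit 449) (nat_lit 5) (nat_lit 425) (nat_lit 416) (nat_lit 299))))) (XT.nd (nat_lit 312) (nat_lit 0) (nat_lit 152) (XT.nd (nat_lit 156) (nat_lit 0) (nat_lit 76) (XT.nd (nat_lit 78) (nat_lit 0) (nat_lit 0) (XT.lf (nat_lit 0) (nat_lit 2544917026) (nat_lit 1520) (nat_lit 1741971682) (nat_lit 1596) (nat_lit 5457777542)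 (nat_lit 428) (nat_lit 5) (nat_lit 448) (nat_lit 5) (nat_lit 449) (nat_lit 5) (nat_lit 426) (nat_lit 416) (nat_lit 298)) (XT.lf (nat_lit 76) (nat_lit 2965689554) (nat_lit 0) (nat_lit 588864033) (nat_lit 1596) (nat_lit 6276920520) (nat_lit 429) (nat_lit 5) (nat_lit 428) (nat_lit 5) (nat_lit 449) (nat_lit 5) (nat_lit 427) (nat_lit 416) (nat_lit 297))) (XT.nd (nat_lit 78) (nat_lit 0) (nat_lit 0) (XT.lf (nat_lit 0) (nat_lit 4597806944) (nat_lit 1520) (nat_lit 2162026336) (nat_lit 1596) (nat_lit 3159932159) (nat_lit 429) (nat_lit 5) (nat_lit 449) (nat_lit 5) (nat_lit 450) (nat_lit 5) (nat_lit 428) (nat_lit 416) (nat_lit 296)) (XT.lf (nat_lit 76) (nat_lit 2654352378) (nat_lit 0) (nat_lit 3010069475) (nat_lit 1596) (nat_lit 4345366304) (nat_lit 430) (nat_lit 5) (nat_lit 429) (nat_lit 5) (nat_lit 450) (nat_lit 5) (nat_lit 429) (nat_lit 416) (nat_lit 295)))) (XT.nd (nat_lit 156) (nat_lit 0) (nat_lit 0) (XT.nd (nat_lit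 78) (nat_lit 0) (nat_lit 0) (XT.lf (nat_lit 0) (nat_lit 6753950938) (nat_lit 1520) (nat_lit 2523048692) (nat_lit 1596) (nat_lit 824595245) (nat_lit 430) (nat_lit 5) (nat_lit 450) (nat_lit 5) (nat_lit 451) (nat_lit 5) (nat_lit 430) (nat_lit 416) (nat_lit 294)) (XT.lf (nat_lit 76) (nat_lit 2405137430) (nat_lit 0) (nat_lit 5477730174) (nat_lit 1596) (nat_lit 2312033073) (nat_lit 431) (nat_lit 5) (nat_lit 430) (nat_lit 5) (nat_lit 451) (nat_lit 5) (nat_lit 431) (nat_lit 416) (nat_lit 293))) (XT.nd (nat_lit 78) (nat_lit 0) (nat_lit 76) (XT.lf (nat_lit 76) (nat_lit 7453711545) (nat_lit 0) (nat_lit 1579900721) (nat_lit 1596) (nat_lit 1256489930) (nat_lit 431) (nat_lit 5) (nat_lit 430) (nat_lit 5) (nat_lit 451) (nat_lit 5) (nat_lit 432) (nat_lit 416) (nat_lit 292)) (XT.lf (nat_lit 76) (nat_lit 2217042211) (nat_lit 0) (nat_lit 8002978938) (nat_lit 1596) (nat_lit 166947920) (nat_lit 432) (nat_lit 5) (nat_lit 431) (nat_lit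 5) (nat_lit 452) (nat_lit 5) (nat_lit 433) (nat_lit 416) (nat_lit 291))))))))
noncomputable def xc184 : XT := (XT.nd (nat_lit 2184) (nat_lit 8132) (nat_lit 0) (XT.nd (nat_lit 1092) (nat_lit 5624) (nat_lit 0) (XT.nd (nat_lit 546) (nat_lit 5244) (nat_lit 0) (XT.nd (nat_lit 234) (nat_lit 0) (nat_lit 76) (XT.nd (nat_lit 78) (nat_lit 0) (nat_lit 76) (XT.lf (nat_lit 0) (nat_lit 944452651) (nat_lit 1596) (nat_lit 3104809310) (nat_lit 1672) (nat_lit 6436153370) (nat_lit 410) (nat_lit 5) (nat_lit 431) (nat_lit 5) (nat_lit 432) (nat_lit 5) (nat_lit 434) (nat_lit 416) (nat_lit 290)) (XT.nd (nat_lit 78) (nat_lit 0) (nat_lit 0) (XT.lf (nat_lit 0) (nat_lit 2072507656) (nat_lit 1596) (nat_lit 8510623642) (nat_lit 1672) (nat_lit 2757397) (nat_lit 411) (nat_lit 5) (nat_lit 432) (nat_lit 5) (nat_lit 433) (nat_lit 5) (nat_lit 435) (nat_lit 416) (nat_lit 289)) (XT.lf (nat_lit 0) (nat_lit 3254357708) (nat_lit 1596) (nat_lit 3326611302)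 (nat_lit 1672) (nat_lit 4106791058) (nat_lit 411) (nat_lit 5) (nat_lit 432) (nat_lit 5) (nat_lit 433) (nat_lit 5) (nat_lit 436) (nat_lit 416) (nat_lit 288)))) (XT.nd (nat_lit 156) (nat_lit 0) (nat_lit 76) (XT.nd (nat_lit 78) (nat_lit 0) (nat_lit 76) (XT.lf (nat_lit 76) (nat_lit 1974497167) (nat_lit 0) (nat_lit 2481936709) (nat_lit 1672) (nat_lit 6335316170) (nat_lit 412) (nat_lit 5) (nat_lit 411) (nat_lit 5) (nat_lit 433) (nat_lit 5) (nat_lit 437) (nat_lit 416) (nat_lit 287)) (XT.lf (nat_lit 0) (nat_lit 5700084711) (nat_lit 1596) (nat_lit 3494585628) (nat_lit 1672) (nat_lit 1702811527) (nat_lit 412) (nat_lit 5) (nat_lit 433) (nat_lit 5) (nat_lit 434) (nat_lit 5) (nat_lit 438) (nat_lit 416) (nat_lit 286))) (XT.nd (nat_lit 78) (nat_lit 0) (nat_lit 0) (XT.lf (nat_lit 76) (nat_lit 1930918921) (nat_lit 0) (nat_lit 5051006705) (nat_lit 1672) (nat_lit 4023148812) (nat_lit 413) (nat_lit 5) (nat_lit 412) (nat_lit 5) (nat_lit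 434) (nat_lit 5) (nat_lit 439) (nat_lit 416) (nat_lit 285)) (XT.lf (nat_lit 76) (nat_lit 7499882125) (nat_lit 0) (nat_lit 797541677) (nat_lit 1672) (nat_lit 2817246865) (nat_lit 413) (nat_lit 5) (nat_lit 412) (nat_lit 5) (nat_lit 434) (nat_lit 5) (nat_lit 440) (nat_lit 416) (nat_lit 284))))) (XT.nd (nat_lit 234) (nat_lit 2128) (nat_lit 0) (XT.nd (nat_lit 78) (nat_lit 1748) (nat_lit 0) (XT.lf (nat_lit 0) (nat_lit 1943756429) (nat_lit 1596) (nat_lit 7715977774) (nat_lit 1672) (nat_lit 1566326546) (nat_lit 392) (nat_lit 5) (nat_lit 413) (nat_lit 5) (nat_lit 414) (nat_lit 5) (nat_lit 441) (nat_lit 416) (nat_lit 283)) (XT.nd (nat_lit 78) (nat_lit 1748) (nat_lit 0) (XT.lf (nat_lit 0) (nat_lit 7644690518) (nat_lit 1596) (nat_lit 3419211589) (nat_lit 1672) (nat_lit 275496038) (nat_lit 392) (nat_lit 5) (nat_lit 413) (nat_lit 5) (nat_lit 414) (nat_lit 5) (nat_lit 442) (nat_lit 416) (nat_lit 282)) (XT.lf (nat_lit 0) (nat_lit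 1032251693) (nat_lit 1748) (nat_lit 9449438290) (nat_lit 76) (nat_lit 973093281) (nat_lit 369) (nat_lit 5) (nat_lit 392) (nat_lit 5) (nat_lit 370) (nat_lit 5) (nat_lit 443) (nat_lit 416) (nat_lit 281)))) (XT.nd (nat_lit 156) (nat_lit 836) (nat_lit 0) (XT.nd (nat_lit 78) (nat_lit 1292) (nat_lit 0) (XT.lf (nat_lit 0) (nat_lit 2395584185) (nat_lit 1748) (nat_lit 3739757383) (nat_lit 76) (nat_lit 5436446786) (nat_lit 369) (nat_lit 5) (nat_lit 392) (nat_lit 5) (nat_lit 370) (nat_lit 5) (nat_lit 444) (nat_lit 416) (nat_lit 280)) (XT.lf (nat_lit 0) (nat_lit 2099270956) (nat_lit 1292) (nat_lit 1686340109) (nat_lit 1368) (nat_lit 7905544770) (nat_lit 352) (nat_lit 5) (nat_lit 369) (nat_lit 5) (nat_lit 370) (nat_lit 5) (nat_lit 445) (nat_lit 416) (nat_lit 279))) (XT.nd (nat_lit 78) (nat_lit 836) (nat_lit 0) (XT.lf (nat_lit 0) (nat_lit 5233222758) (nat_lit 1368) (nat_lit 3737915282) (nat_lit 76) (nat_lit 2841187571) (nat_lit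 352) (nat_lit 5) (nat_lit 370) (nat_lit 5) (nat_lit 353) (nat_lit 5) (nat_lit 446) (nat_lit 416) (nat_lit 278)) (XT.lf (nat_lit 0) (nat_lit 2238978690) (nat_lit 836) (nat_lit 4482794695) (nat_lit 912) (nat_lit 5213916088) (nat_lit 341) (nat_lit 5) (nat_lit 352) (nat_lit 5) (nat_lit 353) (nat_lit 5) (nat_lit 447) (nat_lit 416) (nat_lit 277)))))) (XT.nd (nat_lit 546) (nat_lit 3040) (nat_lit 0) (XT.nd (nat_lit 234) (nat_lit 1748) (nat_lit 0) (XT.nd (nat_lit 78) (nat_lit 836) (nat_lit 0) (XT.lf (nat_lit 0) (nat_lit 8252442806) (nat_lit 912) (nat_lit 3688284454) (nat_lit 76) (nat_lit 120556617) (nat_lit 341) (nat_lit 5) (nat_lit 353) (nat_lit 5) (nat_lit 342) (nat_lit 5) (nat_lit 448) (nat_lit 416) (nat_lit 276)) (XT.nd (nat_lit 78) (nat_lit 0) (nat_lit 0) (XT.lf (nat_lit 0) (nat_lit 2430182049) (nat_lit 836) (nat_lit 7415753843) (nat_lit 912) (nat_lit 2342820090) (nat_lit 330) (nat_lit 5) (nat_lit 341) (nat_lit 5)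 (nat_lit 342) (nat_lit 5) (nat_lit 449) (nat_lit 416) (nat_lit 275)) (XT.lf (nat_lit 0) (nat_lit 8708781312) (nat_lit 836) (nat_lit 2774192890) (nat_lit 912) (nat_lit 835579641) (nat_lit 330) (nat_lit 5) (nat_lit 341) (nat_lit 5) (nat_lit 342) (nat_lit 5) (nat_lit 450) (nat_lit 416) (nat_lit 274)))) (XT.nd (nat_lit 156) (nat_lit 836) (nat_lit 0) (XT.nd (nat_lit 78) (nat_lit 0) (nat_lit 0) (XT.lf (nat_lit 0) (nat_lit 709968589) (nat_lit 912) (nat_lit 9783224129) (nat_lit 76) (nat_lit 1957325908) (nat_lit 318) (nat_lit 5) (nat_lit 330) (nat_lit 5) (nat_lit 319) (nat_lit 5) (nat_lit 451) (nat_lit 416) (nat_lit 273)) (XT.lf (nat_lit 0) (nat_lit 2305271739) (nat_lit 912) (nat_lit 3502231708) (nat_lit 76) (nat_lit 6776917401) (nat_lit 318) (nat_lit 5) (nat_lit 330) (nat_lit 5) (nat_lit 319) (nat_lit 5) (nat_lit 452) (nat_lit 416) (nat_lit 272))) (XT.nd (nat_lit 78) (nat_lit 0) (nat_lit 0) (XT.lf (nat_lit 0) (nat_lit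 2930698017) (nat_lit 836) (nat_lit 1008326535) (nat_lit 912) (nat_lit 8781854767) (nat_lit 307) (nat_lit 5) (nat_lit 318) (nat_lit 5) (nat_lit 319) (nat_lit 5) (nat_lit 453) (nat_lit 416) (nat_lit 271)) (XT.lf (nat_lit 0) (nat_lit 5642029782) (nat_lit 912) (nat_lit 3357524960) (nat_lit 76) (nat_lit 3859789566) (nat_lit 307) (nat_lit 5) (nat_lit 319) (nat_lit 5) (nat_lit 308) (nat_lit 5) (nat_lit 454) (nat_lit 416) (nat_lit 270))))) (XT.nd (nat_lit 234) (nat_lit 1520) (nat_lit 0) (XT.nd (nat_lit 78) (nat_lit 760) (nat_lit 0) (XT.lf (nat_lit 0) (nat_lit 3227379111) (nat_lit 760) (nat_lit 4167273436) (nat_lit 836) (nat_lit 5605623622) (nat_lit 297) (nat_lit 5) (nat_lit 307) (nat_lit 5) (nat_lit 308) (nat_lit 5) (nat_lit 455) (nat_lit 416) (nat_lit 269)) (XT.nd (nat_lit 78) (nat_lit 760) (nat_lit 0) (XT.lf (nat_lit 0) (nat_lit 9198036991) (nat_lit 836) (nat_lit 3171399576) (nat_lit 76) (nat_lit 774284468) (nat_lit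 297) (nat_lit 5) (nat_lit 308) (nat_lit 5) (nat_lit 298) (nat_lit 5) (nat_lit 456) (nat_lit 416) (nat_lit 268)) (XT.lf (nat_lit 0) (nat_lit 3569359922) (nat_lit 760) (nat_lit 7507219427) (nat_lit 836) (nat_lit 2212682027) (nat_lit 287) (nat_lit 5) (nat_lit 297) (nat_lit 5) (nat_lit 298) (nat_lit 5) (nat_lit 457) (nat_lit 416) (nat_lit 267)))) (XT.nd (nat_lit 156) (nat_lit 760) (nat_lit 0) (XT.nd (nat_lit 78) (nat_lit 760) (nat_lit 0) (XT.lf (nat_lit 0) (nat_lit 10476019708) (nat_lit 760) (nat_lit 2526424120) (nat_lit 836) (nat_lit 435081890) (nat_lit 287) (nat_lit 5) (nat_lit 297) (nat_lit 5) (nat_lit 298) (nat_lit 5) (nat_lit 458) (nat_lit 416) (nat_lit 266)) (XT.lf (nat_lit 0) (nat_lit 1391150469) (nat_lit 760) (nat_lit 9641847398) (nat_lit 76) (nat_lit 2554963355) (nat_lit 277) (nat_lit 5) (nat_lit 287) (nat_lit 5) (nat_lit 278) (nat_lit 5) (nat_lit 459) (nat_lit 416) (nat_lit 265))) (XT.nd (nat_lit 78) (nat_lit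 760) (nat_lit 0) (XT.lf (nat_lit 0) (nat_lit 3273579775) (nat_lit 760) (nat_lit 2740703429) (nat_lit 76) (nat_lit 7726562499) (nat_lit 277) (nat_lit 5) (nat_lit 287) (nat_lit 5) (nat_lit 278) (nat_lit 5) (nat_lit 460) (nat_lit 416) (nat_lit 264)) (XT.lf (nat_lit 0) (nat_lit 4343685285) (nat_lit 760) (nat_lit 867151368) (nat_lit 836) (nat_lit 8685615233) (nat_lit 267) (nat_lit 5) (nat_lit 277) (nat_lit 5) (nat_lit 278) (nat_lit 5) (nat_lit 461) (nat_lit 416) (nat_lit 263))))))) (XT.nd (nat_lit 1092) (nat_lit 3648) (nat_lit 0) (XT.nd (nat_lit 546) (nat_lit 2432) (nat_lit 0) (XT.nd (nat_lit 234) (nat_lit 1368) (nat_lit 0) (XT.nd (nat_lit 78) (nat_lit 684) (nat_lit 0) (XT.lf (nat_lit 0) (nat_lit 7222921046) (nat_lit 836) (nat_lit 2488357337) (nat_lit 76) (nat_lit 4343177609) (nat_lit 267) (nat_lit 5) (nat_lit 278) (nat_lit 5) (nat_lit 268) (nat_lit 5) (nat_lit 462) (nat_lit 416) (nat_lit 262)) (XT.nd (nat_lit 78)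 (nat_lit 0) (nat_lit 0) (XT.lf (nat_lit 0) (nat_lit 4762401194) (nat_lit 684) (nat_lit 4538834980) (nat_lit 760) (nat_lit 4913871520) (nat_lit 258) (nat_lit 5) (nat_lit 267) (nat_lit 5) (nat_lit 268) (nat_lit 5) (nat_lit 463) (nat_lit 416) (nat_lit 261)) (XT.lf (nat_lit 0) (nat_lit 11432164874) (nat_lit 760) (nat_lit 2203419755) (nat_lit 76) (nat_lit 743174012) (nat_lit 258) (nat_lit 5) (nat_lit 268) (nat_lit 5) (nat_lit 259) (nat_lit 5) (nat_lit 464) (nat_lit 416) (nat_lit 260)))) (XT.nd (nat_lit 156) (nat_lit 608) (nat_lit 0) (XT.nd (nat_lit 78) (nat_lit 76) (nat_lit 0) (XT.lf (nat_lit 0) (nat_lit 5217665550) (nat_lit 684) (nat_lit 8441641487) (nat_lit 760) (nat_lit 885310686) (nat_lit 249) (nat_lit 5) (nat_lit 258) (nat_lit 5) (nat_lit 259) (nat_lit 5) (nat_lit 465) (nat_lit 416) (nat_lit 259)) (XT.lf (nat_lit 0) (nat_lit 1205831923) (nat_lit 760) (nat_lit 1916085230) (nat_lit 76) (nat_lit 11591633568) (nat_lit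 248) (nat_lit 5) (nat_lit 258) (nat_lit 5) (nat_lit 249) (nat_lit 5) (nat_lit 466) (nat_lit 416) (nat_lit 258))) (XT.nd (nat_lit 78) (nat_lit 0) (nat_lit 0) (XT.lf (nat_lit 0) (nat_lit 3369116702) (nat_lit 684) (nat_lit 9199948557) (nat_lit 76) (nat_lit 2315843219) (nat_lit 240) (nat_lit 5) (nat_lit 249) (nat_lit 5) (nat_lit 241) (nat_lit 5) (nat_lit 467) (nat_lit 416) (nat_lit 257)) (XT.lf (nat_lit 0) (nat_lit 5599315888) (nat_lit 684) (nat_lit 1627717870) (nat_lit 76) (nat_lit 7832193138) (nat_lit 240) (nat_lit 5) (nat_lit 249) (nat_lit 5) (nat_lit 241) (nat_lit 5) (nat_lit 468) (nat_lit 416) (nat_lit 256))))) (XT.nd (nat_lit 234) (nat_lit 1216) (nat_lit 0) (XT.nd (nat_lit 78) (nat_lit 608) (nat_lit 0) (XT.lf (nat_lit 0) (nat_lit 6165524733) (nat_lit 608) (nat_lit 1738851149) (nat_lit 684) (nat_lit 7332057017) (nat_lit 232) (nat_lit 5) (nat_lit 240) (nat_lit 5) (nat_lit 241) (nat_lit 5) (nat_lit 469) (nat_lit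 416) (nat_lit 255)) (XT.nd (nat_lit 78) (nat_lit 608) (nat_lit 0) (XT.lf (nat_lit 0) (nat_lit 10281922843) (nat_lit 684) (nat_lit 1316805897) (nat_lit 76) (nat_lit 3817932796) (nat_lit 232) (nat_lit 5) (nat_lit 241) (nat_lit 5) (nat_lit 233) (nat_lit 5) (nat_lit 470) (nat_lit 416) (nat_lit 254)) (XT.lf (nat_lit 0) (nat_lit 6656984590) (nat_lit 608) (nat_lit 6095297576) (nat_lit 684) (nat_lit 2847313458) (nat_lit 224) (nat_lit 5) (nat_lit 232) (nat_lit 5) (nat_lit 233) (nat_lit 5) (nat_lit 471) (nat_lit 416) (nat_lit 253)))) (XT.nd (nat_lit 156) (nat_lit 532) (nat_lit 0) (XT.nd (nat_lit 78) (nat_lit 684) (nat_lit 0) (XT.lf (nat_lit 0) (nat_lit 14796988323) (nat_lit 608) (nat_lit 474534758) (nat_lit 684) (nat_lit 514681812) (nat_lit 224) (nat_lit 5) (nat_lit 232) (nat_lit 5) (nat_lit 233) (nat_lit 5) (nat_lit 472) (nat_lit 416) (nat_lit 252)) (XT.lf (nat_lit 0) (nat_lit 1912134677) (nat_lit 684) (nat_lit 8815607818)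 (nat_lit 76) (nat_lit 5247127747) (nat_lit 215) (nat_lit 5) (nat_lit 224) (nat_lit 5) (nat_lit 216) (nat_lit 5) (nat_lit 473) (nat_lit 416) (nat_lit 251))) (XT.nd (nat_lit 78) (nat_lit 532) (nat_lit 0) (XT.lf (nat_lit 0) (nat_lit 4381280416) (nat_lit 684) (nat_lit 700778084) (nat_lit 76) (nat_lit 11085174306) (nat_lit 215) (nat_lit 5) (nat_lit 224) (nat_lit 5) (nat_lit 216) (nat_lit 5) (nat_lit 474) (nat_lit 416) (nat_lit 250)) (XT.lf (nat_lit 0) (nat_lit 6945323927) (nat_lit 608) (nat_lit 8701361456) (nat_lit 76) (nat_lit 715852474) (nat_lit 208) (nat_lit 5) (nat_lit 216) (nat_lit 5) (nat_lit 209) (nat_lit 5) (nat_lit 475) (nat_lit 416) (nat_lit 249)))))) (XT.nd (nat_lit 546) (nat_lit 1520) (nat_lit 0) (XT.nd (nat_lit 234) (nat_lit 1596) (nat_lit 0) (XT.nd (nat_lit 78) (nat_lit 532) (nat_lit 0) (XT.lf (nat_lit 0) (nat_lit 9590163377) (nat_lit 608) (nat_lit 406479776) (nat_lit 76) (nat_lit 6564520978) (nat_lit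 208) (nat_lit 5) (nat_lit 216) (nat_lit 5) (nat_lit 209) (nat_lit 5) (nat_lit 476) (nat_lit 416) (nat_lit 248)) (XT.nd (nat_lit 78) (nat_lit 0) (nat_lit 0) (XT.lf (nat_lit 0) (nat_lit 8150402484) (nat_lit 532) (nat_lit 4181714282) (nat_lit 608) (nat_lit 4430767137) (nat_lit 201) (nat_lit 5) (nat_lit 208) (nat_lit 5) (nat_lit 209) (nat_lit 5) (nat_lit 477) (nat_lit 416) (nat_lit 247)) (XT.lf (nat_lit 0) (nat_lit 15134400545) (nat_lit 608) (nat_lit 106911744) (nat_lit 76) (nat_lit 1727221166) (nat_lit 201) (nat_lit 5) (nat_lit 209) (nat_lit 5) (nat_lit 202) (nat_lit 5) (nat_lit 478) (nat_lit 416) (nat_lit 246)))) (XT.nd (nat_lit 156) (nat_lit 456) (nat_lit 0) (XT.nd (nat_lit 78) (nat_lit 532) (nat_lit 0) (XT.lf (nat_lit 0) (nat_lit 879616665) (nat_lit 608) (nat_lit 8538810298) (nat_lit 76) (nat_lit 7758251008) (nat_lit 193) (nat_lit 5) (nat_lit 201) (nat_lit 5) (nat_lit 194) (nat_lit 5) (nat_lit 479) (nat_lit 416)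 (nat_lit 245)) (XT.lf (nat_lit 0) (nat_lit 149108585) (nat_lit 532) (nat_lit 3467278847) (nat_lit 608) (nat_lit 13772494277) (nat_lit 186) (nat_lit 5) (nat_lit 193) (nat_lit 5) (nat_lit 194) (nat_lit 5) (nat_lit 480) (nat_lit 416) (nat_lit 244))) (XT.nd (nat_lit 78) (nat_lit 456) (nat_lit 0) (XT.lf (nat_lit 0) (nat_lit 6474145276) (nat_lit 608) (nat_lit 8505732978) (nat_lit 76) (nat_lit 2624131052) (nat_lit 186) (nat_lit 5) (nat_lit 194) (nat_lit 5) (nat_lit 187) (nat_lit 5) (nat_lit 481) (nat_lit 416) (nat_lit 243)) (XT.lf (nat_lit 0) (nat_lit 374345322) (nat_lit 456) (nat_lit 9031941421) (nat_lit 532) (nat_lit 8416812862) (nat_lit 180) (nat_lit 5) (nat_lit 186) (nat_lit 5) (nat_lit 187) (nat_lit 5) (nat_lit 482) (nat_lit 416) (nat_lit 242))))) (XT.nd (nat_lit 234) (nat_lit 912) (nat_lit 0) (XT.nd (nat_lit 78) (nat_lit 608) (nat_lit 0) (XT.lf (nat_lit 0) (nat_lit 9536802164) (nat_lit 456) (nat_lit 2909274453)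 (nat_lit 532) (nat_lit 5599519609) (nat_lit 180) (nat_lit 5) (nat_lit 186) (nat_lit 5) (nat_lit 187) (nat_lit 5) (nat_lit 483) (nat_lit 416) (nat_lit 241)) (XT.nd (nat_lit 78) (nat_lit 76) (nat_lit 0) (XT.lf (nat_lit 0) (nat_lit 585524675) (nat_lit 532) (nat_lit 14978668086) (nat_lit 608) (nat_lit 2708003948) (nat_lit 173) (nat_lit 5) (nat_lit 180) (nat_lit 5) (nat_lit 181) (nat_lit 5) (nat_lit 484) (nat_lit 416) (nat_lit 240)) (XT.lf (nat_lit 0) (nat_lit 307022140) (nat_lit 608) (nat_lit 8556832228) (nat_lit 76) (nat_lit 9638070947) (nat_lit 172) (nat_lit 5) (nat_lit 180) (nat_lit 5) (nat_lit 173) (nat_lit 5) (nat_lit 485) (nat_lit 416) (nat_lit 239)))) (XT.nd (nat_lit 156) (nat_lit 456) (nat_lit 0) (XT.nd (nat_lit 78) (nat_lit 0) (nat_lit 0) (XT.lf (nat_lit 0) (nat_lit 737040997) (nat_lit 456) (nat_lit 2606123715) (nat_lit 532) (nat_lit 15392788537) (nat_lit 166) (nat_lit 5) (nat_lit 172) (nat_lit 5) (nat_lit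 173) (nat_lit 5) (nat_lit 486) (nat_lit 416) (nat_lit 238)) (XT.lf (nat_lit 0) (nat_lit 6514678105) (nat_lit 532) (nat_lit 8676001957) (nat_lit 76) (nat_lit 3782492913) (nat_lit 166) (nat_lit 5) (nat_lit 173) (nat_lit 5) (nat_lit 167) (nat_lit 5) (nat_lit 487) (nat_lit 416) (nat_lit 237))) (XT.nd (nat_lit 78) (nat_lit 0) (nat_lit 0) (XT.lf (nat_lit 0) (nat_lit 816652382) (nat_lit 456) (nat_lit 8948006816) (nat_lit 532) (nat_lit 9450181258) (nat_lit 160) (nat_lit 5) (nat_lit 166) (nat_lit 5) (nat_lit 167) (nat_lit 5) (nat_lit 488) (nat_lit 416) (nat_lit 236)) (XT.lf (nat_lit 0) (nat_lit 10606666569) (nat_lit 456) (nat_lit 2523751929) (nat_lit 532) (nat_lit 6329911245) (nat_lit 160) (nat_lit 5) (nat_lit 166) (nat_lit 5) (nat_lit 167) (nat_lit 5) (nat_lit 489) (nat_lit 416) (nat_lit 235))))))))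
noncomputable def xc185 : XT := (XT.nd (nat_lit 2184) (nat_lit 304) (nat_lit 0) (XT.nd (nat_lit 1092) (nat_lit 2432) (nat_lit 0) (XT.nd (nat_lit 546) (nat_lit 1216) (nat_lit 0) (XT.nd (nat_lit 234) (nat_lit 836) (nat_lit 0) (XT.nd (nat_lit 78) (nat_lit 532) (nat_lit 0) (XT.lf (nat_lit 0) (nat_lit 856796728) (nat_lit 456) (nat_lit 15731105068) (nat_lit 532) (nat_lit 3122342794) (nat_lit 154) (nat_lit 5) (nat_lit 160) (nat_lit 5) (nat_lit 161) (nat_lit 5) (nat_lit 490) (nat_lit 416) (nat_lit 234)) (XT.nd (nat_lit 78) (nat_lit 456) (nat_lit 0) (XT.lf (nat_lit 0) (nat_lit 216651708) (nat_lit 532) (nat_lit 9110635109) (nat_lit 76) (nat_lit 10636470642) (nat_lit 153) (nat_lit 5) (nat_lit 160) (nat_lit 5) (nat_lit 154) (nat_lit 5) (nat_lit 491) (nat_lit 416) (nat_lit 233)) (XT.lf (nat_lit 0) (nat_lit 807070134) (nat_lit 456) (nat_lit 2771683775) (nat_lit 532) (nat_lit 16643214905) (nat_lit 147) (nat_lit 5) (nat_lit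 153) (nat_lit 5) (nat_lit 154) (nat_lit 5) (nat_lit 492) (nat_lit 416) (nat_lit 232)))) (XT.nd (nat_lit 156) (nat_lit 456) (nat_lit 0) (XT.nd (nat_lit 78) (nat_lit 380) (nat_lit 0) (XT.lf (nat_lit 0) (nat_lit 7087974646) (nat_lit 532) (nat_lit 9473252106) (nat_lit 76) (nat_lit 3922523764) (nat_lit 147) (nat_lit 5) (nat_lit 154) (nat_lit 5) (nat_lit 148) (nat_lit 5) (nat_lit 493) (nat_lit 416) (nat_lit 231)) (XT.lf (nat_lit 0) (nat_lit 647627265) (nat_lit 380) (nat_lit 10035367264) (nat_lit 456) (nat_lit 10067464605) (nat_lit 142) (nat_lit 5) (nat_lit 147) (nat_lit 5) (nat_lit 148) (nat_lit 5) (nat_lit 494) (nat_lit 416) (nat_lit 230))) (XT.nd (nat_lit 78) (nat_lit 456) (nat_lit 0) (XT.lf (nat_lit 0) (nat_lit 11089662355) (nat_lit 380) (nat_lit 3316950723) (nat_lit 456) (nat_lit 6614758388) (nat_lit 142) (nat_lit 5) (nat_lit 147) (nat_lit 5) (nat_lit 148) (nat_lit 5) (nat_lit 495) (nat_lit 416) (nat_lit 229))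 (XT.lf (nat_lit 0) (nat_lit 415726493) (nat_lit 456) (nat_lit 17807878334) (nat_lit 532) (nat_lit 3073722641) (nat_lit 136) (nat_lit 5) (nat_lit 142) (nat_lit 5) (nat_lit 143) (nat_lit 5) (nat_lit 496) (nat_lit 416) (nat_lit 228))))) (XT.nd (nat_lit 234) (nat_lit 760) (nat_lit 0) (XT.nd (nat_lit 78) (nat_lit 380) (nat_lit 0) (XT.lf (nat_lit 0) (nat_lit 613398609) (nat_lit 532) (nat_lit 10508268301) (nat_lit 76) (nat_lit 10455422656) (nat_lit 135) (nat_lit 5) (nat_lit 142) (nat_lit 5) (nat_lit 136) (nat_lit 5) (nat_lit 497) (nat_lit 416) (nat_lit 227)) (XT.nd (nat_lit 78) (nat_lit 0) (nat_lit 0) (XT.lf (nat_lit 0) (nat_lit 43297473) (nat_lit 380) (nat_lit 4283526845) (nat_lit 456) (nat_lit 17535345099) (nat_lit 130) (nat_lit 5) (nat_lit 135) (nat_lit 5) (nat_lit 136) (nat_lit 5) (nat_lit 498) (nat_lit 416) (nat_lit 226)) (XT.lf (nat_lit 0) (nat_lit 8196425318) (nat_lit 456) (nat_lit 11230643616) (nat_lit 76) (nat_lit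 2724246972) (nat_lit 130) (nat_lit 5) (nat_lit 136) (nat_lit 5) (nat_lit 131) (nat_lit 5) (nat_lit 499) (nat_lit 416) (nat_lit 225)))) (XT.nd (nat_lit 156) (nat_lit 380) (nat_lit 0) (XT.nd (nat_lit 78) (nat_lit 380) (nat_lit 0) (XT.lf (nat_lit 0) (nat_lit 12165364079) (nat_lit 456) (nat_lit 468330983) (nat_lit 76) (nat_lit 9812114464) (nat_lit 130) (nat_lit 5) (nat_lit 136) (nat_lit 5) (nat_lit 131) (nat_lit 5) (nat_lit 500) (nat_lit 416) (nat_lit 224)) (XT.lf (nat_lit 0) (nat_lit 10639638742) (nat_lit 380) (nat_lit 5636826398) (nat_lit 456) (nat_lit 6468475260) (nat_lit 125) (nat_lit 5) (nat_lit 130) (nat_lit 5) (nat_lit 131) (nat_lit 5) (nat_lit 501) (nat_lit 416) (nat_lit 223))) (XT.nd (nat_lit 78) (nat_lit 380) (nat_lit 0) (XT.lf (nat_lit 0) (nat_lit 20476440717) (nat_lit 456) (nat_lit 1092813567) (nat_lit 76) (nat_lit 1480669552) (nat_lit 125) (nat_lit 5) (nat_lit 131) (nat_lit 5) (nat_lit 126) (nat_lit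 5) (nat_lit 502) (nat_lit 416) (nat_lit 222)) (XT.lf (nat_lit 0) (nat_lit 1479306703) (nat_lit 380) (nat_lit 13141056208) (nat_lit 76) (nat_lit 8738500163) (nat_lit 120) (nat_lit 5) (nat_lit 125) (nat_lit 5) (nat_lit 121) (nat_lit 5) (nat_lit 503) (nat_lit 416) (nat_lit 221)))))) (XT.nd (nat_lit 546) (nat_lit 1292) (nat_lit 0) (XT.nd (nat_lit 234) (nat_lit 760) (nat_lit 0) (XT.nd (nat_lit 78) (nat_lit 380) (nat_lit 0) (XT.lf (nat_lit 0) (nat_lit 5579999227) (nat_lit 380) (nat_lit 1930496720) (nat_lit 76) (nat_lit 16163121639) (nat_lit 120) (nat_lit 5) (nat_lit 125) (nat_lit 5) (nat_lit 121) (nat_lit 5) (nat_lit 504) (nat_lit 416) (nat_lit 220)) (XT.nd (nat_lit 78) (nat_lit 0) (nat_lit 0) (XT.lf (nat_lit 0) (nat_lit 9621616247) (nat_lit 380) (nat_lit 197570751) (nat_lit 456) (nat_lit 14174353328) (nat_lit 115) (nat_lit 5) (nat_lit 120) (nat_lit 5) (nat_lit 121) (nat_lit 5) (nat_lit 505) (nat_lit 416) (nat_lit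 219)) (XT.lf (nat_lit 0) (nat_lit 14197399443) (nat_lit 456) (nat_lit 2944787000) (nat_lit 76) (nat_lit 7176592971) (nat_lit 115) (nat_lit 5) (nat_lit 121) (nat_lit 5) (nat_lit 116) (nat_lit 5) (nat_lit 506) (nat_lit 416) (nat_lit 218)))) (XT.nd (nat_lit 156) (nat_lit 456) (nat_lit 0) (XT.nd (nat_lit 78) (nat_lit 0) (nat_lit 0) (XT.lf (nat_lit 0) (nat_lit 8816497259) (nat_lit 304) (nat_lit 9899399713) (nat_lit 380) (nat_lit 5933574553) (nat_lit 111) (nat_lit 5) (nat_lit 115) (nat_lit 5) (nat_lit 116) (nat_lit 5) (nat_lit 507) (nat_lit 416) (nat_lit 217)) (XT.lf (nat_lit 0) (nat_lit 20844264821) (nat_lit 304) (nat_lit 2494488665) (nat_lit 380) (nat_lit 1647746817) (nat_lit 111) (nat_lit 5) (nat_lit 115) (nat_lit 5) (nat_lit 116) (nat_lit 5) (nat_lit 508) (nat_lit 416) (nat_lit 216))) (XT.nd (nat_lit 78) (nat_lit 0) (nat_lit 0) (XT.lf (nat_lit 0) (nat_lit 2766681950) (nat_lit 456) (nat_lit 17503152382) (nat_lit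 76) (nat_lit 5058511986) (nat_lit 105) (nat_lit 5) (nat_lit 111) (nat_lit 5) (nat_lit 106) (nat_lit 5) (nat_lit 509) (nat_lit 416) (nat_lit 215)) (XT.lf (nat_lit 0) (nat_lit 7286196034) (nat_lit 456) (nat_lit 5624576880) (nat_lit 76) (nat_lit 12765263761) (nat_lit 105) (nat_lit 5) (nat_lit 111) (nat_lit 5) (nat_lit 106) (nat_lit 5) (nat_lit 510) (nat_lit 416) (nat_lit 214))))) (XT.nd (nat_lit 234) (nat_lit 684) (nat_lit 0) (XT.nd (nat_lit 78) (nat_lit 304) (nat_lit 0) (XT.lf (nat_lit 0) (nat_lit 6569287827) (nat_lit 304) (nat_lit 5363914737) (nat_lit 380) (nat_lit 14096738638) (nat_lit 101) (nat_lit 5) (nat_lit 105) (nat_lit 5) (nat_lit 106) (nat_lit 5) (nat_lit 511) (nat_lit 416) (nat_lit 213)) (XT.nd (nat_lit 78) (nat_lit 304) (nat_lit 0) (XT.lf (nat_lit 0) (nat_lit 16720781782) (nat_lit 380) (nat_lit 7330777244) (nat_lit 76) (nat_lit 2338414504) (nat_lit 101) (nat_lit 5) (nat_lit 106) (nat_lit 5) (nat_lit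 102) (nat_lit 5) (nat_lit 512) (nat_lit 416) (nat_lit 212)) (XT.lf (nat_lit 0) (nat_lit 5064281294) (nat_lit 304) (nat_lit 16602828326) (nat_lit 380) (nat_lit 5088839259) (nat_lit 97) (nat_lit 5) (nat_lit 101) (nat_lit 5) (nat_lit 102) (nat_lit 5) (nat_lit 513) (nat_lit 416) (nat_lit 211)))) (XT.nd (nat_lit 156) (nat_lit 304) (nat_lit 0) (XT.nd (nat_lit 78) (nat_lit 380) (nat_lit 0) (XT.lf (nat_lit 0) (nat_lit 17798354839) (nat_lit 304) (nat_lit 8957848696) (nat_lit 380) (nat_lit 372165677) (nat_lit 97) (nat_lit 5) (nat_lit 101) (nat_lit 5) (nat_lit 102) (nat_lit 5) (nat_lit 514) (nat_lit 416) (nat_lit 210)) (XT.lf (nat_lit 0) (nat_lit 3284967631) (nat_lit 304) (nat_lit 1111699897) (nat_lit 380) (nat_lit 23110675360) (nat_lit 92) (nat_lit 5) (nat_lit 96) (nat_lit 5) (nat_lit 97) (nat_lit 5) (nat_lit 515) (nat_lit 416) (nat_lit 209))) (XT.nd (nat_lit 78) (nat_lit 304) (nat_lit 0) (XT.lf (nat_lit 0) (nat_lit 9358412496)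 (nat_lit 380) (nat_lit 11669748158) (nat_lit 76) (nat_lit 6863637953) (nat_lit 92) (nat_lit 5) (nat_lit 97) (nat_lit 5) (nat_lit 93) (nat_lit 5) (nat_lit 516) (nat_lit 416) (nat_lit 208)) (XT.lf (nat_lit 0) (nat_lit 1133392982) (nat_lit 304) (nat_lit 13295569824) (nat_lit 380) (nat_lit 13854791322) (nat_lit 88) (nat_lit 5) (nat_lit 92) (nat_lit 5) (nat_lit 93) (nat_lit 5) (nat_lit 517) (nat_lit 416) (nat_lit 207))))))) (XT.nd (nat_lit 52260) (nat_lit 0) (nat_lit 24700) (XT.nd (nat_lit 51714) (nat_lit 0) (nat_lit 25992) (XT.nd (nat_lit 234) (nat_lit 0) (nat_lit 0) (XT.nd (nat_lit 78) (nat_lit 304) (nat_lit 0) (XT.lf (nat_lit 0) (nat_lit 14342795450) (nat_lit 304) (nat_lit 5331337406) (nat_lit 380) (nat_lit 9007953784) (nat_lit 88) (nat_lit 5) (nat_lit 92) (nat_lit 5) (nat_lit 93) (nat_lit 5) (nat_lit 518) (nat_lit 416) (nat_lit 206)) (XT.nd (nat_lit 78) (nat_lit 304) (nat_lit 0) (XT.lf (nat_lit 0) (nat_lit 25037315224)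 (nat_lit 380) (nat_lit 1298043560) (nat_lit 76) (nat_lit 2752766854) (nat_lit 88) (nat_lit 5) (nat_lit 93) (nat_lit 5) (nat_lit 89) (nat_lit 5) (nat_lit 519) (nat_lit 416) (nat_lit 205)) (XT.lf (nat_lit 0) (nat_lit 1102085307) (nat_lit 304) (nat_lit 17387439232) (nat_lit 76) (nat_lit 11010436320) (nat_lit 84) (nat_lit 5) (nat_lit 88) (nat_lit 5) (nat_lit 85) (nat_lit 5) (nat_lit 520) (nat_lit 416) (nat_lit 204)))) (XT.nd (nat_lit 51324) (nat_lit 0) (nat_lit 27436) (XT.nd (nat_lit 51246) (nat_lit 0) (nat_lit 27436) (XT.lf (nat_lit 0) (nat_lit 6307708448) (nat_lit 304) (nat_lit 4145625309) (nat_lit 76) (nat_lit 19466087210) (nat_lit 84) (nat_lit 5) (nat_lit 88) (nat_lit 5) (nat_lit 85) (nat_lit 5) (nat_lit 521) (nat_lit 416) (nat_lit 203)) (XT.lf (nat_lit 0) (nat_lit 1052256072) (nat_lit 0) (nat_lit 1052256072) (nat_lit 1444) (nat_lit 2448773893) (nat_lit 445) (nat_lit 5) (nat_lit 445) (nat_lit 3) (nat_lit 464)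 (nat_lit 3) (nat_lit 417) (nat_lit 417) (nat_lit 306))) (XT.nd (nat_lit 78) (nat_lit 0) (nat_lit 0) (XT.lf (nat_lit 0) (nat_lit 5097865758) (nat_lit 1444) (nat_lit 2844315629) (nat_lit 1520) (nat_lit 1237801571) (nat_lit 445) (nat_lit 5) (nat_lit 464) (nat_lit 3) (nat_lit 465) (nat_lit 5) (nat_lit 418) (nat_lit 417) (nat_lit 305)) (XT.lf (nat_lit 76) (nat_lit 1389339100) (nat_lit 0) (nat_lit 4616177059) (nat_lit 1520) (nat_lit 3249344140) (nat_lit 446) (nat_lit 5) (nat_lit 445) (nat_lit 5) (nat_lit 465) (nat_lit 5) (nat_lit 419) (nat_lit 417) (nat_lit 304))))) (XT.nd (nat_lit 234) (nat_lit 1444) (nat_lit 0) (XT.nd (nat_lit 78) (nat_lit 0) (nat_lit 76) (XT.lf (nat_lit 76) (nat_lit 5734769497) (nat_lit 0) (nat_lit 1194066906) (nat_lit 1520) (nat_lit 2402466958) (nat_lit 446) (nat_lit 5) (nat_lit 445) (nat_lit 5) (nat_lit 465) (nat_lit 5) (nat_lit 420) (nat_lit 417) (nat_lit 303)) (XT.nd (nat_lit 78) (nat_lit 0)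 (nat_lit 0) (XT.lf (nat_lit 76) (nat_lit 740906230) (nat_lit 0) (nat_lit 7128354903) (nat_lit 1520) (nat_lit 1540059537) (nat_lit 447) (nat_lit 5) (nat_lit 446) (nat_lit 5) (nat_lit 466) (nat_lit 5) (nat_lit 421) (nat_lit 417) (nat_lit 302)) (XT.lf (nat_lit 76) (nat_lit 5194177672) (nat_lit 0) (nat_lit 3645562048) (nat_lit 1520) (nat_lit 648951491) (nat_lit 447) (nat_lit 5) (nat_lit 446) (nat_lit 5) (nat_lit 466) (nat_lit 5) (nat_lit 422) (nat_lit 417) (nat_lit 301)))) (XT.nd (nat_lit 156) (nat_lit 0) (nat_lit 76) (XT.nd (nat_lit 78) (nat_lit 0) (nat_lit 76) (XT.lf (nat_lit 76) (nat_lit 155499382) (nat_lit 0) (nat_lit 81589153) (nat_lit 1596) (nat_lit 9332933579) (nat_lit 427) (nat_lit 5) (nat_lit 426) (nat_lit 5) (nat_lit 447) (nat_lit 5) (nat_lit 423) (nat_lit 417) (nat_lit 300)) (XT.lf (nat_lit 0) (nat_lit 1164141476) (nat_lit 1520) (nat_lit 4939354465) (nat_lit 1596) (nat_lit 3548775037) (nat_lit 427) (nat_lit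 5) (nat_lit 447) (nat_lit 5) (nat_lit 448) (nat_lit 5) (nat_lit 424) (nat_lit 417) (nat_lit 299))) (XT.nd (nat_lit 78) (nat_lit 0) (nat_lit 76) (XT.lf (nat_lit 0) (nat_lit 2090561500) (nat_lit 1520) (nat_lit 387101335) (nat_lit 1596) (nat_lit 7258901901) (nat_lit 427) (nat_lit 5) (nat_lit 447) (nat_lit 5) (nat_lit 448) (nat_lit 5) (nat_lit 425) (nat_lit 417) (nat_lit 298)) (XT.lf (nat_lit 0) (nat_lit 3052267181) (nat_lit 1520) (nat_lit 5529589426) (nat_lit 1596) (nat_lit 1240368732) (nat_lit 428) (nat_lit 5) (nat_lit 448) (nat_lit 5) (nat_lit 449) (nat_lit 5) (nat_lit 426) (nat_lit 417) (nat_lit 297)))))) (XT.nd (nat_lit 546) (nat_lit 0) (nat_lit 76) (XT.nd (nat_lit 234) (nat_lit 1444) (nat_lit 0) (XT.nd (nat_lit 78) (nat_lit 0) (nat_lit 0) (XT.lf (nat_lit 0) (nat_lit 4033254719) (nat_lit 1520) (nat_lit 866770938) (nat_lit 1596) (nat_lit 5009588341) (nat_lit 428) (nat_lit 5) (nat_lit 448) (nat_lit 5) (nat_lit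 449) (nat_lit 5) (nat_lit 427) (nat_lit 417) (nat_lit 296)) (XT.nd (nat_lit 78) (nat_lit 0) (nat_lit 76) (XT.lf (nat_lit 76) (nat_lit 3929056417) (nat_lit 0) (nat_lit 1111712221) (nat_lit 1596) (nat_lit 4957859147) (nat_lit 429) (nat_lit 5) (nat_lit 428) (nat_lit 5) (nat_lit 449) (nat_lit 5) (nat_lit 428) (nat_lit 417) (nat_lit 295)) (XT.lf (nat_lit 0) (nat_lit 6073886384) (nat_lit 1520) (nat_lit 1286789326) (nat_lit 1596) (nat_lit 2728652254) (nat_lit 429) (nat_lit 5) (nat_lit 449) (nat_lit 5) (nat_lit 450) (nat_lit 5) (nat_lit 429) (nat_lit 417) (nat_lit 294)))) (XT.nd (nat_lit 156) (nat_lit 1520) (nat_lit 0) (XT.nd (nat_lit 78) (nat_lit 0) (nat_lit 76) (XT.lf (nat_lit 76) (nat_lit 3619874347) (nat_lit 0) (nat_lit 3520743704) (nat_lit 1596) (nat_lit 3040979950) (nat_lit 430) (nat_lit 5) (nat_lit 429) (nat_lit 5) (nat_lit 450) (nat_lit 5) (nat_lit 430) (nat_lit 417) (nat_lit 293)) (XT.lf (nat_lit 0) (nat_lit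 8222346617) (nat_lit 1520) (nat_lit 1648268873) (nat_lit 1596) (nat_lit 405239299) (nat_lit 430) (nat_lit 5) (nat_lit 450) (nat_lit 5) (nat_lit 451) (nat_lit 5) (nat_lit 431) (nat_lit 417) (nat_lit 292))) (XT.nd (nat_lit 78) (nat_lit 1596) (nat_lit 0) (XT.lf (nat_lit 76) (nat_lit 3372393860) (nat_lit 0) (nat_lit 5981272046) (nat_lit 1596) (nat_lit 1017785994) (nat_lit 431) (nat_lit 5) (nat_lit 430) (nat_lit 5) (nat_lit 451) (nat_lit 5) (nat_lit 432) (nat_lit 417) (nat_lit 291)) (XT.lf (nat_lit 0) (nat_lit 32156594) (nat_lit 1596) (nat_lit 1965388382) (nat_lit 1672) (nat_lit 8471544455) (nat_lit 409) (nat_lit 5) (nat_lit 430) (nat_lit 5) (nat_lit 431) (nat_lit 5) (nat_lit 433) (nat_lit 417) (nat_lit 290))))) (XT.nd (nat_lit 234) (nat_lit 0) (nat_lit 76) (XT.nd (nat_lit 78) (nat_lit 0) (nat_lit 0) (XT.lf (nat_lit 0) (nat_lit 1107049493) (nat_lit 1596) (nat_lit 7389924752) (nat_lit 1672) (nat_lit 2071232807) (nat_lit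 410) (nat_lit 5) (nat_lit 431) (nat_lit 5) (nat_lit 432) (nat_lit 5) (nat_lit 434) (nat_lit 417) (nat_lit 289)) (XT.nd (nat_lit 78) (nat_lit 0) (nat_lit 0) (XT.lf (nat_lit 0) (nat_lit 2213442713) (nat_lit 1596) (nat_lit 2243086842) (nat_lit 1672) (nat_lit 6212590642) (nat_lit 410) (nat_lit 5) (nat_lit 431) (nat_lit 5) (nat_lit 432) (nat_lit 5) (nat_lit 435) (nat_lit 417) (nat_lit 288)) (XT.lf (nat_lit 76) (nat_lit 3034530129) (nat_lit 0) (nat_lit 310956983) (nat_lit 1672) (nat_lit 7426506985) (nat_lit 411) (nat_lit 5) (nat_lit 410) (nat_lit 5) (nat_lit 432) (nat_lit 5) (nat_lit 436) (nat_lit 417) (nat_lit 287)))) (XT.nd (nat_lit 156) (nat_lit 0) (nat_lit 76) (XT.nd (nat_lit 78) (nat_lit 0) (nat_lit 0) (XT.lf (nat_lit 0) (nat_lit 4524847180) (nat_lit 1596) (nat_lit 2466289523) (nat_lit 1672) (nat_lit 3885307984) (nat_lit 411) (nat_lit 5) (nat_lit 432) (nat_lit 5) (nat_lit 433) (nat_lit 5) (nat_lit 437) (nat_lit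 417) (nat_lit 286)) (XT.lf (nat_lit 76) (nat_lit 2934743391) (nat_lit 0) (nat_lit 2798564301) (nat_lit 1672) (nat_lit 5249578789) (nat_lit 412) (nat_lit 5) (nat_lit 411) (nat_lit 5) (nat_lit 433) (nat_lit 5) (nat_lit 438) (nat_lit 417) (nat_lit 285))) (XT.nd (nat_lit 78) (nat_lit 0) (nat_lit 0) (XT.lf (nat_lit 0) (nat_lit 6976842944) (nat_lit 1596) (nat_lit 2635861346) (nat_lit 1672) (nat_lit 1478546923) (nat_lit 412) (nat_lit 5) (nat_lit 433) (nat_lit 5) (nat_lit 434) (nat_lit 5) (nat_lit 439) (nat_lit 417) (nat_lit 284)) (XT.lf (nat_lit 76) (nat_lit 2892043979) (nat_lit 0) (nat_lit 5375467078) (nat_lit 1672) (nat_lit 2933838915) (nat_lit 413) (nat_lit 5) (nat_lit 412) (nat_lit 5) (nat_lit 434) (nat_lit 5) (nat_lit 440) (nat_lit 417) (nat_lit 283))))))))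
noncomputable def xc186 : XT := (XT.nd (nat_lit 2184) (nat_lit 7448) (nat_lit 0) (XT.nd (nat_lit 1092) (nat_lit 5092) (nat_lit 0) (XT.nd (nat_lit 546) (nat_lit 3420) (nat_lit 0) (XT.nd (nat_lit 234) (nat_lit 2964) (nat_lit 0) (XT.nd (nat_lit 78) (nat_lit 1596) (nat_lit 0) (XT.lf (nat_lit 76) (nat_lit 8554298079) (nat_lit 0) (nat_lit 1032551568) (nat_lit 1672) (nat_lit 1726755652) (nat_lit 413) (nat_lit 5) (nat_lit 412) (nat_lit 5) (nat_lit 434) (nat_lit 5) (nat_lit 441) (nat_lit 417) (nat_lit 282)) (XT.nd (nat_lit 78) (nat_lit 76) (nat_lit 0) (XT.lf (nat_lit 0) (nat_lit 2905717774) (nat_lit 1596) (nat_lit 8053258414) (nat_lit 1672) (nat_lit 468613032) (nat_lit 392) (nat_lit 5) (nat_lit 413) (nat_lit 5) (nat_lit 414) (nat_lit 5) (nat_lit 442) (nat_lit 417) (nat_lit 281)) (XT.lf (nat_lit 0) (nat_lit 815064270) (nat_lit 1672) (nat_lit 2846435653) (nat_lit 76) (nat_lit 7882037035) (nat_lit 391) (nat_lit 5) (nat_lit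 413) (nat_lit 5) (nat_lit 392) (nat_lit 5) (nat_lit 443) (nat_lit 417) (nat_lit 280)))) (XT.nd (nat_lit 156) (nat_lit 1292) (nat_lit 0) (XT.nd (nat_lit 78) (nat_lit 0) (nat_lit 0) (XT.lf (nat_lit 0) (nat_lit 2128742555) (nat_lit 1748) (nat_lit 8700724934) (nat_lit 76) (nat_lit 832073009) (nat_lit 369) (nat_lit 5) (nat_lit 392) (nat_lit 5) (nat_lit 370) (nat_lit 5) (nat_lit 444) (nat_lit 417) (nat_lit 279)) (XT.lf (nat_lit 0) (nat_lit 3498246681) (nat_lit 1748) (nat_lit 2895236725) (nat_lit 76) (nat_lit 5387840292) (nat_lit 369) (nat_lit 5) (nat_lit 392) (nat_lit 5) (nat_lit 370) (nat_lit 5) (nat_lit 445) (nat_lit 417) (nat_lit 278))) (XT.nd (nat_lit 78) (nat_lit 0) (nat_lit 0) (XT.lf (nat_lit 0) (nat_lit 3054524050) (nat_lit 1292) (nat_lit 1846798199) (nat_lit 1368) (nat_lit 7002067109) (nat_lit 352) (nat_lit 5) (nat_lit 369) (nat_lit 5) (nat_lit 370) (nat_lit 5) (nat_lit 446) (nat_lit 417) (nat_lit 277)) (XT.lf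 (nat_lit 0) (nat_lit 6356687350) (nat_lit 1368) (nat_lit 2895340164) (nat_lit 76) (nat_lit 2775394475) (nat_lit 352) (nat_lit 5) (nat_lit 370) (nat_lit 5) (nat_lit 353) (nat_lit 5) (nat_lit 447) (nat_lit 417) (nat_lit 276))))) (XT.nd (nat_lit 234) (nat_lit 1748) (nat_lit 0) (XT.nd (nat_lit 78) (nat_lit 836) (nat_lit 0) (XT.lf (nat_lit 0) (nat_lit 3195056599) (nat_lit 836) (nat_lit 4665892671) (nat_lit 912) (nat_lit 4292600232) (nat_lit 341) (nat_lit 5) (nat_lit 352) (nat_lit 5) (nat_lit 353) (nat_lit 5) (nat_lit 448) (nat_lit 417) (nat_lit 275)) (XT.nd (nat_lit 78) (nat_lit 836) (nat_lit 0) (XT.lf (nat_lit 0) (nat_lit 9401936494) (nat_lit 912) (nat_lit 2847580748) (nat_lit 76) (nat_lit 32559345) (nat_lit 341) (nat_lit 5) (nat_lit 353) (nat_lit 5) (nat_lit 342) (nat_lit 5) (nat_lit 449) (nat_lit 417) (nat_lit 274)) (XT.lf (nat_lit 0) (nat_lit 3387238839) (nat_lit 836) (nat_lit 7626656043) (nat_lit 912) (nat_lit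 1398485932) (nat_lit 330) (nat_lit 5) (nat_lit 341) (nat_lit 5) (nat_lit 342) (nat_lit 5) (nat_lit 450) (nat_lit 417) (nat_lit 273)))) (XT.nd (nat_lit 156) (nat_lit 836) (nat_lit 0) (XT.nd (nat_lit 78) (nat_lit 836) (nat_lit 0) (XT.lf (nat_lit 0) (nat_lit 117897421) (nat_lit 912) (nat_lit 2772348098) (nat_lit 76) (nat_lit 9654908705) (nat_lit 329) (nat_lit 5) (nat_lit 341) (nat_lit 5) (nat_lit 330) (nat_lit 5) (nat_lit 451) (nat_lit 417) (nat_lit 272)) (XT.lf (nat_lit 0) (nat_lit 1669894846) (nat_lit 912) (nat_lit 9060831143) (nat_lit 76) (nat_lit 1949201065) (nat_lit 318) (nat_lit 5) (nat_lit 330) (nat_lit 5) (nat_lit 319) (nat_lit 5) (nat_lit 452) (nat_lit 417) (nat_lit 271))) (XT.nd (nat_lit 78) (nat_lit 836) (nat_lit 0) (XT.lf (nat_lit 0) (nat_lit 3278560395) (nat_lit 912) (nat_lit 2672220001) (nat_lit 76) (nat_lit 6866111278) (nat_lit 318) (nat_lit 5) (nat_lit 330) (nat_lit 5) (nat_lit 319) (nat_lit 5) (nat_lit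 453) (nat_lit 417) (nat_lit 270)) (XT.lf (nat_lit 0) (nat_lit 3883446896) (nat_lit 836) (nat_lit 1049166622) (nat_lit 912) (nat_lit 8023726504) (nat_lit 307) (nat_lit 5) (nat_lit 318) (nat_lit 5) (nat_lit 319) (nat_lit 5) (nat_lit 454) (nat_lit 417) (nat_lit 269)))))) (XT.nd (nat_lit 546) (nat_lit 2812) (nat_lit 0) (XT.nd (nat_lit 234) (nat_lit 1520) (nat_lit 0) (XT.nd (nat_lit 78) (nat_lit 760) (nat_lit 0) (XT.lf (nat_lit 0) (nat_lit 6651609836) (nat_lit 912) (nat_lit 2529355824) (nat_lit 76) (nat_lit 3916982986) (nat_lit 307) (nat_lit 5) (nat_lit 319) (nat_lit 5) (nat_lit 308) (nat_lit 5) (nat_lit 455) (nat_lit 417) (nat_lit 268)) (XT.nd (nat_lit 78) (nat_lit 0) (nat_lit 0) (XT.lf (nat_lit 0) (nat_lit 4181356068) (nat_lit 760) (nat_lit 4246120628) (nat_lit 836) (nat_lit 4814471317) (nat_lit 297) (nat_lit 5) (nat_lit 307) (nat_lit 5) (nat_lit 308) (nat_lit 5) (nat_lit 456) (nat_lit 417) (nat_lit 267)) (XT.lf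 (nat_lit 0) (nat_lit 10249605871) (nat_lit 836) (nat_lit 2344892422) (nat_lit 76) (nat_lit 794122394) (nat_lit 297) (nat_lit 5) (nat_lit 308) (nat_lit 5) (nat_lit 298) (nat_lit 5) (nat_lit 457) (nat_lit 417) (nat_lit 266)))) (XT.nd (nat_lit 156) (nat_lit 684) (nat_lit 0) (XT.nd (nat_lit 78) (nat_lit 76) (nat_lit 0) (XT.lf (nat_lit 0) (nat_lit 4524827429) (nat_lit 760) (nat_lit 7629619759) (nat_lit 836) (nat_lit 1382862293) (nat_lit 287) (nat_lit 5) (nat_lit 297) (nat_lit 5) (nat_lit 298) (nat_lit 5) (nat_lit 458) (nat_lit 417) (nat_lit 265)) (XT.lf (nat_lit 0) (nat_lit 407732600) (nat_lit 836) (nat_lit 2139283846) (nat_lit 76) (nat_lit 11141816802) (nat_lit 286) (nat_lit 5) (nat_lit 297) (nat_lit 5) (nat_lit 287) (nat_lit 5) (nat_lit 459) (nat_lit 417) (nat_lit 264))) (XT.nd (nat_lit 78) (nat_lit 0) (nat_lit 0) (XT.lf (nat_lit 0) (nat_lit 2254000563) (nat_lit 760) (nat_lit 8944869463) (nat_lit 76) (nat_lit 2643574688)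 (nat_lit 277) (nat_lit 5) (nat_lit 287) (nat_lit 5) (nat_lit 278) (nat_lit 5) (nat_lit 460) (nat_lit 417) (nat_lit 263)) (XT.lf (nat_lit 0) (nat_lit 4157705375) (nat_lit 760) (nat_lit 1923149965) (nat_lit 76) (nat_lit 7917870284) (nat_lit 277) (nat_lit 5) (nat_lit 287) (nat_lit 5) (nat_lit 278) (nat_lit 5) (nat_lit 461) (nat_lit 417) (nat_lit 262))))) (XT.nd (nat_lit 234) (nat_lit 1368) (nat_lit 0) (XT.nd (nat_lit 78) (nat_lit 684) (nat_lit 0) (XT.lf (nat_lit 0) (nat_lit 5297187263) (nat_lit 760) (nat_lit 826094814) (nat_lit 836) (nat_lit 8034381418) (nat_lit 267) (nat_lit 5) (nat_lit 277) (nat_lit 5) (nat_lit 278) (nat_lit 5) (nat_lit 462) (nat_lit 417) (nat_lit 261)) (XT.nd (nat_lit 78) (nat_lit 684) (nat_lit 0) (XT.lf (nat_lit 0) (nat_lit 8160132270) (nat_lit 836) (nat_lit 1672471020) (nat_lit 76) (nat_lit 4486544749) (nat_lit 267) (nat_lit 5) (nat_lit 278) (nat_lit 5) (nat_lit 268) (nat_lit 5) (nat_lit 463)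 (nat_lit 417) (nat_lit 260)) (XT.lf (nat_lit 0) (nat_lit 5717607593) (nat_lit 684) (nat_lit 4552445356) (nat_lit 760) (nat_lit 4213169671) (nat_lit 258) (nat_lit 5) (nat_lit 267) (nat_lit 5) (nat_lit 268) (nat_lit 5) (nat_lit 464) (nat_lit 417) (nat_lit 259)))) (XT.nd (nat_lit 156) (nat_lit 684) (nat_lit 0) (XT.nd (nat_lit 78) (nat_lit 684) (nat_lit 0) (XT.lf (nat_lit 0) (nat_lit 12428742550) (nat_lit 760) (nat_lit 1389013063) (nat_lit 76) (nat_lit 832698545) (nat_lit 258) (nat_lit 5) (nat_lit 268) (nat_lit 5) (nat_lit 259) (nat_lit 5) (nat_lit 465) (nat_lit 417) (nat_lit 258)) (XT.lf (nat_lit 0) (nat_lit 6174846086) (nat_lit 684) (nat_lit 8516061054) (nat_lit 760) (nat_lit 128923906) (nat_lit 249) (nat_lit 5) (nat_lit 258) (nat_lit 5) (nat_lit 259) (nat_lit 5) (nat_lit 466) (nat_lit 417) (nat_lit 257))) (XT.nd (nat_lit 78) (nat_lit 608) (nat_lit 0) (XT.lf (nat_lit 0) (nat_lit 1978909959) (nat_lit 760) (nat_lit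 1107857590) (nat_lit 76) (nat_lit 11905584039) (nat_lit 248) (nat_lit 5) (nat_lit 258) (nat_lit 5) (nat_lit 249) (nat_lit 5) (nat_lit 467) (nat_lit 417) (nat_lit 256)) (XT.lf (nat_lit 0) (nat_lit 4176892457) (nat_lit 684) (nat_lit 8528348913) (nat_lit 76) (nat_lit 2462076114) (nat_lit 240) (nat_lit 5) (nat_lit 249) (nat_lit 5) (nat_lit 241) (nat_lit 5) (nat_lit 468) (nat_lit 417) (nat_lit 255))))))) (XT.nd (nat_lit 1092) (nat_lit 3344) (nat_lit 0) (XT.nd (nat_lit 546) (nat_lit 1672) (nat_lit 0) (XT.nd (nat_lit 234) (nat_lit 1824) (nat_lit 0) (XT.nd (nat_lit 78) (nat_lit 608) (nat_lit 0) (XT.lf (nat_lit 0) (nat_lit 6437178109) (nat_lit 684) (nat_lit 821450057) (nat_lit 76) (nat_lit 8086793893) (nat_lit 240) (nat_lit 5) (nat_lit 249) (nat_lit 5) (nat_lit 241) (nat_lit 5) (nat_lit 469) (nat_lit 417) (nat_lit 254)) (XT.nd (nat_lit 78) (nat_lit 0) (nat_lit 0) (XT.lf (nat_lit 0) (nat_lit 7122138832) (nat_lit 608) (nat_lit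 1657377971) (nat_lit 684) (nat_lit 6746841082) (nat_lit 232) (nat_lit 5) (nat_lit 240) (nat_lit 5) (nat_lit 241) (nat_lit 5) (nat_lit 470) (nat_lit 417) (nat_lit 253)) (XT.lf (nat_lit 0) (nat_lit 11191294805) (nat_lit 684) (nat_lit 512404267) (nat_lit 76) (nat_lit 4006767490) (nat_lit 232) (nat_lit 5) (nat_lit 241) (nat_lit 5) (nat_lit 233) (nat_lit 5) (nat_lit 471) (nat_lit 417) (nat_lit 252)))) (XT.nd (nat_lit 156) (nat_lit 1140) (nat_lit 0) (XT.nd (nat_lit 78) (nat_lit 76) (nat_lit 0) (XT.lf (nat_lit 0) (nat_lit 7615396650) (nat_lit 608) (nat_lit 6087224184) (nat_lit 684) (nat_lit 2194616201) (nat_lit 224) (nat_lit 5) (nat_lit 232) (nat_lit 5) (nat_lit 233) (nat_lit 5) (nat_lit 472) (nat_lit 417) (nat_lit 251)) (XT.lf (nat_lit 0) (nat_lit 168514036) (nat_lit 684) (nat_lit 186949870) (nat_lit 76) (nat_lit 15732373793) (nat_lit 223) (nat_lit 5) (nat_lit 232) (nat_lit 5) (nat_lit 224) (nat_lit 5) (nat_lit 473)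 (nat_lit 417) (nat_lit 250))) (XT.nd (nat_lit 78) (nat_lit 532) (nat_lit 0) (XT.lf (nat_lit 0) (nat_lit 2629674518) (nat_lit 684) (nat_lit 8165551246) (nat_lit 76) (nat_lit 5485136943) (nat_lit 215) (nat_lit 5) (nat_lit 224) (nat_lit 5) (nat_lit 216) (nat_lit 5) (nat_lit 474) (nat_lit 417) (nat_lit 249)) (XT.lf (nat_lit 0) (nat_lit 96639213) (nat_lit 532) (nat_lit 5038871853) (nat_lit 608) (nat_lit 11341323516) (nat_lit 208) (nat_lit 5) (nat_lit 215) (nat_lit 5) (nat_lit 216) (nat_lit 5) (nat_lit 475) (nat_lit 417) (nat_lit 248))))) (XT.nd (nat_lit 234) (nat_lit 1140) (nat_lit 0) (XT.nd (nat_lit 78) (nat_lit 532) (nat_lit 0) (XT.lf (nat_lit 0) (nat_lit 7743327556) (nat_lit 608) (nat_lit 8057940094) (nat_lit 76) (nat_lit 874936296) (nat_lit 208) (nat_lit 5) (nat_lit 216) (nat_lit 5) (nat_lit 209) (nat_lit 5) (nat_lit 476) (nat_lit 417) (nat_lit 247)) (XT.nd (nat_lit 78) (nat_lit 0) (nat_lit 0) (XT.lf (nat_lit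 0) (nat_lit 391951327) (nat_lit 532) (nat_lit 10038733801) (nat_lit 608) (nat_lit 6448333086) (nat_lit 201) (nat_lit 5) (nat_lit 208) (nat_lit 5) (nat_lit 209) (nat_lit 5) (nat_lit 477) (nat_lit 417) (nat_lit 246)) (XT.lf (nat_lit 0) (nat_lit 9109558219) (nat_lit 532) (nat_lit 4107873605) (nat_lit 608) (nat_lit 3867549215) (nat_lit 201) (nat_lit 5) (nat_lit 208) (nat_lit 5) (nat_lit 209) (nat_lit 5) (nat_lit 478) (nat_lit 417) (nat_lit 245)))) (XT.nd (nat_lit 156) (nat_lit 532) (nat_lit 0) (XT.nd (nat_lit 78) (nat_lit 76) (nat_lit 0) (XT.lf (nat_lit 0) (nat_lit 692468929) (nat_lit 532) (nat_lit 15376267707) (nat_lit 608) (nat_lit 1226155030) (nat_lit 194) (nat_lit 5) (nat_lit 201) (nat_lit 5) (nat_lit 202) (nat_lit 5) (nat_lit 479) (nat_lit 417) (nat_lit 244)) (XT.lf (nat_lit 0) (nat_lit 1521648101) (nat_lit 608) (nat_lit 7913699623) (nat_lit 76) (nat_lit 8072010263) (nat_lit 193) (nat_lit 5) (nat_lit 201) (nat_lit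 5) (nat_lit 194) (nat_lit 5) (nat_lit 480) (nat_lit 417) (nat_lit 243))) (XT.nd (nat_lit 78) (nat_lit 0) (nat_lit 0) (XT.lf (nat_lit 0) (nat_lit 942741540) (nat_lit 532) (nat_lit 3363302270) (nat_lit 608) (nat_lit 13417911353) (nat_lit 186) (nat_lit 5) (nat_lit 193) (nat_lit 5) (nat_lit 194) (nat_lit 5) (nat_lit 481) (nat_lit 417) (nat_lit 242)) (XT.lf (nat_lit 0) (nat_lit 7209955584) (nat_lit 608) (nat_lit 7889347989) (nat_lit 76) (nat_lit 2844308774) (nat_lit 186) (nat_lit 5) (nat_lit 194) (nat_lit 5) (nat_lit 187) (nat_lit 5) (nat_lit 482) (nat_lit 417) (nat_lit 241)))))) (XT.nd (nat_lit 546) (nat_lit 1368) (nat_lit 0) (XT.nd (nat_lit 234) (nat_lit 988) (nat_lit 0) (XT.nd (nat_lit 78) (nat_lit 532) (nat_lit 0) (XT.lf (nat_lit 0) (nat_lit 1163157537) (nat_lit 456) (nat_lit 9030766453) (nat_lit 532) (nat_lit 7973303654) (nat_lit 180) (nat_lit 5) (nat_lit 186) (nat_lit 5) (nat_lit 187) (nat_lit 5) (nat_lit 483)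 (nat_lit 417) (nat_lit 240)) (XT.nd (nat_lit 78) (nat_lit 532) (nat_lit 0) (XT.lf (nat_lit 0) (nat_lit 10493543412) (nat_lit 456) (nat_lit 2789211123) (nat_lit 532) (nat_lit 5111661506) (nat_lit 180) (nat_lit 5) (nat_lit 186) (nat_lit 5) (nat_lit 187) (nat_lit 5) (nat_lit 484) (nat_lit 417) (nat_lit 239)) (XT.lf (nat_lit 0) (nat_lit 1369063726) (nat_lit 532) (nat_lit 15088790480) (nat_lit 608) (nat_lit 2167808510) (nat_lit 173) (nat_lit 5) (nat_lit 180) (nat_lit 5) (nat_lit 181) (nat_lit 5) (nat_lit 485) (nat_lit 417) (nat_lit 238)))) (XT.nd (nat_lit 156) (nat_lit 456) (nat_lit 0) (XT.nd (nat_lit 78) (nat_lit 456) (nat_lit 0) (XT.lf (nat_lit 0) (nat_lit 888221836) (nat_lit 608) (nat_lit 7963314427) (nat_lit 76) (nat_lit 10008608828) (nat_lit 172) (nat_lit 5) (nat_lit 180) (nat_lit 5) (nat_lit 173) (nat_lit 5) (nat_lit 486) (nat_lit 417) (nat_lit 237)) (XT.lf (nat_lit 0) (nat_lit 1511405642) (nat_lit 456) (nat_lit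 2467337928) (nat_lit 532) (nat_lit 15120243114) (nat_lit 166) (nat_lit 5) (nat_lit 172) (nat_lit 5) (nat_lit 173) (nat_lit 5) (nat_lit 487) (nat_lit 417) (nat_lit 236))) (XT.nd (nat_lit 78) (nat_lit 456) (nat_lit 0) (XT.lf (nat_lit 0) (nat_lit 7203751144) (nat_lit 532) (nat_lit 8094551454) (nat_lit 76) (nat_lit 4042853031) (nat_lit 166) (nat_lit 5) (nat_lit 173) (nat_lit 5) (nat_lit 167) (nat_lit 5) (nat_lit 488) (nat_lit 417) (nat_lit 235)) (XT.lf (nat_lit 0) (nat_lit 1582989060) (nat_lit 456) (nat_lit 8929655859) (nat_lit 532) (nat_lit 9075139265) (nat_lit 160) (nat_lit 5) (nat_lit 166) (nat_lit 5) (nat_lit 167) (nat_lit 5) (nat_lit 489) (nat_lit 417) (nat_lit 234))))) (XT.nd (nat_lit 234) (nat_lit 836) (nat_lit 0) (XT.nd (nat_lit 78) (nat_lit 532) (nat_lit 0) (XT.lf (nat_lit 0) (nat_lit 11554097577) (nat_lit 456) (nat_lit 2380784720) (nat_lit 532) (nat_lit 5903523569) (nat_lit 160) (nat_lit 5) (nat_lit 166)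 (nat_lit 5) (nat_lit 167) (nat_lit 5) (nat_lit 490) (nat_lit 417) (nat_lit 233)) (XT.nd (nat_lit 78) (nat_lit 76) (nat_lit 0) (XT.lf (nat_lit 0) (nat_lit 1614202407) (nat_lit 456) (nat_lit 15842725888) (nat_lit 532) (nat_lit 2636488206) (nat_lit 154) (nat_lit 5) (nat_lit 160) (nat_lit 5) (nat_lit 161) (nat_lit 5) (nat_lit 491) (nat_lit 417) (nat_lit 232)) (XT.lf (nat_lit 0) (nat_lit 751485107) (nat_lit 532) (nat_lit 8559766646) (nat_lit 76) (nat_lit 11040894406) (nat_lit 153) (nat_lit 5) (nat_lit 160) (nat_lit 5) (nat_lit 154) (nat_lit 5) (nat_lit 492) (nat_lit 417) (nat_lit 231)))) (XT.nd (nat_lit 156) (nat_lit 380) (nat_lit 0) (XT.nd (nat_lit 78) (nat_lit 0) (nat_lit 0) (XT.lf (nat_lit 0) (nat_lit 1551469799) (nat_lit 456) (nat_lit 2623685920) (nat_lit 532) (nat_lit 16440484914) (nat_lit 147) (nat_lit 5) (nat_lit 153) (nat_lit 5) (nat_lit 154) (nat_lit 5) (nat_lit 493) (nat_lit 417) (nat_lit 230)) (XT.lf (nat_lit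 0) (nat_lit 7745565064) (nat_lit 532) (nat_lit 8939476944) (nat_lit 76) (nat_lit 4197801190) (nat_lit 147) (nat_lit 5) (nat_lit 154) (nat_lit 5) (nat_lit 148) (nat_lit 5) (nat_lit 494) (nat_lit 417) (nat_lit 229))) (XT.nd (nat_lit 78) (nat_lit 0) (nat_lit 0) (XT.lf (nat_lit 0) (nat_lit 1379061854) (nat_lit 380) (nat_lit 10027974021) (nat_lit 456) (nat_lit 9747964313) (nat_lit 142) (nat_lit 5) (nat_lit 147) (nat_lit 5) (nat_lit 148) (nat_lit 5) (nat_lit 495) (nat_lit 417) (nat_lit 228)) (XT.lf (nat_lit 0) (nat_lit 12015849763) (nat_lit 380) (nat_lit 3179269553) (nat_lit 456) (nat_lit 6236416709) (nat_lit 142) (nat_lit 5) (nat_lit 147) (nat_lit 5) (nat_lit 148) (nat_lit 5) (nat_lit 496) (nat_lit 417) (nat_lit 227))))))))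
noncomputable def xc187 : XT := (XT.nd (nat_lit 53430) (nat_lit 0) (nat_lit 19532) (XT.nd (nat_lit 1092) (nat_lit 1596) (nat_lit 0) (XT.nd (nat_lit 546) (nat_lit 1520) (nat_lit 0) (XT.nd (nat_lit 234) (nat_lit 380) (nat_lit 0) (XT.nd (nat_lit 78) (nat_lit 456) (nat_lit 0) (XT.lf (nat_lit 0) (nat_lit 1132680444) (nat_lit 456) (nat_lit 17951858820) (nat_lit 532) (nat_lit 2628555123) (nat_lit 136) (nat_lit 5) (nat_lit 142) (nat_lit 5) (nat_lit 143) (nat_lit 5) (nat_lit 497) (nat_lit 417) (nat_lit 226)) (XT.nd (nat_lit 78) (nat_lit 380) (nat_lit 0) (XT.lf (nat_lit 0) (nat_lit 1115859983) (nat_lit 532) (nat_lit 10016934065) (nat_lit 76) (nat_lit 10865792782) (nat_lit 135) (nat_lit 5) (nat_lit 142) (nat_lit 5) (nat_lit 136) (nat_lit 5) (nat_lit 498) (nat_lit 417) (nat_lit 225)) (XT.lf (nat_lit 0) (nat_lit 741047897) (nat_lit 380) (nat_lit 4157419310) (nat_lit 456) (nat_lit 17391007529) (nat_lit 130) (nat_lit 5) (nat_lit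 135) (nat_lit 5) (nat_lit 136) (nat_lit 5) (nat_lit 499) (nat_lit 417) (nat_lit 224)))) (XT.nd (nat_lit 156) (nat_lit 0) (nat_lit 0) (XT.nd (nat_lit 78) (nat_lit 380) (nat_lit 0) (XT.lf (nat_lit 0) (nat_lit 8837296380) (nat_lit 456) (nat_lit 10763641253) (nat_lit 76) (nat_lit 2983634425) (nat_lit 130) (nat_lit 5) (nat_lit 136) (nat_lit 5) (nat_lit 131) (nat_lit 5) (nat_lit 500) (nat_lit 417) (nat_lit 223)) (XT.lf (nat_lit 0) (nat_lit 203019182) (nat_lit 380) (nat_lit 12674561054) (nat_lit 456) (nat_lit 10007540524) (nat_lit 125) (nat_lit 5) (nat_lit 130) (nat_lit 5) (nat_lit 131) (nat_lit 5) (nat_lit 501) (nat_lit 417) (nat_lit 222))) (XT.nd (nat_lit 78) (nat_lit 0) (nat_lit 0) (XT.lf (nat_lit 0) (nat_lit 11526024786) (nat_lit 380) (nat_lit 5538765366) (nat_lit 456) (nat_lit 6125570810) (nat_lit 125) (nat_lit 5) (nat_lit 130) (nat_lit 5) (nat_lit 131) (nat_lit 5) (nat_lit 502) (nat_lit 417) (nat_lit 221)) (XT.lf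 (nat_lit 0) (nat_lit 21341032616) (nat_lit 456) (nat_lit 446333683) (nat_lit 76) (nat_lit 1714236779) (nat_lit 125) (nat_lit 5) (nat_lit 131) (nat_lit 5) (nat_lit 126) (nat_lit 5) (nat_lit 503) (nat_lit 417) (nat_lit 220))))) (XT.nd (nat_lit 234) (nat_lit 760) (nat_lit 0) (XT.nd (nat_lit 78) (nat_lit 380) (nat_lit 0) (XT.lf (nat_lit 0) (nat_lit 1962537866) (nat_lit 380) (nat_lit 12733699912) (nat_lit 76) (nat_lit 9120520148) (nat_lit 120) (nat_lit 5) (nat_lit 125) (nat_lit 5) (nat_lit 121) (nat_lit 5) (nat_lit 504) (nat_lit 417) (nat_lit 219)) (XT.nd (nat_lit 78) (nat_lit 380) (nat_lit 0) (XT.lf (nat_lit 0) (nat_lit 6136349239) (nat_lit 380) (nat_lit 1312069968) (nat_lit 76) (nat_lit 16689570328) (nat_lit 120) (nat_lit 5) (nat_lit 125) (nat_lit 5) (nat_lit 121) (nat_lit 5) (nat_lit 505) (nat_lit 417) (nat_lit 218)) (XT.lf (nat_lit 0) (nat_lit 10455908960) (nat_lit 456) (nat_lit 13997712695) (nat_lit 76) (nat_lit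 10781339) (nat_lit 115) (nat_lit 5) (nat_lit 121) (nat_lit 5) (nat_lit 116) (nat_lit 5) (nat_lit 506) (nat_lit 417) (nat_lit 217)))) (XT.nd (nat_lit 156) (nat_lit 456) (nat_lit 0) (XT.nd (nat_lit 78) (nat_lit 304) (nat_lit 0) (XT.lf (nat_lit 0) (nat_lit 14914334331) (nat_lit 456) (nat_lit 2356289160) (nat_lit 76) (nat_lit 7525674347) (nat_lit 115) (nat_lit 5) (nat_lit 121) (nat_lit 5) (nat_lit 116) (nat_lit 5) (nat_lit 507) (nat_lit 417) (nat_lit 216)) (XT.lf (nat_lit 0) (nat_lit 9635961615) (nat_lit 304) (nat_lit 9882925912) (nat_lit 380) (nat_lit 5614806422) (nat_lit 111) (nat_lit 5) (nat_lit 115) (nat_lit 5) (nat_lit 116) (nat_lit 5) (nat_lit 508) (nat_lit 417) (nat_lit 215))) (XT.nd (nat_lit 78) (nat_lit 456) (nat_lit 0) (XT.lf (nat_lit 0) (nat_lit 21891674050) (nat_lit 304) (nat_lit 2334121776) (nat_lit 380) (nat_lit 1251839379) (nat_lit 111) (nat_lit 5) (nat_lit 115) (nat_lit 5) (nat_lit 116) (nat_lit 5)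 (nat_lit 509) (nat_lit 417) (nat_lit 214)) (XT.lf (nat_lit 0) (nat_lit 3242442520) (nat_lit 456) (nat_lit 17213887625) (nat_lit 76) (nat_lit 5369992170) (nat_lit 105) (nat_lit 5) (nat_lit 111) (nat_lit 5) (nat_lit 106) (nat_lit 5) (nat_lit 510) (nat_lit 417) (nat_lit 213)))))) (XT.nd (nat_lit 546) (nat_lit 608) (nat_lit 0) (XT.nd (nat_lit 234) (nat_lit 684) (nat_lit 0) (XT.nd (nat_lit 78) (nat_lit 304) (nat_lit 0) (XT.lf (nat_lit 0) (nat_lit 7844103220) (nat_lit 456) (nat_lit 5110276452) (nat_lit 76) (nat_lit 13226755256) (nat_lit 105) (nat_lit 5) (nat_lit 111) (nat_lit 5) (nat_lit 106) (nat_lit 5) (nat_lit 511) (nat_lit 417) (nat_lit 212)) (XT.nd (nat_lit 78) (nat_lit 0) (nat_lit 0) (XT.lf (nat_lit 0) (nat_lit 7323341918) (nat_lit 304) (nat_lit 5256668714) (nat_lit 380) (nat_lit 13962191206) (nat_lit 101) (nat_lit 5) (nat_lit 105) (nat_lit 5) (nat_lit 106) (nat_lit 5) (nat_lit 512) (nat_lit 417) (nat_lit 211))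 (XT.lf (nat_lit 0) (nat_lit 17456704134) (nat_lit 380) (nat_lit 6860124467) (nat_lit 76) (nat_lit 2592742395) (nat_lit 101) (nat_lit 5) (nat_lit 106) (nat_lit 5) (nat_lit 102) (nat_lit 5) (nat_lit 513) (nat_lit 417) (nat_lit 210)))) (XT.nd (nat_lit 156) (nat_lit 304) (nat_lit 0) (XT.nd (nat_lit 78) (nat_lit 76) (nat_lit 0) (XT.lf (nat_lit 0) (nat_lit 5778774266) (nat_lit 304) (nat_lit 16719292931) (nat_lit 380) (nat_lit 4784879851) (nat_lit 97) (nat_lit 5) (nat_lit 101) (nat_lit 5) (nat_lit 102) (nat_lit 5) (nat_lit 514) (nat_lit 417) (nat_lit 209)) (XT.lf (nat_lit 0) (nat_lit 17933266) (nat_lit 380) (nat_lit 8907587394) (nat_lit 76) (nat_lit 18737452000) (nat_lit 96) (nat_lit 5) (nat_lit 101) (nat_lit 5) (nat_lit 97) (nat_lit 5) (nat_lit 515) (nat_lit 417) (nat_lit 208))) (XT.nd (nat_lit 78) (nat_lit 0) (nat_lit 0) (XT.lf (nat_lit 0) (nat_lit 3953239034) (nat_lit 304) (nat_lit 920140433) (nat_lit 380) (nat_lit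 23176175925) (nat_lit 92) (nat_lit 5) (nat_lit 96) (nat_lit 5) (nat_lit 97) (nat_lit 5) (nat_lit 516) (nat_lit 417) (nat_lit 207)) (XT.lf (nat_lit 0) (nat_lit 9928097097) (nat_lit 380) (nat_lit 11305968302) (nat_lit 76) (nat_lit 7207763185) (nat_lit 92) (nat_lit 5) (nat_lit 97) (nat_lit 5) (nat_lit 93) (nat_lit 5) (nat_lit 517) (nat_lit 417) (nat_lit 206))))) (XT.nd (nat_lit 234) (nat_lit 304) (nat_lit 0) (XT.nd (nat_lit 78) (nat_lit 0) (nat_lit 0) (XT.lf (nat_lit 0) (nat_lit 1749306879) (nat_lit 304) (nat_lit 13347102961) (nat_lit 380) (nat_lit 13745289400) (nat_lit 88) (nat_lit 5) (nat_lit 92) (nat_lit 5) (nat_lit 93) (nat_lit 5) (nat_lit 518) (nat_lit 417) (nat_lit 205)) (XT.nd (nat_lit 78) (nat_lit 0) (nat_lit 0) (XT.lf (nat_lit 0) (nat_lit 15211265121) (nat_lit 304) (nat_lit 5227789389) (nat_lit 380) (nat_lit 8809095459) (nat_lit 88) (nat_lit 5) (nat_lit 92) (nat_lit 5) (nat_lit 93) (nat_lit 5) (nat_lit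 519) (nat_lit 417) (nat_lit 204)) (XT.lf (nat_lit 0) (nat_lit 25903555245) (nat_lit 380) (nat_lit 747702890) (nat_lit 76) (nat_lit 3011173451) (nat_lit 88) (nat_lit 5) (nat_lit 93) (nat_lit 5) (nat_lit 89) (nat_lit 5) (nat_lit 520) (nat_lit 417) (nat_lit 203)))) (XT.nd (nat_lit 51402) (nat_lit 0) (nat_lit 27436) (XT.nd (nat_lit 51324) (nat_lit 0) (nat_lit 27436) (XT.lf (nat_lit 0) (nat_lit 1488710873) (nat_lit 304) (nat_lit 17157691812) (nat_lit 76) (nat_lit 11436124719) (nat_lit 84) (nat_lit 5) (nat_lit 88) (nat_lit 5) (nat_lit 85) (nat_lit 5) (nat_lit 521) (nat_lit 417) (nat_lit 202)) (XT.lf (nat_lit 0) (nat_lit 1489882692) (nat_lit 0) (nat_lit 1489882692) (nat_lit 1444) (nat_lit 1647207975) (nat_lit 445) (nat_lit 5) (nat_lit 445) (nat_lit 3) (nat_lit 464) (nat_lit 3) (nat_lit 418) (nat_lit 418) (nat_lit 304))) (XT.nd (nat_lit 78) (nat_lit 0) (nat_lit 0) (XT.lf (nat_lit 0) (nat_lit 6828172630) (nat_lit 1444)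 (nat_lit 2044996804) (nat_lit 1520) (nat_lit 456443961) (nat_lit 445) (nat_lit 5) (nat_lit 464) (nat_lit 3) (nat_lit 465) (nat_lit 5) (nat_lit 419) (nat_lit 418) (nat_lit 303)) (XT.lf (nat_lit 76) (nat_lit 2267698092) (nat_lit 0) (nat_lit 5459872004) (nat_lit 1520) (nat_lit 1678973800) (nat_lit 446) (nat_lit 5) (nat_lit 445) (nat_lit 5) (nat_lit 465) (nat_lit 5) (nat_lit 420) (nat_lit 418) (nat_lit 302))))))) (XT.nd (nat_lit 1092) (nat_lit 5168) (nat_lit 0) (XT.nd (nat_lit 546) (nat_lit 1292) (nat_lit 0) (XT.nd (nat_lit 234) (nat_lit 0) (nat_lit 0) (XT.nd (nat_lit 78) (nat_lit 1444) (nat_lit 0) (XT.lf (nat_lit 76) (nat_lit 6683359210) (nat_lit 0) (nat_lit 1954586876) (nat_lit 1520) (nat_lit 847224903) (nat_lit 446) (nat_lit 5) (nat_lit 445) (nat_lit 5) (nat_lit 465) (nat_lit 5) (nat_lit 421) (nat_lit 418) (nat_lit 301)) (XT.nd (nat_lit 78) (nat_lit 0) (nat_lit 0) (XT.lf (nat_lit 0) (nat_lit 1918466) (nat_lit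 1520) (nat_lit 7943958217) (nat_lit 1596) (nat_lit 1619495396) (nat_lit 426) (nat_lit 5) (nat_lit 446) (nat_lit 5) (nat_lit 447) (nat_lit 5) (nat_lit 422) (nat_lit 418) (nat_lit 300)) (XT.lf (nat_lit 0) (nat_lit 868493045) (nat_lit 1520) (nat_lit 3505885096) (nat_lit 1596) (nat_lit 5272467959) (nat_lit 426) (nat_lit 5) (nat_lit 446) (nat_lit 5) (nat_lit 447) (nat_lit 5) (nat_lit 423) (nat_lit 418) (nat_lit 299)))) (XT.nd (nat_lit 156) (nat_lit 0) (nat_lit 76) (XT.nd (nat_lit 78) (nat_lit 0) (nat_lit 76) (XT.lf (nat_lit 76) (nat_lit 1023105254) (nat_lit 0) (nat_lit 716242079) (nat_lit 1596) (nat_lit 7990879741) (nat_lit 427) (nat_lit 5) (nat_lit 426) (nat_lit 5) (nat_lit 447) (nat_lit 5) (nat_lit 424) (nat_lit 418) (nat_lit 298)) (XT.lf (nat_lit 0) (nat_lit 2651548848) (nat_lit 1520) (nat_lit 4155983359) (nat_lit 1596) (nat_lit 3007280973) (nat_lit 427) (nat_lit 5) (nat_lit 447) (nat_lit 5) (nat_lit 448) (nat_lit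 5) (nat_lit 425) (nat_lit 418) (nat_lit 297))) (XT.nd (nat_lit 78) (nat_lit 0) (nat_lit 76) (XT.lf (nat_lit 76) (nat_lit 476263900) (nat_lit 0) (nat_lit 3094617269) (nat_lit 1596) (nat_lit 6330447902) (nat_lit 428) (nat_lit 5) (nat_lit 427) (nat_lit 5) (nat_lit 448) (nat_lit 5) (nat_lit 426) (nat_lit 418) (nat_lit 296)) (XT.lf (nat_lit 0) (nat_lit 4522566791) (nat_lit 1520) (nat_lit 4747984961) (nat_lit 1596) (nat_lit 718759683) (nat_lit 428) (nat_lit 5) (nat_lit 448) (nat_lit 5) (nat_lit 449) (nat_lit 5) (nat_lit 427) (nat_lit 418) (nat_lit 295))))) (XT.nd (nat_lit 234) (nat_lit 1444) (nat_lit 0) (XT.nd (nat_lit 78) (nat_lit 0) (nat_lit 0) (XT.lf (nat_lit 0) (nat_lit 5495541643) (nat_lit 1520) (nat_lit 9404147) (nat_lit 1596) (nat_lit 4574077732) (nat_lit 428) (nat_lit 5) (nat_lit 448) (nat_lit 5) (nat_lit 449) (nat_lit 5) (nat_lit 428) (nat_lit 418) (nat_lit 294)) (XT.nd (nat_lit 78) (nat_lit 0) (nat_lit 76)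 (XT.lf (nat_lit 76) (nat_lit 4876585135) (nat_lit 0) (nat_lit 1625171866) (nat_lit 1596) (nat_lit 3668512117) (nat_lit 429) (nat_lit 5) (nat_lit 428) (nat_lit 5) (nat_lit 449) (nat_lit 5) (nat_lit 429) (nat_lit 418) (nat_lit 293)) (XT.lf (nat_lit 0) (nat_lit 7525740218) (nat_lit 1520) (nat_lit 429713178) (nat_lit 1596) (nat_lit 2307947955) (nat_lit 429) (nat_lit 5) (nat_lit 449) (nat_lit 5) (nat_lit 450) (nat_lit 5) (nat_lit 430) (nat_lit 418) (nat_lit 292)))) (XT.nd (nat_lit 156) (nat_lit 1520) (nat_lit 0) (XT.nd (nat_lit 78) (nat_lit 0) (nat_lit 0) (XT.lf (nat_lit 76) (nat_lit 4569275795) (nat_lit 0) (nat_lit 4024139009) (nat_lit 1596) (nat_lit 1764531498) (nat_lit 430) (nat_lit 5) (nat_lit 429) (nat_lit 5) (nat_lit 450) (nat_lit 5) (nat_lit 431) (nat_lit 418) (nat_lit 291)) (XT.lf (nat_lit 76) (nat_lit 9662719197) (nat_lit 0) (nat_lit 5653407) (nat_lit 1596) (nat_lit 786304984) (nat_lit 430) (nat_lit 5) (nat_lit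 429) (nat_lit 5) (nat_lit 450) (nat_lit 5) (nat_lit 432) (nat_lit 418) (nat_lit 290))) (XT.nd (nat_lit 78) (nat_lit 0) (nat_lit 0) (XT.lf (nat_lit 0) (nat_lit 247010613) (nat_lit 1596) (nat_lit 6230917566) (nat_lit 1672) (nat_lit 4074635377) (nat_lit 409) (nat_lit 5) (nat_lit 430) (nat_lit 5) (nat_lit 431) (nat_lit 5) (nat_lit 433) (nat_lit 418) (nat_lit 289)) (XT.lf (nat_lit 0) (nat_lit 1279404542) (nat_lit 1596) (nat_lit 1120988963) (nat_lit 1672) (nat_lit 8252144197) (nat_lit 409) (nat_lit 5) (nat_lit 430) (nat_lit 5) (nat_lit 431) (nat_lit 5) (nat_lit 434) (nat_lit 418) (nat_lit 288)))))) (XT.nd (nat_lit 546) (nat_lit 5244) (nat_lit 0) (XT.nd (nat_lit 234) (nat_lit 0) (nat_lit 76) (XT.nd (nat_lit 78) (nat_lit 0) (nat_lit 0) (XT.lf (nat_lit 0) (nat_lit 2354779707) (nat_lit 1596) (nat_lit 6632018684) (nat_lit 1672) (nat_lit 1767279232) (nat_lit 410) (nat_lit 5) (nat_lit 431) (nat_lit 5) (nat_lit 432) (nat_lit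 5) (nat_lit 435) (nat_lit 418) (nat_lit 287)) (XT.nd (nat_lit 78) (nat_lit 0) (nat_lit 0) (XT.lf (nat_lit 0) (nat_lit 3459269630) (nat_lit 1596) (nat_lit 1400002928) (nat_lit 1672) (nat_lit 5998236345) (nat_lit 410) (nat_lit 5) (nat_lit 431) (nat_lit 5) (nat_lit 432) (nat_lit 5) (nat_lit 436) (nat_lit 418) (nat_lit 286)) (XT.lf (nat_lit 76) (nat_lit 3977324634) (nat_lit 0) (nat_lit 618797525) (nat_lit 1672) (nat_lit 6366693652) (nat_lit 411) (nat_lit 5) (nat_lit 410) (nat_lit 5) (nat_lit 432) (nat_lit 5) (nat_lit 437) (nat_lit 418) (nat_lit 285)))) (XT.nd (nat_lit 156) (nat_lit 0) (nat_lit 76) (XT.nd (nat_lit 78) (nat_lit 0) (nat_lit 0) (XT.lf (nat_lit 0) (nat_lit 5773939201) (nat_lit 1596) (nat_lit 1624752180) (nat_lit 1672) (nat_lit 3671185141) (nat_lit 411) (nat_lit 5) (nat_lit 432) (nat_lit 5) (nat_lit 433) (nat_lit 5) (nat_lit 438) (nat_lit 418) (nat_lit 284)) (XT.lf (nat_lit 76) (nat_lit 3878440451) (nat_lit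 0) (nat_lit 3111156943) (nat_lit 1672) (nat_lit 4189207328) (nat_lit 412) (nat_lit 5) (nat_lit 411) (nat_lit 5) (nat_lit 433) (nat_lit 5) (nat_lit 439) (nat_lit 418) (nat_lit 283))) (XT.nd (nat_lit 78) (nat_lit 0) (nat_lit 0) (XT.lf (nat_lit 0) (nat_lit 8233985089) (nat_lit 1596) (nat_lit 1796021870) (nat_lit 1672) (nat_lit 1259827940) (nat_lit 412) (nat_lit 5) (nat_lit 433) (nat_lit 5) (nat_lit 434) (nat_lit 5) (nat_lit 440) (nat_lit 418) (nat_lit 282)) (XT.lf (nat_lit 76) (nat_lit 3836569478) (nat_lit 0) (nat_lit 5697740201) (nat_lit 1672) (nat_lit 1868166526) (nat_lit 413) (nat_lit 5) (nat_lit 412) (nat_lit 5) (nat_lit 434) (nat_lit 5) (nat_lit 441) (nat_lit 418) (nat_lit 281))))) (XT.nd (nat_lit 312) (nat_lit 2128) (nat_lit 0) (XT.nd (nat_lit 156) (nat_lit 1672) (nat_lit 0) (XT.nd (nat_lit 78) (nat_lit 1596) (nat_lit 0) (XT.lf (nat_lit 76) (nat_lit 9594682688) (nat_lit 0) (nat_lit 1263755327) (nat_lit 1672)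 (nat_lit 658987660) (nat_lit 413) (nat_lit 5) (nat_lit 412) (nat_lit 5) (nat_lit 434) (nat_lit 5) (nat_lit 442) (nat_lit 418) (nat_lit 280)) (XT.lf (nat_lit 0) (nat_lit 599249045) (nat_lit 1672) (nat_lit 7786909743) (nat_lit 76) (nat_lit 3247803461) (nat_lit 391) (nat_lit 5) (nat_lit 413) (nat_lit 5) (nat_lit 392) (nat_lit 5) (nat_lit 443) (nat_lit 418) (nat_lit 279))) (XT.nd (nat_lit 78) (nat_lit 1672) (nat_lit 0) (XT.lf (nat_lit 0) (nat_lit 1881331708) (nat_lit 1672) (nat_lit 2018760704) (nat_lit 76) (nat_lit 7852510555) (nat_lit 391) (nat_lit 5) (nat_lit 413) (nat_lit 5) (nat_lit 392) (nat_lit 5) (nat_lit 444) (nat_lit 418) (nat_lit 278)) (XT.lf (nat_lit 0) (nat_lit 3205386830) (nat_lit 1748) (nat_lit 7973449428) (nat_lit 76) (nat_lit 694464048) (nat_lit 369) (nat_lit 5) (nat_lit 392) (nat_lit 5) (nat_lit 370) (nat_lit 5) (nat_lit 445) (nat_lit 418) (nat_lit 277)))) (XT.nd (nat_lit 156) (nat_lit 836) (nat_lit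 0) (XT.nd (nat_lit 78) (nat_lit 1292) (nat_lit 0) (XT.lf (nat_lit 0) (nat_lit 4582005167) (nat_lit 1748) (nat_lit 2069523808) (nat_lit 76) (nat_lit 5344371195) (nat_lit 369) (nat_lit 5) (nat_lit 392) (nat_lit 5) (nat_lit 370) (nat_lit 5) (nat_lit 446) (nat_lit 418) (nat_lit 276)) (XT.lf (nat_lit 0) (nat_lit 3993418909) (nat_lit 1292) (nat_lit 2005544321) (nat_lit 1368) (nat_lit 6121742672) (nat_lit 352) (nat_lit 5) (nat_lit 369) (nat_lit 5) (nat_lit 370) (nat_lit 5) (nat_lit 447) (nat_lit 418) (nat_lit 275))) (XT.nd (nat_lit 78) (nat_lit 836) (nat_lit 0) (XT.lf (nat_lit 0) (nat_lit 7463059983) (nat_lit 1368) (nat_lit 2071534719) (nat_lit 76) (nat_lit 2713046879) (nat_lit 352) (nat_lit 5) (nat_lit 370) (nat_lit 5) (nat_lit 353) (nat_lit 5) (nat_lit 448) (nat_lit 418) (nat_lit 274)) (XT.lf (nat_lit 0) (nat_lit 4134869241) (nat_lit 836) (nat_lit 4849024137) (nat_lit 912) (nat_lit 3392683131) (nat_lit 341) (nat_lit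 5) (nat_lit 352) (nat_lit 5) (nat_lit 353) (nat_lit 5) (nat_lit 449) (nat_lit 418) (nat_lit 273))))))))
noncomputable def xc188 : XT := (XT.nd (nat_lit 2184) (nat_lit 6688) (nat_lit 0) (XT.nd (nat_lit 1092) (nat_lit 4484) (nat_lit 0) (XT.nd (nat_lit 546) (nat_lit 3040) (nat_lit 0) (XT.nd (nat_lit 234) (nat_lit 1672) (nat_lit 0) (XT.nd (nat_lit 78) (nat_lit 912) (nat_lit 0) (XT.lf (nat_lit 0) (nat_lit 10482145391) (nat_lit 836) (nat_lit 54400678) (nat_lit 912) (nat_lit 1971525456) (nat_lit 341) (nat_lit 5) (nat_lit 352) (nat_lit 5) (nat_lit 353) (nat_lit 5) (nat_lit 450) (nat_lit 418) (nat_lit 272)) (XT.nd (nat_lit 78) (nat_lit 76) (nat_lit 0) (XT.lf (nat_lit 0) (nat_lit 4328160422) (nat_lit 836) (nat_lit 7839345953) (nat_lit 912) (nat_lit 473754229) (nat_lit 330) (nat_lit 5) (nat_lit 341) (nat_lit 5) (nat_lit 342) (nat_lit 5) (nat_lit 451) (nat_lit 418) (nat_lit 271)) (XT.lf (nat_lit 0) (nat_lit 1042026518) (nat_lit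 912) (nat_lit 1958815586) (nat_lit 76) (nat_lit 9776105854) (nat_lit 329) (nat_lit 5) (nat_lit 341) (nat_lit 5) (nat_lit 330) (nat_lit 5) (nat_lit 452) (nat_lit 418) (nat_lit 270)))) (XT.nd (nat_lit 156) (nat_lit 836) (nat_lit 0) (XT.nd (nat_lit 78) (nat_lit 0) (nat_lit 0) (XT.lf (nat_lit 0) (nat_lit 2612295900) (nat_lit 912) (nat_lit 8359639588) (nat_lit 76) (nat_lit 1942749330) (nat_lit 318) (nat_lit 5) (nat_lit 330) (nat_lit 5) (nat_lit 319) (nat_lit 5) (nat_lit 453) (nat_lit 418) (nat_lit 269)) (XT.lf (nat_lit 0) (nat_lit 4235311169) (nat_lit 912) (nat_lit 1860558344) (nat_lit 76) (nat_lit 6958888644) (nat_lit 318) (nat_lit 5) (nat_lit 330) (nat_lit 5) (nat_lit 319) (nat_lit 5) (nat_lit 454) (nat_lit 418) (nat_lit 268))) (XT.nd (nat_lit 78) (nat_lit 0) (nat_lit 0) (XT.lf (nat_lit 0) (nat_lit 4820530404) (nat_lit 836) (nat_lit 1090020731) (nat_lit 912) (nat_lit 7286694924) (nat_lit 307) (nat_lit 5) (nat_lit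 318) (nat_lit 5) (nat_lit 319) (nat_lit 5) (nat_lit 455) (nat_lit 418) (nat_lit 267)) (XT.lf (nat_lit 0) (nat_lit 7646560006) (nat_lit 912) (nat_lit 1719389658) (nat_lit 76) (nat_lit 3976096991) (nat_lit 307) (nat_lit 5) (nat_lit 319) (nat_lit 5) (nat_lit 308) (nat_lit 5) (nat_lit 456) (nat_lit 418) (nat_lit 266))))) (XT.nd (nat_lit 234) (nat_lit 1520) (nat_lit 0) (XT.nd (nat_lit 78) (nat_lit 760) (nat_lit 0) (XT.lf (nat_lit 0) (nat_lit 5119874937) (nat_lit 760) (nat_lit 4326719437) (nat_lit 836) (nat_lit 4042570839) (nat_lit 297) (nat_lit 5) (nat_lit 307) (nat_lit 5) (nat_lit 308) (nat_lit 5) (nat_lit 457) (nat_lit 418) (nat_lit 265)) (XT.nd (nat_lit 78) (nat_lit 760) (nat_lit 0) (XT.lf (nat_lit 0) (nat_lit 11288515848) (nat_lit 836) (nat_lit 1536412392) (nat_lit 76) (nat_lit 814188075) (nat_lit 297) (nat_lit 5) (nat_lit 308) (nat_lit 5) (nat_lit 298) (nat_lit 5) (nat_lit 458) (nat_lit 418) (nat_lit 264)) (XT.lf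 (nat_lit 0) (nat_lit 5465074371) (nat_lit 760) (nat_lit 7755545433) (nat_lit 836) (nat_lit 570387499) (nat_lit 287) (nat_lit 5) (nat_lit 297) (nat_lit 5) (nat_lit 298) (nat_lit 5) (nat_lit 459) (nat_lit 418) (nat_lit 263)))) (XT.nd (nat_lit 156) (nat_lit 760) (nat_lit 0) (XT.nd (nat_lit 78) (nat_lit 684) (nat_lit 0) (XT.lf (nat_lit 0) (nat_lit 1228743681) (nat_lit 836) (nat_lit 1337614555) (nat_lit 76) (nat_lit 11379430635) (nat_lit 286) (nat_lit 5) (nat_lit 297) (nat_lit 5) (nat_lit 287) (nat_lit 5) (nat_lit 460) (nat_lit 418) (nat_lit 262)) (XT.lf (nat_lit 0) (nat_lit 3101682540) (nat_lit 760) (nat_lit 8268504566) (nat_lit 76) (nat_lit 2732501608) (nat_lit 277) (nat_lit 5) (nat_lit 287) (nat_lit 5) (nat_lit 278) (nat_lit 5) (nat_lit 461) (nat_lit 418) (nat_lit 261))) (XT.nd (nat_lit 78) (nat_lit 760) (nat_lit 0) (XT.lf (nat_lit 0) (nat_lit 5027724155) (nat_lit 760) (nat_lit 1123120527) (nat_lit 76) (nat_lit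 8111576147) (nat_lit 277) (nat_lit 5) (nat_lit 287) (nat_lit 5) (nat_lit 278) (nat_lit 5) (nat_lit 462) (nat_lit 418) (nat_lit 260)) (XT.lf (nat_lit 0) (nat_lit 6236107049) (nat_lit 760) (nat_lit 786484856) (nat_lit 836) (nat_lit 7402156589) (nat_lit 267) (nat_lit 5) (nat_lit 277) (nat_lit 5) (nat_lit 278) (nat_lit 5) (nat_lit 463) (nat_lit 418) (nat_lit 259)))))) (XT.nd (nat_lit 546) (nat_lit 2432) (nat_lit 0) (XT.nd (nat_lit 234) (nat_lit 1368) (nat_lit 0) (XT.nd (nat_lit 78) (nat_lit 684) (nat_lit 0) (XT.lf (nat_lit 0) (nat_lit 9085304161) (nat_lit 836) (nat_lit 873881356) (nat_lit 76) (nat_lit 4630585130) (nat_lit 267) (nat_lit 5) (nat_lit 278) (nat_lit 5) (nat_lit 268) (nat_lit 5) (nat_lit 464) (nat_lit 418) (nat_lit 258)) (XT.nd (nat_lit 78) (nat_lit 0) (nat_lit 0) (XT.lf (nat_lit 0) (nat_lit 6658524888) (nat_lit 684) (nat_lit 4569324401) (nat_lit 760) (nat_lit 3529479124) (nat_lit 258) (nat_lit 5) (nat_lit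 267) (nat_lit 5) (nat_lit 268) (nat_lit 5) (nat_lit 465) (nat_lit 418) (nat_lit 257)) (XT.lf (nat_lit 0) (nat_lit 13415431951) (nat_lit 760) (nat_lit 591653872) (nat_lit 76) (nat_lit 921114389) (nat_lit 258) (nat_lit 5) (nat_lit 268) (nat_lit 5) (nat_lit 259) (nat_lit 5) (nat_lit 466) (nat_lit 418) (nat_lit 256)))) (XT.nd (nat_lit 156) (nat_lit 608) (nat_lit 0) (XT.nd (nat_lit 78) (nat_lit 0) (nat_lit 0) (XT.lf (nat_lit 0) (nat_lit 604498172) (nat_lit 760) (nat_lit 7987080522) (nat_lit 76) (nat_lit 6509499238) (nat_lit 248) (nat_lit 5) (nat_lit 258) (nat_lit 5) (nat_lit 249) (nat_lit 5) (nat_lit 467) (nat_lit 418) (nat_lit 255)) (XT.lf (nat_lit 0) (nat_lit 2738366471) (nat_lit 760) (nat_lit 316337940) (nat_lit 76) (nat_lit 12222624785) (nat_lit 248) (nat_lit 5) (nat_lit 258) (nat_lit 5) (nat_lit 249) (nat_lit 5) (nat_lit 468) (nat_lit 418) (nat_lit 254))) (XT.nd (nat_lit 78) (nat_lit 0) (nat_lit 0) (XT.lf (nat_lit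 0) (nat_lit 4972073349) (nat_lit 684) (nat_lit 7876541214) (nat_lit 76) (nat_lit 2607353806) (nat_lit 240) (nat_lit 5) (nat_lit 249) (nat_lit 5) (nat_lit 241) (nat_lit 5) (nat_lit 469) (nat_lit 418) (nat_lit 253)) (XT.lf (nat_lit 0) (nat_lit 7263610929) (nat_lit 684) (nat_lit 31629374) (nat_lit 76) (nat_lit 8342682878) (nat_lit 240) (nat_lit 5) (nat_lit 249) (nat_lit 5) (nat_lit 241) (nat_lit 5) (nat_lit 470) (nat_lit 418) (nat_lit 252))))) (XT.nd (nat_lit 234) (nat_lit 1216) (nat_lit 0) (XT.nd (nat_lit 78) (nat_lit 608) (nat_lit 0) (XT.lf (nat_lit 0) (nat_lit 8065527018) (nat_lit 608) (nat_lit 1578789465) (nat_lit 684) (nat_lit 6178339731) (nat_lit 232) (nat_lit 5) (nat_lit 240) (nat_lit 5) (nat_lit 241) (nat_lit 5) (nat_lit 471) (nat_lit 418) (nat_lit 251)) (XT.nd (nat_lit 78) (nat_lit 0) (nat_lit 0) (XT.lf (nat_lit 0) (nat_lit 279492430) (nat_lit 608) (nat_lit 11813849598) (nat_lit 684) (nat_lit 3917333517)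 (nat_lit 224) (nat_lit 5) (nat_lit 232) (nat_lit 5) (nat_lit 233) (nat_lit 5) (nat_lit 472) (nat_lit 418) (nat_lit 250)) (XT.lf (nat_lit 0) (nat_lit 8560930620) (nat_lit 608) (nat_lit 6084036581) (nat_lit 684) (nat_lit 1556421321) (nat_lit 224) (nat_lit 5) (nat_lit 232) (nat_lit 5) (nat_lit 233) (nat_lit 5) (nat_lit 473) (nat_lit 418) (nat_lit 249)))) (XT.nd (nat_lit 156) (nat_lit 532) (nat_lit 0) (XT.nd (nat_lit 78) (nat_lit 0) (nat_lit 0) (XT.lf (nat_lit 0) (nat_lit 604087503) (nat_lit 608) (nat_lit 231661604) (nat_lit 684) (nat_lit 15560157270) (nat_lit 215) (nat_lit 5) (nat_lit 223) (nat_lit 5) (nat_lit 224) (nat_lit 5) (nat_lit 474) (nat_lit 418) (nat_lit 248)) (XT.lf (nat_lit 0) (nat_lit 3335187221) (nat_lit 684) (nat_lit 7534582448) (nat_lit 76) (nat_lit 5722739184) (nat_lit 215) (nat_lit 5) (nat_lit 224) (nat_lit 5) (nat_lit 216) (nat_lit 5) (nat_lit 475) (nat_lit 418) (nat_lit 247))) (XT.nd (nat_lit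 78) (nat_lit 0) (nat_lit 0) (XT.lf (nat_lit 0) (nat_lit 887626295) (nat_lit 532) (nat_lit 4995834930) (nat_lit 608) (nat_lit 10909610421) (nat_lit 208) (nat_lit 5) (nat_lit 215) (nat_lit 5) (nat_lit 216) (nat_lit 5) (nat_lit 476) (nat_lit 418) (nat_lit 246)) (XT.lf (nat_lit 0) (nat_lit 8531697712) (nat_lit 608) (nat_lit 7433392830) (nat_lit 76) (nat_lit 1031580325) (nat_lit 208) (nat_lit 5) (nat_lit 216) (nat_lit 5) (nat_lit 209) (nat_lit 5) (nat_lit 477) (nat_lit 418) (nat_lit 245))))))) (XT.nd (nat_lit 1092) (nat_lit 3040) (nat_lit 0) (XT.nd (nat_lit 546) (nat_lit 1520) (nat_lit 0) (XT.nd (nat_lit 234) (nat_lit 1064) (nat_lit 0) (XT.nd (nat_lit 78) (nat_lit 532) (nat_lit 0) (XT.lf (nat_lit 0) (nat_lit 1180327301) (nat_lit 532) (nat_lit 10085121259) (nat_lit 608) (nat_lit 5938247528) (nat_lit 201) (nat_lit 5) (nat_lit 208) (nat_lit 5) (nat_lit 209) (nat_lit 5) (nat_lit 478) (nat_lit 418) (nat_lit 244)) (XT.nd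 (nat_lit 78) (nat_lit 532) (nat_lit 0) (XT.lf (nat_lit 0) (nat_lit 10056981685) (nat_lit 532) (nat_lit 4038671059) (nat_lit 608) (nat_lit 3318378415) (nat_lit 201) (nat_lit 5) (nat_lit 208) (nat_lit 5) (nat_lit 209) (nat_lit 5) (nat_lit 479) (nat_lit 418) (nat_lit 243)) (XT.lf (nat_lit 0) (nat_lit 1478106203) (nat_lit 532) (nat_lit 15519815157) (nat_lit 608) (nat_lit 630347179) (nat_lit 194) (nat_lit 5) (nat_lit 201) (nat_lit 5) (nat_lit 202) (nat_lit 5) (nat_lit 480) (nat_lit 418) (nat_lit 242)))) (XT.nd (nat_lit 156) (nat_lit 456) (nat_lit 0) (XT.nd (nat_lit 78) (nat_lit 532) (nat_lit 0) (XT.lf (nat_lit 0) (nat_lit 2152272436) (nat_lit 608) (nat_lit 7306991992) (nat_lit 76) (nat_lit 8385886295) (nat_lit 193) (nat_lit 5) (nat_lit 201) (nat_lit 5) (nat_lit 194) (nat_lit 5) (nat_lit 481) (nat_lit 418) (nat_lit 241)) (XT.lf (nat_lit 0) (nat_lit 1721545220) (nat_lit 532) (nat_lit 3263976472) (nat_lit 608) (nat_lit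 13080701711) (nat_lit 186) (nat_lit 5) (nat_lit 193) (nat_lit 5) (nat_lit 194) (nat_lit 5) (nat_lit 482) (nat_lit 418) (nat_lit 240))) (XT.nd (nat_lit 78) (nat_lit 456) (nat_lit 0) (XT.lf (nat_lit 0) (nat_lit 7936937667) (nat_lit 608) (nat_lit 7291176040) (nat_lit 76) (nat_lit 3062378245) (nat_lit 186) (nat_lit 5) (nat_lit 194) (nat_lit 5) (nat_lit 187) (nat_lit 5) (nat_lit 483) (nat_lit 418) (nat_lit 239)) (XT.lf (nat_lit 0) (nat_lit 1937406182) (nat_lit 456) (nat_lit 9036628037) (nat_lit 532) (nat_lit 7544682967) (nat_lit 180) (nat_lit 5) (nat_lit 186) (nat_lit 5) (nat_lit 187) (nat_lit 5) (nat_lit 484) (nat_lit 418) (nat_lit 238))))) (XT.nd (nat_lit 234) (nat_lit 912) (nat_lit 0) (XT.nd (nat_lit 78) (nat_lit 608) (nat_lit 0) (XT.lf (nat_lit 0) (nat_lit 11439674570) (nat_lit 456) (nat_lit 2673668144) (nat_lit 532) (nat_lit 4637339089) (nat_lit 180) (nat_lit 5) (nat_lit 186) (nat_lit 5) (nat_lit 187) (nat_lit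 5) (nat_lit 485) (nat_lit 418) (nat_lit 237)) (XT.nd (nat_lit 78) (nat_lit 76) (nat_lit 0) (XT.lf (nat_lit 0) (nat_lit 2138302515) (nat_lit 532) (nat_lit 15208471934) (nat_lit 608) (nat_lit 1639888712) (nat_lit 173) (nat_lit 5) (nat_lit 180) (nat_lit 5) (nat_lit 181) (nat_lit 5) (nat_lit 486) (nat_lit 418) (nat_lit 236)) (XT.lf (nat_lit 0) (nat_lit 1458715273) (nat_lit 608) (nat_lit 7387618734) (nat_lit 76) (nat_lit 10379654190) (nat_lit 172) (nat_lit 5) (nat_lit 180) (nat_lit 5) (nat_lit 173) (nat_lit 5) (nat_lit 487) (nat_lit 418) (nat_lit 235)))) (XT.nd (nat_lit 156) (nat_lit 456) (nat_lit 0) (XT.nd (nat_lit 78) (nat_lit 0) (nat_lit 0) (XT.lf (nat_lit 0) (nat_lit 2271760460) (nat_lit 456) (nat_lit 2333189625) (nat_lit 532) (nat_lit 14864784468) (nat_lit 166) (nat_lit 5) (nat_lit 172) (nat_lit 5) (nat_lit 173) (nat_lit 5) (nat_lit 488) (nat_lit 418) (nat_lit 234)) (XT.lf (nat_lit 0) (nat_lit 7884907554) (nat_lit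 532) (nat_lit 7530788368) (nat_lit 76) (nat_lit 4301247828) (nat_lit 166) (nat_lit 5) (nat_lit 173) (nat_lit 5) (nat_lit 167) (nat_lit 5) (nat_lit 489) (nat_lit 418) (nat_lit 233))) (XT.nd (nat_lit 78) (nat_lit 0) (nat_lit 0) (XT.lf (nat_lit 0) (nat_lit 2335528916) (nat_lit 456) (nat_lit 8918599713) (nat_lit 532) (nat_lit 8714499010) (nat_lit 160) (nat_lit 5) (nat_lit 166) (nat_lit 5) (nat_lit 167) (nat_lit 5) (nat_lit 490) (nat_lit 418) (nat_lit 232)) (XT.lf (nat_lit 0) (nat_lit 12491924700) (nat_lit 456) (nat_lit 2242469764) (nat_lit 532) (nat_lit 5490081257) (nat_lit 160) (nat_lit 5) (nat_lit 166) (nat_lit 5) (nat_lit 167) (nat_lit 5) (nat_lit 491) (nat_lit 418) (nat_lit 231)))))) (XT.nd (nat_lit 546) (nat_lit 1216) (nat_lit 0) (XT.nd (nat_lit 234) (nat_lit 836) (nat_lit 0) (XT.nd (nat_lit 78) (nat_lit 532) (nat_lit 0) (XT.lf (nat_lit 0) (nat_lit 2358010624) (nat_lit 456) (nat_lit 15964461912) (nat_lit 532)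 (nat_lit 2162207740) (nat_lit 154) (nat_lit 5) (nat_lit 160) (nat_lit 5) (nat_lit 161) (nat_lit 5) (nat_lit 492) (nat_lit 418) (nat_lit 230)) (XT.nd (nat_lit 78) (nat_lit 456) (nat_lit 0) (XT.lf (nat_lit 0) (nat_lit 1276415197) (nat_lit 532) (nat_lit 8026347248) (nat_lit 76) (nat_lit 11445962919) (nat_lit 153) (nat_lit 5) (nat_lit 160) (nat_lit 5) (nat_lit 154) (nat_lit 5) (nat_lit 493) (nat_lit 418) (nat_lit 229)) (XT.lf (nat_lit 0) (nat_lit 2282478302) (nat_lit 456) (nat_lit 2480627602) (nat_lit 532) (nat_lit 16254498102) (nat_lit 147) (nat_lit 5) (nat_lit 153) (nat_lit 5) (nat_lit 154) (nat_lit 5) (nat_lit 494) (nat_lit 418) (nat_lit 228)))) (XT.nd (nat_lit 156) (nat_lit 456) (nat_lit 0) (XT.nd (nat_lit 78) (nat_lit 380) (nat_lit 0) (XT.lf (nat_lit 0) (nat_lit 8396276948) (nat_lit 532) (nat_lit 8423110578) (nat_lit 76) (nat_lit 4470941134) (nat_lit 147) (nat_lit 5) (nat_lit 154) (nat_lit 5) (nat_lit 148) (nat_lit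 5) (nat_lit 495) (nat_lit 418) (nat_lit 227)) (XT.lf (nat_lit 0) (nat_lit 2097225602) (nat_lit 380) (nat_lit 10028513712) (nat_lit 456) (nat_lit 9442299240) (nat_lit 142) (nat_lit 5) (nat_lit 147) (nat_lit 5) (nat_lit 148) (nat_lit 5) (nat_lit 496) (nat_lit 418) (nat_lit 226))) (XT.nd (nat_lit 78) (nat_lit 456) (nat_lit 0) (XT.lf (nat_lit 0) (nat_lit 12933208436) (nat_lit 380) (nat_lit 3046757112) (nat_lit 456) (nat_lit 5870336847) (nat_lit 142) (nat_lit 5) (nat_lit 147) (nat_lit 5) (nat_lit 148) (nat_lit 5) (nat_lit 497) (nat_lit 418) (nat_lit 225)) (XT.lf (nat_lit 0) (nat_lit 1836456141) (nat_lit 456) (nat_lit 18106958011) (nat_lit 532) (nat_lit 2194157781) (nat_lit 136) (nat_lit 5) (nat_lit 142) (nat_lit 5) (nat_lit 143) (nat_lit 5) (nat_lit 498) (nat_lit 418) (nat_lit 224))))) (XT.nd (nat_lit 234) (nat_lit 760) (nat_lit 0) (XT.nd (nat_lit 78) (nat_lit 380) (nat_lit 0) (XT.lf (nat_lit 0) (nat_lit 1609335777)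 (nat_lit 532) (nat_lit 9543013228) (nat_lit 76) (nat_lit 11276555074) (nat_lit 135) (nat_lit 5) (nat_lit 142) (nat_lit 5) (nat_lit 136) (nat_lit 5) (nat_lit 499) (nat_lit 418) (nat_lit 223)) (XT.nd (nat_lit 78) (nat_lit 0) (nat_lit 0) (XT.lf (nat_lit 0) (nat_lit 1425692455) (nat_lit 380) (nat_lit 4037013226) (nat_lit 456) (nat_lit 17263006388) (nat_lit 130) (nat_lit 5) (nat_lit 135) (nat_lit 5) (nat_lit 136) (nat_lit 5) (nat_lit 500) (nat_lit 418) (nat_lit 222)) (XT.lf (nat_lit 0) (nat_lit 9472464602) (nat_lit 456) (nat_lit 10314155106) (nat_lit 76) (nat_lit 3240253013) (nat_lit 130) (nat_lit 5) (nat_lit 136) (nat_lit 5) (nat_lit 131) (nat_lit 5) (nat_lit 501) (nat_lit 418) (nat_lit 221)))) (XT.nd (nat_lit 156) (nat_lit 380) (nat_lit 0) (XT.nd (nat_lit 78) (nat_lit 0) (nat_lit 0) (XT.lf (nat_lit 0) (nat_lit 867465123) (nat_lit 380) (nat_lit 12721388000) (nat_lit 456) (nat_lit 9744677652) (nat_lit 125) (nat_lit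 5) (nat_lit 130) (nat_lit 5) (nat_lit 131) (nat_lit 5) (nat_lit 502) (nat_lit 418) (nat_lit 220)) (XT.lf (nat_lit 0) (nat_lit 12403982104) (nat_lit 380) (nat_lit 5446928639) (nat_lit 456) (nat_lit 5794147243) (nat_lit 125) (nat_lit 5) (nat_lit 130) (nat_lit 5) (nat_lit 131) (nat_lit 5) (nat_lit 503) (nat_lit 418) (nat_lit 219))) (XT.nd (nat_lit 78) (nat_lit 76) (nat_lit 0) (XT.lf (nat_lit 0) (nat_lit 189610263) (nat_lit 304) (nat_lit 22016866511) (nat_lit 380) (nat_lit 1756176386) (nat_lit 121) (nat_lit 5) (nat_lit 125) (nat_lit 5) (nat_lit 126) (nat_lit 5) (nat_lit 504) (nat_lit 418) (nat_lit 218)) (XT.lf (nat_lit 0) (nat_lit 2437818063) (nat_lit 380) (nat_lit 12344220296) (nat_lit 76) (nat_lit 9502132763) (nat_lit 120) (nat_lit 5) (nat_lit 125) (nat_lit 5) (nat_lit 121) (nat_lit 5) (nat_lit 505) (nat_lit 418) (nat_lit 217))))))))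
noncomputable def xc189 : XT := (XT.nd (nat_lit 53508) (nat_lit 0) (nat_lit 15884) (XT.nd (nat_lit 1092) (nat_lit 0) (nat_lit 0) (XT.nd (nat_lit 546) (nat_lit 1292) (nat_lit 0) (XT.nd (nat_lit 234) (nat_lit 760) (nat_lit 0) (XT.nd (nat_lit 78) (nat_lit 380) (nat_lit 0) (XT.lf (nat_lit 0) (nat_lit 6686556067) (nat_lit 380) (nat_lit 706788216) (nat_lit 76) (nat_lit 17218658021) (nat_lit 120) (nat_lit 5) (nat_lit 125) (nat_lit 5) (nat_lit 121) (nat_lit 5) (nat_lit 506) (nat_lit 418) (nat_lit 216)) (XT.nd (nat_lit 78) (nat_lit 0) (nat_lit 0) (XT.lf (nat_lit 0) (nat_lit 11089524099) (nat_lit 456) (nat_lit 13642967361) (nat_lit 76) (nat_lit 212516100) (nat_lit 115) (nat_lit 5) (nat_lit 121) (nat_lit 5) (nat_lit 116) (nat_lit 5) (nat_lit 507) (nat_lit 418) (nat_lit 215)) (XT.lf (nat_lit 0) (nat_lit 15628794509) (nat_lit 456) (nat_lit 1781160446) (nat_lit 76) (nat_lit 7873755612) (nat_lit 115) (nat_lit 5) (nat_lit 121)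 (nat_lit 5) (nat_lit 116) (nat_lit 5) (nat_lit 508) (nat_lit 418) (nat_lit 214)))) (XT.nd (nat_lit 156) (nat_lit 456) (nat_lit 0) (XT.nd (nat_lit 78) (nat_lit 0) (nat_lit 0) (XT.lf (nat_lit 0) (nat_lit 10446841565) (nat_lit 304) (nat_lit 9874450448) (nat_lit 380) (nat_lit 5306649242) (nat_lit 111) (nat_lit 5) (nat_lit 115) (nat_lit 5) (nat_lit 116) (nat_lit 5) (nat_lit 509) (nat_lit 418) (nat_lit 213)) (XT.lf (nat_lit 0) (nat_lit 22935547451) (nat_lit 304) (nat_lit 2178712072) (nat_lit 380) (nat_lit 864667041) (nat_lit 111) (nat_lit 5) (nat_lit 115) (nat_lit 5) (nat_lit 116) (nat_lit 5) (nat_lit 510) (nat_lit 418) (nat_lit 212))) (XT.nd (nat_lit 78) (nat_lit 0) (nat_lit 0) (XT.lf (nat_lit 0) (nat_lit 3711392611) (nat_lit 456) (nat_lit 16943663451) (nat_lit 76) (nat_lit 5679535367) (nat_lit 105) (nat_lit 5) (nat_lit 111) (nat_lit 5) (nat_lit 106) (nat_lit 5) (nat_lit 511) (nat_lit 418) (nat_lit 211)) (XT.lf (nat_lit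 0) (nat_lit 8397162972) (nat_lit 456) (nat_lit 4610029112) (nat_lit 76) (nat_lit 13689470119) (nat_lit 105) (nat_lit 5) (nat_lit 111) (nat_lit 5) (nat_lit 106) (nat_lit 5) (nat_lit 512) (nat_lit 418) (nat_lit 210))))) (XT.nd (nat_lit 234) (nat_lit 684) (nat_lit 0) (XT.nd (nat_lit 78) (nat_lit 304) (nat_lit 0) (XT.lf (nat_lit 0) (nat_lit 8068298120) (nat_lit 304) (nat_lit 5155608011) (nat_lit 380) (nat_lit 13841125337) (nat_lit 101) (nat_lit 5) (nat_lit 105) (nat_lit 5) (nat_lit 106) (nat_lit 5) (nat_lit 513) (nat_lit 418) (nat_lit 209)) (XT.nd (nat_lit 78) (nat_lit 304) (nat_lit 0) (XT.lf (nat_lit 0) (nat_lit 18191753938) (nat_lit 380) (nat_lit 6404027916) (nat_lit 76) (nat_lit 2844097051) (nat_lit 101) (nat_lit 5) (nat_lit 106) (nat_lit 5) (nat_lit 102) (nat_lit 5) (nat_lit 514) (nat_lit 418) (nat_lit 208)) (XT.lf (nat_lit 0) (nat_lit 6483745509) (nat_lit 304) (nat_lit 16846458527) (nat_lit 380) (nat_lit 4490596486)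 (nat_lit 97) (nat_lit 5) (nat_lit 101) (nat_lit 5) (nat_lit 102) (nat_lit 5) (nat_lit 515) (nat_lit 418) (nat_lit 207)))) (XT.nd (nat_lit 156) (nat_lit 304) (nat_lit 0) (XT.nd (nat_lit 78) (nat_lit 304) (nat_lit 0) (XT.lf (nat_lit 0) (nat_lit 395611825) (nat_lit 380) (nat_lit 8502730113) (nat_lit 76) (nat_lit 19310188110) (nat_lit 96) (nat_lit 5) (nat_lit 101) (nat_lit 5) (nat_lit 97) (nat_lit 5) (nat_lit 516) (nat_lit 418) (nat_lit 206)) (XT.lf (nat_lit 0) (nat_lit 4611477258) (nat_lit 304) (nat_lit 733051641) (nat_lit 380) (nat_lit 23258391348) (nat_lit 92) (nat_lit 5) (nat_lit 96) (nat_lit 5) (nat_lit 97) (nat_lit 5) (nat_lit 517) (nat_lit 418) (nat_lit 205))) (XT.nd (nat_lit 78) (nat_lit 304) (nat_lit 0) (XT.lf (nat_lit 0) (nat_lit 10494321814) (nat_lit 380) (nat_lit 10958101875) (nat_lit 76) (nat_lit 7550738587) (nat_lit 92) (nat_lit 5) (nat_lit 97) (nat_lit 5) (nat_lit 93) (nat_lit 5) (nat_lit 518) (nat_lit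 418) (nat_lit 204)) (XT.lf (nat_lit 0) (nat_lit 2354502587) (nat_lit 304) (nat_lit 13407991329) (nat_lit 380) (nat_lit 13648609501) (nat_lit 88) (nat_lit 5) (nat_lit 92) (nat_lit 5) (nat_lit 93) (nat_lit 5) (nat_lit 519) (nat_lit 418) (nat_lit 203)))))) (XT.nd (nat_lit 51870) (nat_lit 0) (nat_lit 25688) (XT.nd (nat_lit 51558) (nat_lit 0) (nat_lit 25612) (XT.nd (nat_lit 78) (nat_lit 0) (nat_lit 0) (XT.lf (nat_lit 0) (nat_lit 16074519414) (nat_lit 304) (nat_lit 5130331754) (nat_lit 380) (nat_lit 8620977675) (nat_lit 88) (nat_lit 5) (nat_lit 92) (nat_lit 5) (nat_lit 93) (nat_lit 5) (nat_lit 520) (nat_lit 418) (nat_lit 202)) (XT.nd (nat_lit 51402) (nat_lit 0) (nat_lit 27132) (XT.lf (nat_lit 0) (nat_lit 26772927500) (nat_lit 380) (nat_lit 208733898) (nat_lit 76) (nat_lit 3266851803) (nat_lit 88) (nat_lit 5) (nat_lit 93) (nat_lit 5) (nat_lit 89) (nat_lit 5) (nat_lit 521) (nat_lit 418) (nat_lit 201)) (XT.lf (nat_lit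 0) (nat_lit 1920085477) (nat_lit 0) (nat_lit 1920085477) (nat_lit 1444) (nat_lit 862638298) (nat_lit 445) (nat_lit 5) (nat_lit 445) (nat_lit 3) (nat_lit 464) (nat_lit 3) (nat_lit 419) (nat_lit 419) (nat_lit 302)))) (XT.nd (nat_lit 156) (nat_lit 1520) (nat_lit 0) (XT.nd (nat_lit 78) (nat_lit 0) (nat_lit 0) (XT.lf (nat_lit 0) (nat_lit 8218541263) (nat_lit 0) (nat_lit 313348042) (nat_lit 1444) (nat_lit 951625512) (nat_lit 445) (nat_lit 5) (nat_lit 445) (nat_lit 3) (nat_lit 464) (nat_lit 3) (nat_lit 420) (nat_lit 419) (nat_lit 301)) (XT.lf (nat_lit 76) (nat_lit 3130595507) (nat_lit 0) (nat_lit 6291264181) (nat_lit 1520) (nat_lit 140698968) (nat_lit 446) (nat_lit 5) (nat_lit 445) (nat_lit 5) (nat_lit 465) (nat_lit 5) (nat_lit 421) (nat_lit 419) (nat_lit 300))) (XT.nd (nat_lit 78) (nat_lit 0) (nat_lit 76) (XT.lf (nat_lit 0) (nat_lit 667987038) (nat_lit 1520) (nat_lit 2029243086) (nat_lit 1596) (nat_lit 6946070001)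 (nat_lit 425) (nat_lit 5) (nat_lit 445) (nat_lit 5) (nat_lit 446) (nat_lit 5) (nat_lit 422) (nat_lit 419) (nat_lit 299)) (XT.lf (nat_lit 0) (nat_lit 1493860982) (nat_lit 1520) (nat_lit 7249679516) (nat_lit 1596) (nat_lit 982055798) (nat_lit 426) (nat_lit 5) (nat_lit 446) (nat_lit 5) (nat_lit 447) (nat_lit 5) (nat_lit 423) (nat_lit 419) (nat_lit 298))))) (XT.nd (nat_lit 234) (nat_lit 0) (nat_lit 76) (XT.nd (nat_lit 78) (nat_lit 0) (nat_lit 0) (XT.lf (nat_lit 0) (nat_lit 2348514030) (nat_lit 1520) (nat_lit 2739573518) (nat_lit 1596) (nat_lit 4721221724) (nat_lit 426) (nat_lit 5) (nat_lit 446) (nat_lit 5) (nat_lit 447) (nat_lit 5) (nat_lit 424) (nat_lit 419) (nat_lit 297)) (XT.nd (nat_lit 78) (nat_lit 0) (nat_lit 76) (XT.lf (nat_lit 76) (nat_lit 1874493815) (nat_lit 0) (nat_lit 1339007081) (nat_lit 1596) (nat_lit 6681346597) (nat_lit 427) (nat_lit 5) (nat_lit 426) (nat_lit 5) (nat_lit 447) (nat_lit 5) (nat_lit 425)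 (nat_lit 419) (nat_lit 296)) (XT.lf (nat_lit 0) (nat_lit 4111850628) (nat_lit 1520) (nat_lit 3391200108) (nat_lit 1596) (nat_lit 2478739967) (nat_lit 427) (nat_lit 5) (nat_lit 447) (nat_lit 5) (nat_lit 448) (nat_lit 5) (nat_lit 426) (nat_lit 419) (nat_lit 295)))) (XT.nd (nat_lit 156) (nat_lit 0) (nat_lit 76) (XT.nd (nat_lit 78) (nat_lit 0) (nat_lit 76) (XT.lf (nat_lit 76) (nat_lit 1328113787) (nat_lit 0) (nat_lit 3699331193) (nat_lit 1596) (nat_lit 5043057430) (nat_lit 428) (nat_lit 5) (nat_lit 427) (nat_lit 5) (nat_lit 448) (nat_lit 5) (nat_lit 427) (nat_lit 419) (nat_lit 294)) (XT.lf (nat_lit 0) (nat_lit 5967549333) (nat_lit 1520) (nat_lit 3985393475) (nat_lit 1596) (nat_lit 207936469) (nat_lit 428) (nat_lit 5) (nat_lit 448) (nat_lit 5) (nat_lit 449) (nat_lit 5) (nat_lit 428) (nat_lit 419) (nat_lit 293))) (XT.nd (nat_lit 78) (nat_lit 0) (nat_lit 0) (XT.lf (nat_lit 76) (nat_lit 842189694) (nat_lit 0) (nat_lit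 6096702605) (nat_lit 1596) (nat_lit 3313937246) (nat_lit 429) (nat_lit 5) (nat_lit 428) (nat_lit 5) (nat_lit 449) (nat_lit 5) (nat_lit 429) (nat_lit 419) (nat_lit 292)) (XT.lf (nat_lit 76) (nat_lit 5809322133) (nat_lit 0) (nat_lit 2129825823) (nat_lit 1596) (nat_lit 2407295457) (nat_lit 429) (nat_lit 5) (nat_lit 428) (nat_lit 5) (nat_lit 449) (nat_lit 5) (nat_lit 430) (nat_lit 419) (nat_lit 291))))))) (XT.nd (nat_lit 1092) (nat_lit 7068) (nat_lit 0) (XT.nd (nat_lit 546) (nat_lit 1368) (nat_lit 0) (XT.nd (nat_lit 234) (nat_lit 0) (nat_lit 76) (XT.nd (nat_lit 78) (nat_lit 1596) (nat_lit 0) (XT.lf (nat_lit 76) (nat_lit 415675488) (nat_lit 0) (nat_lit 8541994356) (nat_lit 1596) (nat_lit 1484308521) (nat_lit 430) (nat_lit 5) (nat_lit 429) (nat_lit 5) (nat_lit 450) (nat_lit 5) (nat_lit 431) (nat_lit 419) (nat_lit 290)) (XT.nd (nat_lit 78) (nat_lit 1596) (nat_lit 0) (XT.lf (nat_lit 76) (nat_lit 5503610140) (nat_lit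 0) (nat_lit 4520789062) (nat_lit 1596) (nat_lit 514481826) (nat_lit 430) (nat_lit 5) (nat_lit 429) (nat_lit 5) (nat_lit 450) (nat_lit 5) (nat_lit 432) (nat_lit 419) (nat_lit 289)) (XT.lf (nat_lit 76) (nat_lit 41908163) (nat_lit 0) (nat_lit 410462250) (nat_lit 1672) (nat_lit 10185625798) (nat_lit 409) (nat_lit 5) (nat_lit 408) (nat_lit 5) (nat_lit 430) (nat_lit 5) (nat_lit 433) (nat_lit 419) (nat_lit 288)))) (XT.nd (nat_lit 156) (nat_lit 0) (nat_lit 76) (XT.nd (nat_lit 78) (nat_lit 0) (nat_lit 0) (XT.lf (nat_lit 0) (nat_lit 1474112409) (nat_lit 1596) (nat_lit 5489156323) (nat_lit 1672) (nat_lit 3774921078) (nat_lit 409) (nat_lit 5) (nat_lit 430) (nat_lit 5) (nat_lit 431) (nat_lit 5) (nat_lit 434) (nat_lit 419) (nat_lit 287)) (XT.lf (nat_lit 0) (nat_lit 2503190264) (nat_lit 1596) (nat_lit 294016982) (nat_lit 1672) (nat_lit 8043454722) (nat_lit 409) (nat_lit 5) (nat_lit 430) (nat_lit 5) (nat_lit 431) (nat_lit 5)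 (nat_lit 435) (nat_lit 419) (nat_lit 286))) (XT.nd (nat_lit 78) (nat_lit 0) (nat_lit 0) (XT.lf (nat_lit 0) (nat_lit 3579873402) (nat_lit 1596) (nat_lit 5894124106) (nat_lit 1672) (nat_lit 1470658043) (nat_lit 410) (nat_lit 5) (nat_lit 431) (nat_lit 5) (nat_lit 432) (nat_lit 5) (nat_lit 436) (nat_lit 419) (nat_lit 285)) (XT.lf (nat_lit 0) (nat_lit 4683355122) (nat_lit 1596) (nat_lit 574537348) (nat_lit 1672) (nat_lit 5792743451) (nat_lit 410) (nat_lit 5) (nat_lit 431) (nat_lit 5) (nat_lit 432) (nat_lit 5) (nat_lit 437) (nat_lit 419) (nat_lit 284))))) (XT.nd (nat_lit 234) (nat_lit 1520) (nat_lit 0) (XT.nd (nat_lit 78) (nat_lit 0) (nat_lit 76) (XT.lf (nat_lit 76) (nat_lit 4904721860) (nat_lit 0) (nat_lit 921082551) (nat_lit 1672) (nat_lit 5332605502) (nat_lit 411) (nat_lit 5) (nat_lit 410) (nat_lit 5) (nat_lit 432) (nat_lit 5) (nat_lit 438) (nat_lit 419) (nat_lit 283)) (XT.nd (nat_lit 78) (nat_lit 0) (nat_lit 0)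 (XT.lf (nat_lit 0) (nat_lit 7003023403) (nat_lit 1596) (nat_lit 800977391) (nat_lit 1672) (nat_lit 3464111916) (nat_lit 411) (nat_lit 5) (nat_lit 432) (nat_lit 5) (nat_lit 433) (nat_lit 5) (nat_lit 439) (nat_lit 419) (nat_lit 282)) (XT.lf (nat_lit 76) (nat_lit 4806645739) (nat_lit 0) (nat_lit 3420036517) (nat_lit 1672) (nat_lit 3152880905) (nat_lit 412) (nat_lit 5) (nat_lit 411) (nat_lit 5) (nat_lit 433) (nat_lit 5) (nat_lit 440) (nat_lit 419) (nat_lit 281)))) (XT.nd (nat_lit 156) (nat_lit 1672) (nat_lit 0) (XT.nd (nat_lit 78) (nat_lit 0) (nat_lit 0) (XT.lf (nat_lit 0) (nat_lit 9472872102) (nat_lit 1596) (nat_lit 974044668) (nat_lit 1672) (nat_lit 1046375977) (nat_lit 412) (nat_lit 5) (nat_lit 433) (nat_lit 5) (nat_lit 434) (nat_lit 5) (nat_lit 441) (nat_lit 419) (nat_lit 280)) (XT.lf (nat_lit 76) (nat_lit 4765554443) (nat_lit 0) (nat_lit 6018119247) (nat_lit 1672) (nat_lit 824840538) (nat_lit 413) (nat_lit 5)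 (nat_lit 412) (nat_lit 5) (nat_lit 434) (nat_lit 5) (nat_lit 442) (nat_lit 419) (nat_lit 279))) (XT.nd (nat_lit 78) (nat_lit 0) (nat_lit 76) (XT.lf (nat_lit 0) (nat_lit 382251990) (nat_lit 1672) (nat_lit 1106590039) (nat_lit 1748) (nat_lit 10237301961) (nat_lit 390) (nat_lit 5) (nat_lit 412) (nat_lit 5) (nat_lit 413) (nat_lit 5) (nat_lit 443) (nat_lit 419) (nat_lit 278)) (XT.lf (nat_lit 0) (nat_lit 1640612607) (nat_lit 1672) (nat_lit 7075389446) (nat_lit 76) (nat_lit 3129262256) (nat_lit 391) (nat_lit 5) (nat_lit 413) (nat_lit 5) (nat_lit 392) (nat_lit 5) (nat_lit 444) (nat_lit 419) (nat_lit 277)))))) (XT.nd (nat_lit 546) (nat_lit 3344) (nat_lit 0) (XT.nd (nat_lit 234) (nat_lit 2128) (nat_lit 0) (XT.nd (nat_lit 78) (nat_lit 1672) (nat_lit 0) (XT.lf (nat_lit 0) (nat_lit 2928153029) (nat_lit 1672) (nat_lit 1208882494) (nat_lit 76) (nat_lit 7829661478) (nat_lit 391) (nat_lit 5) (nat_lit 413) (nat_lit 5) (nat_lit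 392) (nat_lit 5) (nat_lit 445) (nat_lit 419) (nat_lit 276)) (XT.nd (nat_lit 78) (nat_lit 0) (nat_lit 0) (XT.lf (nat_lit 0) (nat_lit 4263409814) (nat_lit 1748) (nat_lit 7266626601) (nat_lit 76) (nat_lit 560092640) (nat_lit 369) (nat_lit 5) (nat_lit 392) (nat_lit 5) (nat_lit 370) (nat_lit 5) (nat_lit 446) (nat_lit 419) (nat_lit 275)) (XT.lf (nat_lit 0) (nat_lit 5648071984) (nat_lit 1748) (nat_lit 1261608583) (nat_lit 76) (nat_lit 5305905002) (nat_lit 369) (nat_lit 5) (nat_lit 392) (nat_lit 5) (nat_lit 370) (nat_lit 5) (nat_lit 447) (nat_lit 419) (nat_lit 274)))) (XT.nd (nat_lit 156) (nat_lit 836) (nat_lit 0) (XT.nd (nat_lit 78) (nat_lit 0) (nat_lit 0) (XT.lf (nat_lit 0) (nat_lit 4917005451) (nat_lit 1292) (nat_lit 2162735329) (nat_lit 1368) (nat_lit 5263433793) (nat_lit 352) (nat_lit 5) (nat_lit 369) (nat_lit 5) (nat_lit 370) (nat_lit 5) (nat_lit 448) (nat_lit 419) (nat_lit 273)) (XT.lf (nat_lit 0) (nat_lit 8553535029)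 (nat_lit 1368) (nat_lit 1265491127) (nat_lit 76) (nat_lit 2654028802) (nat_lit 352) (nat_lit 5) (nat_lit 370) (nat_lit 5) (nat_lit 353) (nat_lit 5) (nat_lit 449) (nat_lit 419) (nat_lit 272))) (XT.nd (nat_lit 78) (nat_lit 0) (nat_lit 0) (XT.lf (nat_lit 0) (nat_lit 5059465424) (nat_lit 836) (nat_lit 5032330660) (nat_lit 912) (nat_lit 2513046304) (nat_lit 341) (nat_lit 5) (nat_lit 352) (nat_lit 5) (nat_lit 353) (nat_lit 5) (nat_lit 450) (nat_lit 419) (nat_lit 271)) (XT.lf (nat_lit 0) (nat_lit 11517179277) (nat_lit 836) (nat_lit 140122064) (nat_lit 912) (nat_lit 1082043720) (nat_lit 341) (nat_lit 5) (nat_lit 352) (nat_lit 5) (nat_lit 353) (nat_lit 5) (nat_lit 451) (nat_lit 419) (nat_lit 270))))) (XT.nd (nat_lit 312) (nat_lit 1596) (nat_lit 0) (XT.nd (nat_lit 156) (nat_lit 836) (nat_lit 0) (XT.nd (nat_lit 78) (nat_lit 0) (nat_lit 0) (XT.lf (nat_lit 0) (nat_lit 426805529) (nat_lit 912) (nat_lit 7624284080) (nat_lit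 76) (nat_lit 4824324298) (nat_lit 329) (nat_lit 5) (nat_lit 341) (nat_lit 5) (nat_lit 330) (nat_lit 5) (nat_lit 452) (nat_lit 419) (nat_lit 269)) (XT.lf (nat_lit 0) (nat_lit 1948844700) (nat_lit 912) (nat_lit 1162755955) (nat_lit 76) (nat_lit 9902518950) (nat_lit 329) (nat_lit 5) (nat_lit 341) (nat_lit 5) (nat_lit 330) (nat_lit 5) (nat_lit 453) (nat_lit 419) (nat_lit 268))) (XT.nd (nat_lit 78) (nat_lit 0) (nat_lit 0) (XT.lf (nat_lit 0) (nat_lit 3538247276) (nat_lit 912) (nat_lit 7678689186) (nat_lit 76) (nat_lit 1937932886) (nat_lit 318) (nat_lit 5) (nat_lit 330) (nat_lit 5) (nat_lit 319) (nat_lit 5) (nat_lit 454) (nat_lit 419) (nat_lit 267)) (XT.lf (nat_lit 0) (nat_lit 5176591370) (nat_lit 912) (nat_lit 1066256576) (nat_lit 76) (nat_lit 7055251289) (nat_lit 318) (nat_lit 5) (nat_lit 330) (nat_lit 5) (nat_lit 319) (nat_lit 5) (nat_lit 455) (nat_lit 419) (nat_lit 266)))) (XT.nd (nat_lit 156) (nat_lit 760) (nat_lit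 0) (XT.nd (nat_lit 78) (nat_lit 0) (nat_lit 0) (XT.lf (nat_lit 0) (nat_lit 5742983467) (nat_lit 836) (nat_lit 1130920316) (nat_lit 912) (nat_lit 6569773967) (nat_lit 307) (nat_lit 5) (nat_lit 318) (nat_lit 5) (nat_lit 319) (nat_lit 5) (nat_lit 456) (nat_lit 419) (nat_lit 265)) (XT.lf (nat_lit 0) (nat_lit 8627939854) (nat_lit 912) (nat_lit 926640501) (nat_lit 76) (nat_lit 4037139831) (nat_lit 307) (nat_lit 5) (nat_lit 319) (nat_lit 5) (nat_lit 308) (nat_lit 5) (nat_lit 457) (nat_lit 419) (nat_lit 264))) (XT.nd (nat_lit 78) (nat_lit 0) (nat_lit 0) (XT.lf (nat_lit 0) (nat_lit 6043967696) (nat_lit 760) (nat_lit 4409098114) (nat_lit 836) (nat_lit 3288945223) (nat_lit 297) (nat_lit 5) (nat_lit 307) (nat_lit 5) (nat_lit 308) (nat_lit 5) (nat_lit 458) (nat_lit 419) (nat_lit 263)) (XT.lf (nat_lit 0) (nat_lit 12315821978) (nat_lit 836) (nat_lit 744978126) (nat_lit 76) (nat_lit 834492631) (nat_lit 297) (nat_lit 5) (nat_lit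 308) (nat_lit 5) (nat_lit 298) (nat_lit 5) (nat_lit 459) (nat_lit 419) (nat_lit 262))))))))
noncomputable def xc190 : XT := (XT.nd (nat_lit 2184) (nat_lit 5472) (nat_lit 0) (XT.nd (nat_lit 1092) (nat_lit 3876) (nat_lit 0) (XT.nd (nat_lit 546) (nat_lit 2584) (nat_lit 0) (XT.nd (nat_lit 234) (nat_lit 1444) (nat_lit 0) (XT.nd (nat_lit 78) (nat_lit 684) (nat_lit 0) (XT.lf (nat_lit 0) (nat_lit 222753167) (nat_lit 836) (nat_lit 7660777164) (nat_lit 76) (nat_lit 6166881449) (nat_lit 286) (nat_lit 5) (nat_lit 297) (nat_lit 5) (nat_lit 287) (nat_lit 5) (nat_lit 460) (nat_lit 419) (nat_lit 261)) (XT.nd (nat_lit 78) (nat_lit 684) (nat_lit 0) (XT.lf (nat_lit 0) (nat_lit 2034610778) (nat_lit 836) (nat_lit 552703095) (nat_lit 76) (nat_lit 11621222917) (nat_lit 286) (nat_lit 5) (nat_lit 297) (nat_lit 5) (nat_lit 287) (nat_lit 5) (nat_lit 461) (nat_lit 419) (nat_lit 260)) (XT.lf (nat_lit 0) (nat_lit 3935152143) (nat_lit 760)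 (nat_lit 7611823248) (nat_lit 76) (nat_lit 2821806990) (nat_lit 277) (nat_lit 5) (nat_lit 287) (nat_lit 5) (nat_lit 278) (nat_lit 5) (nat_lit 462) (nat_lit 419) (nat_lit 259)))) (XT.nd (nat_lit 156) (nat_lit 684) (nat_lit 0) (XT.nd (nat_lit 78) (nat_lit 760) (nat_lit 0) (XT.lf (nat_lit 0) (nat_lit 5884588395) (nat_lit 760) (nat_lit 339650183) (nat_lit 76) (nat_lit 8307783503) (nat_lit 277) (nat_lit 5) (nat_lit 287) (nat_lit 5) (nat_lit 278) (nat_lit 5) (nat_lit 463) (nat_lit 419) (nat_lit 258)) (XT.lf (nat_lit 0) (nat_lit 7161459755) (nat_lit 760) (nat_lit 748262367) (nat_lit 836) (nat_lit 6788077021) (nat_lit 267) (nat_lit 5) (nat_lit 277) (nat_lit 5) (nat_lit 278) (nat_lit 5) (nat_lit 464) (nat_lit 419) (nat_lit 257))) (XT.nd (nat_lit 78) (nat_lit 684) (nat_lit 0) (XT.lf (nat_lit 0) (nat_lit 9999391296) (nat_lit 836) (nat_lit 91628990) (nat_lit 76) (nat_lit 4775397414) (nat_lit 267) (nat_lit 5) (nat_lit 278)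 (nat_lit 5) (nat_lit 268) (nat_lit 5) (nat_lit 465) (nat_lit 419) (nat_lit 256)) (XT.lf (nat_lit 0) (nat_lit 7586163997) (nat_lit 684) (nat_lit 4589421134) (nat_lit 760) (nat_lit 2861935354) (nat_lit 258) (nat_lit 5) (nat_lit 267) (nat_lit 5) (nat_lit 268) (nat_lit 5) (nat_lit 466) (nat_lit 419) (nat_lit 255))))) (XT.nd (nat_lit 234) (nat_lit 1216) (nat_lit 0) (XT.nd (nat_lit 78) (nat_lit 684) (nat_lit 0) (XT.lf (nat_lit 0) (nat_lit 192131167) (nat_lit 684) (nat_lit 14202309529) (nat_lit 760) (nat_lit 817628224) (nat_lit 249) (nat_lit 5) (nat_lit 258) (nat_lit 5) (nat_lit 259) (nat_lit 5) (nat_lit 467) (nat_lit 419) (nat_lit 254)) (XT.nd (nat_lit 78) (nat_lit 608) (nat_lit 0) (XT.lf (nat_lit 0) (nat_lit 1322351188) (nat_lit 760) (nat_lit 7349099777) (nat_lit 76) (nat_lit 6717070659) (nat_lit 248) (nat_lit 5) (nat_lit 258) (nat_lit 5) (nat_lit 249) (nat_lit 5) (nat_lit 468) (nat_lit 419) (nat_lit 253)) (XT.lf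 (nat_lit 0) (nat_lit 465521438) (nat_lit 608) (nat_lit 3022559397) (nat_lit 684) (nat_lit 12080442470) (nat_lit 240) (nat_lit 5) (nat_lit 248) (nat_lit 5) (nat_lit 249) (nat_lit 5) (nat_lit 469) (nat_lit 419) (nat_lit 252)))) (XT.nd (nat_lit 156) (nat_lit 608) (nat_lit 0) (XT.nd (nat_lit 78) (nat_lit 608) (nat_lit 0) (XT.lf (nat_lit 0) (nat_lit 5755523892) (nat_lit 684) (nat_lit 7243631172) (nat_lit 76) (nat_lit 2751807849) (nat_lit 240) (nat_lit 5) (nat_lit 249) (nat_lit 5) (nat_lit 241) (nat_lit 5) (nat_lit 470) (nat_lit 419) (nat_lit 251)) (XT.lf (nat_lit 0) (nat_lit 752549891) (nat_lit 608) (nat_lit 7331816442) (nat_lit 684) (nat_lit 7852369725) (nat_lit 232) (nat_lit 5) (nat_lit 240) (nat_lit 5) (nat_lit 241) (nat_lit 5) (nat_lit 471) (nat_lit 419) (nat_lit 250))) (XT.nd (nat_lit 78) (nat_lit 608) (nat_lit 0) (XT.lf (nat_lit 0) (nat_lit 8996681281) (nat_lit 608) (nat_lit 1502968037) (nat_lit 684) (nat_lit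 5625783714) (nat_lit 232) (nat_lit 5) (nat_lit 240) (nat_lit 5) (nat_lit 241) (nat_lit 5) (nat_lit 472) (nat_lit 419) (nat_lit 249)) (XT.lf (nat_lit 0) (nat_lit 1062754863) (nat_lit 608) (nat_lit 11927644151) (nat_lit 684) (nat_lit 3326967243) (nat_lit 224) (nat_lit 5) (nat_lit 232) (nat_lit 5) (nat_lit 233) (nat_lit 5) (nat_lit 473) (nat_lit 419) (nat_lit 248)))))) (XT.nd (nat_lit 546) (nat_lit 2128) (nat_lit 0) (XT.nd (nat_lit 234) (nat_lit 1064) (nat_lit 0) (XT.nd (nat_lit 78) (nat_lit 684) (nat_lit 0) (XT.lf (nat_lit 0) (nat_lit 9494573335) (nat_lit 608) (nat_lit 6085636490) (nat_lit 684) (nat_lit 931948821) (nat_lit 224) (nat_lit 5) (nat_lit 232) (nat_lit 5) (nat_lit 233) (nat_lit 5) (nat_lit 474) (nat_lit 419) (nat_lit 247)) (XT.nd (nat_lit 78) (nat_lit 0) (nat_lit 0) (XT.lf (nat_lit 0) (nat_lit 1382519240) (nat_lit 608) (nat_lit 109236779) (nat_lit 684) (nat_lit 15218887819) (nat_lit 215) (nat_lit 5) (nat_lit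 223) (nat_lit 5) (nat_lit 224) (nat_lit 5) (nat_lit 475) (nat_lit 419) (nat_lit 246)) (XT.lf (nat_lit 0) (nat_lit 4029456528) (nat_lit 684) (nat_lit 6921837127) (nat_lit 76) (nat_lit 5960126976) (nat_lit 215) (nat_lit 5) (nat_lit 224) (nat_lit 5) (nat_lit 216) (nat_lit 5) (nat_lit 476) (nat_lit 419) (nat_lit 245)))) (XT.nd (nat_lit 156) (nat_lit 532) (nat_lit 0) (XT.nd (nat_lit 78) (nat_lit 0) (nat_lit 0) (XT.lf (nat_lit 0) (nat_lit 1663793179) (nat_lit 532) (nat_lit 4957521756) (nat_lit 608) (nat_lit 10494834958) (nat_lit 208) (nat_lit 5) (nat_lit 215) (nat_lit 5) (nat_lit 216) (nat_lit 5) (nat_lit 477) (nat_lit 419) (nat_lit 244)) (XT.lf (nat_lit 0) (nat_lit 9311235553) (nat_lit 608) (nat_lit 6826864545) (nat_lit 76) (nat_lit 1185954052) (nat_lit 208) (nat_lit 5) (nat_lit 216) (nat_lit 5) (nat_lit 209) (nat_lit 5) (nat_lit 478) (nat_lit 419) (nat_lit 243))) (XT.nd (nat_lit 78) (nat_lit 0) (nat_lit 0) (XT.lf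 (nat_lit 0) (nat_lit 1954161593) (nat_lit 532) (nat_lit 10138431509) (nat_lit 608) (nat_lit 5442775435) (nat_lit 201) (nat_lit 5) (nat_lit 208) (nat_lit 5) (nat_lit 209) (nat_lit 5) (nat_lit 479) (nat_lit 419) (nat_lit 242)) (XT.lf (nat_lit 0) (nat_lit 10993638717) (nat_lit 532) (nat_lit 3973961956) (nat_lit 608) (nat_lit 2782552803) (nat_lit 201) (nat_lit 5) (nat_lit 208) (nat_lit 5) (nat_lit 209) (nat_lit 5) (nat_lit 480) (nat_lit 419) (nat_lit 241))))) (XT.nd (nat_lit 234) (nat_lit 988) (nat_lit 0) (XT.nd (nat_lit 78) (nat_lit 608) (nat_lit 0) (XT.lf (nat_lit 0) (nat_lit 2249486757) (nat_lit 532) (nat_lit 15672601018) (nat_lit 608) (nat_lit 46711378) (nat_lit 194) (nat_lit 5) (nat_lit 201) (nat_lit 5) (nat_lit 202) (nat_lit 5) (nat_lit 481) (nat_lit 419) (nat_lit 240)) (XT.nd (nat_lit 78) (nat_lit 532) (nat_lit 0) (XT.lf (nat_lit 0) (nat_lit 2772203094) (nat_lit 608) (nat_lit 6717855378) (nat_lit 76) (nat_lit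 8700120579) (nat_lit 193) (nat_lit 5) (nat_lit 201) (nat_lit 5) (nat_lit 194) (nat_lit 5) (nat_lit 482) (nat_lit 419) (nat_lit 239)) (XT.lf (nat_lit 0) (nat_lit 2486415234) (nat_lit 532) (nat_lit 3169133122) (nat_lit 608) (nat_lit 12760262816) (nat_lit 186) (nat_lit 5) (nat_lit 193) (nat_lit 5) (nat_lit 194) (nat_lit 5) (nat_lit 483) (nat_lit 419) (nat_lit 238)))) (XT.nd (nat_lit 156) (nat_lit 532) (nat_lit 0) (XT.nd (nat_lit 78) (nat_lit 456) (nat_lit 0) (XT.lf (nat_lit 0) (nat_lit 8655829218) (nat_lit 608) (nat_lit 6710395458) (nat_lit 76) (nat_lit 3278550162) (nat_lit 186) (nat_lit 5) (nat_lit 194) (nat_lit 5) (nat_lit 187) (nat_lit 5) (nat_lit 484) (nat_lit 419) (nat_lit 237)) (XT.lf (nat_lit 0) (nat_lit 2697978119) (nat_lit 456) (nat_lit 9049392754) (nat_lit 532) (nat_lit 7130325992) (nat_lit 180) (nat_lit 5) (nat_lit 186) (nat_lit 5) (nat_lit 187) (nat_lit 5) (nat_lit 485) (nat_lit 419) (nat_lit 236)))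 (XT.nd (nat_lit 78) (nat_lit 532) (nat_lit 0) (XT.lf (nat_lit 0) (nat_lit 12376138466) (nat_lit 456) (nat_lit 2562467150) (nat_lit 532) (nat_lit 4175918582) (nat_lit 180) (nat_lit 5) (nat_lit 186) (nat_lit 5) (nat_lit 187) (nat_lit 5) (nat_lit 486) (nat_lit 419) (nat_lit 235)) (XT.lf (nat_lit 0) (nat_lit 2894118849) (nat_lit 532) (nat_lit 15337617963) (nat_lit 608) (nat_lit 1123593860) (nat_lit 173) (nat_lit 5) (nat_lit 180) (nat_lit 5) (nat_lit 181) (nat_lit 5) (nat_lit 487) (nat_lit 419) (nat_lit 234))))))) (XT.nd (nat_lit 1092) (nat_lit 2204) (nat_lit 0) (XT.nd (nat_lit 546) (nat_lit 1748) (nat_lit 0) (XT.nd (nat_lit 234) (nat_lit 988) (nat_lit 0) (XT.nd (nat_lit 78) (nat_lit 456) (nat_lit 0) (XT.lf (nat_lit 0) (nat_lit 2019155439) (nat_lit 608) (nat_lit 6828948596) (nat_lit 76) (nat_lit 10751485245) (nat_lit 172) (nat_lit 5) (nat_lit 180) (nat_lit 5) (nat_lit 173) (nat_lit 5) (nat_lit 488) (nat_lit 419) (nat_lit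 233)) (XT.nd (nat_lit 78) (nat_lit 0) (nat_lit 0) (XT.lf (nat_lit 0) (nat_lit 3018970665) (nat_lit 456) (nat_lit 2203483693) (nat_lit 532) (nat_lit 14625879170) (nat_lit 166) (nat_lit 5) (nat_lit 172) (nat_lit 5) (nat_lit 173) (nat_lit 5) (nat_lit 489) (nat_lit 419) (nat_lit 232)) (XT.lf (nat_lit 0) (nat_lit 8558831569) (nat_lit 532) (nat_lit 6983928054) (nat_lit 76) (nat_lit 4557916514) (nat_lit 166) (nat_lit 5) (nat_lit 173) (nat_lit 5) (nat_lit 167) (nat_lit 5) (nat_lit 490) (nat_lit 419) (nat_lit 231)))) (XT.nd (nat_lit 156) (nat_lit 532) (nat_lit 0) (XT.nd (nat_lit 78) (nat_lit 0) (nat_lit 0) (XT.lf (nat_lit 0) (nat_lit 3075126917) (nat_lit 456) (nat_lit 8914686756) (nat_lit 532) (nat_lit 8367698026) (nat_lit 160) (nat_lit 5) (nat_lit 166) (nat_lit 5) (nat_lit 167) (nat_lit 5) (nat_lit 491) (nat_lit 419) (nat_lit 230)) (XT.lf (nat_lit 0) (nat_lit 13421064589) (nat_lit 456) (nat_lit 2108608423) (nat_lit 532)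 (nat_lit 5089009387) (nat_lit 160) (nat_lit 5) (nat_lit 166) (nat_lit 5) (nat_lit 167) (nat_lit 5) (nat_lit 492) (nat_lit 419) (nat_lit 229))) (XT.nd (nat_lit 78) (nat_lit 76) (nat_lit 0) (XT.lf (nat_lit 0) (nat_lit 3089065654) (nat_lit 456) (nat_lit 16096209344) (nat_lit 532) (nat_lit 1698906114) (nat_lit 154) (nat_lit 5) (nat_lit 160) (nat_lit 5) (nat_lit 161) (nat_lit 5) (nat_lit 493) (nat_lit 419) (nat_lit 228)) (XT.lf (nat_lit 0) (nat_lit 1792043836) (nat_lit 532) (nat_lit 7509620512) (nat_lit 76) (nat_lit 11851978127) (nat_lit 153) (nat_lit 5) (nat_lit 160) (nat_lit 5) (nat_lit 154) (nat_lit 5) (nat_lit 494) (nat_lit 419) (nat_lit 227))))) (XT.nd (nat_lit 234) (nat_lit 912) (nat_lit 0) (XT.nd (nat_lit 78) (nat_lit 380) (nat_lit 0) (XT.lf (nat_lit 0) (nat_lit 3000925933) (nat_lit 456) (nat_lit 2342300865) (nat_lit 532) (nat_lit 16084781729) (nat_lit 147) (nat_lit 5) (nat_lit 153) (nat_lit 5) (nat_lit 154)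 (nat_lit 5) (nat_lit 495) (nat_lit 419) (nat_lit 226)) (XT.nd (nat_lit 78) (nat_lit 380) (nat_lit 0) (XT.lf (nat_lit 0) (nat_lit 9040750529) (nat_lit 532) (nat_lit 7923410635) (nat_lit 76) (nat_lit 4742197634) (nat_lit 147) (nat_lit 5) (nat_lit 154) (nat_lit 5) (nat_lit 148) (nat_lit 5) (nat_lit 496) (nat_lit 419) (nat_lit 225)) (XT.lf (nat_lit 0) (nat_lit 2802936465) (nat_lit 380) (nat_lit 10036831210) (nat_lit 456) (nat_lit 9149960719) (nat_lit 142) (nat_lit 5) (nat_lit 147) (nat_lit 5) (nat_lit 148) (nat_lit 5) (nat_lit 497) (nat_lit 419) (nat_lit 224)))) (XT.nd (nat_lit 156) (nat_lit 456) (nat_lit 0) (XT.nd (nat_lit 78) (nat_lit 456) (nat_lit 0) (XT.lf (nat_lit 0) (nat_lit 13842623928) (nat_lit 380) (nat_lit 2919209140) (nat_lit 456) (nat_lit 5515994069) (nat_lit 142) (nat_lit 5) (nat_lit 147) (nat_lit 5) (nat_lit 148) (nat_lit 5) (nat_lit 498) (nat_lit 419) (nat_lit 223)) (XT.lf (nat_lit 0) (nat_lit 2527858551)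 (nat_lit 456) (nat_lit 18273078346) (nat_lit 532) (nat_lit 1769982070) (nat_lit 136) (nat_lit 5) (nat_lit 142) (nat_lit 5) (nat_lit 143) (nat_lit 5) (nat_lit 499) (nat_lit 419) (nat_lit 222))) (XT.nd (nat_lit 78) (nat_lit 380) (nat_lit 0) (XT.lf (nat_lit 0) (nat_lit 2094385424) (nat_lit 532) (nat_lit 9085796293) (nat_lit 76) (nat_lit 11688020851) (nat_lit 135) (nat_lit 5) (nat_lit 142) (nat_lit 5) (nat_lit 136) (nat_lit 5) (nat_lit 500) (nat_lit 419) (nat_lit 221)) (XT.lf (nat_lit 0) (nat_lit 2098019837) (nat_lit 380) (nat_lit 3922103288) (nat_lit 456) (nat_lit 17150921944) (nat_lit 130) (nat_lit 5) (nat_lit 135) (nat_lit 5) (nat_lit 136) (nat_lit 5) (nat_lit 501) (nat_lit 419) (nat_lit 220)))))) (XT.nd (nat_lit 546) (nat_lit 1064) (nat_lit 0) (XT.nd (nat_lit 234) (nat_lit 760) (nat_lit 0) (XT.nd (nat_lit 78) (nat_lit 380) (nat_lit 0) (XT.lf (nat_lit 0) (nat_lit 10102535092) (nat_lit 456) (nat_lit 9881492637)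 (nat_lit 76) (nat_lit 3494356323) (nat_lit 130) (nat_lit 5) (nat_lit 136) (nat_lit 5) (nat_lit 131) (nat_lit 5) (nat_lit 502) (nat_lit 419) (nat_lit 219)) (XT.nd (nat_lit 78) (nat_lit 0) (nat_lit 0) (XT.lf (nat_lit 0) (nat_lit 1519556408) (nat_lit 380) (nat_lit 12777176511) (nat_lit 456) (nat_lit 9494536909) (nat_lit 125) (nat_lit 5) (nat_lit 130) (nat_lit 5) (nat_lit 131) (nat_lit 5) (nat_lit 503) (nat_lit 419) (nat_lit 218)) (XT.lf (nat_lit 0) (nat_lit 13274357806) (nat_lit 380) (nat_lit 5361122849) (nat_lit 456) (nat_lit 5473722054) (nat_lit 125) (nat_lit 5) (nat_lit 130) (nat_lit 5) (nat_lit 131) (nat_lit 5) (nat_lit 504) (nat_lit 419) (nat_lit 217)))) (XT.nd (nat_lit 156) (nat_lit 380) (nat_lit 0) (XT.nd (nat_lit 78) (nat_lit 76) (nat_lit 0) (XT.lf (nat_lit 0) (nat_lit 819047212) (nat_lit 304) (nat_lit 22256029147) (nat_lit 380) (nat_lit 1358139089) (nat_lit 121) (nat_lit 5) (nat_lit 125) (nat_lit 5) (nat_lit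 126) (nat_lit 5) (nat_lit 505) (nat_lit 419) (nat_lit 216)) (XT.lf (nat_lit 0) (nat_lit 2905672309) (nat_lit 380) (nat_lit 11971964357) (nat_lit 76) (nat_lit 9883642366) (nat_lit 120) (nat_lit 5) (nat_lit 125) (nat_lit 5) (nat_lit 121) (nat_lit 5) (nat_lit 506) (nat_lit 419) (nat_lit 215))) (XT.nd (nat_lit 78) (nat_lit 380) (nat_lit 0) (XT.lf (nat_lit 0) (nat_lit 7231167468) (nat_lit 380) (nat_lit 113923643) (nat_lit 76) (nat_lit 17750743875) (nat_lit 120) (nat_lit 5) (nat_lit 125) (nat_lit 5) (nat_lit 121) (nat_lit 5) (nat_lit 507) (nat_lit 419) (nat_lit 214)) (XT.lf (nat_lit 0) (nat_lit 11719327808) (nat_lit 456) (nat_lit 13305773279) (nat_lit 76) (nat_lit 410460322) (nat_lit 115) (nat_lit 5) (nat_lit 121) (nat_lit 5) (nat_lit 116) (nat_lit 5) (nat_lit 508) (nat_lit 419) (nat_lit 213))))) (XT.nd (nat_lit 234) (nat_lit 760) (nat_lit 0) (XT.nd (nat_lit 78) (nat_lit 304) (nat_lit 0) (XT.lf (nat_lit 0) (nat_lit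 16341383366) (nat_lit 456) (nat_lit 1218692058) (nat_lit 76) (nat_lit 8221126705) (nat_lit 115) (nat_lit 5) (nat_lit 121) (nat_lit 5) (nat_lit 116) (nat_lit 5) (nat_lit 509) (nat_lit 419) (nat_lit 212)) (XT.nd (nat_lit 78) (nat_lit 0) (nat_lit 0) (XT.lf (nat_lit 0) (nat_lit 11249935181) (nat_lit 304) (nat_lit 9873809908) (nat_lit 380) (nat_lit 5008655632) (nat_lit 111) (nat_lit 5) (nat_lit 115) (nat_lit 5) (nat_lit 116) (nat_lit 5) (nat_lit 510) (nat_lit 419) (nat_lit 211)) (XT.lf (nat_lit 0) (nat_lit 23976765051) (nat_lit 304) (nat_lit 2028041658) (nat_lit 380) (nat_lit 485757838) (nat_lit 111) (nat_lit 5) (nat_lit 115) (nat_lit 5) (nat_lit 116) (nat_lit 5) (nat_lit 511) (nat_lit 419) (nat_lit 210)))) (XT.nd (nat_lit 156) (nat_lit 304) (nat_lit 0) (XT.nd (nat_lit 78) (nat_lit 0) (nat_lit 0) (XT.lf (nat_lit 0) (nat_lit 4174029960) (nat_lit 456) (nat_lit 16691896651) (nat_lit 76) (nat_lit 5987419955) (nat_lit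 105) (nat_lit 5) (nat_lit 111) (nat_lit 5) (nat_lit 106) (nat_lit 5) (nat_lit 512) (nat_lit 419) (nat_lit 209)) (XT.lf (nat_lit 0) (nat_lit 8945899856) (nat_lit 456) (nat_lit 4123170803) (nat_lit 76) (nat_lit 14153743718) (nat_lit 105) (nat_lit 5) (nat_lit 111) (nat_lit 5) (nat_lit 106) (nat_lit 5) (nat_lit 513) (nat_lit 419) (nat_lit 208))) (XT.nd (nat_lit 78) (nat_lit 0) (nat_lit 0) (XT.lf (nat_lit 0) (nat_lit 8804913375) (nat_lit 304) (nat_lit 5060532862) (nat_lit 380) (nat_lit 13733182664) (nat_lit 101) (nat_lit 5) (nat_lit 105) (nat_lit 5) (nat_lit 106) (nat_lit 5) (nat_lit 514) (nat_lit 419) (nat_lit 207)) (XT.lf (nat_lit 0) (nat_lit 18926519161) (nat_lit 380) (nat_lit 5961847959) (nat_lit 76) (nat_lit 3092731979) (nat_lit 101) (nat_lit 5) (nat_lit 106) (nat_lit 5) (nat_lit 102) (nat_lit 5) (nat_lit 515) (nat_lit 419) (nat_lit 206))))))))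
noncomputable def xc191 : XT := (XT.nd (nat_lit 53586) (nat_lit 0) (nat_lit 11552) (XT.nd (nat_lit 52494) (nat_lit 0) (nat_lit 24320) (XT.nd (nat_lit 51948) (nat_lit 0) (nat_lit 25536) (XT.nd (nat_lit 234) (nat_lit 304) (nat_lit 0) (XT.nd (nat_lit 78) (nat_lit 380) (nat_lit 0) (XT.lf (nat_lit 0) (nat_lit 7179929221) (nat_lit 304) (nat_lit 16984214050) (nat_lit 380) (nat_lit 4205570890) (nat_lit 97) (nat_lit 5) (nat_lit 101) (nat_lit 5) (nat_lit 102) (nat_lit 5) (nat_lit 516) (nat_lit 419) (nat_lit 205)) (XT.nd (nat_lit 78) (nat_lit 304) (nat_lit 0) (XT.lf (nat_lit 0) (nat_lit 766192164) (nat_lit 380) (nat_lit 8112414637) (nat_lit 76) (nat_lit 19886690862) (nat_lit 96) (nat_lit 5) (nat_lit 101) (nat_lit 5) (nat_lit 97) (nat_lit 5) (nat_lit 517) (nat_lit 419) (nat_lit 204)) (XT.lf (nat_lit 0) (nat_lit 5260390236) (nat_lit 304) (nat_lit 550200562) (nat_lit 380) (nat_lit 23357057737) (nat_lit 92) (nat_lit 5) (nat_lit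 96) (nat_lit 5) (nat_lit 97) (nat_lit 5) (nat_lit 518) (nat_lit 419) (nat_lit 203)))) (XT.nd (nat_lit 156) (nat_lit 0) (nat_lit 0) (XT.nd (nat_lit 78) (nat_lit 304) (nat_lit 0) (XT.lf (nat_lit 0) (nat_lit 11057594232) (nat_lit 380) (nat_lit 10625566688) (nat_lit 76) (nat_lit 7892853070) (nat_lit 92) (nat_lit 5) (nat_lit 97) (nat_lit 5) (nat_lit 93) (nat_lit 5) (nat_lit 519) (nat_lit 419) (nat_lit 202)) (XT.lf (nat_lit 0) (nat_lit 2949660277) (nat_lit 304) (nat_lit 13478098781) (nat_lit 380) (nat_lit 13564425129) (nat_lit 88) (nat_lit 5) (nat_lit 92) (nat_lit 5) (nat_lit 93) (nat_lit 5) (nat_lit 520) (nat_lit 419) (nat_lit 201))) (XT.nd (nat_lit 51480) (nat_lit 0) (nat_lit 27132) (XT.lf (nat_lit 0) (nat_lit 16933331016) (nat_lit 304) (nat_lit 5038769394) (nat_lit 380) (nat_lit 8443243736) (nat_lit 88) (nat_lit 5) (nat_lit 92) (nat_lit 5) (nat_lit 93) (nat_lit 5) (nat_lit 521) (nat_lit 419) (nat_lit 200)) (XT.lf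 (nat_lit 0) (nat_lit 2343344099) (nat_lit 0) (nat_lit 2343344099) (nat_lit 1444) (nat_lit 94122286) (nat_lit 445) (nat_lit 5) (nat_lit 445) (nat_lit 3) (nat_lit 464) (nat_lit 3) (nat_lit 420) (nat_lit 420) (nat_lit 300))))) (XT.nd (nat_lit 234) (nat_lit 0) (nat_lit 152) (XT.nd (nat_lit 78) (nat_lit 0) (nat_lit 76) (XT.lf (nat_lit 0) (nat_lit 562588565) (nat_lit 1596) (nat_lit 507872569) (nat_lit 1596) (nat_lit 8571169654) (nat_lit 424) (nat_lit 3) (nat_lit 445) (nat_lit 3) (nat_lit 445) (nat_lit 5) (nat_lit 421) (nat_lit 420) (nat_lit 299)) (XT.nd (nat_lit 78) (nat_lit 0) (nat_lit 0) (XT.lf (nat_lit 0) (nat_lit 1349371899) (nat_lit 1520) (nat_lit 5752813604) (nat_lit 1596) (nat_lit 2620577767) (nat_lit 425) (nat_lit 5) (nat_lit 445) (nat_lit 5) (nat_lit 446) (nat_lit 5) (nat_lit 422) (nat_lit 420) (nat_lit 298)) (XT.lf (nat_lit 0) (nat_lit 2143114082) (nat_lit 1520) (nat_lit 1278791646) (nat_lit 1596) (nat_lit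 6383804326) (nat_lit 425) (nat_lit 5) (nat_lit 445) (nat_lit 5) (nat_lit 446) (nat_lit 5) (nat_lit 423) (nat_lit 420) (nat_lit 297)))) (XT.nd (nat_lit 156) (nat_lit 0) (nat_lit 0) (XT.nd (nat_lit 78) (nat_lit 0) (nat_lit 0) (XT.lf (nat_lit 0) (nat_lit 2957709891) (nat_lit 1520) (nat_lit 6574644401) (nat_lit 1596) (nat_lit 357877705) (nat_lit 426) (nat_lit 5) (nat_lit 446) (nat_lit 5) (nat_lit 447) (nat_lit 5) (nat_lit 424) (nat_lit 420) (nat_lit 296)) (XT.lf (nat_lit 0) (nat_lit 3801338909) (nat_lit 1520) (nat_lit 1990415277) (nat_lit 1596) (nat_lit 4184450855) (nat_lit 426) (nat_lit 5) (nat_lit 446) (nat_lit 5) (nat_lit 447) (nat_lit 5) (nat_lit 425) (nat_lit 420) (nat_lit 295))) (XT.nd (nat_lit 78) (nat_lit 0) (nat_lit 76) (XT.lf (nat_lit 76) (nat_lit 2710644260) (nat_lit 0) (nat_lit 1950600910) (nat_lit 1596) (nat_lit 5402679469) (nat_lit 427) (nat_lit 5) (nat_lit 426) (nat_lit 5) (nat_lit 447) (nat_lit 5)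 (nat_lit 426) (nat_lit 420) (nat_lit 294)) (XT.lf (nat_lit 0) (nat_lit 5546712403) (nat_lit 1520) (nat_lit 2644046296) (nat_lit 1596) (nat_lit 1962487560) (nat_lit 427) (nat_lit 5) (nat_lit 447) (nat_lit 5) (nat_lit 448) (nat_lit 5) (nat_lit 427) (nat_lit 420) (nat_lit 293)))))) (XT.nd (nat_lit 546) (nat_lit 0) (nat_lit 76) (XT.nd (nat_lit 234) (nat_lit 1444) (nat_lit 0) (XT.nd (nat_lit 78) (nat_lit 0) (nat_lit 0) (XT.lf (nat_lit 76) (nat_lit 2164292181) (nat_lit 0) (nat_lit 4295060972) (nat_lit 1596) (nat_lit 3784826470) (nat_lit 428) (nat_lit 5) (nat_lit 427) (nat_lit 5) (nat_lit 448) (nat_lit 5) (nat_lit 428) (nat_lit 420) (nat_lit 292)) (XT.nd (nat_lit 78) (nat_lit 0) (nat_lit 76) (XT.lf (nat_lit 76) (nat_lit 7094160081) (nat_lit 0) (nat_lit 296599064) (nat_lit 1596) (nat_lit 2946176570) (nat_lit 428) (nat_lit 5) (nat_lit 427) (nat_lit 5) (nat_lit 448) (nat_lit 5) (nat_lit 429) (nat_lit 420) (nat_lit 291))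 (XT.lf (nat_lit 76) (nat_lit 1677862209) (nat_lit 0) (nat_lit 6681529324) (nat_lit 1596) (nat_lit 2071797460) (nat_lit 429) (nat_lit 5) (nat_lit 428) (nat_lit 5) (nat_lit 449) (nat_lit 5) (nat_lit 430) (nat_lit 420) (nat_lit 290)))) (XT.nd (nat_lit 156) (nat_lit 1520) (nat_lit 0) (XT.nd (nat_lit 78) (nat_lit 0) (nat_lit 76) (XT.lf (nat_lit 76) (nat_lit 6728281832) (nat_lit 0) (nat_lit 2626238679) (nat_lit 1596) (nat_lit 1172678101) (nat_lit 429) (nat_lit 5) (nat_lit 428) (nat_lit 5) (nat_lit 449) (nat_lit 5) (nat_lit 431) (nat_lit 420) (nat_lit 289)) (XT.lf (nat_lit 76) (nat_lit 1250409418) (nat_lit 0) (nat_lit 9120841373) (nat_lit 1596) (nat_lit 253857140) (nat_lit 430) (nat_lit 5) (nat_lit 429) (nat_lit 5) (nat_lit 450) (nat_lit 5) (nat_lit 432) (nat_lit 420) (nat_lit 288))) (XT.nd (nat_lit 78) (nat_lit 0) (nat_lit 0) (XT.lf (nat_lit 0) (nat_lit 701337108) (nat_lit 1596) (nat_lit 4305168384) (nat_lit 1672)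 (nat_lit 5717854992) (nat_lit 408) (nat_lit 5) (nat_lit 429) (nat_lit 5) (nat_lit 430) (nat_lit 5) (nat_lit 433) (nat_lit 420) (nat_lit 287)) (XT.lf (nat_lit 76) (nat_lit 864703657) (nat_lit 0) (nat_lit 797370561) (nat_lit 1672) (nat_lit 9163706254) (nat_lit 409) (nat_lit 5) (nat_lit 408) (nat_lit 5) (nat_lit 430) (nat_lit 5) (nat_lit 434) (nat_lit 420) (nat_lit 286))))) (XT.nd (nat_lit 234) (nat_lit 0) (nat_lit 76) (XT.nd (nat_lit 78) (nat_lit 0) (nat_lit 0) (XT.lf (nat_lit 0) (nat_lit 2678298217) (nat_lit 1596) (nat_lit 4766202430) (nat_lit 1672) (nat_lit 3484015226) (nat_lit 409) (nat_lit 5) (nat_lit 430) (nat_lit 5) (nat_lit 431) (nat_lit 5) (nat_lit 435) (nat_lit 420) (nat_lit 285)) (XT.nd (nat_lit 78) (nat_lit 0) (nat_lit 76) (XT.lf (nat_lit 76) (nat_lit 523375685) (nat_lit 0) (nat_lit 3184946642) (nat_lit 1672) (nat_lit 7325126356) (nat_lit 410) (nat_lit 5) (nat_lit 409) (nat_lit 5) (nat_lit 431) (nat_lit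 5) (nat_lit 436) (nat_lit 420) (nat_lit 284)) (XT.lf (nat_lit 0) (nat_lit 4783725870) (nat_lit 1596) (nat_lit 5175275570) (nat_lit 1672) (nat_lit 1180995105) (nat_lit 410) (nat_lit 5) (nat_lit 431) (nat_lit 5) (nat_lit 432) (nat_lit 5) (nat_lit 437) (nat_lit 420) (nat_lit 283)))) (XT.nd (nat_lit 156) (nat_lit 0) (nat_lit 76) (XT.nd (nat_lit 78) (nat_lit 0) (nat_lit 0) (XT.lf (nat_lit 76) (nat_lit 237410108) (nat_lit 0) (nat_lit 5651207461) (nat_lit 1672) (nat_lit 5359909931) (nat_lit 411) (nat_lit 5) (nat_lit 410) (nat_lit 5) (nat_lit 432) (nat_lit 5) (nat_lit 438) (nat_lit 420) (nat_lit 282)) (XT.lf (nat_lit 76) (nat_lit 5817743953) (nat_lit 0) (nat_lit 1218155755) (nat_lit 1672) (nat_lit 4322935022) (nat_lit 411) (nat_lit 5) (nat_lit 410) (nat_lit 5) (nat_lit 432) (nat_lit 5) (nat_lit 439) (nat_lit 420) (nat_lit 281))) (XT.nd (nat_lit 78) (nat_lit 0) (nat_lit 0) (XT.lf (nat_lit 76) (nat_lit 6102933) (nat_lit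 0) (nat_lit 8207383324) (nat_lit 1672) (nat_lit 3257725955) (nat_lit 412) (nat_lit 5) (nat_lit 411) (nat_lit 5) (nat_lit 433) (nat_lit 5) (nat_lit 440) (nat_lit 420) (nat_lit 280)) (XT.lf (nat_lit 76) (nat_lit 5720383881) (nat_lit 0) (nat_lit 3725515713) (nat_lit 1672) (nat_lit 2139323212) (nat_lit 412) (nat_lit 5) (nat_lit 411) (nat_lit 5) (nat_lit 433) (nat_lit 5) (nat_lit 441) (nat_lit 420) (nat_lit 279))))))) (XT.nd (nat_lit 1092) (nat_lit 5928) (nat_lit 0) (XT.nd (nat_lit 546) (nat_lit 3876) (nat_lit 0) (XT.nd (nat_lit 234) (nat_lit 1596) (nat_lit 0) (XT.nd (nat_lit 78) (nat_lit 1672) (nat_lit 0) (XT.lf (nat_lit 0) (nat_lit 10694824075) (nat_lit 1596) (nat_lit 168941133) (nat_lit 1672) (nat_lit 837921988) (nat_lit 412) (nat_lit 5) (nat_lit 433) (nat_lit 5) (nat_lit 434) (nat_lit 5) (nat_lit 442) (nat_lit 420) (nat_lit 278)) (XT.nd (nat_lit 78) (nat_lit 0) (nat_lit 0) (XT.lf (nat_lit 0) (nat_lit 194798713)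 (nat_lit 1672) (nat_lit 6140784254) (nat_lit 1748) (nat_lit 5483919147) (nat_lit 390) (nat_lit 5) (nat_lit 412) (nat_lit 5) (nat_lit 413) (nat_lit 5) (nat_lit 443) (nat_lit 420) (nat_lit 277)) (XT.lf (nat_lit 0) (nat_lit 1394898767) (nat_lit 1672) (nat_lit 311494185) (nat_lit 1748) (nat_lit 10233399751) (nat_lit 390) (nat_lit 5) (nat_lit 412) (nat_lit 5) (nat_lit 413) (nat_lit 5) (nat_lit 444) (nat_lit 420) (nat_lit 276)))) (XT.nd (nat_lit 156) (nat_lit 1672) (nat_lit 0) (XT.nd (nat_lit 78) (nat_lit 0) (nat_lit 0) (XT.lf (nat_lit 0) (nat_lit 2662831415) (nat_lit 1672) (nat_lit 6383315447) (nat_lit 76) (nat_lit 3015475649) (nat_lit 391) (nat_lit 5) (nat_lit 413) (nat_lit 5) (nat_lit 392) (nat_lit 5) (nat_lit 445) (nat_lit 420) (nat_lit 275)) (XT.lf (nat_lit 0) (nat_lit 3956722517) (nat_lit 1672) (nat_lit 415823097) (nat_lit 76) (nat_lit 7813341127) (nat_lit 391) (nat_lit 5) (nat_lit 413) (nat_lit 5) (nat_lit 392)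 (nat_lit 5) (nat_lit 446) (nat_lit 420) (nat_lit 274))) (XT.nd (nat_lit 78) (nat_lit 0) (nat_lit 0) (XT.lf (nat_lit 0) (nat_lit 5303998318) (nat_lit 1748) (nat_lit 6579306484) (nat_lit 76) (nat_lit 428790947) (nat_lit 369) (nat_lit 5) (nat_lit 392) (nat_lit 5) (nat_lit 370) (nat_lit 5) (nat_lit 447) (nat_lit 420) (nat_lit 273)) (XT.lf (nat_lit 0) (nat_lit 6697621960) (nat_lit 1748) (nat_lit 470514628) (nat_lit 76) (nat_lit 5272313743) (nat_lit 369) (nat_lit 5) (nat_lit 392) (nat_lit 5) (nat_lit 370) (nat_lit 5) (nat_lit 448) (nat_lit 420) (nat_lit 272))))) (XT.nd (nat_lit 234) (nat_lit 1748) (nat_lit 0) (XT.nd (nat_lit 78) (nat_lit 836) (nat_lit 0) (XT.lf (nat_lit 0) (nat_lit 5826301120) (nat_lit 1292) (nat_lit 2318523793) (nat_lit 1368) (nat_lit 4426042211) (nat_lit 352) (nat_lit 5) (nat_lit 369) (nat_lit 5) (nat_lit 370) (nat_lit 5) (nat_lit 449) (nat_lit 420) (nat_lit 271)) (XT.nd (nat_lit 78) (nat_lit 836)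 (nat_lit 0) (XT.lf (nat_lit 0) (nat_lit 9629271096) (nat_lit 1368) (nat_lit 476235122) (nat_lit 76) (nat_lit 2598229126) (nat_lit 352) (nat_lit 5) (nat_lit 370) (nat_lit 5) (nat_lit 353) (nat_lit 5) (nat_lit 450) (nat_lit 420) (nat_lit 270)) (XT.lf (nat_lit 0) (nat_lit 5969861574) (nat_lit 836) (nat_lit 5215951168) (nat_lit 912) (nat_lit 1652608951) (nat_lit 341) (nat_lit 5) (nat_lit 352) (nat_lit 5) (nat_lit 353) (nat_lit 5) (nat_lit 451) (nat_lit 420) (nat_lit 269)))) (XT.nd (nat_lit 156) (nat_lit 836) (nat_lit 0) (XT.nd (nat_lit 78) (nat_lit 912) (nat_lit 0) (XT.lf (nat_lit 0) (nat_lit 12540862904) (nat_lit 836) (nat_lit 224271461) (nat_lit 912) (nat_lit 210843144) (nat_lit 341) (nat_lit 5) (nat_lit 352) (nat_lit 5) (nat_lit 353) (nat_lit 5) (nat_lit 452) (nat_lit 420) (nat_lit 268)) (XT.lf (nat_lit 0) (nat_lit 1303947180) (nat_lit 912) (nat_lit 6957910995) (nat_lit 76) (nat_lit 4853056842) (nat_lit 329) (nat_lit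 5) (nat_lit 341) (nat_lit 5) (nat_lit 330) (nat_lit 5) (nat_lit 453) (nat_lit 420) (nat_lit 267))) (XT.nd (nat_lit 78) (nat_lit 836) (nat_lit 0) (XT.lf (nat_lit 0) (nat_lit 2839395653) (nat_lit 912) (nat_lit 383208362) (nat_lit 76) (nat_lit 10034143895) (nat_lit 329) (nat_lit 5) (nat_lit 341) (nat_lit 5) (nat_lit 330) (nat_lit 5) (nat_lit 454) (nat_lit 420) (nat_lit 266)) (XT.lf (nat_lit 0) (nat_lit 4448790631) (nat_lit 912) (nat_lit 7017054211) (nat_lit 76) (nat_lit 1934715928) (nat_lit 318) (nat_lit 5) (nat_lit 330) (nat_lit 5) (nat_lit 319) (nat_lit 5) (nat_lit 455) (nat_lit 420) (nat_lit 265)))))) (XT.nd (nat_lit 546) (nat_lit 2812) (nat_lit 0) (XT.nd (nat_lit 234) (nat_lit 2280) (nat_lit 0) (XT.nd (nat_lit 78) (nat_lit 836) (nat_lit 0) (XT.lf (nat_lit 0) (nat_lit 6103435364) (nat_lit 912) (nat_lit 288357434) (nat_lit 76) (nat_lit 7155203751) (nat_lit 318) (nat_lit 5) (nat_lit 330) (nat_lit 5) (nat_lit 319)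 (nat_lit 5) (nat_lit 456) (nat_lit 420) (nat_lit 264)) (XT.nd (nat_lit 78) (nat_lit 0) (nat_lit 0) (XT.lf (nat_lit 0) (nat_lit 6651809355) (nat_lit 836) (nat_lit 1171896248) (nat_lit 912) (nat_lit 5872012531) (nat_lit 307) (nat_lit 5) (nat_lit 318) (nat_lit 5) (nat_lit 319) (nat_lit 5) (nat_lit 457) (nat_lit 420) (nat_lit 263)) (XT.lf (nat_lit 0) (nat_lit 9596777628) (nat_lit 912) (nat_lit 150155097) (nat_lit 76) (nat_lit 4100121094) (nat_lit 307) (nat_lit 5) (nat_lit 319) (nat_lit 5) (nat_lit 308) (nat_lit 5) (nat_lit 458) (nat_lit 420) (nat_lit 262)))) (XT.nd (nat_lit 156) (nat_lit 760) (nat_lit 0) (XT.nd (nat_lit 78) (nat_lit 760) (nat_lit 0) (XT.lf (nat_lit 0) (nat_lit 6954634881) (nat_lit 760) (nat_lit 4493285735) (nat_lit 836) (nat_lit 2552650854) (nat_lit 297) (nat_lit 5) (nat_lit 307) (nat_lit 5) (nat_lit 308) (nat_lit 5) (nat_lit 459) (nat_lit 420) (nat_lit 261)) (XT.lf (nat_lit 0) (nat_lit 30762710)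 (nat_lit 760) (nat_lit 13301986639) (nat_lit 836) (nat_lit 824484166) (nat_lit 287) (nat_lit 5) (nat_lit 297) (nat_lit 5) (nat_lit 298) (nat_lit 5) (nat_lit 460) (nat_lit 420) (nat_lit 260))) (XT.nd (nat_lit 78) (nat_lit 684) (nat_lit 0) (XT.lf (nat_lit 0) (nat_lit 993180998) (nat_lit 836) (nat_lit 7018243931) (nat_lit 76) (nat_lit 6304144244) (nat_lit 286) (nat_lit 5) (nat_lit 297) (nat_lit 5) (nat_lit 287) (nat_lit 5) (nat_lit 461) (nat_lit 420) (nat_lit 259)) (XT.lf (nat_lit 0) (nat_lit 219264393) (nat_lit 684) (nat_lit 2608415903) (nat_lit 760) (nat_lit 11649458714) (nat_lit 277) (nat_lit 5) (nat_lit 286) (nat_lit 5) (nat_lit 287) (nat_lit 5) (nat_lit 462) (nat_lit 420) (nat_lit 258))))) (XT.nd (nat_lit 312) (nat_lit 1368) (nat_lit 0) (XT.nd (nat_lit 156) (nat_lit 684) (nat_lit 0) (XT.nd (nat_lit 78) (nat_lit 760) (nat_lit 0) (XT.lf (nat_lit 0) (nat_lit 4755335341) (nat_lit 760) (nat_lit 6973929562) (nat_lit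 76) (nat_lit 2911552771) (nat_lit 277) (nat_lit 5) (nat_lit 287) (nat_lit 5) (nat_lit 278) (nat_lit 5) (nat_lit 463) (nat_lit 420) (nat_lit 257)) (XT.lf (nat_lit 0) (nat_lit 433884691) (nat_lit 760) (nat_lit 6298153866) (nat_lit 836) (nat_lit 8075528059) (nat_lit 267) (nat_lit 5) (nat_lit 277) (nat_lit 5) (nat_lit 278) (nat_lit 5) (nat_lit 464) (nat_lit 420) (nat_lit 256))) (XT.nd (nat_lit 78) (nat_lit 684) (nat_lit 0) (XT.lf (nat_lit 0) (nat_lit 8074230054) (nat_lit 760) (nat_lit 711370457) (nat_lit 836) (nat_lit 6191310015) (nat_lit 267) (nat_lit 5) (nat_lit 277) (nat_lit 5) (nat_lit 278) (nat_lit 5) (nat_lit 465) (nat_lit 420) (nat_lit 255)) (XT.lf (nat_lit 0) (nat_lit 684187169) (nat_lit 684) (nat_lit 10223575952) (nat_lit 760) (nat_lit 4241333960) (nat_lit 258) (nat_lit 5) (nat_lit 267) (nat_lit 5) (nat_lit 268) (nat_lit 5) (nat_lit 466) (nat_lit 420) (nat_lit 254)))) (XT.nd (nat_lit 156) (nat_lit 684) (nat_lit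 0) (XT.nd (nat_lit 78) (nat_lit 684) (nat_lit 0) (XT.lf (nat_lit 0) (nat_lit 8501505703) (nat_lit 684) (nat_lit 4612688070) (nat_lit 760) (nat_lit 2209703325) (nat_lit 258) (nat_lit 5) (nat_lit 267) (nat_lit 5) (nat_lit 268) (nat_lit 5) (nat_lit 467) (nat_lit 420) (nat_lit 253)) (XT.lf (nat_lit 0) (nat_lit 968405683) (nat_lit 684) (nat_lit 14400842719) (nat_lit 760) (nat_lit 132860914) (nat_lit 249) (nat_lit 5) (nat_lit 258) (nat_lit 5) (nat_lit 259) (nat_lit 5) (nat_lit 468) (nat_lit 420) (nat_lit 252))) (XT.nd (nat_lit 78) (nat_lit 608) (nat_lit 0) (XT.lf (nat_lit 0) (nat_lit 2027155624) (nat_lit 760) (nat_lit 6729335949) (nat_lit 76) (nat_lit 6925788693) (nat_lit 248) (nat_lit 5) (nat_lit 258) (nat_lit 5) (nat_lit 249) (nat_lit 5) (nat_lit 469) (nat_lit 420) (nat_lit 251)) (XT.lf (nat_lit 0) (nat_lit 1236533309) (nat_lit 608) (nat_lit 2991310900) (nat_lit 684) (nat_lit 11638213604) (nat_lit 240) (nat_lit 5)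 (nat_lit 248) (nat_lit 5) (nat_lit 249) (nat_lit 5) (nat_lit 470) (nat_lit 420) (nat_lit 250))))))))
noncomputable def xc192 : XT := (XT.nd (nat_lit 2184) (nat_lit 3800) (nat_lit 0) (XT.nd (nat_lit 1092) (nat_lit 3344) (nat_lit 0) (XT.nd (nat_lit 546) (nat_lit 2204) (nat_lit 0) (XT.nd (nat_lit 234) (nat_lit 1292) (nat_lit 0) (XT.nd (nat_lit 78) (nat_lit 608) (nat_lit 0) (XT.lf (nat_lit 0) (nat_lit 6528082539) (nat_lit 684) (nat_lit 6628756712) (nat_lit 76) (nat_lit 2895566582) (nat_lit 240) (nat_lit 5) (nat_lit 249) (nat_lit 5) (nat_lit 241) (nat_lit 5) (nat_lit 471) (nat_lit 420) (nat_lit 249)) (XT.nd (nat_lit 78) (nat_lit 0) (nat_lit 0) (XT.lf (nat_lit 0) (nat_lit 1522349636) (nat_lit 608) (nat_lit 7373161382) (nat_lit 684) (nat_lit 7346551618) (nat_lit 232) (nat_lit 5) (nat_lit 240) (nat_lit 5) (nat_lit 241) (nat_lit 5) (nat_lit 472) (nat_lit 420) (nat_lit 248)) (XT.lf (nat_lit 0) (nat_lit 9916564660) (nat_lit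 608) (nat_lit 1429800546) (nat_lit 684) (nat_lit 5088431250) (nat_lit 232) (nat_lit 5) (nat_lit 240) (nat_lit 5) (nat_lit 241) (nat_lit 5) (nat_lit 473) (nat_lit 420) (nat_lit 247)))) (XT.nd (nat_lit 156) (nat_lit 684) (nat_lit 0) (XT.nd (nat_lit 78) (nat_lit 0) (nat_lit 0) (XT.lf (nat_lit 0) (nat_lit 1831484571) (nat_lit 608) (nat_lit 12048470738) (nat_lit 684) (nat_lit 2750760582) (nat_lit 224) (nat_lit 5) (nat_lit 232) (nat_lit 5) (nat_lit 233) (nat_lit 5) (nat_lit 474) (nat_lit 420) (nat_lit 246)) (XT.lf (nat_lit 0) (nat_lit 10417283048) (nat_lit 608) (nat_lit 6091931283) (nat_lit 684) (nat_lit 320444654) (nat_lit 224) (nat_lit 5) (nat_lit 232) (nat_lit 5) (nat_lit 233) (nat_lit 5) (nat_lit 475) (nat_lit 420) (nat_lit 245))) (XT.nd (nat_lit 78) (nat_lit 0) (nat_lit 0) (XT.lf (nat_lit 0) (nat_lit 2136128073) (nat_lit 684) (nat_lit 14885496051) (nat_lit 76) (nat_lit 10562355) (nat_lit 215) (nat_lit 5) (nat_lit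 224) (nat_lit 5) (nat_lit 216) (nat_lit 5) (nat_lit 476) (nat_lit 420) (nat_lit 244)) (XT.lf (nat_lit 0) (nat_lit 4713242086) (nat_lit 684) (nat_lit 6326482088) (nat_lit 76) (nat_lit 6197488885) (nat_lit 215) (nat_lit 5) (nat_lit 224) (nat_lit 5) (nat_lit 216) (nat_lit 5) (nat_lit 477) (nat_lit 420) (nat_lit 243))))) (XT.nd (nat_lit 234) (nat_lit 1140) (nat_lit 0) (XT.nd (nat_lit 78) (nat_lit 532) (nat_lit 0) (XT.lf (nat_lit 0) (nat_lit 2426033247) (nat_lit 532) (nat_lit 4923809952) (nat_lit 608) (nat_lit 10096342891) (nat_lit 208) (nat_lit 5) (nat_lit 215) (nat_lit 5) (nat_lit 216) (nat_lit 5) (nat_lit 478) (nat_lit 420) (nat_lit 242)) (XT.nd (nat_lit 78) (nat_lit 532) (nat_lit 0) (XT.lf (nat_lit 0) (nat_lit 10082719672) (nat_lit 608) (nat_lit 6237530880) (nat_lit 76) (nat_lit 1338221885) (nat_lit 208) (nat_lit 5) (nat_lit 216) (nat_lit 5) (nat_lit 209) (nat_lit 5) (nat_lit 479) (nat_lit 420) (nat_lit 241))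 (XT.lf (nat_lit 0) (nat_lit 2714340314) (nat_lit 532) (nat_lit 10198570214) (nat_lit 608) (nat_lit 4961245473) (nat_lit 201) (nat_lit 5) (nat_lit 208) (nat_lit 5) (nat_lit 209) (nat_lit 5) (nat_lit 480) (nat_lit 420) (nat_lit 240)))) (XT.nd (nat_lit 156) (nat_lit 532) (nat_lit 0) (XT.nd (nat_lit 78) (nat_lit 608) (nat_lit 0) (XT.lf (nat_lit 0) (nat_lit 11920467852) (nat_lit 532) (nat_lit 3913607935) (nat_lit 608) (nat_lit 2259394574) (nat_lit 201) (nat_lit 5) (nat_lit 208) (nat_lit 5) (nat_lit 209) (nat_lit 5) (nat_lit 481) (nat_lit 420) (nat_lit 239)) (XT.lf (nat_lit 0) (nat_lit 518553009) (nat_lit 608) (nat_lit 15312530029) (nat_lit 76) (nat_lit 2485456436) (nat_lit 193) (nat_lit 5) (nat_lit 201) (nat_lit 5) (nat_lit 194) (nat_lit 5) (nat_lit 482) (nat_lit 420) (nat_lit 238))) (XT.nd (nat_lit 78) (nat_lit 532) (nat_lit 0) (XT.lf (nat_lit 0) (nat_lit 3382131210) (nat_lit 608) (nat_lit 6145487712) (nat_lit 76)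 (nat_lit 9014950132) (nat_lit 193) (nat_lit 5) (nat_lit 201) (nat_lit 5) (nat_lit 194) (nat_lit 5) (nat_lit 483) (nat_lit 420) (nat_lit 237)) (XT.lf (nat_lit 0) (nat_lit 3238218807) (nat_lit 532) (nat_lit 3078610672) (nat_lit 608) (nat_lit 12456016967) (nat_lit 186) (nat_lit 5) (nat_lit 193) (nat_lit 5) (nat_lit 194) (nat_lit 5) (nat_lit 484) (nat_lit 420) (nat_lit 236)))))) (XT.nd (nat_lit 546) (nat_lit 1824) (nat_lit 0) (XT.nd (nat_lit 234) (nat_lit 1064) (nat_lit 0) (XT.nd (nat_lit 78) (nat_lit 456) (nat_lit 0) (XT.lf (nat_lit 0) (nat_lit 9367347185) (nat_lit 608) (nat_lit 6146214187) (nat_lit 76) (nat_lit 3493029615) (nat_lit 186) (nat_lit 5) (nat_lit 194) (nat_lit 5) (nat_lit 187) (nat_lit 5) (nat_lit 485) (nat_lit 420) (nat_lit 235)) (XT.nd (nat_lit 78) (nat_lit 0) (nat_lit 0) (XT.lf (nat_lit 0) (nat_lit 3445732196) (nat_lit 456) (nat_lit 9068935162) (nat_lit 532) (nat_lit 6729631249) (nat_lit 180) (nat_lit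 5) (nat_lit 186) (nat_lit 5) (nat_lit 187) (nat_lit 5) (nat_lit 486) (nat_lit 420) (nat_lit 234)) (XT.lf (nat_lit 0) (nat_lit 13303851935) (nat_lit 456) (nat_lit 2455436643) (nat_lit 532) (nat_lit 3726788656) (nat_lit 180) (nat_lit 5) (nat_lit 186) (nat_lit 5) (nat_lit 187) (nat_lit 5) (nat_lit 487) (nat_lit 420) (nat_lit 233)))) (XT.nd (nat_lit 156) (nat_lit 456) (nat_lit 0) (XT.nd (nat_lit 78) (nat_lit 76) (nat_lit 0) (XT.lf (nat_lit 0) (nat_lit 3637362897) (nat_lit 532) (nat_lit 15476143284) (nat_lit 608) (nat_lit 618295048) (nat_lit 173) (nat_lit 5) (nat_lit 180) (nat_lit 5) (nat_lit 181) (nat_lit 5) (nat_lit 488) (nat_lit 420) (nat_lit 232)) (XT.lf (nat_lit 0) (nat_lit 2570174707) (nat_lit 608) (nat_lit 6286536303) (nat_lit 76) (nat_lit 11124375361) (nat_lit 172) (nat_lit 5) (nat_lit 180) (nat_lit 5) (nat_lit 173) (nat_lit 5) (nat_lit 489) (nat_lit 420) (nat_lit 231))) (XT.nd (nat_lit 78) (nat_lit 0) (nat_lit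 0) (XT.lf (nat_lit 0) (nat_lit 3753874295) (nat_lit 456) (nat_lit 2078032294) (nat_lit 532) (nat_lit 14403017103) (nat_lit 166) (nat_lit 5) (nat_lit 172) (nat_lit 5) (nat_lit 173) (nat_lit 5) (nat_lit 490) (nat_lit 420) (nat_lit 230)) (XT.lf (nat_lit 0) (nat_lit 9226188384) (nat_lit 532) (nat_lit 6453214380) (nat_lit 76) (nat_lit 4813092269) (nat_lit 166) (nat_lit 5) (nat_lit 173) (nat_lit 5) (nat_lit 167) (nat_lit 5) (nat_lit 491) (nat_lit 420) (nat_lit 229))))) (XT.nd (nat_lit 234) (nat_lit 912) (nat_lit 0) (XT.nd (nat_lit 78) (nat_lit 456) (nat_lit 0) (XT.lf (nat_lit 0) (nat_lit 3802611215) (nat_lit 456) (nat_lit 8917773887) (nat_lit 532) (nat_lit 8034195619) (nat_lit 160) (nat_lit 5) (nat_lit 166) (nat_lit 5) (nat_lit 167) (nat_lit 5) (nat_lit 492) (nat_lit 420) (nat_lit 228)) (XT.nd (nat_lit 78) (nat_lit 456) (nat_lit 0) (XT.lf (nat_lit 0) (nat_lit 14342409175) (nat_lit 456) (nat_lit 1979009411) (nat_lit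 532) (nat_lit 4699753921) (nat_lit 160) (nat_lit 5) (nat_lit 166) (nat_lit 5) (nat_lit 167) (nat_lit 5) (nat_lit 493) (nat_lit 420) (nat_lit 227)) (XT.lf (nat_lit 0) (nat_lit 3808185315) (nat_lit 456) (nat_lit 16237874203) (nat_lit 532) (nat_lit 1246008246) (nat_lit 154) (nat_lit 5) (nat_lit 160) (nat_lit 5) (nat_lit 161) (nat_lit 5) (nat_lit 494) (nat_lit 420) (nat_lit 226)))) (XT.nd (nat_lit 156) (nat_lit 380) (nat_lit 0) (XT.nd (nat_lit 78) (nat_lit 456) (nat_lit 0) (XT.lf (nat_lit 0) (nat_lit 2298953855) (nat_lit 532) (nat_lit 7008857827) (nat_lit 76) (nat_lit 12259236787) (nat_lit 153) (nat_lit 5) (nat_lit 160) (nat_lit 5) (nat_lit 154) (nat_lit 5) (nat_lit 495) (nat_lit 420) (nat_lit 225)) (XT.lf (nat_lit 0) (nat_lit 3707616948) (nat_lit 456) (nat_lit 2208505504) (nat_lit 532) (nat_lit 15930884963) (nat_lit 147) (nat_lit 5) (nat_lit 153) (nat_lit 5) (nat_lit 154) (nat_lit 5) (nat_lit 496) (nat_lit 420)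 (nat_lit 224))) (XT.nd (nat_lit 78) (nat_lit 380) (nat_lit 0) (XT.lf (nat_lit 0) (nat_lit 9679608640) (nat_lit 532) (nat_lit 7439662245) (nat_lit 76) (nat_lit 5011818287) (nat_lit 147) (nat_lit 5) (nat_lit 154) (nat_lit 5) (nat_lit 148) (nat_lit 5) (nat_lit 497) (nat_lit 420) (nat_lit 223)) (XT.lf (nat_lit 0) (nat_lit 3496986688) (nat_lit 380) (nat_lit 10052780467) (nat_lit 456) (nat_lit 8870460409) (nat_lit 142) (nat_lit 5) (nat_lit 147) (nat_lit 5) (nat_lit 148) (nat_lit 5) (nat_lit 498) (nat_lit 420) (nat_lit 222))))))) (XT.nd (nat_lit 1092) (nat_lit 1444) (nat_lit 0) (XT.nd (nat_lit 546) (nat_lit 1064) (nat_lit 0) (XT.nd (nat_lit 234) (nat_lit 760) (nat_lit 0) (XT.nd (nat_lit 78) (nat_lit 532) (nat_lit 0) (XT.lf (nat_lit 0) (nat_lit 14744958264) (nat_lit 380) (nat_lit 2796429238) (nat_lit 456) (nat_lit 5172883044) (nat_lit 142) (nat_lit 5) (nat_lit 147) (nat_lit 5) (nat_lit 148) (nat_lit 5) (nat_lit 499)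 (nat_lit 420) (nat_lit 221)) (XT.nd (nat_lit 78) (nat_lit 76) (nat_lit 0) (XT.lf (nat_lit 0) (nat_lit 3207667248) (nat_lit 456) (nat_lit 18450132738) (nat_lit 532) (nat_lit 1355498140) (nat_lit 136) (nat_lit 5) (nat_lit 142) (nat_lit 5) (nat_lit 143) (nat_lit 5) (nat_lit 500) (nat_lit 420) (nat_lit 220)) (XT.lf (nat_lit 0) (nat_lit 2571550845) (nat_lit 532) (nat_lit 8644600647) (nat_lit 76) (nat_lit 12100495874) (nat_lit 135) (nat_lit 5) (nat_lit 142) (nat_lit 5) (nat_lit 136) (nat_lit 5) (nat_lit 501) (nat_lit 420) (nat_lit 219)))) (XT.nd (nat_lit 156) (nat_lit 380) (nat_lit 0) (XT.nd (nat_lit 78) (nat_lit 0) (nat_lit 0) (XT.lf (nat_lit 0) (nat_lit 2758793704) (nat_lit 380) (nat_lit 3812492487) (nat_lit 456) (nat_lit 17054355059) (nat_lit 130) (nat_lit 5) (nat_lit 135) (nat_lit 5) (nat_lit 136) (nat_lit 5) (nat_lit 502) (nat_lit 420) (nat_lit 218)) (XT.lf (nat_lit 0) (nat_lit 10728097134) (nat_lit 456) (nat_lit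 9464987953) (nat_lit 76) (nat_lit 3746191018) (nat_lit 130) (nat_lit 5) (nat_lit 136) (nat_lit 5) (nat_lit 131) (nat_lit 5) (nat_lit 503) (nat_lit 420) (nat_lit 217))) (XT.nd (nat_lit 78) (nat_lit 0) (nat_lit 0) (XT.lf (nat_lit 0) (nat_lit 2160041713) (nat_lit 380) (nat_lit 12841794196) (nat_lit 456) (nat_lit 9256674574) (nat_lit 125) (nat_lit 5) (nat_lit 130) (nat_lit 5) (nat_lit 131) (nat_lit 5) (nat_lit 504) (nat_lit 420) (nat_lit 216)) (XT.lf (nat_lit 0) (nat_lit 14137976509) (nat_lit 380) (nat_lit 5281163105) (nat_lit 456) (nat_lit 5163830738) (nat_lit 125) (nat_lit 5) (nat_lit 130) (nat_lit 5) (nat_lit 131) (nat_lit 5) (nat_lit 505) (nat_lit 420) (nat_lit 215))))) (XT.nd (nat_lit 234) (nat_lit 304) (nat_lit 0) (XT.nd (nat_lit 78) (nat_lit 456) (nat_lit 0) (XT.lf (nat_lit 0) (nat_lit 1436778352) (nat_lit 304) (nat_lit 22507786895) (nat_lit 380) (nat_lit 968961209) (nat_lit 121) (nat_lit 5) (nat_lit 125)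 (nat_lit 5) (nat_lit 126) (nat_lit 5) (nat_lit 506) (nat_lit 420) (nat_lit 214)) (XT.nd (nat_lit 78) (nat_lit 380) (nat_lit 0) (XT.lf (nat_lit 0) (nat_lit 3366609558) (nat_lit 380) (nat_lit 11616305274) (nat_lit 76) (nat_lit 10265347266) (nat_lit 120) (nat_lit 5) (nat_lit 125) (nat_lit 5) (nat_lit 121) (nat_lit 5) (nat_lit 507) (nat_lit 420) (nat_lit 213)) (XT.lf (nat_lit 0) (nat_lit 473436868) (nat_lit 380) (nat_lit 7300353112) (nat_lit 456) (nat_lit 17815819332) (nat_lit 115) (nat_lit 5) (nat_lit 120) (nat_lit 5) (nat_lit 121) (nat_lit 5) (nat_lit 508) (nat_lit 420) (nat_lit 212)))) (XT.nd (nat_lit 156) (nat_lit 304) (nat_lit 0) (XT.nd (nat_lit 78) (nat_lit 0) (nat_lit 0) (XT.lf (nat_lit 0) (nat_lit 12345883939) (nat_lit 456) (nat_lit 12985524434) (nat_lit 76) (nat_lit 604842059) (nat_lit 115) (nat_lit 5) (nat_lit 121) (nat_lit 5) (nat_lit 116) (nat_lit 5) (nat_lit 509) (nat_lit 420) (nat_lit 211)) (XT.lf (nat_lit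 0) (nat_lit 17052691009) (nat_lit 456) (nat_lit 668198927) (nat_lit 76) (nat_lit 8568071327) (nat_lit 115) (nat_lit 5) (nat_lit 121) (nat_lit 5) (nat_lit 116) (nat_lit 5) (nat_lit 510) (nat_lit 420) (nat_lit 210))) (XT.nd (nat_lit 78) (nat_lit 0) (nat_lit 0) (XT.lf (nat_lit 0) (nat_lit 12046018836) (nat_lit 304) (nat_lit 9880850169) (nat_lit 380) (nat_lit 4720394879) (nat_lit 111) (nat_lit 5) (nat_lit 115) (nat_lit 5) (nat_lit 116) (nat_lit 5) (nat_lit 511) (nat_lit 420) (nat_lit 209)) (XT.lf (nat_lit 0) (nat_lit 25016187559) (nat_lit 304) (nat_lit 1881900592) (nat_lit 380) (nat_lit 114655480) (nat_lit 111) (nat_lit 5) (nat_lit 115) (nat_lit 5) (nat_lit 116) (nat_lit 5) (nat_lit 512) (nat_lit 420) (nat_lit 208)))))) (XT.nd (nat_lit 546) (nat_lit 0) (nat_lit 0) (XT.nd (nat_lit 234) (nat_lit 684) (nat_lit 0) (XT.nd (nat_lit 78) (nat_lit 304) (nat_lit 0) (XT.lf (nat_lit 0) (nat_lit 4630837642) (nat_lit 456) (nat_lit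 16458029790) (nat_lit 76) (nat_lit 6293917566) (nat_lit 105) (nat_lit 5) (nat_lit 111) (nat_lit 5) (nat_lit 106) (nat_lit 5) (nat_lit 513) (nat_lit 420) (nat_lit 207)) (XT.nd (nat_lit 78) (nat_lit 304) (nat_lit 0) (XT.lf (nat_lit 0) (nat_lit 9490824797) (nat_lit 456) (nat_lit 3649060892) (nat_lit 76) (nat_lit 14619906056) (nat_lit 105) (nat_lit 5) (nat_lit 111) (nat_lit 5) (nat_lit 106) (nat_lit 5) (nat_lit 514) (nat_lit 420) (nat_lit 206)) (XT.lf (nat_lit 0) (nat_lit 9533923304) (nat_lit 304) (nat_lit 4971252065) (nat_lit 380) (nat_lit 13638022038) (nat_lit 101) (nat_lit 5) (nat_lit 105) (nat_lit 5) (nat_lit 106) (nat_lit 5) (nat_lit 515) (nat_lit 420) (nat_lit 205)))) (XT.nd (nat_lit 156) (nat_lit 380) (nat_lit 0) (XT.nd (nat_lit 78) (nat_lit 304) (nat_lit 0) (XT.lf (nat_lit 0) (nat_lit 19661576018) (nat_lit 380) (nat_lit 5532968313) (nat_lit 76) (nat_lit 3338893604) (nat_lit 101) (nat_lit 5) (nat_lit 106)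 (nat_lit 5) (nat_lit 102) (nat_lit 5) (nat_lit 516) (nat_lit 420) (nat_lit 204)) (XT.lf (nat_lit 0) (nat_lit 7868038380) (nat_lit 304) (nat_lit 17132458839) (nat_lit 380) (nat_lit 3929400180) (nat_lit 97) (nat_lit 5) (nat_lit 101) (nat_lit 5) (nat_lit 102) (nat_lit 5) (nat_lit 517) (nat_lit 420) (nat_lit 203))) (XT.nd (nat_lit 78) (nat_lit 304) (nat_lit 0) (XT.lf (nat_lit 0) (nat_lit 1130101265) (nat_lit 380) (nat_lit 7736052705) (nat_lit 76) (nat_lit 20467334127) (nat_lit 96) (nat_lit 5) (nat_lit 101) (nat_lit 5) (nat_lit 97) (nat_lit 5) (nat_lit 518) (nat_lit 420) (nat_lit 202)) (XT.lf (nat_lit 0) (nat_lit 5900664778) (nat_lit 304) (nat_lit 371362098) (nat_lit 380) (nat_lit 23471929152) (nat_lit 92) (nat_lit 5) (nat_lit 96) (nat_lit 5) (nat_lit 97) (nat_lit 5) (nat_lit 519) (nat_lit 420) (nat_lit 201))))) (XT.nd (nat_lit 51792) (nat_lit 0) (nat_lit 25308) (XT.nd (nat_lit 51636) (nat_lit 0) (nat_lit 25232) (XT.lf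 (nat_lit 0) (nat_lit 11618409689) (nat_lit 380) (nat_lit 10307803872) (nat_lit 76) (nat_lit 8234389207) (nat_lit 92) (nat_lit 5) (nat_lit 97) (nat_lit 5) (nat_lit 93) (nat_lit 5) (nat_lit 520) (nat_lit 420) (nat_lit 200)) (XT.nd (nat_lit 78) (nat_lit 0) (nat_lit 0) (XT.lf (nat_lit 0) (nat_lit 650605482) (nat_lit 1596) (nat_lit 2105152043) (nat_lit 1596) (nat_lit 2105152043) (nat_lit 424) (nat_lit 3) (nat_lit 445) (nat_lit 3) (nat_lit 445) (nat_lit 5) (nat_lit 421) (nat_lit 421) (nat_lit 298)) (XT.lf (nat_lit 76) (nat_lit 230960526) (nat_lit 0) (nat_lit 1805852094) (nat_lit 1596) (nat_lit 7767170611) (nat_lit 425) (nat_lit 5) (nat_lit 424) (nat_lit 3) (nat_lit 445) (nat_lit 5) (nat_lit 422) (nat_lit 421) (nat_lit 297)))) (XT.nd (nat_lit 156) (nat_lit 0) (nat_lit 0) (XT.nd (nat_lit 78) (nat_lit 0) (nat_lit 0) (XT.lf (nat_lit 0) (nat_lit 2809464537) (nat_lit 1520) (nat_lit 5092344091) (nat_lit 1596) (nat_lit 1985551013)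 (nat_lit 425) (nat_lit 5) (nat_lit 445) (nat_lit 5) (nat_lit 446) (nat_lit 5) (nat_lit 423) (nat_lit 421) (nat_lit 296)) (XT.lf (nat_lit 0) (nat_lit 3590981462) (nat_lit 1520) (nat_lit 544048082) (nat_lit 1596) (nat_lit 5837521285) (nat_lit 425) (nat_lit 5) (nat_lit 445) (nat_lit 5) (nat_lit 446) (nat_lit 5) (nat_lit 424) (nat_lit 421) (nat_lit 295))) (XT.nd (nat_lit 78) (nat_lit 0) (nat_lit 76) (XT.lf (nat_lit 76) (nat_lit 4139666224) (nat_lit 0) (nat_lit 257156316) (nat_lit 1596) (nat_lit 5662464609) (nat_lit 426) (nat_lit 5) (nat_lit 425) (nat_lit 5) (nat_lit 446) (nat_lit 5) (nat_lit 425) (nat_lit 421) (nat_lit 294)) (XT.lf (nat_lit 0) (nat_lit 5228629238) (nat_lit 1520) (nat_lit 1257492218) (nat_lit 1596) (nat_lit 3661454652) (nat_lit 426) (nat_lit 5) (nat_lit 446) (nat_lit 5) (nat_lit 447) (nat_lit 5) (nat_lit 426) (nat_lit 421) (nat_lit 293))))))))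
noncomputable def xc193 : XT := (XT.nd (nat_lit 2184) (nat_lit 9728) (nat_lit 0) (XT.nd (nat_lit 1092) (nat_lit 5928) (nat_lit 0) (XT.nd (nat_lit 546) (nat_lit 0) (nat_lit 76) (XT.nd (nat_lit 234) (nat_lit 1444) (nat_lit 0) (XT.nd (nat_lit 78) (nat_lit 0) (nat_lit 76) (XT.lf (nat_lit 76) (nat_lit 3532504750) (nat_lit 0) (nat_lit 2551717587) (nat_lit 1596) (nat_lit 4153280099) (nat_lit 427) (nat_lit 5) (nat_lit 426) (nat_lit 5) (nat_lit 447) (nat_lit 5) (nat_lit 427) (nat_lit 421) (nat_lit 292)) (XT.nd (nat_lit 78) (nat_lit 0) (nat_lit 0) (XT.lf (nat_lit 0) (nat_lit 6957747345) (nat_lit 1520) (nat_lit 1913595989) (nat_lit 1596) (nat_lit 1457881865) (nat_lit 427) (nat_lit 5) (nat_lit 447) (nat_lit 5) (nat_lit 448) (nat_lit 5) (nat_lit 428) (nat_lit 421) (nat_lit 291)) (XT.lf (nat_lit 76) (nat_lit 2985755762) (nat_lit 0) (nat_lit 4882445423) (nat_lit 1596) (nat_lit 2554206094) (nat_lit 428) (nat_lit 5) (nat_lit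 427) (nat_lit 5) (nat_lit 448) (nat_lit 5) (nat_lit 429) (nat_lit 421) (nat_lit 290)))) (XT.nd (nat_lit 156) (nat_lit 1520) (nat_lit 0) (XT.nd (nat_lit 78) (nat_lit 0) (nat_lit 76) (XT.lf (nat_lit 76) (nat_lit 7998962633) (nat_lit 0) (nat_lit 794181273) (nat_lit 1596) (nat_lit 1724397253) (nat_lit 428) (nat_lit 5) (nat_lit 427) (nat_lit 5) (nat_lit 448) (nat_lit 5) (nat_lit 430) (nat_lit 421) (nat_lit 289)) (XT.lf (nat_lit 76) (nat_lit 2498452057) (nat_lit 0) (nat_lit 7260077890) (nat_lit 1596) (nat_lit 855622364) (nat_lit 429) (nat_lit 5) (nat_lit 428) (nat_lit 5) (nat_lit 449) (nat_lit 5) (nat_lit 431) (nat_lit 421) (nat_lit 288))) (XT.nd (nat_lit 78) (nat_lit 0) (nat_lit 76) (XT.lf (nat_lit 0) (nat_lit 36337436) (nat_lit 1596) (nat_lit 3078376270) (nat_lit 1672) (nat_lit 7597866781) (nat_lit 407) (nat_lit 5) (nat_lit 428) (nat_lit 5) (nat_lit 429) (nat_lit 5) (nat_lit 432) (nat_lit 421) (nat_lit 287)) (XT.lf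 (nat_lit 0) (nat_lit 939781391) (nat_lit 1596) (nat_lit 8749334098) (nat_lit 1672) (nat_lit 1123659296) (nat_lit 408) (nat_lit 5) (nat_lit 429) (nat_lit 5) (nat_lit 430) (nat_lit 5) (nat_lit 433) (nat_lit 421) (nat_lit 286))))) (XT.nd (nat_lit 234) (nat_lit 0) (nat_lit 76) (XT.nd (nat_lit 78) (nat_lit 0) (nat_lit 0) (XT.lf (nat_lit 0) (nat_lit 1887245913) (nat_lit 1596) (nat_lit 3595999975) (nat_lit 1672) (nat_lit 5431220503) (nat_lit 408) (nat_lit 5) (nat_lit 429) (nat_lit 5) (nat_lit 430) (nat_lit 5) (nat_lit 434) (nat_lit 421) (nat_lit 285)) (XT.nd (nat_lit 78) (nat_lit 0) (nat_lit 76) (XT.lf (nat_lit 76) (nat_lit 1672037457) (nat_lit 0) (nat_lit 1177311691) (nat_lit 1672) (nat_lit 8168941106) (nat_lit 409) (nat_lit 5) (nat_lit 408) (nat_lit 5) (nat_lit 430) (nat_lit 5) (nat_lit 435) (nat_lit 421) (nat_lit 284)) (XT.lf (nat_lit 0) (nat_lit 3860952571) (nat_lit 1596) (nat_lit 4061125653) (nat_lit 1672) (nat_lit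 3201519181) (nat_lit 409) (nat_lit 5) (nat_lit 430) (nat_lit 5) (nat_lit 431) (nat_lit 5) (nat_lit 436) (nat_lit 421) (nat_lit 283)))) (XT.nd (nat_lit 156) (nat_lit 0) (nat_lit 76) (XT.nd (nat_lit 78) (nat_lit 0) (nat_lit 76) (XT.lf (nat_lit 76) (nat_lit 1328978230) (nat_lit 0) (nat_lit 3565622489) (nat_lit 1672) (nat_lit 6336385465) (nat_lit 410) (nat_lit 5) (nat_lit 409) (nat_lit 5) (nat_lit 431) (nat_lit 5) (nat_lit 437) (nat_lit 421) (nat_lit 282)) (XT.lf (nat_lit 0) (nat_lit 5967688545) (nat_lit 1596) (nat_lit 4474541348) (nat_lit 1672) (nat_lit 897929022) (nat_lit 410) (nat_lit 5) (nat_lit 431) (nat_lit 5) (nat_lit 432) (nat_lit 5) (nat_lit 438) (nat_lit 421) (nat_lit 281))) (XT.nd (nat_lit 78) (nat_lit 0) (nat_lit 0) (XT.lf (nat_lit 76) (nat_lit 1041106992) (nat_lit 0) (nat_lit 6037419407) (nat_lit 1672) (nat_lit 4372674217) (nat_lit 411) (nat_lit 5) (nat_lit 410) (nat_lit 5) (nat_lit 432) (nat_lit 5)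 (nat_lit 439) (nat_lit 421) (nat_lit 280)) (XT.lf (nat_lit 76) (nat_lit 6717381854) (nat_lit 0) (nat_lit 1510350043) (nat_lit 1672) (nat_lit 3336419299) (nat_lit 411) (nat_lit 5) (nat_lit 410) (nat_lit 5) (nat_lit 432) (nat_lit 5) (nat_lit 440) (nat_lit 421) (nat_lit 279)))))) (XT.nd (nat_lit 546) (nat_lit 3040) (nat_lit 0) (XT.nd (nat_lit 234) (nat_lit 3192) (nat_lit 0) (XT.nd (nat_lit 78) (nat_lit 0) (nat_lit 0) (XT.lf (nat_lit 76) (nat_lit 807798744) (nat_lit 0) (nat_lit 8603960859) (nat_lit 1672) (nat_lit 2267375267) (nat_lit 412) (nat_lit 5) (nat_lit 411) (nat_lit 5) (nat_lit 433) (nat_lit 5) (nat_lit 441) (nat_lit 421) (nat_lit 278)) (XT.nd (nat_lit 78) (nat_lit 0) (nat_lit 76) (XT.lf (nat_lit 76) (nat_lit 6620648179) (nat_lit 0) (nat_lit 4027898447) (nat_lit 1672) (nat_lit 1147300649) (nat_lit 412) (nat_lit 5) (nat_lit 411) (nat_lit 5) (nat_lit 433) (nat_lit 5) (nat_lit 442) (nat_lit 421) (nat_lit 277))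 (XT.lf (nat_lit 76) (nat_lit 628487580) (nat_lit 0) (nat_lit 11276715045) (nat_lit 1672) (nat_lit 9799061) (nat_lit 413) (nat_lit 5) (nat_lit 412) (nat_lit 5) (nat_lit 434) (nat_lit 5) (nat_lit 443) (nat_lit 421) (nat_lit 276)))) (XT.nd (nat_lit 156) (nat_lit 1596) (nat_lit 0) (XT.nd (nat_lit 78) (nat_lit 0) (nat_lit 0) (XT.lf (nat_lit 0) (nat_lit 1183990509) (nat_lit 1672) (nat_lit 5462396356) (nat_lit 1748) (nat_lit 5389040423) (nat_lit 390) (nat_lit 5) (nat_lit 412) (nat_lit 5) (nat_lit 413) (nat_lit 5) (nat_lit 444) (nat_lit 421) (nat_lit 275)) (XT.lf (nat_lit 76) (nat_lit 473986051) (nat_lit 0) (nat_lit 1917864418) (nat_lit 1748) (nat_lit 9766612943) (nat_lit 391) (nat_lit 5) (nat_lit 390) (nat_lit 5) (nat_lit 413) (nat_lit 5) (nat_lit 445) (nat_lit 421) (nat_lit 274))) (XT.nd (nat_lit 78) (nat_lit 1672) (nat_lit 0) (XT.lf (nat_lit 0) (nat_lit 3667074737) (nat_lit 1672) (nat_lit 5709768964) (nat_lit 76)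 (nat_lit 2906262045) (nat_lit 391) (nat_lit 5) (nat_lit 413) (nat_lit 5) (nat_lit 392) (nat_lit 5) (nat_lit 446) (nat_lit 421) (nat_lit 273)) (XT.lf (nat_lit 0) (nat_lit 366165503) (nat_lit 1672) (nat_lit 4604408749) (nat_lit 1748) (nat_lit 7439620701) (nat_lit 369) (nat_lit 5) (nat_lit 391) (nat_lit 5) (nat_lit 392) (nat_lit 5) (nat_lit 447) (nat_lit 421) (nat_lit 272))))) (XT.nd (nat_lit 234) (nat_lit 1748) (nat_lit 0) (XT.nd (nat_lit 78) (nat_lit 1292) (nat_lit 0) (XT.lf (nat_lit 0) (nat_lit 6328302340) (nat_lit 1748) (nat_lit 5910572883) (nat_lit 76) (nat_lit 300396806) (nat_lit 369) (nat_lit 5) (nat_lit 392) (nat_lit 5) (nat_lit 370) (nat_lit 5) (nat_lit 448) (nat_lit 421) (nat_lit 271)) (XT.nd (nat_lit 78) (nat_lit 0) (nat_lit 0) (XT.lf (nat_lit 0) (nat_lit 308751599) (nat_lit 1292) (nat_lit 7425047082) (nat_lit 1368) (nat_lit 4936728764) (nat_lit 352) (nat_lit 5) (nat_lit 369) (nat_lit 5) (nat_lit 370)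 (nat_lit 5) (nat_lit 449) (nat_lit 421) (nat_lit 270)) (XT.lf (nat_lit 0) (nat_lit 6722292309) (nat_lit 1292) (nat_lit 2473058203) (nat_lit 1368) (nat_lit 3608507445) (nat_lit 352) (nat_lit 5) (nat_lit 369) (nat_lit 5) (nat_lit 370) (nat_lit 5) (nat_lit 450) (nat_lit 421) (nat_lit 269)))) (XT.nd (nat_lit 156) (nat_lit 912) (nat_lit 0) (XT.nd (nat_lit 78) (nat_lit 0) (nat_lit 0) (XT.lf (nat_lit 0) (nat_lit 301124724) (nat_lit 836) (nat_lit 10392223002) (nat_lit 912) (nat_lit 2246371787) (nat_lit 341) (nat_lit 5) (nat_lit 352) (nat_lit 5) (nat_lit 353) (nat_lit 5) (nat_lit 451) (nat_lit 421) (nat_lit 268)) (XT.lf (nat_lit 0) (nat_lit 6867043160) (nat_lit 836) (nat_lit 5400022108) (nat_lit 912) (nat_lit 810326375) (nat_lit 341) (nat_lit 5) (nat_lit 352) (nat_lit 5) (nat_lit 353) (nat_lit 5) (nat_lit 452) (nat_lit 421) (nat_lit 267))) (XT.nd (nat_lit 78) (nat_lit 0) (nat_lit 0) (XT.lf (nat_lit 0) (nat_lit 336402753)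 (nat_lit 836) (nat_lit 300458196) (nat_lit 912) (nat_lit 12581059423) (nat_lit 329) (nat_lit 5) (nat_lit 340) (nat_lit 5) (nat_lit 341) (nat_lit 5) (nat_lit 453) (nat_lit 421) (nat_lit 266)) (XT.lf (nat_lit 0) (nat_lit 2164902653) (nat_lit 912) (nat_lit 6310007733) (nat_lit 76) (nat_lit 4884995005) (nat_lit 329) (nat_lit 5) (nat_lit 341) (nat_lit 5) (nat_lit 330) (nat_lit 5) (nat_lit 454) (nat_lit 421) (nat_lit 265))))))) (XT.nd (nat_lit 1092) (nat_lit 4332) (nat_lit 0) (XT.nd (nat_lit 546) (nat_lit 2204) (nat_lit 0) (XT.nd (nat_lit 234) (nat_lit 1520) (nat_lit 0) (XT.nd (nat_lit 78) (nat_lit 836) (nat_lit 0) (XT.lf (nat_lit 0) (nat_lit 385816426) (nat_lit 836) (nat_lit 3331378517) (nat_lit 912) (nat_lit 9787669270) (nat_lit 318) (nat_lit 5) (nat_lit 329) (nat_lit 5) (nat_lit 330) (nat_lit 5) (nat_lit 455) (nat_lit 421) (nat_lit 264)) (XT.nd (nat_lit 78) (nat_lit 836) (nat_lit 0) (XT.lf (nat_lit 0) (nat_lit 5344935234)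 (nat_lit 912) (nat_lit 6373842085) (nat_lit 76) (nat_lit 1933064595) (nat_lit 318) (nat_lit 5) (nat_lit 330) (nat_lit 5) (nat_lit 319) (nat_lit 5) (nat_lit 456) (nat_lit 421) (nat_lit 263)) (XT.lf (nat_lit 0) (nat_lit 480364910) (nat_lit 836) (nat_lit 6539599959) (nat_lit 912) (nat_lit 6781507203) (nat_lit 307) (nat_lit 5) (nat_lit 318) (nat_lit 5) (nat_lit 319) (nat_lit 5) (nat_lit 457) (nat_lit 421) (nat_lit 262)))) (XT.nd (nat_lit 156) (nat_lit 760) (nat_lit 0) (XT.nd (nat_lit 78) (nat_lit 760) (nat_lit 0) (XT.lf (nat_lit 0) (nat_lit 7547981086) (nat_lit 836) (nat_lit 1212978854) (nat_lit 912) (nat_lit 5192493040) (nat_lit 307) (nat_lit 5) (nat_lit 318) (nat_lit 5) (nat_lit 319) (nat_lit 5) (nat_lit 458) (nat_lit 421) (nat_lit 261)) (XT.lf (nat_lit 0) (nat_lit 619108204) (nat_lit 760) (nat_lit 9938983131) (nat_lit 836) (nat_lit 3549963142) (nat_lit 297) (nat_lit 5) (nat_lit 307) (nat_lit 5) (nat_lit 308) (nat_lit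 5) (nat_lit 459) (nat_lit 421) (nat_lit 260))) (XT.nd (nat_lit 78) (nat_lit 760) (nat_lit 0) (XT.lf (nat_lit 0) (nat_lit 7852846985) (nat_lit 760) (nat_lit 4579312214) (nat_lit 836) (nat_lit 1832776082) (nat_lit 297) (nat_lit 5) (nat_lit 307) (nat_lit 5) (nat_lit 308) (nat_lit 5) (nat_lit 460) (nat_lit 421) (nat_lit 259)) (XT.lf (nat_lit 0) (nat_lit 801023075) (nat_lit 760) (nat_lit 13543873501) (nat_lit 836) (nat_lit 80040376) (nat_lit 287) (nat_lit 5) (nat_lit 297) (nat_lit 5) (nat_lit 298) (nat_lit 5) (nat_lit 461) (nat_lit 421) (nat_lit 258))))) (XT.nd (nat_lit 234) (nat_lit 1444) (nat_lit 0) (XT.nd (nat_lit 78) (nat_lit 684) (nat_lit 0) (XT.lf (nat_lit 0) (nat_lit 1749273730) (nat_lit 836) (nat_lit 6393759928) (nat_lit 76) (nat_lit 6443611563) (nat_lit 286) (nat_lit 5) (nat_lit 297) (nat_lit 5) (nat_lit 287) (nat_lit 5) (nat_lit 462) (nat_lit 421) (nat_lit 257)) (XT.nd (nat_lit 78) (nat_lit 0) (nat_lit 0)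 (XT.lf (nat_lit 0) (nat_lit 983466662) (nat_lit 684) (nat_lit 2627493723) (nat_lit 760) (nat_lit 11140686138) (nat_lit 277) (nat_lit 5) (nat_lit 286) (nat_lit 5) (nat_lit 287) (nat_lit 5) (nat_lit 463) (nat_lit 421) (nat_lit 256)) (XT.lf (nat_lit 0) (nat_lit 5563129624) (nat_lit 760) (nat_lit 6353959718) (nat_lit 76) (nat_lit 3001800013) (nat_lit 277) (nat_lit 5) (nat_lit 287) (nat_lit 5) (nat_lit 278) (nat_lit 5) (nat_lit 464) (nat_lit 421) (nat_lit 255)))) (XT.nd (nat_lit 156) (nat_lit 684) (nat_lit 0) (XT.nd (nat_lit 78) (nat_lit 0) (nat_lit 0) (XT.lf (nat_lit 0) (nat_lit 1197014449) (nat_lit 760) (nat_lit 6373276594) (nat_lit 836) (nat_lit 7518873379) (nat_lit 267) (nat_lit 5) (nat_lit 277) (nat_lit 5) (nat_lit 278) (nat_lit 5) (nat_lit 465) (nat_lit 421) (nat_lit 254)) (XT.lf (nat_lit 0) (nat_lit 8975373541) (nat_lit 760) (nat_lit 675754386) (nat_lit 836) (nat_lit 5611052645) (nat_lit 267) (nat_lit 5) (nat_lit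 277) (nat_lit 5) (nat_lit 278) (nat_lit 5) (nat_lit 466) (nat_lit 421) (nat_lit 253))) (XT.nd (nat_lit 78) (nat_lit 0) (nat_lit 0) (XT.lf (nat_lit 0) (nat_lit 1446516429) (nat_lit 684) (nat_lit 10360869543) (nat_lit 760) (nat_lit 3630601094) (nat_lit 258) (nat_lit 5) (nat_lit 267) (nat_lit 5) (nat_lit 268) (nat_lit 5) (nat_lit 467) (nat_lit 421) (nat_lit 252)) (XT.lf (nat_lit 0) (nat_lit 9405502010) (nat_lit 684) (nat_lit 4639081117) (nat_lit 760) (nat_lit 1571976270) (nat_lit 258) (nat_lit 5) (nat_lit 267) (nat_lit 5) (nat_lit 268) (nat_lit 5) (nat_lit 468) (nat_lit 421) (nat_lit 251)))))) (XT.nd (nat_lit 546) (nat_lit 1748) (nat_lit 0) (XT.nd (nat_lit 234) (nat_lit 1216) (nat_lit 0) (XT.nd (nat_lit 78) (nat_lit 608) (nat_lit 0) (XT.lf (nat_lit 0) (nat_lit 531315498) (nat_lit 760) (nat_lit 14071786241) (nat_lit 76) (nat_lit 1195330312) (nat_lit 248) (nat_lit 5) (nat_lit 258) (nat_lit 5) (nat_lit 249) (nat_lit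 5) (nat_lit 469) (nat_lit 421) (nat_lit 250)) (XT.nd (nat_lit 78) (nat_lit 608) (nat_lit 0) (XT.lf (nat_lit 0) (nat_lit 2719714704) (nat_lit 760) (nat_lit 6126950520) (nat_lit 76) (nat_lit 7135792953) (nat_lit 248) (nat_lit 5) (nat_lit 258) (nat_lit 5) (nat_lit 249) (nat_lit 5) (nat_lit 470) (nat_lit 421) (nat_lit 249)) (XT.lf (nat_lit 0) (nat_lit 1993387623) (nat_lit 608) (nat_lit 2962998244) (nat_lit 684) (nat_lit 11213694412) (nat_lit 240) (nat_lit 5) (nat_lit 248) (nat_lit 5) (nat_lit 249) (nat_lit 5) (nat_lit 471) (nat_lit 421) (nat_lit 248)))) (XT.nd (nat_lit 156) (nat_lit 608) (nat_lit 0) (XT.nd (nat_lit 78) (nat_lit 608) (nat_lit 0) (XT.lf (nat_lit 0) (nat_lit 7290562846) (nat_lit 684) (nat_lit 6031086667) (nat_lit 76) (nat_lit 3038755283) (nat_lit 240) (nat_lit 5) (nat_lit 249) (nat_lit 5) (nat_lit 241) (nat_lit 5) (nat_lit 472) (nat_lit 421) (nat_lit 247)) (XT.lf (nat_lit 0) (nat_lit 2278237563) (nat_lit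 608) (nat_lit 7419421813) (nat_lit 684) (nat_lit 6856357024) (nat_lit 232) (nat_lit 5) (nat_lit 240) (nat_lit 5) (nat_lit 241) (nat_lit 5) (nat_lit 473) (nat_lit 421) (nat_lit 246))) (XT.nd (nat_lit 78) (nat_lit 608) (nat_lit 0) (XT.lf (nat_lit 0) (nat_lit 10826112555) (nat_lit 608) (nat_lit 1359178129) (nat_lit 684) (nat_lit 4565566908) (nat_lit 232) (nat_lit 5) (nat_lit 240) (nat_lit 5) (nat_lit 241) (nat_lit 5) (nat_lit 474) (nat_lit 421) (nat_lit 245)) (XT.lf (nat_lit 0) (nat_lit 2586563523) (nat_lit 608) (nat_lit 12176285312) (nat_lit 684) (nat_lit 2187988398) (nat_lit 224) (nat_lit 5) (nat_lit 232) (nat_lit 5) (nat_lit 233) (nat_lit 5) (nat_lit 475) (nat_lit 421) (nat_lit 244))))) (XT.nd (nat_lit 234) (nat_lit 1064) (nat_lit 0) (XT.nd (nat_lit 78) (nat_lit 608) (nat_lit 0) (XT.lf (nat_lit 0) (nat_lit 275163590) (nat_lit 684) (nat_lit 5825823708) (nat_lit 76) (nat_lit 11052980646) (nat_lit 223) (nat_lit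 5) (nat_lit 232) (nat_lit 5) (nat_lit 224) (nat_lit 5) (nat_lit 476) (nat_lit 421) (nat_lit 243)) (XT.nd (nat_lit 78) (nat_lit 0) (nat_lit 0) (XT.lf (nat_lit 0) (nat_lit 2770219681) (nat_lit 684) (nat_lit 14463802264) (nat_lit 76) (nat_lit 126616121) (nat_lit 215) (nat_lit 5) (nat_lit 224) (nat_lit 5) (nat_lit 216) (nat_lit 5) (nat_lit 477) (nat_lit 421) (nat_lit 242)) (XT.lf (nat_lit 0) (nat_lit 5387280503) (nat_lit 684) (nat_lit 5747713977) (nat_lit 76) (nat_lit 6435009760) (nat_lit 215) (nat_lit 5) (nat_lit 224) (nat_lit 5) (nat_lit 216) (nat_lit 5) (nat_lit 478) (nat_lit 421) (nat_lit 241)))) (XT.nd (nat_lit 156) (nat_lit 532) (nat_lit 0) (XT.nd (nat_lit 78) (nat_lit 0) (nat_lit 0) (XT.lf (nat_lit 0) (nat_lit 3175211548) (nat_lit 532) (nat_lit 4894583116) (nat_lit 608) (nat_lit 9713505460) (nat_lit 208) (nat_lit 5) (nat_lit 215) (nat_lit 5) (nat_lit 216) (nat_lit 5) (nat_lit 479) (nat_lit 421) (nat_lit 240))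 (XT.lf (nat_lit 0) (nat_lit 10846907136) (nat_lit 608) (nat_lit 5664596996) (nat_lit 76) (nat_lit 1488543369) (nat_lit 208) (nat_lit 5) (nat_lit 216) (nat_lit 5) (nat_lit 209) (nat_lit 5) (nat_lit 480) (nat_lit 421) (nat_lit 239))) (XT.nd (nat_lit 78) (nat_lit 0) (nat_lit 0) (XT.lf (nat_lit 0) (nat_lit 3461721592) (nat_lit 532) (nat_lit 10265450186) (nat_lit 608) (nat_lit 4493010299) (nat_lit 201) (nat_lit 5) (nat_lit 208) (nat_lit 5) (nat_lit 209) (nat_lit 5) (nat_lit 481) (nat_lit 421) (nat_lit 238)) (XT.lf (nat_lit 0) (nat_lit 12838381594) (nat_lit 532) (nat_lit 3857476729) (nat_lit 608) (nat_lit 1748249050) (nat_lit 201) (nat_lit 5) (nat_lit 208) (nat_lit 5) (nat_lit 209) (nat_lit 5) (nat_lit 482) (nat_lit 421) (nat_lit 237))))))))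
noncomputable def xc194 : XT := (XT.nd (nat_lit 2184) (nat_lit 1748) (nat_lit 0) (XT.nd (nat_lit 1092) (nat_lit 2888) (nat_lit 0) (XT.nd (nat_lit 546) (nat_lit 1520) (nat_lit 0) (XT.nd (nat_lit 234) (nat_lit 988) (nat_lit 0) (XT.nd (nat_lit 78) (nat_lit 532) (nat_lit 0) (XT.lf (nat_lit 0) (nat_lit 1072535887) (nat_lit 608) (nat_lit 14925913204) (nat_lit 76) (nat_lit 2673231390) (nat_lit 193) (nat_lit 5) (nat_lit 201) (nat_lit 5) (nat_lit 194) (nat_lit 5) (nat_lit 483) (nat_lit 421) (nat_lit 236)) (XT.nd (nat_lit 78) (nat_lit 532) (nat_lit 0) (XT.lf (nat_lit 0) (nat_lit 3982726596) (nat_lit 608) (nat_lit 5589115677) (nat_lit 76) (nat_lit 9330607786) (nat_lit 193) (nat_lit 5) (nat_lit 201) (nat_lit 5) (nat_lit 194) (nat_lit 5) (nat_lit 484) (nat_lit 421) (nat_lit 235)) (XT.lf (nat_lit 0) (nat_lit 3977796013) (nat_lit 532) (nat_lit 2992254096) (nat_lit 608) (nat_lit 12167410370) (nat_lit 186) (nat_lit 5) (nat_lit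 193) (nat_lit 5) (nat_lit 194) (nat_lit 5) (nat_lit 485) (nat_lit 421) (nat_lit 234)))) (XT.nd (nat_lit 156) (nat_lit 532) (nat_lit 0) (XT.nd (nat_lit 78) (nat_lit 456) (nat_lit 0) (XT.lf (nat_lit 0) (nat_lit 10072188729) (nat_lit 608) (nat_lit 5597868593) (nat_lit 76) (nat_lit 3706016361) (nat_lit 186) (nat_lit 5) (nat_lit 194) (nat_lit 5) (nat_lit 187) (nat_lit 5) (nat_lit 486) (nat_lit 421) (nat_lit 233)) (XT.lf (nat_lit 0) (nat_lit 4181500467) (nat_lit 456) (nat_lit 9095137541) (nat_lit 532) (nat_lit 6342019661) (nat_lit 180) (nat_lit 5) (nat_lit 186) (nat_lit 5) (nat_lit 187) (nat_lit 5) (nat_lit 487) (nat_lit 421) (nat_lit 232))) (XT.nd (nat_lit 78) (nat_lit 532) (nat_lit 0) (XT.lf (nat_lit 0) (nat_lit 14223707041) (nat_lit 456) (nat_lit 2352411724) (nat_lit 532) (nat_lit 3289359514) (nat_lit 180) (nat_lit 5) (nat_lit 186) (nat_lit 5) (nat_lit 187) (nat_lit 5) (nat_lit 488) (nat_lit 421) (nat_lit 231))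 (XT.lf (nat_lit 0) (nat_lit 4368858397) (nat_lit 532) (nat_lit 15623971573) (nat_lit 608) (nat_lit 123384238) (nat_lit 173) (nat_lit 5) (nat_lit 180) (nat_lit 5) (nat_lit 181) (nat_lit 5) (nat_lit 489) (nat_lit 421) (nat_lit 230))))) (XT.nd (nat_lit 234) (nat_lit 988) (nat_lit 0) (XT.nd (nat_lit 78) (nat_lit 456) (nat_lit 0) (XT.lf (nat_lit 0) (nat_lit 3112385736) (nat_lit 608) (nat_lit 5759641823) (nat_lit 76) (nat_lit 11498593366) (nat_lit 172) (nat_lit 5) (nat_lit 180) (nat_lit 5) (nat_lit 173) (nat_lit 5) (nat_lit 490) (nat_lit 421) (nat_lit 229)) (XT.nd (nat_lit 78) (nat_lit 0) (nat_lit 0) (XT.lf (nat_lit 0) (nat_lit 4477283401) (nat_lit 456) (nat_lit 1956654577) (nat_lit 532) (nat_lit 14195710615) (nat_lit 166) (nat_lit 5) (nat_lit 172) (nat_lit 5) (nat_lit 173) (nat_lit 5) (nat_lit 491) (nat_lit 421) (nat_lit 228)) (XT.lf (nat_lit 0) (nat_lit 9887625054) (nat_lit 532) (nat_lit 5937918580) (nat_lit 76)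 (nat_lit 5067002543) (nat_lit 166) (nat_lit 5) (nat_lit 173) (nat_lit 5) (nat_lit 167) (nat_lit 5) (nat_lit 492) (nat_lit 421) (nat_lit 227)))) (XT.nd (nat_lit 156) (nat_lit 532) (nat_lit 0) (XT.nd (nat_lit 78) (nat_lit 0) (nat_lit 0) (XT.lf (nat_lit 0) (nat_lit 4518784316) (nat_lit 456) (nat_lit 8927726247) (nat_lit 532) (nat_lit 7713472027) (nat_lit 160) (nat_lit 5) (nat_lit 166) (nat_lit 5) (nat_lit 167) (nat_lit 5) (nat_lit 493) (nat_lit 421) (nat_lit 226)) (XT.lf (nat_lit 0) (nat_lit 15256826846) (nat_lit 456) (nat_lit 1853488503) (nat_lit 532) (nat_lit 4321780858) (nat_lit 160) (nat_lit 5) (nat_lit 166) (nat_lit 5) (nat_lit 167) (nat_lit 5) (nat_lit 494) (nat_lit 421) (nat_lit 225))) (XT.nd (nat_lit 78) (nat_lit 76) (nat_lit 0) (XT.lf (nat_lit 0) (nat_lit 4516162121) (nat_lit 456) (nat_lit 16389372048) (nat_lit 532) (nat_lit 802958408) (nat_lit 154) (nat_lit 5) (nat_lit 160) (nat_lit 5) (nat_lit 161) (nat_lit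 5) (nat_lit 495) (nat_lit 421) (nat_lit 224)) (XT.lf (nat_lit 0) (nat_lit 2797709885) (nat_lit 532) (nat_lit 6523357267) (nat_lit 76) (nat_lit 12668030805) (nat_lit 153) (nat_lit 5) (nat_lit 160) (nat_lit 5) (nat_lit 154) (nat_lit 5) (nat_lit 496) (nat_lit 421) (nat_lit 223)))))) (XT.nd (nat_lit 546) (nat_lit 1140) (nat_lit 0) (XT.nd (nat_lit 234) (nat_lit 912) (nat_lit 0) (XT.nd (nat_lit 78) (nat_lit 380) (nat_lit 0) (XT.lf (nat_lit 0) (nat_lit 4403330702) (nat_lit 456) (nat_lit 2079048762) (nat_lit 532) (nat_lit 15792378093) (nat_lit 147) (nat_lit 5) (nat_lit 153) (nat_lit 5) (nat_lit 154) (nat_lit 5) (nat_lit 497) (nat_lit 421) (nat_lit 222)) (XT.nd (nat_lit 78) (nat_lit 380) (nat_lit 0) (XT.lf (nat_lit 0) (nat_lit 10313457541) (nat_lit 532) (nat_lit 6971176940) (nat_lit 76) (nat_lit 5280044560) (nat_lit 147) (nat_lit 5) (nat_lit 154) (nat_lit 5) (nat_lit 148) (nat_lit 5) (nat_lit 498) (nat_lit 421) (nat_lit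 221)) (XT.lf (nat_lit 0) (nat_lit 4180143929) (nat_lit 380) (nat_lit 10076224228) (nat_lit 456) (nat_lit 8603329512) (nat_lit 142) (nat_lit 5) (nat_lit 147) (nat_lit 5) (nat_lit 148) (nat_lit 5) (nat_lit 499) (nat_lit 421) (nat_lit 220)))) (XT.nd (nat_lit 156) (nat_lit 456) (nat_lit 0) (XT.nd (nat_lit 78) (nat_lit 456) (nat_lit 0) (XT.lf (nat_lit 0) (nat_lit 15641051063) (nat_lit 380) (nat_lit 2678228559) (nat_lit 456) (nat_lit 4840517073) (nat_lit 142) (nat_lit 5) (nat_lit 147) (nat_lit 5) (nat_lit 148) (nat_lit 5) (nat_lit 500) (nat_lit 421) (nat_lit 219)) (XT.lf (nat_lit 0) (nat_lit 3876637515) (nat_lit 456) (nat_lit 18638044298) (nat_lit 532) (nat_lit 950194060) (nat_lit 136) (nat_lit 5) (nat_lit 142) (nat_lit 5) (nat_lit 143) (nat_lit 5) (nat_lit 501) (nat_lit 421) (nat_lit 218))) (XT.nd (nat_lit 78) (nat_lit 380) (nat_lit 0) (XT.lf (nat_lit 0) (nat_lit 3041357211) (nat_lit 532) (nat_lit 8218769504) (nat_lit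 76) (nat_lit 12514280691) (nat_lit 135) (nat_lit 5) (nat_lit 142) (nat_lit 5) (nat_lit 136) (nat_lit 5) (nat_lit 502) (nat_lit 421) (nat_lit 217)) (XT.lf (nat_lit 0) (nat_lit 3408753766) (nat_lit 380) (nat_lit 3707991793) (nat_lit 456) (nat_lit 16972926470) (nat_lit 130) (nat_lit 5) (nat_lit 135) (nat_lit 5) (nat_lit 136) (nat_lit 5) (nat_lit 503) (nat_lit 421) (nat_lit 216))))) (XT.nd (nat_lit 234) (nat_lit 760) (nat_lit 0) (XT.nd (nat_lit 78) (nat_lit 380) (nat_lit 0) (XT.lf (nat_lit 0) (nat_lit 11349724955) (nat_lit 456) (nat_lit 9064000769) (nat_lit 76) (nat_lit 3995997160) (nat_lit 130) (nat_lit 5) (nat_lit 136) (nat_lit 5) (nat_lit 131) (nat_lit 5) (nat_lit 504) (nat_lit 421) (nat_lit 215)) (XT.nd (nat_lit 78) (nat_lit 0) (nat_lit 0) (XT.lf (nat_lit 0) (nat_lit 2789646024) (nat_lit 380) (nat_lit 12915118118) (nat_lit 456) (nat_lit 9030665166) (nat_lit 125) (nat_lit 5) (nat_lit 130) (nat_lit 5) (nat_lit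 131) (nat_lit 5) (nat_lit 505) (nat_lit 421) (nat_lit 214)) (XT.lf (nat_lit 0) (nat_lit 14995641408) (nat_lit 380) (nat_lit 5206872679) (nat_lit 456) (nat_lit 4864026079) (nat_lit 125) (nat_lit 5) (nat_lit 130) (nat_lit 5) (nat_lit 131) (nat_lit 5) (nat_lit 506) (nat_lit 421) (nat_lit 213)))) (XT.nd (nat_lit 156) (nat_lit 380) (nat_lit 0) (XT.nd (nat_lit 78) (nat_lit 76) (nat_lit 0) (XT.lf (nat_lit 0) (nat_lit 2043512954) (nat_lit 304) (nat_lit 22772088312) (nat_lit 380) (nat_lit 588166786) (nat_lit 121) (nat_lit 5) (nat_lit 125) (nat_lit 5) (nat_lit 126) (nat_lit 5) (nat_lit 507) (nat_lit 421) (nat_lit 212)) (XT.lf (nat_lit 0) (nat_lit 3821123414) (nat_lit 380) (nat_lit 11276641405) (nat_lit 76) (nat_lit 10647540075) (nat_lit 120) (nat_lit 5) (nat_lit 125) (nat_lit 5) (nat_lit 121) (nat_lit 5) (nat_lit 508) (nat_lit 421) (nat_lit 211))) (XT.nd (nat_lit 78) (nat_lit 0) (nat_lit 0) (XT.lf (nat_lit 0) (nat_lit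 1051132488) (nat_lit 380) (nat_lit 7261412464) (nat_lit 456) (nat_lit 17781015655) (nat_lit 115) (nat_lit 5) (nat_lit 120) (nat_lit 5) (nat_lit 121) (nat_lit 5) (nat_lit 509) (nat_lit 421) (nat_lit 210)) (XT.lf (nat_lit 0) (nat_lit 12969742770) (nat_lit 456) (nat_lit 12681639852) (nat_lit 76) (nat_lit 795882124) (nat_lit 115) (nat_lit 5) (nat_lit 121) (nat_lit 5) (nat_lit 116) (nat_lit 5) (nat_lit 510) (nat_lit 421) (nat_lit 209))))))) (XT.nd (nat_lit 52728) (nat_lit 0) (nat_lit 23940) (XT.nd (nat_lit 546) (nat_lit 684) (nat_lit 0) (XT.nd (nat_lit 234) (nat_lit 684) (nat_lit 0) (XT.nd (nat_lit 78) (nat_lit 380) (nat_lit 0) (XT.lf (nat_lit 0) (nat_lit 17763294979) (nat_lit 456) (nat_lit 129018719) (nat_lit 76) (nat_lit 8914867287) (nat_lit 115) (nat_lit 5) (nat_lit 121) (nat_lit 5) (nat_lit 116) (nat_lit 5) (nat_lit 511) (nat_lit 421) (nat_lit 208)) (XT.nd (nat_lit 78) (nat_lit 76) (nat_lit 0) (XT.lf (nat_lit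 0) (nat_lit 12835848240) (nat_lit 304) (nat_lit 9895426095) (nat_lit 380) (nat_lit 4441452271) (nat_lit 111) (nat_lit 5) (nat_lit 115) (nat_lit 5) (nat_lit 116) (nat_lit 5) (nat_lit 512) (nat_lit 421) (nat_lit 207)) (XT.lf (nat_lit 0) (nat_lit 245814571) (nat_lit 380) (nat_lit 1492622451) (nat_lit 76) (nat_lit 25807193299) (nat_lit 110) (nat_lit 5) (nat_lit 115) (nat_lit 5) (nat_lit 111) (nat_lit 5) (nat_lit 513) (nat_lit 421) (nat_lit 206)))) (XT.nd (nat_lit 156) (nat_lit 304) (nat_lit 0) (XT.nd (nat_lit 78) (nat_lit 0) (nat_lit 0) (XT.lf (nat_lit 0) (nat_lit 5082284733) (nat_lit 456) (nat_lit 16241530260) (nat_lit 76) (nat_lit 6599293431) (nat_lit 105) (nat_lit 5) (nat_lit 111) (nat_lit 5) (nat_lit 106) (nat_lit 5) (nat_lit 514) (nat_lit 421) (nat_lit 205)) (XT.lf (nat_lit 0) (nat_lit 10032435741) (nat_lit 456) (nat_lit 3187081202) (nat_lit 76) (nat_lit 15088282131) (nat_lit 105) (nat_lit 5) (nat_lit 111) (nat_lit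 5) (nat_lit 106) (nat_lit 5) (nat_lit 515) (nat_lit 421) (nat_lit 204))) (XT.nd (nat_lit 78) (nat_lit 0) (nat_lit 0) (XT.lf (nat_lit 0) (nat_lit 10256043198) (nat_lit 304) (nat_lit 4887582667) (nat_lit 380) (nat_lit 13555318927) (nat_lit 101) (nat_lit 5) (nat_lit 105) (nat_lit 5) (nat_lit 106) (nat_lit 5) (nat_lit 516) (nat_lit 421) (nat_lit 203)) (XT.lf (nat_lit 0) (nat_lit 20397489655) (nat_lit 380) (nat_lit 5116795110) (nat_lit 76) (nat_lit 3582821597) (nat_lit 101) (nat_lit 5) (nat_lit 106) (nat_lit 5) (nat_lit 102) (nat_lit 5) (nat_lit 517) (nat_lit 421) (nat_lit 202))))) (XT.nd (nat_lit 51870) (nat_lit 0) (nat_lit 25232) (XT.nd (nat_lit 78) (nat_lit 380) (nat_lit 0) (XT.lf (nat_lit 0) (nat_lit 8548765713) (nat_lit 304) (nat_lit 17291102353) (nat_lit 380) (nat_lit 3661696249) (nat_lit 97) (nat_lit 5) (nat_lit 101) (nat_lit 5) (nat_lit 102) (nat_lit 5) (nat_lit 518) (nat_lit 421) (nat_lit 201)) (XT.nd (nat_lit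 78) (nat_lit 304) (nat_lit 0) (XT.lf (nat_lit 0) (nat_lit 1487752558) (nat_lit 380) (nat_lit 7373078425) (nat_lit 76) (nat_lit 21052487661) (nat_lit 96) (nat_lit 5) (nat_lit 101) (nat_lit 5) (nat_lit 97) (nat_lit 5) (nat_lit 519) (nat_lit 421) (nat_lit 200)) (XT.lf (nat_lit 0) (nat_lit 6532967516) (nat_lit 304) (nat_lit 196318679) (nat_lit 380) (nat_lit 23602777059) (nat_lit 92) (nat_lit 5) (nat_lit 96) (nat_lit 5) (nat_lit 97) (nat_lit 5) (nat_lit 520) (nat_lit 421) (nat_lit 199)))) (XT.nd (nat_lit 156) (nat_lit 0) (nat_lit 76) (XT.nd (nat_lit 78) (nat_lit 0) (nat_lit 0) (XT.lf (nat_lit 0) (nat_lit 1380025795) (nat_lit 1596) (nat_lit 1781587702) (nat_lit 1596) (nat_lit 1781587702) (nat_lit 424) (nat_lit 3) (nat_lit 445) (nat_lit 3) (nat_lit 445) (nat_lit 5) (nat_lit 422) (nat_lit 422) (nat_lit 296)) (XT.lf (nat_lit 76) (nat_lit 962103087) (nat_lit 0) (nat_lit 2524884824) (nat_lit 1596) (nat_lit 6483712878) (nat_lit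 425) (nat_lit 5) (nat_lit 424) (nat_lit 3) (nat_lit 445) (nat_lit 5) (nat_lit 423) (nat_lit 422) (nat_lit 295))) (XT.nd (nat_lit 78) (nat_lit 0) (nat_lit 0) (XT.lf (nat_lit 0) (nat_lit 4243109806) (nat_lit 1520) (nat_lit 4448779799) (nat_lit 1596) (nat_lit 1364517791) (nat_lit 425) (nat_lit 5) (nat_lit 445) (nat_lit 5) (nat_lit 446) (nat_lit 5) (nat_lit 424) (nat_lit 422) (nat_lit 294)) (XT.lf (nat_lit 76) (nat_lit 178203394) (nat_lit 0) (nat_lit 4836201748) (nat_lit 1596) (nat_lit 5129436859) (nat_lit 426) (nat_lit 5) (nat_lit 425) (nat_lit 5) (nat_lit 446) (nat_lit 5) (nat_lit 425) (nat_lit 422) (nat_lit 293)))))) (XT.nd (nat_lit 546) (nat_lit 0) (nat_lit 0) (XT.nd (nat_lit 234) (nat_lit 1368) (nat_lit 0) (XT.nd (nat_lit 78) (nat_lit 0) (nat_lit 76) (XT.lf (nat_lit 76) (nat_lit 4948446953) (nat_lit 0) (nat_lit 864993313) (nat_lit 1596) (nat_lit 4419353351) (nat_lit 426) (nat_lit 5) (nat_lit 425) (nat_lit 5)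 (nat_lit 446) (nat_lit 5) (nat_lit 426) (nat_lit 422) (nat_lit 292)) (XT.nd (nat_lit 78) (nat_lit 0) (nat_lit 0) (XT.lf (nat_lit 0) (nat_lit 6631994163) (nat_lit 1520) (nat_lit 539916799) (nat_lit 1596) (nat_lit 3151556851) (nat_lit 426) (nat_lit 5) (nat_lit 446) (nat_lit 5) (nat_lit 447) (nat_lit 5) (nat_lit 427) (nat_lit 422) (nat_lit 291)) (XT.lf (nat_lit 76) (nat_lit 4340993759) (nat_lit 0) (nat_lit 3143029389) (nat_lit 1596) (nat_lit 2931604294) (nat_lit 427) (nat_lit 5) (nat_lit 426) (nat_lit 5) (nat_lit 447) (nat_lit 5) (nat_lit 428) (nat_lit 422) (nat_lit 290)))) (XT.nd (nat_lit 156) (nat_lit 1520) (nat_lit 0) (XT.nd (nat_lit 78) (nat_lit 0) (nat_lit 0) (XT.lf (nat_lit 0) (nat_lit 8346518492) (nat_lit 1520) (nat_lit 1198954383) (nat_lit 1596) (nat_lit 964302625) (nat_lit 427) (nat_lit 5) (nat_lit 447) (nat_lit 5) (nat_lit 448) (nat_lit 5) (nat_lit 429) (nat_lit 422) (nat_lit 289)) (XT.lf (nat_lit 76)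 (nat_lit 3793431025) (nat_lit 0) (nat_lit 5462104359) (nat_lit 1596) (nat_lit 1349699188) (nat_lit 428) (nat_lit 5) (nat_lit 427) (nat_lit 5) (nat_lit 448) (nat_lit 5) (nat_lit 430) (nat_lit 422) (nat_lit 288))) (XT.nd (nat_lit 78) (nat_lit 1520) (nat_lit 0) (XT.lf (nat_lit 76) (nat_lit 8892236148) (nat_lit 0) (nat_lit 1282623748) (nat_lit 1596) (nat_lit 527913602) (nat_lit 428) (nat_lit 5) (nat_lit 427) (nat_lit 5) (nat_lit 448) (nat_lit 5) (nat_lit 431) (nat_lit 422) (nat_lit 287)) (XT.lf (nat_lit 0) (nat_lit 331634416) (nat_lit 1596) (nat_lit 7499060862) (nat_lit 1672) (nat_lit 2971032409) (nat_lit 407) (nat_lit 5) (nat_lit 428) (nat_lit 5) (nat_lit 429) (nat_lit 5) (nat_lit 432) (nat_lit 422) (nat_lit 286))))) (XT.nd (nat_lit 234) (nat_lit 0) (nat_lit 76) (XT.nd (nat_lit 78) (nat_lit 0) (nat_lit 76) (XT.lf (nat_lit 0) (nat_lit 1206596689) (nat_lit 1596) (nat_lit 2381819262) (nat_lit 1672) (nat_lit 7314081834)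 (nat_lit 407) (nat_lit 5) (nat_lit 428) (nat_lit 5) (nat_lit 429) (nat_lit 5) (nat_lit 433) (nat_lit 422) (nat_lit 285)) (XT.nd (nat_lit 78) (nat_lit 0) (nat_lit 0) (XT.lf (nat_lit 0) (nat_lit 2107481002) (nat_lit 1596) (nat_lit 8144642566) (nat_lit 1672) (nat_lit 753003473) (nat_lit 408) (nat_lit 5) (nat_lit 429) (nat_lit 5) (nat_lit 430) (nat_lit 5) (nat_lit 434) (nat_lit 422) (nat_lit 284)) (XT.lf (nat_lit 0) (nat_lit 3051367286) (nat_lit 1596) (nat_lit 2903529569) (nat_lit 1672) (nat_lit 5154424316) (nat_lit 408) (nat_lit 5) (nat_lit 429) (nat_lit 5) (nat_lit 430) (nat_lit 5) (nat_lit 435) (nat_lit 422) (nat_lit 283)))) (XT.nd (nat_lit 156) (nat_lit 0) (nat_lit 76) (XT.nd (nat_lit 78) (nat_lit 0) (nat_lit 76) (XT.lf (nat_lit 76) (nat_lit 2464839726) (nat_lit 0) (nat_lit 1550717325) (nat_lit 1672) (nat_lit 7200025356) (nat_lit 409) (nat_lit 5) (nat_lit 408) (nat_lit 5) (nat_lit 430) (nat_lit 5) (nat_lit 436)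 (nat_lit 422) (nat_lit 282)) (XT.lf (nat_lit 0) (nat_lit 5023416133) (nat_lit 1596) (nat_lit 3373027880) (nat_lit 1672) (nat_lit 2927048652) (nat_lit 409) (nat_lit 5) (nat_lit 430) (nat_lit 5) (nat_lit 431) (nat_lit 5) (nat_lit 437) (nat_lit 422) (nat_lit 281))) (XT.nd (nat_lit 78) (nat_lit 0) (nat_lit 76) (XT.lf (nat_lit 76) (nat_lit 2119816763) (nat_lit 0) (nat_lit 3941603254) (nat_lit 1672) (nat_lit 5371952643) (nat_lit 410) (nat_lit 5) (nat_lit 409) (nat_lit 5) (nat_lit 431) (nat_lit 5) (nat_lit 438) (nat_lit 422) (nat_lit 280)) (XT.lf (nat_lit 0) (nat_lit 7133070918) (nat_lit 1596) (nat_lit 3791022051) (nat_lit 1672) (nat_lit 621110607) (nat_lit 410) (nat_lit 5) (nat_lit 431) (nat_lit 5) (nat_lit 432) (nat_lit 5) (nat_lit 439) (nat_lit 422) (nat_lit 279))))))))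
noncomputable def xc195 : XT := (XT.nd (nat_lit 2184) (nat_lit 8588) (nat_lit 0) (XT.nd (nat_lit 1092) (nat_lit 5548) (nat_lit 0) (XT.nd (nat_lit 546) (nat_lit 3800) (nat_lit 0) (XT.nd (nat_lit 234) (nat_lit 1520) (nat_lit 0) (XT.nd (nat_lit 78) (nat_lit 0) (nat_lit 0) (XT.lf (nat_lit 76) (nat_lit 1829853663) (nat_lit 0) (nat_lit 6420747377) (nat_lit 1672) (nat_lit 3408191992) (nat_lit 411) (nat_lit 5) (nat_lit 410) (nat_lit 5) (nat_lit 432) (nat_lit 5) (nat_lit 440) (nat_lit 422) (nat_lit 278)) (XT.nd (nat_lit 78) (nat_lit 0) (nat_lit 76) (XT.lf (nat_lit 76) (nat_lit 7604596678) (nat_lit 0) (nat_lit 1797988006) (nat_lit 1672) (nat_lit 2371838166) (nat_lit 411) (nat_lit 5) (nat_lit 410) (nat_lit 5) (nat_lit 432) (nat_lit 5) (nat_lit 441) (nat_lit 422) (nat_lit 277)) (XT.lf (nat_lit 76) (nat_lit 1594402386) (nat_lit 0) (nat_lit 8999444409) (nat_lit 1672) (nat_lit 1298204119) (nat_lit 412) (nat_lit 5) (nat_lit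 411) (nat_lit 5) (nat_lit 433) (nat_lit 5) (nat_lit 442) (nat_lit 422) (nat_lit 276)))) (XT.nd (nat_lit 156) (nat_lit 0) (nat_lit 0) (XT.nd (nat_lit 78) (nat_lit 1596) (nat_lit 0) (XT.lf (nat_lit 76) (nat_lit 7508401992) (nat_lit 0) (nat_lit 4327480272) (nat_lit 1672) (nat_lit 175620531) (nat_lit 412) (nat_lit 5) (nat_lit 411) (nat_lit 5) (nat_lit 433) (nat_lit 5) (nat_lit 443) (nat_lit 422) (nat_lit 275)) (XT.lf (nat_lit 0) (nat_lit 956112339) (nat_lit 1672) (nat_lit 10726685785) (nat_lit 1748) (nat_lit 450441296) (nat_lit 390) (nat_lit 5) (nat_lit 412) (nat_lit 5) (nat_lit 413) (nat_lit 5) (nat_lit 444) (nat_lit 422) (nat_lit 274))) (XT.nd (nat_lit 78) (nat_lit 0) (nat_lit 0) (XT.lf (nat_lit 0) (nat_lit 2154705902) (nat_lit 1672) (nat_lit 4801552412) (nat_lit 1748) (nat_lit 5300207326) (nat_lit 390) (nat_lit 5) (nat_lit 412) (nat_lit 5) (nat_lit 413) (nat_lit 5) (nat_lit 445) (nat_lit 422) (nat_lit 273)) (XT.lf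 (nat_lit 76) (nat_lit 1248491249) (nat_lit 0) (nat_lit 2124629541) (nat_lit 1748) (nat_lit 9009128046) (nat_lit 391) (nat_lit 5) (nat_lit 390) (nat_lit 5) (nat_lit 413) (nat_lit 5) (nat_lit 446) (nat_lit 422) (nat_lit 272))))) (XT.nd (nat_lit 234) (nat_lit 2204) (nat_lit 0) (XT.nd (nat_lit 78) (nat_lit 1672) (nat_lit 0) (XT.lf (nat_lit 0) (nat_lit 4654474953) (nat_lit 1672) (nat_lit 5053863622) (nat_lit 76) (nat_lit 2801446957) (nat_lit 391) (nat_lit 5) (nat_lit 413) (nat_lit 5) (nat_lit 392) (nat_lit 5) (nat_lit 447) (nat_lit 422) (nat_lit 271)) (XT.nd (nat_lit 78) (nat_lit 0) (nat_lit 0) (XT.lf (nat_lit 0) (nat_lit 1138523083) (nat_lit 1672) (nat_lit 4832565766) (nat_lit 1748) (nat_lit 6668600535) (nat_lit 369) (nat_lit 5) (nat_lit 391) (nat_lit 5) (nat_lit 392) (nat_lit 5) (nat_lit 448) (nat_lit 422) (nat_lit 270)) (XT.lf (nat_lit 0) (nat_lit 7337436683) (nat_lit 1748) (nat_lit 5259541999) (nat_lit 76) (nat_lit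 174753493) (nat_lit 369) (nat_lit 5) (nat_lit 392) (nat_lit 5) (nat_lit 370) (nat_lit 5) (nat_lit 449) (nat_lit 422) (nat_lit 269)))) (XT.nd (nat_lit 156) (nat_lit 912) (nat_lit 0) (XT.nd (nat_lit 78) (nat_lit 0) (nat_lit 0) (XT.lf (nat_lit 0) (nat_lit 1079108167) (nat_lit 1292) (nat_lit 7679591097) (nat_lit 1368) (nat_lit 4147173525) (nat_lit 352) (nat_lit 5) (nat_lit 369) (nat_lit 5) (nat_lit 370) (nat_lit 5) (nat_lit 450) (nat_lit 422) (nat_lit 268)) (XT.lf (nat_lit 0) (nat_lit 7605935739) (nat_lit 1292) (nat_lit 2626483164) (nat_lit 1368) (nat_lit 2809805226) (nat_lit 352) (nat_lit 5) (nat_lit 369) (nat_lit 5) (nat_lit 370) (nat_lit 5) (nat_lit 451) (nat_lit 422) (nat_lit 267))) (XT.nd (nat_lit 78) (nat_lit 76) (nat_lit 0) (XT.lf (nat_lit 0) (nat_lit 1069680899) (nat_lit 836) (nat_lit 10678255616) (nat_lit 912) (nat_lit 1433127894) (nat_lit 341) (nat_lit 5) (nat_lit 352) (nat_lit 5) (nat_lit 353) (nat_lit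 5) (nat_lit 452) (nat_lit 422) (nat_lit 266)) (XT.lf (nat_lit 0) (nat_lit 14617281) (nat_lit 912) (nat_lit 5569962233) (nat_lit 76) (nat_lit 7737250692) (nat_lit 340) (nat_lit 5) (nat_lit 352) (nat_lit 5) (nat_lit 341) (nat_lit 5) (nat_lit 453) (nat_lit 422) (nat_lit 265)))))) (XT.nd (nat_lit 546) (nat_lit 2280) (nat_lit 0) (XT.nd (nat_lit 234) (nat_lit 1596) (nat_lit 0) (XT.nd (nat_lit 78) (nat_lit 836) (nat_lit 0) (XT.lf (nat_lit 0) (nat_lit 1097362716) (nat_lit 836) (nat_lit 371161893) (nat_lit 912) (nat_lit 11996777213) (nat_lit 329) (nat_lit 5) (nat_lit 340) (nat_lit 5) (nat_lit 341) (nat_lit 5) (nat_lit 454) (nat_lit 422) (nat_lit 264)) (XT.nd (nat_lit 78) (nat_lit 836) (nat_lit 0) (XT.lf (nat_lit 0) (nat_lit 3010657962) (nat_lit 912) (nat_lit 5679708961) (nat_lit 76) (nat_lit 4920100735) (nat_lit 329) (nat_lit 5) (nat_lit 341) (nat_lit 5) (nat_lit 330) (nat_lit 5) (nat_lit 455) (nat_lit 422) (nat_lit 263))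 (XT.lf (nat_lit 0) (nat_lit 1145054714) (nat_lit 836) (nat_lit 3438086307) (nat_lit 912) (nat_lit 9175413242) (nat_lit 318) (nat_lit 5) (nat_lit 329) (nat_lit 5) (nat_lit 330) (nat_lit 5) (nat_lit 456) (nat_lit 422) (nat_lit 262)))) (XT.nd (nat_lit 156) (nat_lit 760) (nat_lit 0) (XT.nd (nat_lit 78) (nat_lit 836) (nat_lit 0) (XT.lf (nat_lit 0) (nat_lit 6227659381) (nat_lit 912) (nat_lit 5748192043) (nat_lit 76) (nat_lit 1932946907) (nat_lit 318) (nat_lit 5) (nat_lit 330) (nat_lit 5) (nat_lit 319) (nat_lit 5) (nat_lit 457) (nat_lit 422) (nat_lit 261)) (XT.lf (nat_lit 0) (nat_lit 1238144310) (nat_lit 836) (nat_lit 6687690665) (nat_lit 912) (nat_lit 6135804267) (nat_lit 307) (nat_lit 5) (nat_lit 318) (nat_lit 5) (nat_lit 319) (nat_lit 5) (nat_lit 458) (nat_lit 422) (nat_lit 260))) (XT.nd (nat_lit 78) (nat_lit 760) (nat_lit 0) (XT.lf (nat_lit 0) (nat_lit 8432442768) (nat_lit 836) (nat_lit 1254197948) (nat_lit 912)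 (nat_lit 4530330077) (nat_lit 307) (nat_lit 5) (nat_lit 318) (nat_lit 5) (nat_lit 319) (nat_lit 5) (nat_lit 459) (nat_lit 422) (nat_lit 259)) (XT.lf (nat_lit 0) (nat_lit 1375725081) (nat_lit 760) (nat_lit 10133998837) (nat_lit 836) (nat_lit 2865150846) (nat_lit 297) (nat_lit 5) (nat_lit 307) (nat_lit 5) (nat_lit 308) (nat_lit 5) (nat_lit 460) (nat_lit 422) (nat_lit 258))))) (XT.nd (nat_lit 234) (nat_lit 1444) (nat_lit 0) (XT.nd (nat_lit 78) (nat_lit 836) (nat_lit 0) (XT.lf (nat_lit 0) (nat_lit 8739545800) (nat_lit 760) (nat_lit 4667208304) (nat_lit 836) (nat_lit 1128439879) (nat_lit 297) (nat_lit 5) (nat_lit 307) (nat_lit 5) (nat_lit 308) (nat_lit 5) (nat_lit 461) (nat_lit 422) (nat_lit 257)) (XT.nd (nat_lit 78) (nat_lit 0) (nat_lit 0) (XT.lf (nat_lit 0) (nat_lit 641222801) (nat_lit 836) (nat_lit 13146010242) (nat_lit 76) (nat_lit 911276647) (nat_lit 286) (nat_lit 5) (nat_lit 297) (nat_lit 5) (nat_lit 287) (nat_lit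 5) (nat_lit 462) (nat_lit 422) (nat_lit 256)) (XT.lf (nat_lit 0) (nat_lit 2491899642) (nat_lit 836) (nat_lit 5786486260) (nat_lit 76) (nat_lit 6585348495) (nat_lit 286) (nat_lit 5) (nat_lit 297) (nat_lit 5) (nat_lit 287) (nat_lit 5) (nat_lit 463) (nat_lit 422) (nat_lit 255)))) (XT.nd (nat_lit 156) (nat_lit 760) (nat_lit 0) (XT.nd (nat_lit 78) (nat_lit 0) (nat_lit 0) (XT.lf (nat_lit 0) (nat_lit 1733448356) (nat_lit 684) (nat_lit 2648238044) (nat_lit 760) (nat_lit 10650541623) (nat_lit 277) (nat_lit 5) (nat_lit 286) (nat_lit 5) (nat_lit 287) (nat_lit 5) (nat_lit 464) (nat_lit 422) (nat_lit 254)) (XT.lf (nat_lit 0) (nat_lit 6359405266) (nat_lit 760) (nat_lit 5751080786) (nat_lit 76) (nat_lit 3092608973) (nat_lit 277) (nat_lit 5) (nat_lit 287) (nat_lit 5) (nat_lit 278) (nat_lit 5) (nat_lit 465) (nat_lit 422) (nat_lit 253))) (XT.nd (nat_lit 78) (nat_lit 0) (nat_lit 0) (XT.lf (nat_lit 0) (nat_lit 1946110508) (nat_lit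 760) (nat_lit 6451875968) (nat_lit 836) (nat_lit 6978972836) (nat_lit 267) (nat_lit 5) (nat_lit 277) (nat_lit 5) (nat_lit 278) (nat_lit 5) (nat_lit 466) (nat_lit 422) (nat_lit 252)) (XT.lf (nat_lit 0) (nat_lit 9865818042) (nat_lit 760) (nat_lit 641361477) (nat_lit 836) (nat_lit 5046530551) (nat_lit 267) (nat_lit 5) (nat_lit 277) (nat_lit 5) (nat_lit 278) (nat_lit 5) (nat_lit 467) (nat_lit 422) (nat_lit 251))))))) (XT.nd (nat_lit 1092) (nat_lit 4104) (nat_lit 0) (XT.nd (nat_lit 546) (nat_lit 1824) (nat_lit 0) (XT.nd (nat_lit 234) (nat_lit 1216) (nat_lit 0) (XT.nd (nat_lit 78) (nat_lit 760) (nat_lit 0) (XT.lf (nat_lit 0) (nat_lit 2195021456) (nat_lit 684) (nat_lit 10503517606) (nat_lit 760) (nat_lit 3034662997) (nat_lit 258) (nat_lit 5) (nat_lit 267) (nat_lit 5) (nat_lit 268) (nat_lit 5) (nat_lit 468) (nat_lit 422) (nat_lit 250)) (XT.nd (nat_lit 78) (nat_lit 760) (nat_lit 0) (XT.lf (nat_lit 0) (nat_lit 10299077441)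 (nat_lit 684) (nat_lit 4668559477) (nat_lit 760) (nat_lit 947974502) (nat_lit 258) (nat_lit 5) (nat_lit 267) (nat_lit 5) (nat_lit 268) (nat_lit 5) (nat_lit 469) (nat_lit 422) (nat_lit 249)) (XT.lf (nat_lit 0) (nat_lit 1181173149) (nat_lit 760) (nat_lit 13630700252) (nat_lit 76) (nat_lit 1289323669) (nat_lit 248) (nat_lit 5) (nat_lit 258) (nat_lit 5) (nat_lit 249) (nat_lit 5) (nat_lit 470) (nat_lit 422) (nat_lit 248)))) (XT.nd (nat_lit 156) (nat_lit 608) (nat_lit 0) (XT.nd (nat_lit 78) (nat_lit 608) (nat_lit 0) (XT.lf (nat_lit 0) (nat_lit 3400806392) (nat_lit 760) (nat_lit 5541134908) (nat_lit 76) (nat_lit 7347221314) (nat_lit 248) (nat_lit 5) (nat_lit 258) (nat_lit 5) (nat_lit 249) (nat_lit 5) (nat_lit 471) (nat_lit 422) (nat_lit 247)) (XT.lf (nat_lit 0) (nat_lit 2736949770) (nat_lit 608) (nat_lit 2937541874) (nat_lit 684) (nat_lit 10806207954) (nat_lit 240) (nat_lit 5) (nat_lit 248) (nat_lit 5) (nat_lit 249)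 (nat_lit 5) (nat_lit 472) (nat_lit 422) (nat_lit 246))) (XT.nd (nat_lit 78) (nat_lit 608) (nat_lit 0) (XT.lf (nat_lit 0) (nat_lit 8043754588) (nat_lit 684) (nat_lit 5449819532) (nat_lit 76) (nat_lit 3181496335) (nat_lit 240) (nat_lit 5) (nat_lit 249) (nat_lit 5) (nat_lit 241) (nat_lit 5) (nat_lit 473) (nat_lit 422) (nat_lit 245)) (XT.lf (nat_lit 0) (nat_lit 3021073493) (nat_lit 608) (nat_lit 7470537281) (nat_lit 684) (nat_lit 6381098903) (nat_lit 232) (nat_lit 5) (nat_lit 240) (nat_lit 5) (nat_lit 241) (nat_lit 5) (nat_lit 474) (nat_lit 422) (nat_lit 244))))) (XT.nd (nat_lit 234) (nat_lit 1140) (nat_lit 0) (XT.nd (nat_lit 78) (nat_lit 684) (nat_lit 0) (XT.lf (nat_lit 0) (nat_lit 11726234001) (nat_lit 608) (nat_lit 1290996036) (nat_lit 684) (nat_lit 4056500539) (nat_lit 232) (nat_lit 5) (nat_lit 240) (nat_lit 5) (nat_lit 241) (nat_lit 5) (nat_lit 475) (nat_lit 422) (nat_lit 243)) (XT.nd (nat_lit 78) (nat_lit 76)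 (nat_lit 0) (XT.lf (nat_lit 0) (nat_lit 3328845794) (nat_lit 608) (nat_lit 12311050118) (nat_lit 684) (nat_lit 1637950208) (nat_lit 224) (nat_lit 5) (nat_lit 232) (nat_lit 5) (nat_lit 233) (nat_lit 5) (nat_lit 476) (nat_lit 422) (nat_lit 242)) (XT.lf (nat_lit 0) (nat_lit 855186657) (nat_lit 684) (nat_lit 5257336723) (nat_lit 76) (nat_lit 11372675918) (nat_lit 223) (nat_lit 5) (nat_lit 232) (nat_lit 5) (nat_lit 224) (nat_lit 5) (nat_lit 477) (nat_lit 422) (nat_lit 241)))) (XT.nd (nat_lit 156) (nat_lit 532) (nat_lit 0) (XT.nd (nat_lit 78) (nat_lit 0) (nat_lit 0) (XT.lf (nat_lit 0) (nat_lit 3394029540) (nat_lit 684) (nat_lit 14061609925) (nat_lit 76) (nat_lit 240492657) (nat_lit 215) (nat_lit 5) (nat_lit 224) (nat_lit 5) (nat_lit 216) (nat_lit 5) (nat_lit 478) (nat_lit 422) (nat_lit 240)) (XT.lf (nat_lit 0) (nat_lit 6052286374) (nat_lit 684) (nat_lit 5184758076) (nat_lit 76) (nat_lit 6672870948) (nat_lit 215) (nat_lit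 5) (nat_lit 224) (nat_lit 5) (nat_lit 216) (nat_lit 5) (nat_lit 479) (nat_lit 422) (nat_lit 239))) (XT.nd (nat_lit 78) (nat_lit 0) (nat_lit 0) (XT.lf (nat_lit 0) (nat_lit 3912166024) (nat_lit 532) (nat_lit 4869730607) (nat_lit 608) (nat_lit 9345718391) (nat_lit 208) (nat_lit 5) (nat_lit 215) (nat_lit 5) (nat_lit 216) (nat_lit 5) (nat_lit 480) (nat_lit 422) (nat_lit 238)) (XT.lf (nat_lit 0) (nat_lit 11604534505) (nat_lit 608) (nat_lit 5107296374) (nat_lit 76) (nat_lit 1637073412) (nat_lit 208) (nat_lit 5) (nat_lit 216) (nat_lit 5) (nat_lit 209) (nat_lit 5) (nat_lit 481) (nat_lit 422) (nat_lit 237)))))) (XT.nd (nat_lit 546) (nat_lit 1976) (nat_lit 0) (XT.nd (nat_lit 234) (nat_lit 988) (nat_lit 0) (XT.nd (nat_lit 78) (nat_lit 608) (nat_lit 0) (XT.lf (nat_lit 0) (nat_lit 4197136792) (nat_lit 532) (nat_lit 10338991186) (nat_lit 608) (nat_lit 4037445588) (nat_lit 201) (nat_lit 5) (nat_lit 208) (nat_lit 5) (nat_lit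 209) (nat_lit 5) (nat_lit 482) (nat_lit 422) (nat_lit 236)) (XT.nd (nat_lit 78) (nat_lit 608) (nat_lit 0) (XT.lf (nat_lit 0) (nat_lit 13748267626) (nat_lit 532) (nat_lit 3805441946) (nat_lit 608) (nat_lit 1248483721) (nat_lit 201) (nat_lit 5) (nat_lit 208) (nat_lit 5) (nat_lit 209) (nat_lit 5) (nat_lit 483) (nat_lit 422) (nat_lit 235)) (XT.lf (nat_lit 0) (nat_lit 1616489313) (nat_lit 608) (nat_lit 14558468930) (nat_lit 76) (nat_lit 2859400578) (nat_lit 193) (nat_lit 5) (nat_lit 201) (nat_lit 5) (nat_lit 194) (nat_lit 5) (nat_lit 484) (nat_lit 422) (nat_lit 234)))) (XT.nd (nat_lit 156) (nat_lit 456) (nat_lit 0) (XT.nd (nat_lit 78) (nat_lit 532) (nat_lit 0) (XT.lf (nat_lit 0) (nat_lit 4574638685) (nat_lit 608) (nat_lit 5047993541) (nat_lit 76) (nat_lit 9647322453) (nat_lit 193) (nat_lit 5) (nat_lit 201) (nat_lit 5) (nat_lit 194) (nat_lit 5) (nat_lit 485) (nat_lit 422) (nat_lit 233)) (XT.lf (nat_lit 0) (nat_lit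 4705960959) (nat_lit 532) (nat_lit 2909914644) (nat_lit 608) (nat_lit 11893912233) (nat_lit 186) (nat_lit 5) (nat_lit 193) (nat_lit 5) (nat_lit 194) (nat_lit 5) (nat_lit 486) (nat_lit 422) (nat_lit 232))) (XT.nd (nat_lit 78) (nat_lit 456) (nat_lit 0) (XT.lf (nat_lit 0) (nat_lit 10771032158) (nat_lit 608) (nat_lit 5064622316) (nat_lit 76) (nat_lit 3917705079) (nat_lit 186) (nat_lit 5) (nat_lit 194) (nat_lit 5) (nat_lit 187) (nat_lit 5) (nat_lit 487) (nat_lit 422) (nat_lit 231)) (XT.lf (nat_lit 0) (nat_lit 4906089365) (nat_lit 456) (nat_lit 9127889653) (nat_lit 532) (nat_lit 5966933667) (nat_lit 180) (nat_lit 5) (nat_lit 186) (nat_lit 5) (nat_lit 187) (nat_lit 5) (nat_lit 488) (nat_lit 422) (nat_lit 230))))) (XT.nd (nat_lit 312) (nat_lit 912) (nat_lit 0) (XT.nd (nat_lit 156) (nat_lit 456) (nat_lit 0) (XT.nd (nat_lit 78) (nat_lit 608) (nat_lit 0) (XT.lf (nat_lit 0) (nat_lit 15136572249) (nat_lit 456) (nat_lit 2253233843)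 (nat_lit 532) (nat_lit 2863062011) (nat_lit 180) (nat_lit 5) (nat_lit 186) (nat_lit 5) (nat_lit 187) (nat_lit 5) (nat_lit 489) (nat_lit 422) (nat_lit 229)) (XT.lf (nat_lit 0) (nat_lit 356982505) (nat_lit 608) (nat_lit 15421657179) (nat_lit 76) (nat_lit 4730025765) (nat_lit 172) (nat_lit 5) (nat_lit 180) (nat_lit 5) (nat_lit 173) (nat_lit 5) (nat_lit 490) (nat_lit 422) (nat_lit 228))) (XT.nd (nat_lit 78) (nat_lit 456) (nat_lit 0) (XT.lf (nat_lit 0) (nat_lit 3646382331) (nat_lit 608) (nat_lit 5247551685) (nat_lit 76) (nat_lit 11874403852) (nat_lit 172) (nat_lit 5) (nat_lit 180) (nat_lit 5) (nat_lit 173) (nat_lit 5) (nat_lit 491) (nat_lit 422) (nat_lit 227)) (XT.lf (nat_lit 0) (nat_lit 5189985182) (nat_lit 456) (nat_lit 1839176401) (nat_lit 532) (nat_lit 14003493695) (nat_lit 166) (nat_lit 5) (nat_lit 172) (nat_lit 5) (nat_lit 173) (nat_lit 5) (nat_lit 492) (nat_lit 422) (nat_lit 226)))) (XT.nd (nat_lit 156) (nat_lit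 456) (nat_lit 0) (XT.nd (nat_lit 78) (nat_lit 456) (nat_lit 0) (XT.lf (nat_lit 0) (nat_lit 10543771348) (nat_lit 532) (nat_lit 5437338151) (nat_lit 76) (nat_lit 5319869342) (nat_lit 166) (nat_lit 5) (nat_lit 173) (nat_lit 5) (nat_lit 167) (nat_lit 5) (nat_lit 493) (nat_lit 422) (nat_lit 225)) (XT.lf (nat_lit 0) (nat_lit 5224424205) (nat_lit 456) (nat_lit 8944416952) (nat_lit 532) (nat_lit 7405027604) (nat_lit 160) (nat_lit 5) (nat_lit 166) (nat_lit 5) (nat_lit 167) (nat_lit 5) (nat_lit 494) (nat_lit 422) (nat_lit 224))) (XT.nd (nat_lit 78) (nat_lit 456) (nat_lit 0) (XT.lf (nat_lit 0) (nat_lit 16165163581) (nat_lit 456) (nat_lit 1731868254) (nat_lit 532) (nat_lit 3954575432) (nat_lit 160) (nat_lit 5) (nat_lit 166) (nat_lit 5) (nat_lit 167) (nat_lit 5) (nat_lit 495) (nat_lit 422) (nat_lit 223)) (XT.lf (nat_lit 0) (nat_lit 5213764390) (nat_lit 456) (nat_lit 16550627732) (nat_lit 532) (nat_lit 369219419) (nat_lit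 154) (nat_lit 5) (nat_lit 160) (nat_lit 5) (nat_lit 161) (nat_lit 5) (nat_lit 496) (nat_lit 422) (nat_lit 222))))))))
noncomputable def xc196 : XT := (XT.nd (nat_lit 53898) (nat_lit 0) (nat_lit 18544) (XT.nd (nat_lit 1092) (nat_lit 1444) (nat_lit 0) (XT.nd (nat_lit 546) (nat_lit 1520) (nat_lit 0) (XT.nd (nat_lit 234) (nat_lit 912) (nat_lit 0) (XT.nd (nat_lit 78) (nat_lit 456) (nat_lit 0) (XT.lf (nat_lit 0) (nat_lit 3288859155) (nat_lit 532) (nat_lit 6052442525) (nat_lit 76) (nat_lit 13078647555) (nat_lit 153) (nat_lit 5) (nat_lit 160) (nat_lit 5) (nat_lit 154) (nat_lit 5) (nat_lit 497) (nat_lit 422) (nat_lit 221)) (XT.nd (nat_lit 78) (nat_lit 0) (nat_lit 0) (XT.lf (nat_lit 0) (nat_lit 5088822744) (nat_lit 456) (nat_lit 1953745027) (nat_lit 532) (nat_lit 15668851790) (nat_lit 147) (nat_lit 5) (nat_lit 153) (nat_lit 5) (nat_lit 154) (nat_lit 5) (nat_lit 498) (nat_lit 422) (nat_lit 220)) (XT.lf (nat_lit 0) (nat_lit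 10942887715) (nat_lit 532) (nat_lit 6517291607) (nat_lit 76) (nat_lit 5547112105) (nat_lit 147) (nat_lit 5) (nat_lit 154) (nat_lit 5) (nat_lit 148) (nat_lit 5) (nat_lit 499) (nat_lit 422) (nat_lit 219)))) (XT.nd (nat_lit 156) (nat_lit 532) (nat_lit 0) (XT.nd (nat_lit 78) (nat_lit 0) (nat_lit 0) (XT.lf (nat_lit 0) (nat_lit 4853152331) (nat_lit 380) (nat_lit 10107033749) (nat_lit 456) (nat_lit 8348118032) (nat_lit 142) (nat_lit 5) (nat_lit 147) (nat_lit 5) (nat_lit 148) (nat_lit 5) (nat_lit 500) (nat_lit 422) (nat_lit 218)) (XT.lf (nat_lit 0) (nat_lit 16531720637) (nat_lit 380) (nat_lit 2564425519) (nat_lit 456) (nat_lit 4518427345) (nat_lit 142) (nat_lit 5) (nat_lit 147) (nat_lit 5) (nat_lit 148) (nat_lit 5) (nat_lit 501) (nat_lit 422) (nat_lit 217))) (XT.nd (nat_lit 78) (nat_lit 76) (nat_lit 0) (XT.lf (nat_lit 0) (nat_lit 4535501409) (nat_lit 456) (nat_lit 18836746077) (nat_lit 532) (nat_lit 553575062) (nat_lit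 136) (nat_lit 5) (nat_lit 142) (nat_lit 5) (nat_lit 143) (nat_lit 5) (nat_lit 502) (nat_lit 422) (nat_lit 216)) (XT.lf (nat_lit 0) (nat_lit 3504313678) (nat_lit 532) (nat_lit 7807670887) (nat_lit 76) (nat_lit 12929670976) (nat_lit 135) (nat_lit 5) (nat_lit 142) (nat_lit 5) (nat_lit 136) (nat_lit 5) (nat_lit 503) (nat_lit 422) (nat_lit 215))))) (XT.nd (nat_lit 234) (nat_lit 760) (nat_lit 0) (XT.nd (nat_lit 78) (nat_lit 380) (nat_lit 0) (XT.lf (nat_lit 0) (nat_lit 4048616834) (nat_lit 380) (nat_lit 3608419848) (nat_lit 456) (nat_lit 16906276108) (nat_lit 130) (nat_lit 5) (nat_lit 135) (nat_lit 5) (nat_lit 136) (nat_lit 5) (nat_lit 504) (nat_lit 422) (nat_lit 214)) (XT.nd (nat_lit 78) (nat_lit 380) (nat_lit 0) (XT.lf (nat_lit 0) (nat_lit 11967978468) (nat_lit 456) (nat_lit 8677915402) (nat_lit 76) (nat_lit 4244008532) (nat_lit 130) (nat_lit 5) (nat_lit 136) (nat_lit 5) (nat_lit 131) (nat_lit 5) (nat_lit 505) (nat_lit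 422) (nat_lit 213)) (XT.lf (nat_lit 0) (nat_lit 3409071660) (nat_lit 380) (nat_lit 12997034511) (nat_lit 456) (nat_lit 8816100750) (nat_lit 125) (nat_lit 5) (nat_lit 130) (nat_lit 5) (nat_lit 131) (nat_lit 5) (nat_lit 506) (nat_lit 422) (nat_lit 212)))) (XT.nd (nat_lit 156) (nat_lit 456) (nat_lit 0) (XT.nd (nat_lit 78) (nat_lit 304) (nat_lit 0) (XT.lf (nat_lit 0) (nat_lit 15848135330) (nat_lit 380) (nat_lit 5138082712) (nat_lit 456) (nat_lit 4573877464) (nat_lit 125) (nat_lit 5) (nat_lit 130) (nat_lit 5) (nat_lit 131) (nat_lit 5) (nat_lit 507) (nat_lit 422) (nat_lit 211)) (XT.lf (nat_lit 0) (nat_lit 2639937841) (nat_lit 304) (nat_lit 23048892707) (nat_lit 380) (nat_lit 215295706) (nat_lit 121) (nat_lit 5) (nat_lit 125) (nat_lit 5) (nat_lit 126) (nat_lit 5) (nat_lit 508) (nat_lit 422) (nat_lit 210))) (XT.nd (nat_lit 78) (nat_lit 380) (nat_lit 0) (XT.lf (nat_lit 0) (nat_lit 4269692810) (nat_lit 380) (nat_lit 10952395325)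 (nat_lit 76) (nat_lit 11030508046) (nat_lit 120) (nat_lit 5) (nat_lit 125) (nat_lit 5) (nat_lit 121) (nat_lit 5) (nat_lit 509) (nat_lit 422) (nat_lit 209)) (XT.lf (nat_lit 0) (nat_lit 1618317079) (nat_lit 380) (nat_lit 7228874747) (nat_lit 456) (nat_lit 17760703572) (nat_lit 115) (nat_lit 5) (nat_lit 120) (nat_lit 5) (nat_lit 121) (nat_lit 5) (nat_lit 510) (nat_lit 422) (nat_lit 208)))))) (XT.nd (nat_lit 546) (nat_lit 380) (nat_lit 0) (XT.nd (nat_lit 234) (nat_lit 760) (nat_lit 0) (XT.nd (nat_lit 78) (nat_lit 304) (nat_lit 0) (XT.lf (nat_lit 0) (nat_lit 13591441694) (nat_lit 456) (nat_lit 12393562663) (nat_lit 76) (nat_lit 983794406) (nat_lit 115) (nat_lit 5) (nat_lit 121) (nat_lit 5) (nat_lit 116) (nat_lit 5) (nat_lit 511) (nat_lit 422) (nat_lit 207)) (XT.nd (nat_lit 78) (nat_lit 0) (nat_lit 0) (XT.lf (nat_lit 0) (nat_lit 404798128) (nat_lit 304) (nat_lit 18071591035) (nat_lit 380) (nat_lit 8859616919) (nat_lit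 111) (nat_lit 5) (nat_lit 115) (nat_lit 5) (nat_lit 116) (nat_lit 5) (nat_lit 512) (nat_lit 422) (nat_lit 206)) (XT.lf (nat_lit 0) (nat_lit 13620159426) (nat_lit 304) (nat_lit 9917401248) (nat_lit 380) (nat_lit 4171428466) (nat_lit 111) (nat_lit 5) (nat_lit 115) (nat_lit 5) (nat_lit 116) (nat_lit 5) (nat_lit 513) (nat_lit 422) (nat_lit 205)))) (XT.nd (nat_lit 156) (nat_lit 304) (nat_lit 0) (XT.nd (nat_lit 78) (nat_lit 380) (nat_lit 0) (XT.lf (nat_lit 0) (nat_lit 597933245) (nat_lit 380) (nat_lit 1000458911) (nat_lit 76) (nat_lit 26491054107) (nat_lit 110) (nat_lit 5) (nat_lit 115) (nat_lit 5) (nat_lit 111) (nat_lit 5) (nat_lit 514) (nat_lit 422) (nat_lit 204)) (XT.lf (nat_lit 0) (nat_lit 5528826945) (nat_lit 456) (nat_lit 16041889388) (nat_lit 76) (nat_lit 6903806705) (nat_lit 105) (nat_lit 5) (nat_lit 111) (nat_lit 5) (nat_lit 106) (nat_lit 5) (nat_lit 515) (nat_lit 422) (nat_lit 203))) (XT.nd (nat_lit 78) (nat_lit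 304) (nat_lit 0) (XT.lf (nat_lit 0) (nat_lit 10571218297) (nat_lit 456) (nat_lit 2736635103) (nat_lit 76) (nat_lit 15559192289) (nat_lit 105) (nat_lit 5) (nat_lit 111) (nat_lit 5) (nat_lit 106) (nat_lit 5) (nat_lit 516) (nat_lit 422) (nat_lit 202)) (XT.lf (nat_lit 0) (nat_lit 10971968971) (nat_lit 304) (nat_lit 4809349661) (nat_lit 380) (nat_lit 13484764836) (nat_lit 101) (nat_lit 5) (nat_lit 105) (nat_lit 5) (nat_lit 106) (nat_lit 5) (nat_lit 517) (nat_lit 422) (nat_lit 201))))) (XT.nd (nat_lit 51948) (nat_lit 0) (nat_lit 24928) (XT.nd (nat_lit 78) (nat_lit 380) (nat_lit 0) (XT.lf (nat_lit 0) (nat_lit 21134814800) (nat_lit 380) (nat_lit 4712755994) (nat_lit 76) (nat_lit 3824749194) (nat_lit 101) (nat_lit 5) (nat_lit 106) (nat_lit 5) (nat_lit 102) (nat_lit 5) (nat_lit 518) (nat_lit 422) (nat_lit 200)) (XT.nd (nat_lit 78) (nat_lit 76) (nat_lit 0) (XT.lf (nat_lit 0) (nat_lit 9222784631) (nat_lit 304) (nat_lit 17460063901)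 (nat_lit 380) (nat_lit 3402085178) (nat_lit 97) (nat_lit 5) (nat_lit 101) (nat_lit 5) (nat_lit 102) (nat_lit 5) (nat_lit 519) (nat_lit 422) (nat_lit 199)) (XT.lf (nat_lit 0) (nat_lit 1839546505) (nat_lit 380) (nat_lit 7022947401) (nat_lit 76) (nat_lit 21642517472) (nat_lit 96) (nat_lit 5) (nat_lit 101) (nat_lit 5) (nat_lit 97) (nat_lit 5) (nat_lit 520) (nat_lit 422) (nat_lit 198)))) (XT.nd (nat_lit 156) (nat_lit 0) (nat_lit 76) (XT.nd (nat_lit 78) (nat_lit 0) (nat_lit 0) (XT.lf (nat_lit 0) (nat_lit 2096215510) (nat_lit 1596) (nat_lit 1465751385) (nat_lit 1596) (nat_lit 1465751385) (nat_lit 424) (nat_lit 3) (nat_lit 445) (nat_lit 3) (nat_lit 445) (nat_lit 5) (nat_lit 423) (nat_lit 423) (nat_lit 294)) (XT.lf (nat_lit 76) (nat_lit 1679656712) (nat_lit 0) (nat_lit 3231779761) (nat_lit 1596) (nat_lit 5230456393) (nat_lit 425) (nat_lit 5) (nat_lit 424) (nat_lit 3) (nat_lit 445) (nat_lit 5) (nat_lit 424) (nat_lit 423)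 (nat_lit 293))) (XT.nd (nat_lit 78) (nat_lit 0) (nat_lit 0) (XT.lf (nat_lit 0) (nat_lit 5651939685) (nat_lit 1520) (nat_lit 3821289445) (nat_lit 1596) (nat_lit 756721409) (nat_lit 425) (nat_lit 5) (nat_lit 445) (nat_lit 5) (nat_lit 446) (nat_lit 5) (nat_lit 425) (nat_lit 423) (nat_lit 292)) (XT.lf (nat_lit 76) (nat_lit 893519820) (nat_lit 0) (nat_lit 5523802127) (nat_lit 1596) (nat_lit 3902260350) (nat_lit 426) (nat_lit 5) (nat_lit 425) (nat_lit 5) (nat_lit 446) (nat_lit 5) (nat_lit 426) (nat_lit 423) (nat_lit 291))))))) (XT.nd (nat_lit 1092) (nat_lit 5016) (nat_lit 0) (XT.nd (nat_lit 546) (nat_lit 0) (nat_lit 76) (XT.nd (nat_lit 234) (nat_lit 1444) (nat_lit 0) (XT.nd (nat_lit 78) (nat_lit 0) (nat_lit 76) (XT.lf (nat_lit 76) (nat_lit 5745212321) (nat_lit 0) (nat_lit 1461583712) (nat_lit 1596) (nat_lit 3204049000) (nat_lit 426) (nat_lit 5) (nat_lit 425) (nat_lit 5) (nat_lit 446) (nat_lit 5) (nat_lit 427) (nat_lit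 423) (nat_lit 290)) (XT.nd (nat_lit 78) (nat_lit 0) (nat_lit 0) (XT.lf (nat_lit 76) (nat_lit 165337634) (nat_lit 0) (nat_lit 7848728544) (nat_lit 1596) (nat_lit 2489840470) (nat_lit 427) (nat_lit 5) (nat_lit 426) (nat_lit 5) (nat_lit 447) (nat_lit 5) (nat_lit 428) (nat_lit 423) (nat_lit 289)) (XT.lf (nat_lit 76) (nat_lit 5137001363) (nat_lit 0) (nat_lit 3725187795) (nat_lit 1596) (nat_lit 1736159671) (nat_lit 427) (nat_lit 5) (nat_lit 426) (nat_lit 5) (nat_lit 447) (nat_lit 5) (nat_lit 429) (nat_lit 423) (nat_lit 288)))) (XT.nd (nat_lit 156) (nat_lit 1596) (nat_lit 0) (XT.nd (nat_lit 78) (nat_lit 0) (nat_lit 0) (XT.lf (nat_lit 0) (nat_lit 9714540941) (nat_lit 1520) (nat_lit 499256495) (nat_lit 1596) (nat_lit 481150311) (nat_lit 427) (nat_lit 5) (nat_lit 447) (nat_lit 5) (nat_lit 448) (nat_lit 5) (nat_lit 430) (nat_lit 423) (nat_lit 287)) (XT.lf (nat_lit 76) (nat_lit 4588215589) (nat_lit 0) (nat_lit 6034639437)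 (nat_lit 1596) (nat_lit 169858273) (nat_lit 428) (nat_lit 5) (nat_lit 427) (nat_lit 5) (nat_lit 448) (nat_lit 5) (nat_lit 431) (nat_lit 423) (nat_lit 286))) (XT.nd (nat_lit 78) (nat_lit 0) (nat_lit 76) (XT.lf (nat_lit 0) (nat_lit 636244242) (nat_lit 1596) (nat_lit 1121971261) (nat_lit 1672) (nat_lit 9134386647) (nat_lit 406) (nat_lit 5) (nat_lit 427) (nat_lit 5) (nat_lit 428) (nat_lit 5) (nat_lit 432) (nat_lit 423) (nat_lit 285)) (XT.lf (nat_lit 0) (nat_lit 1484867599) (nat_lit 1596) (nat_lit 6905782732) (nat_lit 1672) (nat_lit 2603254740) (nat_lit 407) (nat_lit 5) (nat_lit 428) (nat_lit 5) (nat_lit 429) (nat_lit 5) (nat_lit 433) (nat_lit 423) (nat_lit 284))))) (XT.nd (nat_lit 234) (nat_lit 0) (nat_lit 76) (XT.nd (nat_lit 78) (nat_lit 0) (nat_lit 76) (XT.lf (nat_lit 0) (nat_lit 2354846755) (nat_lit 1596) (nat_lit 1700770013) (nat_lit 1672) (nat_lit 7041541592) (nat_lit 407) (nat_lit 5) (nat_lit 428) (nat_lit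 5) (nat_lit 429) (nat_lit 5) (nat_lit 434) (nat_lit 423) (nat_lit 283)) (XT.nd (nat_lit 78) (nat_lit 0) (nat_lit 0) (XT.lf (nat_lit 0) (nat_lit 3253921264) (nat_lit 1596) (nat_lit 7558133060) (nat_lit 1672) (nat_lit 390200212) (nat_lit 408) (nat_lit 5) (nat_lit 429) (nat_lit 5) (nat_lit 430) (nat_lit 5) (nat_lit 435) (nat_lit 423) (nat_lit 282)) (XT.lf (nat_lit 0) (nat_lit 4195032516) (nat_lit 1596) (nat_lit 2226891966) (nat_lit 1672) (nat_lit 4887058557) (nat_lit 408) (nat_lit 5) (nat_lit 429) (nat_lit 5) (nat_lit 430) (nat_lit 5) (nat_lit 436) (nat_lit 423) (nat_lit 281)))) (XT.nd (nat_lit 156) (nat_lit 0) (nat_lit 76) (XT.nd (nat_lit 78) (nat_lit 0) (nat_lit 76) (XT.lf (nat_lit 76) (nat_lit 3244011108) (nat_lit 0) (nat_lit 1918005604) (nat_lit 1672) (nat_lit 6255699669) (nat_lit 409) (nat_lit 5) (nat_lit 408) (nat_lit 5) (nat_lit 430) (nat_lit 5) (nat_lit 437) (nat_lit 423) (nat_lit 280)) (XT.lf (nat_lit 0)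 (nat_lit 6166987600) (nat_lit 1596) (nat_lit 2701041796) (nat_lit 1672) (nat_lit 2660233116) (nat_lit 409) (nat_lit 5) (nat_lit 430) (nat_lit 5) (nat_lit 431) (nat_lit 5) (nat_lit 438) (nat_lit 423) (nat_lit 279))) (XT.nd (nat_lit 78) (nat_lit 0) (nat_lit 76) (XT.lf (nat_lit 76) (nat_lit 2896794960) (nat_lit 0) (nat_lit 4313272991) (nat_lit 1672) (nat_lit 4430602257) (nat_lit 410) (nat_lit 5) (nat_lit 409) (nat_lit 5) (nat_lit 431) (nat_lit 5) (nat_lit 439) (nat_lit 423) (nat_lit 278)) (XT.lf (nat_lit 0) (nat_lit 8281142373) (nat_lit 1596) (nat_lit 3123849294) (nat_lit 1672) (nat_lit 350202375) (nat_lit 410) (nat_lit 5) (nat_lit 431) (nat_lit 5) (nat_lit 432) (nat_lit 5) (nat_lit 440) (nat_lit 423) (nat_lit 277)))))) (XT.nd (nat_lit 546) (nat_lit 3724) (nat_lit 0) (XT.nd (nat_lit 234) (nat_lit 1596) (nat_lit 0) (XT.nd (nat_lit 78) (nat_lit 0) (nat_lit 0) (XT.lf (nat_lit 76) (nat_lit 2604555822) (nat_lit 0) (nat_lit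 6801545621) (nat_lit 1672) (nat_lit 2465268068) (nat_lit 411) (nat_lit 5) (nat_lit 410) (nat_lit 5) (nat_lit 432) (nat_lit 5) (nat_lit 441) (nat_lit 423) (nat_lit 276)) (XT.nd (nat_lit 78) (nat_lit 0) (nat_lit 76) (XT.lf (nat_lit 76) (nat_lit 8480321049) (nat_lit 0) (nat_lit 2081382371) (nat_lit 1672) (nat_lit 1428012416) (nat_lit 411) (nat_lit 5) (nat_lit 410) (nat_lit 5) (nat_lit 432) (nat_lit 5) (nat_lit 442) (nat_lit 423) (nat_lit 275)) (XT.lf (nat_lit 76) (nat_lit 2366820679) (nat_lit 0) (nat_lit 9394162567) (nat_lit 1672) (nat_lit 349044544) (nat_lit 412) (nat_lit 5) (nat_lit 411) (nat_lit 5) (nat_lit 433) (nat_lit 5) (nat_lit 443) (nat_lit 423) (nat_lit 274)))) (XT.nd (nat_lit 156) (nat_lit 0) (nat_lit 76) (XT.nd (nat_lit 78) (nat_lit 0) (nat_lit 76) (XT.lf (nat_lit 0) (nat_lit 766681845) (nat_lit 1672) (nat_lit 3852722085) (nat_lit 1748) (nat_lit 7612753392) (nat_lit 389) (nat_lit 5) (nat_lit 411) (nat_lit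 5) (nat_lit 412) (nat_lit 5) (nat_lit 444) (nat_lit 423) (nat_lit 273)) (XT.lf (nat_lit 0) (nat_lit 1903700844) (nat_lit 1672) (nat_lit 10186227471) (nat_lit 1748) (nat_lit 266691392) (nat_lit 390) (nat_lit 5) (nat_lit 412) (nat_lit 5) (nat_lit 413) (nat_lit 5) (nat_lit 445) (nat_lit 423) (nat_lit 272))) (XT.nd (nat_lit 78) (nat_lit 0) (nat_lit 0) (XT.lf (nat_lit 0) (nat_lit 3108061058) (nat_lit 1672) (nat_lit 4157395195) (nat_lit 1748) (nat_lit 5217232325) (nat_lit 390) (nat_lit 5) (nat_lit 412) (nat_lit 5) (nat_lit 413) (nat_lit 5) (nat_lit 446) (nat_lit 423) (nat_lit 271)) (XT.lf (nat_lit 76) (nat_lit 2008779680) (nat_lit 0) (nat_lit 2328990484) (nat_lit 1748) (nat_lit 8273492504) (nat_lit 391) (nat_lit 5) (nat_lit 390) (nat_lit 5) (nat_lit 413) (nat_lit 5) (nat_lit 447) (nat_lit 423) (nat_lit 270))))) (XT.nd (nat_lit 234) (nat_lit 2204) (nat_lit 0) (XT.nd (nat_lit 78) (nat_lit 1672) (nat_lit 0) (XT.lf (nat_lit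 0) (nat_lit 5626129160) (nat_lit 1672) (nat_lit 4414744122) (nat_lit 76) (nat_lit 2700862739) (nat_lit 391) (nat_lit 5) (nat_lit 413) (nat_lit 5) (nat_lit 392) (nat_lit 5) (nat_lit 448) (nat_lit 423) (nat_lit 269)) (XT.nd (nat_lit 78) (nat_lit 0) (nat_lit 0) (XT.lf (nat_lit 0) (nat_lit 1896620602) (nat_lit 1672) (nat_lit 5060002204) (nat_lit 1748) (nat_lit 5917877409) (nat_lit 369) (nat_lit 5) (nat_lit 391) (nat_lit 5) (nat_lit 392) (nat_lit 5) (nat_lit 449) (nat_lit 423) (nat_lit 268)) (XT.lf (nat_lit 0) (nat_lit 8332482510) (nat_lit 1748) (nat_lit 4625361116) (nat_lit 76) (nat_lit 51709492) (nat_lit 369) (nat_lit 5) (nat_lit 392) (nat_lit 5) (nat_lit 370) (nat_lit 5) (nat_lit 450) (nat_lit 423) (nat_lit 267)))) (XT.nd (nat_lit 156) (nat_lit 912) (nat_lit 0) (XT.nd (nat_lit 78) (nat_lit 0) (nat_lit 0) (XT.lf (nat_lit 0) (nat_lit 1835197766) (nat_lit 1292) (nat_lit 7935108210) (nat_lit 1368) (nat_lit 3376320557)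 (nat_lit 352) (nat_lit 5) (nat_lit 369) (nat_lit 5) (nat_lit 370) (nat_lit 5) (nat_lit 451) (nat_lit 423) (nat_lit 266)) (XT.lf (nat_lit 0) (nat_lit 8478159783) (nat_lit 1292) (nat_lit 2778939583) (nat_lit 1368) (nat_lit 2028945999) (nat_lit 352) (nat_lit 5) (nat_lit 369) (nat_lit 5) (nat_lit 370) (nat_lit 5) (nat_lit 452) (nat_lit 423) (nat_lit 265))) (XT.nd (nat_lit 78) (nat_lit 76) (nat_lit 0) (XT.lf (nat_lit 0) (nat_lit 1823998085) (nat_lit 836) (nat_lit 10966972741) (nat_lit 912) (nat_lit 636942962) (nat_lit 341) (nat_lit 5) (nat_lit 352) (nat_lit 5) (nat_lit 353) (nat_lit 5) (nat_lit 453) (nat_lit 423) (nat_lit 264)) (XT.lf (nat_lit 0) (nat_lit 812977731) (nat_lit 912) (nat_lit 4951616360) (nat_lit 76) (nat_lit 7807124662) (nat_lit 340) (nat_lit 5) (nat_lit 352) (nat_lit 5) (nat_lit 341) (nat_lit 5) (nat_lit 454) (nat_lit 423) (nat_lit 263))))))))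
noncomputable def xc197 : XT := (XT.nd (nat_lit 2184) (nat_lit 6688) (nat_lit 0) (XT.nd (nat_lit 1092) (nat_lit 4484) (nat_lit 0) (XT.nd (nat_lit 546) (nat_lit 2280) (nat_lit 0) (XT.nd (nat_lit 234) (nat_lit 1596) (nat_lit 0) (XT.nd (nat_lit 78) (nat_lit 836) (nat_lit 0) (XT.lf (nat_lit 0) (nat_lit 1844254133) (nat_lit 836) (nat_lit 440767497) (nat_lit 912) (nat_lit 11433268507) (nat_lit 329) (nat_lit 5) (nat_lit 340) (nat_lit 5) (nat_lit 341) (nat_lit 5) (nat_lit 455) (nat_lit 423) (nat_lit 262)) (XT.nd (nat_lit 78) (nat_lit 836) (nat_lit 0) (XT.lf (nat_lit 0) (nat_lit 3842167983) (nat_lit 912) (nat_lit 5066179990) (nat_lit 76) (nat_lit 4958339188) (nat_lit 329) (nat_lit 5) (nat_lit 341) (nat_lit 5) (nat_lit 330) (nat_lit 5) (nat_lit 456) (nat_lit 423) (nat_lit 261)) (XT.lf (nat_lit 0) (nat_lit 1890295254) (nat_lit 836) (nat_lit 3545371889) (nat_lit 912) (nat_lit 8582288084) (nat_lit 318) (nat_lit 5) (nat_lit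 329) (nat_lit 5) (nat_lit 330) (nat_lit 5) (nat_lit 457) (nat_lit 423) (nat_lit 260)))) (XT.nd (nat_lit 156) (nat_lit 760) (nat_lit 0) (XT.nd (nat_lit 78) (nat_lit 836) (nat_lit 0) (XT.lf (nat_lit 0) (nat_lit 7097911764) (nat_lit 912) (nat_lit 5139273835) (nat_lit 76) (nat_lit 1934332700) (nat_lit 318) (nat_lit 5) (nat_lit 330) (nat_lit 5) (nat_lit 319) (nat_lit 5) (nat_lit 458) (nat_lit 423) (nat_lit 259)) (XT.lf (nat_lit 0) (nat_lit 1982026863) (nat_lit 836) (nat_lit 6838071456) (nat_lit 912) (nat_lit 5507527388) (nat_lit 307) (nat_lit 5) (nat_lit 318) (nat_lit 5) (nat_lit 319) (nat_lit 5) (nat_lit 459) (nat_lit 423) (nat_lit 258))) (XT.nd (nat_lit 78) (nat_lit 760) (nat_lit 0) (XT.lf (nat_lit 0) (nat_lit 9306110905) (nat_lit 836) (nat_lit 1295582865) (nat_lit 912) (nat_lit 3884669066) (nat_lit 307) (nat_lit 5) (nat_lit 318) (nat_lit 5) (nat_lit 319) (nat_lit 5) (nat_lit 460) (nat_lit 423) (nat_lit 257)) (XT.lf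 (nat_lit 0) (nat_lit 2118574754) (nat_lit 760) (nat_lit 10333061016) (nat_lit 836) (nat_lit 2195991388) (nat_lit 297) (nat_lit 5) (nat_lit 307) (nat_lit 5) (nat_lit 308) (nat_lit 5) (nat_lit 461) (nat_lit 423) (nat_lit 256))))) (XT.nd (nat_lit 234) (nat_lit 1444) (nat_lit 0) (XT.nd (nat_lit 78) (nat_lit 836) (nat_lit 0) (XT.lf (nat_lit 0) (nat_lit 9615645709) (nat_lit 760) (nat_lit 4757005610) (nat_lit 836) (nat_lit 438790564) (nat_lit 297) (nat_lit 5) (nat_lit 307) (nat_lit 5) (nat_lit 308) (nat_lit 5) (nat_lit 462) (nat_lit 423) (nat_lit 255)) (XT.nd (nat_lit 78) (nat_lit 0) (nat_lit 0) (XT.lf (nat_lit 0) (nat_lit 1347812392) (nat_lit 836) (nat_lit 12688196264) (nat_lit 76) (nat_lit 942114632) (nat_lit 286) (nat_lit 5) (nat_lit 297) (nat_lit 5) (nat_lit 287) (nat_lit 5) (nat_lit 463) (nat_lit 423) (nat_lit 254)) (XT.lf (nat_lit 0) (nat_lit 3221899532) (nat_lit 836) (nat_lit 5195613844) (nat_lit 76) (nat_lit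 6729420613) (nat_lit 286) (nat_lit 5) (nat_lit 297) (nat_lit 5) (nat_lit 287) (nat_lit 5) (nat_lit 464) (nat_lit 423) (nat_lit 253)))) (XT.nd (nat_lit 156) (nat_lit 760) (nat_lit 0) (XT.nd (nat_lit 78) (nat_lit 0) (nat_lit 0) (XT.lf (nat_lit 0) (nat_lit 2470070766) (nat_lit 684) (nat_lit 2670632299) (nat_lit 760) (nat_lit 10178279256) (nat_lit 277) (nat_lit 5) (nat_lit 286) (nat_lit 5) (nat_lit 287) (nat_lit 5) (nat_lit 465) (nat_lit 423) (nat_lit 252)) (XT.lf (nat_lit 0) (nat_lit 7145006528) (nat_lit 760) (nat_lit 5164489439) (nat_lit 76) (nat_lit 3184039160) (nat_lit 277) (nat_lit 5) (nat_lit 287) (nat_lit 5) (nat_lit 278) (nat_lit 5) (nat_lit 466) (nat_lit 423) (nat_lit 251))) (XT.nd (nat_lit 78) (nat_lit 0) (nat_lit 0) (XT.lf (nat_lit 0) (nat_lit 2682029806) (nat_lit 760) (nat_lit 6533944863) (nat_lit 836) (nat_lit 6455078619) (nat_lit 267) (nat_lit 5) (nat_lit 277) (nat_lit 5) (nat_lit 278) (nat_lit 5) (nat_lit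 467) (nat_lit 423) (nat_lit 250)) (XT.lf (nat_lit 0) (nat_lit 10746464881) (nat_lit 760) (nat_lit 608141035) (nat_lit 836) (nat_lit 4496996776) (nat_lit 267) (nat_lit 5) (nat_lit 277) (nat_lit 5) (nat_lit 278) (nat_lit 5) (nat_lit 468) (nat_lit 423) (nat_lit 249)))))) (XT.nd (nat_lit 546) (nat_lit 1824) (nat_lit 0) (XT.nd (nat_lit 234) (nat_lit 1216) (nat_lit 0) (XT.nd (nat_lit 78) (nat_lit 760) (nat_lit 0) (XT.lf (nat_lit 0) (nat_lit 2930554621) (nat_lit 684) (nat_lit 10651525936) (nat_lit 760) (nat_lit 2452766753) (nat_lit 258) (nat_lit 5) (nat_lit 267) (nat_lit 5) (nat_lit 268) (nat_lit 5) (nat_lit 469) (nat_lit 423) (nat_lit 248)) (XT.nd (nat_lit 78) (nat_lit 760) (nat_lit 0) (XT.lf (nat_lit 0) (nat_lit 11183130299) (nat_lit 684) (nat_lit 4701085546) (nat_lit 760) (nat_lit 336944282) (nat_lit 258) (nat_lit 5) (nat_lit 267) (nat_lit 5) (nat_lit 268) (nat_lit 5) (nat_lit 470) (nat_lit 423) (nat_lit 247)) (XT.lf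 (nat_lit 0) (nat_lit 1819205821) (nat_lit 760) (nat_lit 13208848941) (nat_lit 76) (nat_lit 1382475340) (nat_lit 248) (nat_lit 5) (nat_lit 258) (nat_lit 5) (nat_lit 249) (nat_lit 5) (nat_lit 471) (nat_lit 423) (nat_lit 246)))) (XT.nd (nat_lit 156) (nat_lit 608) (nat_lit 0) (XT.nd (nat_lit 78) (nat_lit 608) (nat_lit 0) (XT.lf (nat_lit 0) (nat_lit 4071184489) (nat_lit 760) (nat_lit 4971109258) (nat_lit 76) (nat_lit 7560210051) (nat_lit 248) (nat_lit 5) (nat_lit 258) (nat_lit 5) (nat_lit 249) (nat_lit 5) (nat_lit 472) (nat_lit 423) (nat_lit 245)) (XT.lf (nat_lit 0) (nat_lit 3468057848) (nat_lit 608) (nat_lit 2914866016) (nat_lit 684) (nat_lit 10415103791) (nat_lit 240) (nat_lit 5) (nat_lit 248) (nat_lit 5) (nat_lit 249) (nat_lit 5) (nat_lit 473) (nat_lit 423) (nat_lit 244))) (XT.nd (nat_lit 78) (nat_lit 608) (nat_lit 0) (XT.lf (nat_lit 0) (nat_lit 8788424840) (nat_lit 684) (nat_lit 4884182254) (nat_lit 76) (nat_lit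 3323909369) (nat_lit 240) (nat_lit 5) (nat_lit 249) (nat_lit 5) (nat_lit 241) (nat_lit 5) (nat_lit 474) (nat_lit 423) (nat_lit 243)) (XT.lf (nat_lit 0) (nat_lit 3751690252) (nat_lit 608) (nat_lit 7526452286) (nat_lit 684) (nat_lit 5920115286) (nat_lit 232) (nat_lit 5) (nat_lit 240) (nat_lit 5) (nat_lit 241) (nat_lit 5) (nat_lit 475) (nat_lit 423) (nat_lit 242))))) (XT.nd (nat_lit 234) (nat_lit 1140) (nat_lit 0) (XT.nd (nat_lit 78) (nat_lit 684) (nat_lit 0) (XT.lf (nat_lit 0) (nat_lit 12617812886) (nat_lit 608) (nat_lit 1225153466) (nat_lit 684) (nat_lit 3560566240) (nat_lit 232) (nat_lit 5) (nat_lit 240) (nat_lit 5) (nat_lit 241) (nat_lit 5) (nat_lit 476) (nat_lit 423) (nat_lit 241)) (XT.nd (nat_lit 78) (nat_lit 76) (nat_lit 0) (XT.lf (nat_lit 0) (nat_lit 4059158773) (nat_lit 608) (nat_lit 12452733539) (nat_lit 684) (nat_lit 1099969152) (nat_lit 224) (nat_lit 5) (nat_lit 232) (nat_lit 5) (nat_lit 233) (nat_lit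 5) (nat_lit 477) (nat_lit 423) (nat_lit 240)) (XT.lf (nat_lit 0) (nat_lit 1424500881) (nat_lit 684) (nat_lit 4704079518) (nat_lit 76) (nat_lit 11694934953) (nat_lit 223) (nat_lit 5) (nat_lit 232) (nat_lit 5) (nat_lit 224) (nat_lit 5) (nat_lit 478) (nat_lit 423) (nat_lit 239)))) (XT.nd (nat_lit 156) (nat_lit 532) (nat_lit 0) (XT.nd (nat_lit 78) (nat_lit 0) (nat_lit 0) (XT.lf (nat_lit 0) (nat_lit 4008243720) (nat_lit 684) (nat_lit 13678224299) (nat_lit 76) (nat_lit 352323092) (nat_lit 215) (nat_lit 5) (nat_lit 224) (nat_lit 5) (nat_lit 216) (nat_lit 5) (nat_lit 479) (nat_lit 423) (nat_lit 238)) (XT.lf (nat_lit 0) (nat_lit 6708953266) (nat_lit 684) (nat_lit 4636867135) (nat_lit 76) (nat_lit 6911250506) (nat_lit 215) (nat_lit 5) (nat_lit 224) (nat_lit 5) (nat_lit 216) (nat_lit 5) (nat_lit 480) (nat_lit 423) (nat_lit 237))) (XT.nd (nat_lit 78) (nat_lit 0) (nat_lit 0) (XT.lf (nat_lit 0) (nat_lit 4637708697) (nat_lit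 532) (nat_lit 4849147353) (nat_lit 608) (nat_lit 8992400946) (nat_lit 208) (nat_lit 5) (nat_lit 215) (nat_lit 5) (nat_lit 216) (nat_lit 5) (nat_lit 481) (nat_lit 423) (nat_lit 236)) (XT.lf (nat_lit 0) (nat_lit 12356318800) (nat_lit 608) (nat_lit 4564889666) (nat_lit 76) (nat_lit 1783962493) (nat_lit 208) (nat_lit 5) (nat_lit 216) (nat_lit 5) (nat_lit 209) (nat_lit 5) (nat_lit 482) (nat_lit 423) (nat_lit 235))))))) (XT.nd (nat_lit 1092) (nat_lit 3040) (nat_lit 0) (XT.nd (nat_lit 546) (nat_lit 1520) (nat_lit 0) (XT.nd (nat_lit 234) (nat_lit 988) (nat_lit 0) (XT.nd (nat_lit 78) (nat_lit 608) (nat_lit 0) (XT.lf (nat_lit 0) (nat_lit 4921391686) (nat_lit 532) (nat_lit 10419119717) (nat_lit 608) (nat_lit 3593949097) (nat_lit 201) (nat_lit 5) (nat_lit 208) (nat_lit 5) (nat_lit 209) (nat_lit 5) (nat_lit 483) (nat_lit 423) (nat_lit 234)) (XT.nd (nat_lit 78) (nat_lit 608) (nat_lit 0) (XT.lf (nat_lit 0) (nat_lit 14650989996)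 (nat_lit 532) (nat_lit 3757382851) (nat_lit 608) (nat_lit 759487314) (nat_lit 201) (nat_lit 5) (nat_lit 208) (nat_lit 5) (nat_lit 209) (nat_lit 5) (nat_lit 484) (nat_lit 423) (nat_lit 233)) (XT.lf (nat_lit 0) (nat_lit 2151032390) (nat_lit 608) (nat_lit 14209535907) (nat_lit 76) (nat_lit 3044140071) (nat_lit 193) (nat_lit 5) (nat_lit 201) (nat_lit 5) (nat_lit 194) (nat_lit 5) (nat_lit 485) (nat_lit 423) (nat_lit 232)))) (XT.nd (nat_lit 156) (nat_lit 456) (nat_lit 0) (XT.nd (nat_lit 78) (nat_lit 532) (nat_lit 0) (XT.lf (nat_lit 0) (nat_lit 5158497430) (nat_lit 608) (nat_lit 4521402038) (nat_lit 76) (nat_lit 9965319373) (nat_lit 193) (nat_lit 5) (nat_lit 201) (nat_lit 5) (nat_lit 194) (nat_lit 5) (nat_lit 486) (nat_lit 423) (nat_lit 231)) (XT.lf (nat_lit 0) (nat_lit 5423502924) (nat_lit 532) (nat_lit 2831449601) (nat_lit 608) (nat_lit 11635013906) (nat_lit 186) (nat_lit 5) (nat_lit 193) (nat_lit 5) (nat_lit 194)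 (nat_lit 5) (nat_lit 487) (nat_lit 423) (nat_lit 230))) (XT.nd (nat_lit 78) (nat_lit 456) (nat_lit 0) (XT.lf (nat_lit 0) (nat_lit 11464537821) (nat_lit 608) (nat_lit 4545765157) (nat_lit 76) (nat_lit 4128285623) (nat_lit 186) (nat_lit 5) (nat_lit 194) (nat_lit 5) (nat_lit 187) (nat_lit 5) (nat_lit 488) (nat_lit 423) (nat_lit 229)) (XT.lf (nat_lit 0) (nat_lit 5620280827) (nat_lit 456) (nat_lit 9167088508) (nat_lit 532) (nat_lit 5603836366) (nat_lit 180) (nat_lit 5) (nat_lit 186) (nat_lit 5) (nat_lit 187) (nat_lit 5) (nat_lit 489) (nat_lit 423) (nat_lit 228))))) (XT.nd (nat_lit 234) (nat_lit 912) (nat_lit 0) (XT.nd (nat_lit 78) (nat_lit 608) (nat_lit 0) (XT.lf (nat_lit 0) (nat_lit 16043293570) (nat_lit 456) (nat_lit 2157750541) (nat_lit 532) (nat_lit 2447346807) (nat_lit 180) (nat_lit 5) (nat_lit 186) (nat_lit 5) (nat_lit 187) (nat_lit 5) (nat_lit 490) (nat_lit 423) (nat_lit 227)) (XT.nd (nat_lit 78) (nat_lit 0)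 (nat_lit 0) (XT.lf (nat_lit 0) (nat_lit 826621057) (nat_lit 608) (nat_lit 15115107014) (nat_lit 76) (nat_lit 4967605318) (nat_lit 172) (nat_lit 5) (nat_lit 180) (nat_lit 5) (nat_lit 173) (nat_lit 5) (nat_lit 491) (nat_lit 423) (nat_lit 226)) (XT.lf (nat_lit 0) (nat_lit 4172740273) (nat_lit 608) (nat_lit 4749577906) (nat_lit 76) (nat_lit 12252067456) (nat_lit 172) (nat_lit 5) (nat_lit 180) (nat_lit 5) (nat_lit 173) (nat_lit 5) (nat_lit 492) (nat_lit 423) (nat_lit 225)))) (XT.nd (nat_lit 156) (nat_lit 456) (nat_lit 0) (XT.nd (nat_lit 78) (nat_lit 0) (nat_lit 0) (XT.lf (nat_lit 0) (nat_lit 5892743087) (nat_lit 456) (nat_lit 1725430067) (nat_lit 532) (nat_lit 13825921189) (nat_lit 166) (nat_lit 5) (nat_lit 172) (nat_lit 5) (nat_lit 173) (nat_lit 5) (nat_lit 493) (nat_lit 423) (nat_lit 224)) (XT.lf (nat_lit 0) (nat_lit 11195240579) (nat_lit 532) (nat_lit 4950795795) (nat_lit 76) (nat_lit 5571909509) (nat_lit 166)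 (nat_lit 5) (nat_lit 173) (nat_lit 5) (nat_lit 167) (nat_lit 5) (nat_lit 494) (nat_lit 423) (nat_lit 223))) (XT.nd (nat_lit 78) (nat_lit 0) (nat_lit 0) (XT.lf (nat_lit 0) (nat_lit 5920285434) (nat_lit 456) (nat_lit 8967726841) (nat_lit 532) (nat_lit 7108382035) (nat_lit 160) (nat_lit 5) (nat_lit 166) (nat_lit 5) (nat_lit 167) (nat_lit 5) (nat_lit 495) (nat_lit 423) (nat_lit 222)) (XT.lf (nat_lit 0) (nat_lit 17068244053) (nat_lit 456) (nat_lit 1613977726) (nat_lit 532) (nat_lit 3597641332) (nat_lit 160) (nat_lit 5) (nat_lit 166) (nat_lit 5) (nat_lit 167) (nat_lit 5) (nat_lit 496) (nat_lit 423) (nat_lit 221)))))) (XT.nd (nat_lit 546) (nat_lit 1216) (nat_lit 0) (XT.nd (nat_lit 234) (nat_lit 836) (nat_lit 0) (XT.nd (nat_lit 78) (nat_lit 456) (nat_lit 0) (XT.lf (nat_lit 0) (nat_lit 54997254) (nat_lit 532) (nat_lit 16666208847) (nat_lit 76) (nat_lit 5846371005) (nat_lit 153) (nat_lit 5) (nat_lit 160) (nat_lit 5) (nat_lit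 154) (nat_lit 5) (nat_lit 497) (nat_lit 423) (nat_lit 220)) (XT.nd (nat_lit 78) (nat_lit 456) (nat_lit 0) (XT.lf (nat_lit 0) (nat_lit 3772932255) (nat_lit 532) (nat_lit 5595461880) (nat_lit 76) (nat_lit 13491370194) (nat_lit 153) (nat_lit 5) (nat_lit 160) (nat_lit 5) (nat_lit 154) (nat_lit 5) (nat_lit 498) (nat_lit 423) (nat_lit 219)) (XT.lf (nat_lit 0) (nat_lit 5764825869) (nat_lit 456) (nat_lit 1832415553) (nat_lit 532) (nat_lit 15559916384) (nat_lit 147) (nat_lit 5) (nat_lit 153) (nat_lit 5) (nat_lit 154) (nat_lit 5) (nat_lit 499) (nat_lit 423) (nat_lit 218)))) (XT.nd (nat_lit 156) (nat_lit 456) (nat_lit 0) (XT.nd (nat_lit 78) (nat_lit 380) (nat_lit 0) (XT.lf (nat_lit 0) (nat_lit 11568474634) (nat_lit 532) (nat_lit 6077367475) (nat_lit 76) (nat_lit 5813251055) (nat_lit 147) (nat_lit 5) (nat_lit 154) (nat_lit 5) (nat_lit 148) (nat_lit 5) (nat_lit 500) (nat_lit 423) (nat_lit 217)) (XT.lf (nat_lit 0) (nat_lit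 5516733566) (nat_lit 380) (nat_lit 10145088530) (nat_lit 456) (nat_lit 8104394051) (nat_lit 142) (nat_lit 5) (nat_lit 147) (nat_lit 5) (nat_lit 148) (nat_lit 5) (nat_lit 501) (nat_lit 423) (nat_lit 216))) (XT.nd (nat_lit 78) (nat_lit 456) (nat_lit 0) (XT.lf (nat_lit 0) (nat_lit 17417765039) (nat_lit 380) (nat_lit 2454845506) (nat_lit 456) (nat_lit 4206162223) (nat_lit 142) (nat_lit 5) (nat_lit 147) (nat_lit 5) (nat_lit 148) (nat_lit 5) (nat_lit 502) (nat_lit 423) (nat_lit 215)) (XT.lf (nat_lit 0) (nat_lit 5184968785) (nat_lit 456) (nat_lit 19046180818) (nat_lit 532) (nat_lit 165162828) (nat_lit 136) (nat_lit 5) (nat_lit 142) (nat_lit 5) (nat_lit 143) (nat_lit 5) (nat_lit 503) (nat_lit 423) (nat_lit 214))))) (XT.nd (nat_lit 234) (nat_lit 760) (nat_lit 0) (XT.nd (nat_lit 78) (nat_lit 380) (nat_lit 0) (XT.lf (nat_lit 0) (nat_lit 3960914104) (nat_lit 532) (nat_lit 7410696656) (nat_lit 76) (nat_lit 13346957851) (nat_lit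 135) (nat_lit 5) (nat_lit 142) (nat_lit 5) (nat_lit 136) (nat_lit 5) (nat_lit 504) (nat_lit 423) (nat_lit 213)) (XT.nd (nat_lit 78) (nat_lit 0) (nat_lit 0) (XT.lf (nat_lit 0) (nat_lit 4679077823) (nat_lit 380) (nat_lit 3513602681) (nat_lit 456) (nat_lit 16854062443) (nat_lit 130) (nat_lit 5) (nat_lit 135) (nat_lit 5) (nat_lit 136) (nat_lit 5) (nat_lit 505) (nat_lit 423) (nat_lit 212)) (XT.lf (nat_lit 0) (nat_lit 12583403988) (nat_lit 456) (nat_lit 8306139817) (nat_lit 76) (nat_lit 4490452936) (nat_lit 130) (nat_lit 5) (nat_lit 136) (nat_lit 5) (nat_lit 131) (nat_lit 5) (nat_lit 506) (nat_lit 423) (nat_lit 211)))) (XT.nd (nat_lit 156) (nat_lit 380) (nat_lit 0) (XT.nd (nat_lit 78) (nat_lit 0) (nat_lit 0) (XT.lf (nat_lit 0) (nat_lit 4018999263) (nat_lit 380) (nat_lit 13087438515) (nat_lit 456) (nat_lit 8612590278) (nat_lit 125) (nat_lit 5) (nat_lit 130) (nat_lit 5) (nat_lit 131) (nat_lit 5) (nat_lit 507) (nat_lit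 423) (nat_lit 210)) (XT.lf (nat_lit 0) (nat_lit 16696221732) (nat_lit 380) (nat_lit 5074631929) (nat_lit 456) (nat_lit 4292970222) (nat_lit 125) (nat_lit 5) (nat_lit 130) (nat_lit 5) (nat_lit 131) (nat_lit 5) (nat_lit 508) (nat_lit 423) (nat_lit 209))) (XT.nd (nat_lit 78) (nat_lit 0) (nat_lit 0) (XT.lf (nat_lit 0) (nat_lit 148128423) (nat_lit 380) (nat_lit 23189047454) (nat_lit 76) (nat_lit 3077595919) (nat_lit 120) (nat_lit 5) (nat_lit 125) (nat_lit 5) (nat_lit 121) (nat_lit 5) (nat_lit 509) (nat_lit 423) (nat_lit 208)) (XT.lf (nat_lit 0) (nat_lit 4712782676) (nat_lit 380) (nat_lit 10643012910) (nat_lit 76) (nat_lit 11414533403) (nat_lit 120) (nat_lit 5) (nat_lit 125) (nat_lit 5) (nat_lit 121) (nat_lit 5) (nat_lit 510) (nat_lit 423) (nat_lit 207))))))))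
noncomputable def xc198 : XT := (XT.nd (nat_lit 53976) (nat_lit 0) (nat_lit 12920) (XT.nd (nat_lit 52884) (nat_lit 0) (nat_lit 23484) (XT.nd (nat_lit 546) (nat_lit 608) (nat_lit 0) (XT.nd (nat_lit 234) (nat_lit 456) (nat_lit 0) (XT.nd (nat_lit 78) (nat_lit 304) (nat_lit 0) (XT.lf (nat_lit 0) (nat_lit 2175637228) (nat_lit 380) (nat_lit 7202589146) (nat_lit 456) (nat_lit 17754583162) (nat_lit 115) (nat_lit 5) (nat_lit 120) (nat_lit 5) (nat_lit 121) (nat_lit 5) (nat_lit 511) (nat_lit 423) (nat_lit 206)) (XT.nd (nat_lit 78) (nat_lit 304) (nat_lit 0) (XT.lf (nat_lit 0) (nat_lit 14211505888) (nat_lit 456) (nat_lit 12120759189) (nat_lit 76) (nat_lit 1168786173) (nat_lit 115) (nat_lit 5) (nat_lit 121) (nat_lit 5) (nat_lit 116) (nat_lit 5) (nat_lit 512) (nat_lit 423) (nat_lit 205)) (XT.lf (nat_lit 0) (nat_lit 930143326) (nat_lit 304) (nat_lit 18260539160) (nat_lit 380) (nat_lit 8684992737) (nat_lit 111) (nat_lit 5) (nat_lit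 115) (nat_lit 5) (nat_lit 116) (nat_lit 5) (nat_lit 513) (nat_lit 423) (nat_lit 204)))) (XT.nd (nat_lit 156) (nat_lit 380) (nat_lit 0) (XT.nd (nat_lit 78) (nat_lit 76) (nat_lit 0) (XT.lf (nat_lit 0) (nat_lit 14399669708) (nat_lit 304) (nat_lit 9946647611) (nat_lit 380) (nat_lit 3909938879) (nat_lit 111) (nat_lit 5) (nat_lit 115) (nat_lit 5) (nat_lit 116) (nat_lit 5) (nat_lit 514) (nat_lit 423) (nat_lit 203)) (XT.lf (nat_lit 0) (nat_lit 943612001) (nat_lit 380) (nat_lit 518722617) (nat_lit 76) (nat_lit 27182079479) (nat_lit 110) (nat_lit 5) (nat_lit 115) (nat_lit 5) (nat_lit 111) (nat_lit 5) (nat_lit 515) (nat_lit 423) (nat_lit 202))) (XT.nd (nat_lit 78) (nat_lit 0) (nat_lit 0) (XT.lf (nat_lit 0) (nat_lit 5970907250) (nat_lit 456) (nat_lit 15858621565) (nat_lit 76) (nat_lit 7207710795) (nat_lit 105) (nat_lit 5) (nat_lit 111) (nat_lit 5) (nat_lit 106) (nat_lit 5) (nat_lit 516) (nat_lit 423) (nat_lit 201)) (XT.lf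 (nat_lit 0) (nat_lit 11107646355) (nat_lit 456) (nat_lit 2297146618) (nat_lit 76) (nat_lit 16032952562) (nat_lit 105) (nat_lit 5) (nat_lit 111) (nat_lit 5) (nat_lit 106) (nat_lit 5) (nat_lit 517) (nat_lit 423) (nat_lit 200))))) (XT.nd (nat_lit 52026) (nat_lit 0) (nat_lit 24852) (XT.nd (nat_lit 78) (nat_lit 304) (nat_lit 0) (XT.lf (nat_lit 0) (nat_lit 11682378083) (nat_lit 304) (nat_lit 4736385694) (nat_lit 380) (nat_lit 13426066757) (nat_lit 101) (nat_lit 5) (nat_lit 105) (nat_lit 5) (nat_lit 106) (nat_lit 5) (nat_lit 518) (nat_lit 423) (nat_lit 199)) (XT.nd (nat_lit 78) (nat_lit 304) (nat_lit 0) (XT.lf (nat_lit 0) (nat_lit 21874096402) (nat_lit 380) (nat_lit 4320299254) (nat_lit 76) (nat_lit 4064903507) (nat_lit 101) (nat_lit 5) (nat_lit 106) (nat_lit 5) (nat_lit 102) (nat_lit 5) (nat_lit 519) (nat_lit 423) (nat_lit 198)) (XT.lf (nat_lit 0) (nat_lit 9890750131) (nat_lit 304) (nat_lit 17639272389) (nat_lit 380)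 (nat_lit 3150206663) (nat_lit 97) (nat_lit 5) (nat_lit 101) (nat_lit 5) (nat_lit 102) (nat_lit 5) (nat_lit 520) (nat_lit 423) (nat_lit 197)))) (XT.nd (nat_lit 156) (nat_lit 0) (nat_lit 76) (XT.nd (nat_lit 78) (nat_lit 0) (nat_lit 0) (XT.lf (nat_lit 0) (nat_lit 2799990263) (nat_lit 1596) (nat_lit 1157246274) (nat_lit 1596) (nat_lit 1157246274) (nat_lit 424) (nat_lit 3) (nat_lit 445) (nat_lit 3) (nat_lit 445) (nat_lit 5) (nat_lit 424) (nat_lit 424) (nat_lit 292)) (XT.lf (nat_lit 76) (nat_lit 2384445120) (nat_lit 0) (nat_lit 3927323892) (nat_lit 1596) (nat_lit 4005835664) (nat_lit 425) (nat_lit 5) (nat_lit 424) (nat_lit 3) (nat_lit 445) (nat_lit 5) (nat_lit 425) (nat_lit 424) (nat_lit 291))) (XT.nd (nat_lit 78) (nat_lit 0) (nat_lit 0) (XT.lf (nat_lit 0) (nat_lit 7037534884) (nat_lit 1520) (nat_lit 3209070530) (nat_lit 1596) (nat_lit 161430292) (nat_lit 425) (nat_lit 5) (nat_lit 445) (nat_lit 5) (nat_lit 446) (nat_lit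 5) (nat_lit 426) (nat_lit 424) (nat_lit 290)) (XT.lf (nat_lit 76) (nat_lit 1595504362) (nat_lit 0) (nat_lit 6202210064) (nat_lit 1596) (nat_lit 2702176716) (nat_lit 426) (nat_lit 5) (nat_lit 425) (nat_lit 5) (nat_lit 446) (nat_lit 5) (nat_lit 427) (nat_lit 424) (nat_lit 289)))))) (XT.nd (nat_lit 546) (nat_lit 0) (nat_lit 76) (XT.nd (nat_lit 234) (nat_lit 1444) (nat_lit 0) (XT.nd (nat_lit 78) (nat_lit 0) (nat_lit 76) (XT.lf (nat_lit 76) (nat_lit 6530816711) (nat_lit 0) (nat_lit 2047611362) (nat_lit 1596) (nat_lit 2015062489) (nat_lit 426) (nat_lit 5) (nat_lit 425) (nat_lit 5) (nat_lit 446) (nat_lit 5) (nat_lit 428) (nat_lit 424) (nat_lit 288)) (XT.nd (nat_lit 78) (nat_lit 0) (nat_lit 0) (XT.lf (nat_lit 76) (nat_lit 863926474) (nat_lit 0) (nat_lit 8514818623) (nat_lit 1596) (nat_lit 1310150310) (nat_lit 427) (nat_lit 5) (nat_lit 426) (nat_lit 5) (nat_lit 447) (nat_lit 5) (nat_lit 429) (nat_lit 424) (nat_lit 287))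 (XT.lf (nat_lit 76) (nat_lit 5921390495) (nat_lit 0) (nat_lit 4298824402) (nat_lit 1596) (nat_lit 565503484) (nat_lit 427) (nat_lit 5) (nat_lit 426) (nat_lit 5) (nat_lit 447) (nat_lit 5) (nat_lit 430) (nat_lit 424) (nat_lit 286)))) (XT.nd (nat_lit 156) (nat_lit 0) (nat_lit 0) (XT.nd (nat_lit 78) (nat_lit 0) (nat_lit 0) (XT.lf (nat_lit 0) (nat_lit 177381933) (nat_lit 1596) (nat_lit 10697127219) (nat_lit 1672) (nat_lit 10238114) (nat_lit 406) (nat_lit 5) (nat_lit 427) (nat_lit 5) (nat_lit 428) (nat_lit 5) (nat_lit 431) (nat_lit 424) (nat_lit 285)) (XT.lf (nat_lit 0) (nat_lit 973775623) (nat_lit 1596) (nat_lit 5620324814) (nat_lit 1672) (nat_lit 4390669292) (nat_lit 406) (nat_lit 5) (nat_lit 427) (nat_lit 5) (nat_lit 428) (nat_lit 5) (nat_lit 432) (nat_lit 424) (nat_lit 284))) (XT.nd (nat_lit 78) (nat_lit 0) (nat_lit 76) (XT.lf (nat_lit 0) (nat_lit 1771281663) (nat_lit 1596) (nat_lit 451138175) (nat_lit 1672) (nat_lit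 8864681087) (nat_lit 406) (nat_lit 5) (nat_lit 427) (nat_lit 5) (nat_lit 428) (nat_lit 5) (nat_lit 433) (nat_lit 424) (nat_lit 283)) (XT.lf (nat_lit 0) (nat_lit 2616641551) (nat_lit 1596) (nat_lit 6329500707) (nat_lit 1672) (nat_lit 2244710150) (nat_lit 407) (nat_lit 5) (nat_lit 428) (nat_lit 5) (nat_lit 429) (nat_lit 5) (nat_lit 434) (nat_lit 424) (nat_lit 282))))) (XT.nd (nat_lit 234) (nat_lit 0) (nat_lit 76) (XT.nd (nat_lit 78) (nat_lit 0) (nat_lit 76) (XT.lf (nat_lit 0) (nat_lit 3482410945) (nat_lit 1596) (nat_lit 1034395530) (nat_lit 1672) (nat_lit 6779813909) (nat_lit 407) (nat_lit 5) (nat_lit 428) (nat_lit 5) (nat_lit 429) (nat_lit 5) (nat_lit 435) (nat_lit 424) (nat_lit 281)) (XT.nd (nat_lit 78) (nat_lit 0) (nat_lit 0) (XT.lf (nat_lit 0) (nat_lit 4380409380) (nat_lit 1596) (nat_lit 6988993570) (nat_lit 1672) (nat_lit 34813779) (nat_lit 408) (nat_lit 5) (nat_lit 429) (nat_lit 5) (nat_lit 430) (nat_lit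 5) (nat_lit 436) (nat_lit 424) (nat_lit 280)) (XT.lf (nat_lit 0) (nat_lit 5319530902) (nat_lit 1596) (nat_lit 1565251226) (nat_lit 1672) (nat_lit 4628730673) (nat_lit 408) (nat_lit 5) (nat_lit 429) (nat_lit 5) (nat_lit 430) (nat_lit 5) (nat_lit 437) (nat_lit 424) (nat_lit 279)))) (XT.nd (nat_lit 156) (nat_lit 0) (nat_lit 76) (XT.nd (nat_lit 78) (nat_lit 0) (nat_lit 76) (XT.lf (nat_lit 76) (nat_lit 4010423998) (nat_lit 0) (nat_lit 2279581722) (nat_lit 1672) (nat_lit 5334748500) (nat_lit 409) (nat_lit 5) (nat_lit 408) (nat_lit 5) (nat_lit 430) (nat_lit 5) (nat_lit 438) (nat_lit 424) (nat_lit 278)) (XT.lf (nat_lit 0) (nat_lit 7292925529) (nat_lit 1596) (nat_lit 2044329604) (nat_lit 1672) (nat_lit 2400715259) (nat_lit 409) (nat_lit 5) (nat_lit 430) (nat_lit 5) (nat_lit 431) (nat_lit 5) (nat_lit 439) (nat_lit 424) (nat_lit 277))) (XT.nd (nat_lit 78) (nat_lit 0) (nat_lit 76) (XT.lf (nat_lit 76) (nat_lit 3660788012)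 (nat_lit 0) (nat_lit 4681004880) (nat_lit 1672) (nat_lit 3511150635) (nat_lit 410) (nat_lit 5) (nat_lit 409) (nat_lit 5) (nat_lit 431) (nat_lit 5) (nat_lit 440) (nat_lit 424) (nat_lit 276)) (XT.lf (nat_lit 0) (nat_lit 9413133960) (nat_lit 1596) (nat_lit 2472184412) (nat_lit 1672) (nat_lit 84878044) (nat_lit 410) (nat_lit 5) (nat_lit 431) (nat_lit 5) (nat_lit 432) (nat_lit 5) (nat_lit 441) (nat_lit 424) (nat_lit 275))))))) (XT.nd (nat_lit 1092) (nat_lit 5548) (nat_lit 0) (XT.nd (nat_lit 546) (nat_lit 3724) (nat_lit 0) (XT.nd (nat_lit 234) (nat_lit 0) (nat_lit 0) (XT.nd (nat_lit 78) (nat_lit 1596) (nat_lit 0) (XT.lf (nat_lit 76) (nat_lit 3366090504) (nat_lit 0) (nat_lit 7180159479) (nat_lit 1672) (nat_lit 1542747436) (nat_lit 411) (nat_lit 5) (nat_lit 410) (nat_lit 5) (nat_lit 432) (nat_lit 5) (nat_lit 442) (nat_lit 424) (nat_lit 274)) (XT.nd (nat_lit 78) (nat_lit 1596) (nat_lit 0) (XT.lf (nat_lit 76) (nat_lit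 9345460377) (nat_lit 0) (nat_lit 2360836436) (nat_lit 1672) (nat_lit 503802082) (nat_lit 411) (nat_lit 5) (nat_lit 410) (nat_lit 5) (nat_lit 432) (nat_lit 5) (nat_lit 443) (nat_lit 424) (nat_lit 273)) (XT.lf (nat_lit 0) (nat_lit 573610007) (nat_lit 1672) (nat_lit 9210977657) (nat_lit 1748) (nat_lit 2548472412) (nat_lit 389) (nat_lit 5) (nat_lit 411) (nat_lit 5) (nat_lit 412) (nat_lit 5) (nat_lit 444) (nat_lit 424) (nat_lit 272)))) (XT.nd (nat_lit 156) (nat_lit 0) (nat_lit 76) (XT.nd (nat_lit 78) (nat_lit 0) (nat_lit 76) (XT.lf (nat_lit 0) (nat_lit 1688844997) (nat_lit 1672) (nat_lit 3219205896) (nat_lit 1748) (nat_lit 7549911830) (nat_lit 389) (nat_lit 5) (nat_lit 411) (nat_lit 5) (nat_lit 412) (nat_lit 5) (nat_lit 445) (nat_lit 424) (nat_lit 271)) (XT.lf (nat_lit 0) (nat_lit 2834187643) (nat_lit 1672) (nat_lit 9664277250) (nat_lit 1748) (nat_lit 86751545) (nat_lit 390) (nat_lit 5) (nat_lit 412) (nat_lit 5) (nat_lit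 413) (nat_lit 5) (nat_lit 446) (nat_lit 424) (nat_lit 270))) (XT.nd (nat_lit 78) (nat_lit 0) (nat_lit 0) (XT.lf (nat_lit 0) (nat_lit 4045136771) (nat_lit 1672) (nat_lit 3529097246) (nat_lit 1748) (nat_lit 5139936114) (nat_lit 390) (nat_lit 5) (nat_lit 412) (nat_lit 5) (nat_lit 413) (nat_lit 5) (nat_lit 447) (nat_lit 424) (nat_lit 269)) (XT.lf (nat_lit 76) (nat_lit 2755720561) (nat_lit 0) (nat_lit 2531153101) (nat_lit 1748) (nat_lit 7558706583) (nat_lit 391) (nat_lit 5) (nat_lit 390) (nat_lit 5) (nat_lit 413) (nat_lit 5) (nat_lit 448) (nat_lit 424) (nat_lit 268))))) (XT.nd (nat_lit 234) (nat_lit 2204) (nat_lit 0) (XT.nd (nat_lit 78) (nat_lit 1672) (nat_lit 0) (XT.lf (nat_lit 0) (nat_lit 6583100712) (nat_lit 1672) (nat_lit 3791584974) (nat_lit 76) (nat_lit 2604348317) (nat_lit 391) (nat_lit 5) (nat_lit 413) (nat_lit 5) (nat_lit 392) (nat_lit 5) (nat_lit 449) (nat_lit 424) (nat_lit 267)) (XT.nd (nat_lit 78) (nat_lit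 0) (nat_lit 0) (XT.lf (nat_lit 0) (nat_lit 2641326425) (nat_lit 1672) (nat_lit 5286908825) (nat_lit 1748) (nat_lit 5186470312) (nat_lit 369) (nat_lit 5) (nat_lit 391) (nat_lit 5) (nat_lit 392) (nat_lit 5) (nat_lit 450) (nat_lit 424) (nat_lit 266)) (XT.lf (nat_lit 0) (nat_lit 9245144890) (nat_lit 1672) (nat_lit 69797123) (nat_lit 1748) (nat_lit 3937863366) (nat_lit 369) (nat_lit 5) (nat_lit 391) (nat_lit 5) (nat_lit 392) (nat_lit 5) (nat_lit 451) (nat_lit 424) (nat_lit 265)))) (XT.nd (nat_lit 156) (nat_lit 912) (nat_lit 0) (XT.nd (nat_lit 78) (nat_lit 0) (nat_lit 0) (XT.lf (nat_lit 0) (nat_lit 2577887338) (nat_lit 1292) (nat_lit 8191777782) (nat_lit 1368) (nat_lit 2623204486) (nat_lit 352) (nat_lit 5) (nat_lit 369) (nat_lit 5) (nat_lit 370) (nat_lit 5) (nat_lit 452) (nat_lit 424) (nat_lit 264)) (XT.lf (nat_lit 0) (nat_lit 9339865740) (nat_lit 1292) (nat_lit 2930564853) (nat_lit 1368) (nat_lit 1264973465) (nat_lit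 352) (nat_lit 5) (nat_lit 369) (nat_lit 5) (nat_lit 370) (nat_lit 5) (nat_lit 453) (nat_lit 424) (nat_lit 263))) (XT.nd (nat_lit 78) (nat_lit 0) (nat_lit 0) (XT.lf (nat_lit 0) (nat_lit 141258582) (nat_lit 912) (nat_lit 11116339463) (nat_lit 76) (nat_lit 2422734798) (nat_lit 340) (nat_lit 5) (nat_lit 352) (nat_lit 5) (nat_lit 341) (nat_lit 5) (nat_lit 454) (nat_lit 424) (nat_lit 262)) (XT.lf (nat_lit 0) (nat_lit 1596315433) (nat_lit 912) (nat_lit 4349240462) (nat_lit 76) (nat_lit 7881691758) (nat_lit 340) (nat_lit 5) (nat_lit 352) (nat_lit 5) (nat_lit 341) (nat_lit 5) (nat_lit 455) (nat_lit 424) (nat_lit 261)))))) (XT.nd (nat_lit 546) (nat_lit 2280) (nat_lit 0) (XT.nd (nat_lit 234) (nat_lit 1596) (nat_lit 0) (XT.nd (nat_lit 78) (nat_lit 836) (nat_lit 0) (XT.lf (nat_lit 0) (nat_lit 2577932913) (nat_lit 836) (nat_lit 509350596) (nat_lit 912) (nat_lit 10889688346) (nat_lit 329) (nat_lit 5) (nat_lit 340) (nat_lit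 5) (nat_lit 341) (nat_lit 5) (nat_lit 456) (nat_lit 424) (nat_lit 260)) (XT.nd (nat_lit 78) (nat_lit 836) (nat_lit 0) (XT.lf (nat_lit 0) (nat_lit 4660357808) (nat_lit 912) (nat_lit 4468615517) (nat_lit 76) (nat_lit 4999678635) (nat_lit 329) (nat_lit 5) (nat_lit 341) (nat_lit 5) (nat_lit 330) (nat_lit 5) (nat_lit 457) (nat_lit 424) (nat_lit 259)) (XT.lf (nat_lit 0) (nat_lit 2622391284) (nat_lit 836) (nat_lit 3653307254) (nat_lit 912) (nat_lit 8007458045) (nat_lit 318) (nat_lit 5) (nat_lit 329) (nat_lit 5) (nat_lit 330) (nat_lit 5) (nat_lit 458) (nat_lit 424) (nat_lit 258)))) (XT.nd (nat_lit 156) (nat_lit 760) (nat_lit 0) (XT.nd (nat_lit 78) (nat_lit 836) (nat_lit 0) (XT.lf (nat_lit 0) (nat_lit 7956612786) (nat_lit 912) (nat_lit 4546286485) (nat_lit 76) (nat_lit 1937193570) (nat_lit 318) (nat_lit 5) (nat_lit 330) (nat_lit 5) (nat_lit 319) (nat_lit 5) (nat_lit 459) (nat_lit 424) (nat_lit 257)) (XT.lf (nat_lit 0)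 (nat_lit 2712862774) (nat_lit 836) (nat_lit 6990814216) (nat_lit 912) (nat_lit 4895846943) (nat_lit 307) (nat_lit 5) (nat_lit 318) (nat_lit 5) (nat_lit 319) (nat_lit 5) (nat_lit 460) (nat_lit 424) (nat_lit 256))) (XT.nd (nat_lit 78) (nat_lit 760) (nat_lit 0) (XT.lf (nat_lit 0) (nat_lit 10169875646) (nat_lit 836) (nat_lit 1337162494) (nat_lit 912) (nat_lit 3254685004) (nat_lit 307) (nat_lit 5) (nat_lit 318) (nat_lit 5) (nat_lit 319) (nat_lit 5) (nat_lit 461) (nat_lit 424) (nat_lit 255)) (XT.lf (nat_lit 0) (nat_lit 2848504085) (nat_lit 760) (nat_lit 10536244922) (nat_lit 836) (nat_lit 1541658164) (nat_lit 297) (nat_lit 5) (nat_lit 307) (nat_lit 5) (nat_lit 308) (nat_lit 5) (nat_lit 462) (nat_lit 424) (nat_lit 254))))) (XT.nd (nat_lit 234) (nat_lit 1444) (nat_lit 0) (XT.nd (nat_lit 78) (nat_lit 760) (nat_lit 0) (XT.lf (nat_lit 0) (nat_lit 233887201) (nat_lit 836) (nat_lit 4613279883) (nat_lit 76) (nat_lit 10246578224)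 (nat_lit 296) (nat_lit 5) (nat_lit 307) (nat_lit 5) (nat_lit 297) (nat_lit 5) (nat_lit 463) (nat_lit 424) (nat_lit 253)) (XT.nd (nat_lit 78) (nat_lit 0) (nat_lit 0) (XT.lf (nat_lit 0) (nat_lit 2041594029) (nat_lit 836) (nat_lit 12249212992) (nat_lit 76) (nat_lit 973079619) (nat_lit 286) (nat_lit 5) (nat_lit 297) (nat_lit 5) (nat_lit 287) (nat_lit 5) (nat_lit 464) (nat_lit 424) (nat_lit 252)) (XT.lf (nat_lit 0) (nat_lit 3940087905) (nat_lit 836) (nat_lit 4620362203) (nat_lit 76) (nat_lit 6875894020) (nat_lit 286) (nat_lit 5) (nat_lit 297) (nat_lit 5) (nat_lit 287) (nat_lit 5) (nat_lit 465) (nat_lit 424) (nat_lit 251)))) (XT.nd (nat_lit 156) (nat_lit 760) (nat_lit 0) (XT.nd (nat_lit 78) (nat_lit 0) (nat_lit 0) (XT.lf (nat_lit 0) (nat_lit 3194167916) (nat_lit 684) (nat_lit 2694661529) (nat_lit 760) (nat_lit 9723181634) (nat_lit 277) (nat_lit 5) (nat_lit 286) (nat_lit 5) (nat_lit 287) (nat_lit 5) (nat_lit 466) (nat_lit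 424) (nat_lit 250)) (XT.lf (nat_lit 0) (nat_lit 7920752831) (nat_lit 760) (nat_lit 4593410752) (nat_lit 76) (nat_lit 3276149401) (nat_lit 277) (nat_lit 5) (nat_lit 287) (nat_lit 5) (nat_lit 278) (nat_lit 5) (nat_lit 467) (nat_lit 424) (nat_lit 249))) (XT.nd (nat_lit 78) (nat_lit 0) (nat_lit 0) (XT.lf (nat_lit 0) (nat_lit 3405602244) (nat_lit 760) (nat_lit 6619478984) (nat_lit 836) (nat_lit 5946470009) (nat_lit 267) (nat_lit 5) (nat_lit 277) (nat_lit 5) (nat_lit 278) (nat_lit 5) (nat_lit 468) (nat_lit 424) (nat_lit 248)) (XT.lf (nat_lit 0) (nat_lit 11618190101) (nat_lit 760) (nat_lit 576044271) (nat_lit 836) (nat_lit 3961730651) (nat_lit 267) (nat_lit 5) (nat_lit 277) (nat_lit 5) (nat_lit 278) (nat_lit 5) (nat_lit 469) (nat_lit 424) (nat_lit 247))))))))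
noncomputable def xc199 : XT := (XT.nd (nat_lit 2184) (nat_lit 4484) (nat_lit 0) (XT.nd (nat_lit 1092) (nat_lit 3648) (nat_lit 0) (XT.nd (nat_lit 546) (nat_lit 1824) (nat_lit 0) (XT.nd (nat_lit 234) (nat_lit 1216) (nat_lit 0) (XT.nd (nat_lit 78) (nat_lit 760) (nat_lit 0) (XT.lf (nat_lit 0) (nat_lit 3653941507) (nat_lit 684) (nat_lit 10804904376) (nat_lit 760) (nat_lit 1884185118) (nat_lit 258) (nat_lit 5) (nat_lit 267) (nat_lit 5) (nat_lit 268) (nat_lit 5) (nat_lit 470) (nat_lit 424) (nat_lit 246)) (XT.nd (nat_lit 78) (nat_lit 684) (nat_lit 0) (XT.lf (nat_lit 0) (nat_lit 258409150) (nat_lit 760) (nat_lit 4476481615) (nat_lit 76) (nat_lit 11798390668) (nat_lit 257) (nat_lit 5) (nat_lit 267) (nat_lit 5) (nat_lit 258) (nat_lit 5) (nat_lit 471) (nat_lit 424) (nat_lit 245)) (XT.lf (nat_lit 0) (nat_lit 2446140888) (nat_lit 760) (nat_lit 12805527539) (nat_lit 76) (nat_lit 1474874171) (nat_lit 248) (nat_lit 5) (nat_lit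 258) (nat_lit 5) (nat_lit 249) (nat_lit 5) (nat_lit 472) (nat_lit 424) (nat_lit 244)))) (XT.nd (nat_lit 156) (nat_lit 608) (nat_lit 0) (XT.nd (nat_lit 78) (nat_lit 608) (nat_lit 0) (XT.lf (nat_lit 0) (nat_lit 4731579699) (nat_lit 760) (nat_lit 4416121266) (nat_lit 76) (nat_lit 7774893982) (nat_lit 248) (nat_lit 5) (nat_lit 258) (nat_lit 5) (nat_lit 249) (nat_lit 5) (nat_lit 473) (nat_lit 424) (nat_lit 243)) (XT.lf (nat_lit 0) (nat_lit 4187523853) (nat_lit 608) (nat_lit 2894898538) (nat_lit 684) (nat_lit 10039756961) (nat_lit 240) (nat_lit 5) (nat_lit 248) (nat_lit 5) (nat_lit 249) (nat_lit 5) (nat_lit 474) (nat_lit 424) (nat_lit 242))) (XT.nd (nat_lit 78) (nat_lit 608) (nat_lit 0) (XT.lf (nat_lit 0) (nat_lit 9525319019) (nat_lit 684) (nat_lit 4333429078) (nat_lit 76) (nat_lit 3466111421) (nat_lit 240) (nat_lit 5) (nat_lit 249) (nat_lit 5) (nat_lit 241) (nat_lit 5) (nat_lit 475) (nat_lit 424) (nat_lit 241)) (XT.lf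 (nat_lit 0) (nat_lit 4470894847) (nat_lit 608) (nat_lit 7587116145) (nat_lit 684) (nat_lit 5472768269) (nat_lit 232) (nat_lit 5) (nat_lit 240) (nat_lit 5) (nat_lit 241) (nat_lit 5) (nat_lit 476) (nat_lit 424) (nat_lit 240))))) (XT.nd (nat_lit 234) (nat_lit 1140) (nat_lit 0) (XT.nd (nat_lit 78) (nat_lit 684) (nat_lit 0) (XT.lf (nat_lit 0) (nat_lit 13501709133) (nat_lit 608) (nat_lit 1161553411) (nat_lit 684) (nat_lit 3077121366) (nat_lit 232) (nat_lit 5) (nat_lit 240) (nat_lit 5) (nat_lit 241) (nat_lit 5) (nat_lit 477) (nat_lit 424) (nat_lit 239)) (XT.nd (nat_lit 78) (nat_lit 76) (nat_lit 0) (XT.lf (nat_lit 0) (nat_lit 4778304331) (nat_lit 608) (nat_lit 12601309950) (nat_lit 684) (nat_lit 573391008) (nat_lit 224) (nat_lit 5) (nat_lit 232) (nat_lit 5) (nat_lit 233) (nat_lit 5) (nat_lit 478) (nat_lit 424) (nat_lit 238)) (XT.lf (nat_lit 0) (nat_lit 1983758383) (nat_lit 684) (nat_lit 4165323796) (nat_lit 76) (nat_lit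 12019957755) (nat_lit 223) (nat_lit 5) (nat_lit 232) (nat_lit 5) (nat_lit 224) (nat_lit 5) (nat_lit 479) (nat_lit 424) (nat_lit 237)))) (XT.nd (nat_lit 156) (nat_lit 532) (nat_lit 0) (XT.nd (nat_lit 78) (nat_lit 0) (nat_lit 0) (XT.lf (nat_lit 0) (nat_lit 4613527384) (nat_lit 684) (nat_lit 13312978880) (nat_lit 76) (nat_lit 462234395) (nat_lit 215) (nat_lit 5) (nat_lit 224) (nat_lit 5) (nat_lit 216) (nat_lit 5) (nat_lit 480) (nat_lit 424) (nat_lit 236)) (XT.lf (nat_lit 0) (nat_lit 7357954675) (nat_lit 684) (nat_lit 4103320257) (nat_lit 76) (nat_lit 7150323401) (nat_lit 215) (nat_lit 5) (nat_lit 224) (nat_lit 5) (nat_lit 216) (nat_lit 5) (nat_lit 481) (nat_lit 424) (nat_lit 235))) (XT.nd (nat_lit 78) (nat_lit 0) (nat_lit 0) (XT.lf (nat_lit 0) (nat_lit 5352626800) (nat_lit 532) (nat_lit 4832733659) (nat_lit 608) (nat_lit 8652995011) (nat_lit 208) (nat_lit 5) (nat_lit 215) (nat_lit 5) (nat_lit 216) (nat_lit 5) (nat_lit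 482) (nat_lit 424) (nat_lit 234)) (XT.lf (nat_lit 0) (nat_lit 13102958445) (nat_lit 608) (nat_lit 4036663589) (nat_lit 76) (nat_lit 1929356864) (nat_lit 208) (nat_lit 5) (nat_lit 216) (nat_lit 5) (nat_lit 209) (nat_lit 5) (nat_lit 483) (nat_lit 424) (nat_lit 233)))))) (XT.nd (nat_lit 546) (nat_lit 1520) (nat_lit 0) (XT.nd (nat_lit 234) (nat_lit 988) (nat_lit 0) (XT.nd (nat_lit 78) (nat_lit 608) (nat_lit 0) (XT.lf (nat_lit 0) (nat_lit 5635267576) (nat_lit 532) (nat_lit 10505768843) (nat_lit 608) (nat_lit 3161939765) (nat_lit 201) (nat_lit 5) (nat_lit 208) (nat_lit 5) (nat_lit 209) (nat_lit 5) (nat_lit 484) (nat_lit 424) (nat_lit 232)) (XT.nd (nat_lit 78) (nat_lit 608) (nat_lit 0) (XT.lf (nat_lit 0) (nat_lit 15547390243) (nat_lit 532) (nat_lit 3713184167) (nat_lit 608) (nat_lit 280668909) (nat_lit 201) (nat_lit 5) (nat_lit 208) (nat_lit 5) (nat_lit 209) (nat_lit 5) (nat_lit 485) (nat_lit 424) (nat_lit 231)) (XT.lf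 (nat_lit 0) (nat_lit 2676764775) (nat_lit 608) (nat_lit 13878480180) (nat_lit 76) (nat_lit 3227621374) (nat_lit 193) (nat_lit 5) (nat_lit 201) (nat_lit 5) (nat_lit 194) (nat_lit 5) (nat_lit 486) (nat_lit 424) (nat_lit 230)))) (XT.nd (nat_lit 156) (nat_lit 456) (nat_lit 0) (XT.nd (nat_lit 78) (nat_lit 532) (nat_lit 0) (XT.lf (nat_lit 0) (nat_lit 5734914180) (nat_lit 608) (nat_lit 4008647289) (nat_lit 76) (nat_lit 10284820370) (nat_lit 193) (nat_lit 5) (nat_lit 201) (nat_lit 5) (nat_lit 194) (nat_lit 5) (nat_lit 487) (nat_lit 424) (nat_lit 229)) (XT.lf (nat_lit 0) (nat_lit 6131187464) (nat_lit 532) (nat_lit 2756722061) (nat_lit 608) (nat_lit 11390228053) (nat_lit 186) (nat_lit 5) (nat_lit 193) (nat_lit 5) (nat_lit 194) (nat_lit 5) (nat_lit 488) (nat_lit 424) (nat_lit 228))) (XT.nd (nat_lit 78) (nat_lit 456) (nat_lit 0) (XT.lf (nat_lit 0) (nat_lit 12153348973) (nat_lit 608) (nat_lit 4040612019) (nat_lit 76) (nat_lit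 4337943265) (nat_lit 186) (nat_lit 5) (nat_lit 194) (nat_lit 5) (nat_lit 187) (nat_lit 5) (nat_lit 489) (nat_lit 424) (nat_lit 227)) (XT.lf (nat_lit 0) (nat_lit 6324833381) (nat_lit 456) (nat_lit 9212638143) (nat_lit 532) (nat_lit 5252210697) (nat_lit 180) (nat_lit 5) (nat_lit 186) (nat_lit 5) (nat_lit 187) (nat_lit 5) (nat_lit 490) (nat_lit 424) (nat_lit 226))))) (XT.nd (nat_lit 234) (nat_lit 912) (nat_lit 0) (XT.nd (nat_lit 78) (nat_lit 608) (nat_lit 0) (XT.lf (nat_lit 0) (nat_lit 16944695655) (nat_lit 456) (nat_lit 2065815224) (nat_lit 532) (nat_lit 2041683550) (nat_lit 180) (nat_lit 5) (nat_lit 186) (nat_lit 5) (nat_lit 187) (nat_lit 5) (nat_lit 491) (nat_lit 424) (nat_lit 225)) (XT.nd (nat_lit 78) (nat_lit 0) (nat_lit 0) (XT.lf (nat_lit 0) (nat_lit 1287692984) (nat_lit 608) (nat_lit 14826306398) (nat_lit 76) (nat_lit 5204384411) (nat_lit 172) (nat_lit 5) (nat_lit 180) (nat_lit 5) (nat_lit 173) (nat_lit 5)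 (nat_lit 492) (nat_lit 424) (nat_lit 224)) (XT.lf (nat_lit 0) (nat_lit 4692018124) (nat_lit 608) (nat_lit 4265056958) (nat_lit 76) (nat_lit 12631841146) (nat_lit 172) (nat_lit 5) (nat_lit 180) (nat_lit 5) (nat_lit 173) (nat_lit 5) (nat_lit 493) (nat_lit 424) (nat_lit 223)))) (XT.nd (nat_lit 156) (nat_lit 456) (nat_lit 0) (XT.nd (nat_lit 78) (nat_lit 0) (nat_lit 0) (XT.lf (nat_lit 0) (nat_lit 6586297873) (nat_lit 456) (nat_lit 1615254065) (nat_lit 532) (nat_lit 13662568044) (nat_lit 166) (nat_lit 5) (nat_lit 172) (nat_lit 5) (nat_lit 173) (nat_lit 5) (nat_lit 494) (nat_lit 424) (nat_lit 222)) (XT.lf (nat_lit 0) (nat_lit 11842630400) (nat_lit 532) (nat_lit 4477638393) (nat_lit 76) (nat_lit 5823334992) (nat_lit 166) (nat_lit 5) (nat_lit 173) (nat_lit 5) (nat_lit 167) (nat_lit 5) (nat_lit 495) (nat_lit 424) (nat_lit 221))) (XT.nd (nat_lit 78) (nat_lit 0) (nat_lit 0) (XT.lf (nat_lit 0) (nat_lit 6607100162) (nat_lit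 456) (nat_lit 8997544228) (nat_lit 532) (nat_lit 6823073589) (nat_lit 160) (nat_lit 5) (nat_lit 166) (nat_lit 5) (nat_lit 167) (nat_lit 5) (nat_lit 496) (nat_lit 424) (nat_lit 220)) (XT.lf (nat_lit 0) (nat_lit 17966872679) (nat_lit 456) (nat_lit 1499652232) (nat_lit 532) (nat_lit 3250499955) (nat_lit 160) (nat_lit 5) (nat_lit 166) (nat_lit 5) (nat_lit 167) (nat_lit 5) (nat_lit 497) (nat_lit 424) (nat_lit 219))))))) (XT.nd (nat_lit 1092) (nat_lit 1444) (nat_lit 0) (XT.nd (nat_lit 546) (nat_lit 1140) (nat_lit 0) (XT.nd (nat_lit 234) (nat_lit 912) (nat_lit 0) (XT.nd (nat_lit 78) (nat_lit 456) (nat_lit 0) (XT.lf (nat_lit 0) (nat_lit 466191235) (nat_lit 532) (nat_lit 16432837440) (nat_lit 76) (nat_lit 6111484393) (nat_lit 153) (nat_lit 5) (nat_lit 160) (nat_lit 5) (nat_lit 154) (nat_lit 5) (nat_lit 498) (nat_lit 424) (nat_lit 218)) (XT.nd (nat_lit 78) (nat_lit 456) (nat_lit 0) (XT.lf (nat_lit 0) (nat_lit 4250443876)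 (nat_lit 532) (nat_lit 5151787211) (nat_lit 76) (nat_lit 13906477958) (nat_lit 153) (nat_lit 5) (nat_lit 160) (nat_lit 5) (nat_lit 154) (nat_lit 5) (nat_lit 499) (nat_lit 424) (nat_lit 217)) (XT.lf (nat_lit 0) (nat_lit 6432051136) (nat_lit 456) (nat_lit 1714888188) (nat_lit 532) (nat_lit 15465201176) (nat_lit 147) (nat_lit 5) (nat_lit 153) (nat_lit 5) (nat_lit 154) (nat_lit 5) (nat_lit 500) (nat_lit 424) (nat_lit 216)))) (XT.nd (nat_lit 156) (nat_lit 532) (nat_lit 0) (XT.nd (nat_lit 78) (nat_lit 380) (nat_lit 0) (XT.lf (nat_lit 0) (nat_lit 12190779503) (nat_lit 532) (nat_lit 5650789137) (nat_lit 76) (nat_lit 6078686306) (nat_lit 147) (nat_lit 5) (nat_lit 154) (nat_lit 5) (nat_lit 148) (nat_lit 5) (nat_lit 501) (nat_lit 424) (nat_lit 215)) (XT.lf (nat_lit 0) (nat_lit 6171587834) (nat_lit 380) (nat_lit 10190276062) (nat_lit 456) (nat_lit 7871743041) (nat_lit 142) (nat_lit 5) (nat_lit 147) (nat_lit 5) (nat_lit 148)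 (nat_lit 5) (nat_lit 502) (nat_lit 424) (nat_lit 214))) (XT.nd (nat_lit 78) (nat_lit 532) (nat_lit 0) (XT.lf (nat_lit 0) (nat_lit 18299963082) (nat_lit 380) (nat_lit 2349320614) (nat_lit 456) (nat_lit 3903286555) (nat_lit 142) (nat_lit 5) (nat_lit 147) (nat_lit 5) (nat_lit 148) (nat_lit 5) (nat_lit 503) (nat_lit 424) (nat_lit 213)) (XT.lf (nat_lit 0) (nat_lit 212678821) (nat_lit 532) (nat_lit 19052194717) (nat_lit 76) (nat_lit 5611622271) (nat_lit 135) (nat_lit 5) (nat_lit 142) (nat_lit 5) (nat_lit 136) (nat_lit 5) (nat_lit 504) (nat_lit 424) (nat_lit 212))))) (XT.nd (nat_lit 234) (nat_lit 760) (nat_lit 0) (XT.nd (nat_lit 78) (nat_lit 380) (nat_lit 0) (XT.lf (nat_lit 0) (nat_lit 4411637722) (nat_lit 532) (nat_lit 7027261560) (nat_lit 76) (nat_lit 13766428203) (nat_lit 135) (nat_lit 5) (nat_lit 142) (nat_lit 5) (nat_lit 136) (nat_lit 5) (nat_lit 505) (nat_lit 424) (nat_lit 211)) (XT.nd (nat_lit 78) (nat_lit 0)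 (nat_lit 0) (XT.lf (nat_lit 0) (nat_lit 5300810717) (nat_lit 380) (nat_lit 3423373424) (nat_lit 456) (nat_lit 16815961850) (nat_lit 130) (nat_lit 5) (nat_lit 135) (nat_lit 5) (nat_lit 136) (nat_lit 5) (nat_lit 506) (nat_lit 424) (nat_lit 210)) (XT.lf (nat_lit 0) (nat_lit 13196534918) (nat_lit 456) (nat_lit 7948104701) (nat_lit 76) (nat_lit 4735552492) (nat_lit 130) (nat_lit 5) (nat_lit 136) (nat_lit 5) (nat_lit 131) (nat_lit 5) (nat_lit 507) (nat_lit 424) (nat_lit 209)))) (XT.nd (nat_lit 156) (nat_lit 380) (nat_lit 0) (XT.nd (nat_lit 78) (nat_lit 0) (nat_lit 0) (XT.lf (nat_lit 0) (nat_lit 4620088754) (nat_lit 380) (nat_lit 13186233915) (nat_lit 456) (nat_lit 8419758955) (nat_lit 125) (nat_lit 5) (nat_lit 130) (nat_lit 5) (nat_lit 131) (nat_lit 5) (nat_lit 508) (nat_lit 424) (nat_lit 208)) (XT.lf (nat_lit 0) (nat_lit 17540645683) (nat_lit 380) (nat_lit 5016366361) (nat_lit 456) (nat_lit 4020904990) (nat_lit 125)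 (nat_lit 5) (nat_lit 130) (nat_lit 5) (nat_lit 131) (nat_lit 5) (nat_lit 509) (nat_lit 424) (nat_lit 207))) (XT.nd (nat_lit 78) (nat_lit 0) (nat_lit 0) (XT.lf (nat_lit 0) (nat_lit 501773354) (nat_lit 380) (nat_lit 23134759459) (nat_lit 76) (nat_lit 3299358814) (nat_lit 120) (nat_lit 5) (nat_lit 125) (nat_lit 5) (nat_lit 121) (nat_lit 5) (nat_lit 510) (nat_lit 424) (nat_lit 206)) (XT.lf (nat_lit 0) (nat_lit 5150844566) (nat_lit 380) (nat_lit 10347962439) (nat_lit 76) (nat_lit 11799893656) (nat_lit 120) (nat_lit 5) (nat_lit 125) (nat_lit 5) (nat_lit 121) (nat_lit 5) (nat_lit 511) (nat_lit 424) (nat_lit 205)))))) (XT.nd (nat_lit 546) (nat_lit 304) (nat_lit 0) (XT.nd (nat_lit 234) (nat_lit 456) (nat_lit 0) (XT.nd (nat_lit 78) (nat_lit 304) (nat_lit 0) (XT.lf (nat_lit 0) (nat_lit 2723719183) (nat_lit 380) (nat_lit 7182412654) (nat_lit 456) (nat_lit 17762371401) (nat_lit 115) (nat_lit 5) (nat_lit 120) (nat_lit 5) (nat_lit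 121) (nat_lit 5) (nat_lit 512) (nat_lit 424) (nat_lit 204)) (XT.nd (nat_lit 78) (nat_lit 304) (nat_lit 0) (XT.lf (nat_lit 0) (nat_lit 14830448962) (nat_lit 456) (nat_lit 11862718079) (nat_lit 76) (nat_lit 1351058358) (nat_lit 115) (nat_lit 5) (nat_lit 121) (nat_lit 5) (nat_lit 116) (nat_lit 5) (nat_lit 513) (nat_lit 424) (nat_lit 203)) (XT.lf (nat_lit 0) (nat_lit 1445910010) (nat_lit 304) (nat_lit 18459964000) (nat_lit 380) (nat_lit 8520537536) (nat_lit 111) (nat_lit 5) (nat_lit 115) (nat_lit 5) (nat_lit 116) (nat_lit 5) (nat_lit 514) (nat_lit 424) (nat_lit 202)))) (XT.nd (nat_lit 156) (nat_lit 380) (nat_lit 0) (XT.nd (nat_lit 78) (nat_lit 76) (nat_lit 0) (XT.lf (nat_lit 0) (nat_lit 15175078610) (nat_lit 304) (nat_lit 9983045325) (nat_lit 380) (nat_lit 3656613092) (nat_lit 111) (nat_lit 5) (nat_lit 115) (nat_lit 5) (nat_lit 116) (nat_lit 5) (nat_lit 515) (nat_lit 424) (nat_lit 201)) (XT.lf (nat_lit 0) (nat_lit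 1283245575) (nat_lit 380) (nat_lit 46834985) (nat_lit 76) (nat_lit 27880665598) (nat_lit 110) (nat_lit 5) (nat_lit 115) (nat_lit 5) (nat_lit 111) (nat_lit 5) (nat_lit 516) (nat_lit 424) (nat_lit 200))) (XT.nd (nat_lit 78) (nat_lit 0) (nat_lit 0) (XT.lf (nat_lit 0) (nat_lit 6408956466) (nat_lit 456) (nat_lit 15691263420) (nat_lit 76) (nat_lit 7511253666) (nat_lit 105) (nat_lit 5) (nat_lit 111) (nat_lit 5) (nat_lit 106) (nat_lit 5) (nat_lit 517) (nat_lit 424) (nat_lit 199)) (XT.lf (nat_lit 0) (nat_lit 11642182685) (nat_lit 456) (nat_lit 1868059574) (nat_lit 76) (nat_lit 16509875000) (nat_lit 105) (nat_lit 5) (nat_lit 111) (nat_lit 5) (nat_lit 106) (nat_lit 5) (nat_lit 518) (nat_lit 424) (nat_lit 198))))) (XT.nd (nat_lit 52260) (nat_lit 0) (nat_lit 23104) (XT.nd (nat_lit 52104) (nat_lit 0) (nat_lit 24548) (XT.nd (nat_lit 52026) (nat_lit 0) (nat_lit 24548) (XT.lf (nat_lit 0) (nat_lit 12387930423) (nat_lit 304) (nat_lit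 4668530785) (nat_lit 380) (nat_lit 13378946631) (nat_lit 101) (nat_lit 5) (nat_lit 105) (nat_lit 5) (nat_lit 106) (nat_lit 5) (nat_lit 519) (nat_lit 424) (nat_lit 197)) (XT.lf (nat_lit 0) (nat_lit 3492140051) (nat_lit 1596) (nat_lit 855689030) (nat_lit 1596) (nat_lit 855689030) (nat_lit 424) (nat_lit 3) (nat_lit 445) (nat_lit 3) (nat_lit 445) (nat_lit 5) (nat_lit 425) (nat_lit 425) (nat_lit 290))) (XT.nd (nat_lit 78) (nat_lit 0) (nat_lit 0) (XT.lf (nat_lit 76) (nat_lit 3077265966) (nat_lit 0) (nat_lit 4612279958) (nat_lit 1596) (nat_lit 2808338136) (nat_lit 425) (nat_lit 5) (nat_lit 424) (nat_lit 3) (nat_lit 445) (nat_lit 5) (nat_lit 426) (nat_lit 425) (nat_lit 289)) (XT.lf (nat_lit 76) (nat_lit 7976531725) (nat_lit 0) (nat_lit 427672075) (nat_lit 1596) (nat_lit 2186452805) (nat_lit 425) (nat_lit 5) (nat_lit 424) (nat_lit 3) (nat_lit 445) (nat_lit 5) (nat_lit 427) (nat_lit 425) (nat_lit 288)))) (XT.nd (nat_lit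 156) (nat_lit 1520) (nat_lit 0) (XT.nd (nat_lit 78) (nat_lit 0) (nat_lit 0) (XT.lf (nat_lit 76) (nat_lit 2284963610) (nat_lit 0) (nat_lit 6872132673) (nat_lit 1596) (nat_lit 1527722710) (nat_lit 426) (nat_lit 5) (nat_lit 425) (nat_lit 5) (nat_lit 446) (nat_lit 5) (nat_lit 428) (nat_lit 425) (nat_lit 287)) (XT.lf (nat_lit 76) (nat_lit 7306089085) (nat_lit 0) (nat_lit 2623738498) (nat_lit 1596) (nat_lit 850954386) (nat_lit 426) (nat_lit 5) (nat_lit 425) (nat_lit 5) (nat_lit 446) (nat_lit 5) (nat_lit 429) (nat_lit 425) (nat_lit 286))) (XT.nd (nat_lit 78) (nat_lit 1596) (nat_lit 0) (XT.lf (nat_lit 76) (nat_lit 1549488440) (nat_lit 0) (nat_lit 9174460928) (nat_lit 1596) (nat_lit 154608825) (nat_lit 427) (nat_lit 5) (nat_lit 426) (nat_lit 5) (nat_lit 447) (nat_lit 5) (nat_lit 430) (nat_lit 425) (nat_lit 285)) (XT.lf (nat_lit 0) (nat_lit 574129596) (nat_lit 1596) (nat_lit 4286569496) (nat_lit 1672) (nat_lit 6117015837)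 (nat_lit 405) (nat_lit 5) (nat_lit 426) (nat_lit 5) (nat_lit 427) (nat_lit 5) (nat_lit 431) (nat_lit 425) (nat_lit 284))))))))
noncomputable def xc200 : XT := (XT.nd (nat_lit 2184) (nat_lit 9500) (nat_lit 0) (XT.nd (nat_lit 1092) (nat_lit 5320) (nat_lit 0) (XT.nd (nat_lit 546) (nat_lit 1292) (nat_lit 0) (XT.nd (nat_lit 234) (nat_lit 0) (nat_lit 152) (XT.nd (nat_lit 78) (nat_lit 0) (nat_lit 76) (XT.lf (nat_lit 76) (nat_lit 858325971) (nat_lit 0) (nat_lit 447823705) (nat_lit 1672) (nat_lit 9772881115) (nat_lit 406) (nat_lit 5) (nat_lit 405) (nat_lit 5) (nat_lit 427) (nat_lit 5) (nat_lit 432) (nat_lit 425) (nat_lit 283)) (XT.nd (nat_lit 78) (nat_lit 0) (nat_lit 0) (XT.lf (nat_lit 0) (nat_lit 2093557543) (nat_lit 1596) (nat_lit 5053052378) (nat_lit 1672) (nat_lit 4034959841) (nat_lit 406) (nat_lit 5) (nat_lit 427) (nat_lit 5) (nat_lit 428) (nat_lit 5) (nat_lit 433) (nat_lit 425) (nat_lit 282)) (XT.lf (nat_lit 76)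 (nat_lit 208931125) (nat_lit 0) (nat_lit 2677864463) (nat_lit 1672) (nat_lit 8399573792) (nat_lit 407) (nat_lit 5) (nat_lit 406) (nat_lit 5) (nat_lit 428) (nat_lit 5) (nat_lit 434) (nat_lit 425) (nat_lit 281)))) (XT.nd (nat_lit 156) (nat_lit 0) (nat_lit 0) (XT.nd (nat_lit 78) (nat_lit 0) (nat_lit 0) (XT.lf (nat_lit 0) (nat_lit 3728256005) (nat_lit 1596) (nat_lit 5769433973) (nat_lit 1672) (nat_lit 1894939143) (nat_lit 407) (nat_lit 5) (nat_lit 428) (nat_lit 5) (nat_lit 429) (nat_lit 5) (nat_lit 435) (nat_lit 425) (nat_lit 280)) (XT.lf (nat_lit 0) (nat_lit 4590570559) (nat_lit 1596) (nat_lit 381890551) (nat_lit 1672) (nat_lit 6528483510) (nat_lit 407) (nat_lit 5) (nat_lit 428) (nat_lit 5) (nat_lit 429) (nat_lit 5) (nat_lit 436) (nat_lit 425) (nat_lit 279))) (XT.nd (nat_lit 78) (nat_lit 0) (nat_lit 76) (XT.lf (nat_lit 76) (nat_lit 5172529904) (nat_lit 0) (nat_lit 317744530) (nat_lit 1672) (nat_lit 6120759979) (nat_lit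 408) (nat_lit 5) (nat_lit 407) (nat_lit 5) (nat_lit 429) (nat_lit 5) (nat_lit 437) (nat_lit 425) (nat_lit 278)) (XT.lf (nat_lit 0) (nat_lit 6426111577) (nat_lit 1596) (nat_lit 917799446) (nat_lit 1672) (nat_lit 4379062826) (nat_lit 408) (nat_lit 5) (nat_lit 429) (nat_lit 5) (nat_lit 430) (nat_lit 5) (nat_lit 438) (nat_lit 425) (nat_lit 277))))) (XT.nd (nat_lit 234) (nat_lit 1520) (nat_lit 0) (XT.nd (nat_lit 78) (nat_lit 0) (nat_lit 76) (XT.lf (nat_lit 76) (nat_lit 4764923777) (nat_lit 0) (nat_lit 2635838491) (nat_lit 1672) (nat_lit 4435998294) (nat_lit 409) (nat_lit 5) (nat_lit 408) (nat_lit 5) (nat_lit 430) (nat_lit 5) (nat_lit 439) (nat_lit 425) (nat_lit 276)) (XT.nd (nat_lit 78) (nat_lit 0) (nat_lit 0) (XT.lf (nat_lit 0) (nat_lit 8402450108) (nat_lit 1596) (nat_lit 1402081798) (nat_lit 1672) (nat_lit 2148150441) (nat_lit 409) (nat_lit 5) (nat_lit 430) (nat_lit 5) (nat_lit 431) (nat_lit 5) (nat_lit 440) (nat_lit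 425) (nat_lit 275)) (XT.lf (nat_lit 76) (nat_lit 4412643864) (nat_lit 0) (nat_lit 5045161722) (nat_lit 1672) (nat_lit 2612454322) (nat_lit 410) (nat_lit 5) (nat_lit 409) (nat_lit 5) (nat_lit 431) (nat_lit 5) (nat_lit 441) (nat_lit 425) (nat_lit 274)))) (XT.nd (nat_lit 156) (nat_lit 1596) (nat_lit 0) (XT.nd (nat_lit 78) (nat_lit 0) (nat_lit 76) (XT.lf (nat_lit 76) (nat_lit 10353886636) (nat_lit 0) (nat_lit 177505952) (nat_lit 1672) (nat_lit 1658863766) (nat_lit 410) (nat_lit 5) (nat_lit 409) (nat_lit 5) (nat_lit 431) (nat_lit 5) (nat_lit 442) (nat_lit 425) (nat_lit 273)) (XT.lf (nat_lit 76) (nat_lit 4115307322) (nat_lit 0) (nat_lit 7556925823) (nat_lit 1672) (nat_lit 639513579) (nat_lit 411) (nat_lit 5) (nat_lit 410) (nat_lit 5) (nat_lit 432) (nat_lit 5) (nat_lit 443) (nat_lit 425) (nat_lit 272))) (XT.nd (nat_lit 78) (nat_lit 0) (nat_lit 76) (XT.lf (nat_lit 0) (nat_lit 396624286) (nat_lit 1672) (nat_lit 2237358648)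 (nat_lit 1748) (nat_lit 9801608258) (nat_lit 388) (nat_lit 5) (nat_lit 410) (nat_lit 5) (nat_lit 411) (nat_lit 5) (nat_lit 444) (nat_lit 425) (nat_lit 271)) (XT.lf (nat_lit 0) (nat_lit 1474130751) (nat_lit 1672) (nat_lit 8698559337) (nat_lit 1748) (nat_lit 2388562813) (nat_lit 389) (nat_lit 5) (nat_lit 411) (nat_lit 5) (nat_lit 412) (nat_lit 5) (nat_lit 445) (nat_lit 425) (nat_lit 270)))))) (XT.nd (nat_lit 546) (nat_lit 3876) (nat_lit 0) (XT.nd (nat_lit 234) (nat_lit 1520) (nat_lit 0) (XT.nd (nat_lit 78) (nat_lit 0) (nat_lit 0) (XT.lf (nat_lit 0) (nat_lit 2594238116) (nat_lit 1672) (nat_lit 2600611707) (nat_lit 1748) (nat_lit 7494165902) (nat_lit 389) (nat_lit 5) (nat_lit 411) (nat_lit 5) (nat_lit 412) (nat_lit 5) (nat_lit 446) (nat_lit 425) (nat_lit 269)) (XT.nd (nat_lit 78) (nat_lit 0) (nat_lit 76) (XT.lf (nat_lit 76) (nat_lit 3658436793) (nat_lit 0) (nat_lit 90783334) (nat_lit 1748) (nat_lit 9069872952) (nat_lit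 390) (nat_lit 5) (nat_lit 389) (nat_lit 5) (nat_lit 412) (nat_lit 5) (nat_lit 447) (nat_lit 425) (nat_lit 268)) (XT.lf (nat_lit 0) (nat_lit 4966980003) (nat_lit 1672) (nat_lit 2915859648) (nat_lit 1748) (nat_lit 5068147315) (nat_lit 390) (nat_lit 5) (nat_lit 412) (nat_lit 5) (nat_lit 413) (nat_lit 5) (nat_lit 448) (nat_lit 425) (nat_lit 267)))) (XT.nd (nat_lit 156) (nat_lit 1596) (nat_lit 0) (XT.nd (nat_lit 78) (nat_lit 0) (nat_lit 76) (XT.lf (nat_lit 76) (nat_lit 3490155703) (nat_lit 0) (nat_lit 2731317500) (nat_lit 1748) (nat_lit 6863806348) (nat_lit 391) (nat_lit 5) (nat_lit 390) (nat_lit 5) (nat_lit 413) (nat_lit 5) (nat_lit 449) (nat_lit 425) (nat_lit 266)) (XT.lf (nat_lit 0) (nat_lit 7526420712) (nat_lit 1672) (nat_lit 3183589271) (nat_lit 76) (nat_lit 2511748935) (nat_lit 391) (nat_lit 5) (nat_lit 413) (nat_lit 5) (nat_lit 392) (nat_lit 5) (nat_lit 450) (nat_lit 425) (nat_lit 265))) (XT.nd (nat_lit 78)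 (nat_lit 0) (nat_lit 0) (XT.lf (nat_lit 0) (nat_lit 3373481491) (nat_lit 1672) (nat_lit 5513472238) (nat_lit 1748) (nat_lit 4473432470) (nat_lit 369) (nat_lit 5) (nat_lit 391) (nat_lit 5) (nat_lit 392) (nat_lit 5) (nat_lit 451) (nat_lit 425) (nat_lit 264)) (XT.lf (nat_lit 0) (nat_lit 10096056158) (nat_lit 1672) (nat_lit 189649180) (nat_lit 1748) (nat_lit 3215868429) (nat_lit 369) (nat_lit 5) (nat_lit 391) (nat_lit 5) (nat_lit 392) (nat_lit 5) (nat_lit 452) (nat_lit 425) (nat_lit 263))))) (XT.nd (nat_lit 234) (nat_lit 1672) (nat_lit 0) (XT.nd (nat_lit 78) (nat_lit 912) (nat_lit 0) (XT.lf (nat_lit 0) (nat_lit 3308016419) (nat_lit 1292) (nat_lit 8449776552) (nat_lit 1368) (nat_lit 1886892641) (nat_lit 352) (nat_lit 5) (nat_lit 369) (nat_lit 5) (nat_lit 370) (nat_lit 5) (nat_lit 453) (nat_lit 425) (nat_lit 262)) (XT.nd (nat_lit 78) (nat_lit 912) (nat_lit 0) (XT.lf (nat_lit 0) (nat_lit 10191929070) (nat_lit 1292)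 (nat_lit 3081493027) (nat_lit 1368) (nat_lit 516963195) (nat_lit 352) (nat_lit 5) (nat_lit 369) (nat_lit 5) (nat_lit 370) (nat_lit 5) (nat_lit 454) (nat_lit 425) (nat_lit 261)) (XT.lf (nat_lit 0) (nat_lit 896121153) (nat_lit 912) (nat_lit 10651011129) (nat_lit 76) (nat_lit 2391213613) (nat_lit 340) (nat_lit 5) (nat_lit 352) (nat_lit 5) (nat_lit 341) (nat_lit 5) (nat_lit 455) (nat_lit 425) (nat_lit 260)))) (XT.nd (nat_lit 156) (nat_lit 836) (nat_lit 0) (XT.nd (nat_lit 78) (nat_lit 836) (nat_lit 0) (XT.lf (nat_lit 0) (nat_lit 2365533310) (nat_lit 912) (nat_lit 3762053582) (nat_lit 76) (nat_lit 7960917867) (nat_lit 340) (nat_lit 5) (nat_lit 352) (nat_lit 5) (nat_lit 341) (nat_lit 5) (nat_lit 456) (nat_lit 425) (nat_lit 259)) (XT.lf (nat_lit 0) (nat_lit 3299227921) (nat_lit 836) (nat_lit 576984502) (nat_lit 912) (nat_lit 10365223817) (nat_lit 329) (nat_lit 5) (nat_lit 340) (nat_lit 5) (nat_lit 341) (nat_lit 5) (nat_lit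 457) (nat_lit 425) (nat_lit 258))) (XT.nd (nat_lit 78) (nat_lit 836) (nat_lit 0) (XT.lf (nat_lit 0) (nat_lit 5466124043) (nat_lit 912) (nat_lit 3886238430) (nat_lit 76) (nat_lit 5044090376) (nat_lit 329) (nat_lit 5) (nat_lit 341) (nat_lit 5) (nat_lit 330) (nat_lit 5) (nat_lit 458) (nat_lit 425) (nat_lit 257)) (XT.lf (nat_lit 0) (nat_lit 3342169102) (nat_lit 836) (nat_lit 3761963487) (nat_lit 912) (nat_lit 7450117971) (nat_lit 318) (nat_lit 5) (nat_lit 329) (nat_lit 5) (nat_lit 330) (nat_lit 5) (nat_lit 459) (nat_lit 425) (nat_lit 256))))))) (XT.nd (nat_lit 1092) (nat_lit 4180) (nat_lit 0) (XT.nd (nat_lit 546) (nat_lit 2888) (nat_lit 0) (XT.nd (nat_lit 234) (nat_lit 1596) (nat_lit 0) (XT.nd (nat_lit 78) (nat_lit 836) (nat_lit 0) (XT.lf (nat_lit 0) (nat_lit 8804655832) (nat_lit 912) (nat_lit 3968457095) (nat_lit 76) (nat_lit 1941502816) (nat_lit 318) (nat_lit 5) (nat_lit 330) (nat_lit 5) (nat_lit 319) (nat_lit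 5) (nat_lit 460) (nat_lit 425) (nat_lit 255)) (XT.nd (nat_lit 78) (nat_lit 0) (nat_lit 0) (XT.lf (nat_lit 0) (nat_lit 3431475445) (nat_lit 836) (nat_lit 7145991258) (nat_lit 912) (nat_lit 4299962467) (nat_lit 307) (nat_lit 5) (nat_lit 318) (nat_lit 5) (nat_lit 319) (nat_lit 5) (nat_lit 461) (nat_lit 425) (nat_lit 254)) (XT.lf (nat_lit 0) (nat_lit 11024601997) (nat_lit 836) (nat_lit 1378965310) (nat_lit 912) (nat_lit 2639581238) (nat_lit 307) (nat_lit 5) (nat_lit 318) (nat_lit 5) (nat_lit 319) (nat_lit 5) (nat_lit 462) (nat_lit 425) (nat_lit 253)))) (XT.nd (nat_lit 156) (nat_lit 760) (nat_lit 0) (XT.nd (nat_lit 78) (nat_lit 76) (nat_lit 0) (XT.lf (nat_lit 0) (nat_lit 3566333293) (nat_lit 760) (nat_lit 10743627535) (nat_lit 836) (nat_lit 901352293) (nat_lit 297) (nat_lit 5) (nat_lit 307) (nat_lit 5) (nat_lit 308) (nat_lit 5) (nat_lit 463) (nat_lit 425) (nat_lit 252)) (XT.lf (nat_lit 0) (nat_lit 887914872) (nat_lit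 836) (nat_lit 4048561323) (nat_lit 76) (nat_lit 10445703486) (nat_lit 296) (nat_lit 5) (nat_lit 307) (nat_lit 5) (nat_lit 297) (nat_lit 5) (nat_lit 464) (nat_lit 425) (nat_lit 251))) (XT.nd (nat_lit 78) (nat_lit 0) (nat_lit 0) (XT.lf (nat_lit 0) (nat_lit 2723357656) (nat_lit 836) (nat_lit 11828350273) (nat_lit 76) (nat_lit 1004193167) (nat_lit 286) (nat_lit 5) (nat_lit 297) (nat_lit 5) (nat_lit 287) (nat_lit 5) (nat_lit 465) (nat_lit 425) (nat_lit 250)) (XT.lf (nat_lit 0) (nat_lit 4647254120) (nat_lit 836) (nat_lit 4059978291) (nat_lit 76) (nat_lit 7024835387) (nat_lit 286) (nat_lit 5) (nat_lit 297) (nat_lit 5) (nat_lit 287) (nat_lit 5) (nat_lit 466) (nat_lit 425) (nat_lit 249))))) (XT.nd (nat_lit 234) (nat_lit 1444) (nat_lit 0) (XT.nd (nat_lit 78) (nat_lit 760) (nat_lit 0) (XT.lf (nat_lit 0) (nat_lit 3906547751) (nat_lit 684) (nat_lit 2720312338) (nat_lit 760) (nat_lit 9284558755) (nat_lit 277) (nat_lit 5) (nat_lit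 286) (nat_lit 5) (nat_lit 287) (nat_lit 5) (nat_lit 467) (nat_lit 425) (nat_lit 248)) (XT.nd (nat_lit 78) (nat_lit 760) (nat_lit 0) (XT.lf (nat_lit 0) (nat_lit 8687439872) (nat_lit 760) (nat_lit 4037097041) (nat_lit 76) (nat_lit 3368997896) (nat_lit 277) (nat_lit 5) (nat_lit 287) (nat_lit 5) (nat_lit 278) (nat_lit 5) (nat_lit 468) (nat_lit 425) (nat_lit 247)) (XT.lf (nat_lit 0) (nat_lit 4117631860) (nat_lit 760) (nat_lit 6708476815) (nat_lit 836) (nat_lit 5452452291) (nat_lit 267) (nat_lit 5) (nat_lit 277) (nat_lit 5) (nat_lit 278) (nat_lit 5) (nat_lit 469) (nat_lit 425) (nat_lit 246)))) (XT.nd (nat_lit 156) (nat_lit 760) (nat_lit 0) (XT.nd (nat_lit 78) (nat_lit 684) (nat_lit 0) (XT.lf (nat_lit 0) (nat_lit 12481845640) (nat_lit 760) (nat_lit 545024226) (nat_lit 836) (nat_lit 3440036716) (nat_lit 267) (nat_lit 5) (nat_lit 277) (nat_lit 5) (nat_lit 278) (nat_lit 5) (nat_lit 470) (nat_lit 425) (nat_lit 245)) (XT.lf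 (nat_lit 0) (nat_lit 4365982077) (nat_lit 684) (nat_lit 10963666749) (nat_lit 760) (nat_lit 1328215447) (nat_lit 258) (nat_lit 5) (nat_lit 267) (nat_lit 5) (nat_lit 268) (nat_lit 5) (nat_lit 471) (nat_lit 425) (nat_lit 244))) (XT.nd (nat_lit 78) (nat_lit 684) (nat_lit 0) (XT.lf (nat_lit 0) (nat_lit 837957238) (nat_lit 760) (nat_lit 3931565466) (nat_lit 76) (nat_lit 12082557263) (nat_lit 257) (nat_lit 5) (nat_lit 267) (nat_lit 5) (nat_lit 258) (nat_lit 5) (nat_lit 472) (nat_lit 425) (nat_lit 243)) (XT.lf (nat_lit 0) (nat_lit 3062682843) (nat_lit 760) (nat_lit 12420059484) (nat_lit 76) (nat_lit 1566606684) (nat_lit 248) (nat_lit 5) (nat_lit 258) (nat_lit 5) (nat_lit 249) (nat_lit 5) (nat_lit 473) (nat_lit 425) (nat_lit 242)))))) (XT.nd (nat_lit 546) (nat_lit 2280) (nat_lit 0) (XT.nd (nat_lit 234) (nat_lit 1292) (nat_lit 0) (XT.nd (nat_lit 78) (nat_lit 608) (nat_lit 0) (XT.lf (nat_lit 0) (nat_lit 5382700643) (nat_lit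 760) (nat_lit 3875445058) (nat_lit 76) (nat_lit 7991406596) (nat_lit 248) (nat_lit 5) (nat_lit 258) (nat_lit 5) (nat_lit 249) (nat_lit 5) (nat_lit 474) (nat_lit 425) (nat_lit 241)) (XT.nd (nat_lit 78) (nat_lit 0) (nat_lit 0) (XT.lf (nat_lit 0) (nat_lit 4896134813) (nat_lit 608) (nat_lit 2877570828) (nat_lit 684) (nat_lit 9679566992) (nat_lit 240) (nat_lit 5) (nat_lit 248) (nat_lit 5) (nat_lit 249) (nat_lit 5) (nat_lit 475) (nat_lit 425) (nat_lit 240)) (XT.lf (nat_lit 0) (nat_lit 10255161888) (nat_lit 684) (nat_lit 3796840431) (nat_lit 76) (nat_lit 3608217063) (nat_lit 240) (nat_lit 5) (nat_lit 249) (nat_lit 5) (nat_lit 241) (nat_lit 5) (nat_lit 476) (nat_lit 425) (nat_lit 239)))) (XT.nd (nat_lit 156) (nat_lit 684) (nat_lit 0) (XT.nd (nat_lit 78) (nat_lit 0) (nat_lit 0) (XT.lf (nat_lit 0) (nat_lit 5179469596) (nat_lit 608) (nat_lit 7652482856) (nat_lit 684) (nat_lit 5038443047) (nat_lit 232) (nat_lit 5) (nat_lit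 240) (nat_lit 5) (nat_lit 241) (nat_lit 5) (nat_lit 477) (nat_lit 425) (nat_lit 238)) (XT.lf (nat_lit 0) (nat_lit 14378759838) (nat_lit 608) (nat_lit 1100102507) (nat_lit 684) (nat_lit 2605545571) (nat_lit 232) (nat_lit 5) (nat_lit 240) (nat_lit 5) (nat_lit 241) (nat_lit 5) (nat_lit 478) (nat_lit 425) (nat_lit 237))) (XT.nd (nat_lit 78) (nat_lit 76) (nat_lit 0) (XT.lf (nat_lit 0) (nat_lit 5487059944) (nat_lit 608) (nat_lit 12756759582) (nat_lit 684) (nat_lit 57583235) (nat_lit 224) (nat_lit 5) (nat_lit 232) (nat_lit 5) (nat_lit 233) (nat_lit 5) (nat_lit 479) (nat_lit 425) (nat_lit 236)) (XT.lf (nat_lit 0) (nat_lit 2533590688) (nat_lit 684) (nat_lit 3640366804) (nat_lit 76) (nat_lit 12347942552) (nat_lit 223) (nat_lit 5) (nat_lit 232) (nat_lit 5) (nat_lit 224) (nat_lit 5) (nat_lit 480) (nat_lit 425) (nat_lit 235))))) (XT.nd (nat_lit 234) (nat_lit 1140) (nat_lit 0) (XT.nd (nat_lit 78) (nat_lit 532) (nat_lit 0)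 (XT.lf (nat_lit 0) (nat_lit 5210525719) (nat_lit 684) (nat_lit 12965234320) (nat_lit 76) (nat_lit 570349558) (nat_lit 215) (nat_lit 5) (nat_lit 224) (nat_lit 5) (nat_lit 216) (nat_lit 5) (nat_lit 481) (nat_lit 425) (nat_lit 234)) (XT.nd (nat_lit 78) (nat_lit 532) (nat_lit 0) (XT.lf (nat_lit 0) (nat_lit 7999944932) (nat_lit 684) (nat_lit 3583421822) (nat_lit 76) (nat_lit 7390261707) (nat_lit 215) (nat_lit 5) (nat_lit 224) (nat_lit 5) (nat_lit 216) (nat_lit 5) (nat_lit 482) (nat_lit 425) (nat_lit 233)) (XT.lf (nat_lit 0) (nat_lit 6057683881) (nat_lit 532) (nat_lit 4820395021) (nat_lit 608) (nat_lit 8326964222) (nat_lit 208) (nat_lit 5) (nat_lit 215) (nat_lit 5) (nat_lit 216) (nat_lit 5) (nat_lit 483) (nat_lit 425) (nat_lit 232)))) (XT.nd (nat_lit 156) (nat_lit 608) (nat_lit 0) (XT.nd (nat_lit 78) (nat_lit 532) (nat_lit 0) (XT.lf (nat_lit 0) (nat_lit 13845134174) (nat_lit 608) (nat_lit 3521929856) (nat_lit 76) (nat_lit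 2073398751) (nat_lit 208) (nat_lit 5) (nat_lit 216) (nat_lit 5) (nat_lit 209) (nat_lit 5) (nat_lit 484) (nat_lit 425) (nat_lit 231)) (XT.lf (nat_lit 0) (nat_lit 6339522385) (nat_lit 532) (nat_lit 10598878003) (nat_lit 608) (nat_lit 2740856843) (nat_lit 201) (nat_lit 5) (nat_lit 208) (nat_lit 5) (nat_lit 209) (nat_lit 5) (nat_lit 485) (nat_lit 425) (nat_lit 230))) (XT.nd (nat_lit 78) (nat_lit 532) (nat_lit 0) (XT.lf (nat_lit 0) (nat_lit 186070150) (nat_lit 608) (nat_lit 3485417093) (nat_lit 76) (nat_lit 16250969717) (nat_lit 200) (nat_lit 5) (nat_lit 208) (nat_lit 5) (nat_lit 201) (nat_lit 5) (nat_lit 486) (nat_lit 425) (nat_lit 229)) (XT.lf (nat_lit 0) (nat_lit 3194267522) (nat_lit 608) (nat_lit 13564694108) (nat_lit 76) (nat_lit 3410011653) (nat_lit 193) (nat_lit 5) (nat_lit 201) (nat_lit 5) (nat_lit 194) (nat_lit 5) (nat_lit 487) (nat_lit 425) (nat_lit 228))))))))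
noncomputable def xc201 : XT := (XT.nd (nat_lit 2184) (nat_lit 456) (nat_lit 0) (XT.nd (nat_lit 1092) (nat_lit 2736) (nat_lit 0) (XT.nd (nat_lit 546) (nat_lit 1900) (nat_lit 0) (XT.nd (nat_lit 234) (nat_lit 1064) (nat_lit 0) (XT.nd (nat_lit 78) (nat_lit 532) (nat_lit 0) (XT.lf (nat_lit 0) (nat_lit 6304482514) (nat_lit 608) (nat_lit 3509059769) (nat_lit 76) (nat_lit 10606044084) (nat_lit 193) (nat_lit 5) (nat_lit 201) (nat_lit 5) (nat_lit 194) (nat_lit 5) (nat_lit 488) (nat_lit 425) (nat_lit 227)) (XT.nd (nat_lit 78) (nat_lit 0) (nat_lit 0) (XT.lf (nat_lit 0) (nat_lit 6829757466) (nat_lit 532) (nat_lit 2685600705) (nat_lit 608) (nat_lit 11159087851) (nat_lit 186) (nat_lit 5) (nat_lit 193) (nat_lit 5) (nat_lit 194) (nat_lit 5) (nat_lit 489) (nat_lit 425) (nat_lit 226)) (XT.lf (nat_lit 0) (nat_lit 12838092611) (nat_lit 608) (nat_lit 3548501883) (nat_lit 76) (nat_lit 4546858924) (nat_lit 186) (nat_lit 5) (nat_lit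 194) (nat_lit 5) (nat_lit 187) (nat_lit 5) (nat_lit 490) (nat_lit 425) (nat_lit 225)))) (XT.nd (nat_lit 156) (nat_lit 608) (nat_lit 0) (XT.nd (nat_lit 78) (nat_lit 0) (nat_lit 0) (XT.lf (nat_lit 0) (nat_lit 7020483199) (nat_lit 456) (nat_lit 9264449408) (nat_lit 532) (nat_lit 4911558643) (nat_lit 180) (nat_lit 5) (nat_lit 186) (nat_lit 5) (nat_lit 187) (nat_lit 5) (nat_lit 491) (nat_lit 425) (nat_lit 224)) (XT.lf (nat_lit 0) (nat_lit 17841582853) (nat_lit 456) (nat_lit 1977286922) (nat_lit 532) (nat_lit 1645560096) (nat_lit 180) (nat_lit 5) (nat_lit 186) (nat_lit 5) (nat_lit 187) (nat_lit 5) (nat_lit 492) (nat_lit 425) (nat_lit 223))) (XT.nd (nat_lit 78) (nat_lit 0) (nat_lit 0) (XT.lf (nat_lit 0) (nat_lit 1740724339) (nat_lit 608) (nat_lit 14554683009) (nat_lit 76) (nat_lit 5440562630) (nat_lit 172) (nat_lit 5) (nat_lit 180) (nat_lit 5) (nat_lit 173) (nat_lit 5) (nat_lit 493) (nat_lit 425) (nat_lit 222)) (XT.lf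 (nat_lit 0) (nat_lit 5204757992) (nat_lit 608) (nat_lit 3793348767) (nat_lit 76) (nat_lit 13013978488) (nat_lit 172) (nat_lit 5) (nat_lit 180) (nat_lit 5) (nat_lit 173) (nat_lit 5) (nat_lit 494) (nat_lit 425) (nat_lit 221))))) (XT.nd (nat_lit 234) (nat_lit 988) (nat_lit 0) (XT.nd (nat_lit 78) (nat_lit 456) (nat_lit 0) (XT.lf (nat_lit 0) (nat_lit 7271368625) (nat_lit 456) (nat_lit 1508492822) (nat_lit 532) (nat_lit 13513028585) (nat_lit 166) (nat_lit 5) (nat_lit 172) (nat_lit 5) (nat_lit 173) (nat_lit 5) (nat_lit 495) (nat_lit 425) (nat_lit 220)) (XT.nd (nat_lit 78) (nat_lit 456) (nat_lit 0) (XT.lf (nat_lit 0) (nat_lit 12486523578) (nat_lit 532) (nat_lit 4017236031) (nat_lit 76) (nat_lit 6074353108) (nat_lit 166) (nat_lit 5) (nat_lit 173) (nat_lit 5) (nat_lit 167) (nat_lit 5) (nat_lit 496) (nat_lit 425) (nat_lit 219)) (XT.lf (nat_lit 0) (nat_lit 7285579170) (nat_lit 456) (nat_lit 9033764673) (nat_lit 532) (nat_lit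 6548658391) (nat_lit 160) (nat_lit 5) (nat_lit 166) (nat_lit 5) (nat_lit 167) (nat_lit 5) (nat_lit 497) (nat_lit 425) (nat_lit 218)))) (XT.nd (nat_lit 156) (nat_lit 456) (nat_lit 0) (XT.nd (nat_lit 78) (nat_lit 532) (nat_lit 0) (XT.lf (nat_lit 0) (nat_lit 18861834647) (nat_lit 456) (nat_lit 1388733081) (nat_lit 532) (nat_lit 2912689690) (nat_lit 160) (nat_lit 5) (nat_lit 166) (nat_lit 5) (nat_lit 167) (nat_lit 5) (nat_lit 498) (nat_lit 425) (nat_lit 217)) (XT.lf (nat_lit 0) (nat_lit 869684644) (nat_lit 532) (nat_lit 16216804085) (nat_lit 76) (nat_lit 6376145807) (nat_lit 153) (nat_lit 5) (nat_lit 160) (nat_lit 5) (nat_lit 154) (nat_lit 5) (nat_lit 499) (nat_lit 425) (nat_lit 216))) (XT.nd (nat_lit 78) (nat_lit 456) (nat_lit 0) (XT.lf (nat_lit 0) (nat_lit 4721893523) (nat_lit 532) (nat_lit 4720813049) (nat_lit 76) (nat_lit 14324246465) (nat_lit 153) (nat_lit 5) (nat_lit 160) (nat_lit 5) (nat_lit 154) (nat_lit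 5) (nat_lit 500) (nat_lit 425) (nat_lit 215)) (XT.lf (nat_lit 0) (nat_lit 7091188841) (nat_lit 456) (nat_lit 1600997105) (nat_lit 532) (nat_lit 15384353782) (nat_lit 147) (nat_lit 5) (nat_lit 153) (nat_lit 5) (nat_lit 154) (nat_lit 5) (nat_lit 501) (nat_lit 425) (nat_lit 214)))))) (XT.nd (nat_lit 546) (nat_lit 1444) (nat_lit 0) (XT.nd (nat_lit 234) (nat_lit 912) (nat_lit 0) (XT.nd (nat_lit 78) (nat_lit 380) (nat_lit 0) (XT.lf (nat_lit 0) (nat_lit 12810349971) (nat_lit 532) (nat_lit 5236963621) (nat_lit 76) (nat_lit 6343637800) (nat_lit 147) (nat_lit 5) (nat_lit 154) (nat_lit 5) (nat_lit 148) (nat_lit 5) (nat_lit 502) (nat_lit 425) (nat_lit 213)) (XT.nd (nat_lit 78) (nat_lit 0) (nat_lit 0) (XT.lf (nat_lit 0) (nat_lit 6818394829) (nat_lit 380) (nat_lit 10242491581) (nat_lit 456) (nat_lit 7649767203) (nat_lit 142) (nat_lit 5) (nat_lit 147) (nat_lit 5) (nat_lit 148) (nat_lit 5) (nat_lit 503) (nat_lit 425) (nat_lit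 212)) (XT.lf (nat_lit 0) (nat_lit 19179075321) (nat_lit 380) (nat_lit 2247689377) (nat_lit 456) (nat_lit 3609381013) (nat_lit 142) (nat_lit 5) (nat_lit 147) (nat_lit 5) (nat_lit 148) (nat_lit 5) (nat_lit 504) (nat_lit 425) (nat_lit 211)))) (XT.nd (nat_lit 156) (nat_lit 380) (nat_lit 0) (XT.nd (nat_lit 78) (nat_lit 0) (nat_lit 0) (XT.lf (nat_lit 0) (nat_lit 581153315) (nat_lit 532) (nat_lit 18912014073) (nat_lit 76) (nat_lit 5873395104) (nat_lit 135) (nat_lit 5) (nat_lit 142) (nat_lit 5) (nat_lit 136) (nat_lit 5) (nat_lit 505) (nat_lit 425) (nat_lit 210)) (XT.lf (nat_lit 0) (nat_lit 4856949808) (nat_lit 532) (nat_lit 6656802343) (nat_lit 76) (nat_lit 14188364990) (nat_lit 135) (nat_lit 5) (nat_lit 142) (nat_lit 5) (nat_lit 136) (nat_lit 5) (nat_lit 506) (nat_lit 425) (nat_lit 209))) (XT.nd (nat_lit 78) (nat_lit 0) (nat_lit 0) (XT.lf (nat_lit 0) (nat_lit 5914469509) (nat_lit 380) (nat_lit 3337572043) (nat_lit 456)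 (nat_lit 16791668014) (nat_lit 130) (nat_lit 5) (nat_lit 135) (nat_lit 5) (nat_lit 136) (nat_lit 5) (nat_lit 507) (nat_lit 425) (nat_lit 208)) (XT.lf (nat_lit 0) (nat_lit 13807892424) (nat_lit 456) (nat_lit 7603262572) (nat_lit 76) (nat_lit 4979523920) (nat_lit 130) (nat_lit 5) (nat_lit 136) (nat_lit 5) (nat_lit 131) (nat_lit 5) (nat_lit 508) (nat_lit 425) (nat_lit 207))))) (XT.nd (nat_lit 234) (nat_lit 684) (nat_lit 0) (XT.nd (nat_lit 78) (nat_lit 380) (nat_lit 0) (XT.lf (nat_lit 0) (nat_lit 5212980250) (nat_lit 380) (nat_lit 13293332900) (nat_lit 456) (nat_lit 8237247628) (nat_lit 125) (nat_lit 5) (nat_lit 130) (nat_lit 5) (nat_lit 131) (nat_lit 5) (nat_lit 509) (nat_lit 425) (nat_lit 206)) (XT.nd (nat_lit 78) (nat_lit 380) (nat_lit 0) (XT.lf (nat_lit 0) (nat_lit 18382134793) (nat_lit 380) (nat_lit 4963139088) (nat_lit 456) (nat_lit 3757297104) (nat_lit 125) (nat_lit 5) (nat_lit 130) (nat_lit 5) (nat_lit 131)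 (nat_lit 5) (nat_lit 510) (nat_lit 425) (nat_lit 205)) (XT.lf (nat_lit 0) (nat_lit 848873760) (nat_lit 380) (nat_lit 23099502954) (nat_lit 76) (nat_lit 3519335780) (nat_lit 120) (nat_lit 5) (nat_lit 125) (nat_lit 5) (nat_lit 121) (nat_lit 5) (nat_lit 511) (nat_lit 425) (nat_lit 204)))) (XT.nd (nat_lit 156) (nat_lit 304) (nat_lit 0) (XT.nd (nat_lit 78) (nat_lit 380) (nat_lit 0) (XT.lf (nat_lit 0) (nat_lit 5584317280) (nat_lit 380) (nat_lit 10066733751) (nat_lit 76) (nat_lit 12186861911) (nat_lit 120) (nat_lit 5) (nat_lit 125) (nat_lit 5) (nat_lit 121) (nat_lit 5) (nat_lit 512) (nat_lit 425) (nat_lit 203)) (XT.lf (nat_lit 0) (nat_lit 3263169740) (nat_lit 380) (nat_lit 7168209817) (nat_lit 456) (nat_lit 17783801621) (nat_lit 115) (nat_lit 5) (nat_lit 120) (nat_lit 5) (nat_lit 121) (nat_lit 5) (nat_lit 513) (nat_lit 425) (nat_lit 202))) (XT.nd (nat_lit 78) (nat_lit 304) (nat_lit 0) (XT.lf (nat_lit 0) (nat_lit 15448773586)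 (nat_lit 456) (nat_lit 11618949475) (nat_lit 76) (nat_lit 1530805844) (nat_lit 115) (nat_lit 5) (nat_lit 121) (nat_lit 5) (nat_lit 116) (nat_lit 5) (nat_lit 514) (nat_lit 425) (nat_lit 201)) (XT.lf (nat_lit 0) (nat_lit 1952686551) (nat_lit 304) (nat_lit 18669815007) (nat_lit 380) (nat_lit 8365924204) (nat_lit 111) (nat_lit 5) (nat_lit 115) (nat_lit 5) (nat_lit 116) (nat_lit 5) (nat_lit 515) (nat_lit 425) (nat_lit 200))))))) (XT.nd (nat_lit 53118) (nat_lit 0) (nat_lit 21508) (XT.nd (nat_lit 52572) (nat_lit 0) (nat_lit 22724) (XT.nd (nat_lit 234) (nat_lit 0) (nat_lit 0) (XT.nd (nat_lit 78) (nat_lit 456) (nat_lit 0) (XT.lf (nat_lit 0) (nat_lit 15947068752) (nat_lit 304) (nat_lit 10026482434) (nat_lit 380) (nat_lit 3411094292) (nat_lit 111) (nat_lit 5) (nat_lit 115) (nat_lit 5) (nat_lit 116) (nat_lit 5) (nat_lit 516) (nat_lit 425) (nat_lit 199)) (XT.nd (nat_lit 78) (nat_lit 0) (nat_lit 0) (XT.lf (nat_lit 0) (nat_lit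 421288852) (nat_lit 380) (nat_lit 1198662700) (nat_lit 456) (nat_lit 28168653189) (nat_lit 105) (nat_lit 5) (nat_lit 110) (nat_lit 5) (nat_lit 111) (nat_lit 5) (nat_lit 517) (nat_lit 425) (nat_lit 198)) (XT.lf (nat_lit 0) (nat_lit 6843393833) (nat_lit 456) (nat_lit 15539373025) (nat_lit 76) (nat_lit 7814678138) (nat_lit 105) (nat_lit 5) (nat_lit 111) (nat_lit 5) (nat_lit 106) (nat_lit 5) (nat_lit 518) (nat_lit 425) (nat_lit 197)))) (XT.nd (nat_lit 52182) (nat_lit 0) (nat_lit 24244) (XT.nd (nat_lit 52104) (nat_lit 0) (nat_lit 24244) (XT.lf (nat_lit 0) (nat_lit 12175279513) (nat_lit 456) (nat_lit 1448836782) (nat_lit 76) (nat_lit 16990267989) (nat_lit 105) (nat_lit 5) (nat_lit 111) (nat_lit 5) (nat_lit 106) (nat_lit 5) (nat_lit 519) (nat_lit 425) (nat_lit 196)) (XT.lf (nat_lit 0) (nat_lit 4173430355) (nat_lit 1596) (nat_lit 560709221) (nat_lit 1596) (nat_lit 560709221) (nat_lit 424) (nat_lit 3) (nat_lit 445) (nat_lit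 3) (nat_lit 445) (nat_lit 5) (nat_lit 426) (nat_lit 426) (nat_lit 288))) (XT.nd (nat_lit 78) (nat_lit 0) (nat_lit 0) (XT.lf (nat_lit 76) (nat_lit 3758891969) (nat_lit 0) (nat_lit 5287387522) (nat_lit 1596) (nat_lit 1636501976) (nat_lit 425) (nat_lit 5) (nat_lit 424) (nat_lit 3) (nat_lit 445) (nat_lit 5) (nat_lit 427) (nat_lit 426) (nat_lit 287)) (XT.lf (nat_lit 76) (nat_lit 8743984599) (nat_lit 0) (nat_lit 1007658816) (nat_lit 1596) (nat_lit 1026257427) (nat_lit 425) (nat_lit 5) (nat_lit 424) (nat_lit 3) (nat_lit 445) (nat_lit 5) (nat_lit 428) (nat_lit 426) (nat_lit 286))))) (XT.nd (nat_lit 234) (nat_lit 0) (nat_lit 76) (XT.nd (nat_lit 78) (nat_lit 1596) (nat_lit 0) (XT.lf (nat_lit 76) (nat_lit 2962678607) (nat_lit 0) (nat_lit 7534256610) (nat_lit 1596) (nat_lit 377483681) (nat_lit 426) (nat_lit 5) (nat_lit 425) (nat_lit 5) (nat_lit 446) (nat_lit 5) (nat_lit 429) (nat_lit 426) (nat_lit 285)) (XT.nd (nat_lit 78)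 (nat_lit 0) (nat_lit 76) (XT.lf (nat_lit 0) (nat_lit 285868159) (nat_lit 1596) (nat_lit 2902820198) (nat_lit 1672) (nat_lit 7784047642) (nat_lit 404) (nat_lit 5) (nat_lit 425) (nat_lit 5) (nat_lit 426) (nat_lit 5) (nat_lit 430) (nat_lit 426) (nat_lit 284)) (XT.lf (nat_lit 0) (nat_lit 965326232) (nat_lit 1596) (nat_lit 8856490101) (nat_lit 1672) (nat_lit 1251007305) (nat_lit 405) (nat_lit 5) (nat_lit 426) (nat_lit 5) (nat_lit 427) (nat_lit 5) (nat_lit 431) (nat_lit 426) (nat_lit 283)))) (XT.nd (nat_lit 156) (nat_lit 0) (nat_lit 76) (XT.nd (nat_lit 78) (nat_lit 0) (nat_lit 0) (XT.lf (nat_lit 0) (nat_lit 1684591558) (nat_lit 1596) (nat_lit 3727068387) (nat_lit 1672) (nat_lit 5762740461) (nat_lit 405) (nat_lit 5) (nat_lit 426) (nat_lit 5) (nat_lit 427) (nat_lit 5) (nat_lit 432) (nat_lit 426) (nat_lit 282)) (XT.lf (nat_lit 76) (nat_lit 1516480039) (nat_lit 0) (nat_lit 897385102) (nat_lit 1672) (nat_lit 8864242619)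 (nat_lit 406) (nat_lit 5) (nat_lit 405) (nat_lit 5) (nat_lit 427) (nat_lit 5) (nat_lit 433) (nat_lit 426) (nat_lit 281))) (XT.nd (nat_lit 78) (nat_lit 0) (nat_lit 0) (XT.lf (nat_lit 0) (nat_lit 3193008862) (nat_lit 1596) (nat_lit 4500827254) (nat_lit 1672) (nat_lit 3689358733) (nat_lit 406) (nat_lit 5) (nat_lit 427) (nat_lit 5) (nat_lit 428) (nat_lit 5) (nat_lit 434) (nat_lit 426) (nat_lit 280)) (XT.lf (nat_lit 76) (nat_lit 862097983) (nat_lit 0) (nat_lit 3123490481) (nat_lit 1672) (nat_lit 7504849219) (nat_lit 407) (nat_lit 5) (nat_lit 406) (nat_lit 5) (nat_lit 428) (nat_lit 5) (nat_lit 435) (nat_lit 426) (nat_lit 279)))))) (XT.nd (nat_lit 546) (nat_lit 1444) (nat_lit 0) (XT.nd (nat_lit 234) (nat_lit 0) (nat_lit 76) (XT.nd (nat_lit 78) (nat_lit 0) (nat_lit 0) (XT.lf (nat_lit 0) (nat_lit 4820969551) (nat_lit 1596) (nat_lit 5224829623) (nat_lit 1672) (nat_lit 1553498046) (nat_lit 407) (nat_lit 5) (nat_lit 428)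 (nat_lit 5) (nat_lit 429) (nat_lit 5) (nat_lit 436) (nat_lit 426) (nat_lit 278)) (XT.nd (nat_lit 78) (nat_lit 0) (nat_lit 0) (XT.lf (nat_lit 76) (nat_lit 260945980) (nat_lit 0) (nat_lit 5421314955) (nat_lit 1672) (nat_lit 6027899591) (nat_lit 408) (nat_lit 5) (nat_lit 407) (nat_lit 5) (nat_lit 429) (nat_lit 5) (nat_lit 437) (nat_lit 426) (nat_lit 277)) (XT.lf (nat_lit 76) (nat_lit 5918775570) (nat_lit 0) (nat_lit 664090286) (nat_lit 1672) (nat_lit 5239943912) (nat_lit 408) (nat_lit 5) (nat_lit 407) (nat_lit 5) (nat_lit 429) (nat_lit 5) (nat_lit 438) (nat_lit 426) (nat_lit 276)))) (XT.nd (nat_lit 156) (nat_lit 0) (nat_lit 76) (XT.nd (nat_lit 78) (nat_lit 0) (nat_lit 0) (XT.lf (nat_lit 0) (nat_lit 7515985267) (nat_lit 1596) (nat_lit 283755585) (nat_lit 1672) (nat_lit 4137691314) (nat_lit 408) (nat_lit 5) (nat_lit 429) (nat_lit 5) (nat_lit 430) (nat_lit 5) (nat_lit 439) (nat_lit 426) (nat_lit 275)) (XT.lf (nat_lit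 76) (nat_lit 5508329999) (nat_lit 0) (nat_lit 2987156890) (nat_lit 1672) (nat_lit 3558315745) (nat_lit 409) (nat_lit 5) (nat_lit 408) (nat_lit 5) (nat_lit 430) (nat_lit 5) (nat_lit 440) (nat_lit 426) (nat_lit 274))) (XT.nd (nat_lit 78) (nat_lit 0) (nat_lit 0) (XT.lf (nat_lit 0) (nat_lit 9496744851) (nat_lit 1596) (nat_lit 773515977) (nat_lit 1672) (nat_lit 1902206180) (nat_lit 409) (nat_lit 5) (nat_lit 430) (nat_lit 5) (nat_lit 431) (nat_lit 5) (nat_lit 441) (nat_lit 426) (nat_lit 273)) (XT.lf (nat_lit 76) (nat_lit 5153184413) (nat_lit 0) (nat_lit 5406096429) (nat_lit 1672) (nat_lit 1733408401) (nat_lit 410) (nat_lit 5) (nat_lit 409) (nat_lit 5) (nat_lit 431) (nat_lit 5) (nat_lit 442) (nat_lit 426) (nat_lit 272))))) (XT.nd (nat_lit 234) (nat_lit 0) (nat_lit 76) (XT.nd (nat_lit 78) (nat_lit 1596) (nat_lit 0) (XT.lf (nat_lit 76) (nat_lit 11200462086) (nat_lit 0) (nat_lit 435988888) (nat_lit 1672) (nat_lit 779006720)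 (nat_lit 410) (nat_lit 5) (nat_lit 409) (nat_lit 5) (nat_lit 431) (nat_lit 5) (nat_lit 443) (nat_lit 426) (nat_lit 271)) (XT.nd (nat_lit 78) (nat_lit 0) (nat_lit 0) (XT.lf (nat_lit 0) (nat_lit 242293198) (nat_lit 1672) (nat_lit 7688254370) (nat_lit 1748) (nat_lit 4609110547) (nat_lit 388) (nat_lit 5) (nat_lit 410) (nat_lit 5) (nat_lit 411) (nat_lit 5) (nat_lit 444) (nat_lit 426) (nat_lit 270)) (XT.lf (nat_lit 0) (nat_lit 1273225368) (nat_lit 1672) (nat_lit 1627322849) (nat_lit 1748) (nat_lit 9765707499) (nat_lit 388) (nat_lit 5) (nat_lit 410) (nat_lit 5) (nat_lit 411) (nat_lit 5) (nat_lit 445) (nat_lit 426) (nat_lit 269)))) (XT.nd (nat_lit 156) (nat_lit 0) (nat_lit 0) (XT.nd (nat_lit 78) (nat_lit 0) (nat_lit 0) (XT.lf (nat_lit 0) (nat_lit 2358139072) (nat_lit 1672) (nat_lit 8202943948) (nat_lit 1748) (nat_lit 2233643711) (nat_lit 389) (nat_lit 5) (nat_lit 411) (nat_lit 5) (nat_lit 412) (nat_lit 5) (nat_lit 446)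 (nat_lit 426) (nat_lit 268)) (XT.lf (nat_lit 0) (nat_lit 3483893178) (nat_lit 1672) (nat_lit 1996166514) (nat_lit 1748) (nat_lit 7445333184) (nat_lit 389) (nat_lit 5) (nat_lit 411) (nat_lit 5) (nat_lit 412) (nat_lit 5) (nat_lit 447) (nat_lit 426) (nat_lit 267))) (XT.nd (nat_lit 78) (nat_lit 0) (nat_lit 76) (XT.lf (nat_lit 76) (nat_lit 4383744157) (nat_lit 0) (nat_lit 266037920) (nat_lit 1748) (nat_lit 8408546255) (nat_lit 390) (nat_lit 5) (nat_lit 389) (nat_lit 5) (nat_lit 412) (nat_lit 5) (nat_lit 448) (nat_lit 426) (nat_lit 266)) (XT.lf (nat_lit 0) (nat_lit 5874605355) (nat_lit 1672) (nat_lit 2316910844) (nat_lit 1748) (nat_lit 5001702186) (nat_lit 390) (nat_lit 5) (nat_lit 412) (nat_lit 5) (nat_lit 413) (nat_lit 5) (nat_lit 449) (nat_lit 426) (nat_lit 265))))))))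
noncomputable def xc202 : XT := (XT.nd (nat_lit 2184) (nat_lit 7448) (nat_lit 0) (XT.nd (nat_lit 1092) (nat_lit 5092) (nat_lit 0) (XT.nd (nat_lit 546) (nat_lit 2508) (nat_lit 0) (XT.nd (nat_lit 234) (nat_lit 2204) (nat_lit 0) (XT.nd (nat_lit 78) (nat_lit 1596) (nat_lit 0) (XT.lf (nat_lit 76) (nat_lit 4212900695) (nat_lit 0) (nat_lit 2929678315) (nat_lit 1748) (nat_lit 6187862208) (nat_lit 391) (nat_lit 5) (nat_lit 390) (nat_lit 5) (nat_lit 413) (nat_lit 5) (nat_lit 450) (nat_lit 426) (nat_lit 264)) (XT.nd (nat_lit 78) (nat_lit 1672) (nat_lit 0) (XT.lf (nat_lit 0) (nat_lit 8457089444) (nat_lit 1672) (nat_lit 2589987506) (nat_lit 76) (nat_lit 2422915912) (nat_lit 391) (nat_lit 5) (nat_lit 413) (nat_lit 5) (nat_lit 392) (nat_lit 5) (nat_lit 451) (nat_lit 426) (nat_lit 263)) (XT.lf (nat_lit 0) (nat_lit 4093900504) (nat_lit 1672) (nat_lit 5739875129) (nat_lit 1748) (nat_lit 3777849939) (nat_lit 369) (nat_lit 5) (nat_lit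 391) (nat_lit 5) (nat_lit 392) (nat_lit 5) (nat_lit 452) (nat_lit 426) (nat_lit 262)))) (XT.nd (nat_lit 156) (nat_lit 912) (nat_lit 0) (XT.nd (nat_lit 78) (nat_lit 1292) (nat_lit 0) (XT.lf (nat_lit 0) (nat_lit 10938123735) (nat_lit 1672) (nat_lit 307298484) (nat_lit 1748) (nat_lit 2510527778) (nat_lit 369) (nat_lit 5) (nat_lit 391) (nat_lit 5) (nat_lit 392) (nat_lit 5) (nat_lit 453) (nat_lit 426) (nat_lit 261)) (XT.lf (nat_lit 0) (nat_lit 4026398331) (nat_lit 1292) (nat_lit 8709278824) (nat_lit 1368) (nat_lit 1166483690) (nat_lit 352) (nat_lit 5) (nat_lit 369) (nat_lit 5) (nat_lit 370) (nat_lit 5) (nat_lit 454) (nat_lit 426) (nat_lit 260))) (XT.nd (nat_lit 78) (nat_lit 836) (nat_lit 0) (XT.lf (nat_lit 0) (nat_lit 213146121) (nat_lit 1368) (nat_lit 3017278544) (nat_lit 76) (nat_lit 10820624132) (nat_lit 351) (nat_lit 5) (nat_lit 369) (nat_lit 5) (nat_lit 352) (nat_lit 5) (nat_lit 455) (nat_lit 426) (nat_lit 259))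 (XT.lf (nat_lit 0) (nat_lit 1636878447) (nat_lit 912) (nat_lit 10203078715) (nat_lit 76) (nat_lit 2362167566) (nat_lit 340) (nat_lit 5) (nat_lit 352) (nat_lit 5) (nat_lit 341) (nat_lit 5) (nat_lit 456) (nat_lit 426) (nat_lit 258))))) (XT.nd (nat_lit 234) (nat_lit 1672) (nat_lit 0) (XT.nd (nat_lit 78) (nat_lit 836) (nat_lit 0) (XT.lf (nat_lit 0) (nat_lit 3121505614) (nat_lit 912) (nat_lit 3189301873) (nat_lit 76) (nat_lit 8044773166) (nat_lit 340) (nat_lit 5) (nat_lit 352) (nat_lit 5) (nat_lit 341) (nat_lit 5) (nat_lit 457) (nat_lit 426) (nat_lit 257)) (XT.nd (nat_lit 78) (nat_lit 0) (nat_lit 0) (XT.lf (nat_lit 0) (nat_lit 4008942150) (nat_lit 836) (nat_lit 643740353) (nat_lit 912) (nat_lit 9859092792) (nat_lit 329) (nat_lit 5) (nat_lit 340) (nat_lit 5) (nat_lit 341) (nat_lit 5) (nat_lit 458) (nat_lit 426) (nat_lit 256)) (XT.lf (nat_lit 0) (nat_lit 6260336065) (nat_lit 912) (nat_lit 3318298650) (nat_lit 76) (nat_lit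 5091548663) (nat_lit 329) (nat_lit 5) (nat_lit 341) (nat_lit 5) (nat_lit 330) (nat_lit 5) (nat_lit 459) (nat_lit 426) (nat_lit 255)))) (XT.nd (nat_lit 156) (nat_lit 836) (nat_lit 0) (XT.nd (nat_lit 78) (nat_lit 0) (nat_lit 0) (XT.lf (nat_lit 0) (nat_lit 4050429240) (nat_lit 836) (nat_lit 3871410838) (nat_lit 912) (nat_lit 6909492076) (nat_lit 318) (nat_lit 5) (nat_lit 329) (nat_lit 5) (nat_lit 330) (nat_lit 5) (nat_lit 460) (nat_lit 426) (nat_lit 254)) (XT.lf (nat_lit 0) (nat_lit 9642908493) (nat_lit 912) (nat_lit 3405039694) (nat_lit 76) (nat_lit 1947235386) (nat_lit 318) (nat_lit 5) (nat_lit 330) (nat_lit 5) (nat_lit 319) (nat_lit 5) (nat_lit 461) (nat_lit 426) (nat_lit 253))) (XT.nd (nat_lit 78) (nat_lit 0) (nat_lit 0) (XT.lf (nat_lit 0) (nat_lit 4138662638) (nat_lit 836) (nat_lit 7303675363) (nat_lit 912) (nat_lit 3719101455) (nat_lit 307) (nat_lit 5) (nat_lit 318) (nat_lit 5) (nat_lit 319) (nat_lit 5) (nat_lit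 462) (nat_lit 426) (nat_lit 252)) (XT.lf (nat_lit 0) (nat_lit 11871130983) (nat_lit 836) (nat_lit 1421019400) (nat_lit 912) (nat_lit 2038588294) (nat_lit 307) (nat_lit 5) (nat_lit 318) (nat_lit 5) (nat_lit 319) (nat_lit 5) (nat_lit 463) (nat_lit 426) (nat_lit 251)))))) (XT.nd (nat_lit 546) (nat_lit 2052) (nat_lit 0) (XT.nd (nat_lit 234) (nat_lit 1444) (nat_lit 0) (XT.nd (nat_lit 78) (nat_lit 836) (nat_lit 0) (XT.lf (nat_lit 0) (nat_lit 4272857120) (nat_lit 760) (nat_lit 10955287585) (nat_lit 836) (nat_lit 274301451) (nat_lit 297) (nat_lit 5) (nat_lit 307) (nat_lit 5) (nat_lit 308) (nat_lit 5) (nat_lit 464) (nat_lit 426) (nat_lit 250)) (XT.nd (nat_lit 78) (nat_lit 760) (nat_lit 0) (XT.lf (nat_lit 0) (nat_lit 1529808047) (nat_lit 836) (nat_lit 3498059888) (nat_lit 76) (nat_lit 10649036720) (nat_lit 296) (nat_lit 5) (nat_lit 307) (nat_lit 5) (nat_lit 297) (nat_lit 5) (nat_lit 465) (nat_lit 426) (nat_lit 249)) (XT.lf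 (nat_lit 0) (nat_lit 3393868396) (nat_lit 836) (nat_lit 11424925950) (nat_lit 76) (nat_lit 1035476526) (nat_lit 286) (nat_lit 5) (nat_lit 297) (nat_lit 5) (nat_lit 287) (nat_lit 5) (nat_lit 466) (nat_lit 426) (nat_lit 248)))) (XT.nd (nat_lit 156) (nat_lit 760) (nat_lit 0) (XT.nd (nat_lit 78) (nat_lit 684) (nat_lit 0) (XT.lf (nat_lit 0) (nat_lit 5344163503) (nat_lit 836) (nat_lit 3513735378) (nat_lit 76) (nat_lit 7176311992) (nat_lit 286) (nat_lit 5) (nat_lit 297) (nat_lit 5) (nat_lit 287) (nat_lit 5) (nat_lit 467) (nat_lit 426) (nat_lit 247)) (XT.lf (nat_lit 0) (nat_lit 4607993275) (nat_lit 684) (nat_lit 2747572851) (nat_lit 760) (nat_lit 8861746939) (nat_lit 277) (nat_lit 5) (nat_lit 286) (nat_lit 5) (nat_lit 287) (nat_lit 5) (nat_lit 468) (nat_lit 426) (nat_lit 246))) (XT.nd (nat_lit 78) (nat_lit 760) (nat_lit 0) (XT.lf (nat_lit 0) (nat_lit 9445840711) (nat_lit 760) (nat_lit 3494826749) (nat_lit 76) (nat_lit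 3462642278) (nat_lit 277) (nat_lit 5) (nat_lit 287) (nat_lit 5) (nat_lit 278) (nat_lit 5) (nat_lit 469) (nat_lit 426) (nat_lit 245)) (XT.lf (nat_lit 0) (nat_lit 4818897965) (nat_lit 760) (nat_lit 6800939557) (nat_lit 836) (nat_lit 4972355702) (nat_lit 267) (nat_lit 5) (nat_lit 277) (nat_lit 5) (nat_lit 278) (nat_lit 5) (nat_lit 470) (nat_lit 426) (nat_lit 244))))) (XT.nd (nat_lit 234) (nat_lit 1292) (nat_lit 0) (XT.nd (nat_lit 78) (nat_lit 760) (nat_lit 0) (XT.lf (nat_lit 0) (nat_lit 13338260462) (nat_lit 760) (nat_lit 515035696) (nat_lit 836) (nat_lit 2931243690) (nat_lit 267) (nat_lit 5) (nat_lit 277) (nat_lit 5) (nat_lit 278) (nat_lit 5) (nat_lit 471) (nat_lit 426) (nat_lit 243)) (XT.nd (nat_lit 78) (nat_lit 76) (nat_lit 0) (XT.lf (nat_lit 0) (nat_lit 5067451795) (nat_lit 684) (nat_lit 11127830784) (nat_lit 760) (nat_lit 784178666) (nat_lit 258) (nat_lit 5) (nat_lit 267) (nat_lit 5) (nat_lit 268) (nat_lit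 5) (nat_lit 472) (nat_lit 426) (nat_lit 242)) (XT.lf (nat_lit 0) (nat_lit 1406792416) (nat_lit 760) (nat_lit 3400387296) (nat_lit 76) (nat_lit 12370535572) (nat_lit 257) (nat_lit 5) (nat_lit 267) (nat_lit 5) (nat_lit 258) (nat_lit 5) (nat_lit 473) (nat_lit 426) (nat_lit 241)))) (XT.nd (nat_lit 156) (nat_lit 608) (nat_lit 0) (XT.nd (nat_lit 78) (nat_lit 0) (nat_lit 0) (XT.lf (nat_lit 0) (nat_lit 3669514294) (nat_lit 760) (nat_lit 12051795348) (nat_lit 76) (nat_lit 1657757185) (nat_lit 248) (nat_lit 5) (nat_lit 258) (nat_lit 5) (nat_lit 249) (nat_lit 5) (nat_lit 474) (nat_lit 426) (nat_lit 240)) (XT.lf (nat_lit 0) (nat_lit 6025234846) (nat_lit 760) (nat_lit 3348380110) (nat_lit 76) (nat_lit 8209880186) (nat_lit 248) (nat_lit 5) (nat_lit 258) (nat_lit 5) (nat_lit 249) (nat_lit 5) (nat_lit 475) (nat_lit 426) (nat_lit 239))) (XT.nd (nat_lit 78) (nat_lit 0) (nat_lit 0) (XT.lf (nat_lit 0) (nat_lit 5594653899) (nat_lit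 608) (nat_lit 2862817669) (nat_lit 684) (nat_lit 9333956960) (nat_lit 240) (nat_lit 5) (nat_lit 248) (nat_lit 5) (nat_lit 249) (nat_lit 5) (nat_lit 476) (nat_lit 426) (nat_lit 238)) (XT.lf (nat_lit 0) (nat_lit 10978658521) (nat_lit 684) (nat_lit 3273721848) (nat_lit 76) (nat_lit 3750338550) (nat_lit 240) (nat_lit 5) (nat_lit 249) (nat_lit 5) (nat_lit 241) (nat_lit 5) (nat_lit 477) (nat_lit 426) (nat_lit 237))))))) (XT.nd (nat_lit 1092) (nat_lit 3344) (nat_lit 0) (XT.nd (nat_lit 546) (nat_lit 1672) (nat_lit 0) (XT.nd (nat_lit 234) (nat_lit 1140) (nat_lit 0) (XT.nd (nat_lit 78) (nat_lit 684) (nat_lit 0) (XT.lf (nat_lit 0) (nat_lit 5878173225) (nat_lit 608) (nat_lit 7722510971) (nat_lit 684) (nat_lit 4616546984) (nat_lit 232) (nat_lit 5) (nat_lit 240) (nat_lit 5) (nat_lit 241) (nat_lit 5) (nat_lit 478) (nat_lit 426) (nat_lit 236)) (XT.nd (nat_lit 78) (nat_lit 684) (nat_lit 0) (XT.lf (nat_lit 0) (nat_lit 15249780365)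 (nat_lit 608) (nat_lit 1040710888) (nat_lit 684) (nat_lit 2145239890) (nat_lit 232) (nat_lit 5) (nat_lit 240) (nat_lit 5) (nat_lit 241) (nat_lit 5) (nat_lit 479) (nat_lit 426) (nat_lit 235)) (XT.lf (nat_lit 0) (nat_lit 442189474) (nat_lit 684) (nat_lit 12473911594) (nat_lit 76) (nat_lit 5741022974) (nat_lit 223) (nat_lit 5) (nat_lit 232) (nat_lit 5) (nat_lit 224) (nat_lit 5) (nat_lit 480) (nat_lit 426) (nat_lit 234)))) (XT.nd (nat_lit 156) (nat_lit 532) (nat_lit 0) (XT.nd (nat_lit 78) (nat_lit 608) (nat_lit 0) (XT.lf (nat_lit 0) (nat_lit 3074609615) (nat_lit 684) (nat_lit 3128530284) (nat_lit 76) (nat_lit 12679085989) (nat_lit 223) (nat_lit 5) (nat_lit 232) (nat_lit 5) (nat_lit 224) (nat_lit 5) (nat_lit 481) (nat_lit 426) (nat_lit 233)) (XT.lf (nat_lit 0) (nat_lit 5799864825) (nat_lit 684) (nat_lit 12634377398) (nat_lit 76) (nat_lit 676787763) (nat_lit 215) (nat_lit 5) (nat_lit 224) (nat_lit 5) (nat_lit 216)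 (nat_lit 5) (nat_lit 482) (nat_lit 426) (nat_lit 232))) (XT.nd (nat_lit 78) (nat_lit 532) (nat_lit 0) (XT.lf (nat_lit 0) (nat_lit 8635560097) (nat_lit 684) (nat_lit 3076500446) (nat_lit 76) (nat_lit 7631234797) (nat_lit 215) (nat_lit 5) (nat_lit 224) (nat_lit 5) (nat_lit 216) (nat_lit 5) (nat_lit 483) (nat_lit 426) (nat_lit 231)) (XT.lf (nat_lit 0) (nat_lit 6753620859) (nat_lit 532) (nat_lit 4812041953) (nat_lit 608) (nat_lit 8013793116) (nat_lit 208) (nat_lit 5) (nat_lit 215) (nat_lit 5) (nat_lit 216) (nat_lit 5) (nat_lit 484) (nat_lit 426) (nat_lit 230))))) (XT.nd (nat_lit 234) (nat_lit 1064) (nat_lit 0) (XT.nd (nat_lit 78) (nat_lit 608) (nat_lit 0) (XT.lf (nat_lit 0) (nat_lit 14583509906) (nat_lit 608) (nat_lit 3020024159) (nat_lit 76) (nat_lit 2216226539) (nat_lit 208) (nat_lit 5) (nat_lit 216) (nat_lit 5) (nat_lit 209) (nat_lit 5) (nat_lit 485) (nat_lit 426) (nat_lit 229)) (XT.nd (nat_lit 78) (nat_lit 76)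 (nat_lit 0) (XT.lf (nat_lit 0) (nat_lit 7034891704) (nat_lit 532) (nat_lit 10698392840) (nat_lit 608) (nat_lit 2330159065) (nat_lit 201) (nat_lit 5) (nat_lit 208) (nat_lit 5) (nat_lit 209) (nat_lit 5) (nat_lit 486) (nat_lit 426) (nat_lit 228)) (XT.lf (nat_lit 0) (nat_lit 640193125) (nat_lit 608) (nat_lit 2991443860) (nat_lit 76) (nat_lit 16679995375) (nat_lit 200) (nat_lit 5) (nat_lit 208) (nat_lit 5) (nat_lit 201) (nat_lit 5) (nat_lit 487) (nat_lit 426) (nat_lit 227)))) (XT.nd (nat_lit 156) (nat_lit 532) (nat_lit 0) (XT.nd (nat_lit 78) (nat_lit 0) (nat_lit 0) (XT.lf (nat_lit 0) (nat_lit 3704103903) (nat_lit 608) (nat_lit 13267595376) (nat_lit 76) (nat_lit 3591473951) (nat_lit 193) (nat_lit 5) (nat_lit 201) (nat_lit 5) (nat_lit 194) (nat_lit 5) (nat_lit 488) (nat_lit 426) (nat_lit 226)) (XT.lf (nat_lit 0) (nat_lit 6867779057) (nat_lit 608) (nat_lit 3021993303) (nat_lit 76) (nat_lit 10929206205) (nat_lit 193)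 (nat_lit 5) (nat_lit 201) (nat_lit 5) (nat_lit 194) (nat_lit 5) (nat_lit 489) (nat_lit 426) (nat_lit 225))) (XT.nd (nat_lit 78) (nat_lit 0) (nat_lit 0) (XT.lf (nat_lit 0) (nat_lit 7519934174) (nat_lit 532) (nat_lit 2617959588) (nat_lit 608) (nat_lit 10941146230) (nat_lit 186) (nat_lit 5) (nat_lit 193) (nat_lit 5) (nat_lit 194) (nat_lit 5) (nat_lit 490) (nat_lit 426) (nat_lit 224)) (XT.lf (nat_lit 0) (nat_lit 13519380279) (nat_lit 608) (nat_lit 3068796818) (nat_lit 76) (nat_lit 4755209399) (nat_lit 186) (nat_lit 5) (nat_lit 194) (nat_lit 5) (nat_lit 187) (nat_lit 5) (nat_lit 491) (nat_lit 426) (nat_lit 223)))))) (XT.nd (nat_lit 546) (nat_lit 1368) (nat_lit 0) (XT.nd (nat_lit 234) (nat_lit 912) (nat_lit 0) (XT.nd (nat_lit 78) (nat_lit 608) (nat_lit 0) (XT.lf (nat_lit 0) (nat_lit 7707945103) (nat_lit 456) (nat_lit 9322439762) (nat_lit 532) (nat_lit 4581400477) (nat_lit 180) (nat_lit 5) (nat_lit 186) (nat_lit 5)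 (nat_lit 187) (nat_lit 5) (nat_lit 492) (nat_lit 426) (nat_lit 222)) (XT.nd (nat_lit 78) (nat_lit 608) (nat_lit 0) (XT.lf (nat_lit 0) (nat_lit 18734740235) (nat_lit 456) (nat_lit 1892030078) (nat_lit 532) (nat_lit 1258481750) (nat_lit 180) (nat_lit 5) (nat_lit 186) (nat_lit 5) (nat_lit 187) (nat_lit 5) (nat_lit 493) (nat_lit 426) (nat_lit 221)) (XT.lf (nat_lit 0) (nat_lit 2186224615) (nat_lit 608) (nat_lit 14299689091) (nat_lit 76) (nat_lit 5676335176) (nat_lit 172) (nat_lit 5) (nat_lit 180) (nat_lit 5) (nat_lit 173) (nat_lit 5) (nat_lit 494) (nat_lit 426) (nat_lit 220)))) (XT.nd (nat_lit 156) (nat_lit 456) (nat_lit 0) (XT.nd (nat_lit 78) (nat_lit 456) (nat_lit 0) (XT.lf (nat_lit 0) (nat_lit 5711486278) (nat_lit 608) (nat_lit 3333835763) (nat_lit 76) (nat_lit 13398729915) (nat_lit 172) (nat_lit 5) (nat_lit 180) (nat_lit 5) (nat_lit 173) (nat_lit 5) (nat_lit 495) (nat_lit 426) (nat_lit 219)) (XT.lf (nat_lit 0)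 (nat_lit 7948653740) (nat_lit 456) (nat_lit 1404996469) (nat_lit 532) (nat_lit 13376915819) (nat_lit 166) (nat_lit 5) (nat_lit 172) (nat_lit 5) (nat_lit 173) (nat_lit 5) (nat_lit 496) (nat_lit 426) (nat_lit 218))) (XT.nd (nat_lit 78) (nat_lit 456) (nat_lit 0) (XT.lf (nat_lit 0) (nat_lit 13127488738) (nat_lit 532) (nat_lit 3568981049) (nat_lit 76) (nat_lit 6325166790) (nat_lit 166) (nat_lit 5) (nat_lit 173) (nat_lit 5) (nat_lit 167) (nat_lit 5) (nat_lit 497) (nat_lit 426) (nat_lit 217)) (XT.lf (nat_lit 0) (nat_lit 7956412826) (nat_lit 456) (nat_lit 9076290755) (nat_lit 532) (nat_lit 6284709731) (nat_lit 160) (nat_lit 5) (nat_lit 166) (nat_lit 5) (nat_lit 167) (nat_lit 5) (nat_lit 498) (nat_lit 426) (nat_lit 216))))) (XT.nd (nat_lit 234) (nat_lit 836) (nat_lit 0) (XT.nd (nat_lit 78) (nat_lit 532) (nat_lit 0) (XT.lf (nat_lit 0) (nat_lit 19753896901) (nat_lit 456) (nat_lit 1281067339) (nat_lit 532) (nat_lit 2583765222)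 (nat_lit 160) (nat_lit 5) (nat_lit 166) (nat_lit 5) (nat_lit 167) (nat_lit 5) (nat_lit 499) (nat_lit 426) (nat_lit 215)) (XT.nd (nat_lit 78) (nat_lit 0) (nat_lit 0) (XT.lf (nat_lit 0) (nat_lit 1265941837) (nat_lit 532) (nat_lit 16017601043) (nat_lit 76) (nat_lit 6640569651) (nat_lit 153) (nat_lit 5) (nat_lit 160) (nat_lit 5) (nat_lit 154) (nat_lit 5) (nat_lit 500) (nat_lit 426) (nat_lit 214)) (XT.lf (nat_lit 0) (nat_lit 5187766197) (nat_lit 532) (nat_lit 4301955660) (nat_lit 76) (nat_lit 14744947991) (nat_lit 153) (nat_lit 5) (nat_lit 160) (nat_lit 5) (nat_lit 154) (nat_lit 5) (nat_lit 501) (nat_lit 426) (nat_lit 213)))) (XT.nd (nat_lit 156) (nat_lit 380) (nat_lit 0) (XT.nd (nat_lit 78) (nat_lit 0) (nat_lit 0) (XT.lf (nat_lit 0) (nat_lit 7742909468) (nat_lit 456) (nat_lit 1490582554) (nat_lit 532) (nat_lit 15317039495) (nat_lit 147) (nat_lit 5) (nat_lit 153) (nat_lit 5) (nat_lit 154) (nat_lit 5) (nat_lit 502)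 (nat_lit 426) (nat_lit 212)) (XT.lf (nat_lit 0) (nat_lit 13427720829) (nat_lit 532) (nat_lit 4835319485) (nat_lit 76) (nat_lit 6608320791) (nat_lit 147) (nat_lit 5) (nat_lit 154) (nat_lit 5) (nat_lit 148) (nat_lit 5) (nat_lit 503) (nat_lit 426) (nat_lit 211))) (XT.nd (nat_lit 78) (nat_lit 0) (nat_lit 0) (XT.lf (nat_lit 0) (nat_lit 7457814664) (nat_lit 380) (nat_lit 10301637835) (nat_lit 456) (nat_lit 7438084828) (nat_lit 142) (nat_lit 5) (nat_lit 147) (nat_lit 5) (nat_lit 148) (nat_lit 5) (nat_lit 504) (nat_lit 426) (nat_lit 210)) (XT.lf (nat_lit 0) (nat_lit 20055845003) (nat_lit 380) (nat_lit 2149796519) (nat_lit 456) (nat_lit 3324041457) (nat_lit 142) (nat_lit 5) (nat_lit 147) (nat_lit 5) (nat_lit 148) (nat_lit 5) (nat_lit 505) (nat_lit 426) (nat_lit 209))))))))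
noncomputable def xc203 : XT := (XT.nd (nat_lit 54288) (nat_lit 0) (nat_lit 13072) (XT.nd (nat_lit 53196) (nat_lit 0) (nat_lit 22648) (XT.nd (nat_lit 546) (nat_lit 1140) (nat_lit 0) (XT.nd (nat_lit 234) (nat_lit 760) (nat_lit 0) (XT.nd (nat_lit 78) (nat_lit 380) (nat_lit 0) (XT.lf (nat_lit 0) (nat_lit 942854157) (nat_lit 532) (nat_lit 18789269601) (nat_lit 76) (nat_lit 6134596558) (nat_lit 135) (nat_lit 5) (nat_lit 142) (nat_lit 5) (nat_lit 136) (nat_lit 5) (nat_lit 506) (nat_lit 426) (nat_lit 208)) (XT.nd (nat_lit 78) (nat_lit 380) (nat_lit 0) (XT.lf (nat_lit 0) (nat_lit 5297302310) (nat_lit 532) (nat_lit 6298776866) (nat_lit 76) (nat_lit 14613047537) (nat_lit 135) (nat_lit 5) (nat_lit 142) (nat_lit 5) (nat_lit 136) (nat_lit 5) (nat_lit 507) (nat_lit 426) (nat_lit 207)) (XT.lf (nat_lit 0) (nat_lit 6520689097) (nat_lit 380) (nat_lit 3256045082) (nat_lit 456) (nat_lit 16780891346) (nat_lit 130) (nat_lit 5) (nat_lit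 135) (nat_lit 5) (nat_lit 136) (nat_lit 5) (nat_lit 508) (nat_lit 426) (nat_lit 206)))) (XT.nd (nat_lit 156) (nat_lit 380) (nat_lit 0) (XT.nd (nat_lit 78) (nat_lit 380) (nat_lit 0) (XT.lf (nat_lit 0) (nat_lit 14417986074) (nat_lit 456) (nat_lit 7271086933) (nat_lit 76) (nat_lit 5222578814) (nat_lit 130) (nat_lit 5) (nat_lit 136) (nat_lit 5) (nat_lit 131) (nat_lit 5) (nat_lit 509) (nat_lit 426) (nat_lit 205)) (XT.lf (nat_lit 0) (nat_lit 5798294951) (nat_lit 380) (nat_lit 13408655832) (nat_lit 456) (nat_lit 8064712202) (nat_lit 125) (nat_lit 5) (nat_lit 130) (nat_lit 5) (nat_lit 131) (nat_lit 5) (nat_lit 510) (nat_lit 426) (nat_lit 204))) (XT.nd (nat_lit 78) (nat_lit 380) (nat_lit 0) (XT.lf (nat_lit 0) (nat_lit 19221400132) (nat_lit 380) (nat_lit 4914809981) (nat_lit 456) (nat_lit 3501776008) (nat_lit 125) (nat_lit 5) (nat_lit 130) (nat_lit 5) (nat_lit 131) (nat_lit 5) (nat_lit 511) (nat_lit 426) (nat_lit 203))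 (XT.lf (nat_lit 0) (nat_lit 1189827531) (nat_lit 380) (nat_lit 23082877389) (nat_lit 76) (nat_lit 3737732673) (nat_lit 120) (nat_lit 5) (nat_lit 125) (nat_lit 5) (nat_lit 121) (nat_lit 5) (nat_lit 512) (nat_lit 426) (nat_lit 202))))) (XT.nd (nat_lit 234) (nat_lit 760) (nat_lit 0) (XT.nd (nat_lit 78) (nat_lit 380) (nat_lit 0) (XT.lf (nat_lit 0) (nat_lit 6013627445) (nat_lit 380) (nat_lit 9798837423) (nat_lit 76) (nat_lit 12575707167) (nat_lit 120) (nat_lit 5) (nat_lit 125) (nat_lit 5) (nat_lit 121) (nat_lit 5) (nat_lit 513) (nat_lit 426) (nat_lit 201)) (XT.nd (nat_lit 78) (nat_lit 0) (nat_lit 0) (XT.lf (nat_lit 0) (nat_lit 3794577093) (nat_lit 380) (nat_lit 7159852473) (nat_lit 456) (nat_lit 17818622973) (nat_lit 115) (nat_lit 5) (nat_lit 120) (nat_lit 5) (nat_lit 121) (nat_lit 5) (nat_lit 514) (nat_lit 426) (nat_lit 200)) (XT.lf (nat_lit 0) (nat_lit 16066972091) (nat_lit 456) (nat_lit 11388984207) (nat_lit 76)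 (nat_lit 1708217730) (nat_lit 115) (nat_lit 5) (nat_lit 121) (nat_lit 5) (nat_lit 116) (nat_lit 5) (nat_lit 515) (nat_lit 426) (nat_lit 199)))) (XT.nd (nat_lit 156) (nat_lit 456) (nat_lit 0) (XT.nd (nat_lit 78) (nat_lit 0) (nat_lit 0) (XT.lf (nat_lit 0) (nat_lit 2451042801) (nat_lit 304) (nat_lit 18890050722) (nat_lit 380) (nat_lit 8220839687) (nat_lit 111) (nat_lit 5) (nat_lit 115) (nat_lit 5) (nat_lit 116) (nat_lit 5) (nat_lit 516) (nat_lit 426) (nat_lit 198)) (XT.lf (nat_lit 0) (nat_lit 16716306714) (nat_lit 304) (nat_lit 10076854646) (nat_lit 380) (nat_lit 3173038726) (nat_lit 111) (nat_lit 5) (nat_lit 115) (nat_lit 5) (nat_lit 116) (nat_lit 5) (nat_lit 517) (nat_lit 426) (nat_lit 197))) (XT.nd (nat_lit 78) (nat_lit 0) (nat_lit 0) (XT.lf (nat_lit 0) (nat_lit 881171184) (nat_lit 380) (nat_lit 1070444446) (nat_lit 456) (nat_lit 28426645649) (nat_lit 105) (nat_lit 5) (nat_lit 110) (nat_lit 5) (nat_lit 111) (nat_lit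 5) (nat_lit 518) (nat_lit 426) (nat_lit 196)) (XT.lf (nat_lit 0) (nat_lit 7274627567) (nat_lit 456) (nat_lit 15402529130) (nat_lit 76) (nat_lit 8118222180) (nat_lit 105) (nat_lit 5) (nat_lit 111) (nat_lit 5) (nat_lit 106) (nat_lit 5) (nat_lit 519) (nat_lit 426) (nat_lit 195)))))) (XT.nd (nat_lit 546) (nat_lit 0) (nat_lit 152) (XT.nd (nat_lit 234) (nat_lit 0) (nat_lit 76) (XT.nd (nat_lit 78) (nat_lit 1596) (nat_lit 0) (XT.lf (nat_lit 0) (nat_lit 4844603214) (nat_lit 1596) (nat_lit 271948791) (nat_lit 1596) (nat_lit 271948791) (nat_lit 424) (nat_lit 3) (nat_lit 445) (nat_lit 3) (nat_lit 445) (nat_lit 5) (nat_lit 427) (nat_lit 427) (nat_lit 286)) (XT.nd (nat_lit 78) (nat_lit 1596) (nat_lit 0) (XT.lf (nat_lit 76) (nat_lit 4430072004) (nat_lit 0) (nat_lit 5953363997) (nat_lit 1596) (nat_lit 488913943) (nat_lit 425) (nat_lit 5) (nat_lit 424) (nat_lit 3) (nat_lit 445) (nat_lit 5) (nat_lit 428) (nat_lit 427) (nat_lit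 285)) (XT.lf (nat_lit 0) (nat_lit 108944194) (nat_lit 1596) (nat_lit 1467380572) (nat_lit 1672) (nat_lit 9393504901) (nat_lit 403) (nat_lit 5) (nat_lit 424) (nat_lit 3) (nat_lit 425) (nat_lit 5) (nat_lit 429) (nat_lit 427) (nat_lit 284)))) (XT.nd (nat_lit 156) (nat_lit 0) (nat_lit 76) (XT.nd (nat_lit 78) (nat_lit 0) (nat_lit 0) (XT.lf (nat_lit 0) (nat_lit 740073293) (nat_lit 1596) (nat_lit 7444209437) (nat_lit 1672) (nat_lit 2884366388) (nat_lit 404) (nat_lit 5) (nat_lit 425) (nat_lit 5) (nat_lit 426) (nat_lit 5) (nat_lit 430) (nat_lit 427) (nat_lit 283)) (XT.lf (nat_lit 0) (nat_lit 1389680490) (nat_lit 1596) (nat_lit 2349831731) (nat_lit 1672) (nat_lit 7429827365) (nat_lit 404) (nat_lit 5) (nat_lit 425) (nat_lit 5) (nat_lit 426) (nat_lit 5) (nat_lit 431) (nat_lit 427) (nat_lit 282))) (XT.nd (nat_lit 78) (nat_lit 0) (nat_lit 0) (XT.lf (nat_lit 0) (nat_lit 2062063512) (nat_lit 1596) (nat_lit 8401039021) (nat_lit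 1672) (nat_lit 808757165) (nat_lit 405) (nat_lit 5) (nat_lit 426) (nat_lit 5) (nat_lit 427) (nat_lit 5) (nat_lit 432) (nat_lit 427) (nat_lit 281)) (XT.lf (nat_lit 0) (nat_lit 2774588051) (nat_lit 1596) (nat_lit 3181432420) (nat_lit 1672) (nat_lit 5419887146) (nat_lit 405) (nat_lit 5) (nat_lit 426) (nat_lit 5) (nat_lit 427) (nat_lit 5) (nat_lit 433) (nat_lit 427) (nat_lit 280))))) (XT.nd (nat_lit 234) (nat_lit 0) (nat_lit 152) (XT.nd (nat_lit 78) (nat_lit 0) (nat_lit 76) (XT.lf (nat_lit 76) (nat_lit 2162906860) (nat_lit 0) (nat_lit 1338828502) (nat_lit 1672) (nat_lit 7980304751) (nat_lit 406) (nat_lit 5) (nat_lit 405) (nat_lit 5) (nat_lit 427) (nat_lit 5) (nat_lit 434) (nat_lit 427) (nat_lit 279)) (XT.nd (nat_lit 78) (nat_lit 0) (nat_lit 0) (XT.lf (nat_lit 0) (nat_lit 4273382082) (nat_lit 1596) (nat_lit 3962925526) (nat_lit 1672) (nat_lit 3353399364) (nat_lit 406) (nat_lit 5) (nat_lit 427) (nat_lit 5) (nat_lit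 428) (nat_lit 5) (nat_lit 435) (nat_lit 427) (nat_lit 278)) (XT.lf (nat_lit 76) (nat_lit 1503127175) (nat_lit 0) (nat_lit 3562804513) (nat_lit 1672) (nat_lit 6633496714) (nat_lit 407) (nat_lit 5) (nat_lit 406) (nat_lit 5) (nat_lit 428) (nat_lit 5) (nat_lit 436) (nat_lit 427) (nat_lit 277)))) (XT.nd (nat_lit 156) (nat_lit 0) (nat_lit 0) (XT.nd (nat_lit 78) (nat_lit 0) (nat_lit 0) (XT.lf (nat_lit 0) (nat_lit 5896001424) (nat_lit 1596) (nat_lit 4694961520) (nat_lit 1672) (nat_lit 1219958358) (nat_lit 407) (nat_lit 5) (nat_lit 428) (nat_lit 5) (nat_lit 429) (nat_lit 5) (nat_lit 437) (nat_lit 427) (nat_lit 276)) (XT.lf (nat_lit 76) (nat_lit 896356144) (nat_lit 0) (nat_lit 5863065631) (nat_lit 1672) (nat_lit 5164897518) (nat_lit 408) (nat_lit 5) (nat_lit 407) (nat_lit 5) (nat_lit 429) (nat_lit 5) (nat_lit 438) (nat_lit 427) (nat_lit 275))) (XT.nd (nat_lit 78) (nat_lit 0) (nat_lit 76) (XT.lf (nat_lit 76) (nat_lit 6654985635)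 (nat_lit 0) (nat_lit 1004160697) (nat_lit 1672) (nat_lit 4380468217) (nat_lit 408) (nat_lit 5) (nat_lit 407) (nat_lit 5) (nat_lit 429) (nat_lit 5) (nat_lit 439) (nat_lit 427) (nat_lit 274)) (XT.lf (nat_lit 76) (nat_lit 342122672) (nat_lit 0) (nat_lit 8250424597) (nat_lit 1672) (nat_lit 3564364624) (nat_lit 409) (nat_lit 5) (nat_lit 408) (nat_lit 5) (nat_lit 430) (nat_lit 5) (nat_lit 440) (nat_lit 427) (nat_lit 273))))))) (XT.nd (nat_lit 1092) (nat_lit 6992) (nat_lit 0) (XT.nd (nat_lit 546) (nat_lit 1368) (nat_lit 0) (XT.nd (nat_lit 234) (nat_lit 1596) (nat_lit 0) (XT.nd (nat_lit 78) (nat_lit 0) (nat_lit 76) (XT.lf (nat_lit 76) (nat_lit 6241437532) (nat_lit 0) (nat_lit 3333906592) (nat_lit 1672) (nat_lit 2700606132) (nat_lit 409) (nat_lit 5) (nat_lit 408) (nat_lit 5) (nat_lit 430) (nat_lit 5) (nat_lit 441) (nat_lit 427) (nat_lit 272)) (XT.nd (nat_lit 78) (nat_lit 0) (nat_lit 0) (XT.lf (nat_lit 0) (nat_lit 10576958237)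 (nat_lit 1596) (nat_lit 157875708) (nat_lit 1672) (nat_lit 1662561656) (nat_lit 409) (nat_lit 5) (nat_lit 430) (nat_lit 5) (nat_lit 431) (nat_lit 5) (nat_lit 442) (nat_lit 427) (nat_lit 271)) (XT.lf (nat_lit 76) (nat_lit 5883206646) (nat_lit 0) (nat_lit 5764152491) (nat_lit 1672) (nat_lit 872944881) (nat_lit 410) (nat_lit 5) (nat_lit 409) (nat_lit 5) (nat_lit 431) (nat_lit 5) (nat_lit 443) (nat_lit 427) (nat_lit 270)))) (XT.nd (nat_lit 156) (nat_lit 0) (nat_lit 76) (XT.nd (nat_lit 78) (nat_lit 0) (nat_lit 76) (XT.lf (nat_lit 0) (nat_lit 81904759) (nat_lit 1672) (nat_lit 607287746) (nat_lit 1748) (nat_lit 11956682184) (nat_lit 387) (nat_lit 5) (nat_lit 409) (nat_lit 5) (nat_lit 410) (nat_lit 5) (nat_lit 444) (nat_lit 427) (nat_lit 269)) (XT.lf (nat_lit 0) (nat_lit 1098774940) (nat_lit 1672) (nat_lit 7200075368) (nat_lit 1748) (nat_lit 4473907539) (nat_lit 388) (nat_lit 5) (nat_lit 410) (nat_lit 5) (nat_lit 411)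 (nat_lit 5) (nat_lit 445) (nat_lit 427) (nat_lit 268))) (XT.nd (nat_lit 78) (nat_lit 0) (nat_lit 76) (XT.lf (nat_lit 0) (nat_lit 2133627010) (nat_lit 1672) (nat_lit 1030512355) (nat_lit 1748) (nat_lit 9738094963) (nat_lit 388) (nat_lit 5) (nat_lit 410) (nat_lit 5) (nat_lit 411) (nat_lit 5) (nat_lit 446) (nat_lit 427) (nat_lit 267)) (XT.lf (nat_lit 0) (nat_lit 3226645284) (nat_lit 1672) (nat_lit 7723417115) (nat_lit 1748) (nat_lit 2083496941) (nat_lit 389) (nat_lit 5) (nat_lit 411) (nat_lit 5) (nat_lit 412) (nat_lit 5) (nat_lit 447) (nat_lit 427) (nat_lit 266))))) (XT.nd (nat_lit 234) (nat_lit 1520) (nat_lit 0) (XT.nd (nat_lit 78) (nat_lit 0) (nat_lit 0) (XT.lf (nat_lit 0) (nat_lit 4358809699) (nat_lit 1672) (nat_lit 1405123460) (nat_lit 1748) (nat_lit 7403240196) (nat_lit 389) (nat_lit 5) (nat_lit 411) (nat_lit 5) (nat_lit 412) (nat_lit 5) (nat_lit 448) (nat_lit 427) (nat_lit 265)) (XT.nd (nat_lit 78) (nat_lit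 0) (nat_lit 76) (XT.lf (nat_lit 76) (nat_lit 5098234330) (nat_lit 0) (nat_lit 438062753) (nat_lit 1748) (nat_lit 7766717031) (nat_lit 390) (nat_lit 5) (nat_lit 389) (nat_lit 5) (nat_lit 412) (nat_lit 5) (nat_lit 449) (nat_lit 427) (nat_lit 264)) (XT.lf (nat_lit 0) (nat_lit 6768996493) (nat_lit 1672) (nat_lit 1731505504) (nat_lit 1748) (nat_lit 4940444347) (nat_lit 390) (nat_lit 5) (nat_lit 412) (nat_lit 5) (nat_lit 413) (nat_lit 5) (nat_lit 450) (nat_lit 427) (nat_lit 263)))) (XT.nd (nat_lit 156) (nat_lit 1596) (nat_lit 0) (XT.nd (nat_lit 78) (nat_lit 0) (nat_lit 76) (XT.lf (nat_lit 76) (nat_lit 4924746059) (nat_lit 0) (nat_lit 3126424962) (nat_lit 1748) (nat_lit 5529977519) (nat_lit 391) (nat_lit 5) (nat_lit 390) (nat_lit 5) (nat_lit 413) (nat_lit 5) (nat_lit 451) (nat_lit 427) (nat_lit 262)) (XT.lf (nat_lit 0) (nat_lit 9376077751) (nat_lit 1672) (nat_lit 2010036438) (nat_lit 76) (nat_lit 2337706409) (nat_lit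 391) (nat_lit 5) (nat_lit 413) (nat_lit 5) (nat_lit 392) (nat_lit 5) (nat_lit 452) (nat_lit 427) (nat_lit 261))) (XT.nd (nat_lit 78) (nat_lit 0) (nat_lit 0) (XT.lf (nat_lit 0) (nat_lit 4803373077) (nat_lit 1672) (nat_lit 5966296474) (nat_lit 1748) (nat_lit 3098840252) (nat_lit 369) (nat_lit 5) (nat_lit 391) (nat_lit 5) (nat_lit 392) (nat_lit 5) (nat_lit 453) (nat_lit 427) (nat_lit 260)) (XT.lf (nat_lit 0) (nat_lit 11772174997) (nat_lit 1672) (nat_lit 422879593) (nat_lit 1748) (nat_lit 1820967073) (nat_lit 369) (nat_lit 5) (nat_lit 391) (nat_lit 5) (nat_lit 392) (nat_lit 5) (nat_lit 454) (nat_lit 427) (nat_lit 259)))))) (XT.nd (nat_lit 546) (nat_lit 3116) (nat_lit 0) (XT.nd (nat_lit 234) (nat_lit 1672) (nat_lit 0) (XT.nd (nat_lit 78) (nat_lit 912) (nat_lit 0) (XT.lf (nat_lit 0) (nat_lit 4733821321) (nat_lit 1292) (nat_lit 8970456656) (nat_lit 1368) (nat_lit 461106325) (nat_lit 352) (nat_lit 5) (nat_lit 369) (nat_lit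 5) (nat_lit 370) (nat_lit 5) (nat_lit 455) (nat_lit 427) (nat_lit 258)) (XT.nd (nat_lit 78) (nat_lit 836) (nat_lit 0) (XT.lf (nat_lit 0) (nat_lit 922457980) (nat_lit 1368) (nat_lit 2453130452) (nat_lit 76) (nat_lit 10941859393) (nat_lit 351) (nat_lit 5) (nat_lit 369) (nat_lit 5) (nat_lit 352) (nat_lit 5) (nat_lit 456) (nat_lit 427) (nat_lit 257)) (XT.lf (nat_lit 0) (nat_lit 2364382328) (nat_lit 912) (nat_lit 9771853249) (nat_lit 76) (nat_lit 2335525567) (nat_lit 340) (nat_lit 5) (nat_lit 352) (nat_lit 5) (nat_lit 341) (nat_lit 5) (nat_lit 457) (nat_lit 427) (nat_lit 256)))) (XT.nd (nat_lit 156) (nat_lit 836) (nat_lit 0) (XT.nd (nat_lit 78) (nat_lit 836) (nat_lit 0) (XT.lf (nat_lit 0) (nat_lit 3865079169) (nat_lit 912) (nat_lit 2630257479) (nat_lit 76) (nat_lit 8133232011) (nat_lit 340) (nat_lit 5) (nat_lit 352) (nat_lit 5) (nat_lit 341) (nat_lit 5) (nat_lit 458) (nat_lit 427) (nat_lit 255)) (XT.lf (nat_lit 0)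 (nat_lit 4707853855) (nat_lit 836) (nat_lit 709687211) (nat_lit 912) (nat_lit 9370542716) (nat_lit 329) (nat_lit 5) (nat_lit 340) (nat_lit 5) (nat_lit 341) (nat_lit 5) (nat_lit 459) (nat_lit 427) (nat_lit 254))) (XT.nd (nat_lit 78) (nat_lit 836) (nat_lit 0) (XT.lf (nat_lit 0) (nat_lit 7043837232) (nat_lit 912) (nat_lit 2764072015) (nat_lit 76) (nat_lit 5142030615) (nat_lit 329) (nat_lit 5) (nat_lit 341) (nat_lit 5) (nat_lit 330) (nat_lit 5) (nat_lit 460) (nat_lit 427) (nat_lit 253)) (XT.lf (nat_lit 0) (nat_lit 4747947587) (nat_lit 836) (nat_lit 3981718794) (nat_lit 912) (nat_lit 6384832769) (nat_lit 318) (nat_lit 5) (nat_lit 329) (nat_lit 5) (nat_lit 330) (nat_lit 5) (nat_lit 461) (nat_lit 427) (nat_lit 252))))) (XT.nd (nat_lit 312) (nat_lit 1444) (nat_lit 0) (XT.nd (nat_lit 156) (nat_lit 836) (nat_lit 0) (XT.nd (nat_lit 78) (nat_lit 836) (nat_lit 0) (XT.lf (nat_lit 0) (nat_lit 10472213746) (nat_lit 912) (nat_lit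 2855314129) (nat_lit 76) (nat_lit 1954367823) (nat_lit 318) (nat_lit 5) (nat_lit 330) (nat_lit 5) (nat_lit 319) (nat_lit 5) (nat_lit 462) (nat_lit 427) (nat_lit 251)) (XT.lf (nat_lit 0) (nat_lit 4835197602) (nat_lit 836) (nat_lit 7463939835) (nat_lit 912) (nat_lit 3152518220) (nat_lit 307) (nat_lit 5) (nat_lit 318) (nat_lit 5) (nat_lit 319) (nat_lit 5) (nat_lit 463) (nat_lit 427) (nat_lit 250))) (XT.nd (nat_lit 78) (nat_lit 836) (nat_lit 0) (XT.lf (nat_lit 0) (nat_lit 12710280771) (nat_lit 836) (nat_lit 1463352499) (nat_lit 912) (nat_lit 1450962742) (nat_lit 307) (nat_lit 5) (nat_lit 318) (nat_lit 5) (nat_lit 319) (nat_lit 5) (nat_lit 464) (nat_lit 427) (nat_lit 249)) (XT.lf (nat_lit 0) (nat_lit 335778921) (nat_lit 836) (nat_lit 10833273406) (nat_lit 76) (nat_lit 4630813769) (nat_lit 296) (nat_lit 5) (nat_lit 307) (nat_lit 5) (nat_lit 297) (nat_lit 5) (nat_lit 465) (nat_lit 427) (nat_lit 248)))) (XT.nd (nat_lit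 156) (nat_lit 684) (nat_lit 0) (XT.nd (nat_lit 78) (nat_lit 760) (nat_lit 0) (XT.lf (nat_lit 0) (nat_lit 2160303168) (nat_lit 836) (nat_lit 2961069277) (nat_lit 76) (nat_lit 10856653329) (nat_lit 296) (nat_lit 5) (nat_lit 307) (nat_lit 5) (nat_lit 297) (nat_lit 5) (nat_lit 466) (nat_lit 427) (nat_lit 247)) (XT.lf (nat_lit 0) (nat_lit 4053867626) (nat_lit 836) (nat_lit 11038284783) (nat_lit 76) (nat_lit 1066950663) (nat_lit 286) (nat_lit 5) (nat_lit 297) (nat_lit 5) (nat_lit 287) (nat_lit 5) (nat_lit 467) (nat_lit 427) (nat_lit 246))) (XT.nd (nat_lit 78) (nat_lit 684) (nat_lit 0) (XT.lf (nat_lit 0) (nat_lit 6031558403) (nat_lit 836) (nat_lit 2980931962) (nat_lit 76) (nat_lit 7330391767) (nat_lit 286) (nat_lit 5) (nat_lit 297) (nat_lit 5) (nat_lit 287) (nat_lit 5) (nat_lit 468) (nat_lit 427) (nat_lit 245)) (XT.lf (nat_lit 0) (nat_lit 5299263644) (nat_lit 684) (nat_lit 2776432676) (nat_lit 760) (nat_lit 8454107800)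 (nat_lit 277) (nat_lit 5) (nat_lit 286) (nat_lit 5) (nat_lit 287) (nat_lit 5) (nat_lit 469) (nat_lit 427) (nat_lit 244))))))))
noncomputable def xc204 : XT := (XT.nd (nat_lit 2184) (nat_lit 4636) (nat_lit 0) (XT.nd (nat_lit 1092) (nat_lit 3724) (nat_lit 0) (XT.nd (nat_lit 546) (nat_lit 2508) (nat_lit 0) (XT.nd (nat_lit 234) (nat_lit 1444) (nat_lit 0) (XT.nd (nat_lit 78) (nat_lit 760) (nat_lit 0) (XT.lf (nat_lit 0) (nat_lit 10196706816) (nat_lit 760) (nat_lit 2965903376) (nat_lit 76) (nat_lit 3557139668) (nat_lit 277) (nat_lit 5) (nat_lit 287) (nat_lit 5) (nat_lit 278) (nat_lit 5) (nat_lit 470) (nat_lit 427) (nat_lit 243)) (XT.nd (nat_lit 78) (nat_lit 0) (nat_lit 0) (XT.lf (nat_lit 0) (nat_lit 5510156227) (nat_lit 760) (nat_lit 6896871079) (nat_lit 836) (nat_lit 4505534424) (nat_lit 267) (nat_lit 5) (nat_lit 277) (nat_lit 5) (nat_lit 278) (nat_lit 5) (nat_lit 471) (nat_lit 427) (nat_lit 242)) (XT.lf (nat_lit 0)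 (nat_lit 14188241655) (nat_lit 760) (nat_lit 486035166) (nat_lit 836) (nat_lit 2434703474) (nat_lit 267) (nat_lit 5) (nat_lit 277) (nat_lit 5) (nat_lit 278) (nat_lit 5) (nat_lit 472) (nat_lit 427) (nat_lit 241)))) (XT.nd (nat_lit 156) (nat_lit 684) (nat_lit 0) (XT.nd (nat_lit 78) (nat_lit 76) (nat_lit 0) (XT.lf (nat_lit 0) (nat_lit 5759102712) (nat_lit 684) (nat_lit 11297418061) (nat_lit 760) (nat_lit 251418286) (nat_lit 258) (nat_lit 5) (nat_lit 267) (nat_lit 5) (nat_lit 268) (nat_lit 5) (nat_lit 473) (nat_lit 427) (nat_lit 240)) (XT.lf (nat_lit 0) (nat_lit 1965566512) (nat_lit 760) (nat_lit 2882265209) (nat_lit 76) (nat_lit 12662474508) (nat_lit 257) (nat_lit 5) (nat_lit 267) (nat_lit 5) (nat_lit 258) (nat_lit 5) (nat_lit 474) (nat_lit 427) (nat_lit 239))) (XT.nd (nat_lit 78) (nat_lit 0) (nat_lit 0) (XT.lf (nat_lit 0) (nat_lit 4267296924) (nat_lit 760) (nat_lit 11700111795) (nat_lit 76) (nat_lit 1748407876)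 (nat_lit 248) (nat_lit 5) (nat_lit 258) (nat_lit 5) (nat_lit 249) (nat_lit 5) (nat_lit 475) (nat_lit 427) (nat_lit 238)) (XT.lf (nat_lit 0) (nat_lit 6659849684) (nat_lit 760) (nat_lit 2834250203) (nat_lit 76) (nat_lit 8430445973) (nat_lit 248) (nat_lit 5) (nat_lit 258) (nat_lit 5) (nat_lit 249) (nat_lit 5) (nat_lit 476) (nat_lit 427) (nat_lit 237))))) (XT.nd (nat_lit 234) (nat_lit 1292) (nat_lit 0) (XT.nd (nat_lit 78) (nat_lit 608) (nat_lit 0) (XT.lf (nat_lit 0) (nat_lit 6283821477) (nat_lit 608) (nat_lit 2850577121) (nat_lit 684) (nat_lit 9002372573) (nat_lit 240) (nat_lit 5) (nat_lit 248) (nat_lit 5) (nat_lit 249) (nat_lit 5) (nat_lit 477) (nat_lit 427) (nat_lit 236)) (XT.nd (nat_lit 78) (nat_lit 608) (nat_lit 0) (XT.lf (nat_lit 0) (nat_lit 11696495239) (nat_lit 684) (nat_lit 2763402945) (nat_lit 76) (nat_lit 3892585945) (nat_lit 240) (nat_lit 5) (nat_lit 249) (nat_lit 5) (nat_lit 241) (nat_lit 5) (nat_lit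 478) (nat_lit 427) (nat_lit 235)) (XT.lf (nat_lit 0) (nat_lit 6567741915) (nat_lit 608) (nat_lit 7797163476) (nat_lit 684) (nat_lit 4206508715) (nat_lit 232) (nat_lit 5) (nat_lit 240) (nat_lit 5) (nat_lit 241) (nat_lit 5) (nat_lit 479) (nat_lit 427) (nat_lit 234)))) (XT.nd (nat_lit 156) (nat_lit 608) (nat_lit 0) (XT.nd (nat_lit 78) (nat_lit 684) (nat_lit 0) (XT.lf (nat_lit 0) (nat_lit 16115565410) (nat_lit 608) (nat_lit 983292053) (nat_lit 684) (nat_lit 1695625856) (nat_lit 232) (nat_lit 5) (nat_lit 240) (nat_lit 5) (nat_lit 241) (nat_lit 5) (nat_lit 480) (nat_lit 427) (nat_lit 233)) (XT.lf (nat_lit 0) (nat_lit 931765727) (nat_lit 684) (nat_lit 12150209575) (nat_lit 76) (nat_lit 5938377341) (nat_lit 223) (nat_lit 5) (nat_lit 232) (nat_lit 5) (nat_lit 224) (nat_lit 5) (nat_lit 481) (nat_lit 427) (nat_lit 232))) (XT.nd (nat_lit 78) (nat_lit 608) (nat_lit 0) (XT.lf (nat_lit 0) (nat_lit 3607408144) (nat_lit 684)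 (nat_lit 2629159467) (nat_lit 76) (nat_lit 13013583304) (nat_lit 223) (nat_lit 5) (nat_lit 232) (nat_lit 5) (nat_lit 224) (nat_lit 5) (nat_lit 482) (nat_lit 427) (nat_lit 231)) (XT.lf (nat_lit 0) (nat_lit 6382152579) (nat_lit 684) (nat_lit 12319820033) (nat_lit 76) (nat_lit 781664554) (nat_lit 215) (nat_lit 5) (nat_lit 224) (nat_lit 5) (nat_lit 216) (nat_lit 5) (nat_lit 483) (nat_lit 427) (nat_lit 230)))))) (XT.nd (nat_lit 546) (nat_lit 2052) (nat_lit 0) (XT.nd (nat_lit 234) (nat_lit 1140) (nat_lit 0) (XT.nd (nat_lit 78) (nat_lit 532) (nat_lit 0) (XT.lf (nat_lit 0) (nat_lit 9265418806) (nat_lit 684) (nat_lit 2581907991) (nat_lit 76) (nat_lit 7873409529) (nat_lit 215) (nat_lit 5) (nat_lit 224) (nat_lit 5) (nat_lit 216) (nat_lit 5) (nat_lit 484) (nat_lit 427) (nat_lit 229)) (XT.nd (nat_lit 78) (nat_lit 0) (nat_lit 0) (XT.lf (nat_lit 0) (nat_lit 7441157040) (nat_lit 532) (nat_lit 4807589820) (nat_lit 608) (nat_lit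 7712986328) (nat_lit 208) (nat_lit 5) (nat_lit 215) (nat_lit 5) (nat_lit 216) (nat_lit 5) (nat_lit 485) (nat_lit 427) (nat_lit 228)) (XT.lf (nat_lit 0) (nat_lit 15318733592) (nat_lit 608) (nat_lit 2530305174) (nat_lit 76) (nat_lit 2357974958) (nat_lit 208) (nat_lit 5) (nat_lit 216) (nat_lit 5) (nat_lit 209) (nat_lit 5) (nat_lit 486) (nat_lit 427) (nat_lit 227)))) (XT.nd (nat_lit 156) (nat_lit 532) (nat_lit 0) (XT.nd (nat_lit 78) (nat_lit 76) (nat_lit 0) (XT.lf (nat_lit 0) (nat_lit 7722089800) (nat_lit 532) (nat_lit 10804265039) (nat_lit 608) (nat_lit 1929323843) (nat_lit 201) (nat_lit 5) (nat_lit 208) (nat_lit 5) (nat_lit 209) (nat_lit 5) (nat_lit 487) (nat_lit 427) (nat_lit 226)) (XT.lf (nat_lit 0) (nat_lit 1085908917) (nat_lit 608) (nat_lit 2509479605) (nat_lit 76) (nat_lit 17113562856) (nat_lit 200) (nat_lit 5) (nat_lit 208) (nat_lit 5) (nat_lit 201) (nat_lit 5) (nat_lit 488) (nat_lit 427) (nat_lit 225)))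 (XT.nd (nat_lit 78) (nat_lit 0) (nat_lit 0) (XT.lf (nat_lit 0) (nat_lit 4206820189) (nat_lit 608) (nat_lit 12986626047) (nat_lit 76) (nat_lit 3772167391) (nat_lit 193) (nat_lit 5) (nat_lit 201) (nat_lit 5) (nat_lit 194) (nat_lit 5) (nat_lit 489) (nat_lit 427) (nat_lit 224)) (XT.lf (nat_lit 0) (nat_lit 7425364254) (nat_lit 608) (nat_lit 2546824114) (nat_lit 76) (nat_lit 11254519703) (nat_lit 193) (nat_lit 5) (nat_lit 201) (nat_lit 5) (nat_lit 194) (nat_lit 5) (nat_lit 490) (nat_lit 427) (nat_lit 223))))) (XT.nd (nat_lit 234) (nat_lit 1064) (nat_lit 0) (XT.nd (nat_lit 78) (nat_lit 456) (nat_lit 0) (XT.lf (nat_lit 0) (nat_lit 8202418168) (nat_lit 532) (nat_lit 2553677939) (nat_lit 608) (nat_lit 10735975134) (nat_lit 186) (nat_lit 5) (nat_lit 193) (nat_lit 5) (nat_lit 194) (nat_lit 5) (nat_lit 491) (nat_lit 427) (nat_lit 222)) (XT.nd (nat_lit 78) (nat_lit 456) (nat_lit 0) (XT.lf (nat_lit 0) (nat_lit 14197808845)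 (nat_lit 608) (nat_lit 2600881038) (nat_lit 76) (nat_lit 4963167583) (nat_lit 186) (nat_lit 5) (nat_lit 194) (nat_lit 5) (nat_lit 187) (nat_lit 5) (nat_lit 492) (nat_lit 427) (nat_lit 221)) (XT.lf (nat_lit 0) (nat_lit 8387913539) (nat_lit 456) (nat_lit 9386533084) (nat_lit 532) (nat_lit 4261274028) (nat_lit 180) (nat_lit 5) (nat_lit 186) (nat_lit 5) (nat_lit 187) (nat_lit 5) (nat_lit 493) (nat_lit 427) (nat_lit 220)))) (XT.nd (nat_lit 156) (nat_lit 456) (nat_lit 0) (XT.nd (nat_lit 78) (nat_lit 608) (nat_lit 0) (XT.lf (nat_lit 0) (nat_lit 19624934584) (nat_lit 456) (nat_lit 1809914334) (nat_lit 532) (nat_lit 879970544) (nat_lit 180) (nat_lit 5) (nat_lit 186) (nat_lit 5) (nat_lit 187) (nat_lit 5) (nat_lit 494) (nat_lit 427) (nat_lit 219)) (XT.lf (nat_lit 0) (nat_lit 2624687467) (nat_lit 608) (nat_lit 14060800541) (nat_lit 76) (nat_lit 5911893111) (nat_lit 172) (nat_lit 5) (nat_lit 180) (nat_lit 5) (nat_lit 173)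 (nat_lit 5) (nat_lit 495) (nat_lit 427) (nat_lit 218))) (XT.nd (nat_lit 78) (nat_lit 456) (nat_lit 0) (XT.lf (nat_lit 0) (nat_lit 6212714396) (nat_lit 608) (nat_lit 2885921957) (nat_lit 76) (nat_lit 13786342976) (nat_lit 172) (nat_lit 5) (nat_lit 180) (nat_lit 5) (nat_lit 173) (nat_lit 5) (nat_lit 496) (nat_lit 427) (nat_lit 217)) (XT.lf (nat_lit 0) (nat_lit 8618831872) (nat_lit 456) (nat_lit 1304620611) (nat_lit 532) (nat_lit 13253860771) (nat_lit 166) (nat_lit 5) (nat_lit 172) (nat_lit 5) (nat_lit 173) (nat_lit 5) (nat_lit 497) (nat_lit 427) (nat_lit 216))))))) (XT.nd (nat_lit 1092) (nat_lit 1520) (nat_lit 0) (XT.nd (nat_lit 546) (nat_lit 1672) (nat_lit 0) (XT.nd (nat_lit 234) (nat_lit 988) (nat_lit 0) (XT.nd (nat_lit 78) (nat_lit 456) (nat_lit 0) (XT.lf (nat_lit 0) (nat_lit 13766081082) (nat_lit 532) (nat_lit 3132287138) (nat_lit 76) (nat_lit 6575974836) (nat_lit 166) (nat_lit 5) (nat_lit 173) (nat_lit 5)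 (nat_lit 167) (nat_lit 5) (nat_lit 498) (nat_lit 427) (nat_lit 215)) (XT.nd (nat_lit 78) (nat_lit 0) (nat_lit 0) (XT.lf (nat_lit 0) (nat_lit 8620272025) (nat_lit 456) (nat_lit 9125031860) (nat_lit 532) (nat_lit 6030817394) (nat_lit 160) (nat_lit 5) (nat_lit 166) (nat_lit 5) (nat_lit 167) (nat_lit 5) (nat_lit 499) (nat_lit 427) (nat_lit 214)) (XT.lf (nat_lit 0) (nat_lit 20643809097) (nat_lit 456) (nat_lit 1176507598) (nat_lit 532) (nat_lit 2263296868) (nat_lit 160) (nat_lit 5) (nat_lit 166) (nat_lit 5) (nat_lit 167) (nat_lit 5) (nat_lit 500) (nat_lit 427) (nat_lit 213)))) (XT.nd (nat_lit 156) (nat_lit 456) (nat_lit 0) (XT.nd (nat_lit 78) (nat_lit 0) (nat_lit 0) (XT.lf (nat_lit 0) (nat_lit 1655412442) (nat_lit 532) (nat_lit 15834743603) (nat_lit 76) (nat_lit 6904965943) (nat_lit 153) (nat_lit 5) (nat_lit 160) (nat_lit 5) (nat_lit 154) (nat_lit 5) (nat_lit 501) (nat_lit 427) (nat_lit 212)) (XT.lf (nat_lit 0) (nat_lit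 5648533059) (nat_lit 532) (nat_lit 3894652164) (nat_lit 76) (nat_lit 15168851753) (nat_lit 153) (nat_lit 5) (nat_lit 160) (nat_lit 5) (nat_lit 154) (nat_lit 5) (nat_lit 502) (nat_lit 427) (nat_lit 211))) (XT.nd (nat_lit 78) (nat_lit 0) (nat_lit 0) (XT.lf (nat_lit 0) (nat_lit 8387864592) (nat_lit 456) (nat_lit 1383490616) (nat_lit 532) (nat_lit 15262940682) (nat_lit 147) (nat_lit 5) (nat_lit 153) (nat_lit 5) (nat_lit 154) (nat_lit 5) (nat_lit 503) (nat_lit 427) (nat_lit 210)) (XT.lf (nat_lit 0) (nat_lit 14043414672) (nat_lit 532) (nat_lit 4445305951) (nat_lit 76) (nat_lit 6872946102) (nat_lit 147) (nat_lit 5) (nat_lit 154) (nat_lit 5) (nat_lit 148) (nat_lit 5) (nat_lit 504) (nat_lit 427) (nat_lit 209))))) (XT.nd (nat_lit 234) (nat_lit 760) (nat_lit 0) (XT.nd (nat_lit 78) (nat_lit 532) (nat_lit 0) (XT.lf (nat_lit 0) (nat_lit 8090488777) (nat_lit 380) (nat_lit 10367624862) (nat_lit 456) (nat_lit 7236329686) (nat_lit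 142) (nat_lit 5) (nat_lit 147) (nat_lit 5) (nat_lit 148) (nat_lit 5) (nat_lit 505) (nat_lit 427) (nat_lit 208)) (XT.nd (nat_lit 78) (nat_lit 532) (nat_lit 0) (XT.lf (nat_lit 0) (nat_lit 20930998981) (nat_lit 380) (nat_lit 2055492714) (nat_lit 456) (nat_lit 3046878327) (nat_lit 142) (nat_lit 5) (nat_lit 147) (nat_lit 5) (nat_lit 148) (nat_lit 5) (nat_lit 506) (nat_lit 427) (nat_lit 207)) (XT.lf (nat_lit 0) (nat_lit 1298195070) (nat_lit 532) (nat_lit 18683524087) (nat_lit 76) (nat_lit 6395440692) (nat_lit 135) (nat_lit 5) (nat_lit 142) (nat_lit 5) (nat_lit 136) (nat_lit 5) (nat_lit 507) (nat_lit 427) (nat_lit 206)))) (XT.nd (nat_lit 156) (nat_lit 380) (nat_lit 0) (XT.nd (nat_lit 78) (nat_lit 380) (nat_lit 0) (XT.lf (nat_lit 0) (nat_lit 5733134463) (nat_lit 532) (nat_lit 5952663281) (nat_lit 76) (nat_lit 15040751824) (nat_lit 135) (nat_lit 5) (nat_lit 142) (nat_lit 5) (nat_lit 136) (nat_lit 5) (nat_lit 508) (nat_lit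 427) (nat_lit 205)) (XT.lf (nat_lit 0) (nat_lit 7120086152) (nat_lit 380) (nat_lit 3178645412) (nat_lit 456) (nat_lit 16783358434) (nat_lit 130) (nat_lit 5) (nat_lit 135) (nat_lit 5) (nat_lit 136) (nat_lit 5) (nat_lit 509) (nat_lit 427) (nat_lit 204))) (XT.nd (nat_lit 78) (nat_lit 380) (nat_lit 0) (XT.lf (nat_lit 0) (nat_lit 15027314463) (nat_lit 456) (nat_lit 6951071445) (nat_lit 76) (nat_lit 5464923908) (nat_lit 130) (nat_lit 5) (nat_lit 136) (nat_lit 5) (nat_lit 131) (nat_lit 5) (nat_lit 510) (nat_lit 427) (nat_lit 203)) (XT.lf (nat_lit 0) (nat_lit 6376635989) (nat_lit 380) (nat_lit 13532131019) (nat_lit 456) (nat_lit 7901823076) (nat_lit 125) (nat_lit 5) (nat_lit 130) (nat_lit 5) (nat_lit 131) (nat_lit 5) (nat_lit 511) (nat_lit 427) (nat_lit 202)))))) (XT.nd (nat_lit 546) (nat_lit 456) (nat_lit 0) (XT.nd (nat_lit 234) (nat_lit 684) (nat_lit 0) (XT.nd (nat_lit 78) (nat_lit 380) (nat_lit 0) (XT.lf (nat_lit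 0) (nat_lit 20059137095) (nat_lit 380) (nat_lit 4871245465) (nat_lit 456) (nat_lit 3253984695) (nat_lit 125) (nat_lit 5) (nat_lit 130) (nat_lit 5) (nat_lit 131) (nat_lit 5) (nat_lit 512) (nat_lit 427) (nat_lit 201)) (XT.nd (nat_lit 78) (nat_lit 0) (nat_lit 0) (XT.lf (nat_lit 0) (nat_lit 1525019984) (nat_lit 380) (nat_lit 23084504541) (nat_lit 76) (nat_lit 3954750089) (nat_lit 120) (nat_lit 5) (nat_lit 125) (nat_lit 5) (nat_lit 121) (nat_lit 5) (nat_lit 513) (nat_lit 427) (nat_lit 200)) (XT.lf (nat_lit 0) (nat_lit 6439190094) (nat_lit 380) (nat_lit 9543803979) (nat_lit 76) (nat_lit 12966694606) (nat_lit 120) (nat_lit 5) (nat_lit 125) (nat_lit 5) (nat_lit 121) (nat_lit 5) (nat_lit 514) (nat_lit 427) (nat_lit 199)))) (XT.nd (nat_lit 156) (nat_lit 304) (nat_lit 0) (XT.nd (nat_lit 78) (nat_lit 0) (nat_lit 0) (XT.lf (nat_lit 0) (nat_lit 4318511654) (nat_lit 380) (nat_lit 7157219515) (nat_lit 456) (nat_lit 17866599932)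 (nat_lit 115) (nat_lit 5) (nat_lit 120) (nat_lit 5) (nat_lit 121) (nat_lit 5) (nat_lit 515) (nat_lit 427) (nat_lit 198)) (XT.lf (nat_lit 0) (nat_lit 16685527059) (nat_lit 456) (nat_lit 11172373025) (nat_lit 76) (nat_lit 1883477596) (nat_lit 115) (nat_lit 5) (nat_lit 121) (nat_lit 5) (nat_lit 116) (nat_lit 5) (nat_lit 516) (nat_lit 427) (nat_lit 197))) (XT.nd (nat_lit 78) (nat_lit 0) (nat_lit 0) (XT.lf (nat_lit 0) (nat_lit 2941530900) (nat_lit 304) (nat_lit 19120638563) (nat_lit 380) (nat_lit 8084984468) (nat_lit 111) (nat_lit 5) (nat_lit 115) (nat_lit 5) (nat_lit 116) (nat_lit 5) (nat_lit 517) (nat_lit 427) (nat_lit 196)) (XT.lf (nat_lit 0) (nat_lit 17483443870) (nat_lit 304) (nat_lit 10134065099) (nat_lit 380) (nat_lit 2942115175) (nat_lit 111) (nat_lit 5) (nat_lit 115) (nat_lit 5) (nat_lit 116) (nat_lit 5) (nat_lit 518) (nat_lit 427) (nat_lit 195))))) (XT.nd (nat_lit 52416) (nat_lit 0) (nat_lit 22648) (XT.nd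 (nat_lit 52260) (nat_lit 0) (nat_lit 22648) (XT.lf (nat_lit 0) (nat_lit 1332720553) (nat_lit 380) (nat_lit 945571609) (nat_lit 456) (nat_lit 28701656260) (nat_lit 105) (nat_lit 5) (nat_lit 110) (nat_lit 5) (nat_lit 111) (nat_lit 5) (nat_lit 519) (nat_lit 427) (nat_lit 194)) (XT.nd (nat_lit 78) (nat_lit 0) (nat_lit 0) (XT.lf (nat_lit 0) (nat_lit 10866504) (nat_lit 0) (nat_lit 10866504) (nat_lit 1596) (nat_lit 5462762612) (nat_lit 403) (nat_lit 5) (nat_lit 403) (nat_lit 3) (nat_lit 424) (nat_lit 3) (nat_lit 428) (nat_lit 428) (nat_lit 284)) (XT.lf (nat_lit 0) (nat_lit 627454126) (nat_lit 1596) (nat_lit 5979240963) (nat_lit 1672) (nat_lit 4459867474) (nat_lit 403) (nat_lit 5) (nat_lit 424) (nat_lit 3) (nat_lit 425) (nat_lit 5) (nat_lit 429) (nat_lit 428) (nat_lit 283)))) (XT.nd (nat_lit 156) (nat_lit 0) (nat_lit 76) (XT.nd (nat_lit 78) (nat_lit 0) (nat_lit 76) (XT.lf (nat_lit 0) (nat_lit 1208775931) (nat_lit 1596)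 (nat_lit 919625542) (nat_lit 1672) (nat_lit 9037982498) (nat_lit 403) (nat_lit 5) (nat_lit 424) (nat_lit 3) (nat_lit 425) (nat_lit 5) (nat_lit 430) (nat_lit 428) (nat_lit 282)) (XT.lf (nat_lit 0) (nat_lit 1831438453) (nat_lit 1596) (nat_lit 6994030026) (nat_lit 1672) (nat_lit 2442150549) (nat_lit 404) (nat_lit 5) (nat_lit 425) (nat_lit 5) (nat_lit 426) (nat_lit 5) (nat_lit 431) (nat_lit 428) (nat_lit 281))) (XT.nd (nat_lit 78) (nat_lit 0) (nat_lit 76) (XT.lf (nat_lit 0) (nat_lit 2472928701) (nat_lit 1596) (nat_lit 1809511112) (nat_lit 1672) (nat_lit 7088322769) (nat_lit 404) (nat_lit 5) (nat_lit 425) (nat_lit 5) (nat_lit 426) (nat_lit 5) (nat_lit 432) (nat_lit 428) (nat_lit 280)) (XT.lf (nat_lit 0) (nat_lit 3138897588) (nat_lit 1596) (nat_lit 7961042807) (nat_lit 1672) (nat_lit 375806696) (nat_lit 405) (nat_lit 5) (nat_lit 426) (nat_lit 5) (nat_lit 427) (nat_lit 5) (nat_lit 433) (nat_lit 428) (nat_lit 279))))))))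
noncomputable def xc205 : XT := (XT.nd (nat_lit 2184) (nat_lit 9804) (nat_lit 0) (XT.nd (nat_lit 1092) (nat_lit 4408) (nat_lit 0) (XT.nd (nat_lit 546) (nat_lit 1368) (nat_lit 0) (XT.nd (nat_lit 234) (nat_lit 0) (nat_lit 76) (XT.nd (nat_lit 78) (nat_lit 0) (nat_lit 0) (XT.lf (nat_lit 0) (nat_lit 3845366877) (nat_lit 1596) (nat_lit 2648965976) (nat_lit 1672) (nat_lit 5087965662) (nat_lit 405) (nat_lit 5) (nat_lit 426) (nat_lit 5) (nat_lit 427) (nat_lit 5) (nat_lit 434) (nat_lit 428) (nat_lit 278)) (XT.nd (nat_lit 78) (nat_lit 0) (nat_lit 76) (XT.lf (nat_lit 76) (nat_lit 2798338412) (nat_lit 0) (nat_lit 1772655915) (nat_lit 1672) (nat_lit 7119896697) (nat_lit 406) (nat_lit 5) (nat_lit 405) (nat_lit 5) (nat_lit 427) (nat_lit 5) (nat_lit 435) (nat_lit 428) (nat_lit 277)) (XT.lf (nat_lit 0) (nat_lit 5335890325) (nat_lit 1596) (nat_lit 3438648596) (nat_lit 1672) (nat_lit 3026631765) (nat_lit 406) (nat_lit 5) (nat_lit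 427) (nat_lit 5) (nat_lit 428) (nat_lit 5) (nat_lit 436) (nat_lit 428) (nat_lit 276)))) (XT.nd (nat_lit 156) (nat_lit 0) (nat_lit 76) (XT.nd (nat_lit 78) (nat_lit 0) (nat_lit 76) (XT.lf (nat_lit 76) (nat_lit 2132754531) (nat_lit 0) (nat_lit 3996271505) (nat_lit 1672) (nat_lit 5784381288) (nat_lit 407) (nat_lit 5) (nat_lit 406) (nat_lit 5) (nat_lit 428) (nat_lit 5) (nat_lit 437) (nat_lit 428) (nat_lit 275)) (XT.lf (nat_lit 0) (nat_lit 6954533219) (nat_lit 1596) (nat_lit 4179129208) (nat_lit 1672) (nat_lit 893906112) (nat_lit 407) (nat_lit 5) (nat_lit 428) (nat_lit 5) (nat_lit 429) (nat_lit 5) (nat_lit 438) (nat_lit 428) (nat_lit 274))) (XT.nd (nat_lit 78) (nat_lit 0) (nat_lit 0) (XT.lf (nat_lit 76) (nat_lit 1520003416) (nat_lit 0) (nat_lit 6300707930) (nat_lit 1672) (nat_lit 4322828239) (nat_lit 408) (nat_lit 5) (nat_lit 407) (nat_lit 5) (nat_lit 429) (nat_lit 5) (nat_lit 439) (nat_lit 428) (nat_lit 273)) (XT.lf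 (nat_lit 76) (nat_lit 7381928631) (nat_lit 0) (nat_lit 1338342916) (nat_lit 1672) (nat_lit 3541246964) (nat_lit 408) (nat_lit 5) (nat_lit 407) (nat_lit 5) (nat_lit 429) (nat_lit 5) (nat_lit 440) (nat_lit 428) (nat_lit 272))))) (XT.nd (nat_lit 234) (nat_lit 1596) (nat_lit 0) (XT.nd (nat_lit 78) (nat_lit 0) (nat_lit 0) (XT.lf (nat_lit 76) (nat_lit 959691530) (nat_lit 0) (nat_lit 8696812073) (nat_lit 1672) (nat_lit 2724989242) (nat_lit 409) (nat_lit 5) (nat_lit 408) (nat_lit 5) (nat_lit 430) (nat_lit 5) (nat_lit 441) (nat_lit 428) (nat_lit 271)) (XT.nd (nat_lit 78) (nat_lit 0) (nat_lit 76) (XT.lf (nat_lit 76) (nat_lit 6965017659) (nat_lit 0) (nat_lit 3676446473) (nat_lit 1672) (nat_lit 1861811712) (nat_lit 409) (nat_lit 5) (nat_lit 408) (nat_lit 5) (nat_lit 430) (nat_lit 5) (nat_lit 442) (nat_lit 428) (nat_lit 270)) (XT.lf (nat_lit 76) (nat_lit 451491971) (nat_lit 0) (nat_lit 11195644707) (nat_lit 1672) (nat_lit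 980346643) (nat_lit 410) (nat_lit 5) (nat_lit 409) (nat_lit 5) (nat_lit 431) (nat_lit 5) (nat_lit 443) (nat_lit 428) (nat_lit 269)))) (XT.nd (nat_lit 156) (nat_lit 0) (nat_lit 76) (XT.nd (nat_lit 78) (nat_lit 1672) (nat_lit 0) (XT.lf (nat_lit 76) (nat_lit 6603483760) (nat_lit 0) (nat_lit 6119664428) (nat_lit 1672) (nat_lit 30031146) (nat_lit 410) (nat_lit 5) (nat_lit 409) (nat_lit 5) (nat_lit 431) (nat_lit 5) (nat_lit 444) (nat_lit 428) (nat_lit 268)) (XT.lf (nat_lit 0) (nat_lit 915982748) (nat_lit 1672) (nat_lit 16926014) (nat_lit 1748) (nat_lit 11948586865) (nat_lit 387) (nat_lit 5) (nat_lit 409) (nat_lit 5) (nat_lit 410) (nat_lit 5) (nat_lit 445) (nat_lit 428) (nat_lit 267))) (XT.nd (nat_lit 78) (nat_lit 0) (nat_lit 0) (XT.lf (nat_lit 0) (nat_lit 1939316258) (nat_lit 1672) (nat_lit 6727060257) (nat_lit 1748) (nat_lit 4344830115) (nat_lit 388) (nat_lit 5) (nat_lit 410) (nat_lit 5) (nat_lit 411) (nat_lit 5)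 (nat_lit 446) (nat_lit 428) (nat_lit 266)) (XT.lf (nat_lit 0) (nat_lit 2978815059) (nat_lit 1672) (nat_lit 446204349) (nat_lit 1748) (nat_lit 9718586691) (nat_lit 388) (nat_lit 5) (nat_lit 410) (nat_lit 5) (nat_lit 411) (nat_lit 5) (nat_lit 447) (nat_lit 428) (nat_lit 265)))))) (XT.nd (nat_lit 546) (nat_lit 3040) (nat_lit 0) (XT.nd (nat_lit 234) (nat_lit 1520) (nat_lit 0) (XT.nd (nat_lit 78) (nat_lit 0) (nat_lit 0) (XT.lf (nat_lit 0) (nat_lit 4080627854) (nat_lit 1672) (nat_lit 7259290962) (nat_lit 1748) (nat_lit 1937912321) (nat_lit 389) (nat_lit 5) (nat_lit 411) (nat_lit 5) (nat_lit 412) (nat_lit 5) (nat_lit 448) (nat_lit 428) (nat_lit 264)) (XT.nd (nat_lit 78) (nat_lit 0) (nat_lit 0) (XT.lf (nat_lit 0) (nat_lit 5219956152) (nat_lit 1672) (nat_lit 826760738) (nat_lit 1748) (nat_lit 7367722099) (nat_lit 389) (nat_lit 5) (nat_lit 411) (nat_lit 5) (nat_lit 412) (nat_lit 5) (nat_lit 449) (nat_lit 428) (nat_lit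 263)) (XT.lf (nat_lit 76) (nat_lit 5802674306) (nat_lit 0) (nat_lit 607054761) (nat_lit 1748) (nat_lit 7143504515) (nat_lit 390) (nat_lit 5) (nat_lit 389) (nat_lit 5) (nat_lit 412) (nat_lit 5) (nat_lit 450) (nat_lit 428) (nat_lit 262)))) (XT.nd (nat_lit 156) (nat_lit 1596) (nat_lit 0) (XT.nd (nat_lit 78) (nat_lit 0) (nat_lit 0) (XT.lf (nat_lit 0) (nat_lit 7651107517) (nat_lit 1672) (nat_lit 1158923429) (nat_lit 1748) (nat_lit 4884224511) (nat_lit 390) (nat_lit 5) (nat_lit 412) (nat_lit 5) (nat_lit 413) (nat_lit 5) (nat_lit 451) (nat_lit 428) (nat_lit 261)) (XT.lf (nat_lit 76) (nat_lit 5626458348) (nat_lit 0) (nat_lit 3321741889) (nat_lit 1748) (nat_lit 4889287245) (nat_lit 391) (nat_lit 5) (nat_lit 390) (nat_lit 5) (nat_lit 413) (nat_lit 5) (nat_lit 452) (nat_lit 428) (nat_lit 260))) (XT.nd (nat_lit 78) (nat_lit 1672) (nat_lit 0) (XT.lf (nat_lit 0) (nat_lit 10284328370) (nat_lit 1672) (nat_lit 1443018003) (nat_lit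 76) (nat_lit 2255983200) (nat_lit 391) (nat_lit 5) (nat_lit 413) (nat_lit 5) (nat_lit 392) (nat_lit 5) (nat_lit 453) (nat_lit 428) (nat_lit 259)) (XT.lf (nat_lit 0) (nat_lit 5502664839) (nat_lit 1672) (nat_lit 6192911757) (nat_lit 1748) (nat_lit 2435551115) (nat_lit 369) (nat_lit 5) (nat_lit 391) (nat_lit 5) (nat_lit 392) (nat_lit 5) (nat_lit 454) (nat_lit 428) (nat_lit 258))))) (XT.nd (nat_lit 234) (nat_lit 1672) (nat_lit 0) (XT.nd (nat_lit 78) (nat_lit 1368) (nat_lit 0) (XT.lf (nat_lit 0) (nat_lit 12599014870) (nat_lit 1672) (nat_lit 536522825) (nat_lit 1748) (nat_lit 1146341373) (nat_lit 369) (nat_lit 5) (nat_lit 391) (nat_lit 5) (nat_lit 392) (nat_lit 5) (nat_lit 455) (nat_lit 428) (nat_lit 257)) (XT.nd (nat_lit 78) (nat_lit 0) (nat_lit 0) (XT.lf (nat_lit 0) (nat_lit 227064438) (nat_lit 1368) (nat_lit 9004891868) (nat_lit 76) (nat_lit 5202461513) (nat_lit 351) (nat_lit 5) (nat_lit 369) (nat_lit 5) (nat_lit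 352) (nat_lit 5) (nat_lit 456) (nat_lit 428) (nat_lit 256)) (XT.lf (nat_lit 0) (nat_lit 1618578166) (nat_lit 1368) (nat_lit 1901949249) (nat_lit 76) (nat_lit 11069215207) (nat_lit 351) (nat_lit 5) (nat_lit 369) (nat_lit 5) (nat_lit 352) (nat_lit 5) (nat_lit 457) (nat_lit 428) (nat_lit 255)))) (XT.nd (nat_lit 156) (nat_lit 836) (nat_lit 0) (XT.nd (nat_lit 78) (nat_lit 0) (nat_lit 0) (XT.lf (nat_lit 0) (nat_lit 3079457664) (nat_lit 912) (nat_lit 9356672244) (nat_lit 76) (nat_lit 2311219785) (nat_lit 340) (nat_lit 5) (nat_lit 352) (nat_lit 5) (nat_lit 341) (nat_lit 5) (nat_lit 458) (nat_lit 428) (nat_lit 254)) (XT.lf (nat_lit 0) (nat_lit 4597074566) (nat_lit 912) (nat_lit 2084217461) (nat_lit 76) (nat_lit 8226272835) (nat_lit 340) (nat_lit 5) (nat_lit 352) (nat_lit 5) (nat_lit 341) (nat_lit 5) (nat_lit 459) (nat_lit 428) (nat_lit 253))) (XT.nd (nat_lit 78) (nat_lit 0) (nat_lit 0) (XT.lf (nat_lit 0) (nat_lit 5396717644)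 (nat_lit 836) (nat_lit 774892153) (nat_lit 912) (nat_lit 8898849446) (nat_lit 329) (nat_lit 5) (nat_lit 340) (nat_lit 5) (nat_lit 341) (nat_lit 5) (nat_lit 460) (nat_lit 428) (nat_lit 252)) (XT.lf (nat_lit 0) (nat_lit 7817446046) (nat_lit 912) (nat_lit 2222859215) (nat_lit 76) (nat_lit 5195516152) (nat_lit 329) (nat_lit 5) (nat_lit 341) (nat_lit 5) (nat_lit 330) (nat_lit 5) (nat_lit 461) (nat_lit 428) (nat_lit 251))))))) (XT.nd (nat_lit 1092) (nat_lit 4332) (nat_lit 0) (XT.nd (nat_lit 546) (nat_lit 2204) (nat_lit 0) (XT.nd (nat_lit 234) (nat_lit 1596) (nat_lit 0) (XT.nd (nat_lit 78) (nat_lit 836) (nat_lit 0) (XT.lf (nat_lit 0) (nat_lit 5435476475) (nat_lit 836) (nat_lit 4092956150) (nat_lit 912) (nat_lit 5875419516) (nat_lit 318) (nat_lit 5) (nat_lit 329) (nat_lit 5) (nat_lit 330) (nat_lit 5) (nat_lit 462) (nat_lit 428) (nat_lit 250)) (XT.nd (nat_lit 78) (nat_lit 836) (nat_lit 0) (XT.lf (nat_lit 0) (nat_lit 11293391088)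 (nat_lit 912) (nat_lit 2318585004) (nat_lit 76) (nat_lit 1962878218) (nat_lit 318) (nat_lit 5) (nat_lit 330) (nat_lit 5) (nat_lit 319) (nat_lit 5) (nat_lit 463) (nat_lit 428) (nat_lit 249)) (XT.lf (nat_lit 0) (nat_lit 5521830151) (nat_lit 836) (nat_lit 7626858544) (nat_lit 912) (nat_lit 2599492783) (nat_lit 307) (nat_lit 5) (nat_lit 318) (nat_lit 5) (nat_lit 319) (nat_lit 5) (nat_lit 464) (nat_lit 428) (nat_lit 248)))) (XT.nd (nat_lit 156) (nat_lit 760) (nat_lit 0) (XT.nd (nat_lit 78) (nat_lit 836) (nat_lit 0) (XT.lf (nat_lit 0) (nat_lit 13542847755) (nat_lit 836) (nat_lit 1505992012) (nat_lit 912) (nat_lit 875986113) (nat_lit 307) (nat_lit 5) (nat_lit 318) (nat_lit 5) (nat_lit 319) (nat_lit 5) (nat_lit 465) (nat_lit 428) (nat_lit 247)) (XT.lf (nat_lit 0) (nat_lit 930630735) (nat_lit 836) (nat_lit 10454888081) (nat_lit 76) (nat_lit 4718171098) (nat_lit 296) (nat_lit 5) (nat_lit 307) (nat_lit 5) (nat_lit 297)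 (nat_lit 5) (nat_lit 466) (nat_lit 428) (nat_lit 246))) (XT.nd (nat_lit 78) (nat_lit 760) (nat_lit 0) (XT.lf (nat_lit 0) (nat_lit 2780113383) (nat_lit 836) (nat_lit 2436907532) (nat_lit 76) (nat_lit 11068630565) (nat_lit 296) (nat_lit 5) (nat_lit 307) (nat_lit 5) (nat_lit 297) (nat_lit 5) (nat_lit 467) (nat_lit 428) (nat_lit 245)) (XT.lf (nat_lit 0) (nat_lit 4704074028) (nat_lit 836) (nat_lit 10667797417) (nat_lit 76) (nat_lit 1098636279) (nat_lit 286) (nat_lit 5) (nat_lit 297) (nat_lit 5) (nat_lit 287) (nat_lit 5) (nat_lit 468) (nat_lit 428) (nat_lit 244))))) (XT.nd (nat_lit 234) (nat_lit 1520) (nat_lit 0) (XT.nd (nat_lit 78) (nat_lit 684) (nat_lit 0) (XT.lf (nat_lit 0) (nat_lit 6710159227) (nat_lit 836) (nat_lit 2460890737) (nat_lit 76) (nat_lit 7487143331) (nat_lit 286) (nat_lit 5) (nat_lit 297) (nat_lit 5) (nat_lit 287) (nat_lit 5) (nat_lit 469) (nat_lit 428) (nat_lit 243)) (XT.nd (nat_lit 78) (nat_lit 0)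 (nat_lit 0) (XT.lf (nat_lit 0) (nat_lit 5981095230) (nat_lit 684) (nat_lit 2806882867) (nat_lit 760) (nat_lit 8061027251) (nat_lit 277) (nat_lit 5) (nat_lit 286) (nat_lit 5) (nat_lit 287) (nat_lit 5) (nat_lit 470) (nat_lit 428) (nat_lit 242)) (XT.lf (nat_lit 0) (nat_lit 10940769066) (nat_lit 760) (nat_lit 2449654443) (nat_lit 76) (nat_lit 3652546730) (nat_lit 277) (nat_lit 5) (nat_lit 287) (nat_lit 5) (nat_lit 278) (nat_lit 5) (nat_lit 471) (nat_lit 428) (nat_lit 241)))) (XT.nd (nat_lit 156) (nat_lit 760) (nat_lit 0) (XT.nd (nat_lit 78) (nat_lit 0) (nat_lit 0) (XT.lf (nat_lit 0) (nat_lit 6192139728) (nat_lit 760) (nat_lit 6996277869) (nat_lit 836) (nat_lit 4051365612) (nat_lit 267) (nat_lit 5) (nat_lit 277) (nat_lit 5) (nat_lit 278) (nat_lit 5) (nat_lit 472) (nat_lit 428) (nat_lit 240)) (XT.lf (nat_lit 0) (nat_lit 15032575485) (nat_lit 760) (nat_lit 457980741) (nat_lit 836) (nat_lit 1949790190) (nat_lit 267)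 (nat_lit 5) (nat_lit 277) (nat_lit 5) (nat_lit 278) (nat_lit 5) (nat_lit 473) (nat_lit 428) (nat_lit 239))) (XT.nd (nat_lit 78) (nat_lit 0) (nat_lit 0) (XT.lf (nat_lit 0) (nat_lit 267150268) (nat_lit 760) (nat_lit 11203510961) (nat_lit 76) (nat_lit 6172721518) (nat_lit 257) (nat_lit 5) (nat_lit 267) (nat_lit 5) (nat_lit 258) (nat_lit 5) (nat_lit 474) (nat_lit 428) (nat_lit 238)) (XT.lf (nat_lit 0) (nat_lit 2514910761) (nat_lit 760) (nat_lit 2376540815) (nat_lit 76) (nat_lit 12958523137) (nat_lit 257) (nat_lit 5) (nat_lit 267) (nat_lit 5) (nat_lit 258) (nat_lit 5) (nat_lit 475) (nat_lit 428) (nat_lit 237)))))) (XT.nd (nat_lit 546) (nat_lit 1748) (nat_lit 0) (XT.nd (nat_lit 234) (nat_lit 1292) (nat_lit 0) (XT.nd (nat_lit 78) (nat_lit 608) (nat_lit 0) (XT.lf (nat_lit 0) (nat_lit 4856672412) (nat_lit 760) (nat_lit 11364410590) (nat_lit 76) (nat_lit 1838638958) (nat_lit 248) (nat_lit 5) (nat_lit 258) (nat_lit 5) (nat_lit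 249) (nat_lit 5) (nat_lit 476) (nat_lit 428) (nat_lit 236)) (XT.nd (nat_lit 78) (nat_lit 608) (nat_lit 0) (XT.lf (nat_lit 0) (nat_lit 7287193296) (nat_lit 760) (nat_lit 2332402422) (nat_lit 76) (nat_lit 8653234231) (nat_lit 248) (nat_lit 5) (nat_lit 258) (nat_lit 5) (nat_lit 249) (nat_lit 5) (nat_lit 477) (nat_lit 428) (nat_lit 235)) (XT.lf (nat_lit 0) (nat_lit 6964356134) (nat_lit 608) (nat_lit 2840790412) (nat_lit 684) (nat_lit 8684281303) (nat_lit 240) (nat_lit 5) (nat_lit 248) (nat_lit 5) (nat_lit 249) (nat_lit 5) (nat_lit 478) (nat_lit 428) (nat_lit 234)))) (XT.nd (nat_lit 156) (nat_lit 684) (nat_lit 0) (XT.nd (nat_lit 78) (nat_lit 608) (nat_lit 0) (XT.lf (nat_lit 0) (nat_lit 12409340511) (nat_lit 684) (nat_lit 2265236421) (nat_lit 76) (nat_lit 4035067253) (nat_lit 240) (nat_lit 5) (nat_lit 249) (nat_lit 5) (nat_lit 241) (nat_lit 5) (nat_lit 479) (nat_lit 428) (nat_lit 233)) (XT.lf (nat_lit 0) (nat_lit 7248890320)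 (nat_lit 608) (nat_lit 7876407674) (nat_lit 684) (nat_lit 3807777290) (nat_lit 232) (nat_lit 5) (nat_lit 240) (nat_lit 5) (nat_lit 241) (nat_lit 5) (nat_lit 480) (nat_lit 428) (nat_lit 232))) (XT.nd (nat_lit 78) (nat_lit 684) (nat_lit 0) (XT.lf (nat_lit 0) (nat_lit 16976890018) (nat_lit 608) (nat_lit 927762725) (nat_lit 684) (nat_lit 1256144649) (nat_lit 232) (nat_lit 5) (nat_lit 240) (nat_lit 5) (nat_lit 241) (nat_lit 5) (nat_lit 481) (nat_lit 428) (nat_lit 231)) (XT.lf (nat_lit 0) (nat_lit 1412466078) (nat_lit 684) (nat_lit 11842290803) (nat_lit 76) (nat_lit 6136473902) (nat_lit 223) (nat_lit 5) (nat_lit 232) (nat_lit 5) (nat_lit 224) (nat_lit 5) (nat_lit 482) (nat_lit 428) (nat_lit 230))))) (XT.nd (nat_lit 234) (nat_lit 1140) (nat_lit 0) (XT.nd (nat_lit 78) (nat_lit 608) (nat_lit 0) (XT.lf (nat_lit 0) (nat_lit 4132561244) (nat_lit 684) (nat_lit 2141622103) (nat_lit 76) (nat_lit 13351628514) (nat_lit 223) (nat_lit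 5) (nat_lit 232) (nat_lit 5) (nat_lit 224) (nat_lit 5) (nat_lit 483) (nat_lit 428) (nat_lit 229)) (XT.nd (nat_lit 78) (nat_lit 0) (nat_lit 0) (XT.lf (nat_lit 0) (nat_lit 6957979461) (nat_lit 684) (nat_lit 12020998331) (nat_lit 76) (nat_lit 885091997) (nat_lit 215) (nat_lit 5) (nat_lit 224) (nat_lit 5) (nat_lit 216) (nat_lit 5) (nat_lit 484) (nat_lit 428) (nat_lit 228)) (XT.lf (nat_lit 0) (nat_lit 9890123095) (nat_lit 684) (nat_lit 2099018599) (nat_lit 76) (nat_lit 8116950417) (nat_lit 215) (nat_lit 5) (nat_lit 224) (nat_lit 5) (nat_lit 216) (nat_lit 5) (nat_lit 485) (nat_lit 428) (nat_lit 227)))) (XT.nd (nat_lit 156) (nat_lit 608) (nat_lit 0) (XT.nd (nat_lit 78) (nat_lit 0) (nat_lit 0) (XT.lf (nat_lit 0) (nat_lit 8120991104) (nat_lit 532) (nat_lit 4806958675) (nat_lit 608) (nat_lit 7424067805) (nat_lit 208) (nat_lit 5) (nat_lit 215) (nat_lit 5) (nat_lit 216) (nat_lit 5) (nat_lit 486) (nat_lit 428) (nat_lit 226))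 (XT.lf (nat_lit 0) (nat_lit 16051438029) (nat_lit 608) (nat_lit 2052153619) (nat_lit 76) (nat_lit 2498775257) (nat_lit 208) (nat_lit 5) (nat_lit 216) (nat_lit 5) (nat_lit 209) (nat_lit 5) (nat_lit 487) (nat_lit 428) (nat_lit 225))) (XT.nd (nat_lit 78) (nat_lit 76) (nat_lit 0) (XT.lf (nat_lit 0) (nat_lit 8401810585) (nat_lit 532) (nat_lit 10916452167) (nat_lit 608) (nat_lit 1537846495) (nat_lit 201) (nat_lit 5) (nat_lit 208) (nat_lit 5) (nat_lit 209) (nat_lit 5) (nat_lit 488) (nat_lit 428) (nat_lit 224)) (XT.lf (nat_lit 0) (nat_lit 1523728527) (nat_lit 608) (nat_lit 2038914553) (nat_lit 76) (nat_lit 17551919824) (nat_lit 200) (nat_lit 5) (nat_lit 208) (nat_lit 5) (nat_lit 201) (nat_lit 5) (nat_lit 489) (nat_lit 428) (nat_lit 223))))))))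
noncomputable def xc206 : XT := (XT.nd (nat_lit 2184) (nat_lit 304) (nat_lit 0) (XT.nd (nat_lit 1092) (nat_lit 2888) (nat_lit 0) (XT.nd (nat_lit 546) (nat_lit 1444) (nat_lit 0) (XT.nd (nat_lit 234) (nat_lit 1064) (nat_lit 0) (XT.nd (nat_lit 78) (nat_lit 532) (nat_lit 0) (XT.lf (nat_lit 0) (nat_lit 4702946412) (nat_lit 608) (nat_lit 12721251651) (nat_lit 76) (nat_lit 3952247379) (nat_lit 193) (nat_lit 5) (nat_lit 201) (nat_lit 5) (nat_lit 194) (nat_lit 5) (nat_lit 490) (nat_lit 428) (nat_lit 222)) (XT.nd (nat_lit 78) (nat_lit 532) (nat_lit 0) (XT.lf (nat_lit 0) (nat_lit 7977783127) (nat_lit 608) (nat_lit 2082949894) (nat_lit 76) (nat_lit 11582195038) (nat_lit 193) (nat_lit 5) (nat_lit 201) (nat_lit 5) (nat_lit 194) (nat_lit 5) (nat_lit 491) (nat_lit 428) (nat_lit 221)) (XT.lf (nat_lit 0) (nat_lit 8877890322) (nat_lit 532) (nat_lit 2492639963) (nat_lit 608) (nat_lit 10543164821) (nat_lit 186) (nat_lit 5) (nat_lit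 193) (nat_lit 5) (nat_lit 194) (nat_lit 5) (nat_lit 492) (nat_lit 428) (nat_lit 220)))) (XT.nd (nat_lit 156) (nat_lit 608) (nat_lit 0) (XT.nd (nat_lit 78) (nat_lit 456) (nat_lit 0) (XT.lf (nat_lit 0) (nat_lit 14873961255) (nat_lit 608) (nat_lit 2144159984) (nat_lit 76) (nat_lit 5170902672) (nat_lit 186) (nat_lit 5) (nat_lit 194) (nat_lit 5) (nat_lit 187) (nat_lit 5) (nat_lit 493) (nat_lit 428) (nat_lit 219)) (XT.lf (nat_lit 0) (nat_lit 9061063520) (nat_lit 456) (nat_lit 9456659486) (nat_lit 532) (nat_lit 3950733978) (nat_lit 180) (nat_lit 5) (nat_lit 186) (nat_lit 5) (nat_lit 187) (nat_lit 5) (nat_lit 494) (nat_lit 428) (nat_lit 218))) (XT.nd (nat_lit 78) (nat_lit 608) (nat_lit 0) (XT.lf (nat_lit 0) (nat_lit 20512915343) (nat_lit 456) (nat_lit 1730814326) (nat_lit 532) (nat_lit 509564532) (nat_lit 180) (nat_lit 5) (nat_lit 186) (nat_lit 5) (nat_lit 187) (nat_lit 5) (nat_lit 495) (nat_lit 428) (nat_lit 217)) (XT.lf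 (nat_lit 0) (nat_lit 3056591404) (nat_lit 608) (nat_lit 13837516040) (nat_lit 76) (nat_lit 6147423584) (nat_lit 172) (nat_lit 5) (nat_lit 180) (nat_lit 5) (nat_lit 173) (nat_lit 5) (nat_lit 496) (nat_lit 428) (nat_lit 216))))) (XT.nd (nat_lit 234) (nat_lit 988) (nat_lit 0) (XT.nd (nat_lit 78) (nat_lit 456) (nat_lit 0) (XT.lf (nat_lit 0) (nat_lit 6708939456) (nat_lit 608) (nat_lit 2449032052) (nat_lit 76) (nat_lit 14177062590) (nat_lit 172) (nat_lit 5) (nat_lit 180) (nat_lit 5) (nat_lit 173) (nat_lit 5) (nat_lit 497) (nat_lit 428) (nat_lit 215)) (XT.nd (nat_lit 78) (nat_lit 0) (nat_lit 0) (XT.lf (nat_lit 0) (nat_lit 9282562852) (nat_lit 456) (nat_lit 1207226107) (nat_lit 532) (nat_lit 13143511838) (nat_lit 166) (nat_lit 5) (nat_lit 172) (nat_lit 5) (nat_lit 173) (nat_lit 5) (nat_lit 498) (nat_lit 428) (nat_lit 214)) (XT.lf (nat_lit 0) (nat_lit 14402843081) (nat_lit 532) (nat_lit 2706588463) (nat_lit 76) (nat_lit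 6826972140) (nat_lit 166) (nat_lit 5) (nat_lit 173) (nat_lit 5) (nat_lit 167) (nat_lit 5) (nat_lit 499) (nat_lit 428) (nat_lit 213)))) (XT.nd (nat_lit 156) (nat_lit 532) (nat_lit 0) (XT.nd (nat_lit 78) (nat_lit 0) (nat_lit 0) (XT.lf (nat_lit 0) (nat_lit 9277809091) (nat_lit 456) (nat_lit 9179903980) (nat_lit 532) (nat_lit 5786587018) (nat_lit 160) (nat_lit 5) (nat_lit 166) (nat_lit 5) (nat_lit 167) (nat_lit 5) (nat_lit 500) (nat_lit 428) (nat_lit 212)) (XT.lf (nat_lit 0) (nat_lit 21532304519) (nat_lit 456) (nat_lit 1074911753) (nat_lit 532) (nat_lit 1950869938) (nat_lit 160) (nat_lit 5) (nat_lit 166) (nat_lit 5) (nat_lit 167) (nat_lit 5) (nat_lit 501) (nat_lit 428) (nat_lit 211))) (XT.nd (nat_lit 78) (nat_lit 0) (nat_lit 0) (XT.lf (nat_lit 0) (nat_lit 2038532002) (nat_lit 532) (nat_lit 15667769250) (nat_lit 76) (nat_lit 7169540559) (nat_lit 153) (nat_lit 5) (nat_lit 160) (nat_lit 5) (nat_lit 154) (nat_lit 5)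 (nat_lit 502) (nat_lit 428) (nat_lit 210)) (XT.lf (nat_lit 0) (nat_lit 6104652064) (nat_lit 532) (nat_lit 3498359693) (nat_lit 76) (nat_lit 15596224177) (nat_lit 153) (nat_lit 5) (nat_lit 160) (nat_lit 5) (nat_lit 154) (nat_lit 5) (nat_lit 503) (nat_lit 428) (nat_lit 209)))))) (XT.nd (nat_lit 546) (nat_lit 1140) (nat_lit 0) (XT.nd (nat_lit 234) (nat_lit 912) (nat_lit 0) (XT.nd (nat_lit 78) (nat_lit 380) (nat_lit 0) (XT.lf (nat_lit 0) (nat_lit 9026687756) (nat_lit 456) (nat_lit 1279572973) (nat_lit 532) (nat_lit 15221756202) (nat_lit 147) (nat_lit 5) (nat_lit 153) (nat_lit 5) (nat_lit 154) (nat_lit 5) (nat_lit 504) (nat_lit 428) (nat_lit 208)) (XT.nd (nat_lit 78) (nat_lit 380) (nat_lit 0) (XT.lf (nat_lit 0) (nat_lit 14657942544) (nat_lit 532) (nat_lit 4066392073) (nat_lit 76) (nat_lit 7137720379) (nat_lit 147) (nat_lit 5) (nat_lit 154) (nat_lit 5) (nat_lit 148) (nat_lit 5) (nat_lit 505) (nat_lit 428) (nat_lit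 207)) (XT.lf (nat_lit 0) (nat_lit 8717040785) (nat_lit 380) (nat_lit 10440369775) (nat_lit 456) (nat_lit 7044150437) (nat_lit 142) (nat_lit 5) (nat_lit 147) (nat_lit 5) (nat_lit 148) (nat_lit 5) (nat_lit 506) (nat_lit 428) (nat_lit 206)))) (XT.nd (nat_lit 156) (nat_lit 380) (nat_lit 0) (XT.nd (nat_lit 78) (nat_lit 532) (nat_lit 0) (XT.lf (nat_lit 0) (nat_lit 21805248601) (nat_lit 380) (nat_lit 1964634349) (nat_lit 456) (nat_lit 2777516048) (nat_lit 142) (nat_lit 5) (nat_lit 147) (nat_lit 5) (nat_lit 148) (nat_lit 5) (nat_lit 507) (nat_lit 428) (nat_lit 205)) (XT.lf (nat_lit 0) (nat_lit 1647576723) (nat_lit 532) (nat_lit 18594362096) (nat_lit 76) (nat_lit 6656137090) (nat_lit 135) (nat_lit 5) (nat_lit 142) (nat_lit 5) (nat_lit 136) (nat_lit 5) (nat_lit 508) (nat_lit 428) (nat_lit 204))) (XT.nd (nat_lit 78) (nat_lit 380) (nat_lit 0) (XT.lf (nat_lit 0) (nat_lit 6164873380) (nat_lit 532) (nat_lit 5617959219) (nat_lit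 76) (nat_lit 15471750767) (nat_lit 135) (nat_lit 5) (nat_lit 142) (nat_lit 5) (nat_lit 136) (nat_lit 5) (nat_lit 509) (nat_lit 428) (nat_lit 203)) (XT.lf (nat_lit 0) (nat_lit 7713259956) (nat_lit 380) (nat_lit 3105231997) (nat_lit 456) (nat_lit 16798811514) (nat_lit 130) (nat_lit 5) (nat_lit 135) (nat_lit 5) (nat_lit 136) (nat_lit 5) (nat_lit 510) (nat_lit 428) (nat_lit 202))))) (XT.nd (nat_lit 234) (nat_lit 760) (nat_lit 0) (XT.nd (nat_lit 78) (nat_lit 380) (nat_lit 0) (XT.lf (nat_lit 0) (nat_lit 15636365815) (nat_lit 456) (nat_lit 6642729142) (nat_lit 76) (nat_lit 5706761331) (nat_lit 130) (nat_lit 5) (nat_lit 136) (nat_lit 5) (nat_lit 131) (nat_lit 5) (nat_lit 511) (nat_lit 428) (nat_lit 201)) (XT.nd (nat_lit 78) (nat_lit 0) (nat_lit 0) (XT.lf (nat_lit 0) (nat_lit 6948589258) (nat_lit 380) (nat_lit 13663694507) (nat_lit 456) (nat_lit 7748264603) (nat_lit 125) (nat_lit 5) (nat_lit 130) (nat_lit 5) (nat_lit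 131) (nat_lit 5) (nat_lit 512) (nat_lit 428) (nat_lit 200)) (XT.lf (nat_lit 0) (nat_lit 20896026258) (nat_lit 380) (nat_lit 4832318284) (nat_lit 456) (nat_lit 3013579158) (nat_lit 125) (nat_lit 5) (nat_lit 130) (nat_lit 5) (nat_lit 131) (nat_lit 5) (nat_lit 513) (nat_lit 428) (nat_lit 199)))) (XT.nd (nat_lit 156) (nat_lit 380) (nat_lit 0) (XT.nd (nat_lit 78) (nat_lit 0) (nat_lit 0) (XT.lf (nat_lit 0) (nat_lit 1854824403) (nat_lit 380) (nat_lit 23104027777) (nat_lit 76) (nat_lit 4170583616) (nat_lit 120) (nat_lit 5) (nat_lit 125) (nat_lit 5) (nat_lit 121) (nat_lit 5) (nat_lit 514) (nat_lit 428) (nat_lit 198)) (XT.lf (nat_lit 0) (nat_lit 6861409209) (nat_lit 380) (nat_lit 9301183142) (nat_lit 76) (nat_lit 13360085877) (nat_lit 120) (nat_lit 5) (nat_lit 125) (nat_lit 5) (nat_lit 121) (nat_lit 5) (nat_lit 515) (nat_lit 428) (nat_lit 197))) (XT.nd (nat_lit 78) (nat_lit 0) (nat_lit 0) (XT.lf (nat_lit 0) (nat_lit 4835526850)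 (nat_lit 380) (nat_lit 7160196655) (nat_lit 456) (nat_lit 17927511802) (nat_lit 115) (nat_lit 5) (nat_lit 120) (nat_lit 5) (nat_lit 121) (nat_lit 5) (nat_lit 516) (nat_lit 428) (nat_lit 196)) (XT.lf (nat_lit 0) (nat_lit 17304911886) (nat_lit 456) (nat_lit 10968685857) (nat_lit 76) (nat_lit 2056763748) (nat_lit 115) (nat_lit 5) (nat_lit 121) (nat_lit 5) (nat_lit 116) (nat_lit 5) (nat_lit 517) (nat_lit 428) (nat_lit 195))))))) (XT.nd (nat_lit 53430) (nat_lit 0) (nat_lit 19608) (XT.nd (nat_lit 52884) (nat_lit 0) (nat_lit 22344) (XT.nd (nat_lit 52572) (nat_lit 0) (nat_lit 22192) (XT.nd (nat_lit 52416) (nat_lit 0) (nat_lit 22192) (XT.lf (nat_lit 0) (nat_lit 3424686049) (nat_lit 304) (nat_lit 19361554628) (nat_lit 380) (nat_lit 7958072074) (nat_lit 111) (nat_lit 5) (nat_lit 115) (nat_lit 5) (nat_lit 116) (nat_lit 5) (nat_lit 518) (nat_lit 428) (nat_lit 194)) (XT.nd (nat_lit 78) (nat_lit 0) (nat_lit 0) (XT.lf (nat_lit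 0) (nat_lit 286390785) (nat_lit 0) (nat_lit 286390785) (nat_lit 1596) (nat_lit 5009947068) (nat_lit 403) (nat_lit 5) (nat_lit 403) (nat_lit 3) (nat_lit 424) (nat_lit 3) (nat_lit 429) (nat_lit 429) (nat_lit 282)) (XT.lf (nat_lit 0) (nat_lit 1716133457) (nat_lit 1596) (nat_lit 5533038878) (nat_lit 1672) (nat_lit 4016327077) (nat_lit 403) (nat_lit 5) (nat_lit 424) (nat_lit 3) (nat_lit 425) (nat_lit 5) (nat_lit 430) (nat_lit 429) (nat_lit 281)))) (XT.nd (nat_lit 156) (nat_lit 0) (nat_lit 76) (XT.nd (nat_lit 78) (nat_lit 0) (nat_lit 76) (XT.lf (nat_lit 0) (nat_lit 2287981105) (nat_lit 1596) (nat_lit 383325009) (nat_lit 1672) (nat_lit 8696450239) (nat_lit 403) (nat_lit 5) (nat_lit 424) (nat_lit 3) (nat_lit 425) (nat_lit 5) (nat_lit 431) (nat_lit 429) (nat_lit 280)) (XT.lf (nat_lit 0) (nat_lit 2902826636) (nat_lit 1596) (nat_lit 6558109397) (nat_lit 1672) (nat_lit 2010502243) (nat_lit 404) (nat_lit 5) (nat_lit 425)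 (nat_lit 5) (nat_lit 426) (nat_lit 5) (nat_lit 432) (nat_lit 429) (nat_lit 279))) (XT.nd (nat_lit 78) (nat_lit 0) (nat_lit 0) (XT.lf (nat_lit 0) (nat_lit 3536857289) (nat_lit 1596) (nat_lit 1281190325) (nat_lit 1672) (nat_lit 6759019305) (nat_lit 404) (nat_lit 5) (nat_lit 425) (nat_lit 5) (nat_lit 426) (nat_lit 5) (nat_lit 433) (nat_lit 429) (nat_lit 278)) (XT.lf (nat_lit 76) (nat_lit 4148367789) (nat_lit 0) (nat_lit 49005401) (nat_lit 1672) (nat_lit 7487169484) (nat_lit 405) (nat_lit 5) (nat_lit 404) (nat_lit 5) (nat_lit 426) (nat_lit 5) (nat_lit 434) (nat_lit 429) (nat_lit 277))))) (XT.nd (nat_lit 234) (nat_lit 0) (nat_lit 76) (XT.nd (nat_lit 78) (nat_lit 0) (nat_lit 0) (XT.lf (nat_lit 0) (nat_lit 4898136445) (nat_lit 1596) (nat_lit 2128997301) (nat_lit 1672) (nat_lit 4766503880) (nat_lit 405) (nat_lit 5) (nat_lit 426) (nat_lit 5) (nat_lit 427) (nat_lit 5) (nat_lit 435) (nat_lit 429) (nat_lit 276)) (XT.nd (nat_lit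 78) (nat_lit 0) (nat_lit 76) (XT.lf (nat_lit 76) (nat_lit 3423483779) (nat_lit 0) (nat_lit 2199353596) (nat_lit 1672) (nat_lit 6281888874) (nat_lit 406) (nat_lit 5) (nat_lit 405) (nat_lit 5) (nat_lit 427) (nat_lit 5) (nat_lit 436) (nat_lit 429) (nat_lit 275)) (XT.lf (nat_lit 0) (nat_lit 6381709056) (nat_lit 1596) (nat_lit 2927322143) (nat_lit 1672) (nat_lit 2708621930) (nat_lit 406) (nat_lit 5) (nat_lit 427) (nat_lit 5) (nat_lit 428) (nat_lit 5) (nat_lit 437) (nat_lit 429) (nat_lit 274)))) (XT.nd (nat_lit 156) (nat_lit 0) (nat_lit 76) (XT.nd (nat_lit 78) (nat_lit 0) (nat_lit 76) (XT.lf (nat_lit 76) (nat_lit 2751692603) (nat_lit 0) (nat_lit 4424342746) (nat_lit 1672) (nat_lit 4956407475) (nat_lit 407) (nat_lit 5) (nat_lit 406) (nat_lit 5) (nat_lit 428) (nat_lit 5) (nat_lit 438) (nat_lit 429) (nat_lit 273)) (XT.lf (nat_lit 0) (nat_lit 7997710548) (nat_lit 1596) (nat_lit 3676656870) (nat_lit 1672) (nat_lit 574941278)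 (nat_lit 407) (nat_lit 5) (nat_lit 428) (nat_lit 5) (nat_lit 429) (nat_lit 5) (nat_lit 439) (nat_lit 429) (nat_lit 272))) (XT.nd (nat_lit 78) (nat_lit 0) (nat_lit 0) (XT.lf (nat_lit 76) (nat_lit 2132602783) (nat_lit 0) (nat_lit 6734662290) (nat_lit 1672) (nat_lit 3500627337) (nat_lit 408) (nat_lit 5) (nat_lit 407) (nat_lit 5) (nat_lit 429) (nat_lit 5) (nat_lit 440) (nat_lit 429) (nat_lit 271)) (XT.lf (nat_lit 76) (nat_lit 8100350830) (nat_lit 0) (nat_lit 1667011933) (nat_lit 1672) (nat_lit 2721231249) (nat_lit 408) (nat_lit 5) (nat_lit 407) (nat_lit 5) (nat_lit 429) (nat_lit 5) (nat_lit 441) (nat_lit 429) (nat_lit 270)))))) (XT.nd (nat_lit 546) (nat_lit 1368) (nat_lit 0) (XT.nd (nat_lit 234) (nat_lit 1596) (nat_lit 0) (XT.nd (nat_lit 78) (nat_lit 0) (nat_lit 0) (XT.lf (nat_lit 76) (nat_lit 1565896514) (nat_lit 0) (nat_lit 9141201009) (nat_lit 1672) (nat_lit 1904188495) (nat_lit 409) (nat_lit 5) (nat_lit 408)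 (nat_lit 5) (nat_lit 430) (nat_lit 5) (nat_lit 442) (nat_lit 429) (nat_lit 269)) (XT.nd (nat_lit 78) (nat_lit 0) (nat_lit 76) (XT.lf (nat_lit 76) (nat_lit 7679819144) (nat_lit 0) (nat_lit 4015125103) (nat_lit 1672) (nat_lit 1040910169) (nat_lit 409) (nat_lit 5) (nat_lit 408) (nat_lit 5) (nat_lit 430) (nat_lit 5) (nat_lit 443) (nat_lit 429) (nat_lit 268)) (XT.lf (nat_lit 76) (nat_lit 1051318851) (nat_lit 0) (nat_lit 11655076117) (nat_lit 1672) (nat_lit 156450995) (nat_lit 410) (nat_lit 5) (nat_lit 409) (nat_lit 5) (nat_lit 431) (nat_lit 5) (nat_lit 444) (nat_lit 429) (nat_lit 267)))) (XT.nd (nat_lit 156) (nat_lit 0) (nat_lit 76) (XT.nd (nat_lit 78) (nat_lit 0) (nat_lit 0) (XT.lf (nat_lit 0) (nat_lit 785887514) (nat_lit 1672) (nat_lit 5681796989) (nat_lit 1748) (nat_lit 6523604987) (nat_lit 387) (nat_lit 5) (nat_lit 409) (nat_lit 5) (nat_lit 410) (nat_lit 5) (nat_lit 445) (nat_lit 429) (nat_lit 266)) (XT.lf (nat_lit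 76) (nat_lit 569313500) (nat_lit 0) (nat_lit 1168800501) (nat_lit 1748) (nat_lit 11384312702) (nat_lit 388) (nat_lit 5) (nat_lit 387) (nat_lit 5) (nat_lit 410) (nat_lit 5) (nat_lit 446) (nat_lit 429) (nat_lit 265))) (XT.nd (nat_lit 78) (nat_lit 0) (nat_lit 0) (XT.lf (nat_lit 0) (nat_lit 2764882494) (nat_lit 1672) (nat_lit 6268544351) (nat_lit 1748) (nat_lit 4221657922) (nat_lit 388) (nat_lit 5) (nat_lit 410) (nat_lit 5) (nat_lit 411) (nat_lit 5) (nat_lit 447) (nat_lit 429) (nat_lit 264)) (XT.lf (nat_lit 76) (nat_lit 127978565) (nat_lit 0) (nat_lit 3682596571) (nat_lit 1748) (nat_lit 9579860982) (nat_lit 389) (nat_lit 5) (nat_lit 388) (nat_lit 5) (nat_lit 411) (nat_lit 5) (nat_lit 448) (nat_lit 429) (nat_lit 263))))) (XT.nd (nat_lit 234) (nat_lit 1520) (nat_lit 0) (XT.nd (nat_lit 78) (nat_lit 0) (nat_lit 0) (XT.lf (nat_lit 0) (nat_lit 4921034783) (nat_lit 1672) (nat_lit 6809903064) (nat_lit 1748) (nat_lit 1796687330)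 (nat_lit 389) (nat_lit 5) (nat_lit 411) (nat_lit 5) (nat_lit 412) (nat_lit 5) (nat_lit 449) (nat_lit 429) (nat_lit 262)) (XT.nd (nat_lit 78) (nat_lit 0) (nat_lit 0) (XT.lf (nat_lit 0) (nat_lit 6068271326) (nat_lit 1672) (nat_lit 260380544) (nat_lit 1748) (nat_lit 7338622387) (nat_lit 389) (nat_lit 5) (nat_lit 411) (nat_lit 5) (nat_lit 412) (nat_lit 5) (nat_lit 450) (nat_lit 429) (nat_lit 261)) (XT.lf (nat_lit 76) (nat_lit 6497808231) (nat_lit 0) (nat_lit 773204653) (nat_lit 1748) (nat_lit 6538059672) (nat_lit 390) (nat_lit 5) (nat_lit 389) (nat_lit 5) (nat_lit 412) (nat_lit 5) (nat_lit 451) (nat_lit 429) (nat_lit 260)))) (XT.nd (nat_lit 156) (nat_lit 1596) (nat_lit 0) (XT.nd (nat_lit 78) (nat_lit 0) (nat_lit 0) (XT.lf (nat_lit 0) (nat_lit 8521864284) (nat_lit 1672) (nat_lit 598468502) (nat_lit 1748) (nat_lit 4832900233) (nat_lit 390) (nat_lit 5) (nat_lit 412) (nat_lit 5) (nat_lit 413) (nat_lit 5) (nat_lit 452)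 (nat_lit 429) (nat_lit 259)) (XT.lf (nat_lit 76) (nat_lit 6318781217) (nat_lit 0) (nat_lit 3515808818) (nat_lit 1748) (nat_lit 4264956665) (nat_lit 391) (nat_lit 5) (nat_lit 390) (nat_lit 5) (nat_lit 413) (nat_lit 5) (nat_lit 453) (nat_lit 429) (nat_lit 258))) (XT.nd (nat_lit 78) (nat_lit 1672) (nat_lit 0) (XT.lf (nat_lit 0) (nat_lit 11182757214) (nat_lit 1672) (nat_lit 888238259) (nat_lit 76) (nat_lit 2177614459) (nat_lit 391) (nat_lit 5) (nat_lit 413) (nat_lit 5) (nat_lit 392) (nat_lit 5) (nat_lit 454) (nat_lit 429) (nat_lit 257)) (XT.lf (nat_lit 0) (nat_lit 6192518502) (nat_lit 1672) (nat_lit 6419893168) (nat_lit 1748) (nat_lit 1787159156) (nat_lit 369) (nat_lit 5) (nat_lit 391) (nat_lit 5) (nat_lit 392) (nat_lit 5) (nat_lit 455) (nat_lit 429) (nat_lit 256))))))))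
noncomputable def xc207 : XT := (XT.nd (nat_lit 2184) (nat_lit 7068) (nat_lit 0) (XT.nd (nat_lit 1092) (nat_lit 4788) (nat_lit 0) (XT.nd (nat_lit 546) (nat_lit 3268) (nat_lit 0) (XT.nd (nat_lit 234) (nat_lit 1672) (nat_lit 0) (XT.nd (nat_lit 78) (nat_lit 1368) (nat_lit 0) (XT.lf (nat_lit 0) (nat_lit 13419426899) (nat_lit 1672) (nat_lit 648354435) (nat_lit 1748) (nat_lit 485833904) (nat_lit 369) (nat_lit 5) (nat_lit 391) (nat_lit 5) (nat_lit 392) (nat_lit 5) (nat_lit 456) (nat_lit 429) (nat_lit 255)) (XT.nd (nat_lit 78) (nat_lit 0) (nat_lit 0) (XT.lf (nat_lit 0) (nat_lit 895989087) (nat_lit 1368) (nat_lit 8596515379) (nat_lit 76) (nat_lit 5216823122) (nat_lit 351) (nat_lit 5) (nat_lit 369) (nat_lit 5) (nat_lit 352) (nat_lit 5) (nat_lit 457) (nat_lit 429) (nat_lit 254)) (XT.lf (nat_lit 0) (nat_lit 2302305965) (nat_lit 1368) (nat_lit 1363052621) (nat_lit 76) (nat_lit 11202670470) (nat_lit 351) (nat_lit 5) (nat_lit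 369) (nat_lit 5) (nat_lit 352) (nat_lit 5) (nat_lit 458) (nat_lit 429) (nat_lit 253)))) (XT.nd (nat_lit 156) (nat_lit 836) (nat_lit 0) (XT.nd (nat_lit 78) (nat_lit 0) (nat_lit 0) (XT.lf (nat_lit 0) (nat_lit 3782903496) (nat_lit 912) (nat_lit 8956898663) (nat_lit 76) (nat_lit 2289185537) (nat_lit 340) (nat_lit 5) (nat_lit 352) (nat_lit 5) (nat_lit 341) (nat_lit 5) (nat_lit 459) (nat_lit 429) (nat_lit 252)) (XT.lf (nat_lit 0) (nat_lit 5318287311) (nat_lit 912) (nat_lit 1550502765) (nat_lit 76) (nat_lit 8323878052) (nat_lit 340) (nat_lit 5) (nat_lit 352) (nat_lit 5) (nat_lit 341) (nat_lit 5) (nat_lit 460) (nat_lit 429) (nat_lit 251))) (XT.nd (nat_lit 78) (nat_lit 0) (nat_lit 0) (XT.lf (nat_lit 0) (nat_lit 6076265522) (nat_lit 836) (nat_lit 839420367) (nat_lit 912) (nat_lit 8443316126) (nat_lit 329) (nat_lit 5) (nat_lit 340) (nat_lit 5) (nat_lit 341) (nat_lit 5) (nat_lit 461) (nat_lit 429) (nat_lit 250)) (XT.lf (nat_lit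 0) (nat_lit 8581957279) (nat_lit 912) (nat_lit 1693984757) (nat_lit 76) (nat_lit 5251987917) (nat_lit 329) (nat_lit 5) (nat_lit 341) (nat_lit 5) (nat_lit 330) (nat_lit 5) (nat_lit 462) (nat_lit 429) (nat_lit 249))))) (XT.nd (nat_lit 234) (nat_lit 1596) (nat_lit 0) (XT.nd (nat_lit 78) (nat_lit 836) (nat_lit 0) (XT.lf (nat_lit 0) (nat_lit 6113745728) (nat_lit 836) (nat_lit 4205191070) (nat_lit 912) (nat_lit 5380557753) (nat_lit 318) (nat_lit 5) (nat_lit 329) (nat_lit 5) (nat_lit 330) (nat_lit 5) (nat_lit 463) (nat_lit 429) (nat_lit 248)) (XT.nd (nat_lit 78) (nat_lit 836) (nat_lit 0) (XT.lf (nat_lit 0) (nat_lit 12107237636) (nat_lit 912) (nat_lit 1794180648) (nat_lit 76) (nat_lit 1972746162) (nat_lit 318) (nat_lit 5) (nat_lit 330) (nat_lit 5) (nat_lit 319) (nat_lit 5) (nat_lit 464) (nat_lit 429) (nat_lit 247)) (XT.lf (nat_lit 0) (nat_lit 6199287704) (nat_lit 836) (nat_lit 7792505973) (nat_lit 912) (nat_lit 2059329811)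 (nat_lit 307) (nat_lit 5) (nat_lit 318) (nat_lit 5) (nat_lit 319) (nat_lit 5) (nat_lit 465) (nat_lit 429) (nat_lit 246)))) (XT.nd (nat_lit 156) (nat_lit 760) (nat_lit 0) (XT.nd (nat_lit 78) (nat_lit 836) (nat_lit 0) (XT.lf (nat_lit 0) (nat_lit 14369607602) (nat_lit 836) (nat_lit 1548965046) (nat_lit 912) (nat_lit 312963848) (nat_lit 307) (nat_lit 5) (nat_lit 318) (nat_lit 5) (nat_lit 319) (nat_lit 5) (nat_lit 466) (nat_lit 429) (nat_lit 245)) (XT.lf (nat_lit 0) (nat_lit 1514541538) (nat_lit 836) (nat_lit 10092041597) (nat_lit 76) (nat_lit 4807479784) (nat_lit 296) (nat_lit 5) (nat_lit 307) (nat_lit 5) (nat_lit 297) (nat_lit 5) (nat_lit 467) (nat_lit 429) (nat_lit 244))) (XT.nd (nat_lit 78) (nat_lit 760) (nat_lit 0) (XT.lf (nat_lit 0) (nat_lit 3389929561) (nat_lit 836) (nat_lit 1924916030) (nat_lit 76) (nat_lit 11285047554) (nat_lit 296) (nat_lit 5) (nat_lit 307) (nat_lit 5) (nat_lit 297) (nat_lit 5) (nat_lit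 468) (nat_lit 429) (nat_lit 243)) (XT.lf (nat_lit 0) (nat_lit 5345184583) (nat_lit 836) (nat_lit 10312859380) (nat_lit 76) (nat_lit 1130553837) (nat_lit 286) (nat_lit 5) (nat_lit 297) (nat_lit 5) (nat_lit 287) (nat_lit 5) (nat_lit 469) (nat_lit 429) (nat_lit 242)))))) (XT.nd (nat_lit 546) (nat_lit 2584) (nat_lit 0) (XT.nd (nat_lit 234) (nat_lit 1520) (nat_lit 0) (XT.nd (nat_lit 78) (nat_lit 684) (nat_lit 0) (XT.lf (nat_lit 0) (nat_lit 7380665426) (nat_lit 836) (nat_lit 1952957586) (nat_lit 76) (nat_lit 7646636033) (nat_lit 286) (nat_lit 5) (nat_lit 297) (nat_lit 5) (nat_lit 287) (nat_lit 5) (nat_lit 470) (nat_lit 429) (nat_lit 241)) (XT.nd (nat_lit 78) (nat_lit 0) (nat_lit 0) (XT.lf (nat_lit 0) (nat_lit 6654202633) (nat_lit 684) (nat_lit 2838915889) (nat_lit 760) (nat_lit 7681914554) (nat_lit 277) (nat_lit 5) (nat_lit 286) (nat_lit 5) (nat_lit 287) (nat_lit 5) (nat_lit 471) (nat_lit 429) (nat_lit 240)) (XT.lf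 (nat_lit 0) (nat_lit 11678738729) (nat_lit 760) (nat_lit 1945430499) (nat_lit 76) (nat_lit 3748919722) (nat_lit 277) (nat_lit 5) (nat_lit 287) (nat_lit 5) (nat_lit 278) (nat_lit 5) (nat_lit 472) (nat_lit 429) (nat_lit 239)))) (XT.nd (nat_lit 156) (nat_lit 760) (nat_lit 0) (XT.nd (nat_lit 78) (nat_lit 0) (nat_lit 0) (XT.lf (nat_lit 0) (nat_lit 6865559970) (nat_lit 760) (nat_lit 7099168986) (nat_lit 836) (nat_lit 3609248460) (nat_lit 267) (nat_lit 5) (nat_lit 277) (nat_lit 5) (nat_lit 278) (nat_lit 5) (nat_lit 473) (nat_lit 429) (nat_lit 238)) (XT.lf (nat_lit 0) (nat_lit 15872028413) (nat_lit 760) (nat_lit 430832081) (nat_lit 836) (nat_lit 1475899265) (nat_lit 267) (nat_lit 5) (nat_lit 277) (nat_lit 5) (nat_lit 278) (nat_lit 5) (nat_lit 474) (nat_lit 429) (nat_lit 237))) (XT.nd (nat_lit 78) (nat_lit 0) (nat_lit 0) (XT.lf (nat_lit 0) (nat_lit 772525546) (nat_lit 760) (nat_lit 10875257947) (nat_lit 76) (nat_lit 6338135888)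 (nat_lit 257) (nat_lit 5) (nat_lit 267) (nat_lit 5) (nat_lit 258) (nat_lit 5) (nat_lit 475) (nat_lit 429) (nat_lit 236)) (XT.lf (nat_lit 0) (nat_lit 3055436694) (nat_lit 760) (nat_lit 1882578266) (nat_lit 76) (nat_lit 13258830796) (nat_lit 257) (nat_lit 5) (nat_lit 267) (nat_lit 5) (nat_lit 258) (nat_lit 5) (nat_lit 476) (nat_lit 429) (nat_lit 235))))) (XT.nd (nat_lit 234) (nat_lit 1292) (nat_lit 0) (XT.nd (nat_lit 78) (nat_lit 608) (nat_lit 0) (XT.lf (nat_lit 0) (nat_lit 5438263329) (nat_lit 760) (nat_lit 11044117640) (nat_lit 76) (nat_lit 1928528736) (nat_lit 248) (nat_lit 5) (nat_lit 258) (nat_lit 5) (nat_lit 249) (nat_lit 5) (nat_lit 477) (nat_lit 429) (nat_lit 234)) (XT.nd (nat_lit 78) (nat_lit 608) (nat_lit 0) (XT.lf (nat_lit 0) (nat_lit 7907895464) (nat_lit 760) (nat_lit 1842206194) (nat_lit 76) (nat_lit 8878374404) (nat_lit 248) (nat_lit 5) (nat_lit 258) (nat_lit 5) (nat_lit 249) (nat_lit 5) (nat_lit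 478) (nat_lit 429) (nat_lit 233)) (XT.lf (nat_lit 0) (nat_lit 7636955663) (nat_lit 608) (nat_lit 2833401826) (nat_lit 684) (nat_lit 8379171541) (nat_lit 240) (nat_lit 5) (nat_lit 248) (nat_lit 5) (nat_lit 249) (nat_lit 5) (nat_lit 479) (nat_lit 429) (nat_lit 232)))) (XT.nd (nat_lit 156) (nat_lit 684) (nat_lit 0) (XT.nd (nat_lit 78) (nat_lit 608) (nat_lit 0) (XT.lf (nat_lit 0) (nat_lit 13117845821) (nat_lit 684) (nat_lit 1778597106) (nat_lit 76) (nat_lit 4177888541) (nat_lit 240) (nat_lit 5) (nat_lit 249) (nat_lit 5) (nat_lit 241) (nat_lit 5) (nat_lit 480) (nat_lit 429) (nat_lit 231)) (XT.lf (nat_lit 0) (nat_lit 7922312538) (nat_lit 608) (nat_lit 7960215074) (nat_lit 684) (nat_lit 3419821341) (nat_lit 232) (nat_lit 5) (nat_lit 240) (nat_lit 5) (nat_lit 241) (nat_lit 5) (nat_lit 481) (nat_lit 429) (nat_lit 230))) (XT.nd (nat_lit 78) (nat_lit 684) (nat_lit 0) (XT.lf (nat_lit 0) (nat_lit 17834510575) (nat_lit 608)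 (nat_lit 874042732) (nat_lit 684) (nat_lit 826256272) (nat_lit 232) (nat_lit 5) (nat_lit 240) (nat_lit 5) (nat_lit 241) (nat_lit 5) (nat_lit 482) (nat_lit 429) (nat_lit 229)) (XT.lf (nat_lit 0) (nat_lit 1884837888) (nat_lit 684) (nat_lit 11549606665) (nat_lit 76) (nat_lit 6335451953) (nat_lit 223) (nat_lit 5) (nat_lit 232) (nat_lit 5) (nat_lit 224) (nat_lit 5) (nat_lit 483) (nat_lit 429) (nat_lit 228))))))) (XT.nd (nat_lit 1092) (nat_lit 3192) (nat_lit 0) (XT.nd (nat_lit 546) (nat_lit 2128) (nat_lit 0) (XT.nd (nat_lit 234) (nat_lit 1140) (nat_lit 0) (XT.nd (nat_lit 78) (nat_lit 608) (nat_lit 0) (XT.lf (nat_lit 0) (nat_lit 4650626673) (nat_lit 684) (nat_lit 1665307532) (nat_lit 76) (nat_lit 13693414587) (nat_lit 223) (nat_lit 5) (nat_lit 232) (nat_lit 5) (nat_lit 224) (nat_lit 5) (nat_lit 484) (nat_lit 429) (nat_lit 227)) (XT.nd (nat_lit 78) (nat_lit 0) (nat_lit 0) (XT.lf (nat_lit 0) (nat_lit 7527919357) (nat_lit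 684) (nat_lit 11737371678) (nat_lit 76) (nat_lit 987178835) (nat_lit 215) (nat_lit 5) (nat_lit 224) (nat_lit 5) (nat_lit 216) (nat_lit 5) (nat_lit 485) (nat_lit 429) (nat_lit 226)) (XT.lf (nat_lit 0) (nat_lit 10510259190) (nat_lit 684) (nat_lit 1627227776) (nat_lit 76) (nat_lit 8362019816) (nat_lit 215) (nat_lit 5) (nat_lit 224) (nat_lit 5) (nat_lit 216) (nat_lit 5) (nat_lit 486) (nat_lit 429) (nat_lit 225)))) (XT.nd (nat_lit 156) (nat_lit 608) (nat_lit 0) (XT.nd (nat_lit 78) (nat_lit 0) (nat_lit 0) (XT.lf (nat_lit 0) (nat_lit 8793802048) (nat_lit 532) (nat_lit 4810073106) (nat_lit 608) (nat_lit 7146580063) (nat_lit 208) (nat_lit 5) (nat_lit 215) (nat_lit 5) (nat_lit 216) (nat_lit 5) (nat_lit 487) (nat_lit 429) (nat_lit 224)) (XT.lf (nat_lit 0) (nat_lit 16782241650) (nat_lit 608) (nat_lit 1584971337) (nat_lit 76) (nat_lit 2638755375) (nat_lit 208) (nat_lit 5) (nat_lit 216) (nat_lit 5) (nat_lit 209) (nat_lit 5)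 (nat_lit 488) (nat_lit 429) (nat_lit 223))) (XT.nd (nat_lit 78) (nat_lit 76) (nat_lit 0) (XT.lf (nat_lit 0) (nat_lit 9074728564) (nat_lit 532) (nat_lit 11034917531) (nat_lit 608) (nat_lit 1155239503) (nat_lit 201) (nat_lit 5) (nat_lit 208) (nat_lit 5) (nat_lit 209) (nat_lit 5) (nat_lit 489) (nat_lit 429) (nat_lit 222)) (XT.lf (nat_lit 0) (nat_lit 1954146803) (nat_lit 608) (nat_lit 1579159737) (nat_lit 76) (nat_lit 17995312806) (nat_lit 200) (nat_lit 5) (nat_lit 208) (nat_lit 5) (nat_lit 201) (nat_lit 5) (nat_lit 490) (nat_lit 429) (nat_lit 221))))) (XT.nd (nat_lit 234) (nat_lit 1064) (nat_lit 0) (XT.nd (nat_lit 78) (nat_lit 532) (nat_lit 0) (XT.lf (nat_lit 0) (nat_lit 5192997093) (nat_lit 608) (nat_lit 12470960309) (nat_lit 76) (nat_lit 4131865799) (nat_lit 193) (nat_lit 5) (nat_lit 201) (nat_lit 5) (nat_lit 194) (nat_lit 5) (nat_lit 491) (nat_lit 429) (nat_lit 220)) (XT.nd (nat_lit 78) (nat_lit 532) (nat_lit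 0) (XT.lf (nat_lit 0) (nat_lit 8525565998) (nat_lit 608) (nat_lit 1629788916) (nat_lit 76) (nat_lit 11912440383) (nat_lit 193) (nat_lit 5) (nat_lit 201) (nat_lit 5) (nat_lit 194) (nat_lit 5) (nat_lit 492) (nat_lit 429) (nat_lit 219)) (XT.lf (nat_lit 0) (nat_lit 9547012710) (nat_lit 532) (nat_lit 2434734654) (nat_lit 608) (nat_lit 10362323182) (nat_lit 186) (nat_lit 5) (nat_lit 193) (nat_lit 5) (nat_lit 194) (nat_lit 5) (nat_lit 493) (nat_lit 429) (nat_lit 218)))) (XT.nd (nat_lit 156) (nat_lit 608) (nat_lit 0) (XT.nd (nat_lit 78) (nat_lit 456) (nat_lit 0) (XT.lf (nat_lit 0) (nat_lit 15548407255) (nat_lit 608) (nat_lit 1698059452) (nat_lit 76) (nat_lit 5378580373) (nat_lit 186) (nat_lit 5) (nat_lit 194) (nat_lit 5) (nat_lit 187) (nat_lit 5) (nat_lit 494) (nat_lit 429) (nat_lit 217)) (XT.lf (nat_lit 0) (nat_lit 9728051524) (nat_lit 456) (nat_lit 9532755131) (nat_lit 532) (nat_lit 3649351185) (nat_lit 180) (nat_lit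 5) (nat_lit 186) (nat_lit 5) (nat_lit 187) (nat_lit 5) (nat_lit 495) (nat_lit 429) (nat_lit 216))) (XT.nd (nat_lit 78) (nat_lit 608) (nat_lit 0) (XT.lf (nat_lit 0) (nat_lit 21399415546) (nat_lit 456) (nat_lit 1654609491) (nat_lit 532) (nat_lit 146817124) (nat_lit 180) (nat_lit 5) (nat_lit 186) (nat_lit 5) (nat_lit 187) (nat_lit 5) (nat_lit 496) (nat_lit 429) (nat_lit 215)) (XT.lf (nat_lit 0) (nat_lit 3482400460) (nat_lit 608) (nat_lit 13629356219) (nat_lit 76) (nat_lit 6383110051) (nat_lit 172) (nat_lit 5) (nat_lit 180) (nat_lit 5) (nat_lit 173) (nat_lit 5) (nat_lit 497) (nat_lit 429) (nat_lit 214)))))) (XT.nd (nat_lit 546) (nat_lit 1748) (nat_lit 0) (XT.nd (nat_lit 234) (nat_lit 988) (nat_lit 0) (XT.nd (nat_lit 78) (nat_lit 456) (nat_lit 0) (XT.lf (nat_lit 0) (nat_lit 7200644939) (nat_lit 608) (nat_lit 2022610593) (nat_lit 76) (nat_lit 14571131289) (nat_lit 172) (nat_lit 5) (nat_lit 180) (nat_lit 5) (nat_lit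 173) (nat_lit 5) (nat_lit 498) (nat_lit 429) (nat_lit 213)) (XT.nd (nat_lit 78) (nat_lit 0) (nat_lit 0) (XT.lf (nat_lit 0) (nat_lit 9940488564) (nat_lit 456) (nat_lit 1112678861) (nat_lit 532) (nat_lit 13045534181) (nat_lit 166) (nat_lit 5) (nat_lit 172) (nat_lit 5) (nat_lit 173) (nat_lit 5) (nat_lit 499) (nat_lit 429) (nat_lit 212)) (XT.lf (nat_lit 0) (nat_lit 15038305150) (nat_lit 532) (nat_lit 2291338824) (nat_lit 76) (nat_lit 7078349921) (nat_lit 166) (nat_lit 5) (nat_lit 173) (nat_lit 5) (nat_lit 167) (nat_lit 5) (nat_lit 500) (nat_lit 429) (nat_lit 211)))) (XT.nd (nat_lit 156) (nat_lit 532) (nat_lit 0) (XT.nd (nat_lit 78) (nat_lit 0) (nat_lit 0) (XT.lf (nat_lit 0) (nat_lit 9929658645) (nat_lit 456) (nat_lit 9240829513) (nat_lit 532) (nat_lit 5551639477) (nat_lit 160) (nat_lit 5) (nat_lit 166) (nat_lit 5) (nat_lit 167) (nat_lit 5) (nat_lit 501) (nat_lit 429) (nat_lit 210)) (XT.lf (nat_lit 0) (nat_lit 22420100975)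 (nat_lit 456) (nat_lit 976142785) (nat_lit 532) (nat_lit 1646084120) (nat_lit 160) (nat_lit 5) (nat_lit 166) (nat_lit 5) (nat_lit 167) (nat_lit 5) (nat_lit 502) (nat_lit 429) (nat_lit 209))) (XT.nd (nat_lit 78) (nat_lit 0) (nat_lit 0) (XT.lf (nat_lit 0) (nat_lit 2415722587) (nat_lit 532) (nat_lit 15516236876) (nat_lit 76) (nat_lit 7434495477) (nat_lit 153) (nat_lit 5) (nat_lit 160) (nat_lit 5) (nat_lit 154) (nat_lit 5) (nat_lit 503) (nat_lit 429) (nat_lit 208)) (XT.lf (nat_lit 0) (nat_lit 6556568581) (nat_lit 532) (nat_lit 3112554574) (nat_lit 76) (nat_lit 16027329158) (nat_lit 153) (nat_lit 5) (nat_lit 160) (nat_lit 5) (nat_lit 154) (nat_lit 5) (nat_lit 504) (nat_lit 429) (nat_lit 207))))) (XT.nd (nat_lit 312) (nat_lit 912) (nat_lit 0) (XT.nd (nat_lit 156) (nat_lit 380) (nat_lit 0) (XT.nd (nat_lit 78) (nat_lit 0) (nat_lit 0) (XT.lf (nat_lit 0) (nat_lit 9659995322) (nat_lit 456) (nat_lit 1178686679) (nat_lit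 532) (nat_lit 15193200847) (nat_lit 147) (nat_lit 5) (nat_lit 153) (nat_lit 5) (nat_lit 154) (nat_lit 5) (nat_lit 505) (nat_lit 429) (nat_lit 206)) (XT.lf (nat_lit 0) (nat_lit 15271804566) (nat_lit 532) (nat_lit 3698065939) (nat_lit 76) (nat_lit 7402846331) (nat_lit 147) (nat_lit 5) (nat_lit 154) (nat_lit 5) (nat_lit 148) (nat_lit 5) (nat_lit 506) (nat_lit 429) (nat_lit 205))) (XT.nd (nat_lit 78) (nat_lit 0) (nat_lit 0) (XT.lf (nat_lit 0) (nat_lit 9338077327) (nat_lit 380) (nat_lit 10519796563) (nat_lit 456) (nat_lit 6861210067) (nat_lit 142) (nat_lit 5) (nat_lit 147) (nat_lit 5) (nat_lit 148) (nat_lit 5) (nat_lit 507) (nat_lit 429) (nat_lit 204)) (XT.lf (nat_lit 0) (nat_lit 22679290559) (nat_lit 380) (nat_lit 1877083303) (nat_lit 456) (nat_lit 2515592469) (nat_lit 142) (nat_lit 5) (nat_lit 147) (nat_lit 5) (nat_lit 148) (nat_lit 5) (nat_lit 508) (nat_lit 429) (nat_lit 203)))) (XT.nd (nat_lit 156) (nat_lit 380)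 (nat_lit 0) (XT.nd (nat_lit 78) (nat_lit 0) (nat_lit 0) (XT.lf (nat_lit 0) (nat_lit 1991387304) (nat_lit 532) (nat_lit 18521389213) (nat_lit 76) (nat_lit 6916891113) (nat_lit 135) (nat_lit 5) (nat_lit 142) (nat_lit 5) (nat_lit 136) (nat_lit 5) (nat_lit 509) (nat_lit 429) (nat_lit 202)) (XT.lf (nat_lit 0) (nat_lit 6592934618) (nat_lit 532) (nat_lit 5294181027) (nat_lit 76) (nat_lit 15906314489) (nat_lit 135) (nat_lit 5) (nat_lit 142) (nat_lit 5) (nat_lit 136) (nat_lit 5) (nat_lit 510) (nat_lit 429) (nat_lit 201))) (XT.nd (nat_lit 78) (nat_lit 0) (nat_lit 0) (XT.lf (nat_lit 0) (nat_lit 8300793207) (nat_lit 380) (nat_lit 3035669660) (nat_lit 456) (nat_lit 16827007959) (nat_lit 130) (nat_lit 5) (nat_lit 135) (nat_lit 5) (nat_lit 136) (nat_lit 5) (nat_lit 511) (nat_lit 429) (nat_lit 200)) (XT.lf (nat_lit 0) (nat_lit 16245618566) (nat_lit 456) (nat_lit 6345591672) (nat_lit 76) (nat_lit 5948288853) (nat_lit 130) (nat_lit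 5) (nat_lit 136) (nat_lit 5) (nat_lit 131) (nat_lit 5) (nat_lit 512) (nat_lit 429) (nat_lit 199))))))))
noncomputable def xc208 : XT := (XT.nd (nat_lit 54600) (nat_lit 0) (nat_lit 10108) (XT.nd (nat_lit 53508) (nat_lit 0) (nat_lit 20672) (XT.nd (nat_lit 52962) (nat_lit 0) (nat_lit 21888) (XT.nd (nat_lit 234) (nat_lit 380) (nat_lit 0) (XT.nd (nat_lit 78) (nat_lit 380) (nat_lit 0) (XT.lf (nat_lit 0) (nat_lit 7514724201) (nat_lit 380) (nat_lit 13803289877) (nat_lit 456) (nat_lit 7603734571) (nat_lit 125) (nat_lit 5) (nat_lit 130) (nat_lit 5) (nat_lit 131) (nat_lit 5) (nat_lit 513) (nat_lit 429) (nat_lit 198)) (XT.nd (nat_lit 78) (nat_lit 380) (nat_lit 0) (XT.lf (nat_lit 0) (nat_lit 21732734192) (nat_lit 380) (nat_lit 4797907277) (nat_lit 456) (nat_lit 2780227875) (nat_lit 125) (nat_lit 5) (nat_lit 130) (nat_lit 5) (nat_lit 131) (nat_lit 5) (nat_lit 514) (nat_lit 429) (nat_lit 197)) (XT.lf (nat_lit 0) (nat_lit 2179602570)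 (nat_lit 380) (nat_lit 23141111356) (nat_lit 76) (nat_lit 4385424091) (nat_lit 120) (nat_lit 5) (nat_lit 125) (nat_lit 5) (nat_lit 121) (nat_lit 5) (nat_lit 515) (nat_lit 429) (nat_lit 196)))) (XT.nd (nat_lit 156) (nat_lit 0) (nat_lit 0) (XT.nd (nat_lit 78) (nat_lit 380) (nat_lit 0) (XT.lf (nat_lit 0) (nat_lit 7280678256) (nat_lit 380) (nat_lit 9070543102) (nat_lit 76) (nat_lit 13756139361) (nat_lit 120) (nat_lit 5) (nat_lit 125) (nat_lit 5) (nat_lit 121) (nat_lit 5) (nat_lit 516) (nat_lit 429) (nat_lit 195)) (XT.lf (nat_lit 0) (nat_lit 5346159882) (nat_lit 380) (nat_lit 7168676202) (nat_lit 456) (nat_lit 18001152265) (nat_lit 115) (nat_lit 5) (nat_lit 120) (nat_lit 5) (nat_lit 121) (nat_lit 5) (nat_lit 517) (nat_lit 429) (nat_lit 194))) (XT.nd (nat_lit 52494) (nat_lit 0) (nat_lit 21888) (XT.lf (nat_lit 0) (nat_lit 17925591329) (nat_lit 456) (nat_lit 10777511105) (nat_lit 76) (nat_lit 2228249465) (nat_lit 115)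 (nat_lit 5) (nat_lit 121) (nat_lit 5) (nat_lit 116) (nat_lit 5) (nat_lit 518) (nat_lit 429) (nat_lit 193)) (XT.lf (nat_lit 0) (nat_lit 556735047) (nat_lit 0) (nat_lit 556735047) (nat_lit 1596) (nat_lit 4569901106) (nat_lit 403) (nat_lit 5) (nat_lit 403) (nat_lit 3) (nat_lit 424) (nat_lit 3) (nat_lit 430) (nat_lit 430) (nat_lit 280))))) (XT.nd (nat_lit 234) (nat_lit 0) (nat_lit 76) (XT.nd (nat_lit 78) (nat_lit 0) (nat_lit 0) (XT.lf (nat_lit 0) (nat_lit 2784798925) (nat_lit 1596) (nat_lit 5099882946) (nat_lit 1672) (nat_lit 3584602728) (nat_lit 403) (nat_lit 5) (nat_lit 424) (nat_lit 3) (nat_lit 425) (nat_lit 5) (nat_lit 431) (nat_lit 430) (nat_lit 279)) (XT.nd (nat_lit 78) (nat_lit 0) (nat_lit 76) (XT.lf (nat_lit 76) (nat_lit 144051386) (nat_lit 0) (nat_lit 3204686185) (nat_lit 1672) (nat_lit 8225252458) (nat_lit 404) (nat_lit 5) (nat_lit 403) (nat_lit 5) (nat_lit 425) (nat_lit 5) (nat_lit 432) (nat_lit 430) (nat_lit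 278)) (XT.lf (nat_lit 0) (nat_lit 3955461613) (nat_lit 1596) (nat_lit 6135829419) (nat_lit 1672) (nat_lit 1588879035) (nat_lit 404) (nat_lit 5) (nat_lit 425) (nat_lit 5) (nat_lit 426) (nat_lit 5) (nat_lit 433) (nat_lit 430) (nat_lit 277)))) (XT.nd (nat_lit 156) (nat_lit 0) (nat_lit 76) (XT.nd (nat_lit 78) (nat_lit 0) (nat_lit 0) (XT.lf (nat_lit 0) (nat_lit 4582671341) (nat_lit 1596) (nat_lit 764223773) (nat_lit 1672) (nat_lit 6441421992) (nat_lit 404) (nat_lit 5) (nat_lit 425) (nat_lit 5) (nat_lit 426) (nat_lit 5) (nat_lit 434) (nat_lit 430) (nat_lit 276)) (XT.lf (nat_lit 76) (nat_lit 4770355830) (nat_lit 0) (nat_lit 470422255) (nat_lit 1672) (nat_lit 6657492162) (nat_lit 405) (nat_lit 5) (nat_lit 404) (nat_lit 5) (nat_lit 426) (nat_lit 5) (nat_lit 435) (nat_lit 430) (nat_lit 275))) (XT.nd (nat_lit 78) (nat_lit 0) (nat_lit 0) (XT.lf (nat_lit 0) (nat_lit 5934067484) (nat_lit 1596) (nat_lit 1620877522) (nat_lit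 1672) (nat_lit 4455047054) (nat_lit 405) (nat_lit 5) (nat_lit 426) (nat_lit 5) (nat_lit 427) (nat_lit 5) (nat_lit 436) (nat_lit 430) (nat_lit 274)) (XT.lf (nat_lit 76) (nat_lit 4039030155) (nat_lit 0) (nat_lit 2619392727) (nat_lit 1672) (nat_lit 5465191245) (nat_lit 406) (nat_lit 5) (nat_lit 405) (nat_lit 5) (nat_lit 427) (nat_lit 5) (nat_lit 437) (nat_lit 430) (nat_lit 273)))))) (XT.nd (nat_lit 546) (nat_lit 1444) (nat_lit 0) (XT.nd (nat_lit 234) (nat_lit 0) (nat_lit 76) (XT.nd (nat_lit 78) (nat_lit 0) (nat_lit 0) (XT.lf (nat_lit 0) (nat_lit 7411977727) (nat_lit 1596) (nat_lit 2428295129) (nat_lit 1672) (nat_lit 2398951163) (nat_lit 406) (nat_lit 5) (nat_lit 427) (nat_lit 5) (nat_lit 428) (nat_lit 5) (nat_lit 438) (nat_lit 430) (nat_lit 272)) (XT.nd (nat_lit 78) (nat_lit 0) (nat_lit 76) (XT.lf (nat_lit 76) (nat_lit 3360631665) (nat_lit 0) (nat_lit 4847456486) (nat_lit 1672) (nat_lit 4148517710) (nat_lit 407)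 (nat_lit 5) (nat_lit 406) (nat_lit 5) (nat_lit 428) (nat_lit 5) (nat_lit 439) (nat_lit 430) (nat_lit 271)) (XT.lf (nat_lit 0) (nat_lit 9026644637) (nat_lit 1596) (nat_lit 3186892312) (nat_lit 1672) (nat_lit 262677169) (nat_lit 407) (nat_lit 5) (nat_lit 428) (nat_lit 5) (nat_lit 429) (nat_lit 5) (nat_lit 440) (nat_lit 430) (nat_lit 270)))) (XT.nd (nat_lit 156) (nat_lit 0) (nat_lit 76) (XT.nd (nat_lit 78) (nat_lit 0) (nat_lit 0) (XT.lf (nat_lit 76) (nat_lit 2734846628) (nat_lit 0) (nat_lit 7165338044) (nat_lit 1672) (nat_lit 2697266693) (nat_lit 408) (nat_lit 5) (nat_lit 407) (nat_lit 5) (nat_lit 429) (nat_lit 5) (nat_lit 441) (nat_lit 430) (nat_lit 269)) (XT.lf (nat_lit 76) (nat_lit 8810977248) (nat_lit 0) (nat_lit 1990531101) (nat_lit 1672) (nat_lit 1919407649) (nat_lit 408) (nat_lit 5) (nat_lit 407) (nat_lit 5) (nat_lit 429) (nat_lit 5) (nat_lit 442) (nat_lit 430) (nat_lit 268))) (XT.nd (nat_lit 78) (nat_lit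 0) (nat_lit 0) (XT.lf (nat_lit 76) (nat_lit 2161431240) (nat_lit 0) (nat_lit 9583975717) (nat_lit 1672) (nat_lit 1100960719) (nat_lit 409) (nat_lit 5) (nat_lit 408) (nat_lit 5) (nat_lit 430) (nat_lit 5) (nat_lit 443) (nat_lit 430) (nat_lit 267)) (XT.lf (nat_lit 76) (nat_lit 8386569248) (nat_lit 0) (nat_lit 4350281220) (nat_lit 1672) (nat_lit 236913132) (nat_lit 409) (nat_lit 5) (nat_lit 408) (nat_lit 5) (nat_lit 430) (nat_lit 5) (nat_lit 444) (nat_lit 430) (nat_lit 266))))) (XT.nd (nat_lit 234) (nat_lit 0) (nat_lit 76) (XT.nd (nat_lit 78) (nat_lit 0) (nat_lit 0) (XT.lf (nat_lit 0) (nat_lit 642628143) (nat_lit 1672) (nat_lit 11467610169) (nat_lit 1748) (nat_lit 993260383) (nat_lit 387) (nat_lit 5) (nat_lit 409) (nat_lit 5) (nat_lit 410) (nat_lit 5) (nat_lit 445) (nat_lit 430) (nat_lit 265)) (XT.nd (nat_lit 78) (nat_lit 0) (nat_lit 0) (XT.lf (nat_lit 0) (nat_lit 1586031968) (nat_lit 1672) (nat_lit 5227676668) (nat_lit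 1748) (nat_lit 6421107713) (nat_lit 387) (nat_lit 5) (nat_lit 409) (nat_lit 5) (nat_lit 410) (nat_lit 5) (nat_lit 446) (nat_lit 430) (nat_lit 264)) (XT.lf (nat_lit 76) (nat_lit 1144720793) (nat_lit 0) (nat_lit 1400863274) (nat_lit 1748) (nat_lit 10823238585) (nat_lit 388) (nat_lit 5) (nat_lit 387) (nat_lit 5) (nat_lit 410) (nat_lit 5) (nat_lit 447) (nat_lit 430) (nat_lit 263)))) (XT.nd (nat_lit 156) (nat_lit 0) (nat_lit 76) (XT.nd (nat_lit 78) (nat_lit 0) (nat_lit 0) (XT.lf (nat_lit 0) (nat_lit 3576408432) (nat_lit 1672) (nat_lit 5823887257) (nat_lit 1748) (nat_lit 4104179513) (nat_lit 388) (nat_lit 5) (nat_lit 410) (nat_lit 5) (nat_lit 411) (nat_lit 5) (nat_lit 448) (nat_lit 430) (nat_lit 262)) (XT.lf (nat_lit 76) (nat_lit 696815933) (nat_lit 0) (nat_lit 3935047639) (nat_lit 1748) (nat_lit 9010904539) (nat_lit 389) (nat_lit 5) (nat_lit 388) (nat_lit 5) (nat_lit 411) (nat_lit 5) (nat_lit 449) (nat_lit 430) (nat_lit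 261))) (XT.nd (nat_lit 78) (nat_lit 0) (nat_lit 0) (XT.lf (nat_lit 0) (nat_lit 5748784940) (nat_lit 1672) (nat_lit 6374615431) (nat_lit 1748) (nat_lit 1659626808) (nat_lit 389) (nat_lit 5) (nat_lit 411) (nat_lit 5) (nat_lit 412) (nat_lit 5) (nat_lit 450) (nat_lit 430) (nat_lit 260)) (XT.lf (nat_lit 76) (nat_lit 298608238) (nat_lit 0) (nat_lit 6607996160) (nat_lit 1748) (nat_lit 7019123134) (nat_lit 390) (nat_lit 5) (nat_lit 389) (nat_lit 5) (nat_lit 412) (nat_lit 5) (nat_lit 451) (nat_lit 430) (nat_lit 259))))))) (XT.nd (nat_lit 1092) (nat_lit 5320) (nat_lit 0) (XT.nd (nat_lit 546) (nat_lit 2508) (nat_lit 0) (XT.nd (nat_lit 234) (nat_lit 2888) (nat_lit 0) (XT.nd (nat_lit 78) (nat_lit 0) (nat_lit 76) (XT.lf (nat_lit 76) (nat_lit 7184358435) (nat_lit 0) (nat_lit 936697193) (nat_lit 1748) (nat_lit 5949563913) (nat_lit 390) (nat_lit 5) (nat_lit 389) (nat_lit 5) (nat_lit 412) (nat_lit 5) (nat_lit 452) (nat_lit 430)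 (nat_lit 258)) (XT.nd (nat_lit 78) (nat_lit 0) (nat_lit 0) (XT.lf (nat_lit 0) (nat_lit 9382165676) (nat_lit 1672) (nat_lit 49467672) (nat_lit 1748) (nat_lit 4786335662) (nat_lit 390) (nat_lit 5) (nat_lit 412) (nat_lit 5) (nat_lit 413) (nat_lit 5) (nat_lit 453) (nat_lit 430) (nat_lit 257)) (XT.lf (nat_lit 76) (nat_lit 7002436448) (nat_lit 0) (nat_lit 3708800976) (nat_lit 1748) (nat_lit 3656180130) (nat_lit 391) (nat_lit 5) (nat_lit 390) (nat_lit 5) (nat_lit 413) (nat_lit 5) (nat_lit 454) (nat_lit 430) (nat_lit 256)))) (XT.nd (nat_lit 156) (nat_lit 1368) (nat_lit 0) (XT.nd (nat_lit 78) (nat_lit 1672) (nat_lit 0) (XT.lf (nat_lit 0) (nat_lit 12072254607) (nat_lit 1672) (nat_lit 345026377) (nat_lit 76) (nat_lit 2102473548) (nat_lit 391) (nat_lit 5) (nat_lit 413) (nat_lit 5) (nat_lit 392) (nat_lit 5) (nat_lit 455) (nat_lit 430) (nat_lit 255)) (XT.lf (nat_lit 0) (nat_lit 6873654883) (nat_lit 1672) (nat_lit 6647409810)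 (nat_lit 1748) (nat_lit 1152868715) (nat_lit 369) (nat_lit 5) (nat_lit 391) (nat_lit 5) (nat_lit 392) (nat_lit 5) (nat_lit 456) (nat_lit 430) (nat_lit 254))) (XT.nd (nat_lit 78) (nat_lit 1292) (nat_lit 0) (XT.lf (nat_lit 0) (nat_lit 159229055) (nat_lit 1748) (nat_lit 598199230) (nat_lit 76) (nat_lit 14073876705) (nat_lit 368) (nat_lit 5) (nat_lit 391) (nat_lit 5) (nat_lit 369) (nat_lit 5) (nat_lit 457) (nat_lit 430) (nat_lit 253)) (XT.lf (nat_lit 0) (nat_lit 1552493413) (nat_lit 1368) (nat_lit 8202822537) (nat_lit 76) (nat_lit 5234954643) (nat_lit 351) (nat_lit 5) (nat_lit 369) (nat_lit 5) (nat_lit 352) (nat_lit 5) (nat_lit 458) (nat_lit 430) (nat_lit 252))))) (XT.nd (nat_lit 234) (nat_lit 1672) (nat_lit 0) (XT.nd (nat_lit 78) (nat_lit 836) (nat_lit 0) (XT.lf (nat_lit 0) (nat_lit 2974415363) (nat_lit 1368) (nat_lit 835781173) (nat_lit 76) (nat_lit 11342209231) (nat_lit 351) (nat_lit 5) (nat_lit 369) (nat_lit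 5) (nat_lit 352) (nat_lit 5) (nat_lit 459) (nat_lit 430) (nat_lit 251)) (XT.nd (nat_lit 78) (nat_lit 0) (nat_lit 0) (XT.lf (nat_lit 0) (nat_lit 4475494168) (nat_lit 912) (nat_lit 8571919925) (nat_lit 76) (nat_lit 2269361171) (nat_lit 340) (nat_lit 5) (nat_lit 352) (nat_lit 5) (nat_lit 341) (nat_lit 5) (nat_lit 460) (nat_lit 430) (nat_lit 250)) (XT.lf (nat_lit 0) (nat_lit 6029488942) (nat_lit 912) (nat_lit 1028457222) (nat_lit 76) (nat_lit 8426033969) (nat_lit 340) (nat_lit 5) (nat_lit 352) (nat_lit 5) (nat_lit 341) (nat_lit 5) (nat_lit 461) (nat_lit 430) (nat_lit 249)))) (XT.nd (nat_lit 156) (nat_lit 836) (nat_lit 0) (XT.nd (nat_lit 78) (nat_lit 0) (nat_lit 0) (XT.lf (nat_lit 0) (nat_lit 6747207908) (nat_lit 836) (nat_lit 903335237) (nat_lit 912) (nat_lit 8003272118) (nat_lit 329) (nat_lit 5) (nat_lit 340) (nat_lit 5) (nat_lit 341) (nat_lit 5) (nat_lit 462) (nat_lit 430) (nat_lit 248)) (XT.lf (nat_lit 0) (nat_lit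 9338143054) (nat_lit 912) (nat_lit 1176795977) (nat_lit 76) (nat_lit 5311431215) (nat_lit 329) (nat_lit 5) (nat_lit 341) (nat_lit 5) (nat_lit 330) (nat_lit 5) (nat_lit 463) (nat_lit 430) (nat_lit 247))) (XT.nd (nat_lit 78) (nat_lit 0) (nat_lit 0) (XT.lf (nat_lit 0) (nat_lit 6783463668) (nat_lit 836) (nat_lit 4318491159) (nat_lit 912) (nat_lit 4899577833) (nat_lit 318) (nat_lit 5) (nat_lit 329) (nat_lit 5) (nat_lit 330) (nat_lit 5) (nat_lit 464) (nat_lit 430) (nat_lit 246)) (XT.lf (nat_lit 0) (nat_lit 12914529184) (nat_lit 912) (nat_lit 1281452136) (nat_lit 76) (nat_lit 1983952699) (nat_lit 318) (nat_lit 5) (nat_lit 330) (nat_lit 5) (nat_lit 319) (nat_lit 5) (nat_lit 465) (nat_lit 430) (nat_lit 245)))))) (XT.nd (nat_lit 546) (nat_lit 2204) (nat_lit 0) (XT.nd (nat_lit 234) (nat_lit 1444) (nat_lit 0) (XT.nd (nat_lit 78) (nat_lit 836) (nat_lit 0) (XT.lf (nat_lit 0) (nat_lit 6868276293) (nat_lit 836) (nat_lit 7960957263)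 (nat_lit 912) (nat_lit 1531357596) (nat_lit 307) (nat_lit 5) (nat_lit 318) (nat_lit 5) (nat_lit 319) (nat_lit 5) (nat_lit 466) (nat_lit 430) (nat_lit 244)) (XT.nd (nat_lit 78) (nat_lit 760) (nat_lit 0) (XT.lf (nat_lit 0) (nat_lit 235644123) (nat_lit 912) (nat_lit 1355073017) (nat_lit 76) (nat_lit 14954090840) (nat_lit 306) (nat_lit 5) (nat_lit 318) (nat_lit 5) (nat_lit 307) (nat_lit 5) (nat_lit 467) (nat_lit 430) (nat_lit 243)) (XT.lf (nat_lit 0) (nat_lit 2088179339) (nat_lit 836) (nat_lit 9744147476) (nat_lit 76) (nat_lit 4898770926) (nat_lit 296) (nat_lit 5) (nat_lit 307) (nat_lit 5) (nat_lit 297) (nat_lit 5) (nat_lit 468) (nat_lit 430) (nat_lit 242)))) (XT.nd (nat_lit 156) (nat_lit 684) (nat_lit 0) (XT.nd (nat_lit 78) (nat_lit 760) (nat_lit 0) (XT.lf (nat_lit 0) (nat_lit 3990421261) (nat_lit 836) (nat_lit 1424458514) (nat_lit 76) (nat_lit 11505985315) (nat_lit 296) (nat_lit 5) (nat_lit 307) (nat_lit 5) (nat_lit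 297) (nat_lit 5) (nat_lit 469) (nat_lit 430) (nat_lit 241)) (XT.lf (nat_lit 0) (nat_lit 5977875544) (nat_lit 836) (nat_lit 9972890131) (nat_lit 76) (nat_lit 1162723575) (nat_lit 286) (nat_lit 5) (nat_lit 297) (nat_lit 5) (nat_lit 287) (nat_lit 5) (nat_lit 470) (nat_lit 430) (nat_lit 240))) (XT.nd (nat_lit 78) (nat_lit 684) (nat_lit 0) (XT.lf (nat_lit 0) (nat_lit 8043756449) (nat_lit 836) (nat_lit 1456500623) (nat_lit 76) (nat_lit 7808939991) (nat_lit 286) (nat_lit 5) (nat_lit 297) (nat_lit 5) (nat_lit 287) (nat_lit 5) (nat_lit 471) (nat_lit 430) (nat_lit 239)) (XT.lf (nat_lit 0) (nat_lit 7319279668) (nat_lit 684) (nat_lit 2872525585) (nat_lit 760) (nat_lit 7316201402) (nat_lit 277) (nat_lit 5) (nat_lit 286) (nat_lit 5) (nat_lit 287) (nat_lit 5) (nat_lit 472) (nat_lit 430) (nat_lit 238))))) (XT.nd (nat_lit 234) (nat_lit 1444) (nat_lit 0) (XT.nd (nat_lit 78) (nat_lit 760) (nat_lit 0) (XT.lf (nat_lit 0) (nat_lit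 12411308392) (nat_lit 760) (nat_lit 1452604167) (nat_lit 76) (nat_lit 3846314550) (nat_lit 277) (nat_lit 5) (nat_lit 287) (nat_lit 5) (nat_lit 278) (nat_lit 5) (nat_lit 473) (nat_lit 430) (nat_lit 237)) (XT.nd (nat_lit 78) (nat_lit 0) (nat_lit 0) (XT.lf (nat_lit 0) (nat_lit 7531107854) (nat_lit 760) (nat_lit 7205556018) (nat_lit 836) (nat_lit 3178603303) (nat_lit 267) (nat_lit 5) (nat_lit 277) (nat_lit 5) (nat_lit 278) (nat_lit 5) (nat_lit 474) (nat_lit 430) (nat_lit 236)) (XT.lf (nat_lit 0) (nat_lit 16707348084) (nat_lit 760) (nat_lit 404550342) (nat_lit 836) (nat_lit 1012446538) (nat_lit 267) (nat_lit 5) (nat_lit 277) (nat_lit 5) (nat_lit 278) (nat_lit 5) (nat_lit 475) (nat_lit 430) (nat_lit 235)))) (XT.nd (nat_lit 156) (nat_lit 684) (nat_lit 0) (XT.nd (nat_lit 78) (nat_lit 0) (nat_lit 0) (XT.lf (nat_lit 0) (nat_lit 1268591467) (nat_lit 760) (nat_lit 10561887257) (nat_lit 76) (nat_lit 6505229191) (nat_lit 257)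 (nat_lit 5) (nat_lit 267) (nat_lit 5) (nat_lit 258) (nat_lit 5) (nat_lit 476) (nat_lit 430) (nat_lit 234)) (XT.lf (nat_lit 0) (nat_lit 3587737006) (nat_lit 760) (nat_lit 1399763312) (nat_lit 76) (nat_lit 13563547201) (nat_lit 257) (nat_lit 5) (nat_lit 267) (nat_lit 5) (nat_lit 258) (nat_lit 5) (nat_lit 477) (nat_lit 430) (nat_lit 233))) (XT.nd (nat_lit 78) (nat_lit 0) (nat_lit 0) (XT.lf (nat_lit 0) (nat_lit 6012673989) (nat_lit 760) (nat_lit 10738682074) (nat_lit 76) (nat_lit 2018153711) (nat_lit 248) (nat_lit 5) (nat_lit 258) (nat_lit 5) (nat_lit 249) (nat_lit 5) (nat_lit 478) (nat_lit 430) (nat_lit 232)) (XT.lf (nat_lit 0) (nat_lit 8522568465) (nat_lit 760) (nat_lit 1363052359) (nat_lit 76) (nat_lit 9105995226) (nat_lit 248) (nat_lit 5) (nat_lit 258) (nat_lit 5) (nat_lit 249) (nat_lit 5) (nat_lit 479) (nat_lit 430) (nat_lit 231))))))))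
noncomputable def xc209 : XT := (XT.nd (nat_lit 2184) (nat_lit 2432) (nat_lit 0) (XT.nd (nat_lit 1092) (nat_lit 3496) (nat_lit 0) (XT.nd (nat_lit 546) (nat_lit 1672) (nat_lit 0) (XT.nd (nat_lit 234) (nat_lit 1292) (nat_lit 0) (XT.nd (nat_lit 78) (nat_lit 608) (nat_lit 0) (XT.lf (nat_lit 0) (nat_lit 8302298012) (nat_lit 608) (nat_lit 2828358604) (nat_lit 684) (nat_lit 8086551792) (nat_lit 240) (nat_lit 5) (nat_lit 248) (nat_lit 5) (nat_lit 249) (nat_lit 5) (nat_lit 480) (nat_lit 430) (nat_lit 230)) (XT.nd (nat_lit 78) (nat_lit 608) (nat_lit 0) (XT.lf (nat_lit 0) (nat_lit 13822646508) (nat_lit 684) (nat_lit 1302881040) (nat_lit 76) (nat_lit 4321154062) (nat_lit 240) (nat_lit 5) (nat_lit 249) (nat_lit 5) (nat_lit 241) (nat_lit 5) (nat_lit 481) (nat_lit 430) (nat_lit 229)) (XT.lf (nat_lit 0) (nat_lit 8588683060) (nat_lit 608) (nat_lit 8048561289) (nat_lit 684) (nat_lit 3042128287) (nat_lit 232) (nat_lit 5) (nat_lit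 240) (nat_lit 5) (nat_lit 241) (nat_lit 5) (nat_lit 482) (nat_lit 430) (nat_lit 228)))) (XT.nd (nat_lit 156) (nat_lit 608) (nat_lit 0) (XT.nd (nat_lit 78) (nat_lit 684) (nat_lit 0) (XT.lf (nat_lit 0) (nat_lit 18689165758) (nat_lit 608) (nat_lit 822054874) (nat_lit 684) (nat_lit 405438770) (nat_lit 232) (nat_lit 5) (nat_lit 240) (nat_lit 5) (nat_lit 241) (nat_lit 5) (nat_lit 483) (nat_lit 430) (nat_lit 227)) (XT.lf (nat_lit 0) (nat_lit 2349411316) (nat_lit 684) (nat_lit 11271631139) (nat_lit 76) (nat_lit 6535448740) (nat_lit 223) (nat_lit 5) (nat_lit 232) (nat_lit 5) (nat_lit 224) (nat_lit 5) (nat_lit 484) (nat_lit 430) (nat_lit 226))) (XT.nd (nat_lit 78) (nat_lit 608) (nat_lit 0) (XT.lf (nat_lit 0) (nat_lit 5162145746) (nat_lit 684) (nat_lit 1199625781) (nat_lit 76) (nat_lit 14039133612) (nat_lit 223) (nat_lit 5) (nat_lit 232) (nat_lit 5) (nat_lit 224) (nat_lit 5) (nat_lit 485) (nat_lit 430) (nat_lit 225)) (XT.lf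 (nat_lit 0) (nat_lit 8092530326) (nat_lit 684) (nat_lit 11468421862) (nat_lit 76) (nat_lit 1088030638) (nat_lit 215) (nat_lit 5) (nat_lit 224) (nat_lit 5) (nat_lit 216) (nat_lit 5) (nat_lit 486) (nat_lit 430) (nat_lit 224))))) (XT.nd (nat_lit 234) (nat_lit 1140) (nat_lit 0) (XT.nd (nat_lit 78) (nat_lit 532) (nat_lit 0) (XT.lf (nat_lit 0) (nat_lit 11126398278) (nat_lit 684) (nat_lit 1165951498) (nat_lit 76) (nat_lit 8608778081) (nat_lit 215) (nat_lit 5) (nat_lit 224) (nat_lit 5) (nat_lit 216) (nat_lit 5) (nat_lit 487) (nat_lit 430) (nat_lit 223)) (XT.nd (nat_lit 78) (nat_lit 0) (nat_lit 0) (XT.lf (nat_lit 0) (nat_lit 9460250101) (nat_lit 532) (nat_lit 4816862091) (nat_lit 608) (nat_lit 6880083466) (nat_lit 208) (nat_lit 5) (nat_lit 215) (nat_lit 5) (nat_lit 216) (nat_lit 5) (nat_lit 488) (nat_lit 430) (nat_lit 222)) (XT.lf (nat_lit 0) (nat_lit 17511749287) (nat_lit 608) (nat_lit 1128180419) (nat_lit 76) (nat_lit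 2778040107) (nat_lit 208) (nat_lit 5) (nat_lit 216) (nat_lit 5) (nat_lit 209) (nat_lit 5) (nat_lit 489) (nat_lit 430) (nat_lit 221)))) (XT.nd (nat_lit 156) (nat_lit 532) (nat_lit 0) (XT.nd (nat_lit 78) (nat_lit 76) (nat_lit 0) (XT.lf (nat_lit 0) (nat_lit 9741499727) (nat_lit 532) (nat_lit 11159630031) (nat_lit 608) (nat_lit 781031796) (nat_lit 201) (nat_lit 5) (nat_lit 208) (nat_lit 5) (nat_lit 209) (nat_lit 5) (nat_lit 490) (nat_lit 430) (nat_lit 220)) (XT.lf (nat_lit 0) (nat_lit 2377643144) (nat_lit 608) (nat_lit 1129646136) (nat_lit 76) (nat_lit 18443987406) (nat_lit 200) (nat_lit 5) (nat_lit 208) (nat_lit 5) (nat_lit 201) (nat_lit 5) (nat_lit 491) (nat_lit 430) (nat_lit 219))) (XT.nd (nat_lit 78) (nat_lit 0) (nat_lit 0) (XT.lf (nat_lit 0) (nat_lit 5677471946) (nat_lit 608) (nat_lit 12235261892) (nat_lit 76) (nat_lit 4311171197) (nat_lit 193) (nat_lit 5) (nat_lit 201) (nat_lit 5) (nat_lit 194) (nat_lit 5)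 (nat_lit 492) (nat_lit 430) (nat_lit 218)) (XT.lf (nat_lit 0) (nat_lit 9069229191) (nat_lit 608) (nat_lit 1186779181) (nat_lit 76) (nat_lit 12245461819) (nat_lit 193) (nat_lit 5) (nat_lit 201) (nat_lit 5) (nat_lit 194) (nat_lit 5) (nat_lit 493) (nat_lit 430) (nat_lit 217)))))) (XT.nd (nat_lit 546) (nat_lit 1444) (nat_lit 0) (XT.nd (nat_lit 234) (nat_lit 1064) (nat_lit 0) (XT.nd (nat_lit 78) (nat_lit 456) (nat_lit 0) (XT.lf (nat_lit 0) (nat_lit 10210429493) (nat_lit 532) (nat_lit 2379855619) (nat_lit 608) (nat_lit 10193075090) (nat_lit 186) (nat_lit 5) (nat_lit 193) (nat_lit 5) (nat_lit 194) (nat_lit 5) (nat_lit 494) (nat_lit 430) (nat_lit 216)) (XT.nd (nat_lit 78) (nat_lit 456) (nat_lit 0) (XT.lf (nat_lit 0) (nat_lit 16221704096) (nat_lit 608) (nat_lit 1262024743) (nat_lit 76) (nat_lit 5586363099) (nat_lit 186) (nat_lit 5) (nat_lit 194) (nat_lit 5) (nat_lit 187) (nat_lit 5) (nat_lit 495) (nat_lit 430) (nat_lit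 215)) (XT.lf (nat_lit 0) (nat_lit 10389516373) (nat_lit 456) (nat_lit 9614762076) (nat_lit 532) (nat_lit 3356712033) (nat_lit 180) (nat_lit 5) (nat_lit 186) (nat_lit 5) (nat_lit 187) (nat_lit 5) (nat_lit 496) (nat_lit 430) (nat_lit 214)))) (XT.nd (nat_lit 156) (nat_lit 456) (nat_lit 0) (XT.nd (nat_lit 78) (nat_lit 532) (nat_lit 0) (XT.lf (nat_lit 0) (nat_lit 205966383) (nat_lit 532) (nat_lit 1373835352) (nat_lit 76) (nat_lit 22077804173) (nat_lit 179) (nat_lit 5) (nat_lit 186) (nat_lit 5) (nat_lit 180) (nat_lit 5) (nat_lit 497) (nat_lit 430) (nat_lit 213)) (XT.lf (nat_lit 0) (nat_lit 3902564836) (nat_lit 608) (nat_lit 13435862854) (nat_lit 76) (nat_lit 6619132493) (nat_lit 172) (nat_lit 5) (nat_lit 180) (nat_lit 5) (nat_lit 173) (nat_lit 5) (nat_lit 498) (nat_lit 430) (nat_lit 212))) (XT.nd (nat_lit 78) (nat_lit 456) (nat_lit 0) (XT.lf (nat_lit 0) (nat_lit 7688301335) (nat_lit 608) (nat_lit 1606121148) (nat_lit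 76) (nat_lit 14968789445) (nat_lit 172) (nat_lit 5) (nat_lit 180) (nat_lit 5) (nat_lit 173) (nat_lit 5) (nat_lit 499) (nat_lit 430) (nat_lit 211)) (XT.lf (nat_lit 0) (nat_lit 10593233797) (nat_lit 456) (nat_lit 1020849616) (nat_lit 532) (nat_lit 12959609134) (nat_lit 166) (nat_lit 5) (nat_lit 172) (nat_lit 5) (nat_lit 173) (nat_lit 5) (nat_lit 500) (nat_lit 430) (nat_lit 210))))) (XT.nd (nat_lit 234) (nat_lit 988) (nat_lit 0) (XT.nd (nat_lit 78) (nat_lit 456) (nat_lit 0) (XT.lf (nat_lit 0) (nat_lit 15672986293) (nat_lit 532) (nat_lit 1886010845) (nat_lit 76) (nat_lit 7330295944) (nat_lit 166) (nat_lit 5) (nat_lit 173) (nat_lit 5) (nat_lit 167) (nat_lit 5) (nat_lit 501) (nat_lit 430) (nat_lit 209)) (XT.nd (nat_lit 78) (nat_lit 0) (nat_lit 0) (XT.lf (nat_lit 0) (nat_lit 10576438451) (nat_lit 456) (nat_lit 9307737082) (nat_lit 532) (nat_lit 5325610289) (nat_lit 160) (nat_lit 5) (nat_lit 166) (nat_lit 5) (nat_lit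 167) (nat_lit 5) (nat_lit 502) (nat_lit 430) (nat_lit 208)) (XT.lf (nat_lit 0) (nat_lit 23307901654) (nat_lit 456) (nat_lit 880068561) (nat_lit 532) (nat_lit 1348552884) (nat_lit 160) (nat_lit 5) (nat_lit 166) (nat_lit 5) (nat_lit 167) (nat_lit 5) (nat_lit 503) (nat_lit 430) (nat_lit 207)))) (XT.nd (nat_lit 156) (nat_lit 456) (nat_lit 0) (XT.nd (nat_lit 78) (nat_lit 0) (nat_lit 0) (XT.lf (nat_lit 0) (nat_lit 2787393388) (nat_lit 532) (nat_lit 15379726013) (nat_lit 76) (nat_lit 7700029011) (nat_lit 153) (nat_lit 5) (nat_lit 160) (nat_lit 5) (nat_lit 154) (nat_lit 5) (nat_lit 504) (nat_lit 430) (nat_lit 206)) (XT.lf (nat_lit 0) (nat_lit 7004715981) (nat_lit 532) (nat_lit 2736731547) (nat_lit 76) (nat_lit 16462428314) (nat_lit 153) (nat_lit 5) (nat_lit 160) (nat_lit 5) (nat_lit 154) (nat_lit 5) (nat_lit 505) (nat_lit 430) (nat_lit 205))) (XT.nd (nat_lit 78) (nat_lit 0) (nat_lit 0) (XT.lf (nat_lit 0) (nat_lit 10288387280)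 (nat_lit 456) (nat_lit 1080693944) (nat_lit 532) (nat_lit 15177004812) (nat_lit 147) (nat_lit 5) (nat_lit 153) (nat_lit 5) (nat_lit 154) (nat_lit 5) (nat_lit 506) (nat_lit 430) (nat_lit 204)) (XT.lf (nat_lit 0) (nat_lit 15885490533) (nat_lit 532) (nat_lit 3339833895) (nat_lit 76) (nat_lit 7668522966) (nat_lit 147) (nat_lit 5) (nat_lit 154) (nat_lit 5) (nat_lit 148) (nat_lit 5) (nat_lit 507) (nat_lit 430) (nat_lit 203))))))) (XT.nd (nat_lit 53586) (nat_lit 0) (nat_lit 20596) (XT.nd (nat_lit 546) (nat_lit 760) (nat_lit 0) (XT.nd (nat_lit 234) (nat_lit 760) (nat_lit 0) (XT.nd (nat_lit 78) (nat_lit 532) (nat_lit 0) (XT.lf (nat_lit 0) (nat_lit 9954188860) (nat_lit 380) (nat_lit 10605835894) (nat_lit 456) (nat_lit 6687185347) (nat_lit 142) (nat_lit 5) (nat_lit 147) (nat_lit 5) (nat_lit 148) (nat_lit 5) (nat_lit 508) (nat_lit 430) (nat_lit 202)) (XT.nd (nat_lit 78) (nat_lit 532) (nat_lit 0) (XT.lf (nat_lit 0) (nat_lit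 23553807729) (nat_lit 380) (nat_lit 1792706733) (nat_lit 456) (nat_lit 2260758316) (nat_lit 142) (nat_lit 5) (nat_lit 147) (nat_lit 5) (nat_lit 148) (nat_lit 5) (nat_lit 509) (nat_lit 430) (nat_lit 201)) (XT.lf (nat_lit 0) (nat_lit 2330003061) (nat_lit 532) (nat_lit 18464231334) (nat_lit 76) (nat_lit 7177904137) (nat_lit 135) (nat_lit 5) (nat_lit 142) (nat_lit 5) (nat_lit 136) (nat_lit 5) (nat_lit 510) (nat_lit 430) (nat_lit 200)))) (XT.nd (nat_lit 156) (nat_lit 380) (nat_lit 0) (XT.nd (nat_lit 78) (nat_lit 380) (nat_lit 0) (XT.lf (nat_lit 0) (nat_lit 7017722733) (nat_lit 532) (nat_lit 4980863017) (nat_lit 76) (nat_lit 16344710585) (nat_lit 135) (nat_lit 5) (nat_lit 142) (nat_lit 5) (nat_lit 136) (nat_lit 5) (nat_lit 511) (nat_lit 430) (nat_lit 199)) (XT.lf (nat_lit 0) (nat_lit 8883252797) (nat_lit 380) (nat_lit 2969828864) (nat_lit 456) (nat_lit 16867719796) (nat_lit 130) (nat_lit 5) (nat_lit 135) (nat_lit 5)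 (nat_lit 136) (nat_lit 5) (nat_lit 512) (nat_lit 430) (nat_lit 198))) (XT.nd (nat_lit 78) (nat_lit 380) (nat_lit 0) (XT.lf (nat_lit 0) (nat_lit 16855541928) (nat_lit 456) (nat_lit 6059208568) (nat_lit 76) (nat_lit 6189700127) (nat_lit 130) (nat_lit 5) (nat_lit 136) (nat_lit 5) (nat_lit 131) (nat_lit 5) (nat_lit 513) (nat_lit 430) (nat_lit 197)) (XT.lf (nat_lit 0) (nat_lit 8075594577) (nat_lit 380) (nat_lit 13950868054) (nat_lit 456) (nat_lit 7467943707) (nat_lit 125) (nat_lit 5) (nat_lit 130) (nat_lit 5) (nat_lit 131) (nat_lit 5) (nat_lit 514) (nat_lit 430) (nat_lit 196))))) (XT.nd (nat_lit 234) (nat_lit 380) (nat_lit 0) (XT.nd (nat_lit 78) (nat_lit 380) (nat_lit 0) (XT.lf (nat_lit 0) (nat_lit 22569914260) (nat_lit 380) (nat_lit 4767897167) (nat_lit 456) (nat_lit 2553611300) (nat_lit 125) (nat_lit 5) (nat_lit 130) (nat_lit 5) (nat_lit 131) (nat_lit 5) (nat_lit 515) (nat_lit 430) (nat_lit 195)) (XT.nd (nat_lit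 78) (nat_lit 0) (nat_lit 0) (XT.lf (nat_lit 0) (nat_lit 2499705271) (nat_lit 380) (nat_lit 23195439756) (nat_lit 76) (nat_lit 4599457834) (nat_lit 120) (nat_lit 5) (nat_lit 125) (nat_lit 5) (nat_lit 121) (nat_lit 5) (nat_lit 516) (nat_lit 430) (nat_lit 194)) (XT.lf (nat_lit 0) (nat_lit 7697380693) (nat_lit 380) (nat_lit 8851469821) (nat_lit 76) (nat_lit 14155110444) (nat_lit 120) (nat_lit 5) (nat_lit 125) (nat_lit 5) (nat_lit 121) (nat_lit 5) (nat_lit 517) (nat_lit 430) (nat_lit 193)))) (XT.nd (nat_lit 52650) (nat_lit 0) (nat_lit 21888) (XT.nd (nat_lit 52572) (nat_lit 0) (nat_lit 21888) (XT.lf (nat_lit 0) (nat_lit 5850932459) (nat_lit 380) (nat_lit 7182556853) (nat_lit 456) (nat_lit 18087328931) (nat_lit 115) (nat_lit 5) (nat_lit 120) (nat_lit 5) (nat_lit 121) (nat_lit 5) (nat_lit 518) (nat_lit 430) (nat_lit 192)) (XT.lf (nat_lit 0) (nat_lit 822210816) (nat_lit 0) (nat_lit 822210816) (nat_lit 1596) (nat_lit 4142032594)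 (nat_lit 403) (nat_lit 5) (nat_lit 403) (nat_lit 3) (nat_lit 424) (nat_lit 3) (nat_lit 431) (nat_lit 431) (nat_lit 278))) (XT.nd (nat_lit 78) (nat_lit 0) (nat_lit 0) (XT.lf (nat_lit 0) (nat_lit 3834672911) (nat_lit 1596) (nat_lit 4679180962) (nat_lit 1672) (nat_lit 3164127452) (nat_lit 403) (nat_lit 5) (nat_lit 424) (nat_lit 3) (nat_lit 425) (nat_lit 5) (nat_lit 432) (nat_lit 431) (nat_lit 277)) (XT.lf (nat_lit 76) (nat_lit 666193244) (nat_lit 0) (nat_lit 3727574786) (nat_lit 1672) (nat_lit 7391351072) (nat_lit 404) (nat_lit 5) (nat_lit 403) (nat_lit 5) (nat_lit 425) (nat_lit 5) (nat_lit 433) (nat_lit 431) (nat_lit 276)))))) (XT.nd (nat_lit 546) (nat_lit 1368) (nat_lit 0) (XT.nd (nat_lit 234) (nat_lit 0) (nat_lit 76) (XT.nd (nat_lit 78) (nat_lit 0) (nat_lit 0) (XT.lf (nat_lit 0) (nat_lit 4990528597) (nat_lit 1596) (nat_lit 5726594675) (nat_lit 1672) (nat_lit 1176756910) (nat_lit 404) (nat_lit 5) (nat_lit 425)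 (nat_lit 5) (nat_lit 426) (nat_lit 5) (nat_lit 434) (nat_lit 431) (nat_lit 275)) (XT.nd (nat_lit 78) (nat_lit 0) (nat_lit 0) (XT.lf (nat_lit 0) (nat_lit 5611538249) (nat_lit 1596) (nat_lit 257987334) (nat_lit 1672) (nat_lit 6135054642) (nat_lit 404) (nat_lit 5) (nat_lit 425) (nat_lit 5) (nat_lit 426) (nat_lit 5) (nat_lit 435) (nat_lit 431) (nat_lit 274)) (XT.lf (nat_lit 76) (nat_lit 5383852802) (nat_lit 0) (nat_lit 883941374) (nat_lit 1672) (nat_lit 5849253394) (nat_lit 405) (nat_lit 5) (nat_lit 404) (nat_lit 5) (nat_lit 426) (nat_lit 5) (nat_lit 436) (nat_lit 431) (nat_lit 273)))) (XT.nd (nat_lit 156) (nat_lit 0) (nat_lit 76) (XT.nd (nat_lit 78) (nat_lit 0) (nat_lit 0) (XT.lf (nat_lit 0) (nat_lit 6954294692) (nat_lit 1596) (nat_lit 1123979689) (nat_lit 1672) (nat_lit 4153157122) (nat_lit 405) (nat_lit 5) (nat_lit 426) (nat_lit 5) (nat_lit 427) (nat_lit 5) (nat_lit 437) (nat_lit 431) (nat_lit 272)) (XT.lf (nat_lit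 76) (nat_lit 4645643804) (nat_lit 0) (nat_lit 3033230081) (nat_lit 1672) (nat_lit 4668751697) (nat_lit 406) (nat_lit 5) (nat_lit 405) (nat_lit 5) (nat_lit 427) (nat_lit 5) (nat_lit 438) (nat_lit 431) (nat_lit 271))) (XT.nd (nat_lit 78) (nat_lit 0) (nat_lit 0) (XT.lf (nat_lit 0) (nat_lit 8427801375) (nat_lit 1596) (nat_lit 1940938832) (nat_lit 1672) (nat_lit 2097215457) (nat_lit 406) (nat_lit 5) (nat_lit 427) (nat_lit 5) (nat_lit 428) (nat_lit 5) (nat_lit 439) (nat_lit 431) (nat_lit 270)) (XT.lf (nat_lit 76) (nat_lit 3960240695) (nat_lit 0) (nat_lit 5266038531) (nat_lit 1672) (nat_lit 3359690760) (nat_lit 407) (nat_lit 5) (nat_lit 406) (nat_lit 5) (nat_lit 428) (nat_lit 5) (nat_lit 440) (nat_lit 431) (nat_lit 269))))) (XT.nd (nat_lit 234) (nat_lit 1520) (nat_lit 0) (XT.nd (nat_lit 78) (nat_lit 0) (nat_lit 76) (XT.lf (nat_lit 76) (nat_lit 9998863450) (nat_lit 0) (nat_lit 43835016) (nat_lit 1672) (nat_lit 2665655587)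 (nat_lit 407) (nat_lit 5) (nat_lit 406) (nat_lit 5) (nat_lit 428) (nat_lit 5) (nat_lit 441) (nat_lit 431) (nat_lit 268)) (XT.nd (nat_lit 78) (nat_lit 0) (nat_lit 0) (XT.lf (nat_lit 76) (nat_lit 3327405719) (nat_lit 0) (nat_lit 7593133951) (nat_lit 1672) (nat_lit 1911752982) (nat_lit 408) (nat_lit 5) (nat_lit 407) (nat_lit 5) (nat_lit 429) (nat_lit 5) (nat_lit 442) (nat_lit 431) (nat_lit 267)) (XT.lf (nat_lit 76) (nat_lit 9514512635) (nat_lit 0) (nat_lit 2309252651) (nat_lit 1672) (nat_lit 1134796738) (nat_lit 408) (nat_lit 5) (nat_lit 407) (nat_lit 5) (nat_lit 429) (nat_lit 5) (nat_lit 443) (nat_lit 431) (nat_lit 266)))) (XT.nd (nat_lit 156) (nat_lit 0) (nat_lit 76) (XT.nd (nat_lit 78) (nat_lit 1672) (nat_lit 0) (XT.lf (nat_lit 76) (nat_lit 2746967434) (nat_lit 0) (nat_lit 10025511717) (nat_lit 1672) (nat_lit 314337540) (nat_lit 409) (nat_lit 5) (nat_lit 408) (nat_lit 5) (nat_lit 430) (nat_lit 5) (nat_lit 444)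 (nat_lit 431) (nat_lit 265)) (XT.lf (nat_lit 0) (nat_lit 543907027) (nat_lit 1672) (nat_lit 4134687254) (nat_lit 1748) (nat_lit 8538417791) (nat_lit 386) (nat_lit 5) (nat_lit 408) (nat_lit 5) (nat_lit 409) (nat_lit 5) (nat_lit 445) (nat_lit 431) (nat_lit 264))) (XT.nd (nat_lit 78) (nat_lit 0) (nat_lit 0) (XT.lf (nat_lit 0) (nat_lit 1424526493) (nat_lit 1672) (nat_lit 11140338587) (nat_lit 1748) (nat_lit 784724244) (nat_lit 387) (nat_lit 5) (nat_lit 409) (nat_lit 5) (nat_lit 410) (nat_lit 5) (nat_lit 446) (nat_lit 431) (nat_lit 263)) (XT.lf (nat_lit 0) (nat_lit 2371719066) (nat_lit 1672) (nat_lit 4786520607) (nat_lit 1748) (nat_lit 6325606979) (nat_lit 387) (nat_lit 5) (nat_lit 409) (nat_lit 5) (nat_lit 410) (nat_lit 5) (nat_lit 447) (nat_lit 431) (nat_lit 262))))))))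
noncomputable def xc210 : XT := (XT.nd (nat_lit 2184) (nat_lit 8132) (nat_lit 0) (XT.nd (nat_lit 1092) (nat_lit 5548) (nat_lit 0) (XT.nd (nat_lit 546) (nat_lit 3572) (nat_lit 0) (XT.nd (nat_lit 234) (nat_lit 0) (nat_lit 152) (XT.nd (nat_lit 78) (nat_lit 0) (nat_lit 76) (XT.lf (nat_lit 76) (nat_lit 1709734608) (nat_lit 0) (nat_lit 1629463742) (nat_lit 1748) (nat_lit 10281571512) (nat_lit 388) (nat_lit 5) (nat_lit 387) (nat_lit 5) (nat_lit 410) (nat_lit 5) (nat_lit 448) (nat_lit 431) (nat_lit 261)) (XT.nd (nat_lit 78) (nat_lit 0) (nat_lit 0) (XT.lf (nat_lit 0) (nat_lit 4374799622) (nat_lit 1672) (nat_lit 5392471903) (nat_lit 1748) (nat_lit 3992192008) (nat_lit 388) (nat_lit 5) (nat_lit 410) (nat_lit 5) (nat_lit 411) (nat_lit 5) (nat_lit 449) (nat_lit 431) (nat_lit 260)) (XT.lf (nat_lit 76) (nat_lit 1255040791) (nat_lit 0) (nat_lit 4185604740) (nat_lit 1748) (nat_lit 8460102192) (nat_lit 389) (nat_lit 5) (nat_lit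 388) (nat_lit 5) (nat_lit 411) (nat_lit 5) (nat_lit 450) (nat_lit 431) (nat_lit 259)))) (XT.nd (nat_lit 156) (nat_lit 0) (nat_lit 0) (XT.nd (nat_lit 78) (nat_lit 0) (nat_lit 0) (XT.lf (nat_lit 0) (nat_lit 6564769348) (nat_lit 1672) (nat_lit 5952813530) (nat_lit 1748) (nat_lit 1526542654) (nat_lit 389) (nat_lit 5) (nat_lit 411) (nat_lit 5) (nat_lit 412) (nat_lit 5) (nat_lit 451) (nat_lit 431) (nat_lit 258)) (XT.lf (nat_lit 76) (nat_lit 850260834) (nat_lit 0) (nat_lit 6885282012) (nat_lit 1748) (nat_lit 6454351722) (nat_lit 390) (nat_lit 5) (nat_lit 389) (nat_lit 5) (nat_lit 412) (nat_lit 5) (nat_lit 452) (nat_lit 431) (nat_lit 257))) (XT.nd (nat_lit 78) (nat_lit 0) (nat_lit 76) (XT.lf (nat_lit 76) (nat_lit 7863026419) (nat_lit 0) (nat_lit 1097711460) (nat_lit 1748) (nat_lit 5377227863) (nat_lit 390) (nat_lit 5) (nat_lit 389) (nat_lit 5) (nat_lit 412) (nat_lit 5) (nat_lit 453) (nat_lit 431) (nat_lit 256)) (XT.lf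 (nat_lit 76) (nat_lit 495224981) (nat_lit 0) (nat_lit 9740875179) (nat_lit 1748) (nat_lit 4252391653) (nat_lit 391) (nat_lit 5) (nat_lit 390) (nat_lit 5) (nat_lit 413) (nat_lit 5) (nat_lit 454) (nat_lit 431) (nat_lit 255))))) (XT.nd (nat_lit 234) (nat_lit 2204) (nat_lit 0) (XT.nd (nat_lit 78) (nat_lit 1596) (nat_lit 0) (XT.lf (nat_lit 76) (nat_lit 7678124937) (nat_lit 0) (nat_lit 3900889319) (nat_lit 1748) (nat_lit 3062179869) (nat_lit 391) (nat_lit 5) (nat_lit 390) (nat_lit 5) (nat_lit 413) (nat_lit 5) (nat_lit 455) (nat_lit 431) (nat_lit 254)) (XT.nd (nat_lit 78) (nat_lit 0) (nat_lit 0) (XT.lf (nat_lit 0) (nat_lit 189755005) (nat_lit 1672) (nat_lit 12765163492) (nat_lit 1748) (nat_lit 1841915830) (nat_lit 369) (nat_lit 5) (nat_lit 391) (nat_lit 5) (nat_lit 392) (nat_lit 5) (nat_lit 456) (nat_lit 431) (nat_lit 253)) (XT.lf (nat_lit 0) (nat_lit 7546773897) (nat_lit 1672) (nat_lit 6875627881) (nat_lit 1748) (nat_lit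 531910689) (nat_lit 369) (nat_lit 5) (nat_lit 391) (nat_lit 5) (nat_lit 392) (nat_lit 5) (nat_lit 457) (nat_lit 431) (nat_lit 252)))) (XT.nd (nat_lit 156) (nat_lit 836) (nat_lit 0) (XT.nd (nat_lit 78) (nat_lit 1292) (nat_lit 0) (XT.lf (nat_lit 0) (nat_lit 785520522) (nat_lit 1748) (nat_lit 76276792) (nat_lit 76) (nat_lit 14253209033) (nat_lit 368) (nat_lit 5) (nat_lit 391) (nat_lit 5) (nat_lit 369) (nat_lit 5) (nat_lit 458) (nat_lit 431) (nat_lit 251)) (XT.lf (nat_lit 0) (nat_lit 2197330809) (nat_lit 1368) (nat_lit 7823219674) (nat_lit 76) (nat_lit 5256796236) (nat_lit 351) (nat_lit 5) (nat_lit 369) (nat_lit 5) (nat_lit 352) (nat_lit 5) (nat_lit 459) (nat_lit 431) (nat_lit 250))) (XT.nd (nat_lit 78) (nat_lit 836) (nat_lit 0) (XT.lf (nat_lit 0) (nat_lit 3635656149) (nat_lit 1368) (nat_lit 319497469) (nat_lit 76) (nat_lit 11487820573) (nat_lit 351) (nat_lit 5) (nat_lit 369) (nat_lit 5) (nat_lit 352) (nat_lit 5)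 (nat_lit 460) (nat_lit 431) (nat_lit 249)) (XT.lf (nat_lit 0) (nat_lit 5157980409) (nat_lit 912) (nat_lit 8201146952) (nat_lit 76) (nat_lit 2251687958) (nat_lit 340) (nat_lit 5) (nat_lit 352) (nat_lit 5) (nat_lit 341) (nat_lit 5) (nat_lit 461) (nat_lit 431) (nat_lit 248)))))) (XT.nd (nat_lit 546) (nat_lit 2964) (nat_lit 0) (XT.nd (nat_lit 234) (nat_lit 1748) (nat_lit 0) (XT.nd (nat_lit 78) (nat_lit 836) (nat_lit 0) (XT.lf (nat_lit 0) (nat_lit 6731428091) (nat_lit 912) (nat_lit 517446590) (nat_lit 76) (nat_lit 8532730692) (nat_lit 340) (nat_lit 5) (nat_lit 352) (nat_lit 5) (nat_lit 341) (nat_lit 5) (nat_lit 462) (nat_lit 431) (nat_lit 247)) (XT.nd (nat_lit 78) (nat_lit 0) (nat_lit 0) (XT.lf (nat_lit 0) (nat_lit 7410234607) (nat_lit 836) (nat_lit 966698426) (nat_lit 912) (nat_lit 7578071960) (nat_lit 329) (nat_lit 5) (nat_lit 340) (nat_lit 5) (nat_lit 341) (nat_lit 5) (nat_lit 463) (nat_lit 431) (nat_lit 246))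 (XT.lf (nat_lit 0) (nat_lit 10086753885) (nat_lit 912) (nat_lit 670662081) (nat_lit 76) (nat_lit 5373833944) (nat_lit 329) (nat_lit 5) (nat_lit 341) (nat_lit 5) (nat_lit 330) (nat_lit 5) (nat_lit 464) (nat_lit 431) (nat_lit 245)))) (XT.nd (nat_lit 156) (nat_lit 912) (nat_lit 0) (XT.nd (nat_lit 78) (nat_lit 0) (nat_lit 0) (XT.lf (nat_lit 0) (nat_lit 7445318086) (nat_lit 836) (nat_lit 4432923524) (nat_lit 912) (nat_lit 4431834024) (nat_lit 318) (nat_lit 5) (nat_lit 329) (nat_lit 5) (nat_lit 330) (nat_lit 5) (nat_lit 465) (nat_lit 431) (nat_lit 244)) (XT.lf (nat_lit 0) (nat_lit 13716021225) (nat_lit 912) (nat_lit 779772330) (nat_lit 76) (nat_lit 1996480287) (nat_lit 318) (nat_lit 5) (nat_lit 330) (nat_lit 5) (nat_lit 319) (nat_lit 5) (nat_lit 466) (nat_lit 431) (nat_lit 243))) (XT.nd (nat_lit 78) (nat_lit 76) (nat_lit 0) (XT.lf (nat_lit 0) (nat_lit 7529481530) (nat_lit 836) (nat_lit 8132288260) (nat_lit 912) (nat_lit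 1014927067) (nat_lit 307) (nat_lit 5) (nat_lit 318) (nat_lit 5) (nat_lit 319) (nat_lit 5) (nat_lit 467) (nat_lit 431) (nat_lit 242)) (XT.lf (nat_lit 0) (nat_lit 769653987) (nat_lit 912) (nat_lit 861199999) (nat_lit 76) (nat_lit 15233892158) (nat_lit 306) (nat_lit 5) (nat_lit 318) (nat_lit 5) (nat_lit 307) (nat_lit 5) (nat_lit 468) (nat_lit 431) (nat_lit 241))))) (XT.nd (nat_lit 234) (nat_lit 1444) (nat_lit 0) (XT.nd (nat_lit 78) (nat_lit 760) (nat_lit 0) (XT.lf (nat_lit 0) (nat_lit 2652191071) (nat_lit 836) (nat_lit 9410642350) (nat_lit 76) (nat_lit 4992076551) (nat_lit 296) (nat_lit 5) (nat_lit 307) (nat_lit 5) (nat_lit 297) (nat_lit 5) (nat_lit 469) (nat_lit 431) (nat_lit 240)) (XT.nd (nat_lit 78) (nat_lit 760) (nat_lit 0) (XT.lf (nat_lit 0) (nat_lit 4582237672) (nat_lit 836) (nat_lit 934920160) (nat_lit 76) (nat_lit 11731526791) (nat_lit 296) (nat_lit 5) (nat_lit 307) (nat_lit 5) (nat_lit 297) (nat_lit 5)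 (nat_lit 470) (nat_lit 431) (nat_lit 239)) (XT.lf (nat_lit 0) (nat_lit 6602803363) (nat_lit 836) (nat_lit 9647332135) (nat_lit 76) (nat_lit 1195165534) (nat_lit 286) (nat_lit 5) (nat_lit 297) (nat_lit 5) (nat_lit 287) (nat_lit 5) (nat_lit 471) (nat_lit 431) (nat_lit 238)))) (XT.nd (nat_lit 156) (nat_lit 760) (nat_lit 0) (XT.nd (nat_lit 78) (nat_lit 684) (nat_lit 0) (XT.lf (nat_lit 0) (nat_lit 8700092665) (nat_lit 836) (nat_lit 970909264) (nat_lit 76) (nat_lit 7974126132) (nat_lit 286) (nat_lit 5) (nat_lit 297) (nat_lit 5) (nat_lit 287) (nat_lit 5) (nat_lit 472) (nat_lit 431) (nat_lit 237)) (XT.lf (nat_lit 0) (nat_lit 7977000308) (nat_lit 684) (nat_lit 2907707139) (nat_lit 760) (nat_lit 6963341036) (nat_lit 277) (nat_lit 5) (nat_lit 286) (nat_lit 5) (nat_lit 287) (nat_lit 5) (nat_lit 473) (nat_lit 431) (nat_lit 236))) (XT.nd (nat_lit 78) (nat_lit 760) (nat_lit 0) (XT.lf (nat_lit 0) (nat_lit 13139152868) (nat_lit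 760) (nat_lit 970569225) (nat_lit 76) (nat_lit 3944786817) (nat_lit 277) (nat_lit 5) (nat_lit 287) (nat_lit 5) (nat_lit 278) (nat_lit 5) (nat_lit 474) (nat_lit 431) (nat_lit 235)) (XT.lf (nat_lit 0) (nat_lit 8189454622) (nat_lit 760) (nat_lit 7315453041) (nat_lit 836) (nat_lit 2758870749) (nat_lit 267) (nat_lit 5) (nat_lit 277) (nat_lit 5) (nat_lit 278) (nat_lit 5) (nat_lit 475) (nat_lit 431) (nat_lit 234))))))) (XT.nd (nat_lit 1092) (nat_lit 3648) (nat_lit 0) (XT.nd (nat_lit 546) (nat_lit 2432) (nat_lit 0) (XT.nd (nat_lit 234) (nat_lit 1292) (nat_lit 0) (XT.nd (nat_lit 78) (nat_lit 760) (nat_lit 0) (XT.lf (nat_lit 0) (nat_lit 17539264272) (nat_lit 760) (nat_lit 379098116) (nat_lit 836) (nat_lit 558867409) (nat_lit 267) (nat_lit 5) (nat_lit 277) (nat_lit 5) (nat_lit 278) (nat_lit 5) (nat_lit 476) (nat_lit 431) (nat_lit 233)) (XT.nd (nat_lit 78) (nat_lit 0) (nat_lit 0) (XT.lf (nat_lit 0) (nat_lit 1755915824) (nat_lit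 760) (nat_lit 10262863710) (nat_lit 76) (nat_lit 6674098273) (nat_lit 257) (nat_lit 5) (nat_lit 267) (nat_lit 5) (nat_lit 258) (nat_lit 5) (nat_lit 477) (nat_lit 431) (nat_lit 232)) (XT.lf (nat_lit 0) (nat_lit 4112386382) (nat_lit 760) (nat_lit 927502409) (nat_lit 76) (nat_lit 13872822555) (nat_lit 257) (nat_lit 5) (nat_lit 267) (nat_lit 5) (nat_lit 258) (nat_lit 5) (nat_lit 478) (nat_lit 431) (nat_lit 231)))) (XT.nd (nat_lit 156) (nat_lit 608) (nat_lit 0) (XT.nd (nat_lit 78) (nat_lit 0) (nat_lit 0) (XT.lf (nat_lit 0) (nat_lit 6580491285) (nat_lit 760) (nat_lit 10447575364) (nat_lit 76) (nat_lit 2107588681) (nat_lit 248) (nat_lit 5) (nat_lit 258) (nat_lit 5) (nat_lit 249) (nat_lit 5) (nat_lit 479) (nat_lit 431) (nat_lit 230)) (XT.lf (nat_lit 0) (nat_lit 9131807890) (nat_lit 760) (nat_lit 894352276) (nat_lit 76) (nat_lit 9336224833) (nat_lit 248) (nat_lit 5) (nat_lit 258) (nat_lit 5) (nat_lit 249) (nat_lit 5)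 (nat_lit 480) (nat_lit 431) (nat_lit 229))) (XT.nd (nat_lit 78) (nat_lit 0) (nat_lit 0) (XT.lf (nat_lit 0) (nat_lit 8961042199) (nat_lit 608) (nat_lit 2825610840) (nat_lit 684) (nat_lit 7805949899) (nat_lit 240) (nat_lit 5) (nat_lit 248) (nat_lit 5) (nat_lit 249) (nat_lit 5) (nat_lit 481) (nat_lit 431) (nat_lit 228)) (XT.lf (nat_lit 0) (nat_lit 14524362579) (nat_lit 684) (nat_lit 837504590) (nat_lit 76) (nat_lit 4464966368) (nat_lit 240) (nat_lit 5) (nat_lit 249) (nat_lit 5) (nat_lit 241) (nat_lit 5) (nat_lit 482) (nat_lit 431) (nat_lit 227))))) (XT.nd (nat_lit 234) (nat_lit 1140) (nat_lit 0) (XT.nd (nat_lit 78) (nat_lit 684) (nat_lit 0) (XT.lf (nat_lit 0) (nat_lit 9248657674) (nat_lit 608) (nat_lit 8141425934) (nat_lit 684) (nat_lit 2674203571) (nat_lit 232) (nat_lit 5) (nat_lit 240) (nat_lit 5) (nat_lit 241) (nat_lit 5) (nat_lit 483) (nat_lit 431) (nat_lit 226)) (XT.nd (nat_lit 78) (nat_lit 608) (nat_lit 0)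 (XT.lf (nat_lit 0) (nat_lit 6723187) (nat_lit 684) (nat_lit 764956511) (nat_lit 76) (nat_lit 19534809155) (nat_lit 231) (nat_lit 5) (nat_lit 240) (nat_lit 5) (nat_lit 232) (nat_lit 5) (nat_lit 484) (nat_lit 431) (nat_lit 225)) (XT.lf (nat_lit 0) (nat_lit 2806700071) (nat_lit 684) (nat_lit 11007859936) (nat_lit 76) (nat_lit 6736599610) (nat_lit 223) (nat_lit 5) (nat_lit 232) (nat_lit 5) (nat_lit 224) (nat_lit 5) (nat_lit 485) (nat_lit 431) (nat_lit 224)))) (XT.nd (nat_lit 156) (nat_lit 532) (nat_lit 0) (XT.nd (nat_lit 78) (nat_lit 608) (nat_lit 0) (XT.lf (nat_lit 0) (nat_lit 5667644082) (nat_lit 684) (nat_lit 744006703) (nat_lit 76) (nat_lit 14388976966) (nat_lit 223) (nat_lit 5) (nat_lit 232) (nat_lit 5) (nat_lit 224) (nat_lit 5) (nat_lit 486) (nat_lit 431) (nat_lit 223)) (XT.lf (nat_lit 0) (nat_lit 8652355348) (nat_lit 684) (nat_lit 11213652227) (nat_lit 76) (nat_lit 1187749945) (nat_lit 215) (nat_lit 5) (nat_lit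 224) (nat_lit 5) (nat_lit 216) (nat_lit 5) (nat_lit 487) (nat_lit 431) (nat_lit 222))) (XT.nd (nat_lit 78) (nat_lit 532) (nat_lit 0) (XT.lf (nat_lit 0) (nat_lit 11739097239) (nat_lit 684) (nat_lit 714625359) (nat_lit 76) (nat_lit 8857383735) (nat_lit 215) (nat_lit 5) (nat_lit 224) (nat_lit 5) (nat_lit 216) (nat_lit 5) (nat_lit 488) (nat_lit 431) (nat_lit 221)) (XT.lf (nat_lit 0) (nat_lit 10120977606) (nat_lit 532) (nat_lit 4827258850) (nat_lit 608) (nat_lit 6624155532) (nat_lit 208) (nat_lit 5) (nat_lit 215) (nat_lit 5) (nat_lit 216) (nat_lit 5) (nat_lit 489) (nat_lit 431) (nat_lit 220)))))) (XT.nd (nat_lit 546) (nat_lit 1976) (nat_lit 0) (XT.nd (nat_lit 234) (nat_lit 1064) (nat_lit 0) (XT.nd (nat_lit 78) (nat_lit 608) (nat_lit 0) (XT.lf (nat_lit 0) (nat_lit 18240552903) (nat_lit 608) (nat_lit 681222359) (nat_lit 76) (nat_lit 2916751260) (nat_lit 208) (nat_lit 5) (nat_lit 216) (nat_lit 5) (nat_lit 209) (nat_lit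 5) (nat_lit 490) (nat_lit 431) (nat_lit 219)) (XT.nd (nat_lit 78) (nat_lit 76) (nat_lit 0) (XT.lf (nat_lit 0) (nat_lit 10402762432) (nat_lit 532) (nat_lit 11290564028) (nat_lit 608) (nat_lit 414768063) (nat_lit 201) (nat_lit 5) (nat_lit 208) (nat_lit 5) (nat_lit 209) (nat_lit 5) (nat_lit 491) (nat_lit 431) (nat_lit 218)) (XT.lf (nat_lit 0) (nat_lit 2794682170) (nat_lit 608) (nat_lit 689823837) (nat_lit 76) (nat_lit 18898188515) (nat_lit 200) (nat_lit 5) (nat_lit 208) (nat_lit 5) (nat_lit 201) (nat_lit 5) (nat_lit 492) (nat_lit 431) (nat_lit 217)))) (XT.nd (nat_lit 156) (nat_lit 532) (nat_lit 0) (XT.nd (nat_lit 78) (nat_lit 0) (nat_lit 0) (XT.lf (nat_lit 0) (nat_lit 6156856554) (nat_lit 608) (nat_lit 12013687215) (nat_lit 76) (nat_lit 4490308963) (nat_lit 193) (nat_lit 5) (nat_lit 201) (nat_lit 5) (nat_lit 194) (nat_lit 5) (nat_lit 493) (nat_lit 431) (nat_lit 216)) (XT.lf (nat_lit 0) (nat_lit 9609275706) (nat_lit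 608) (nat_lit 753377593) (nat_lit 76) (nat_lit 12581463548) (nat_lit 193) (nat_lit 5) (nat_lit 201) (nat_lit 5) (nat_lit 194) (nat_lit 5) (nat_lit 494) (nat_lit 431) (nat_lit 215))) (XT.nd (nat_lit 78) (nat_lit 0) (nat_lit 0) (XT.lf (nat_lit 0) (nat_lit 10868767773) (nat_lit 532) (nat_lit 2327900896) (nat_lit 608) (nat_lit 10035061778) (nat_lit 186) (nat_lit 5) (nat_lit 193) (nat_lit 5) (nat_lit 194) (nat_lit 5) (nat_lit 495) (nat_lit 431) (nat_lit 214)) (XT.lf (nat_lit 0) (nat_lit 16894397209) (nat_lit 608) (nat_lit 835519854) (nat_lit 76) (nat_lit 5794410159) (nat_lit 186) (nat_lit 5) (nat_lit 194) (nat_lit 5) (nat_lit 187) (nat_lit 5) (nat_lit 496) (nat_lit 431) (nat_lit 213))))) (XT.nd (nat_lit 234) (nat_lit 912) (nat_lit 0) (XT.nd (nat_lit 78) (nat_lit 608) (nat_lit 0) (XT.lf (nat_lit 0) (nat_lit 11046080076) (nat_lit 456) (nat_lit 9702628099) (nat_lit 532) (nat_lit 3072417808) (nat_lit 180) (nat_lit 5)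 (nat_lit 186) (nat_lit 5) (nat_lit 187) (nat_lit 5) (nat_lit 497) (nat_lit 431) (nat_lit 212)) (XT.nd (nat_lit 78) (nat_lit 532) (nat_lit 0) (XT.lf (nat_lit 0) (nat_lit 550104748) (nat_lit 532) (nat_lit 956629729) (nat_lit 76) (nat_lit 22617033410) (nat_lit 179) (nat_lit 5) (nat_lit 186) (nat_lit 5) (nat_lit 180) (nat_lit 5) (nat_lit 498) (nat_lit 431) (nat_lit 211)) (XT.lf (nat_lit 0) (nat_lit 4317521522) (nat_lit 608) (nat_lit 13256598094) (nat_lit 76) (nat_lit 6855667625) (nat_lit 172) (nat_lit 5) (nat_lit 180) (nat_lit 5) (nat_lit 173) (nat_lit 5) (nat_lit 499) (nat_lit 431) (nat_lit 210)))) (XT.nd (nat_lit 156) (nat_lit 456) (nat_lit 0) (XT.nd (nat_lit 78) (nat_lit 456) (nat_lit 0) (XT.lf (nat_lit 0) (nat_lit 8172366763) (nat_lit 608) (nat_lit 1199045516) (nat_lit 76) (nat_lit 15370275510) (nat_lit 172) (nat_lit 5) (nat_lit 180) (nat_lit 5) (nat_lit 173) (nat_lit 5) (nat_lit 500) (nat_lit 431) (nat_lit 209))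 (XT.lf (nat_lit 0) (nat_lit 11241407067) (nat_lit 456) (nat_lit 931613761) (nat_lit 532) (nat_lit 12885433641) (nat_lit 166) (nat_lit 5) (nat_lit 172) (nat_lit 5) (nat_lit 173) (nat_lit 5) (nat_lit 501) (nat_lit 431) (nat_lit 208))) (XT.nd (nat_lit 78) (nat_lit 456) (nat_lit 0) (XT.lf (nat_lit 0) (nat_lit 16307394730) (nat_lit 532) (nat_lit 1490095194) (nat_lit 76) (nat_lit 7582994736) (nat_lit 166) (nat_lit 5) (nat_lit 173) (nat_lit 5) (nat_lit 167) (nat_lit 5) (nat_lit 502) (nat_lit 431) (nat_lit 207)) (XT.lf (nat_lit 0) (nat_lit 11218750220) (nat_lit 456) (nat_lit 9380561352) (nat_lit 532) (nat_lit 5108149045) (nat_lit 160) (nat_lit 5) (nat_lit 166) (nat_lit 5) (nat_lit 167) (nat_lit 5) (nat_lit 503) (nat_lit 431) (nat_lit 206))))))))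
noncomputable def xc211 : XT := (XT.nd (nat_lit 54834) (nat_lit 0) (nat_lit 11932) (XT.nd (nat_lit 53742) (nat_lit 0) (nat_lit 20216) (XT.nd (nat_lit 546) (nat_lit 1672) (nat_lit 0) (XT.nd (nat_lit 234) (nat_lit 836) (nat_lit 0) (XT.nd (nat_lit 78) (nat_lit 532) (nat_lit 0) (XT.lf (nat_lit 0) (nat_lit 24196395961) (nat_lit 456) (nat_lit 786561627) (nat_lit 532) (nat_lit 1057902912) (nat_lit 160) (nat_lit 5) (nat_lit 166) (nat_lit 5) (nat_lit 167) (nat_lit 5) (nat_lit 504) (nat_lit 431) (nat_lit 205)) (XT.nd (nat_lit 78) (nat_lit 0) (nat_lit 0) (XT.lf (nat_lit 0) (nat_lit 3153941283) (nat_lit 532) (nat_lit 15257836103) (nat_lit 76) (nat_lit 7966336035) (nat_lit 153) (nat_lit 5) (nat_lit 160) (nat_lit 5) (nat_lit 154) (nat_lit 5) (nat_lit 505) (nat_lit 431) (nat_lit 204)) (XT.lf (nat_lit 0) (nat_lit 7449516210) (nat_lit 532) (nat_lit 2370403011) (nat_lit 76) (nat_lit 16901781237) (nat_lit 153) (nat_lit 5) (nat_lit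 160) (nat_lit 5) (nat_lit 154) (nat_lit 5) (nat_lit 506) (nat_lit 431) (nat_lit 203)))) (XT.nd (nat_lit 156) (nat_lit 380) (nat_lit 0) (XT.nd (nat_lit 78) (nat_lit 0) (nat_lit 0) (XT.lf (nat_lit 0) (nat_lit 10912448040) (nat_lit 456) (nat_lit 985461928) (nat_lit 532) (nat_lit 15172913178) (nat_lit 147) (nat_lit 5) (nat_lit 153) (nat_lit 5) (nat_lit 154) (nat_lit 5) (nat_lit 507) (nat_lit 431) (nat_lit 202)) (XT.lf (nat_lit 0) (nat_lit 16499480501) (nat_lit 532) (nat_lit 2991219804) (nat_lit 76) (nat_lit 7934945818) (nat_lit 147) (nat_lit 5) (nat_lit 154) (nat_lit 5) (nat_lit 148) (nat_lit 5) (nat_lit 508) (nat_lit 431) (nat_lit 201))) (XT.nd (nat_lit 78) (nat_lit 0) (nat_lit 0) (XT.lf (nat_lit 0) (nat_lit 10565950440) (nat_lit 380) (nat_lit 10698424929) (nat_lit 456) (nat_lit 6521766307) (nat_lit 142) (nat_lit 5) (nat_lit 147) (nat_lit 5) (nat_lit 148) (nat_lit 5) (nat_lit 509) (nat_lit 431) (nat_lit 200)) (XT.lf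 (nat_lit 0) (nat_lit 24429469965) (nat_lit 380) (nat_lit 1711376866) (nat_lit 456) (nat_lit 2012676672) (nat_lit 142) (nat_lit 5) (nat_lit 147) (nat_lit 5) (nat_lit 148) (nat_lit 5) (nat_lit 510) (nat_lit 431) (nat_lit 199))))) (XT.nd (nat_lit 234) (nat_lit 760) (nat_lit 0) (XT.nd (nat_lit 78) (nat_lit 380) (nat_lit 0) (XT.lf (nat_lit 0) (nat_lit 2663788830) (nat_lit 532) (nat_lit 18422533970) (nat_lit 76) (nat_lit 7439373795) (nat_lit 135) (nat_lit 5) (nat_lit 142) (nat_lit 5) (nat_lit 136) (nat_lit 5) (nat_lit 511) (nat_lit 431) (nat_lit 198)) (XT.nd (nat_lit 78) (nat_lit 380) (nat_lit 0) (XT.lf (nat_lit 0) (nat_lit 7439631804) (nat_lit 532) (nat_lit 4677556756) (nat_lit 76) (nat_lit 16787204380) (nat_lit 135) (nat_lit 5) (nat_lit 142) (nat_lit 5) (nat_lit 136) (nat_lit 5) (nat_lit 512) (nat_lit 431) (nat_lit 197)) (XT.lf (nat_lit 0) (nat_lit 9461190561) (nat_lit 380) (nat_lit 2907585507) (nat_lit 456) (nat_lit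 16920733245) (nat_lit 130) (nat_lit 5) (nat_lit 135) (nat_lit 5) (nat_lit 136) (nat_lit 5) (nat_lit 513) (nat_lit 431) (nat_lit 196)))) (XT.nd (nat_lit 156) (nat_lit 380) (nat_lit 0) (XT.nd (nat_lit 78) (nat_lit 380) (nat_lit 0) (XT.lf (nat_lit 0) (nat_lit 17466596434) (nat_lit 456) (nat_lit 5783146548) (nat_lit 76) (nat_lit 6431184920) (nat_lit 130) (nat_lit 5) (nat_lit 136) (nat_lit 5) (nat_lit 131) (nat_lit 5) (nat_lit 514) (nat_lit 431) (nat_lit 195)) (XT.lf (nat_lit 0) (nat_lit 8631739198) (nat_lit 380) (nat_lit 14106387125) (nat_lit 456) (nat_lit 7340615196) (nat_lit 125) (nat_lit 5) (nat_lit 130) (nat_lit 5) (nat_lit 131) (nat_lit 5) (nat_lit 515) (nat_lit 431) (nat_lit 194))) (XT.nd (nat_lit 78) (nat_lit 380) (nat_lit 0) (XT.lf (nat_lit 0) (nat_lit 23408207378) (nat_lit 380) (nat_lit 4742178356) (nat_lit 456) (nat_lit 2333421383) (nat_lit 125) (nat_lit 5) (nat_lit 130) (nat_lit 5) (nat_lit 131) (nat_lit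 5) (nat_lit 516) (nat_lit 431) (nat_lit 193)) (XT.lf (nat_lit 0) (nat_lit 2815472780) (nat_lit 380) (nat_lit 23266717038) (nat_lit 76) (nat_lit 4812866889) (nat_lit 120) (nat_lit 5) (nat_lit 125) (nat_lit 5) (nat_lit 121) (nat_lit 5) (nat_lit 517) (nat_lit 431) (nat_lit 192)))))) (XT.nd (nat_lit 546) (nat_lit 1292) (nat_lit 0) (XT.nd (nat_lit 234) (nat_lit 0) (nat_lit 76) (XT.nd (nat_lit 78) (nat_lit 0) (nat_lit 0) (XT.lf (nat_lit 0) (nat_lit 1083119726) (nat_lit 0) (nat_lit 1083119726) (nat_lit 1596) (nat_lit 3725770463) (nat_lit 403) (nat_lit 5) (nat_lit 403) (nat_lit 3) (nat_lit 424) (nat_lit 3) (nat_lit 432) (nat_lit 432) (nat_lit 276)) (XT.nd (nat_lit 78) (nat_lit 0) (nat_lit 0) (XT.lf (nat_lit 0) (nat_lit 4866939234) (nat_lit 1596) (nat_lit 4270362002) (nat_lit 1672) (nat_lit 2754354127) (nat_lit 403) (nat_lit 5) (nat_lit 424) (nat_lit 3) (nat_lit 425) (nat_lit 5) (nat_lit 433) (nat_lit 432) (nat_lit 275))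 (XT.lf (nat_lit 76) (nat_lit 1178614408) (nat_lit 0) (nat_lit 4243105595) (nat_lit 1672) (nat_lit 6579540997) (nat_lit 404) (nat_lit 5) (nat_lit 403) (nat_lit 5) (nat_lit 425) (nat_lit 5) (nat_lit 434) (nat_lit 432) (nat_lit 274)))) (XT.nd (nat_lit 156) (nat_lit 0) (nat_lit 0) (XT.nd (nat_lit 78) (nat_lit 0) (nat_lit 0) (XT.lf (nat_lit 0) (nat_lit 6009175916) (nat_lit 1596) (nat_lit 5329831555) (nat_lit 1672) (nat_lit 773629509) (nat_lit 404) (nat_lit 5) (nat_lit 425) (nat_lit 5) (nat_lit 426) (nat_lit 5) (nat_lit 435) (nat_lit 432) (nat_lit 273)) (XT.lf (nat_lit 76) (nat_lit 241287063) (nat_lit 0) (nat_lit 6384868887) (nat_lit 1672) (nat_lit 5599738661) (nat_lit 405) (nat_lit 5) (nat_lit 404) (nat_lit 5) (nat_lit 426) (nat_lit 5) (nat_lit 436) (nat_lit 432) (nat_lit 272))) (XT.nd (nat_lit 78) (nat_lit 0) (nat_lit 76) (XT.lf (nat_lit 76) (nat_lit 5989501653) (nat_lit 0) (nat_lit 1290038766) (nat_lit 1672) (nat_lit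 5061405118) (nat_lit 405) (nat_lit 5) (nat_lit 404) (nat_lit 5) (nat_lit 426) (nat_lit 5) (nat_lit 437) (nat_lit 432) (nat_lit 271)) (XT.lf (nat_lit 0) (nat_lit 7959918320) (nat_lit 1596) (nat_lit 637697861) (nat_lit 1672) (nat_lit 3860412043) (nat_lit 405) (nat_lit 5) (nat_lit 426) (nat_lit 5) (nat_lit 427) (nat_lit 5) (nat_lit 438) (nat_lit 432) (nat_lit 270))))) (XT.nd (nat_lit 234) (nat_lit 1444) (nat_lit 0) (XT.nd (nat_lit 78) (nat_lit 0) (nat_lit 76) (XT.lf (nat_lit 76) (nat_lit 5243970987) (nat_lit 0) (nat_lit 3441308658) (nat_lit 1672) (nat_lit 3891554476) (nat_lit 406) (nat_lit 5) (nat_lit 405) (nat_lit 5) (nat_lit 427) (nat_lit 5) (nat_lit 439) (nat_lit 432) (nat_lit 269)) (XT.nd (nat_lit 78) (nat_lit 0) (nat_lit 0) (XT.lf (nat_lit 0) (nat_lit 9430252149) (nat_lit 1596) (nat_lit 1464645921) (nat_lit 1672) (nat_lit 1803024885) (nat_lit 406) (nat_lit 5) (nat_lit 427) (nat_lit 5) (nat_lit 428) (nat_lit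 5) (nat_lit 440) (nat_lit 432) (nat_lit 268)) (XT.lf (nat_lit 76) (nat_lit 4551168304) (nat_lit 0) (nat_lit 5680502819) (nat_lit 1672) (nat_lit 2588940223) (nat_lit 407) (nat_lit 5) (nat_lit 406) (nat_lit 5) (nat_lit 428) (nat_lit 5) (nat_lit 441) (nat_lit 432) (nat_lit 267)))) (XT.nd (nat_lit 156) (nat_lit 1520) (nat_lit 0) (XT.nd (nat_lit 78) (nat_lit 0) (nat_lit 76) (XT.lf (nat_lit 76) (nat_lit 10700529733) (nat_lit 0) (nat_lit 347793596) (nat_lit 1672) (nat_lit 1897454629) (nat_lit 407) (nat_lit 5) (nat_lit 406) (nat_lit 5) (nat_lit 428) (nat_lit 5) (nat_lit 442) (nat_lit 432) (nat_lit 266)) (XT.lf (nat_lit 76) (nat_lit 3910930149) (nat_lit 0) (nat_lit 8018438717) (nat_lit 1672) (nat_lit 1143126215) (nat_lit 408) (nat_lit 5) (nat_lit 407) (nat_lit 5) (nat_lit 429) (nat_lit 5) (nat_lit 443) (nat_lit 432) (nat_lit 265))) (XT.nd (nat_lit 78) (nat_lit 1596) (nat_lit 0) (XT.lf (nat_lit 76) (nat_lit 10211642413)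 (nat_lit 0) (nat_lit 2623518181) (nat_lit 1672) (nat_lit 366451666) (nat_lit 408) (nat_lit 5) (nat_lit 407) (nat_lit 5) (nat_lit 429) (nat_lit 5) (nat_lit 444) (nat_lit 432) (nat_lit 264)) (XT.lf (nat_lit 0) (nat_lit 450628911) (nat_lit 1672) (nat_lit 10012523336) (nat_lit 1748) (nat_lit 2869503020) (nat_lit 386) (nat_lit 5) (nat_lit 408) (nat_lit 5) (nat_lit 409) (nat_lit 5) (nat_lit 445) (nat_lit 432) (nat_lit 263))))))) (XT.nd (nat_lit 1092) (nat_lit 5624) (nat_lit 0) (XT.nd (nat_lit 546) (nat_lit 2660) (nat_lit 0) (XT.nd (nat_lit 234) (nat_lit 0) (nat_lit 76) (XT.nd (nat_lit 78) (nat_lit 0) (nat_lit 76) (XT.lf (nat_lit 0) (nat_lit 1306793165) (nat_lit 1672) (nat_lit 3695771979) (nat_lit 1748) (nat_lit 8463160315) (nat_lit 386) (nat_lit 5) (nat_lit 408) (nat_lit 5) (nat_lit 409) (nat_lit 5) (nat_lit 446) (nat_lit 432) (nat_lit 262)) (XT.nd (nat_lit 78) (nat_lit 0) (nat_lit 0) (XT.lf (nat_lit 0) (nat_lit 2192199826)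 (nat_lit 1672) (nat_lit 10828135952) (nat_lit 1748) (nat_lit 580886485) (nat_lit 387) (nat_lit 5) (nat_lit 409) (nat_lit 5) (nat_lit 410) (nat_lit 5) (nat_lit 447) (nat_lit 432) (nat_lit 261)) (XT.lf (nat_lit 0) (nat_lit 3143842469) (nat_lit 1672) (nat_lit 4357731994) (nat_lit 1748) (nat_lit 6236891429) (nat_lit 387) (nat_lit 5) (nat_lit 409) (nat_lit 5) (nat_lit 410) (nat_lit 5) (nat_lit 448) (nat_lit 432) (nat_lit 260)))) (XT.nd (nat_lit 156) (nat_lit 0) (nat_lit 76) (XT.nd (nat_lit 78) (nat_lit 0) (nat_lit 76) (XT.lf (nat_lit 76) (nat_lit 2264997543) (nat_lit 0) (nat_lit 1854847329) (nat_lit 1748) (nat_lit 9758510281) (nat_lit 388) (nat_lit 5) (nat_lit 387) (nat_lit 5) (nat_lit 410) (nat_lit 5) (nat_lit 449) (nat_lit 432) (nat_lit 259)) (XT.lf (nat_lit 0) (nat_lit 5160933660) (nat_lit 1672) (nat_lit 4973703598) (nat_lit 1748) (nat_lit 3885500770) (nat_lit 388) (nat_lit 5) (nat_lit 410) (nat_lit 5) (nat_lit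 411) (nat_lit 5) (nat_lit 450) (nat_lit 432) (nat_lit 258))) (XT.nd (nat_lit 78) (nat_lit 0) (nat_lit 76) (XT.lf (nat_lit 76) (nat_lit 1803294759) (nat_lit 0) (nat_lit 4434499599) (nat_lit 1748) (nat_lit 7926670214) (nat_lit 389) (nat_lit 5) (nat_lit 388) (nat_lit 5) (nat_lit 411) (nat_lit 5) (nat_lit 451) (nat_lit 432) (nat_lit 257)) (XT.lf (nat_lit 0) (nat_lit 7369852422) (nat_lit 1672) (nat_lit 5543905356) (nat_lit 1748) (nat_lit 1397253543) (nat_lit 389) (nat_lit 5) (nat_lit 411) (nat_lit 5) (nat_lit 412) (nat_lit 5) (nat_lit 452) (nat_lit 432) (nat_lit 256))))) (XT.nd (nat_lit 234) (nat_lit 2888) (nat_lit 0) (XT.nd (nat_lit 78) (nat_lit 0) (nat_lit 0) (XT.lf (nat_lit 76) (nat_lit 1391757046) (nat_lit 0) (nat_lit 7162478165) (nat_lit 1748) (nat_lit 5905666866) (nat_lit 390) (nat_lit 5) (nat_lit 389) (nat_lit 5) (nat_lit 412) (nat_lit 5) (nat_lit 453) (nat_lit 432) (nat_lit 255)) (XT.nd (nat_lit 78) (nat_lit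 0) (nat_lit 76) (XT.lf (nat_lit 76) (nat_lit 8534493805) (nat_lit 0) (nat_lit 1256421093) (nat_lit 1748) (nat_lit 4820290175) (nat_lit 390) (nat_lit 5) (nat_lit 389) (nat_lit 5) (nat_lit 412) (nat_lit 5) (nat_lit 454) (nat_lit 432) (nat_lit 254)) (XT.lf (nat_lit 76) (nat_lit 1030266500) (nat_lit 0) (nat_lit 10051293000) (nat_lit 1748) (nat_lit 3683396482) (nat_lit 391) (nat_lit 5) (nat_lit 390) (nat_lit 5) (nat_lit 413) (nat_lit 5) (nat_lit 455) (nat_lit 432) (nat_lit 253)))) (XT.nd (nat_lit 156) (nat_lit 1368) (nat_lit 0) (XT.nd (nat_lit 78) (nat_lit 1596) (nat_lit 0) (XT.lf (nat_lit 76) (nat_lit 8346527651) (nat_lit 0) (nat_lit 4092240750) (nat_lit 1748) (nat_lit 2482204836) (nat_lit 391) (nat_lit 5) (nat_lit 390) (nat_lit 5) (nat_lit 413) (nat_lit 5) (nat_lit 456) (nat_lit 432) (nat_lit 252)) (XT.lf (nat_lit 0) (nat_lit 718693161) (nat_lit 1672) (nat_lit 13113868600) (nat_lit 1748) (nat_lit 1247366498) (nat_lit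 369) (nat_lit 5) (nat_lit 391) (nat_lit 5) (nat_lit 392) (nat_lit 5) (nat_lit 457) (nat_lit 432) (nat_lit 251))) (XT.nd (nat_lit 78) (nat_lit 1292) (nat_lit 0) (XT.lf (nat_lit 0) (nat_lit 75455827) (nat_lit 1748) (nat_lit 7028748693) (nat_lit 76) (nat_lit 8136593332) (nat_lit 368) (nat_lit 5) (nat_lit 391) (nat_lit 5) (nat_lit 369) (nat_lit 5) (nat_lit 458) (nat_lit 432) (nat_lit 250)) (XT.lf (nat_lit 0) (nat_lit 441138241) (nat_lit 1292) (nat_lit 961867739) (nat_lit 1368) (nat_lit 14001820352) (nat_lit 351) (nat_lit 5) (nat_lit 368) (nat_lit 5) (nat_lit 369) (nat_lit 5) (nat_lit 459) (nat_lit 432) (nat_lit 249)))))) (XT.nd (nat_lit 546) (nat_lit 3116) (nat_lit 0) (XT.nd (nat_lit 234) (nat_lit 1672) (nat_lit 0) (XT.nd (nat_lit 78) (nat_lit 836) (nat_lit 0) (XT.lf (nat_lit 0) (nat_lit 2831230836) (nat_lit 1368) (nat_lit 7457135707) (nat_lit 76) (nat_lit 5282292120) (nat_lit 351) (nat_lit 5) (nat_lit 369) (nat_lit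 5) (nat_lit 352) (nat_lit 5) (nat_lit 460) (nat_lit 432) (nat_lit 248)) (XT.nd (nat_lit 78) (nat_lit 0) (nat_lit 0) (XT.lf (nat_lit 0) (nat_lit 188892250) (nat_lit 836) (nat_lit 4099089132) (nat_lit 912) (nat_lit 11451832676) (nat_lit 340) (nat_lit 5) (nat_lit 351) (nat_lit 5) (nat_lit 352) (nat_lit 5) (nat_lit 461) (nat_lit 432) (nat_lit 247)) (XT.lf (nat_lit 0) (nat_lit 5831090380) (nat_lit 912) (nat_lit 7844013248) (nat_lit 76) (nat_lit 2236109995) (nat_lit 340) (nat_lit 5) (nat_lit 352) (nat_lit 5) (nat_lit 341) (nat_lit 5) (nat_lit 462) (nat_lit 432) (nat_lit 246)))) (XT.nd (nat_lit 156) (nat_lit 836) (nat_lit 0) (XT.nd (nat_lit 78) (nat_lit 836) (nat_lit 0) (XT.lf (nat_lit 0) (nat_lit 7424831518) (nat_lit 912) (nat_lit 16857636) (nat_lit 76) (nat_lit 8643962049) (nat_lit 340) (nat_lit 5) (nat_lit 352) (nat_lit 5) (nat_lit 341) (nat_lit 5) (nat_lit 463) (nat_lit 432) (nat_lit 245)) (XT.lf (nat_lit 0) (nat_lit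 8066015751) (nat_lit 836) (nat_lit 1029569961) (nat_lit 912) (nat_lit 7167094375) (nat_lit 329) (nat_lit 5) (nat_lit 340) (nat_lit 5) (nat_lit 341) (nat_lit 5) (nat_lit 464) (nat_lit 432) (nat_lit 244))) (XT.nd (nat_lit 78) (nat_lit 836) (nat_lit 0) (XT.lf (nat_lit 0) (nat_lit 10828519692) (nat_lit 912) (nat_lit 174973232) (nat_lit 76) (nat_lit 5439186542) (nat_lit 329) (nat_lit 5) (nat_lit 341) (nat_lit 5) (nat_lit 330) (nat_lit 5) (nat_lit 465) (nat_lit 432) (nat_lit 243)) (XT.lf (nat_lit 0) (nat_lit 8099977183) (nat_lit 836) (nat_lit 4548554833) (nat_lit 912) (nat_lit 3976703532) (nat_lit 318) (nat_lit 5) (nat_lit 329) (nat_lit 5) (nat_lit 330) (nat_lit 5) (nat_lit 466) (nat_lit 432) (nat_lit 242))))) (XT.nd (nat_lit 312) (nat_lit 1444) (nat_lit 0) (XT.nd (nat_lit 156) (nat_lit 836) (nat_lit 0) (XT.nd (nat_lit 78) (nat_lit 836) (nat_lit 0) (XT.lf (nat_lit 0) (nat_lit 14512449932) (nat_lit 912) (nat_lit 288534974)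 (nat_lit 76) (nat_lit 2010312750) (nat_lit 318) (nat_lit 5) (nat_lit 330) (nat_lit 5) (nat_lit 319) (nat_lit 5) (nat_lit 467) (nat_lit 432) (nat_lit 241)) (XT.lf (nat_lit 0) (nat_lit 8183569537) (nat_lit 836) (nat_lit 8306575559) (nat_lit 912) (nat_lit 509410844) (nat_lit 307) (nat_lit 5) (nat_lit 318) (nat_lit 5) (nat_lit 319) (nat_lit 5) (nat_lit 468) (nat_lit 432) (nat_lit 240))) (XT.nd (nat_lit 78) (nat_lit 760) (nat_lit 0) (XT.lf (nat_lit 0) (nat_lit 1293790801) (nat_lit 912) (nat_lit 377679594) (nat_lit 76) (nat_lit 15520038187) (nat_lit 306) (nat_lit 5) (nat_lit 318) (nat_lit 5) (nat_lit 307) (nat_lit 5) (nat_lit 469) (nat_lit 432) (nat_lit 239)) (XT.lf (nat_lit 0) (nat_lit 3207203506) (nat_lit 836) (nat_lit 9090985075) (nat_lit 76) (nat_lit 5087429621) (nat_lit 296) (nat_lit 5) (nat_lit 307) (nat_lit 5) (nat_lit 297) (nat_lit 5) (nat_lit 470) (nat_lit 432) (nat_lit 238)))) (XT.nd (nat_lit 156) (nat_lit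 684) (nat_lit 0) (XT.nd (nat_lit 78) (nat_lit 760) (nat_lit 0) (XT.lf (nat_lit 0) (nat_lit 5166008517) (nat_lit 836) (nat_lit 455706678) (nat_lit 76) (nat_lit 11961756876) (nat_lit 296) (nat_lit 5) (nat_lit 307) (nat_lit 5) (nat_lit 297) (nat_lit 5) (nat_lit 471) (nat_lit 432) (nat_lit 237)) (XT.lf (nat_lit 0) (nat_lit 7220605593) (nat_lit 836) (nat_lit 9335649982) (nat_lit 76) (nat_lit 1227899571) (nat_lit 286) (nat_lit 5) (nat_lit 297) (nat_lit 5) (nat_lit 287) (nat_lit 5) (nat_lit 472) (nat_lit 432) (nat_lit 236))) (XT.nd (nat_lit 78) (nat_lit 684) (nat_lit 0) (XT.lf (nat_lit 0) (nat_lit 9350316247) (nat_lit 836) (nat_lit 495593336) (nat_lit 76) (nat_lit 8142266229) (nat_lit 286) (nat_lit 5) (nat_lit 297) (nat_lit 5) (nat_lit 287) (nat_lit 5) (nat_lit 473) (nat_lit 432) (nat_lit 235)) (XT.lf (nat_lit 0) (nat_lit 8628019598) (nat_lit 684) (nat_lit 2944457056) (nat_lit 760) (nat_lit 6622807401) (nat_lit 277)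 (nat_lit 5) (nat_lit 286) (nat_lit 5) (nat_lit 287) (nat_lit 5) (nat_lit 474) (nat_lit 432) (nat_lit 234))))))))
noncomputable def xc212 : XT := (XT.nd (nat_lit 2184) (nat_lit 3116) (nat_lit 0) (XT.nd (nat_lit 1092) (nat_lit 3724) (nat_lit 0) (XT.nd (nat_lit 546) (nat_lit 2508) (nat_lit 0) (XT.nd (nat_lit 234) (nat_lit 1444) (nat_lit 0) (XT.nd (nat_lit 78) (nat_lit 760) (nat_lit 0) (XT.lf (nat_lit 0) (nat_lit 13862930070) (nat_lit 760) (nat_lit 498739716) (nat_lit 76) (nat_lit 4044391872) (nat_lit 277) (nat_lit 5) (nat_lit 287) (nat_lit 5) (nat_lit 278) (nat_lit 5) (nat_lit 475) (nat_lit 432) (nat_lit 233)) (XT.nd (nat_lit 78) (nat_lit 0) (nat_lit 0) (XT.lf (nat_lit 0) (nat_lit 8841252760) (nat_lit 760) (nat_lit 7428876578) (nat_lit 836) (nat_lit 2349510851) (nat_lit 267) (nat_lit 5) (nat_lit 277) (nat_lit 5) (nat_lit 278) (nat_lit 5) (nat_lit 476) (nat_lit 432) (nat_lit 232)) (XT.lf (nat_lit 0) (nat_lit 18368489798)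 (nat_lit 760) (nat_lit 354439369) (nat_lit 836) (nat_lit 114616020) (nat_lit 267) (nat_lit 5) (nat_lit 277) (nat_lit 5) (nat_lit 278) (nat_lit 5) (nat_lit 477) (nat_lit 432) (nat_lit 231)))) (XT.nd (nat_lit 156) (nat_lit 684) (nat_lit 0) (XT.nd (nat_lit 78) (nat_lit 0) (nat_lit 0) (XT.lf (nat_lit 0) (nat_lit 2235048489) (nat_lit 760) (nat_lit 9977673759) (nat_lit 76) (nat_lit 6844839465) (nat_lit 257) (nat_lit 5) (nat_lit 267) (nat_lit 5) (nat_lit 258) (nat_lit 5) (nat_lit 478) (nat_lit 432) (nat_lit 230)) (XT.lf (nat_lit 0) (nat_lit 4629942294) (nat_lit 760) (nat_lit 465221845) (nat_lit 76) (nat_lit 14186807659) (nat_lit 257) (nat_lit 5) (nat_lit 267) (nat_lit 5) (nat_lit 258) (nat_lit 5) (nat_lit 479) (nat_lit 432) (nat_lit 229))) (XT.nd (nat_lit 78) (nat_lit 0) (nat_lit 0) (XT.lf (nat_lit 0) (nat_lit 7142285479) (nat_lit 760) (nat_lit 10170290470) (nat_lit 76) (nat_lit 2196906829) (nat_lit 248) (nat_lit 5)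 (nat_lit 258) (nat_lit 5) (nat_lit 249) (nat_lit 5) (nat_lit 480) (nat_lit 432) (nat_lit 228)) (XT.lf (nat_lit 0) (nat_lit 9736193427) (nat_lit 760) (nat_lit 435536968) (nat_lit 76) (nat_lit 9569190873) (nat_lit 248) (nat_lit 5) (nat_lit 258) (nat_lit 5) (nat_lit 249) (nat_lit 5) (nat_lit 481) (nat_lit 432) (nat_lit 227))))) (XT.nd (nat_lit 234) (nat_lit 1292) (nat_lit 0) (XT.nd (nat_lit 78) (nat_lit 608) (nat_lit 0) (XT.lf (nat_lit 0) (nat_lit 9613829198) (nat_lit 608) (nat_lit 2825111392) (nat_lit 684) (nat_lit 7536912295) (nat_lit 240) (nat_lit 5) (nat_lit 248) (nat_lit 5) (nat_lit 249) (nat_lit 5) (nat_lit 482) (nat_lit 432) (nat_lit 226)) (XT.nd (nat_lit 78) (nat_lit 608) (nat_lit 0) (XT.lf (nat_lit 0) (nat_lit 15223599485) (nat_lit 684) (nat_lit 381903594) (nat_lit 76) (nat_lit 4609426427) (nat_lit 240) (nat_lit 5) (nat_lit 249) (nat_lit 5) (nat_lit 241) (nat_lit 5) (nat_lit 483) (nat_lit 432) (nat_lit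 225)) (XT.lf (nat_lit 0) (nat_lit 9902874342) (nat_lit 608) (nat_lit 8238792533) (nat_lit 684) (nat_lit 2315569917) (nat_lit 232) (nat_lit 5) (nat_lit 240) (nat_lit 5) (nat_lit 241) (nat_lit 5) (nat_lit 484) (nat_lit 432) (nat_lit 224)))) (XT.nd (nat_lit 156) (nat_lit 608) (nat_lit 0) (XT.nd (nat_lit 78) (nat_lit 608) (nat_lit 0) (XT.lf (nat_lit 0) (nat_lit 405595619) (nat_lit 684) (nat_lit 314663579) (nat_lit 76) (nat_lit 19984134289) (nat_lit 231) (nat_lit 5) (nat_lit 240) (nat_lit 5) (nat_lit 232) (nat_lit 5) (nat_lit 485) (nat_lit 432) (nat_lit 223)) (XT.lf (nat_lit 0) (nat_lit 3257202132) (nat_lit 684) (nat_lit 10757809690) (nat_lit 76) (nat_lit 6939038153) (nat_lit 223) (nat_lit 5) (nat_lit 232) (nat_lit 5) (nat_lit 224) (nat_lit 5) (nat_lit 486) (nat_lit 432) (nat_lit 222))) (XT.nd (nat_lit 78) (nat_lit 608) (nat_lit 0) (XT.lf (nat_lit 0) (nat_lit 6167632316) (nat_lit 684) (nat_lit 297899147) (nat_lit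 76) (nat_lit 14743135476) (nat_lit 223) (nat_lit 5) (nat_lit 232) (nat_lit 5) (nat_lit 224) (nat_lit 5) (nat_lit 487) (nat_lit 432) (nat_lit 221)) (XT.lf (nat_lit 0) (nat_lit 9207923039) (nat_lit 684) (nat_lit 10972586871) (nat_lit 76) (nat_lit 1286436408) (nat_lit 215) (nat_lit 5) (nat_lit 224) (nat_lit 5) (nat_lit 216) (nat_lit 5) (nat_lit 488) (nat_lit 432) (nat_lit 220)))))) (XT.nd (nat_lit 546) (nat_lit 2052) (nat_lit 0) (XT.nd (nat_lit 234) (nat_lit 1140) (nat_lit 0) (XT.nd (nat_lit 78) (nat_lit 532) (nat_lit 0) (XT.lf (nat_lit 0) (nat_lit 12348899365) (nat_lit 684) (nat_lit 272703748) (nat_lit 76) (nat_lit 9107993629) (nat_lit 215) (nat_lit 5) (nat_lit 224) (nat_lit 5) (nat_lit 216) (nat_lit 5) (nat_lit 489) (nat_lit 432) (nat_lit 219)) (XT.nd (nat_lit 78) (nat_lit 0) (nat_lit 0) (XT.lf (nat_lit 0) (nat_lit 10776609868) (nat_lit 532) (nat_lit 4841200719) (nat_lit 608) (nat_lit 6378390274) (nat_lit 208)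 (nat_lit 5) (nat_lit 215) (nat_lit 5) (nat_lit 216) (nat_lit 5) (nat_lit 490) (nat_lit 432) (nat_lit 218)) (XT.lf (nat_lit 0) (nat_lit 18969232311) (nat_lit 608) (nat_lit 243557235) (nat_lit 76) (nat_lit 3055007806) (nat_lit 208) (nat_lit 5) (nat_lit 216) (nat_lit 5) (nat_lit 209) (nat_lit 5) (nat_lit 491) (nat_lit 432) (nat_lit 217)))) (XT.nd (nat_lit 156) (nat_lit 532) (nat_lit 0) (XT.nd (nat_lit 78) (nat_lit 76) (nat_lit 0) (XT.lf (nat_lit 0) (nat_lit 11059138241) (nat_lit 532) (nat_lit 11427699219) (nat_lit 608) (nat_lit 56008091) (nat_lit 201) (nat_lit 5) (nat_lit 208) (nat_lit 5) (nat_lit 209) (nat_lit 5) (nat_lit 492) (nat_lit 432) (nat_lit 216)) (XT.lf (nat_lit 0) (nat_lit 3205714379) (nat_lit 608) (nat_lit 259161239) (nat_lit 76) (nat_lit 19358160514) (nat_lit 200) (nat_lit 5) (nat_lit 208) (nat_lit 5) (nat_lit 201) (nat_lit 5) (nat_lit 493) (nat_lit 432) (nat_lit 215))) (XT.nd (nat_lit 78) (nat_lit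 0) (nat_lit 0) (XT.lf (nat_lit 0) (nat_lit 6631623029) (nat_lit 608) (nat_lit 11805787262) (nat_lit 76) (nat_lit 4669421508) (nat_lit 193) (nat_lit 5) (nat_lit 201) (nat_lit 5) (nat_lit 194) (nat_lit 5) (nat_lit 494) (nat_lit 432) (nat_lit 214)) (XT.lf (nat_lit 0) (nat_lit 10146195871) (nat_lit 608) (nat_lit 329059168) (nat_lit 76) (nat_lit 12920648079) (nat_lit 193) (nat_lit 5) (nat_lit 201) (nat_lit 5) (nat_lit 194) (nat_lit 5) (nat_lit 495) (nat_lit 432) (nat_lit 213))))) (XT.nd (nat_lit 234) (nat_lit 1064) (nat_lit 0) (XT.nd (nat_lit 78) (nat_lit 456) (nat_lit 0) (XT.lf (nat_lit 0) (nat_lit 11522638409) (nat_lit 532) (nat_lit 2278772799) (nat_lit 608) (nat_lit 9887940240) (nat_lit 186) (nat_lit 5) (nat_lit 193) (nat_lit 5) (nat_lit 194) (nat_lit 5) (nat_lit 496) (nat_lit 432) (nat_lit 212)) (XT.nd (nat_lit 78) (nat_lit 456) (nat_lit 0) (XT.lf (nat_lit 0) (nat_lit 17567020862) (nat_lit 608) (nat_lit 418026691)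 (nat_lit 76) (nat_lit 6002877946) (nat_lit 186) (nat_lit 5) (nat_lit 194) (nat_lit 5) (nat_lit 187) (nat_lit 5) (nat_lit 497) (nat_lit 432) (nat_lit 211)) (XT.lf (nat_lit 0) (nat_lit 11698348635) (nat_lit 456) (nat_lit 9796306557) (nat_lit 532) (nat_lit 2796084094) (nat_lit 180) (nat_lit 5) (nat_lit 186) (nat_lit 5) (nat_lit 187) (nat_lit 5) (nat_lit 498) (nat_lit 432) (nat_lit 210)))) (XT.nd (nat_lit 156) (nat_lit 456) (nat_lit 0) (XT.nd (nat_lit 78) (nat_lit 532) (nat_lit 0) (XT.lf (nat_lit 0) (nat_lit 887922526) (nat_lit 532) (nat_lit 548347551) (nat_lit 76) (nat_lit 23163254463) (nat_lit 179) (nat_lit 5) (nat_lit 186) (nat_lit 5) (nat_lit 180) (nat_lit 5) (nat_lit 499) (nat_lit 432) (nat_lit 209)) (XT.lf (nat_lit 0) (nat_lit 4727694895) (nat_lit 608) (nat_lit 13091143728) (nat_lit 76) (nat_lit 7092889091) (nat_lit 172) (nat_lit 5) (nat_lit 180) (nat_lit 5) (nat_lit 173) (nat_lit 5) (nat_lit 500) (nat_lit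 432) (nat_lit 208))) (XT.nd (nat_lit 78) (nat_lit 456) (nat_lit 0) (XT.lf (nat_lit 0) (nat_lit 8653287571) (nat_lit 608) (nat_lit 800882966) (nat_lit 76) (nat_lit 15775826230) (nat_lit 172) (nat_lit 5) (nat_lit 180) (nat_lit 5) (nat_lit 173) (nat_lit 5) (nat_lit 501) (nat_lit 432) (nat_lit 207)) (XT.lf (nat_lit 0) (nat_lit 11885601408) (nat_lit 456) (nat_lit 844851142) (nat_lit 532) (nat_lit 12822719711) (nat_lit 166) (nat_lit 5) (nat_lit 172) (nat_lit 5) (nat_lit 173) (nat_lit 5) (nat_lit 502) (nat_lit 432) (nat_lit 206))))))) (XT.nd (nat_lit 1092) (nat_lit 0) (nat_lit 0) (XT.nd (nat_lit 546) (nat_lit 1672) (nat_lit 0) (XT.nd (nat_lit 234) (nat_lit 988) (nat_lit 0) (XT.nd (nat_lit 78) (nat_lit 456) (nat_lit 0) (XT.lf (nat_lit 0) (nat_lit 16942028507) (nat_lit 532) (nat_lit 1103099840) (nat_lit 76) (nat_lit 7836627789) (nat_lit 166) (nat_lit 5) (nat_lit 173) (nat_lit 5) (nat_lit 167) (nat_lit 5) (nat_lit 503)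 (nat_lit 432) (nat_lit 205)) (XT.nd (nat_lit 78) (nat_lit 0) (nat_lit 0) (XT.lf (nat_lit 0) (nat_lit 11857180395) (nat_lit 456) (nat_lit 9459242869) (nat_lit 532) (nat_lit 4898918860) (nat_lit 160) (nat_lit 5) (nat_lit 166) (nat_lit 5) (nat_lit 167) (nat_lit 5) (nat_lit 504) (nat_lit 432) (nat_lit 204)) (XT.lf (nat_lit 0) (nat_lit 25086260322) (nat_lit 456) (nat_lit 695499026) (nat_lit 532) (nat_lit 773773553) (nat_lit 160) (nat_lit 5) (nat_lit 166) (nat_lit 5) (nat_lit 167) (nat_lit 5) (nat_lit 505) (nat_lit 432) (nat_lit 203)))) (XT.nd (nat_lit 156) (nat_lit 456) (nat_lit 0) (XT.nd (nat_lit 78) (nat_lit 0) (nat_lit 0) (XT.lf (nat_lit 0) (nat_lit 3515751393) (nat_lit 532) (nat_lit 15150185799) (nat_lit 76) (nat_lit 8233608204) (nat_lit 153) (nat_lit 5) (nat_lit 160) (nat_lit 5) (nat_lit 154) (nat_lit 5) (nat_lit 506) (nat_lit 432) (nat_lit 202)) (XT.lf (nat_lit 0) (nat_lit 7891380342) (nat_lit 532) (nat_lit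 2013098301) (nat_lit 76) (nat_lit 17345645732) (nat_lit 153) (nat_lit 5) (nat_lit 160) (nat_lit 5) (nat_lit 154) (nat_lit 5) (nat_lit 507) (nat_lit 432) (nat_lit 201))) (XT.nd (nat_lit 78) (nat_lit 0) (nat_lit 0) (XT.lf (nat_lit 0) (nat_lit 11532747187) (nat_lit 456) (nat_lit 892862540) (nat_lit 532) (nat_lit 15180685426) (nat_lit 147) (nat_lit 5) (nat_lit 153) (nat_lit 5) (nat_lit 154) (nat_lit 5) (nat_lit 508) (nat_lit 432) (nat_lit 200)) (XT.lf (nat_lit 0) (nat_lit 17114245349) (nat_lit 532) (nat_lit 2651764338) (nat_lit 76) (nat_lit 8202307164) (nat_lit 147) (nat_lit 5) (nat_lit 154) (nat_lit 5) (nat_lit 148) (nat_lit 5) (nat_lit 509) (nat_lit 432) (nat_lit 199))))) (XT.nd (nat_lit 234) (nat_lit 760) (nat_lit 0) (XT.nd (nat_lit 78) (nat_lit 532) (nat_lit 0) (XT.lf (nat_lit 0) (nat_lit 11173922469) (nat_lit 380) (nat_lit 10797507151) (nat_lit 456) (nat_lit 6364655741) (nat_lit 142) (nat_lit 5) (nat_lit 147)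 (nat_lit 5) (nat_lit 148) (nat_lit 5) (nat_lit 510) (nat_lit 432) (nat_lit 198)) (XT.nd (nat_lit 78) (nat_lit 532) (nat_lit 0) (XT.lf (nat_lit 0) (nat_lit 25306934875) (nat_lit 380) (nat_lit 1632970798) (nat_lit 456) (nat_lit 1771022468) (nat_lit 142) (nat_lit 5) (nat_lit 147) (nat_lit 5) (nat_lit 148) (nat_lit 5) (nat_lit 511) (nat_lit 432) (nat_lit 197)) (XT.lf (nat_lit 0) (nat_lit 2993098544) (nat_lit 532) (nat_lit 18395961590) (nat_lit 76) (nat_lit 7701494196) (nat_lit 135) (nat_lit 5) (nat_lit 142) (nat_lit 5) (nat_lit 136) (nat_lit 5) (nat_lit 512) (nat_lit 432) (nat_lit 196)))) (XT.nd (nat_lit 156) (nat_lit 380) (nat_lit 0) (XT.nd (nat_lit 78) (nat_lit 380) (nat_lit 0) (XT.lf (nat_lit 0) (nat_lit 7859045947) (nat_lit 532) (nat_lit 4383830382) (nat_lit 76) (nat_lit 17234059178) (nat_lit 135) (nat_lit 5) (nat_lit 142) (nat_lit 5) (nat_lit 136) (nat_lit 5) (nat_lit 513) (nat_lit 432) (nat_lit 195)) (XT.lf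 (nat_lit 0) (nat_lit 10035144003) (nat_lit 380) (nat_lit 2848820709) (nat_lit 456) (nat_lit 16985848268) (nat_lit 130) (nat_lit 5) (nat_lit 135) (nat_lit 5) (nat_lit 136) (nat_lit 5) (nat_lit 514) (nat_lit 432) (nat_lit 194))) (XT.nd (nat_lit 78) (nat_lit 380) (nat_lit 0) (XT.lf (nat_lit 0) (nat_lit 18079234463) (nat_lit 456) (nat_lit 5516988842) (nat_lit 76) (nat_lit 6672929331) (nat_lit 130) (nat_lit 5) (nat_lit 136) (nat_lit 5) (nat_lit 131) (nat_lit 5) (nat_lit 515) (nat_lit 432) (nat_lit 193)) (XT.lf (nat_lit 0) (nat_lit 9183682642) (nat_lit 380) (nat_lit 14269812167) (nat_lit 456) (nat_lit 7221484223) (nat_lit 125) (nat_lit 5) (nat_lit 130) (nat_lit 5) (nat_lit 131) (nat_lit 5) (nat_lit 516) (nat_lit 432) (nat_lit 192)))))) (XT.nd (nat_lit 53274) (nat_lit 0) (nat_lit 19760) (XT.nd (nat_lit 52962) (nat_lit 0) (nat_lit 21128) (XT.nd (nat_lit 52806) (nat_lit 0) (nat_lit 21128) (XT.lf (nat_lit 0) (nat_lit 24248242761)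 (nat_lit 380) (nat_lit 4720646726) (nat_lit 456) (nat_lit 2119361108) (nat_lit 125) (nat_lit 5) (nat_lit 130) (nat_lit 5) (nat_lit 131) (nat_lit 5) (nat_lit 517) (nat_lit 432) (nat_lit 191)) (XT.nd (nat_lit 78) (nat_lit 0) (nat_lit 0) (XT.lf (nat_lit 0) (nat_lit 1339753952) (nat_lit 0) (nat_lit 1339753952) (nat_lit 1596) (nat_lit 3320563860) (nat_lit 403) (nat_lit 5) (nat_lit 403) (nat_lit 3) (nat_lit 424) (nat_lit 3) (nat_lit 433) (nat_lit 433) (nat_lit 274)) (XT.lf (nat_lit 0) (nat_lit 5882744823) (nat_lit 1596) (nat_lit 3872875567) (nat_lit 1672) (nat_lit 2354754673) (nat_lit 403) (nat_lit 5) (nat_lit 424) (nat_lit 3) (nat_lit 425) (nat_lit 5) (nat_lit 434) (nat_lit 433) (nat_lit 273)))) (XT.nd (nat_lit 156) (nat_lit 0) (nat_lit 76) (XT.nd (nat_lit 78) (nat_lit 0) (nat_lit 76) (XT.lf (nat_lit 76) (nat_lit 1681903439) (nat_lit 0) (nat_lit 4751823255) (nat_lit 1672) (nat_lit 5788758598) (nat_lit 404) (nat_lit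 5) (nat_lit 403) (nat_lit 5) (nat_lit 425) (nat_lit 5) (nat_lit 435) (nat_lit 433) (nat_lit 272)) (XT.lf (nat_lit 0) (nat_lit 7012516630) (nat_lit 1596) (nat_lit 4944987381) (nat_lit 1672) (nat_lit 379007387) (nat_lit 404) (nat_lit 5) (nat_lit 425) (nat_lit 5) (nat_lit 426) (nat_lit 5) (nat_lit 436) (nat_lit 433) (nat_lit 271))) (XT.nd (nat_lit 78) (nat_lit 0) (nat_lit 0) (XT.lf (nat_lit 76) (nat_lit 734320446) (nat_lit 0) (nat_lit 6893368779) (nat_lit 1672) (nat_lit 4824641920) (nat_lit 405) (nat_lit 5) (nat_lit 404) (nat_lit 5) (nat_lit 426) (nat_lit 5) (nat_lit 437) (nat_lit 433) (nat_lit 270)) (XT.lf (nat_lit 76) (nat_lit 6587926629) (nat_lit 0) (nat_lit 1689175340) (nat_lit 1672) (nat_lit 4292935658) (nat_lit 405) (nat_lit 5) (nat_lit 404) (nat_lit 5) (nat_lit 426) (nat_lit 5) (nat_lit 438) (nat_lit 433) (nat_lit 269))))) (XT.nd (nat_lit 234) (nat_lit 1520) (nat_lit 0) (XT.nd (nat_lit 78) (nat_lit 0) (nat_lit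 0) (XT.lf (nat_lit 0) (nat_lit 8952005703) (nat_lit 1596) (nat_lit 161446222) (nat_lit 1672) (nat_lit 3576405155) (nat_lit 405) (nat_lit 5) (nat_lit 426) (nat_lit 5) (nat_lit 427) (nat_lit 5) (nat_lit 439) (nat_lit 433) (nat_lit 268)) (XT.nd (nat_lit 78) (nat_lit 0) (nat_lit 76) (XT.lf (nat_lit 76) (nat_lit 5834638861) (nat_lit 0) (nat_lit 3844058298) (nat_lit 1672) (nat_lit 3132618692) (nat_lit 406) (nat_lit 5) (nat_lit 405) (nat_lit 5) (nat_lit 427) (nat_lit 5) (nat_lit 440) (nat_lit 433) (nat_lit 267)) (XT.lf (nat_lit 0) (nat_lit 10420370788) (nat_lit 1596) (nat_lit 998829566) (nat_lit 1672) (nat_lit 1516003029) (nat_lit 406) (nat_lit 5) (nat_lit 427) (nat_lit 5) (nat_lit 428) (nat_lit 5) (nat_lit 441) (nat_lit 433) (nat_lit 266)))) (XT.nd (nat_lit 156) (nat_lit 1596) (nat_lit 0) (XT.nd (nat_lit 78) (nat_lit 0) (nat_lit 0) (XT.lf (nat_lit 76) (nat_lit 5134043645) (nat_lit 0) (nat_lit 6091251972) (nat_lit 1672)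 (nat_lit 1835313076) (nat_lit 407) (nat_lit 5) (nat_lit 406) (nat_lit 5) (nat_lit 428) (nat_lit 5) (nat_lit 442) (nat_lit 433) (nat_lit 265)) (XT.lf (nat_lit 76) (nat_lit 11396748147) (nat_lit 0) (nat_lit 646062309) (nat_lit 1672) (nat_lit 1145790043) (nat_lit 407) (nat_lit 5) (nat_lit 406) (nat_lit 5) (nat_lit 428) (nat_lit 5) (nat_lit 443) (nat_lit 433) (nat_lit 264))) (XT.nd (nat_lit 78) (nat_lit 1672) (nat_lit 0) (XT.lf (nat_lit 76) (nat_lit 4486050247) (nat_lit 0) (nat_lit 8441631488) (nat_lit 1672) (nat_lit 390458340) (nat_lit 408) (nat_lit 5) (nat_lit 407) (nat_lit 5) (nat_lit 429) (nat_lit 5) (nat_lit 444) (nat_lit 433) (nat_lit 263)) (XT.lf (nat_lit 0) (nat_lit 381473637) (nat_lit 1672) (nat_lit 2549625604) (nat_lit 1748) (nat_lit 10519000063) (nat_lit 385) (nat_lit 5) (nat_lit 407) (nat_lit 5) (nat_lit 408) (nat_lit 5) (nat_lit 445) (nat_lit 433) (nat_lit 262))))))))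
noncomputable def xc213 : XT := (XT.nd (nat_lit 2184) (nat_lit 8664) (nat_lit 0) (XT.nd (nat_lit 1092) (nat_lit 6232) (nat_lit 0) (XT.nd (nat_lit 546) (nat_lit 1368) (nat_lit 0) (XT.nd (nat_lit 234) (nat_lit 0) (nat_lit 76) (XT.nd (nat_lit 78) (nat_lit 0) (nat_lit 0) (XT.lf (nat_lit 0) (nat_lit 1196904232) (nat_lit 1672) (nat_lit 9701392410) (nat_lit 1748) (nat_lit 2685691285) (nat_lit 386) (nat_lit 5) (nat_lit 408) (nat_lit 5) (nat_lit 409) (nat_lit 5) (nat_lit 446) (nat_lit 433) (nat_lit 261)) (XT.nd (nat_lit 78) (nat_lit 0) (nat_lit 76) (XT.lf (nat_lit 0) (nat_lit 2055735638) (nat_lit 1672) (nat_lit 3268333112) (nat_lit 1748) (nat_lit 8395951172) (nat_lit 386) (nat_lit 5) (nat_lit 408) (nat_lit 5) (nat_lit 409) (nat_lit 5) (nat_lit 447) (nat_lit 433) (nat_lit 260)) (XT.lf (nat_lit 0) (nat_lit 2946523256) (nat_lit 1672) (nat_lit 10530464333) (nat_lit 1748) (nat_lit 381496675) (nat_lit 387) (nat_lit 5) (nat_lit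 409) (nat_lit 5) (nat_lit 410) (nat_lit 5) (nat_lit 448) (nat_lit 433) (nat_lit 259)))) (XT.nd (nat_lit 156) (nat_lit 0) (nat_lit 76) (XT.nd (nat_lit 78) (nat_lit 0) (nat_lit 0) (XT.lf (nat_lit 0) (nat_lit 3903267783) (nat_lit 1672) (nat_lit 3940735321) (nat_lit 1748) (nat_lit 6154759121) (nat_lit 387) (nat_lit 5) (nat_lit 409) (nat_lit 5) (nat_lit 410) (nat_lit 5) (nat_lit 449) (nat_lit 433) (nat_lit 258)) (XT.lf (nat_lit 76) (nat_lit 2811132021) (nat_lit 0) (nat_lit 2077252149) (nat_lit 1748) (nat_lit 9253283850) (nat_lit 388) (nat_lit 5) (nat_lit 387) (nat_lit 5) (nat_lit 410) (nat_lit 5) (nat_lit 450) (nat_lit 433) (nat_lit 257))) (XT.nd (nat_lit 78) (nat_lit 0) (nat_lit 0) (XT.lf (nat_lit 0) (nat_lit 5935661411) (nat_lit 1672) (nat_lit 4567009136) (nat_lit 1748) (nat_lit 3783919091) (nat_lit 388) (nat_lit 5) (nat_lit 410) (nat_lit 5) (nat_lit 411) (nat_lit 5) (nat_lit 451) (nat_lit 433) (nat_lit 256)) (XT.lf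 (nat_lit 76) (nat_lit 2342199132) (nat_lit 0) (nat_lit 4681958108) (nat_lit 1748) (nat_lit 7409853731) (nat_lit 389) (nat_lit 5) (nat_lit 388) (nat_lit 5) (nat_lit 411) (nat_lit 5) (nat_lit 452) (nat_lit 433) (nat_lit 255))))) (XT.nd (nat_lit 234) (nat_lit 1596) (nat_lit 0) (XT.nd (nat_lit 78) (nat_lit 0) (nat_lit 0) (XT.lf (nat_lit 0) (nat_lit 8164873161) (nat_lit 1672) (nat_lit 5147320520) (nat_lit 1748) (nat_lit 1271584655) (nat_lit 389) (nat_lit 5) (nat_lit 411) (nat_lit 5) (nat_lit 412) (nat_lit 5) (nat_lit 453) (nat_lit 433) (nat_lit 254)) (XT.nd (nat_lit 78) (nat_lit 0) (nat_lit 0) (XT.lf (nat_lit 76) (nat_lit 1923716557) (nat_lit 0) (nat_lit 7439801654) (nat_lit 1748) (nat_lit 5372327022) (nat_lit 390) (nat_lit 5) (nat_lit 389) (nat_lit 5) (nat_lit 412) (nat_lit 5) (nat_lit 454) (nat_lit 433) (nat_lit 253)) (XT.lf (nat_lit 76) (nat_lit 9199423260) (nat_lit 0) (nat_lit 1412994540) (nat_lit 1748) (nat_lit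 4278016388) (nat_lit 390) (nat_lit 5) (nat_lit 389) (nat_lit 5) (nat_lit 412) (nat_lit 5) (nat_lit 455) (nat_lit 433) (nat_lit 252)))) (XT.nd (nat_lit 156) (nat_lit 1672) (nat_lit 0) (XT.nd (nat_lit 78) (nat_lit 0) (nat_lit 0) (XT.lf (nat_lit 76) (nat_lit 1555617140) (nat_lit 0) (nat_lit 10363430276) (nat_lit 1748) (nat_lit 3128418695) (nat_lit 391) (nat_lit 5) (nat_lit 390) (nat_lit 5) (nat_lit 413) (nat_lit 5) (nat_lit 456) (nat_lit 433) (nat_lit 251)) (XT.lf (nat_lit 76) (nat_lit 9008306546) (nat_lit 0) (nat_lit 4283018326) (nat_lit 1748) (nat_lit 1915529602) (nat_lit 391) (nat_lit 5) (nat_lit 390) (nat_lit 5) (nat_lit 413) (nat_lit 5) (nat_lit 457) (nat_lit 433) (nat_lit 250))) (XT.nd (nat_lit 78) (nat_lit 76) (nat_lit 0) (XT.lf (nat_lit 0) (nat_lit 1237818134) (nat_lit 1672) (nat_lit 13465920903) (nat_lit 1748) (nat_lit 665443732) (nat_lit 369) (nat_lit 5) (nat_lit 391) (nat_lit 5) (nat_lit 392) (nat_lit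 5) (nat_lit 458) (nat_lit 433) (nat_lit 249)) (XT.lf (nat_lit 0) (nat_lit 664132478) (nat_lit 1748) (nat_lit 6666230567) (nat_lit 76) (nat_lit 8203071490) (nat_lit 368) (nat_lit 5) (nat_lit 391) (nat_lit 5) (nat_lit 369) (nat_lit 5) (nat_lit 459) (nat_lit 433) (nat_lit 248)))))) (XT.nd (nat_lit 546) (nat_lit 2432) (nat_lit 0) (XT.nd (nat_lit 234) (nat_lit 1672) (nat_lit 0) (XT.nd (nat_lit 78) (nat_lit 836) (nat_lit 0) (XT.lf (nat_lit 0) (nat_lit 949744282) (nat_lit 1292) (nat_lit 1060221188) (nat_lit 1368) (nat_lit 13690952026) (nat_lit 351) (nat_lit 5) (nat_lit 368) (nat_lit 5) (nat_lit 369) (nat_lit 5) (nat_lit 460) (nat_lit 433) (nat_lit 247)) (XT.nd (nat_lit 78) (nat_lit 836) (nat_lit 0) (XT.lf (nat_lit 0) (nat_lit 3454900253) (nat_lit 1368) (nat_lit 7104021250) (nat_lit 76) (nat_lit 5311390441) (nat_lit 351) (nat_lit 5) (nat_lit 369) (nat_lit 5) (nat_lit 352) (nat_lit 5) (nat_lit 461) (nat_lit 433) (nat_lit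 246)) (XT.lf (nat_lit 0) (nat_lit 691622942) (nat_lit 836) (nat_lit 4241283875) (nat_lit 912) (nat_lit 11110109425) (nat_lit 340) (nat_lit 5) (nat_lit 351) (nat_lit 5) (nat_lit 352) (nat_lit 5) (nat_lit 462) (nat_lit 433) (nat_lit 245)))) (XT.nd (nat_lit 156) (nat_lit 836) (nat_lit 0) (XT.nd (nat_lit 78) (nat_lit 836) (nat_lit 0) (XT.lf (nat_lit 0) (nat_lit 6495530683) (nat_lit 912) (nat_lit 7499974017) (nat_lit 76) (nat_lit 2222574100) (nat_lit 340) (nat_lit 5) (nat_lit 352) (nat_lit 5) (nat_lit 341) (nat_lit 5) (nat_lit 463) (nat_lit 433) (nat_lit 244)) (XT.lf (nat_lit 0) (nat_lit 480200673) (nat_lit 836) (nat_lit 7633322213) (nat_lit 912) (nat_lit 8282642618) (nat_lit 329) (nat_lit 5) (nat_lit 340) (nat_lit 5) (nat_lit 341) (nat_lit 5) (nat_lit 464) (nat_lit 433) (nat_lit 243))) (XT.nd (nat_lit 78) (nat_lit 836) (nat_lit 0) (XT.lf (nat_lit 0) (nat_lit 8715202706) (nat_lit 836) (nat_lit 1092008309) (nat_lit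 912) (nat_lit 6769741314) (nat_lit 329) (nat_lit 5) (nat_lit 340) (nat_lit 5) (nat_lit 341) (nat_lit 5) (nat_lit 465) (nat_lit 433) (nat_lit 242)) (XT.lf (nat_lit 0) (nat_lit 314991509) (nat_lit 836) (nat_lit 11251204388) (nat_lit 912) (nat_lit 5194535544) (nat_lit 318) (nat_lit 5) (nat_lit 329) (nat_lit 5) (nat_lit 330) (nat_lit 5) (nat_lit 466) (nat_lit 433) (nat_lit 241))))) (XT.nd (nat_lit 234) (nat_lit 1596) (nat_lit 0) (XT.nd (nat_lit 78) (nat_lit 836) (nat_lit 0) (XT.lf (nat_lit 0) (nat_lit 8748090466) (nat_lit 836) (nat_lit 4665451380) (nat_lit 912) (nat_lit 3533585573) (nat_lit 318) (nat_lit 5) (nat_lit 329) (nat_lit 5) (nat_lit 330) (nat_lit 5) (nat_lit 467) (nat_lit 433) (nat_lit 240)) (XT.nd (nat_lit 78) (nat_lit 0) (nat_lit 0) (XT.lf (nat_lit 0) (nat_lit 195409017) (nat_lit 836) (nat_lit 15110392819) (nat_lit 912) (nat_lit 1831294954) (nat_lit 307) (nat_lit 5) (nat_lit 318) (nat_lit 5) (nat_lit 319)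 (nat_lit 5) (nat_lit 468) (nat_lit 433) (nat_lit 239)) (XT.lf (nat_lit 0) (nat_lit 8831187849) (nat_lit 836) (nat_lit 8483896549) (nat_lit 912) (nat_lit 14202324) (nat_lit 307) (nat_lit 5) (nat_lit 318) (nat_lit 5) (nat_lit 319) (nat_lit 5) (nat_lit 469) (nat_lit 433) (nat_lit 238)))) (XT.nd (nat_lit 156) (nat_lit 760) (nat_lit 0) (XT.nd (nat_lit 78) (nat_lit 0) (nat_lit 0) (XT.lf (nat_lit 0) (nat_lit 97343377) (nat_lit 760) (nat_lit 1711943853) (nat_lit 836) (nat_lit 15715915390) (nat_lit 296) (nat_lit 5) (nat_lit 306) (nat_lit 5) (nat_lit 307) (nat_lit 5) (nat_lit 470) (nat_lit 433) (nat_lit 237)) (XT.lf (nat_lit 0) (nat_lit 3753824137) (nat_lit 836) (nat_lit 8784655870) (nat_lit 76) (nat_lit 5184864046) (nat_lit 296) (nat_lit 5) (nat_lit 307) (nat_lit 5) (nat_lit 297) (nat_lit 5) (nat_lit 471) (nat_lit 433) (nat_lit 236))) (XT.nd (nat_lit 78) (nat_lit 0) (nat_lit 0) (XT.lf (nat_lit 0) (nat_lit 13939363) (nat_lit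 760) (nat_lit 5728496063) (nat_lit 836) (nat_lit 12182913577) (nat_lit 286) (nat_lit 5) (nat_lit 296) (nat_lit 5) (nat_lit 297) (nat_lit 5) (nat_lit 472) (nat_lit 433) (nat_lit 235)) (XT.lf (nat_lit 0) (nat_lit 7831901753) (nat_lit 836) (nat_lit 9037329537) (nat_lit 76) (nat_lit 1260945381) (nat_lit 286) (nat_lit 5) (nat_lit 297) (nat_lit 5) (nat_lit 287) (nat_lit 5) (nat_lit 473) (nat_lit 433) (nat_lit 234))))))) (XT.nd (nat_lit 1092) (nat_lit 3876) (nat_lit 0) (XT.nd (nat_lit 546) (nat_lit 2584) (nat_lit 0) (XT.nd (nat_lit 234) (nat_lit 1520) (nat_lit 0) (XT.nd (nat_lit 78) (nat_lit 684) (nat_lit 0) (XT.lf (nat_lit 0) (nat_lit 9995052030) (nat_lit 836) (nat_lit 29982218) (nat_lit 76) (nat_lit 8313432944) (nat_lit 286) (nat_lit 5) (nat_lit 297) (nat_lit 5) (nat_lit 287) (nat_lit 5) (nat_lit 474) (nat_lit 433) (nat_lit 233)) (XT.nd (nat_lit 78) (nat_lit 0) (nat_lit 0) (XT.lf (nat_lit 0) (nat_lit 9272974534) (nat_lit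 684) (nat_lit 2982773123) (nat_lit 760) (nat_lit 6294094330) (nat_lit 277) (nat_lit 5) (nat_lit 286) (nat_lit 5) (nat_lit 287) (nat_lit 5) (nat_lit 475) (nat_lit 433) (nat_lit 232)) (XT.lf (nat_lit 0) (nat_lit 14583281852) (nat_lit 760) (nat_lit 36549100) (nat_lit 76) (nat_lit 4145184861) (nat_lit 277) (nat_lit 5) (nat_lit 287) (nat_lit 5) (nat_lit 278) (nat_lit 5) (nat_lit 476) (nat_lit 433) (nat_lit 231)))) (XT.nd (nat_lit 156) (nat_lit 684) (nat_lit 0) (XT.nd (nat_lit 78) (nat_lit 76) (nat_lit 0) (XT.lf (nat_lit 0) (nat_lit 9487136874) (nat_lit 760) (nat_lit 7545845572) (nat_lit 836) (nat_lit 1950002305) (nat_lit 267) (nat_lit 5) (nat_lit 277) (nat_lit 5) (nat_lit 278) (nat_lit 5) (nat_lit 477) (nat_lit 433) (nat_lit 230)) (XT.lf (nat_lit 0) (nat_lit 316627728) (nat_lit 836) (nat_lit 11786927) (nat_lit 76) (nat_lit 18876968950) (nat_lit 266) (nat_lit 5) (nat_lit 277) (nat_lit 5) (nat_lit 267) (nat_lit 5) (nat_lit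 478) (nat_lit 433) (nat_lit 229))) (XT.nd (nat_lit 78) (nat_lit 0) (nat_lit 0) (XT.lf (nat_lit 0) (nat_lit 2706522188) (nat_lit 760) (nat_lit 9705824673) (nat_lit 76) (nat_lit 7017548659) (nat_lit 257) (nat_lit 5) (nat_lit 267) (nat_lit 5) (nat_lit 258) (nat_lit 5) (nat_lit 479) (nat_lit 433) (nat_lit 228)) (XT.lf (nat_lit 0) (nat_lit 5140945777) (nat_lit 760) (nat_lit 12366908) (nat_lit 76) (nat_lit 14505654013) (nat_lit 257) (nat_lit 5) (nat_lit 267) (nat_lit 5) (nat_lit 258) (nat_lit 5) (nat_lit 480) (nat_lit 433) (nat_lit 227))))) (XT.nd (nat_lit 234) (nat_lit 1292) (nat_lit 0) (XT.nd (nat_lit 78) (nat_lit 608) (nat_lit 0) (XT.lf (nat_lit 0) (nat_lit 7698610973) (nat_lit 760) (nat_lit 9906341030) (nat_lit 76) (nat_lit 2286179812) (nat_lit 248) (nat_lit 5) (nat_lit 258) (nat_lit 5) (nat_lit 249) (nat_lit 5) (nat_lit 481) (nat_lit 433) (nat_lit 226)) (XT.nd (nat_lit 78) (nat_lit 0) (nat_lit 0) (XT.lf (nat_lit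 0) (nat_lit 14129017) (nat_lit 608) (nat_lit 10322252351) (nat_lit 684) (nat_lit 9790983335) (nat_lit 240) (nat_lit 5) (nat_lit 248) (nat_lit 5) (nat_lit 249) (nat_lit 5) (nat_lit 482) (nat_lit 433) (nat_lit 225)) (XT.lf (nat_lit 0) (nat_lit 10261282785) (nat_lit 608) (nat_lit 2826815788) (nat_lit 684) (nat_lit 7279003287) (nat_lit 240) (nat_lit 5) (nat_lit 248) (nat_lit 5) (nat_lit 249) (nat_lit 5) (nat_lit 483) (nat_lit 433) (nat_lit 224)))) (XT.nd (nat_lit 156) (nat_lit 684) (nat_lit 0) (XT.nd (nat_lit 78) (nat_lit 0) (nat_lit 0) (XT.lf (nat_lit 0) (nat_lit 65324191) (nat_lit 608) (nat_lit 15856048818) (nat_lit 684) (nat_lit 4689733665) (nat_lit 232) (nat_lit 5) (nat_lit 240) (nat_lit 5) (nat_lit 241) (nat_lit 5) (nat_lit 484) (nat_lit 433) (nat_lit 223)) (XT.lf (nat_lit 0) (nat_lit 10551954046) (nat_lit 608) (nat_lit 8340648431) (nat_lit 684) (nat_lit 1965766623) (nat_lit 232) (nat_lit 5) (nat_lit 240) (nat_lit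 5) (nat_lit 241) (nat_lit 5) (nat_lit 485) (nat_lit 433) (nat_lit 222))) (XT.nd (nat_lit 78) (nat_lit 0) (nat_lit 0) (XT.lf (nat_lit 0) (nat_lit 128237563) (nat_lit 608) (nat_lit 669557058) (nat_lit 684) (nat_lit 20312764333) (nat_lit 223) (nat_lit 5) (nat_lit 231) (nat_lit 5) (nat_lit 232) (nat_lit 5) (nat_lit 486) (nat_lit 433) (nat_lit 221)) (XT.lf (nat_lit 0) (nat_lit 3701400442) (nat_lit 684) (nat_lit 10521017167) (nat_lit 76) (nat_lit 7142896338) (nat_lit 223) (nat_lit 5) (nat_lit 232) (nat_lit 5) (nat_lit 224) (nat_lit 5) (nat_lit 487) (nat_lit 433) (nat_lit 220)))))) (XT.nd (nat_lit 546) (nat_lit 1596) (nat_lit 0) (XT.nd (nat_lit 234) (nat_lit 1140) (nat_lit 0) (XT.nd (nat_lit 78) (nat_lit 532) (nat_lit 0) (XT.lf (nat_lit 0) (nat_lit 141080138) (nat_lit 608) (nat_lit 6522442640) (nat_lit 684) (nat_lit 14961635428) (nat_lit 215) (nat_lit 5) (nat_lit 223) (nat_lit 5) (nat_lit 224) (nat_lit 5) (nat_lit 488)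 (nat_lit 433) (nat_lit 219)) (XT.nd (nat_lit 78) (nat_lit 532) (nat_lit 0) (XT.lf (nat_lit 0) (nat_lit 9759748343) (nat_lit 684) (nat_lit 10744769865) (nat_lit 76) (nat_lit 1384186919) (nat_lit 215) (nat_lit 5) (nat_lit 224) (nat_lit 5) (nat_lit 216) (nat_lit 5) (nat_lit 489) (nat_lit 433) (nat_lit 218)) (XT.lf (nat_lit 0) (nat_lit 162471791) (nat_lit 532) (nat_lit 12794918125) (nat_lit 608) (nat_lit 9199346177) (nat_lit 208) (nat_lit 5) (nat_lit 215) (nat_lit 5) (nat_lit 216) (nat_lit 5) (nat_lit 490) (nat_lit 433) (nat_lit 217)))) (XT.nd (nat_lit 156) (nat_lit 608) (nat_lit 0) (XT.nd (nat_lit 78) (nat_lit 532) (nat_lit 0) (XT.lf (nat_lit 0) (nat_lit 11427755973) (nat_lit 532) (nat_lit 4858629012) (nat_lit 608) (nat_lit 6142397556) (nat_lit 208) (nat_lit 5) (nat_lit 215) (nat_lit 5) (nat_lit 216) (nat_lit 5) (nat_lit 491) (nat_lit 433) (nat_lit 216)) (XT.lf (nat_lit 0) (nat_lit 187800097) (nat_lit 532) (nat_lit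 19511775080) (nat_lit 608) (nat_lit 3006345258) (nat_lit 201) (nat_lit 5) (nat_lit 208) (nat_lit 5) (nat_lit 209) (nat_lit 5) (nat_lit 492) (nat_lit 433) (nat_lit 215))) (XT.nd (nat_lit 78) (nat_lit 532) (nat_lit 0) (XT.lf (nat_lit 0) (nat_lit 291796058) (nat_lit 608) (nat_lit 11277266351) (nat_lit 76) (nat_lit 11417478569) (nat_lit 200) (nat_lit 5) (nat_lit 208) (nat_lit 5) (nat_lit 201) (nat_lit 5) (nat_lit 493) (nat_lit 433) (nat_lit 214)) (XT.lf (nat_lit 0) (nat_lit 165019989) (nat_lit 532) (nat_lit 3447228198) (nat_lit 608) (nat_lit 19660198904) (nat_lit 193) (nat_lit 5) (nat_lit 200) (nat_lit 5) (nat_lit 201) (nat_lit 5) (nat_lit 494) (nat_lit 433) (nat_lit 213))))) (XT.nd (nat_lit 234) (nat_lit 1064) (nat_lit 0) (XT.nd (nat_lit 78) (nat_lit 532) (nat_lit 0) (XT.lf (nat_lit 0) (nat_lit 7102230638) (nat_lit 608) (nat_lit 11611132441) (nat_lit 76) (nat_lit 4848648428) (nat_lit 193) (nat_lit 5) (nat_lit 201)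 (nat_lit 5) (nat_lit 194) (nat_lit 5) (nat_lit 495) (nat_lit 433) (nat_lit 212)) (XT.nd (nat_lit 78) (nat_lit 0) (nat_lit 0) (XT.lf (nat_lit 0) (nat_lit 87835714) (nat_lit 532) (nat_lit 10593202546) (nat_lit 608) (nat_lit 13175950996) (nat_lit 186) (nat_lit 5) (nat_lit 193) (nat_lit 5) (nat_lit 194) (nat_lit 5) (nat_lit 496) (nat_lit 433) (nat_lit 211)) (XT.lf (nat_lit 0) (nat_lit 12172636814) (nat_lit 532) (nat_lit 2232377748) (nat_lit 608) (nat_lit 9751382653) (nat_lit 186) (nat_lit 5) (nat_lit 193) (nat_lit 5) (nat_lit 194) (nat_lit 5) (nat_lit 497) (nat_lit 433) (nat_lit 210)))) (XT.nd (nat_lit 156) (nat_lit 608) (nat_lit 0) (XT.nd (nat_lit 78) (nat_lit 456) (nat_lit 0) (XT.lf (nat_lit 0) (nat_lit 18240098792) (nat_lit 608) (nat_lit 9044318) (nat_lit 76) (nat_lit 6211920110) (nat_lit 186) (nat_lit 5) (nat_lit 194) (nat_lit 5) (nat_lit 187) (nat_lit 5) (nat_lit 498) (nat_lit 433) (nat_lit 209)) (XT.lf (nat_lit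 0) (nat_lit 12346912837) (nat_lit 456) (nat_lit 9895756233) (nat_lit 532) (nat_lit 2527340196) (nat_lit 180) (nat_lit 5) (nat_lit 186) (nat_lit 5) (nat_lit 187) (nat_lit 5) (nat_lit 499) (nat_lit 433) (nat_lit 208))) (XT.nd (nat_lit 78) (nat_lit 532) (nat_lit 0) (XT.lf (nat_lit 0) (nat_lit 1219806009) (nat_lit 532) (nat_lit 148496765) (nat_lit 76) (nat_lit 23716754448) (nat_lit 179) (nat_lit 5) (nat_lit 186) (nat_lit 5) (nat_lit 180) (nat_lit 5) (nat_lit 500) (nat_lit 433) (nat_lit 207)) (XT.lf (nat_lit 0) (nat_lit 5133497295) (nat_lit 608) (nat_lit 12939100465) (nat_lit 76) (nat_lit 7330967666) (nat_lit 172) (nat_lit 5) (nat_lit 180) (nat_lit 5) (nat_lit 173) (nat_lit 5) (nat_lit 501) (nat_lit 433) (nat_lit 206))))))))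
noncomputable def xc214 : XT := (XT.nd (nat_lit 54990) (nat_lit 0) (nat_lit 12236) (XT.nd (nat_lit 1092) (nat_lit 380) (nat_lit 0) (XT.nd (nat_lit 546) (nat_lit 1748) (nat_lit 0) (XT.nd (nat_lit 234) (nat_lit 988) (nat_lit 0) (XT.nd (nat_lit 78) (nat_lit 456) (nat_lit 0) (XT.lf (nat_lit 0) (nat_lit 9131498913) (nat_lit 608) (nat_lit 411149511) (nat_lit 76) (nat_lit 16185676866) (nat_lit 172) (nat_lit 5) (nat_lit 180) (nat_lit 5) (nat_lit 173) (nat_lit 5) (nat_lit 502) (nat_lit 433) (nat_lit 205)) (XT.nd (nat_lit 78) (nat_lit 0) (nat_lit 0) (XT.lf (nat_lit 0) (nat_lit 12526395136) (nat_lit 456) (nat_lit 760445883) (nat_lit 532) (nat_lit 12771193902) (nat_lit 166) (nat_lit 5) (nat_lit 172) (nat_lit 5) (nat_lit 173) (nat_lit 5) (nat_lit 503) (nat_lit 433) (nat_lit 204)) (XT.lf (nat_lit 0) (nat_lit 17577376077) (nat_lit 532) (nat_lit 724549325) (nat_lit 76) (nat_lit 8091373760) (nat_lit 166) (nat_lit 5) (nat_lit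 173) (nat_lit 5) (nat_lit 167) (nat_lit 5) (nat_lit 504) (nat_lit 433) (nat_lit 203)))) (XT.nd (nat_lit 156) (nat_lit 532) (nat_lit 0) (XT.nd (nat_lit 78) (nat_lit 0) (nat_lit 0) (XT.lf (nat_lit 0) (nat_lit 12492300907) (nat_lit 456) (nat_lit 9543727889) (nat_lit 532) (nat_lit 4697595848) (nat_lit 160) (nat_lit 5) (nat_lit 166) (nat_lit 5) (nat_lit 167) (nat_lit 5) (nat_lit 505) (nat_lit 433) (nat_lit 202)) (XT.lf (nat_lit 0) (nat_lit 25978158964) (nat_lit 456) (nat_lit 606762107) (nat_lit 532) (nat_lit 495816289) (nat_lit 160) (nat_lit 5) (nat_lit 166) (nat_lit 5) (nat_lit 167) (nat_lit 5) (nat_lit 506) (nat_lit 433) (nat_lit 201))) (XT.nd (nat_lit 78) (nat_lit 0) (nat_lit 0) (XT.lf (nat_lit 0) (nat_lit 3873197605) (nat_lit 532) (nat_lit 15056412289) (nat_lit 76) (nat_lit 8502034162) (nat_lit 153) (nat_lit 5) (nat_lit 160) (nat_lit 5) (nat_lit 154) (nat_lit 5) (nat_lit 507) (nat_lit 433) (nat_lit 200)) (XT.lf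 (nat_lit 0) (nat_lit 8330709110) (nat_lit 532) (nat_lit 1664362987) (nat_lit 76) (nat_lit 17794278054) (nat_lit 153) (nat_lit 5) (nat_lit 160) (nat_lit 5) (nat_lit 154) (nat_lit 5) (nat_lit 508) (nat_lit 433) (nat_lit 199))))) (XT.nd (nat_lit 234) (nat_lit 912) (nat_lit 0) (XT.nd (nat_lit 78) (nat_lit 380) (nat_lit 0) (XT.lf (nat_lit 0) (nat_lit 12149840219) (nat_lit 456) (nat_lit 802772246) (nat_lit 532) (nat_lit 15200094967) (nat_lit 147) (nat_lit 5) (nat_lit 153) (nat_lit 5) (nat_lit 154) (nat_lit 5) (nat_lit 509) (nat_lit 433) (nat_lit 198)) (XT.nd (nat_lit 78) (nat_lit 380) (nat_lit 0) (XT.lf (nat_lit 0) (nat_lit 17730247325) (nat_lit 532) (nat_lit 2321024286) (nat_lit 76) (nat_lit 8470796242) (nat_lit 147) (nat_lit 5) (nat_lit 154) (nat_lit 5) (nat_lit 148) (nat_lit 5) (nat_lit 510) (nat_lit 433) (nat_lit 197)) (XT.lf (nat_lit 0) (nat_lit 11778651420) (nat_lit 380) (nat_lit 10903032191) (nat_lit 456) (nat_lit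 6215568720) (nat_lit 142) (nat_lit 5) (nat_lit 147) (nat_lit 5) (nat_lit 148) (nat_lit 5) (nat_lit 511) (nat_lit 433) (nat_lit 196)))) (XT.nd (nat_lit 156) (nat_lit 380) (nat_lit 0) (XT.nd (nat_lit 78) (nat_lit 532) (nat_lit 0) (XT.lf (nat_lit 0) (nat_lit 26186848573) (nat_lit 380) (nat_lit 1557370310) (nat_lit 456) (nat_lit 1535482000) (nat_lit 142) (nat_lit 5) (nat_lit 147) (nat_lit 5) (nat_lit 148) (nat_lit 5) (nat_lit 512) (nat_lit 433) (nat_lit 195)) (XT.lf (nat_lit 0) (nat_lit 3318275718) (nat_lit 532) (nat_lit 18384196989) (nat_lit 76) (nat_lit 7964456149) (nat_lit 135) (nat_lit 5) (nat_lit 142) (nat_lit 5) (nat_lit 136) (nat_lit 5) (nat_lit 513) (nat_lit 433) (nat_lit 194))) (XT.nd (nat_lit 78) (nat_lit 380) (nat_lit 0) (XT.lf (nat_lit 0) (nat_lit 8276339810) (nat_lit 532) (nat_lit 4099267938) (nat_lit 76) (nat_lit 17685536508) (nat_lit 135) (nat_lit 5) (nat_lit 142) (nat_lit 5) (nat_lit 136) (nat_lit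 5) (nat_lit 514) (nat_lit 433) (nat_lit 193)) (XT.lf (nat_lit 0) (nat_lit 10605636993) (nat_lit 380) (nat_lit 2793420626) (nat_lit 456) (nat_lit 17062878150) (nat_lit 130) (nat_lit 5) (nat_lit 135) (nat_lit 5) (nat_lit 136) (nat_lit 5) (nat_lit 515) (nat_lit 433) (nat_lit 192)))))) (XT.nd (nat_lit 53352) (nat_lit 0) (nat_lit 19760) (XT.nd (nat_lit 53040) (nat_lit 0) (nat_lit 21128) (XT.nd (nat_lit 78) (nat_lit 380) (nat_lit 0) (XT.lf (nat_lit 0) (nat_lit 18693900756) (nat_lit 456) (nat_lit 5260334542) (nat_lit 76) (nat_lit 6915116015) (nat_lit 130) (nat_lit 5) (nat_lit 136) (nat_lit 5) (nat_lit 131) (nat_lit 5) (nat_lit 516) (nat_lit 433) (nat_lit 191)) (XT.nd (nat_lit 52884) (nat_lit 0) (nat_lit 21128) (XT.lf (nat_lit 0) (nat_lit 9731935937) (nat_lit 380) (nat_lit 14441115081) (nat_lit 456) (nat_lit 7110297533) (nat_lit 125) (nat_lit 5) (nat_lit 130) (nat_lit 5) (nat_lit 131) (nat_lit 5) (nat_lit 517) (nat_lit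 433) (nat_lit 190)) (XT.lf (nat_lit 0) (nat_lit 1592396620) (nat_lit 0) (nat_lit 1592396620) (nat_lit 1596) (nat_lit 2925881314) (nat_lit 403) (nat_lit 5) (nat_lit 403) (nat_lit 3) (nat_lit 424) (nat_lit 3) (nat_lit 434) (nat_lit 434) (nat_lit 272)))) (XT.nd (nat_lit 156) (nat_lit 0) (nat_lit 0) (XT.nd (nat_lit 78) (nat_lit 0) (nat_lit 0) (XT.lf (nat_lit 0) (nat_lit 6883201340) (nat_lit 1596) (nat_lit 3486190753) (nat_lit 1672) (nat_lit 1964819261) (nat_lit 403) (nat_lit 5) (nat_lit 424) (nat_lit 3) (nat_lit 425) (nat_lit 5) (nat_lit 435) (nat_lit 434) (nat_lit 271)) (XT.lf (nat_lit 76) (nat_lit 2176630265) (nat_lit 0) (nat_lit 5254256441) (nat_lit 1672) (nat_lit 5017977428) (nat_lit 404) (nat_lit 5) (nat_lit 403) (nat_lit 5) (nat_lit 425) (nat_lit 5) (nat_lit 436) (nat_lit 434) (nat_lit 270))) (XT.nd (nat_lit 78) (nat_lit 0) (nat_lit 76) (XT.lf (nat_lit 76) (nat_lit 7993996504) (nat_lit 0) (nat_lit 7683470)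 (nat_lit 1672) (nat_lit 4563895985) (nat_lit 404) (nat_lit 5) (nat_lit 403) (nat_lit 5) (nat_lit 425) (nat_lit 5) (nat_lit 437) (nat_lit 434) (nat_lit 269)) (XT.lf (nat_lit 76) (nat_lit 1218256799) (nat_lit 0) (nat_lit 7397251643) (nat_lit 1672) (nat_lit 4068490089) (nat_lit 405) (nat_lit 5) (nat_lit 404) (nat_lit 5) (nat_lit 426) (nat_lit 5) (nat_lit 438) (nat_lit 434) (nat_lit 268))))) (XT.nd (nat_lit 234) (nat_lit 1444) (nat_lit 0) (XT.nd (nat_lit 78) (nat_lit 0) (nat_lit 76) (XT.lf (nat_lit 76) (nat_lit 7179734126) (nat_lit 0) (nat_lit 2081797561) (nat_lit 1672) (nat_lit 3542868225) (nat_lit 405) (nat_lit 5) (nat_lit 404) (nat_lit 5) (nat_lit 426) (nat_lit 5) (nat_lit 439) (nat_lit 434) (nat_lit 267)) (XT.nd (nat_lit 78) (nat_lit 0) (nat_lit 0) (XT.lf (nat_lit 76) (nat_lit 309399596) (nat_lit 0) (nat_lit 9624201970) (nat_lit 1672) (nat_lit 2993353782) (nat_lit 406) (nat_lit 5) (nat_lit 405) (nat_lit 5) (nat_lit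 427) (nat_lit 5) (nat_lit 440) (nat_lit 434) (nat_lit 266)) (XT.lf (nat_lit 76) (nat_lit 6418256335) (nat_lit 0) (nat_lit 4241896276) (nat_lit 1672) (nat_lit 2390996871) (nat_lit 406) (nat_lit 5) (nat_lit 405) (nat_lit 5) (nat_lit 427) (nat_lit 5) (nat_lit 441) (nat_lit 434) (nat_lit 265)))) (XT.nd (nat_lit 156) (nat_lit 1596) (nat_lit 0) (XT.nd (nat_lit 78) (nat_lit 0) (nat_lit 0) (XT.lf (nat_lit 0) (nat_lit 11399168050) (nat_lit 1596) (nat_lit 542922581) (nat_lit 1672) (nat_lit 1235786417) (nat_lit 406) (nat_lit 5) (nat_lit 427) (nat_lit 5) (nat_lit 428) (nat_lit 5) (nat_lit 442) (nat_lit 434) (nat_lit 264)) (XT.lf (nat_lit 76) (nat_lit 5709477281) (nat_lit 0) (nat_lit 6498677836) (nat_lit 1672) (nat_lit 1097888281) (nat_lit 407) (nat_lit 5) (nat_lit 406) (nat_lit 5) (nat_lit 428) (nat_lit 5) (nat_lit 443) (nat_lit 434) (nat_lit 263))) (XT.nd (nat_lit 78) (nat_lit 1596) (nat_lit 0) (XT.lf (nat_lit 76) (nat_lit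 12088166211) (nat_lit 0) (nat_lit 938984363) (nat_lit 1672) (nat_lit 409753828) (nat_lit 407) (nat_lit 5) (nat_lit 406) (nat_lit 5) (nat_lit 428) (nat_lit 5) (nat_lit 444) (nat_lit 434) (nat_lit 262)) (XT.lf (nat_lit 0) (nat_lit 342595191) (nat_lit 1672) (nat_lit 8518188153) (nat_lit 1748) (nat_lit 4708483271) (nat_lit 385) (nat_lit 5) (nat_lit 407) (nat_lit 5) (nat_lit 408) (nat_lit 5) (nat_lit 445) (nat_lit 434) (nat_lit 261))))))) (XT.nd (nat_lit 1092) (nat_lit 6308) (nat_lit 0) (XT.nd (nat_lit 546) (nat_lit 1216) (nat_lit 0) (XT.nd (nat_lit 234) (nat_lit 0) (nat_lit 152) (XT.nd (nat_lit 78) (nat_lit 0) (nat_lit 76) (XT.lf (nat_lit 0) (nat_lit 1110318157) (nat_lit 1672) (nat_lit 2122228258) (nat_lit 1748) (nat_lit 10471566661) (nat_lit 385) (nat_lit 5) (nat_lit 407) (nat_lit 5) (nat_lit 408) (nat_lit 5) (nat_lit 446) (nat_lit 434) (nat_lit 260)) (XT.nd (nat_lit 78) (nat_lit 0) (nat_lit 0) (XT.lf (nat_lit 0)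 (nat_lit 1929476248) (nat_lit 1672) (nat_lit 9403896429) (nat_lit 1748) (nat_lit 2507569474) (nat_lit 386) (nat_lit 5) (nat_lit 408) (nat_lit 5) (nat_lit 409) (nat_lit 5) (nat_lit 447) (nat_lit 434) (nat_lit 259)) (XT.lf (nat_lit 0) (nat_lit 2791589500) (nat_lit 1672) (nat_lit 2851813667) (nat_lit 1748) (nat_lit 8336580356) (nat_lit 386) (nat_lit 5) (nat_lit 408) (nat_lit 5) (nat_lit 409) (nat_lit 5) (nat_lit 448) (nat_lit 434) (nat_lit 258)))) (XT.nd (nat_lit 156) (nat_lit 0) (nat_lit 0) (XT.nd (nat_lit 78) (nat_lit 0) (nat_lit 0) (XT.lf (nat_lit 0) (nat_lit 3688344373) (nat_lit 1672) (nat_lit 10246807627) (nat_lit 1748) (nat_lit 186312749) (nat_lit 387) (nat_lit 5) (nat_lit 409) (nat_lit 5) (nat_lit 410) (nat_lit 5) (nat_lit 449) (nat_lit 434) (nat_lit 257)) (XT.lf (nat_lit 0) (nat_lit 4650833777) (nat_lit 1672) (nat_lit 3534975525) (nat_lit 1748) (nat_lit 6079017186) (nat_lit 387) (nat_lit 5) (nat_lit 409)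 (nat_lit 5) (nat_lit 410) (nat_lit 5) (nat_lit 450) (nat_lit 434) (nat_lit 256))) (XT.nd (nat_lit 78) (nat_lit 0) (nat_lit 76) (XT.lf (nat_lit 76) (nat_lit 3348741174) (nat_lit 0) (nat_lit 2296909335) (nat_lit 1748) (nat_lit 8765150146) (nat_lit 388) (nat_lit 5) (nat_lit 387) (nat_lit 5) (nat_lit 410) (nat_lit 5) (nat_lit 451) (nat_lit 434) (nat_lit 255)) (XT.lf (nat_lit 0) (nat_lit 6699808201) (nat_lit 1672) (nat_lit 4171835926) (nat_lit 1748) (nat_lit 3687267894) (nat_lit 388) (nat_lit 5) (nat_lit 410) (nat_lit 5) (nat_lit 411) (nat_lit 5) (nat_lit 452) (nat_lit 434) (nat_lit 254))))) (XT.nd (nat_lit 234) (nat_lit 1444) (nat_lit 0) (XT.nd (nat_lit 78) (nat_lit 0) (nat_lit 76) (XT.lf (nat_lit 76) (nat_lit 2872355762) (nat_lit 0) (nat_lit 4928200612) (nat_lit 1748) (nat_lit 6908925577) (nat_lit 389) (nat_lit 5) (nat_lit 388) (nat_lit 5) (nat_lit 411) (nat_lit 5) (nat_lit 453) (nat_lit 434) (nat_lit 253)) (XT.nd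 (nat_lit 78) (nat_lit 0) (nat_lit 0) (XT.lf (nat_lit 0) (nat_lit 8950646297) (nat_lit 1672) (nat_lit 4762509393) (nat_lit 1748) (nat_lit 1149367405) (nat_lit 389) (nat_lit 5) (nat_lit 411) (nat_lit 5) (nat_lit 412) (nat_lit 5) (nat_lit 454) (nat_lit 434) (nat_lit 252)) (XT.lf (nat_lit 76) (nat_lit 2446739495) (nat_lit 0) (nat_lit 7717465359) (nat_lit 1748) (nat_lit 4853617101) (nat_lit 390) (nat_lit 5) (nat_lit 389) (nat_lit 5) (nat_lit 412) (nat_lit 5) (nat_lit 455) (nat_lit 434) (nat_lit 251)))) (XT.nd (nat_lit 156) (nat_lit 1520) (nat_lit 0) (XT.nd (nat_lit 78) (nat_lit 0) (nat_lit 76) (XT.lf (nat_lit 76) (nat_lit 9858459379) (nat_lit 0) (nat_lit 1567595285) (nat_lit 1748) (nat_lit 3749697833) (nat_lit 390) (nat_lit 5) (nat_lit 389) (nat_lit 5) (nat_lit 412) (nat_lit 5) (nat_lit 456) (nat_lit 434) (nat_lit 250)) (XT.lf (nat_lit 76) (nat_lit 2071874916) (nat_lit 0) (nat_lit 10677495706) (nat_lit 1748) (nat_lit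 2586752432) (nat_lit 391) (nat_lit 5) (nat_lit 390) (nat_lit 5) (nat_lit 413) (nat_lit 5) (nat_lit 457) (nat_lit 434) (nat_lit 249))) (XT.nd (nat_lit 78) (nat_lit 1596) (nat_lit 0) (XT.lf (nat_lit 76) (nat_lit 9664105455) (nat_lit 0) (nat_lit 4473381462) (nat_lit 1748) (nat_lit 1361453295) (nat_lit 391) (nat_lit 5) (nat_lit 390) (nat_lit 5) (nat_lit 413) (nat_lit 5) (nat_lit 458) (nat_lit 434) (nat_lit 248)) (XT.lf (nat_lit 0) (nat_lit 1747725506) (nat_lit 1672) (nat_lit 13821528182) (nat_lit 1748) (nat_lit 95448016) (nat_lit 369) (nat_lit 5) (nat_lit 391) (nat_lit 5) (nat_lit 392) (nat_lit 5) (nat_lit 459) (nat_lit 434) (nat_lit 247)))))) (XT.nd (nat_lit 546) (nat_lit 3268) (nat_lit 0) (XT.nd (nat_lit 234) (nat_lit 1672) (nat_lit 0) (XT.nd (nat_lit 78) (nat_lit 1292) (nat_lit 0) (XT.lf (nat_lit 0) (nat_lit 1241782232) (nat_lit 1748) (nat_lit 6315997796) (nat_lit 76) (nat_lit 8274616861) (nat_lit 368) (nat_lit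 5) (nat_lit 391) (nat_lit 5) (nat_lit 369) (nat_lit 5) (nat_lit 460) (nat_lit 434) (nat_lit 246)) (XT.nd (nat_lit 78) (nat_lit 0) (nat_lit 0) (XT.lf (nat_lit 0) (nat_lit 1449115251) (nat_lit 1292) (nat_lit 1157469531) (nat_lit 1368) (nat_lit 13396811884) (nat_lit 351) (nat_lit 5) (nat_lit 368) (nat_lit 5) (nat_lit 369) (nat_lit 5) (nat_lit 461) (nat_lit 434) (nat_lit 245)) (XT.lf (nat_lit 0) (nat_lit 4069024018) (nat_lit 1368) (nat_lit 6763347763) (nat_lit 76) (nat_lit 5344043162) (nat_lit 351) (nat_lit 5) (nat_lit 369) (nat_lit 5) (nat_lit 352) (nat_lit 5) (nat_lit 462) (nat_lit 434) (nat_lit 244)))) (XT.nd (nat_lit 156) (nat_lit 836) (nat_lit 0) (XT.nd (nat_lit 78) (nat_lit 0) (nat_lit 0) (XT.lf (nat_lit 0) (nat_lit 1185033301) (nat_lit 836) (nat_lit 4383984371) (nat_lit 912) (nat_lit 10783715013) (nat_lit 340) (nat_lit 5) (nat_lit 351) (nat_lit 5) (nat_lit 352) (nat_lit 5) (nat_lit 463) (nat_lit 434) (nat_lit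 243)) (XT.lf (nat_lit 0) (nat_lit 7151987332) (nat_lit 912) (nat_lit 7168505317) (nat_lit 76) (nat_lit 2211029720) (nat_lit 340) (nat_lit 5) (nat_lit 352) (nat_lit 5) (nat_lit 341) (nat_lit 5) (nat_lit 464) (nat_lit 434) (nat_lit 242))) (XT.nd (nat_lit 78) (nat_lit 0) (nat_lit 0) (XT.lf (nat_lit 0) (nat_lit 968105314) (nat_lit 836) (nat_lit 7827015078) (nat_lit 912) (nat_lit 7918202384) (nat_lit 329) (nat_lit 5) (nat_lit 340) (nat_lit 5) (nat_lit 341) (nat_lit 5) (nat_lit 465) (nat_lit 434) (nat_lit 241)) (XT.lf (nat_lit 0) (nat_lit 9358428944) (nat_lit 836) (nat_lit 1154070457) (nat_lit 912) (nat_lit 6385437036) (nat_lit 329) (nat_lit 5) (nat_lit 340) (nat_lit 5) (nat_lit 341) (nat_lit 5) (nat_lit 466) (nat_lit 434) (nat_lit 240))))) (XT.nd (nat_lit 234) (nat_lit 1596) (nat_lit 0) (XT.nd (nat_lit 78) (nat_lit 836) (nat_lit 0) (XT.lf (nat_lit 0) (nat_lit 797873437) (nat_lit 836) (nat_lit 11501645584) (nat_lit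 912) (nat_lit 4786022304) (nat_lit 318) (nat_lit 5) (nat_lit 329) (nat_lit 5) (nat_lit 330) (nat_lit 5) (nat_lit 467) (nat_lit 434) (nat_lit 239)) (XT.nd (nat_lit 78) (nat_lit 836) (nat_lit 0) (XT.lf (nat_lit 0) (nat_lit 9390289627) (nat_lit 836) (nat_lit 4783679141) (nat_lit 912) (nat_lit 3101900470) (nat_lit 318) (nat_lit 5) (nat_lit 329) (nat_lit 5) (nat_lit 330) (nat_lit 5) (nat_lit 468) (nat_lit 434) (nat_lit 238)) (XT.lf (nat_lit 0) (nat_lit 673774963) (nat_lit 836) (nat_lit 15423570753) (nat_lit 912) (nat_lit 1372433857) (nat_lit 307) (nat_lit 5) (nat_lit 318) (nat_lit 5) (nat_lit 319) (nat_lit 5) (nat_lit 469) (nat_lit 434) (nat_lit 237)))) (XT.nd (nat_lit 156) (nat_lit 760) (nat_lit 0) (XT.nd (nat_lit 78) (nat_lit 760) (nat_lit 0) (XT.lf (nat_lit 0) (nat_lit 465104204) (nat_lit 912) (nat_lit 8196104160) (nat_lit 76) (nat_lit 9004740980) (nat_lit 306) (nat_lit 5) (nat_lit 318) (nat_lit 5) (nat_lit 307)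 (nat_lit 5) (nat_lit 470) (nat_lit 434) (nat_lit 236)) (XT.lf (nat_lit 0) (nat_lit 568048522) (nat_lit 760) (nat_lit 1750468515) (nat_lit 836) (nat_lit 15547398380) (nat_lit 296) (nat_lit 5) (nat_lit 306) (nat_lit 5) (nat_lit 307) (nat_lit 5) (nat_lit 471) (nat_lit 434) (nat_lit 235))) (XT.nd (nat_lit 78) (nat_lit 760) (nat_lit 0) (XT.lf (nat_lit 0) (nat_lit 4292642027) (nat_lit 836) (nat_lit 8491155498) (nat_lit 76) (nat_lit 5284414683) (nat_lit 296) (nat_lit 5) (nat_lit 307) (nat_lit 5) (nat_lit 297) (nat_lit 5) (nat_lit 472) (nat_lit 434) (nat_lit 234)) (XT.lf (nat_lit 0) (nat_lit 480324841) (nat_lit 760) (nat_lit 5834634007) (nat_lit 836) (nat_lit 11959426095) (nat_lit 286) (nat_lit 5) (nat_lit 296) (nat_lit 5) (nat_lit 297) (nat_lit 5) (nat_lit 473) (nat_lit 434) (nat_lit 233))))))))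
noncomputable def xc215 : XT := (XT.nd (nat_lit 2184) (nat_lit 3192) (nat_lit 0) (XT.nd (nat_lit 1092) (nat_lit 3876) (nat_lit 0) (XT.nd (nat_lit 546) (nat_lit 2584) (nat_lit 0) (XT.nd (nat_lit 234) (nat_lit 1520) (nat_lit 0) (XT.nd (nat_lit 78) (nat_lit 684) (nat_lit 0) (XT.lf (nat_lit 0) (nat_lit 8437294160) (nat_lit 836) (nat_lit 8751877124) (nat_lit 76) (nat_lit 1294322515) (nat_lit 286) (nat_lit 5) (nat_lit 297) (nat_lit 5) (nat_lit 287) (nat_lit 5) (nat_lit 474) (nat_lit 434) (nat_lit 232)) (XT.nd (nat_lit 78) (nat_lit 0) (nat_lit 0) (XT.lf (nat_lit 0) (nat_lit 432143625) (nat_lit 684) (nat_lit 10205570474) (nat_lit 760) (nat_lit 8058362001) (nat_lit 277) (nat_lit 5) (nat_lit 286) (nat_lit 5) (nat_lit 287) (nat_lit 5) (nat_lit 475) (nat_lit 434) (nat_lit 231)) (XT.lf (nat_lit 0) (nat_lit 9912484912) (nat_lit 684) (nat_lit 3022654390) (nat_lit 760) (nat_lit 5976714760) (nat_lit 277) (nat_lit 5) (nat_lit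 286) (nat_lit 5) (nat_lit 287) (nat_lit 5) (nat_lit 476) (nat_lit 434) (nat_lit 230)))) (XT.nd (nat_lit 156) (nat_lit 760) (nat_lit 0) (XT.nd (nat_lit 78) (nat_lit 0) (nat_lit 0) (XT.lf (nat_lit 0) (nat_lit 422086307) (nat_lit 760) (nat_lit 14881488978) (nat_lit 836) (nat_lit 3827874925) (nat_lit 267) (nat_lit 5) (nat_lit 277) (nat_lit 5) (nat_lit 278) (nat_lit 5) (nat_lit 477) (nat_lit 434) (nat_lit 229)) (XT.lf (nat_lit 0) (nat_lit 10127724536) (nat_lit 760) (nat_lit 7666381343) (nat_lit 836) (nat_lit 1559841680) (nat_lit 267) (nat_lit 5) (nat_lit 277) (nat_lit 5) (nat_lit 278) (nat_lit 5) (nat_lit 478) (nat_lit 434) (nat_lit 228))) (XT.nd (nat_lit 78) (nat_lit 0) (nat_lit 0) (XT.lf (nat_lit 0) (nat_lit 441568005) (nat_lit 684) (nat_lit 299486830) (nat_lit 760) (nat_lit 18839798109) (nat_lit 257) (nat_lit 5) (nat_lit 266) (nat_lit 5) (nat_lit 267) (nat_lit 5) (nat_lit 479) (nat_lit 434) (nat_lit 227)) (XT.lf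 (nat_lit 0) (nat_lit 3170853257) (nat_lit 760) (nat_lit 9446843741) (nat_lit 76) (nat_lit 7192321398) (nat_lit 257) (nat_lit 5) (nat_lit 267) (nat_lit 5) (nat_lit 258) (nat_lit 5) (nat_lit 480) (nat_lit 434) (nat_lit 226))))) (XT.nd (nat_lit 234) (nat_lit 1292) (nat_lit 0) (XT.nd (nat_lit 78) (nat_lit 608) (nat_lit 0) (XT.lf (nat_lit 0) (nat_lit 437334637) (nat_lit 684) (nat_lit 5211426997) (nat_lit 760) (nat_lit 14395018751) (nat_lit 248) (nat_lit 5) (nat_lit 257) (nat_lit 5) (nat_lit 258) (nat_lit 5) (nat_lit 481) (nat_lit 434) (nat_lit 225)) (XT.nd (nat_lit 78) (nat_lit 608) (nat_lit 0) (XT.lf (nat_lit 0) (nat_lit 8250007052) (nat_lit 760) (nat_lit 9655260575) (nat_lit 76) (nat_lit 2375477848) (nat_lit 248) (nat_lit 5) (nat_lit 258) (nat_lit 5) (nat_lit 249) (nat_lit 5) (nat_lit 482) (nat_lit 434) (nat_lit 224)) (XT.lf (nat_lit 0) (nat_lit 460663562) (nat_lit 608) (nat_lit 10474974033) (nat_lit 684) (nat_lit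 9586168440) (nat_lit 240) (nat_lit 5) (nat_lit 248) (nat_lit 5) (nat_lit 249) (nat_lit 5) (nat_lit 483) (nat_lit 434) (nat_lit 223)))) (XT.nd (nat_lit 156) (nat_lit 684) (nat_lit 0) (XT.nd (nat_lit 78) (nat_lit 608) (nat_lit 0) (XT.lf (nat_lit 0) (nat_lit 10904010367) (nat_lit 608) (nat_lit 2830682138) (nat_lit 684) (nat_lit 7031804371) (nat_lit 240) (nat_lit 5) (nat_lit 248) (nat_lit 5) (nat_lit 249) (nat_lit 5) (nat_lit 484) (nat_lit 434) (nat_lit 222)) (XT.lf (nat_lit 0) (nat_lit 508809319) (nat_lit 608) (nat_lit 16111483566) (nat_lit 684) (nat_lit 4395180601) (nat_lit 232) (nat_lit 5) (nat_lit 240) (nat_lit 5) (nat_lit 241) (nat_lit 5) (nat_lit 485) (nat_lit 434) (nat_lit 221))) (XT.nd (nat_lit 78) (nat_lit 684) (nat_lit 0) (XT.lf (nat_lit 0) (nat_lit 11196501601) (nat_lit 608) (nat_lit 8446984705) (nat_lit 684) (nat_lit 1624348880) (nat_lit 232) (nat_lit 5) (nat_lit 240) (nat_lit 5) (nat_lit 241) (nat_lit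 5) (nat_lit 486) (nat_lit 434) (nat_lit 220)) (XT.lf (nat_lit 0) (nat_lit 566653680) (nat_lit 608) (nat_lit 618298918) (nat_lit 684) (nat_lit 20340162179) (nat_lit 223) (nat_lit 5) (nat_lit 231) (nat_lit 5) (nat_lit 232) (nat_lit 5) (nat_lit 487) (nat_lit 434) (nat_lit 219)))))) (XT.nd (nat_lit 546) (nat_lit 2128) (nat_lit 0) (XT.nd (nat_lit 234) (nat_lit 1140) (nat_lit 0) (XT.nd (nat_lit 78) (nat_lit 608) (nat_lit 0) (XT.lf (nat_lit 0) (nat_lit 4139763578) (nat_lit 684) (nat_lit 10297038514) (nat_lit 76) (nat_lit 7348304652) (nat_lit 223) (nat_lit 5) (nat_lit 232) (nat_lit 5) (nat_lit 224) (nat_lit 5) (nat_lit 488) (nat_lit 434) (nat_lit 218)) (XT.nd (nat_lit 78) (nat_lit 0) (nat_lit 0) (XT.lf (nat_lit 0) (nat_lit 575442849) (nat_lit 608) (nat_lit 6581343537) (nat_lit 684) (nat_lit 14893452787) (nat_lit 215) (nat_lit 5) (nat_lit 223) (nat_lit 5) (nat_lit 224) (nat_lit 5) (nat_lit 489) (nat_lit 434) (nat_lit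 217)) (XT.lf (nat_lit 0) (nat_lit 10308333202) (nat_lit 684) (nat_lit 10529764509) (nat_lit 76) (nat_lit 1481095748) (nat_lit 215) (nat_lit 5) (nat_lit 224) (nat_lit 5) (nat_lit 216) (nat_lit 5) (nat_lit 490) (nat_lit 434) (nat_lit 216)))) (XT.nd (nat_lit 156) (nat_lit 608) (nat_lit 0) (XT.nd (nat_lit 78) (nat_lit 0) (nat_lit 0) (XT.lf (nat_lit 0) (nat_lit 592793685) (nat_lit 532) (nat_lit 12972977545) (nat_lit 608) (nat_lit 9026901214) (nat_lit 208) (nat_lit 5) (nat_lit 215) (nat_lit 5) (nat_lit 216) (nat_lit 5) (nat_lit 491) (nat_lit 434) (nat_lit 215)) (XT.lf (nat_lit 0) (nat_lit 12075009581) (nat_lit 532) (nat_lit 4879488903) (nat_lit 608) (nat_lit 5915802482) (nat_lit 208) (nat_lit 5) (nat_lit 215) (nat_lit 5) (nat_lit 216) (nat_lit 5) (nat_lit 492) (nat_lit 434) (nat_lit 214))) (XT.nd (nat_lit 78) (nat_lit 76) (nat_lit 0) (XT.lf (nat_lit 0) (nat_lit 614018576) (nat_lit 532) (nat_lit 19818449122) (nat_lit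 608) (nat_lit 2720587724) (nat_lit 201) (nat_lit 5) (nat_lit 208) (nat_lit 5) (nat_lit 209) (nat_lit 5) (nat_lit 493) (nat_lit 434) (nat_lit 213)) (XT.lf (nat_lit 0) (nat_lit 632286981) (nat_lit 608) (nat_lit 11083987965) (nat_lit 76) (nat_lit 11723106326) (nat_lit 200) (nat_lit 5) (nat_lit 208) (nat_lit 5) (nat_lit 201) (nat_lit 5) (nat_lit 494) (nat_lit 434) (nat_lit 212))))) (XT.nd (nat_lit 234) (nat_lit 1064) (nat_lit 0) (XT.nd (nat_lit 78) (nat_lit 532) (nat_lit 0) (XT.lf (nat_lit 0) (nat_lit 584388683) (nat_lit 532) (nat_lit 3430898999) (nat_lit 608) (nat_lit 19715798907) (nat_lit 193) (nat_lit 5) (nat_lit 200) (nat_lit 5) (nat_lit 201) (nat_lit 5) (nat_lit 495) (nat_lit 434) (nat_lit 211)) (XT.nd (nat_lit 78) (nat_lit 532) (nat_lit 0) (XT.lf (nat_lit 0) (nat_lit 7569126412) (nat_lit 608) (nat_lit 11429311870) (nat_lit 76) (nat_lit 5028126673) (nat_lit 193) (nat_lit 5) (nat_lit 201) (nat_lit 5) (nat_lit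 194) (nat_lit 5) (nat_lit 496) (nat_lit 434) (nat_lit 210)) (XT.lf (nat_lit 0) (nat_lit 500911680) (nat_lit 532) (nat_lit 10714899433) (nat_lit 608) (nat_lit 13111708849) (nat_lit 186) (nat_lit 5) (nat_lit 193) (nat_lit 5) (nat_lit 194) (nat_lit 5) (nat_lit 497) (nat_lit 434) (nat_lit 209)))) (XT.nd (nat_lit 156) (nat_lit 608) (nat_lit 0) (XT.nd (nat_lit 78) (nat_lit 456) (nat_lit 0) (XT.lf (nat_lit 0) (nat_lit 12819343719) (nat_lit 532) (nat_lit 2188626122) (nat_lit 608) (nat_lit 9625075828) (nat_lit 186) (nat_lit 5) (nat_lit 193) (nat_lit 5) (nat_lit 194) (nat_lit 5) (nat_lit 498) (nat_lit 434) (nat_lit 208)) (XT.lf (nat_lit 0) (nat_lit 397120068) (nat_lit 456) (nat_lit 18519603119) (nat_lit 532) (nat_lit 6027146035) (nat_lit 180) (nat_lit 5) (nat_lit 186) (nat_lit 5) (nat_lit 187) (nat_lit 5) (nat_lit 499) (nat_lit 434) (nat_lit 207))) (XT.nd (nat_lit 78) (nat_lit 608) (nat_lit 0) (XT.lf (nat_lit 0) (nat_lit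 12992349008) (nat_lit 456) (nat_lit 10000941201) (nat_lit 532) (nat_lit 2265828580) (nat_lit 180) (nat_lit 5) (nat_lit 186) (nat_lit 5) (nat_lit 187) (nat_lit 5) (nat_lit 500) (nat_lit 434) (nat_lit 206)) (XT.lf (nat_lit 0) (nat_lit 246633120) (nat_lit 532) (nat_lit 1301097489) (nat_lit 608) (nat_lit 24032788688) (nat_lit 172) (nat_lit 5) (nat_lit 179) (nat_lit 5) (nat_lit 180) (nat_lit 5) (nat_lit 501) (nat_lit 434) (nat_lit 205))))))) (XT.nd (nat_lit 1092) (nat_lit 380) (nat_lit 0) (XT.nd (nat_lit 546) (nat_lit 1368) (nat_lit 0) (XT.nd (nat_lit 234) (nat_lit 988) (nat_lit 0) (XT.nd (nat_lit 78) (nat_lit 456) (nat_lit 0) (XT.lf (nat_lit 0) (nat_lit 5535329585) (nat_lit 608) (nat_lit 12800087264) (nat_lit 76) (nat_lit 7570071442) (nat_lit 172) (nat_lit 5) (nat_lit 180) (nat_lit 5) (nat_lit 173) (nat_lit 5) (nat_lit 502) (nat_lit 434) (nat_lit 204)) (XT.nd (nat_lit 78) (nat_lit 456) (nat_lit 0) (XT.lf (nat_lit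 0) (nat_lit 9607425307) (nat_lit 608) (nat_lit 29377197) (nat_lit 76) (nat_lit 16600061406) (nat_lit 172) (nat_lit 5) (nat_lit 180) (nat_lit 5) (nat_lit 173) (nat_lit 5) (nat_lit 503) (nat_lit 434) (nat_lit 203)) (XT.lf (nat_lit 0) (nat_lit 13164352584) (nat_lit 456) (nat_lit 678286210) (nat_lit 532) (nat_lit 12730596824) (nat_lit 166) (nat_lit 5) (nat_lit 172) (nat_lit 5) (nat_lit 173) (nat_lit 5) (nat_lit 504) (nat_lit 434) (nat_lit 202)))) (XT.nd (nat_lit 156) (nat_lit 532) (nat_lit 0) (XT.nd (nat_lit 78) (nat_lit 456) (nat_lit 0) (XT.lf (nat_lit 0) (nat_lit 18213916869) (nat_lit 532) (nat_lit 353984071) (nat_lit 76) (nat_lit 8347408671) (nat_lit 166) (nat_lit 5) (nat_lit 173) (nat_lit 5) (nat_lit 167) (nat_lit 5) (nat_lit 505) (nat_lit 434) (nat_lit 201)) (XT.lf (nat_lit 0) (nat_lit 13124669900) (nat_lit 456) (nat_lit 9633968232) (nat_lit 532) (nat_lit 4503868612) (nat_lit 160) (nat_lit 5) (nat_lit 166) (nat_lit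 5) (nat_lit 167) (nat_lit 5) (nat_lit 506) (nat_lit 434) (nat_lit 200))) (XT.nd (nat_lit 78) (nat_lit 532) (nat_lit 0) (XT.lf (nat_lit 0) (nat_lit 26872744668) (nat_lit 456) (nat_lit 520236354) (nat_lit 532) (nat_lit 223694230) (nat_lit 160) (nat_lit 5) (nat_lit 166) (nat_lit 5) (nat_lit 167) (nat_lit 5) (nat_lit 507) (nat_lit 434) (nat_lit 199)) (XT.lf (nat_lit 0) (nat_lit 4226643087) (nat_lit 532) (nat_lit 14976170652) (nat_lit 76) (nat_lit 8771799754) (nat_lit 153) (nat_lit 5) (nat_lit 160) (nat_lit 5) (nat_lit 154) (nat_lit 5) (nat_lit 508) (nat_lit 434) (nat_lit 198))))) (XT.nd (nat_lit 234) (nat_lit 912) (nat_lit 0) (XT.nd (nat_lit 78) (nat_lit 456) (nat_lit 0) (XT.lf (nat_lit 0) (nat_lit 8767893420) (nat_lit 532) (nat_lit 1323758204) (nat_lit 76) (nat_lit 18247933133) (nat_lit 153) (nat_lit 5) (nat_lit 160) (nat_lit 5) (nat_lit 154) (nat_lit 5) (nat_lit 509) (nat_lit 434) (nat_lit 197)) (XT.nd (nat_lit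 78) (nat_lit 0) (nat_lit 0) (XT.lf (nat_lit 0) (nat_lit 12764269249) (nat_lit 456) (nat_lit 715071880) (nat_lit 532) (nat_lit 15230928694) (nat_lit 147) (nat_lit 5) (nat_lit 153) (nat_lit 5) (nat_lit 154) (nat_lit 5) (nat_lit 510) (nat_lit 434) (nat_lit 196)) (XT.lf (nat_lit 0) (nat_lit 18347940572) (nat_lit 532) (nat_lit 1998571897) (nat_lit 76) (nat_lit 8740599455) (nat_lit 147) (nat_lit 5) (nat_lit 154) (nat_lit 5) (nat_lit 148) (nat_lit 5) (nat_lit 511) (nat_lit 434) (nat_lit 195)))) (XT.nd (nat_lit 156) (nat_lit 532) (nat_lit 0) (XT.nd (nat_lit 78) (nat_lit 0) (nat_lit 0) (XT.lf (nat_lit 0) (nat_lit 12380670527) (nat_lit 380) (nat_lit 11014955674) (nat_lit 456) (nat_lit 6074232137) (nat_lit 142) (nat_lit 5) (nat_lit 147) (nat_lit 5) (nat_lit 148) (nat_lit 5) (nat_lit 512) (nat_lit 434) (nat_lit 194)) (XT.lf (nat_lit 0) (nat_lit 27069846407) (nat_lit 380) (nat_lit 1484461675) (nat_lit 456) (nat_lit 1305752466)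 (nat_lit 142) (nat_lit 5) (nat_lit 147) (nat_lit 5) (nat_lit 148) (nat_lit 5) (nat_lit 513) (nat_lit 434) (nat_lit 193))) (XT.nd (nat_lit 78) (nat_lit 0) (nat_lit 0) (XT.lf (nat_lit 0) (nat_lit 3639653922) (nat_lit 532) (nat_lit 18386940682) (nat_lit 76) (nat_lit 8228447376) (nat_lit 135) (nat_lit 5) (nat_lit 142) (nat_lit 5) (nat_lit 136) (nat_lit 5) (nat_lit 514) (nat_lit 434) (nat_lit 192)) (XT.lf (nat_lit 0) (nat_lit 8691879047) (nat_lit 532) (nat_lit 3823468741) (nat_lit 76) (nat_lit 18141896360) (nat_lit 135) (nat_lit 5) (nat_lit 142) (nat_lit 5) (nat_lit 136) (nat_lit 5) (nat_lit 515) (nat_lit 434) (nat_lit 191)))))) (XT.nd (nat_lit 53508) (nat_lit 0) (nat_lit 19304) (XT.nd (nat_lit 53196) (nat_lit 0) (nat_lit 20748) (XT.nd (nat_lit 53040) (nat_lit 0) (nat_lit 20748) (XT.lf (nat_lit 0) (nat_lit 11173180443) (nat_lit 380) (nat_lit 2741276257) (nat_lit 456) (nat_lit 17151649089) (nat_lit 130) (nat_lit 5)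 (nat_lit 135) (nat_lit 5) (nat_lit 136) (nat_lit 5) (nat_lit 516) (nat_lit 434) (nat_lit 190)) (XT.nd (nat_lit 78) (nat_lit 0) (nat_lit 0) (XT.lf (nat_lit 0) (nat_lit 1841322205) (nat_lit 0) (nat_lit 1841322205) (nat_lit 1596) (nat_lit 2541209953) (nat_lit 403) (nat_lit 5) (nat_lit 403) (nat_lit 3) (nat_lit 424) (nat_lit 3) (nat_lit 435) (nat_lit 435) (nat_lit 270)) (XT.lf (nat_lit 0) (nat_lit 7869386723) (nat_lit 1596) (nat_lit 3109795456) (nat_lit 1672) (nat_lit 1584055569) (nat_lit 403) (nat_lit 5) (nat_lit 424) (nat_lit 3) (nat_lit 425) (nat_lit 5) (nat_lit 436) (nat_lit 435) (nat_lit 269)))) (XT.nd (nat_lit 156) (nat_lit 0) (nat_lit 76) (XT.nd (nat_lit 78) (nat_lit 0) (nat_lit 0) (XT.lf (nat_lit 76) (nat_lit 2663346988) (nat_lit 0) (nat_lit 5750918580) (nat_lit 1672) (nat_lit 4266206698) (nat_lit 404) (nat_lit 5) (nat_lit 403) (nat_lit 5) (nat_lit 425) (nat_lit 5) (nat_lit 437) (nat_lit 435) (nat_lit 268))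 (XT.lf (nat_lit 76) (nat_lit 8588370668) (nat_lit 0) (nat_lit 391736168) (nat_lit 1672) (nat_lit 3819752063) (nat_lit 404) (nat_lit 5) (nat_lit 403) (nat_lit 5) (nat_lit 425) (nat_lit 5) (nat_lit 438) (nat_lit 435) (nat_lit 267))) (XT.nd (nat_lit 78) (nat_lit 0) (nat_lit 0) (XT.lf (nat_lit 76) (nat_lit 1693650332) (nat_lit 0) (nat_lit 7896999337) (nat_lit 1672) (nat_lit 3330324454) (nat_lit 405) (nat_lit 5) (nat_lit 404) (nat_lit 5) (nat_lit 426) (nat_lit 5) (nat_lit 439) (nat_lit 435) (nat_lit 266)) (XT.lf (nat_lit 76) (nat_lit 7765513512) (nat_lit 0) (nat_lit 2468338082) (nat_lit 1672) (nat_lit 2810259474) (nat_lit 405) (nat_lit 5) (nat_lit 404) (nat_lit 5) (nat_lit 426) (nat_lit 5) (nat_lit 440) (nat_lit 435) (nat_lit 265))))) (XT.nd (nat_lit 312) (nat_lit 1596) (nat_lit 0) (XT.nd (nat_lit 156) (nat_lit 0) (nat_lit 76) (XT.nd (nat_lit 78) (nat_lit 0) (nat_lit 0) (XT.lf (nat_lit 76) (nat_lit 773356898) (nat_lit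 0) (nat_lit 10131349550) (nat_lit 1672) (nat_lit 2264716745) (nat_lit 406) (nat_lit 5) (nat_lit 405) (nat_lit 5) (nat_lit 427) (nat_lit 5) (nat_lit 441) (nat_lit 435) (nat_lit 264)) (XT.lf (nat_lit 76) (nat_lit 6995414902) (nat_lit 0) (nat_lit 4635227869) (nat_lit 1672) (nat_lit 1665773560) (nat_lit 406) (nat_lit 5) (nat_lit 405) (nat_lit 5) (nat_lit 427) (nat_lit 5) (nat_lit 442) (nat_lit 435) (nat_lit 263))) (XT.nd (nat_lit 78) (nat_lit 0) (nat_lit 0) (XT.lf (nat_lit 0) (nat_lit 12367626081) (nat_lit 1596) (nat_lit 96376595) (nat_lit 1672) (nat_lit 962023991) (nat_lit 406) (nat_lit 5) (nat_lit 427) (nat_lit 5) (nat_lit 428) (nat_lit 5) (nat_lit 443) (nat_lit 435) (nat_lit 262)) (XT.lf (nat_lit 76) (nat_lit 6278062025) (nat_lit 0) (nat_lit 6903161989) (nat_lit 1672) (nat_lit 375775442) (nat_lit 407) (nat_lit 5) (nat_lit 406) (nat_lit 5) (nat_lit 428) (nat_lit 5) (nat_lit 444) (nat_lit 435) (nat_lit 261)))) (XT.nd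 (nat_lit 156) (nat_lit 0) (nat_lit 76) (XT.nd (nat_lit 78) (nat_lit 0) (nat_lit 76) (XT.lf (nat_lit 0) (nat_lit 307446280) (nat_lit 1672) (nat_lit 917382679) (nat_lit 1748) (nat_lit 12465905616) (nat_lit 384) (nat_lit 5) (nat_lit 406) (nat_lit 5) (nat_lit 407) (nat_lit 5) (nat_lit 445) (nat_lit 435) (nat_lit 260)) (XT.lf (nat_lit 0) (nat_lit 1056520671) (nat_lit 1672) (nat_lit 8219542251) (nat_lit 1748) (nat_lit 4549894698) (nat_lit 385) (nat_lit 5) (nat_lit 407) (nat_lit 5) (nat_lit 408) (nat_lit 5) (nat_lit 446) (nat_lit 435) (nat_lit 259))) (XT.nd (nat_lit 78) (nat_lit 0) (nat_lit 76) (XT.lf (nat_lit 0) (nat_lit 1825733909) (nat_lit 1672) (nat_lit 1704859426) (nat_lit 1748) (nat_lit 10433195799) (nat_lit 385) (nat_lit 5) (nat_lit 407) (nat_lit 5) (nat_lit 408) (nat_lit 5) (nat_lit 447) (nat_lit 435) (nat_lit 258)) (XT.lf (nat_lit 0) (nat_lit 2649182585) (nat_lit 1672) (nat_lit 9119536997) (nat_lit 1748) (nat_lit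 2334887688) (nat_lit 386) (nat_lit 5) (nat_lit 408) (nat_lit 5) (nat_lit 409) (nat_lit 5) (nat_lit 448) (nat_lit 435) (nat_lit 257))))))))
noncomputable def xc216 : XT := (XT.nd (nat_lit 2184) (nat_lit 8436) (nat_lit 0) (XT.nd (nat_lit 1092) (nat_lit 5624) (nat_lit 0) (XT.nd (nat_lit 546) (nat_lit 2660) (nat_lit 0) (XT.nd (nat_lit 234) (nat_lit 0) (nat_lit 76) (XT.nd (nat_lit 78) (nat_lit 0) (nat_lit 0) (XT.lf (nat_lit 0) (nat_lit 3515182870) (nat_lit 1672) (nat_lit 2445676058) (nat_lit 1748) (nat_lit 8284848065) (nat_lit 386) (nat_lit 5) (nat_lit 408) (nat_lit 5) (nat_lit 409) (nat_lit 5) (nat_lit 449) (nat_lit 435) (nat_lit 256)) (XT.nd (nat_lit 78) (nat_lit 0) (nat_lit 76) (XT.lf (nat_lit 76) (nat_lit 4413552213) (nat_lit 0) (nat_lit 4964455) (nat_lit 1748) (nat_lit 9971738516) (nat_lit 387) (nat_lit 5) (nat_lit 386) (nat_lit 5) (nat_lit 409) (nat_lit 5) (nat_lit 450) (nat_lit 435) (nat_lit 255)) (XT.lf (nat_lit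 0) (nat_lit 5387353566) (nat_lit 1672) (nat_lit 3139917152) (nat_lit 1748) (nat_lit 6009481500) (nat_lit 387) (nat_lit 5) (nat_lit 409) (nat_lit 5) (nat_lit 410) (nat_lit 5) (nat_lit 451) (nat_lit 435) (nat_lit 254)))) (XT.nd (nat_lit 156) (nat_lit 0) (nat_lit 76) (XT.nd (nat_lit 78) (nat_lit 0) (nat_lit 76) (XT.lf (nat_lit 76) (nat_lit 3878409684) (nat_lit 0) (nat_lit 2514043354) (nat_lit 1748) (nat_lit 8293394919) (nat_lit 388) (nat_lit 5) (nat_lit 387) (nat_lit 5) (nat_lit 410) (nat_lit 5) (nat_lit 452) (nat_lit 435) (nat_lit 253)) (XT.lf (nat_lit 0) (nat_lit 7454174956) (nat_lit 1672) (nat_lit 3787651160) (nat_lit 1748) (nat_lit 3595375441) (nat_lit 388) (nat_lit 5) (nat_lit 410) (nat_lit 5) (nat_lit 411) (nat_lit 5) (nat_lit 453) (nat_lit 435) (nat_lit 252))) (XT.nd (nat_lit 78) (nat_lit 0) (nat_lit 76) (XT.lf (nat_lit 76) (nat_lit 3394347904) (nat_lit 0) (nat_lit 5173442192) (nat_lit 1748) (nat_lit 6423185184)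 (nat_lit 389) (nat_lit 5) (nat_lit 388) (nat_lit 5) (nat_lit 411) (nat_lit 5) (nat_lit 454) (nat_lit 435) (nat_lit 251)) (XT.lf (nat_lit 0) (nat_lit 9727963406) (nat_lit 1672) (nat_lit 4388942263) (nat_lit 1748) (nat_lit 1030439199) (nat_lit 389) (nat_lit 5) (nat_lit 411) (nat_lit 5) (nat_lit 412) (nat_lit 5) (nat_lit 455) (nat_lit 435) (nat_lit 250))))) (XT.nd (nat_lit 234) (nat_lit 2888) (nat_lit 0) (XT.nd (nat_lit 78) (nat_lit 0) (nat_lit 0) (XT.lf (nat_lit 76) (nat_lit 2961407279) (nat_lit 0) (nat_lit 7995678249) (nat_lit 1748) (nat_lit 4348847401) (nat_lit 390) (nat_lit 5) (nat_lit 389) (nat_lit 5) (nat_lit 412) (nat_lit 5) (nat_lit 456) (nat_lit 435) (nat_lit 249)) (XT.nd (nat_lit 78) (nat_lit 0) (nat_lit 76) (XT.lf (nat_lit 76) (nat_lit 10512229541) (nat_lit 0) (nat_lit 1720382076) (nat_lit 1748) (nat_lit 3234650572) (nat_lit 390) (nat_lit 5) (nat_lit 389) (nat_lit 5) (nat_lit 412) (nat_lit 5) (nat_lit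 457) (nat_lit 435) (nat_lit 248)) (XT.lf (nat_lit 76) (nat_lit 2579619059) (nat_lit 0) (nat_lit 10993695394) (nat_lit 1748) (nat_lit 2057716010) (nat_lit 391) (nat_lit 5) (nat_lit 390) (nat_lit 5) (nat_lit 413) (nat_lit 5) (nat_lit 458) (nat_lit 435) (nat_lit 247)))) (XT.nd (nat_lit 156) (nat_lit 1292) (nat_lit 0) (XT.nd (nat_lit 78) (nat_lit 1672) (nat_lit 0) (XT.lf (nat_lit 76) (nat_lit 10314550942) (nat_lit 0) (nat_lit 4663486124) (nat_lit 1748) (nat_lit 819298566) (nat_lit 391) (nat_lit 5) (nat_lit 390) (nat_lit 5) (nat_lit 413) (nat_lit 5) (nat_lit 459) (nat_lit 435) (nat_lit 246)) (XT.lf (nat_lit 0) (nat_lit 457220960) (nat_lit 1748) (nat_lit 13720607752) (nat_lit 76) (nat_lit 1788702868) (nat_lit 368) (nat_lit 5) (nat_lit 391) (nat_lit 5) (nat_lit 369) (nat_lit 5) (nat_lit 460) (nat_lit 435) (nat_lit 245))) (XT.nd (nat_lit 78) (nat_lit 1292) (nat_lit 0) (XT.lf (nat_lit 0) (nat_lit 1809069918) (nat_lit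 1748) (nat_lit 5977537493) (nat_lit 76) (nat_lit 8351185649) (nat_lit 368) (nat_lit 5) (nat_lit 391) (nat_lit 5) (nat_lit 369) (nat_lit 5) (nat_lit 461) (nat_lit 435) (nat_lit 244)) (XT.lf (nat_lit 0) (nat_lit 1939820051) (nat_lit 1292) (nat_lit 1253709963) (nat_lit 1368) (nat_lit 13118843486) (nat_lit 351) (nat_lit 5) (nat_lit 368) (nat_lit 5) (nat_lit 369) (nat_lit 5) (nat_lit 462) (nat_lit 435) (nat_lit 243)))))) (XT.nd (nat_lit 546) (nat_lit 3116) (nat_lit 0) (XT.nd (nat_lit 234) (nat_lit 1672) (nat_lit 0) (XT.nd (nat_lit 78) (nat_lit 836) (nat_lit 0) (XT.lf (nat_lit 0) (nat_lit 4674266244) (nat_lit 1368) (nat_lit 6434606729) (nat_lit 76) (nat_lit 5380205947) (nat_lit 351) (nat_lit 5) (nat_lit 369) (nat_lit 5) (nat_lit 352) (nat_lit 5) (nat_lit 463) (nat_lit 435) (nat_lit 242)) (XT.nd (nat_lit 78) (nat_lit 0) (nat_lit 0) (XT.lf (nat_lit 0) (nat_lit 1669689272) (nat_lit 836) (nat_lit 4527291527) (nat_lit 912)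 (nat_lit 10472095387) (nat_lit 340) (nat_lit 5) (nat_lit 351) (nat_lit 5) (nat_lit 352) (nat_lit 5) (nat_lit 464) (nat_lit 435) (nat_lit 241)) (XT.lf (nat_lit 0) (nat_lit 7801126690) (nat_lit 912) (nat_lit 6849103238) (nat_lit 76) (nat_lit 2201428839) (nat_lit 340) (nat_lit 5) (nat_lit 352) (nat_lit 5) (nat_lit 341) (nat_lit 5) (nat_lit 465) (nat_lit 435) (nat_lit 240)))) (XT.nd (nat_lit 156) (nat_lit 836) (nat_lit 0) (XT.nd (nat_lit 78) (nat_lit 0) (nat_lit 0) (XT.lf (nat_lit 0) (nat_lit 1447195051) (nat_lit 836) (nat_lit 8022988695) (nat_lit 912) (nat_lit 7567057506) (nat_lit 329) (nat_lit 5) (nat_lit 340) (nat_lit 5) (nat_lit 341) (nat_lit 5) (nat_lit 466) (nat_lit 435) (nat_lit 239)) (XT.lf (nat_lit 0) (nat_lit 9996310886) (nat_lit 836) (nat_lit 1215811979) (nat_lit 912) (nat_lit 6013627221) (nat_lit 329) (nat_lit 5) (nat_lit 340) (nat_lit 5) (nat_lit 341) (nat_lit 5) (nat_lit 467) (nat_lit 435) (nat_lit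 238))) (XT.nd (nat_lit 78) (nat_lit 0) (nat_lit 0) (XT.lf (nat_lit 0) (nat_lit 1271906740) (nat_lit 836) (nat_lit 11756108627) (nat_lit 912) (nat_lit 4389236069) (nat_lit 318) (nat_lit 5) (nat_lit 329) (nat_lit 5) (nat_lit 330) (nat_lit 5) (nat_lit 468) (nat_lit 435) (nat_lit 237)) (XT.lf (nat_lit 0) (nat_lit 10027189374) (nat_lit 836) (nat_lit 4903303833) (nat_lit 912) (nat_lit 2681088792) (nat_lit 318) (nat_lit 5) (nat_lit 329) (nat_lit 5) (nat_lit 330) (nat_lit 5) (nat_lit 469) (nat_lit 435) (nat_lit 236))))) (XT.nd (nat_lit 234) (nat_lit 1444) (nat_lit 0) (XT.nd (nat_lit 78) (nat_lit 836) (nat_lit 0) (XT.lf (nat_lit 0) (nat_lit 1143284455) (nat_lit 836) (nat_lit 15742586264) (nat_lit 912) (nat_lit 923635901) (nat_lit 307) (nat_lit 5) (nat_lit 318) (nat_lit 5) (nat_lit 319) (nat_lit 5) (nat_lit 470) (nat_lit 435) (nat_lit 235)) (XT.nd (nat_lit 78) (nat_lit 760) (nat_lit 0) (XT.lf (nat_lit 0) (nat_lit 935191162)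 (nat_lit 912) (nat_lit 7906486608) (nat_lit 76) (nat_lit 9168050965) (nat_lit 306) (nat_lit 5) (nat_lit 318) (nat_lit 5) (nat_lit 307) (nat_lit 5) (nat_lit 471) (nat_lit 435) (nat_lit 234)) (XT.lf (nat_lit 0) (nat_lit 1029965314) (nat_lit 760) (nat_lit 1789597248) (nat_lit 836) (nat_lit 15394260113) (nat_lit 296) (nat_lit 5) (nat_lit 306) (nat_lit 5) (nat_lit 307) (nat_lit 5) (nat_lit 472) (nat_lit 435) (nat_lit 233)))) (XT.nd (nat_lit 156) (nat_lit 684) (nat_lit 0) (XT.nd (nat_lit 78) (nat_lit 760) (nat_lit 0) (XT.lf (nat_lit 0) (nat_lit 4824228632) (nat_lit 836) (nat_lit 8210004474) (nat_lit 76) (nat_lit 5386117352) (nat_lit 296) (nat_lit 5) (nat_lit 307) (nat_lit 5) (nat_lit 297) (nat_lit 5) (nat_lit 473) (nat_lit 435) (nat_lit 232)) (XT.lf (nat_lit 0) (nat_lit 937938537) (nat_lit 760) (nat_lit 5943222134) (nat_lit 836) (nat_lit 11749608703) (nat_lit 286) (nat_lit 5) (nat_lit 296) (nat_lit 5) (nat_lit 297)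 (nat_lit 5) (nat_lit 474) (nat_lit 435) (nat_lit 231))) (XT.nd (nat_lit 78) (nat_lit 684) (nat_lit 0) (XT.lf (nat_lit 0) (nat_lit 9037368735) (nat_lit 836) (nat_lit 8478818737) (nat_lit 76) (nat_lit 1328050397) (nat_lit 286) (nat_lit 5) (nat_lit 297) (nat_lit 5) (nat_lit 287) (nat_lit 5) (nat_lit 475) (nat_lit 435) (nat_lit 230)) (XT.lf (nat_lit 0) (nat_lit 885934427) (nat_lit 684) (nat_lit 10390295417) (nat_lit 760) (nat_lit 7784959186) (nat_lit 277) (nat_lit 5) (nat_lit 286) (nat_lit 5) (nat_lit 287) (nat_lit 5) (nat_lit 476) (nat_lit 435) (nat_lit 229))))))) (XT.nd (nat_lit 1092) (nat_lit 3724) (nat_lit 0) (XT.nd (nat_lit 546) (nat_lit 2508) (nat_lit 0) (XT.nd (nat_lit 234) (nat_lit 1444) (nat_lit 0) (XT.nd (nat_lit 78) (nat_lit 760) (nat_lit 0) (XT.lf (nat_lit 0) (nat_lit 10547154149) (nat_lit 684) (nat_lit 3064101137) (nat_lit 760) (nat_lit 5670199982) (nat_lit 277) (nat_lit 5) (nat_lit 286) (nat_lit 5)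 (nat_lit 287) (nat_lit 5) (nat_lit 477) (nat_lit 435) (nat_lit 228)) (XT.nd (nat_lit 78) (nat_lit 0) (nat_lit 0) (XT.lf (nat_lit 0) (nat_lit 872532861) (nat_lit 760) (nat_lit 15149333326) (nat_lit 836) (nat_lit 3483686667) (nat_lit 267) (nat_lit 5) (nat_lit 277) (nat_lit 5) (nat_lit 278) (nat_lit 5) (nat_lit 478) (nat_lit 435) (nat_lit 227)) (XT.lf (nat_lit 0) (nat_lit 10763617094) (nat_lit 760) (nat_lit 7790507567) (nat_lit 836) (nat_lit 1178542674) (nat_lit 267) (nat_lit 5) (nat_lit 277) (nat_lit 5) (nat_lit 278) (nat_lit 5) (nat_lit 479) (nat_lit 435) (nat_lit 226)))) (XT.nd (nat_lit 156) (nat_lit 684) (nat_lit 0) (XT.nd (nat_lit 78) (nat_lit 0) (nat_lit 0) (XT.lf (nat_lit 0) (nat_lit 886530128) (nat_lit 684) (nat_lit 271281260) (nat_lit 760) (nat_lit 18806354197) (nat_lit 257) (nat_lit 5) (nat_lit 266) (nat_lit 5) (nat_lit 267) (nat_lit 5) (nat_lit 480) (nat_lit 435) (nat_lit 225)) (XT.lf (nat_lit 0) (nat_lit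 3628542356) (nat_lit 760) (nat_lit 9200277516) (nat_lit 76) (nat_lit 7369252952) (nat_lit 257) (nat_lit 5) (nat_lit 267) (nat_lit 5) (nat_lit 258) (nat_lit 5) (nat_lit 481) (nat_lit 435) (nat_lit 224))) (XT.nd (nat_lit 78) (nat_lit 0) (nat_lit 0) (XT.lf (nat_lit 0) (nat_lit 878719278) (nat_lit 684) (nat_lit 5272367771) (nat_lit 760) (nat_lit 14285526549) (nat_lit 248) (nat_lit 5) (nat_lit 257) (nat_lit 5) (nat_lit 258) (nat_lit 5) (nat_lit 482) (nat_lit 435) (nat_lit 223)) (XT.lf (nat_lit 0) (nat_lit 8796998601) (nat_lit 760) (nat_lit 9416601778) (nat_lit 76) (nat_lit 2464869795) (nat_lit 248) (nat_lit 5) (nat_lit 258) (nat_lit 5) (nat_lit 249) (nat_lit 5) (nat_lit 483) (nat_lit 435) (nat_lit 222))))) (XT.nd (nat_lit 234) (nat_lit 1292) (nat_lit 0) (XT.nd (nat_lit 78) (nat_lit 608) (nat_lit 0) (XT.lf (nat_lit 0) (nat_lit 898800290) (nat_lit 608) (nat_lit 10632836293) (nat_lit 684) (nat_lit 9392814375) (nat_lit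 240) (nat_lit 5) (nat_lit 248) (nat_lit 5) (nat_lit 249) (nat_lit 5) (nat_lit 484) (nat_lit 435) (nat_lit 221)) (XT.nd (nat_lit 78) (nat_lit 608) (nat_lit 0) (XT.lf (nat_lit 0) (nat_lit 11542603767) (nat_lit 608) (nat_lit 2836671054) (nat_lit 684) (nat_lit 6794913562) (nat_lit 240) (nat_lit 5) (nat_lit 248) (nat_lit 5) (nat_lit 249) (nat_lit 5) (nat_lit 485) (nat_lit 435) (nat_lit 220)) (XT.lf (nat_lit 0) (nat_lit 943993814) (nat_lit 608) (nat_lit 16374422360) (nat_lit 684) (nat_lit 4109816492) (nat_lit 232) (nat_lit 5) (nat_lit 240) (nat_lit 5) (nat_lit 241) (nat_lit 5) (nat_lit 486) (nat_lit 435) (nat_lit 219)))) (XT.nd (nat_lit 156) (nat_lit 608) (nat_lit 0) (XT.nd (nat_lit 78) (nat_lit 684) (nat_lit 0) (XT.lf (nat_lit 0) (nat_lit 11837106446) (nat_lit 608) (nat_lit 8557796088) (nat_lit 684) (nat_lit 1290887111) (nat_lit 232) (nat_lit 5) (nat_lit 240) (nat_lit 5) (nat_lit 241) (nat_lit 5) (nat_lit 487) (nat_lit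 435) (nat_lit 218)) (XT.lf (nat_lit 0) (nat_lit 996913480) (nat_lit 608) (nat_lit 568526025) (nat_lit 684) (nat_lit 20382819477) (nat_lit 223) (nat_lit 5) (nat_lit 231) (nat_lit 5) (nat_lit 232) (nat_lit 5) (nat_lit 488) (nat_lit 435) (nat_lit 217))) (XT.nd (nat_lit 78) (nat_lit 608) (nat_lit 0) (XT.lf (nat_lit 0) (nat_lit 4572746401) (nat_lit 684) (nat_lit 10085448529) (nat_lit 76) (nat_lit 7555392224) (nat_lit 223) (nat_lit 5) (nat_lit 232) (nat_lit 5) (nat_lit 224) (nat_lit 5) (nat_lit 489) (nat_lit 435) (nat_lit 216)) (XT.lf (nat_lit 0) (nat_lit 1001735548) (nat_lit 608) (nat_lit 6644200746) (nat_lit 684) (nat_lit 14838173680) (nat_lit 215) (nat_lit 5) (nat_lit 223) (nat_lit 5) (nat_lit 224) (nat_lit 5) (nat_lit 490) (nat_lit 435) (nat_lit 215)))))) (XT.nd (nat_lit 546) (nat_lit 2052) (nat_lit 0) (XT.nd (nat_lit 234) (nat_lit 1140) (nat_lit 0) (XT.nd (nat_lit 78) (nat_lit 532) (nat_lit 0) (XT.lf (nat_lit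 0) (nat_lit 10854167198) (nat_lit 684) (nat_lit 10327152616) (nat_lit 76) (nat_lit 1577254658) (nat_lit 215) (nat_lit 5) (nat_lit 224) (nat_lit 5) (nat_lit 216) (nat_lit 5) (nat_lit 491) (nat_lit 435) (nat_lit 214)) (XT.nd (nat_lit 78) (nat_lit 0) (nat_lit 0) (XT.lf (nat_lit 0) (nat_lit 1015138273) (nat_lit 532) (nat_lit 13157620734) (nat_lit 608) (nat_lit 8864848037) (nat_lit 208) (nat_lit 5) (nat_lit 215) (nat_lit 5) (nat_lit 216) (nat_lit 5) (nat_lit 492) (nat_lit 435) (nat_lit 213)) (XT.lf (nat_lit 0) (nat_lit 12718949689) (nat_lit 532) (nat_lit 4903729307) (nat_lit 608) (nat_lit 5698244805) (nat_lit 208) (nat_lit 5) (nat_lit 215) (nat_lit 5) (nat_lit 216) (nat_lit 5) (nat_lit 493) (nat_lit 435) (nat_lit 212)))) (XT.nd (nat_lit 156) (nat_lit 532) (nat_lit 0) (XT.nd (nat_lit 78) (nat_lit 76) (nat_lit 0) (XT.lf (nat_lit 0) (nat_lit 1032356691) (nat_lit 532) (nat_lit 20134501438) (nat_lit 608) (nat_lit 2442546155)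 (nat_lit 201) (nat_lit 5) (nat_lit 208) (nat_lit 5) (nat_lit 209) (nat_lit 5) (nat_lit 494) (nat_lit 435) (nat_lit 211)) (XT.lf (nat_lit 0) (nat_lit 966592661) (nat_lit 608) (nat_lit 10903107446) (nat_lit 76) (nat_lit 12031845832) (nat_lit 200) (nat_lit 5) (nat_lit 208) (nat_lit 5) (nat_lit 201) (nat_lit 5) (nat_lit 495) (nat_lit 435) (nat_lit 210))) (XT.nd (nat_lit 78) (nat_lit 0) (nat_lit 0) (XT.lf (nat_lit 0) (nat_lit 995988311) (nat_lit 532) (nat_lit 3417554499) (nat_lit 608) (nat_lit 19785620483) (nat_lit 193) (nat_lit 5) (nat_lit 200) (nat_lit 5) (nat_lit 201) (nat_lit 5) (nat_lit 496) (nat_lit 435) (nat_lit 209)) (XT.lf (nat_lit 0) (nat_lit 8032745735) (nat_lit 608) (nat_lit 11259932690) (nat_lit 76) (nat_lit 5207990703) (nat_lit 193) (nat_lit 5) (nat_lit 201) (nat_lit 5) (nat_lit 194) (nat_lit 5) (nat_lit 497) (nat_lit 435) (nat_lit 208))))) (XT.nd (nat_lit 234) (nat_lit 1064) (nat_lit 0) (XT.nd (nat_lit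 78) (nat_lit 456) (nat_lit 0) (XT.lf (nat_lit 0) (nat_lit 906277138) (nat_lit 532) (nat_lit 10842531558) (nat_lit 608) (nat_lit 13058909223) (nat_lit 186) (nat_lit 5) (nat_lit 193) (nat_lit 5) (nat_lit 194) (nat_lit 5) (nat_lit 498) (nat_lit 435) (nat_lit 207)) (XT.nd (nat_lit 78) (nat_lit 456) (nat_lit 0) (XT.lf (nat_lit 0) (nat_lit 13463325911) (nat_lit 532) (nat_lit 2147432112) (nat_lit 608) (nat_lit 9508720676) (nat_lit 186) (nat_lit 5) (nat_lit 193) (nat_lit 5) (nat_lit 194) (nat_lit 5) (nat_lit 499) (nat_lit 435) (nat_lit 206)) (XT.lf (nat_lit 0) (nat_lit 795746699) (nat_lit 456) (nat_lit 18799083263) (nat_lit 532) (nat_lit 5841749328) (nat_lit 180) (nat_lit 5) (nat_lit 186) (nat_lit 5) (nat_lit 187) (nat_lit 5) (nat_lit 500) (nat_lit 435) (nat_lit 205)))) (XT.nd (nat_lit 156) (nat_lit 456) (nat_lit 0) (XT.nd (nat_lit 78) (nat_lit 608) (nat_lit 0) (XT.lf (nat_lit 0) (nat_lit 13635219743) (nat_lit 456) (nat_lit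 10111830693) (nat_lit 532) (nat_lit 2011204340) (nat_lit 180) (nat_lit 5) (nat_lit 186) (nat_lit 5) (nat_lit 187) (nat_lit 5) (nat_lit 501) (nat_lit 435) (nat_lit 204)) (XT.lf (nat_lit 0) (nat_lit 636141651) (nat_lit 532) (nat_lit 1235243466) (nat_lit 608) (nat_lit 24214728610) (nat_lit 172) (nat_lit 5) (nat_lit 179) (nat_lit 5) (nat_lit 180) (nat_lit 5) (nat_lit 502) (nat_lit 435) (nat_lit 203))) (XT.nd (nat_lit 78) (nat_lit 456) (nat_lit 0) (XT.lf (nat_lit 0) (nat_lit 5933581682) (nat_lit 608) (nat_lit 12673740672) (nat_lit 76) (nat_lit 7810366011) (nat_lit 172) (nat_lit 5) (nat_lit 180) (nat_lit 5) (nat_lit 173) (nat_lit 5) (nat_lit 503) (nat_lit 435) (nat_lit 202)) (XT.lf (nat_lit 0) (nat_lit 349469930) (nat_lit 456) (nat_lit 9734280231) (nat_lit 532) (nat_lit 16672011831) (nat_lit 166) (nat_lit 5) (nat_lit 172) (nat_lit 5) (nat_lit 173) (nat_lit 5) (nat_lit 504) (nat_lit 435) (nat_lit 201))))))))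
noncomputable def xc217 : XT := (XT.nd (nat_lit 55224) (nat_lit 0) (nat_lit 10032) (XT.nd (nat_lit 54132) (nat_lit 0) (nat_lit 18924) (XT.nd (nat_lit 546) (nat_lit 912) (nat_lit 0) (XT.nd (nat_lit 234) (nat_lit 988) (nat_lit 0) (XT.nd (nat_lit 78) (nat_lit 456) (nat_lit 0) (XT.lf (nat_lit 0) (nat_lit 13800024820) (nat_lit 456) (nat_lit 598264285) (nat_lit 532) (nat_lit 12700682659) (nat_lit 166) (nat_lit 5) (nat_lit 172) (nat_lit 5) (nat_lit 173) (nat_lit 5) (nat_lit 505) (nat_lit 435) (nat_lit 200)) (XT.nd (nat_lit 78) (nat_lit 0) (nat_lit 0) (XT.lf (nat_lit 0) (nat_lit 9160425) (nat_lit 456) (nat_lit 18843020892) (nat_lit 532) (nat_lit 8595805140) (nat_lit 160) (nat_lit 5) (nat_lit 166) (nat_lit 5) (nat_lit 167) (nat_lit 5) (nat_lit 506) (nat_lit 435) (nat_lit 199)) (XT.lf (nat_lit 0) (nat_lit 13754832441) (nat_lit 456) (nat_lit 9729921131) (nat_lit 532) (nat_lit 4317437765) (nat_lit 160) (nat_lit 5) (nat_lit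 166) (nat_lit 5) (nat_lit 167) (nat_lit 5) (nat_lit 507) (nat_lit 435) (nat_lit 198)))) (XT.nd (nat_lit 156) (nat_lit 456) (nat_lit 0) (XT.nd (nat_lit 78) (nat_lit 456) (nat_lit 0) (XT.lf (nat_lit 0) (nat_lit 42355492) (nat_lit 532) (nat_lit 393171492) (nat_lit 76) (nat_lit 27728019785) (nat_lit 159) (nat_lit 5) (nat_lit 166) (nat_lit 5) (nat_lit 160) (nat_lit 5) (nat_lit 508) (nat_lit 435) (nat_lit 197)) (XT.lf (nat_lit 0) (nat_lit 4576440780) (nat_lit 532) (nat_lit 14909133240) (nat_lit 76) (nat_lit 9043088218) (nat_lit 153) (nat_lit 5) (nat_lit 160) (nat_lit 5) (nat_lit 154) (nat_lit 5) (nat_lit 509) (nat_lit 435) (nat_lit 196))) (XT.nd (nat_lit 78) (nat_lit 456) (nat_lit 0) (XT.lf (nat_lit 0) (nat_lit 9203314848) (nat_lit 532) (nat_lit 990860010) (nat_lit 76) (nat_lit 18706864804) (nat_lit 153) (nat_lit 5) (nat_lit 160) (nat_lit 5) (nat_lit 154) (nat_lit 5) (nat_lit 510) (nat_lit 435) (nat_lit 195)) (XT.lf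 (nat_lit 0) (nat_lit 13376563694) (nat_lit 456) (nat_lit 629646472) (nat_lit 532) (nat_lit 15272986548) (nat_lit 147) (nat_lit 5) (nat_lit 153) (nat_lit 5) (nat_lit 154) (nat_lit 5) (nat_lit 511) (nat_lit 435) (nat_lit 194))))) (XT.nd (nat_lit 234) (nat_lit 532) (nat_lit 0) (XT.nd (nat_lit 78) (nat_lit 380) (nat_lit 0) (XT.lf (nat_lit 0) (nat_lit 18967771645) (nat_lit 532) (nat_lit 1683994244) (nat_lit 76) (nat_lit 9011900572) (nat_lit 147) (nat_lit 5) (nat_lit 154) (nat_lit 5) (nat_lit 148) (nat_lit 5) (nat_lit 512) (nat_lit 435) (nat_lit 193)) (XT.nd (nat_lit 78) (nat_lit 0) (nat_lit 0) (XT.lf (nat_lit 0) (nat_lit 12980500469) (nat_lit 380) (nat_lit 11133239061) (nat_lit 456) (nat_lit 5940384256) (nat_lit 142) (nat_lit 5) (nat_lit 147) (nat_lit 5) (nat_lit 148) (nat_lit 5) (nat_lit 513) (nat_lit 435) (nat_lit 192)) (XT.lf (nat_lit 0) (nat_lit 27956553659) (nat_lit 380) (nat_lit 1414135491) (nat_lit 456) (nat_lit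 1081541512) (nat_lit 142) (nat_lit 5) (nat_lit 147) (nat_lit 5) (nat_lit 148) (nat_lit 5) (nat_lit 514) (nat_lit 435) (nat_lit 191)))) (XT.nd (nat_lit 53196) (nat_lit 0) (nat_lit 20368) (XT.nd (nat_lit 78) (nat_lit 0) (nat_lit 0) (XT.lf (nat_lit 0) (nat_lit 3957557238) (nat_lit 532) (nat_lit 18403910324) (nat_lit 76) (nat_lit 8493652717) (nat_lit 135) (nat_lit 5) (nat_lit 142) (nat_lit 5) (nat_lit 136) (nat_lit 5) (nat_lit 515) (nat_lit 435) (nat_lit 190)) (XT.lf (nat_lit 0) (nat_lit 9106020782) (nat_lit 532) (nat_lit 3556046771) (nat_lit 76) (nat_lit 18603397418) (nat_lit 135) (nat_lit 5) (nat_lit 142) (nat_lit 5) (nat_lit 136) (nat_lit 5) (nat_lit 516) (nat_lit 435) (nat_lit 189))) (XT.nd (nat_lit 78) (nat_lit 0) (nat_lit 0) (XT.lf (nat_lit 0) (nat_lit 2086796911) (nat_lit 0) (nat_lit 2086796911) (nat_lit 1596) (nat_lit 2166054733) (nat_lit 403) (nat_lit 5) (nat_lit 403) (nat_lit 3) (nat_lit 424) (nat_lit 3)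 (nat_lit 436) (nat_lit 436) (nat_lit 268)) (XT.lf (nat_lit 0) (nat_lit 8842346696) (nat_lit 1596) (nat_lit 2743195601) (nat_lit 1672) (nat_lit 1211988047) (nat_lit 403) (nat_lit 5) (nat_lit 424) (nat_lit 3) (nat_lit 425) (nat_lit 5) (nat_lit 437) (nat_lit 436) (nat_lit 267)))))) (XT.nd (nat_lit 546) (nat_lit 1444) (nat_lit 0) (XT.nd (nat_lit 234) (nat_lit 0) (nat_lit 76) (XT.nd (nat_lit 78) (nat_lit 0) (nat_lit 0) (XT.lf (nat_lit 76) (nat_lit 3142588667) (nat_lit 0) (nat_lit 6242308549) (nat_lit 1672) (nat_lit 3532489810) (nat_lit 404) (nat_lit 5) (nat_lit 403) (nat_lit 5) (nat_lit 425) (nat_lit 5) (nat_lit 438) (nat_lit 436) (nat_lit 266)) (XT.nd (nat_lit 78) (nat_lit 0) (nat_lit 76) (XT.lf (nat_lit 76) (nat_lit 9177760375) (nat_lit 0) (nat_lit 768562654) (nat_lit 1672) (nat_lit 3093165711) (nat_lit 404) (nat_lit 5) (nat_lit 403) (nat_lit 5) (nat_lit 425) (nat_lit 5) (nat_lit 439) (nat_lit 436) (nat_lit 265))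 (XT.lf (nat_lit 76) (nat_lit 2161037753) (nat_lit 0) (nat_lit 8393081059) (nat_lit 1672) (nat_lit 2609219065) (nat_lit 405) (nat_lit 5) (nat_lit 404) (nat_lit 5) (nat_lit 426) (nat_lit 5) (nat_lit 440) (nat_lit 436) (nat_lit 264)))) (XT.nd (nat_lit 156) (nat_lit 0) (nat_lit 76) (XT.nd (nat_lit 78) (nat_lit 0) (nat_lit 76) (XT.lf (nat_lit 76) (nat_lit 8345837914) (nat_lit 0) (nat_lit 2849216348) (nat_lit 1672) (nat_lit 2094198117) (nat_lit 405) (nat_lit 5) (nat_lit 404) (nat_lit 5) (nat_lit 426) (nat_lit 5) (nat_lit 441) (nat_lit 436) (nat_lit 263)) (XT.lf (nat_lit 76) (nat_lit 1228817606) (nat_lit 0) (nat_lit 10636421313) (nat_lit 1672) (nat_lit 1552125542) (nat_lit 406) (nat_lit 5) (nat_lit 405) (nat_lit 5) (nat_lit 427) (nat_lit 5) (nat_lit 442) (nat_lit 436) (nat_lit 262))) (XT.nd (nat_lit 78) (nat_lit 0) (nat_lit 76) (XT.lf (nat_lit 76) (nat_lit 7566689445) (nat_lit 0) (nat_lit 5024446909) (nat_lit 1672)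 (nat_lit 956063994) (nat_lit 406) (nat_lit 5) (nat_lit 405) (nat_lit 5) (nat_lit 427) (nat_lit 5) (nat_lit 443) (nat_lit 436) (nat_lit 261)) (XT.lf (nat_lit 76) (nat_lit 345874950) (nat_lit 0) (nat_lit 12983070438) (nat_lit 1672) (nat_lit 350747286) (nat_lit 407) (nat_lit 5) (nat_lit 406) (nat_lit 5) (nat_lit 428) (nat_lit 5) (nat_lit 444) (nat_lit 436) (nat_lit 260))))) (XT.nd (nat_lit 234) (nat_lit 0) (nat_lit 76) (XT.nd (nat_lit 78) (nat_lit 0) (nat_lit 0) (XT.lf (nat_lit 0) (nat_lit 327533733) (nat_lit 1672) (nat_lit 6975344586) (nat_lit 1748) (nat_lit 6510642086) (nat_lit 384) (nat_lit 5) (nat_lit 406) (nat_lit 5) (nat_lit 407) (nat_lit 5) (nat_lit 445) (nat_lit 436) (nat_lit 259)) (XT.nd (nat_lit 78) (nat_lit 0) (nat_lit 76) (XT.lf (nat_lit 0) (nat_lit 1005553790) (nat_lit 1672) (nat_lit 497805808) (nat_lit 1748) (nat_lit 12446808482) (nat_lit 384) (nat_lit 5) (nat_lit 406) (nat_lit 5) (nat_lit 407) (nat_lit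 5) (nat_lit 446) (nat_lit 436) (nat_lit 258)) (XT.lf (nat_lit 0) (nat_lit 1757268132) (nat_lit 1672) (nat_lit 7933135649) (nat_lit 1748) (nat_lit 4397949264) (nat_lit 385) (nat_lit 5) (nat_lit 407) (nat_lit 5) (nat_lit 408) (nat_lit 5) (nat_lit 447) (nat_lit 436) (nat_lit 257)))) (XT.nd (nat_lit 156) (nat_lit 0) (nat_lit 76) (XT.nd (nat_lit 78) (nat_lit 0) (nat_lit 76) (XT.lf (nat_lit 0) (nat_lit 2528539810) (nat_lit 1672) (nat_lit 1296998333) (nat_lit 1748) (nat_lit 10403679982) (nat_lit 385) (nat_lit 5) (nat_lit 407) (nat_lit 5) (nat_lit 408) (nat_lit 5) (nat_lit 448) (nat_lit 436) (nat_lit 256)) (XT.lf (nat_lit 0) (nat_lit 3356834453) (nat_lit 1672) (nat_lit 8847835695) (nat_lit 1748) (nat_lit 2167405149) (nat_lit 386) (nat_lit 5) (nat_lit 408) (nat_lit 5) (nat_lit 409) (nat_lit 5) (nat_lit 449) (nat_lit 436) (nat_lit 255))) (XT.nd (nat_lit 78) (nat_lit 0) (nat_lit 0) (XT.lf (nat_lit 0) (nat_lit 4227318113)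 (nat_lit 1672) (nat_lit 2049401302) (nat_lit 1748) (nat_lit 8240564348) (nat_lit 386) (nat_lit 5) (nat_lit 408) (nat_lit 5) (nat_lit 409) (nat_lit 5) (nat_lit 450) (nat_lit 436) (nat_lit 254)) (XT.lf (nat_lit 76) (nat_lit 4944082663) (nat_lit 0) (nat_lit 194922431) (nat_lit 1748) (nat_lit 9525921911) (nat_lit 387) (nat_lit 5) (nat_lit 386) (nat_lit 5) (nat_lit 409) (nat_lit 5) (nat_lit 451) (nat_lit 436) (nat_lit 253))))))) (XT.nd (nat_lit 1092) (nat_lit 5548) (nat_lit 0) (XT.nd (nat_lit 546) (nat_lit 3572) (nat_lit 0) (XT.nd (nat_lit 234) (nat_lit 0) (nat_lit 76) (XT.nd (nat_lit 78) (nat_lit 0) (nat_lit 0) (XT.lf (nat_lit 0) (nat_lit 6113615739) (nat_lit 1672) (nat_lit 2755043558) (nat_lit 1748) (nat_lit 5945976369) (nat_lit 387) (nat_lit 5) (nat_lit 409) (nat_lit 5) (nat_lit 410) (nat_lit 5) (nat_lit 452) (nat_lit 436) (nat_lit 252)) (XT.nd (nat_lit 78) (nat_lit 0) (nat_lit 76) (XT.lf (nat_lit 76) (nat_lit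 4400704606) (nat_lit 0) (nat_lit 2728872310) (nat_lit 1748) (nat_lit 7837330648) (nat_lit 388) (nat_lit 5) (nat_lit 387) (nat_lit 5) (nat_lit 410) (nat_lit 5) (nat_lit 453) (nat_lit 436) (nat_lit 251)) (XT.lf (nat_lit 0) (nat_lit 8199539299) (nat_lit 1672) (nat_lit 3413941011) (nat_lit 1748) (nat_lit 3508077056) (nat_lit 388) (nat_lit 5) (nat_lit 410) (nat_lit 5) (nat_lit 411) (nat_lit 5) (nat_lit 454) (nat_lit 436) (nat_lit 250)))) (XT.nd (nat_lit 156) (nat_lit 0) (nat_lit 76) (XT.nd (nat_lit 78) (nat_lit 0) (nat_lit 76) (XT.lf (nat_lit 76) (nat_lit 3908741041) (nat_lit 0) (nat_lit 5417892935) (nat_lit 1748) (nat_lit 5951957515) (nat_lit 389) (nat_lit 5) (nat_lit 388) (nat_lit 5) (nat_lit 411) (nat_lit 5) (nat_lit 455) (nat_lit 436) (nat_lit 249)) (XT.lf (nat_lit 0) (nat_lit 10497593978) (nat_lit 1672) (nat_lit 4026108538) (nat_lit 1748) (nat_lit 914643183) (nat_lit 389) (nat_lit 5) (nat_lit 411) (nat_lit 5)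 (nat_lit 412) (nat_lit 5) (nat_lit 456) (nat_lit 436) (nat_lit 248))) (XT.nd (nat_lit 78) (nat_lit 0) (nat_lit 0) (XT.lf (nat_lit 76) (nat_lit 3468283438) (nat_lit 0) (nat_lit 8274645623) (nat_lit 1748) (nat_lit 3857352567) (nat_lit 390) (nat_lit 5) (nat_lit 389) (nat_lit 5) (nat_lit 412) (nat_lit 5) (nat_lit 457) (nat_lit 436) (nat_lit 247)) (XT.lf (nat_lit 76) (nat_lit 11161344733) (nat_lit 0) (nat_lit 1871509138) (nat_lit 1748) (nat_lit 2732214385) (nat_lit 390) (nat_lit 5) (nat_lit 389) (nat_lit 5) (nat_lit 412) (nat_lit 5) (nat_lit 458) (nat_lit 436) (nat_lit 246))))) (XT.nd (nat_lit 234) (nat_lit 2128) (nat_lit 0) (XT.nd (nat_lit 78) (nat_lit 1672) (nat_lit 0) (XT.lf (nat_lit 76) (nat_lit 3079410830) (nat_lit 0) (nat_lit 11312233060) (nat_lit 1748) (nat_lit 1540650925) (nat_lit 391) (nat_lit 5) (nat_lit 390) (nat_lit 5) (nat_lit 413) (nat_lit 5) (nat_lit 459) (nat_lit 436) (nat_lit 245)) (XT.nd (nat_lit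 78) (nat_lit 1672) (nat_lit 0) (XT.lf (nat_lit 76) (nat_lit 10960253127) (nat_lit 0) (nat_lit 4853485021) (nat_lit 1748) (nat_lit 288410610) (nat_lit 391) (nat_lit 5) (nat_lit 390) (nat_lit 5) (nat_lit 413) (nat_lit 5) (nat_lit 460) (nat_lit 436) (nat_lit 244)) (XT.lf (nat_lit 0) (nat_lit 998181106) (nat_lit 1748) (nat_lit 13539352986) (nat_lit 76) (nat_lit 1737296976) (nat_lit 368) (nat_lit 5) (nat_lit 391) (nat_lit 5) (nat_lit 369) (nat_lit 5) (nat_lit 461) (nat_lit 436) (nat_lit 243)))) (XT.nd (nat_lit 156) (nat_lit 836) (nat_lit 0) (XT.nd (nat_lit 78) (nat_lit 1292) (nat_lit 0) (XT.lf (nat_lit 0) (nat_lit 2366639284) (nat_lit 1748) (nat_lit 5650355967) (nat_lit 76) (nat_lit 8432738824) (nat_lit 368) (nat_lit 5) (nat_lit 391) (nat_lit 5) (nat_lit 369) (nat_lit 5) (nat_lit 462) (nat_lit 436) (nat_lit 242)) (XT.lf (nat_lit 0) (nat_lit 2422409699) (nat_lit 1292) (nat_lit 1349036989) (nat_lit 1368) (nat_lit 12856513863)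 (nat_lit 351) (nat_lit 5) (nat_lit 368) (nat_lit 5) (nat_lit 369) (nat_lit 5) (nat_lit 463) (nat_lit 436) (nat_lit 241))) (XT.nd (nat_lit 78) (nat_lit 836) (nat_lit 0) (XT.lf (nat_lit 0) (nat_lit 5271271124) (nat_lit 1368) (nat_lit 6117308869) (nat_lit 76) (nat_lit 5419838058) (nat_lit 351) (nat_lit 5) (nat_lit 369) (nat_lit 5) (nat_lit 352) (nat_lit 5) (nat_lit 464) (nat_lit 436) (nat_lit 240)) (XT.lf (nat_lit 0) (nat_lit 2146138907) (nat_lit 836) (nat_lit 4671304744) (nat_lit 912) (nat_lit 10174718834) (nat_lit 340) (nat_lit 5) (nat_lit 351) (nat_lit 5) (nat_lit 352) (nat_lit 5) (nat_lit 465) (nat_lit 436) (nat_lit 239)))))) (XT.nd (nat_lit 546) (nat_lit 2964) (nat_lit 0) (XT.nd (nat_lit 234) (nat_lit 1748) (nat_lit 0) (XT.nd (nat_lit 78) (nat_lit 836) (nat_lit 0) (XT.lf (nat_lit 0) (nat_lit 8443596371) (nat_lit 912) (nat_lit 6541283126) (nat_lit 76) (nat_lit 2193725895) (nat_lit 340) (nat_lit 5) (nat_lit 352)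 (nat_lit 5) (nat_lit 341) (nat_lit 5) (nat_lit 466) (nat_lit 436) (nat_lit 238)) (XT.nd (nat_lit 78) (nat_lit 0) (nat_lit 0) (XT.lf (nat_lit 0) (nat_lit 1918014799) (nat_lit 836) (nat_lit 8221350541) (nat_lit 912) (nat_lit 7228674582) (nat_lit 329) (nat_lit 5) (nat_lit 340) (nat_lit 5) (nat_lit 341) (nat_lit 5) (nat_lit 467) (nat_lit 436) (nat_lit 237)) (XT.lf (nat_lit 0) (nat_lit 10629448719) (nat_lit 836) (nat_lit 1277287113) (nat_lit 912) (nat_lit 5653778125) (nat_lit 329) (nat_lit 5) (nat_lit 340) (nat_lit 5) (nat_lit 341) (nat_lit 5) (nat_lit 468) (nat_lit 436) (nat_lit 236)))) (XT.nd (nat_lit 156) (nat_lit 912) (nat_lit 0) (XT.nd (nat_lit 78) (nat_lit 0) (nat_lit 0) (XT.lf (nat_lit 0) (nat_lit 1737633066) (nat_lit 836) (nat_lit 12014712279) (nat_lit 912) (nat_lit 4003638744) (nat_lit 318) (nat_lit 5) (nat_lit 329) (nat_lit 5) (nat_lit 330) (nat_lit 5) (nat_lit 469) (nat_lit 436) (nat_lit 235)) (XT.lf (nat_lit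 0) (nat_lit 10659388251) (nat_lit 836) (nat_lit 5024390968) (nat_lit 912) (nat_lit 2270610522) (nat_lit 318) (nat_lit 5) (nat_lit 329) (nat_lit 5) (nat_lit 330) (nat_lit 5) (nat_lit 470) (nat_lit 436) (nat_lit 234))) (XT.nd (nat_lit 78) (nat_lit 76) (nat_lit 0) (XT.lf (nat_lit 0) (nat_lit 1604475780) (nat_lit 836) (nat_lit 16067572645) (nat_lit 912) (nat_lit 484355224) (nat_lit 307) (nat_lit 5) (nat_lit 318) (nat_lit 5) (nat_lit 319) (nat_lit 5) (nat_lit 471) (nat_lit 436) (nat_lit 233)) (XT.lf (nat_lit 0) (nat_lit 1396787022) (nat_lit 912) (nat_lit 7628688202) (nat_lit 76) (nat_lit 9335278925) (nat_lit 306) (nat_lit 5) (nat_lit 318) (nat_lit 5) (nat_lit 307) (nat_lit 5) (nat_lit 472) (nat_lit 436) (nat_lit 232))))) (XT.nd (nat_lit 234) (nat_lit 1444) (nat_lit 0) (XT.nd (nat_lit 78) (nat_lit 760) (nat_lit 0) (XT.lf (nat_lit 0) (nat_lit 1483624810) (nat_lit 760) (nat_lit 1829348596) (nat_lit 836) (nat_lit 15256080115)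 (nat_lit 296) (nat_lit 5) (nat_lit 306) (nat_lit 5) (nat_lit 307) (nat_lit 5) (nat_lit 473) (nat_lit 436) (nat_lit 231)) (XT.nd (nat_lit 78) (nat_lit 760) (nat_lit 0) (XT.lf (nat_lit 0) (nat_lit 5349138583) (nat_lit 836) (nat_lit 7940742305) (nat_lit 76) (nat_lit 5490008842) (nat_lit 296) (nat_lit 5) (nat_lit 307) (nat_lit 5) (nat_lit 297) (nat_lit 5) (nat_lit 474) (nat_lit 436) (nat_lit 230)) (XT.lf (nat_lit 0) (nat_lit 1387307841) (nat_lit 760) (nat_lit 6054296733) (nat_lit 836) (nat_lit 11553030410) (nat_lit 286) (nat_lit 5) (nat_lit 296) (nat_lit 5) (nat_lit 297) (nat_lit 5) (nat_lit 475) (nat_lit 436) (nat_lit 229)))) (XT.nd (nat_lit 156) (nat_lit 760) (nat_lit 0) (XT.nd (nat_lit 78) (nat_lit 684) (nat_lit 0) (XT.lf (nat_lit 0) (nat_lit 9632695783) (nat_lit 836) (nat_lit 8217699294) (nat_lit 76) (nat_lit 1362148345) (nat_lit 286) (nat_lit 5) (nat_lit 297) (nat_lit 5) (nat_lit 287) (nat_lit 5) (nat_lit 476)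 (nat_lit 436) (nat_lit 228)) (XT.lf (nat_lit 0) (nat_lit 1331515409) (nat_lit 684) (nat_lit 10579467658) (nat_lit 760) (nat_lit 7522963199) (nat_lit 277) (nat_lit 5) (nat_lit 286) (nat_lit 5) (nat_lit 287) (nat_lit 5) (nat_lit 477) (nat_lit 436) (nat_lit 227))) (XT.nd (nat_lit 78) (nat_lit 760) (nat_lit 0) (XT.lf (nat_lit 0) (nat_lit 11177570068) (nat_lit 684) (nat_lit 3107114859) (nat_lit 760) (nat_lit 5374098912) (nat_lit 277) (nat_lit 5) (nat_lit 286) (nat_lit 5) (nat_lit 287) (nat_lit 5) (nat_lit 478) (nat_lit 436) (nat_lit 226)) (XT.lf (nat_lit 0) (nat_lit 1314824760) (nat_lit 760) (nat_lit 15423691166) (nat_lit 836) (nat_lit 3148952714) (nat_lit 267) (nat_lit 5) (nat_lit 277) (nat_lit 5) (nat_lit 278) (nat_lit 5) (nat_lit 479) (nat_lit 436) (nat_lit 225))))))))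
noncomputable def xc218 : XT := (XT.nd (nat_lit 2184) (nat_lit 1900) (nat_lit 0) (XT.nd (nat_lit 1092) (nat_lit 3648) (nat_lit 0) (XT.nd (nat_lit 546) (nat_lit 2432) (nat_lit 0) (XT.nd (nat_lit 234) (nat_lit 1292) (nat_lit 0) (XT.nd (nat_lit 78) (nat_lit 760) (nat_lit 0) (XT.lf (nat_lit 0) (nat_lit 11395400457) (nat_lit 760) (nat_lit 7918250241) (nat_lit 836) (nat_lit 805635404) (nat_lit 267) (nat_lit 5) (nat_lit 277) (nat_lit 5) (nat_lit 278) (nat_lit 5) (nat_lit 480) (nat_lit 436) (nat_lit 224)) (XT.nd (nat_lit 78) (nat_lit 0) (nat_lit 0) (XT.lf (nat_lit 0) (nat_lit 1323456004) (nat_lit 684) (nat_lit 243839424) (nat_lit 760) (nat_lit 18788171521) (nat_lit 257) (nat_lit 5) (nat_lit 266) (nat_lit 5) (nat_lit 267) (nat_lit 5) (nat_lit 481) (nat_lit 436) (nat_lit 223)) (XT.lf (nat_lit 0) (nat_lit 4080075174) (nat_lit 760) (nat_lit 8965691082) (nat_lit 76) (nat_lit 7548438402) (nat_lit 257) (nat_lit 5) (nat_lit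 267) (nat_lit 5) (nat_lit 258) (nat_lit 5) (nat_lit 482) (nat_lit 436) (nat_lit 222)))) (XT.nd (nat_lit 156) (nat_lit 608) (nat_lit 0) (XT.nd (nat_lit 78) (nat_lit 0) (nat_lit 0) (XT.lf (nat_lit 0) (nat_lit 1312131753) (nat_lit 684) (nat_lit 5336208278) (nat_lit 760) (nat_lit 14189275741) (nat_lit 248) (nat_lit 5) (nat_lit 257) (nat_lit 5) (nat_lit 258) (nat_lit 5) (nat_lit 483) (nat_lit 436) (nat_lit 221)) (XT.lf (nat_lit 0) (nat_lit 9340096789) (nat_lit 760) (nat_lit 9189935727) (nat_lit 76) (nat_lit 2554423238) (nat_lit 248) (nat_lit 5) (nat_lit 258) (nat_lit 5) (nat_lit 249) (nat_lit 5) (nat_lit 484) (nat_lit 436) (nat_lit 220))) (XT.nd (nat_lit 78) (nat_lit 0) (nat_lit 0) (XT.lf (nat_lit 0) (nat_lit 1329044132) (nat_lit 608) (nat_lit 10795860933) (nat_lit 684) (nat_lit 9210546255) (nat_lit 240) (nat_lit 5) (nat_lit 248) (nat_lit 5) (nat_lit 249) (nat_lit 5) (nat_lit 485) (nat_lit 436) (nat_lit 219)) (XT.lf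 (nat_lit 0) (nat_lit 12177639995) (nat_lit 608) (nat_lit 2844745569) (nat_lit 684) (nat_lit 6567944767) (nat_lit 240) (nat_lit 5) (nat_lit 248) (nat_lit 5) (nat_lit 249) (nat_lit 5) (nat_lit 486) (nat_lit 436) (nat_lit 218))))) (XT.nd (nat_lit 234) (nat_lit 1140) (nat_lit 0) (XT.nd (nat_lit 78) (nat_lit 684) (nat_lit 0) (XT.lf (nat_lit 0) (nat_lit 1371378408) (nat_lit 608) (nat_lit 16644922267) (nat_lit 684) (nat_lit 3833239541) (nat_lit 232) (nat_lit 5) (nat_lit 240) (nat_lit 5) (nat_lit 241) (nat_lit 5) (nat_lit 487) (nat_lit 436) (nat_lit 217)) (XT.nd (nat_lit 78) (nat_lit 684) (nat_lit 0) (XT.lf (nat_lit 0) (nat_lit 12474343396) (nat_lit 608) (nat_lit 8673080892) (nat_lit 684) (nat_lit 964966342) (nat_lit 232) (nat_lit 5) (nat_lit 240) (nat_lit 5) (nat_lit 241) (nat_lit 5) (nat_lit 488) (nat_lit 436) (nat_lit 216)) (XT.lf (nat_lit 0) (nat_lit 1419511040) (nat_lit 608) (nat_lit 520170602) (nat_lit 684) (nat_lit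 20440470152) (nat_lit 223) (nat_lit 5) (nat_lit 231) (nat_lit 5) (nat_lit 232) (nat_lit 5) (nat_lit 489) (nat_lit 436) (nat_lit 215)))) (XT.nd (nat_lit 156) (nat_lit 532) (nat_lit 0) (XT.nd (nat_lit 78) (nat_lit 608) (nat_lit 0) (XT.lf (nat_lit 0) (nat_lit 5000790670) (nat_lit 684) (nat_lit 9885839974) (nat_lit 76) (nat_lit 7764286958) (nat_lit 223) (nat_lit 5) (nat_lit 232) (nat_lit 5) (nat_lit 224) (nat_lit 5) (nat_lit 490) (nat_lit 436) (nat_lit 214)) (XT.lf (nat_lit 0) (nat_lit 1420447539) (nat_lit 608) (nat_lit 6710985509) (nat_lit 684) (nat_lit 14795502164) (nat_lit 215) (nat_lit 5) (nat_lit 223) (nat_lit 5) (nat_lit 224) (nat_lit 5) (nat_lit 491) (nat_lit 436) (nat_lit 213))) (XT.nd (nat_lit 78) (nat_lit 532) (nat_lit 0) (XT.lf (nat_lit 0) (nat_lit 11397728177) (nat_lit 684) (nat_lit 10136533824) (nat_lit 76) (nat_lit 1672753034) (nat_lit 215) (nat_lit 5) (nat_lit 224) (nat_lit 5) (nat_lit 216) (nat_lit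 5) (nat_lit 492) (nat_lit 436) (nat_lit 212)) (XT.lf (nat_lit 0) (nat_lit 1429989976) (nat_lit 532) (nat_lit 13348861998) (nat_lit 608) (nat_lit 8712857031) (nat_lit 208) (nat_lit 5) (nat_lit 215) (nat_lit 5) (nat_lit 216) (nat_lit 5) (nat_lit 493) (nat_lit 436) (nat_lit 211)))))) (XT.nd (nat_lit 546) (nat_lit 1976) (nat_lit 0) (XT.nd (nat_lit 234) (nat_lit 1064) (nat_lit 0) (XT.nd (nat_lit 78) (nat_lit 608) (nat_lit 0) (XT.lf (nat_lit 0) (nat_lit 13360141367) (nat_lit 532) (nat_lit 4931302765) (nat_lit 608) (nat_lit 5489378361) (nat_lit 208) (nat_lit 5) (nat_lit 215) (nat_lit 5) (nat_lit 216) (nat_lit 5) (nat_lit 494) (nat_lit 436) (nat_lit 210)) (XT.nd (nat_lit 78) (nat_lit 76) (nat_lit 0) (XT.lf (nat_lit 0) (nat_lit 1443293852) (nat_lit 532) (nat_lit 20459993594) (nat_lit 608) (nat_lit 2171853321) (nat_lit 201) (nat_lit 5) (nat_lit 208) (nat_lit 5) (nat_lit 209) (nat_lit 5) (nat_lit 495) (nat_lit 436) (nat_lit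 209)) (XT.lf (nat_lit 0) (nat_lit 1295094007) (nat_lit 608) (nat_lit 10734241224) (nat_lit 76) (nat_lit 12343875847) (nat_lit 200) (nat_lit 5) (nat_lit 208) (nat_lit 5) (nat_lit 201) (nat_lit 5) (nat_lit 496) (nat_lit 436) (nat_lit 208)))) (XT.nd (nat_lit 156) (nat_lit 532) (nat_lit 0) (XT.nd (nat_lit 78) (nat_lit 0) (nat_lit 0) (XT.lf (nat_lit 0) (nat_lit 1400290867) (nat_lit 532) (nat_lit 3407125813) (nat_lit 608) (nat_lit 19869439004) (nat_lit 193) (nat_lit 5) (nat_lit 200) (nat_lit 5) (nat_lit 201) (nat_lit 5) (nat_lit 497) (nat_lit 436) (nat_lit 207)) (XT.lf (nat_lit 0) (nat_lit 8493512909) (nat_lit 608) (nat_lit 11102619408) (nat_lit 76) (nat_lit 5388372640) (nat_lit 193) (nat_lit 5) (nat_lit 201) (nat_lit 5) (nat_lit 194) (nat_lit 5) (nat_lit 498) (nat_lit 436) (nat_lit 206))) (XT.nd (nat_lit 78) (nat_lit 0) (nat_lit 0) (XT.lf (nat_lit 0) (nat_lit 1304398090) (nat_lit 532) (nat_lit 10976081668) (nat_lit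 608) (nat_lit 13017286752) (nat_lit 186) (nat_lit 5) (nat_lit 193) (nat_lit 5) (nat_lit 194) (nat_lit 5) (nat_lit 499) (nat_lit 436) (nat_lit 205)) (XT.lf (nat_lit 0) (nat_lit 14105136948) (nat_lit 532) (nat_lit 2108713576) (nat_lit 608) (nat_lit 9402031701) (nat_lit 186) (nat_lit 5) (nat_lit 193) (nat_lit 5) (nat_lit 194) (nat_lit 5) (nat_lit 500) (nat_lit 436) (nat_lit 204))))) (XT.nd (nat_lit 234) (nat_lit 912) (nat_lit 0) (XT.nd (nat_lit 78) (nat_lit 608) (nat_lit 0) (XT.lf (nat_lit 0) (nat_lit 1187175118) (nat_lit 456) (nat_lit 19087683230) (nat_lit 532) (nat_lit 5664524695) (nat_lit 180) (nat_lit 5) (nat_lit 186) (nat_lit 5) (nat_lit 187) (nat_lit 5) (nat_lit 501) (nat_lit 436) (nat_lit 203)) (XT.nd (nat_lit 78) (nat_lit 608) (nat_lit 0) (XT.lf (nat_lit 0) (nat_lit 14276074613) (nat_lit 456) (nat_lit 10228398976) (nat_lit 532) (nat_lit 1763134682) (nat_lit 180) (nat_lit 5) (nat_lit 186) (nat_lit 5) (nat_lit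 187) (nat_lit 5) (nat_lit 502) (nat_lit 436) (nat_lit 202)) (XT.lf (nat_lit 0) (nat_lit 1018506803) (nat_lit 532) (nat_lit 1171640019) (nat_lit 608) (nat_lit 24411906832) (nat_lit 172) (nat_lit 5) (nat_lit 179) (nat_lit 5) (nat_lit 180) (nat_lit 5) (nat_lit 503) (nat_lit 436) (nat_lit 201)))) (XT.nd (nat_lit 156) (nat_lit 456) (nat_lit 0) (XT.nd (nat_lit 78) (nat_lit 456) (nat_lit 0) (XT.lf (nat_lit 0) (nat_lit 6328633079) (nat_lit 608) (nat_lit 12559714200) (nat_lit 76) (nat_lit 8052014642) (nat_lit 172) (nat_lit 5) (nat_lit 180) (nat_lit 5) (nat_lit 173) (nat_lit 5) (nat_lit 504) (nat_lit 436) (nat_lit 200)) (XT.lf (nat_lit 0) (nat_lit 721542843) (nat_lit 456) (nat_lit 9837213238) (nat_lit 532) (nat_lit 16726504909) (nat_lit 166) (nat_lit 5) (nat_lit 172) (nat_lit 5) (nat_lit 173) (nat_lit 5) (nat_lit 505) (nat_lit 436) (nat_lit 199))) (XT.nd (nat_lit 78) (nat_lit 456) (nat_lit 0) (XT.lf (nat_lit 0) (nat_lit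 14433950330) (nat_lit 456) (nat_lit 520276044) (nat_lit 532) (nat_lit 12681218706) (nat_lit 166) (nat_lit 5) (nat_lit 172) (nat_lit 5) (nat_lit 173) (nat_lit 5) (nat_lit 506) (nat_lit 436) (nat_lit 198)) (XT.lf (nat_lit 0) (nat_lit 369803577) (nat_lit 456) (nat_lit 19125051442) (nat_lit 532) (nat_lit 8496634753) (nat_lit 160) (nat_lit 5) (nat_lit 166) (nat_lit 5) (nat_lit 167) (nat_lit 5) (nat_lit 507) (nat_lit 436) (nat_lit 197))))))) (XT.nd (nat_lit 54210) (nat_lit 0) (nat_lit 18924) (XT.nd (nat_lit 546) (nat_lit 532) (nat_lit 0) (XT.nd (nat_lit 234) (nat_lit 836) (nat_lit 0) (XT.nd (nat_lit 78) (nat_lit 532) (nat_lit 0) (XT.lf (nat_lit 0) (nat_lit 14383321191) (nat_lit 456) (nat_lit 9831549094) (nat_lit 532) (nat_lit 4138015451) (nat_lit 160) (nat_lit 5) (nat_lit 166) (nat_lit 5) (nat_lit 167) (nat_lit 5) (nat_lit 508) (nat_lit 436) (nat_lit 196)) (XT.nd (nat_lit 78) (nat_lit 456) (nat_lit 0) (XT.lf (nat_lit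 0) (nat_lit 300345184) (nat_lit 532) (nat_lit 51019269) (nat_lit 76) (nat_lit 28370174881) (nat_lit 159) (nat_lit 5) (nat_lit 166) (nat_lit 5) (nat_lit 160) (nat_lit 5) (nat_lit 509) (nat_lit 436) (nat_lit 195)) (XT.lf (nat_lit 0) (nat_lit 4922933870) (nat_lit 532) (nat_lit 14854989083) (nat_lit 76) (nat_lit 9316080383) (nat_lit 153) (nat_lit 5) (nat_lit 160) (nat_lit 5) (nat_lit 154) (nat_lit 5) (nat_lit 510) (nat_lit 436) (nat_lit 194)))) (XT.nd (nat_lit 156) (nat_lit 380) (nat_lit 0) (XT.nd (nat_lit 78) (nat_lit 456) (nat_lit 0) (XT.lf (nat_lit 0) (nat_lit 9637346120) (nat_lit 532) (nat_lit 665258758) (nat_lit 76) (nat_lit 19171326022) (nat_lit 153) (nat_lit 5) (nat_lit 160) (nat_lit 5) (nat_lit 154) (nat_lit 5) (nat_lit 511) (nat_lit 436) (nat_lit 193)) (XT.lf (nat_lit 0) (nat_lit 13987240931) (nat_lit 456) (nat_lit 546385071) (nat_lit 532) (nat_lit 15326081112) (nat_lit 147) (nat_lit 5) (nat_lit 153) (nat_lit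 5) (nat_lit 154) (nat_lit 5) (nat_lit 512) (nat_lit 436) (nat_lit 192))) (XT.nd (nat_lit 78) (nat_lit 380) (nat_lit 0) (XT.lf (nat_lit 0) (nat_lit 19590180001) (nat_lit 532) (nat_lit 1376892611) (nat_lit 76) (nat_lit 9284880921) (nat_lit 147) (nat_lit 5) (nat_lit 154) (nat_lit 5) (nat_lit 148) (nat_lit 5) (nat_lit 513) (nat_lit 436) (nat_lit 191)) (XT.lf (nat_lit 0) (nat_lit 13578650012) (nat_lit 380) (nat_lit 11257849512) (nat_lit 456) (nat_lit 5813774290) (nat_lit 142) (nat_lit 5) (nat_lit 147) (nat_lit 5) (nat_lit 148) (nat_lit 5) (nat_lit 514) (nat_lit 436) (nat_lit 190))))) (XT.nd (nat_lit 53352) (nat_lit 0) (nat_lit 20368) (XT.nd (nat_lit 78) (nat_lit 532) (nat_lit 0) (XT.lf (nat_lit 0) (nat_lit 28847586237) (nat_lit 380) (nat_lit 1346286504) (nat_lit 456) (nat_lit 862566802) (nat_lit 142) (nat_lit 5) (nat_lit 147) (nat_lit 5) (nat_lit 148) (nat_lit 5) (nat_lit 515) (nat_lit 436) (nat_lit 189)) (XT.nd (nat_lit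 53196) (nat_lit 0) (nat_lit 20368) (XT.lf (nat_lit 0) (nat_lit 4272300690) (nat_lit 532) (nat_lit 18434840152) (nat_lit 76) (nat_lit 8760254332) (nat_lit 135) (nat_lit 5) (nat_lit 142) (nat_lit 5) (nat_lit 136) (nat_lit 5) (nat_lit 516) (nat_lit 436) (nat_lit 188)) (XT.lf (nat_lit 0) (nat_lit 2329079045) (nat_lit 0) (nat_lit 2329079045) (nat_lit 1596) (nat_lit 1799937709) (nat_lit 403) (nat_lit 5) (nat_lit 403) (nat_lit 3) (nat_lit 424) (nat_lit 3) (nat_lit 437) (nat_lit 437) (nat_lit 266)))) (XT.nd (nat_lit 156) (nat_lit 0) (nat_lit 0) (XT.nd (nat_lit 78) (nat_lit 0) (nat_lit 0) (XT.lf (nat_lit 0) (nat_lit 9803096204) (nat_lit 1596) (nat_lit 2385914411) (nat_lit 1672) (nat_lit 848157227) (nat_lit 403) (nat_lit 5) (nat_lit 424) (nat_lit 3) (nat_lit 425) (nat_lit 5) (nat_lit 438) (nat_lit 437) (nat_lit 265)) (XT.lf (nat_lit 76) (nat_lit 3614874062) (nat_lit 0) (nat_lit 6728911349) (nat_lit 1672) (nat_lit 2815902946)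 (nat_lit 404) (nat_lit 5) (nat_lit 403) (nat_lit 5) (nat_lit 425) (nat_lit 5) (nat_lit 439) (nat_lit 437) (nat_lit 264))) (XT.nd (nat_lit 78) (nat_lit 0) (nat_lit 76) (XT.lf (nat_lit 76) (nat_lit 9762721093) (nat_lit 0) (nat_lit 1138597269) (nat_lit 1672) (nat_lit 2383228377) (nat_lit 404) (nat_lit 5) (nat_lit 403) (nat_lit 5) (nat_lit 425) (nat_lit 5) (nat_lit 440) (nat_lit 437) (nat_lit 263)) (XT.lf (nat_lit 76) (nat_lit 2620939029) (nat_lit 0) (nat_lit 8885953959) (nat_lit 1672) (nat_lit 1904279381) (nat_lit 405) (nat_lit 5) (nat_lit 404) (nat_lit 5) (nat_lit 426) (nat_lit 5) (nat_lit 441) (nat_lit 437) (nat_lit 262)))))) (XT.nd (nat_lit 546) (nat_lit 0) (nat_lit 76) (XT.nd (nat_lit 234) (nat_lit 1520) (nat_lit 0) (XT.nd (nat_lit 78) (nat_lit 0) (nat_lit 76) (XT.lf (nat_lit 76) (nat_lit 8921264987) (nat_lit 0) (nat_lit 3224839184) (nat_lit 1672) (nat_lit 1393803584) (nat_lit 405) (nat_lit 5) (nat_lit 404)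 (nat_lit 5) (nat_lit 426) (nat_lit 5) (nat_lit 442) (nat_lit 437) (nat_lit 261)) (XT.nd (nat_lit 78) (nat_lit 0) (nat_lit 0) (XT.lf (nat_lit 76) (nat_lit 1676302042) (nat_lit 0) (nat_lit 11139850213) (nat_lit 1672) (nat_lit 854712135) (nat_lit 406) (nat_lit 5) (nat_lit 405) (nat_lit 5) (nat_lit 427) (nat_lit 5) (nat_lit 443) (nat_lit 437) (nat_lit 260)) (XT.lf (nat_lit 76) (nat_lit 8132639002) (nat_lit 0) (nat_lit 5409936311) (nat_lit 1672) (nat_lit 261012805) (nat_lit 406) (nat_lit 5) (nat_lit 405) (nat_lit 5) (nat_lit 427) (nat_lit 5) (nat_lit 444) (nat_lit 437) (nat_lit 259)))) (XT.nd (nat_lit 156) (nat_lit 0) (nat_lit 0) (XT.nd (nat_lit 78) (nat_lit 0) (nat_lit 0) (XT.lf (nat_lit 0) (nat_lit 338888467) (nat_lit 1672) (nat_lit 13160246725) (nat_lit 1748) (nat_lit 439816605) (nat_lit 384) (nat_lit 5) (nat_lit 406) (nat_lit 5) (nat_lit 407) (nat_lit 5) (nat_lit 445) (nat_lit 437) (nat_lit 258)) (XT.lf (nat_lit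 0) (nat_lit 1012475176) (nat_lit 1672) (nat_lit 6685513709) (nat_lit 1748) (nat_lit 6377702725) (nat_lit 384) (nat_lit 5) (nat_lit 406) (nat_lit 5) (nat_lit 407) (nat_lit 5) (nat_lit 446) (nat_lit 437) (nat_lit 257))) (XT.nd (nat_lit 78) (nat_lit 0) (nat_lit 76) (XT.lf (nat_lit 0) (nat_lit 1690753854) (nat_lit 1672) (nat_lit 86842543) (nat_lit 1748) (nat_lit 12437752297) (nat_lit 384) (nat_lit 5) (nat_lit 406) (nat_lit 5) (nat_lit 407) (nat_lit 5) (nat_lit 447) (nat_lit 437) (nat_lit 256)) (XT.lf (nat_lit 0) (nat_lit 2445640184) (nat_lit 1672) (nat_lit 7658505928) (nat_lit 1748) (nat_lit 4252398706) (nat_lit 385) (nat_lit 5) (nat_lit 407) (nat_lit 5) (nat_lit 408) (nat_lit 5) (nat_lit 448) (nat_lit 437) (nat_lit 255))))) (XT.nd (nat_lit 234) (nat_lit 0) (nat_lit 76) (XT.nd (nat_lit 78) (nat_lit 0) (nat_lit 76) (XT.lf (nat_lit 0) (nat_lit 3219528929) (nat_lit 1672) (nat_lit 898141796) (nat_lit 1748) (nat_lit 10382822657)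 (nat_lit 385) (nat_lit 5) (nat_lit 407) (nat_lit 5) (nat_lit 408) (nat_lit 5) (nat_lit 449) (nat_lit 437) (nat_lit 254)) (XT.nd (nat_lit 78) (nat_lit 0) (nat_lit 0) (XT.lf (nat_lit 0) (nat_lit 4053217794) (nat_lit 1672) (nat_lit 8588333315) (nat_lit 1748) (nat_lit 2004889842) (nat_lit 386) (nat_lit 5) (nat_lit 408) (nat_lit 5) (nat_lit 409) (nat_lit 5) (nat_lit 450) (nat_lit 437) (nat_lit 253)) (XT.lf (nat_lit 0) (nat_lit 4928772957) (nat_lit 1672) (nat_lit 1662488256) (nat_lit 1748) (nat_lit 8203548762) (nat_lit 386) (nat_lit 5) (nat_lit 408) (nat_lit 5) (nat_lit 409) (nat_lit 5) (nat_lit 451) (nat_lit 437) (nat_lit 252)))) (XT.nd (nat_lit 156) (nat_lit 0) (nat_lit 76) (XT.nd (nat_lit 78) (nat_lit 0) (nat_lit 76) (XT.lf (nat_lit 76) (nat_lit 5468050250) (nat_lit 0) (nat_lit 381307122) (nat_lit 1748) (nat_lit 9096244872) (nat_lit 387) (nat_lit 5) (nat_lit 386) (nat_lit 5) (nat_lit 409) (nat_lit 5) (nat_lit 452)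 (nat_lit 437) (nat_lit 251)) (XT.lf (nat_lit 0) (nat_lit 6830385462) (nat_lit 1672) (nat_lit 2379856138) (nat_lit 1748) (nat_lit 5888334227) (nat_lit 387) (nat_lit 5) (nat_lit 409) (nat_lit 5) (nat_lit 410) (nat_lit 5) (nat_lit 453) (nat_lit 437) (nat_lit 250))) (XT.nd (nat_lit 78) (nat_lit 0) (nat_lit 76) (XT.lf (nat_lit 76) (nat_lit 4916176144) (nat_lit 0) (nat_lit 2941608242) (nat_lit 1748) (nat_lit 7396295475) (nat_lit 388) (nat_lit 5) (nat_lit 387) (nat_lit 5) (nat_lit 410) (nat_lit 5) (nat_lit 454) (nat_lit 437) (nat_lit 249)) (XT.lf (nat_lit 0) (nat_lit 8936656617) (nat_lit 1672) (nat_lit 3050209861) (nat_lit 1748) (nat_lit 3425214863) (nat_lit 388) (nat_lit 5) (nat_lit 410) (nat_lit 5) (nat_lit 411) (nat_lit 5) (nat_lit 455) (nat_lit 437) (nat_lit 248))))))))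
noncomputable def xc219 : XT := (XT.nd (nat_lit 2184) (nat_lit 7904) (nat_lit 0) (XT.nd (nat_lit 1092) (nat_lit 5472) (nat_lit 0) (XT.nd (nat_lit 546) (nat_lit 2888) (nat_lit 0) (XT.nd (nat_lit 234) (nat_lit 1596) (nat_lit 0) (XT.nd (nat_lit 78) (nat_lit 0) (nat_lit 76) (XT.lf (nat_lit 76) (nat_lit 4416083660) (nat_lit 0) (nat_lit 5661758193) (nat_lit 1748) (nat_lit 5494592040) (nat_lit 389) (nat_lit 5) (nat_lit 388) (nat_lit 5) (nat_lit 411) (nat_lit 5) (nat_lit 456) (nat_lit 437) (nat_lit 247)) (XT.nd (nat_lit 78) (nat_lit 0) (nat_lit 0) (XT.lf (nat_lit 0) (nat_lit 11260286441) (nat_lit 1672) (nat_lit 3673515973) (nat_lit 1748) (nat_lit 801828011) (nat_lit 389) (nat_lit 5) (nat_lit 411) (nat_lit 5) (nat_lit 412) (nat_lit 5) (nat_lit 457) (nat_lit 437) (nat_lit 246)) (XT.lf (nat_lit 76) (nat_lit 3967914403) (nat_lit 0) (nat_lit 8554569340) (nat_lit 1748) (nat_lit 3378490600) (nat_lit 390) (nat_lit 5) (nat_lit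 389) (nat_lit 5) (nat_lit 412) (nat_lit 5) (nat_lit 458) (nat_lit 437) (nat_lit 245)))) (XT.nd (nat_lit 156) (nat_lit 1672) (nat_lit 0) (XT.nd (nat_lit 78) (nat_lit 0) (nat_lit 76) (XT.lf (nat_lit 76) (nat_lit 11806400350) (nat_lit 0) (nat_lit 2021126385) (nat_lit 1748) (nat_lit 2241751792) (nat_lit 390) (nat_lit 5) (nat_lit 389) (nat_lit 5) (nat_lit 412) (nat_lit 5) (nat_lit 459) (nat_lit 437) (nat_lit 244)) (XT.lf (nat_lit 76) (nat_lit 3571794308) (nat_lit 0) (nat_lit 11633310245) (nat_lit 1748) (nat_lit 1034920877) (nat_lit 391) (nat_lit 5) (nat_lit 390) (nat_lit 5) (nat_lit 413) (nat_lit 5) (nat_lit 460) (nat_lit 437) (nat_lit 243))) (XT.nd (nat_lit 78) (nat_lit 0) (nat_lit 76) (XT.lf (nat_lit 0) (nat_lit 228803117) (nat_lit 1748) (nat_lit 4813189277) (nat_lit 1824) (nat_lit 11371467978) (nat_lit 367) (nat_lit 5) (nat_lit 390) (nat_lit 5) (nat_lit 391) (nat_lit 5) (nat_lit 461) (nat_lit 437) (nat_lit 242))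 (XT.lf (nat_lit 0) (nat_lit 1529309402) (nat_lit 1748) (nat_lit 13372167226) (nat_lit 76) (nat_lit 1688248269) (nat_lit 368) (nat_lit 5) (nat_lit 391) (nat_lit 5) (nat_lit 369) (nat_lit 5) (nat_lit 462) (nat_lit 437) (nat_lit 241))))) (XT.nd (nat_lit 234) (nat_lit 1672) (nat_lit 0) (XT.nd (nat_lit 78) (nat_lit 1292) (nat_lit 0) (XT.lf (nat_lit 0) (nat_lit 2915113907) (nat_lit 1748) (nat_lit 5333977970) (nat_lit 76) (nat_lit 8519241987) (nat_lit 368) (nat_lit 5) (nat_lit 391) (nat_lit 5) (nat_lit 369) (nat_lit 5) (nat_lit 463) (nat_lit 437) (nat_lit 240)) (XT.nd (nat_lit 78) (nat_lit 0) (nat_lit 0) (XT.lf (nat_lit 0) (nat_lit 2897418108) (nat_lit 1292) (nat_lit 1443542553) (nat_lit 1368) (nat_lit 12609312640) (nat_lit 351) (nat_lit 5) (nat_lit 368) (nat_lit 5) (nat_lit 369) (nat_lit 5) (nat_lit 464) (nat_lit 437) (nat_lit 239)) (XT.lf (nat_lit 0) (nat_lit 5860663824) (nat_lit 1368) (nat_lit 5810983388) (nat_lit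 76) (nat_lit 5462902247) (nat_lit 351) (nat_lit 5) (nat_lit 369) (nat_lit 5) (nat_lit 352) (nat_lit 5) (nat_lit 465) (nat_lit 437) (nat_lit 238)))) (XT.nd (nat_lit 156) (nat_lit 836) (nat_lit 0) (XT.nd (nat_lit 78) (nat_lit 0) (nat_lit 0) (XT.lf (nat_lit 0) (nat_lit 2614913136) (nat_lit 836) (nat_lit 4816122021) (nat_lit 912) (nat_lit 9891075128) (nat_lit 340) (nat_lit 5) (nat_lit 351) (nat_lit 5) (nat_lit 352) (nat_lit 5) (nat_lit 466) (nat_lit 437) (nat_lit 237)) (XT.lf (nat_lit 0) (nat_lit 9080026109) (nat_lit 912) (nat_lit 6244578822) (nat_lit 76) (nat_lit 2187877690) (nat_lit 340) (nat_lit 5) (nat_lit 352) (nat_lit 5) (nat_lit 341) (nat_lit 5) (nat_lit 467) (nat_lit 437) (nat_lit 236))) (XT.nd (nat_lit 78) (nat_lit 0) (nat_lit 0) (XT.lf (nat_lit 0) (nat_lit 2381092364) (nat_lit 836) (nat_lit 8422207839) (nat_lit 912) (nat_lit 6902540583) (nat_lit 329) (nat_lit 5) (nat_lit 340) (nat_lit 5) (nat_lit 341) (nat_lit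 5) (nat_lit 468) (nat_lit 437) (nat_lit 235)) (XT.lf (nat_lit 0) (nat_lit 11258427173) (nat_lit 836) (nat_lit 1338548824) (nat_lit 912) (nat_lit 5305375756) (nat_lit 329) (nat_lit 5) (nat_lit 340) (nat_lit 5) (nat_lit 341) (nat_lit 5) (nat_lit 469) (nat_lit 437) (nat_lit 234)))))) (XT.nd (nat_lit 546) (nat_lit 2204) (nat_lit 0) (XT.nd (nat_lit 234) (nat_lit 1596) (nat_lit 0) (XT.nd (nat_lit 78) (nat_lit 836) (nat_lit 0) (XT.lf (nat_lit 0) (nat_lit 2195576991) (nat_lit 836) (nat_lit 12277576189) (nat_lit 912) (nat_lit 3628711475) (nat_lit 318) (nat_lit 5) (nat_lit 329) (nat_lit 5) (nat_lit 330) (nat_lit 5) (nat_lit 470) (nat_lit 437) (nat_lit 233)) (XT.nd (nat_lit 78) (nat_lit 836) (nat_lit 0) (XT.lf (nat_lit 0) (nat_lit 11287469412) (nat_lit 836) (nat_lit 5147005910) (nat_lit 912) (nat_lit 1869944258) (nat_lit 318) (nat_lit 5) (nat_lit 329) (nat_lit 5) (nat_lit 330) (nat_lit 5) (nat_lit 471) (nat_lit 437) (nat_lit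 232)) (XT.lf (nat_lit 0) (nat_lit 2057870214) (nat_lit 836) (nat_lit 16398665213) (nat_lit 912) (nat_lit 54064055) (nat_lit 307) (nat_lit 5) (nat_lit 318) (nat_lit 5) (nat_lit 319) (nat_lit 5) (nat_lit 472) (nat_lit 437) (nat_lit 231)))) (XT.nd (nat_lit 156) (nat_lit 760) (nat_lit 0) (XT.nd (nat_lit 78) (nat_lit 760) (nat_lit 0) (XT.lf (nat_lit 0) (nat_lit 1850416762) (nat_lit 912) (nat_lit 7362261449) (nat_lit 76) (nat_lit 9506477911) (nat_lit 306) (nat_lit 5) (nat_lit 318) (nat_lit 5) (nat_lit 307) (nat_lit 5) (nat_lit 473) (nat_lit 437) (nat_lit 230)) (XT.lf (nat_lit 0) (nat_lit 1929541241) (nat_lit 760) (nat_lit 1869741223) (nat_lit 836) (nat_lit 15132457772) (nat_lit 296) (nat_lit 5) (nat_lit 306) (nat_lit 5) (nat_lit 307) (nat_lit 5) (nat_lit 474) (nat_lit 437) (nat_lit 229))) (XT.nd (nat_lit 78) (nat_lit 760) (nat_lit 0) (XT.lf (nat_lit 0) (nat_lit 5867910453) (nat_lit 836) (nat_lit 7682926759) (nat_lit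 76) (nat_lit 5596126918) (nat_lit 296) (nat_lit 5) (nat_lit 307) (nat_lit 5) (nat_lit 297) (nat_lit 5) (nat_lit 475) (nat_lit 437) (nat_lit 228)) (XT.lf (nat_lit 0) (nat_lit 1828943400) (nat_lit 760) (nat_lit 6167895313) (nat_lit 836) (nat_lit 11369278958) (nat_lit 286) (nat_lit 5) (nat_lit 296) (nat_lit 5) (nat_lit 297) (nat_lit 5) (nat_lit 476) (nat_lit 437) (nat_lit 227))))) (XT.nd (nat_lit 234) (nat_lit 1520) (nat_lit 0) (XT.nd (nat_lit 78) (nat_lit 684) (nat_lit 0) (XT.lf (nat_lit 0) (nat_lit 10223830738) (nat_lit 836) (nat_lit 7968081905) (nat_lit 76) (nat_lit 1396635583) (nat_lit 286) (nat_lit 5) (nat_lit 297) (nat_lit 5) (nat_lit 287) (nat_lit 5) (nat_lit 477) (nat_lit 437) (nat_lit 226)) (XT.nd (nat_lit 78) (nat_lit 0) (nat_lit 0) (XT.lf (nat_lit 0) (nat_lit 1769393595) (nat_lit 684) (nat_lit 10773146912) (nat_lit 760) (nat_lit 7271946905) (nat_lit 277) (nat_lit 5) (nat_lit 286) (nat_lit 5) (nat_lit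 287) (nat_lit 5) (nat_lit 478) (nat_lit 437) (nat_lit 225)) (XT.lf (nat_lit 0) (nat_lit 11804305664) (nat_lit 684) (nat_lit 3151698236) (nat_lit 760) (nat_lit 5087977402) (nat_lit 277) (nat_lit 5) (nat_lit 286) (nat_lit 5) (nat_lit 287) (nat_lit 5) (nat_lit 479) (nat_lit 437) (nat_lit 224)))) (XT.nd (nat_lit 156) (nat_lit 760) (nat_lit 0) (XT.nd (nat_lit 78) (nat_lit 0) (nat_lit 0) (XT.lf (nat_lit 0) (nat_lit 1749465394) (nat_lit 760) (nat_lit 15704647855) (nat_lit 836) (nat_lit 2823227726) (nat_lit 267) (nat_lit 5) (nat_lit 277) (nat_lit 5) (nat_lit 278) (nat_lit 5) (nat_lit 480) (nat_lit 437) (nat_lit 223)) (XT.lf (nat_lit 0) (nat_lit 12023645857) (nat_lit 760) (nat_lit 8049637663) (nat_lit 836) (nat_lit 440665717) (nat_lit 267) (nat_lit 5) (nat_lit 277) (nat_lit 5) (nat_lit 278) (nat_lit 5) (nat_lit 481) (nat_lit 437) (nat_lit 222))) (XT.nd (nat_lit 78) (nat_lit 0) (nat_lit 0) (XT.lf (nat_lit 0) (nat_lit 1752842535)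 (nat_lit 684) (nat_lit 217125035) (nat_lit 760) (nat_lit 18784936720) (nat_lit 257) (nat_lit 5) (nat_lit 266) (nat_lit 5) (nat_lit 267) (nat_lit 5) (nat_lit 482) (nat_lit 437) (nat_lit 221)) (XT.lf (nat_lit 0) (nat_lit 4525923094) (nat_lit 760) (nat_lit 8742667357) (nat_lit 76) (nat_lit 7729972712) (nat_lit 257) (nat_lit 5) (nat_lit 267) (nat_lit 5) (nat_lit 258) (nat_lit 5) (nat_lit 483) (nat_lit 437) (nat_lit 220))))))) (XT.nd (nat_lit 1092) (nat_lit 3572) (nat_lit 0) (XT.nd (nat_lit 546) (nat_lit 1748) (nat_lit 0) (XT.nd (nat_lit 234) (nat_lit 1292) (nat_lit 0) (XT.nd (nat_lit 78) (nat_lit 608) (nat_lit 0) (XT.lf (nat_lit 0) (nat_lit 1738064977) (nat_lit 684) (nat_lit 5402941240) (nat_lit 760) (nat_lit 14105931941) (nat_lit 248) (nat_lit 5) (nat_lit 257) (nat_lit 5) (nat_lit 258) (nat_lit 5) (nat_lit 484) (nat_lit 437) (nat_lit 219)) (XT.nd (nat_lit 78) (nat_lit 608) (nat_lit 0) (XT.lf (nat_lit 0) (nat_lit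 9879799739) (nat_lit 760) (nat_lit 8974851236) (nat_lit 76) (nat_lit 2644204557) (nat_lit 248) (nat_lit 5) (nat_lit 258) (nat_lit 5) (nat_lit 249) (nat_lit 5) (nat_lit 485) (nat_lit 437) (nat_lit 218)) (XT.lf (nat_lit 0) (nat_lit 1751883988) (nat_lit 608) (nat_lit 10964073342) (nat_lit 684) (nat_lit 9039005154) (nat_lit 240) (nat_lit 5) (nat_lit 248) (nat_lit 5) (nat_lit 249) (nat_lit 5) (nat_lit 486) (nat_lit 437) (nat_lit 217)))) (XT.nd (nat_lit 156) (nat_lit 684) (nat_lit 0) (XT.nd (nat_lit 78) (nat_lit 608) (nat_lit 0) (XT.lf (nat_lit 0) (nat_lit 12809681985) (nat_lit 608) (nat_lit 2854871058) (nat_lit 684) (nat_lit 6350527167) (nat_lit 240) (nat_lit 5) (nat_lit 248) (nat_lit 5) (nat_lit 249) (nat_lit 5) (nat_lit 487) (nat_lit 437) (nat_lit 216)) (XT.lf (nat_lit 0) (nat_lit 1791447958) (nat_lit 608) (nat_lit 16923045107) (nat_lit 684) (nat_lit 3565062654) (nat_lit 232) (nat_lit 5) (nat_lit 240) (nat_lit 5)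 (nat_lit 241) (nat_lit 5) (nat_lit 488) (nat_lit 437) (nat_lit 215))) (XT.nd (nat_lit 78) (nat_lit 684) (nat_lit 0) (XT.lf (nat_lit 0) (nat_lit 13108773384) (nat_lit 608) (nat_lit 8792840935) (nat_lit 684) (nat_lit 646185593) (nat_lit 232) (nat_lit 5) (nat_lit 240) (nat_lit 5) (nat_lit 241) (nat_lit 5) (nat_lit 489) (nat_lit 437) (nat_lit 214)) (XT.lf (nat_lit 0) (nat_lit 1834924801) (nat_lit 608) (nat_lit 473167302) (nat_lit 684) (nat_lit 20512864990) (nat_lit 223) (nat_lit 5) (nat_lit 231) (nat_lit 5) (nat_lit 232) (nat_lit 5) (nat_lit 490) (nat_lit 437) (nat_lit 213))))) (XT.nd (nat_lit 234) (nat_lit 1140) (nat_lit 0) (XT.nd (nat_lit 78) (nat_lit 608) (nat_lit 0) (XT.lf (nat_lit 0) (nat_lit 5424325651) (nat_lit 684) (nat_lit 9697822895) (nat_lit 76) (nat_lit 7975115650) (nat_lit 223) (nat_lit 5) (nat_lit 232) (nat_lit 5) (nat_lit 224) (nat_lit 5) (nat_lit 491) (nat_lit 437) (nat_lit 212)) (XT.nd (nat_lit 78)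 (nat_lit 0) (nat_lit 0) (XT.lf (nat_lit 0) (nat_lit 1832052644) (nat_lit 608) (nat_lit 6781672682) (nat_lit 684) (nat_lit 14765157892) (nat_lit 215) (nat_lit 5) (nat_lit 223) (nat_lit 5) (nat_lit 224) (nat_lit 5) (nat_lit 492) (nat_lit 437) (nat_lit 211)) (XT.lf (nat_lit 0) (nat_lit 11939482851) (nat_lit 684) (nat_lit 9957524935) (nat_lit 76) (nat_lit 1767677993) (nat_lit 215) (nat_lit 5) (nat_lit 224) (nat_lit 5) (nat_lit 216) (nat_lit 5) (nat_lit 493) (nat_lit 437) (nat_lit 210)))) (XT.nd (nat_lit 156) (nat_lit 608) (nat_lit 0) (XT.nd (nat_lit 78) (nat_lit 0) (nat_lit 0) (XT.lf (nat_lit 0) (nat_lit 1837817897) (nat_lit 532) (nat_lit 13546720484) (nat_lit 608) (nat_lit 8570612857) (nat_lit 208) (nat_lit 5) (nat_lit 215) (nat_lit 5) (nat_lit 216) (nat_lit 5) (nat_lit 494) (nat_lit 437) (nat_lit 209)) (XT.lf (nat_lit 0) (nat_lit 13999136470) (nat_lit 532) (nat_lit 4962165336) (nat_lit 608) (nat_lit 5288870522)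 (nat_lit 208) (nat_lit 5) (nat_lit 215) (nat_lit 5) (nat_lit 216) (nat_lit 5) (nat_lit 495) (nat_lit 437) (nat_lit 208))) (XT.nd (nat_lit 78) (nat_lit 76) (nat_lit 0) (XT.lf (nat_lit 0) (nat_lit 1847294319) (nat_lit 532) (nat_lit 20794993281) (nat_lit 608) (nat_lit 1908154905) (nat_lit 201) (nat_lit 5) (nat_lit 208) (nat_lit 5) (nat_lit 209) (nat_lit 5) (nat_lit 496) (nat_lit 437) (nat_lit 207)) (XT.lf (nat_lit 0) (nat_lit 1618159952) (nat_lit 608) (nat_lit 10577022577) (nat_lit 76) (nat_lit 12659374181) (nat_lit 200) (nat_lit 5) (nat_lit 208) (nat_lit 5) (nat_lit 201) (nat_lit 5) (nat_lit 497) (nat_lit 437) (nat_lit 206)))))) (XT.nd (nat_lit 546) (nat_lit 1444) (nat_lit 0) (XT.nd (nat_lit 234) (nat_lit 1064) (nat_lit 0) (XT.nd (nat_lit 78) (nat_lit 532) (nat_lit 0) (XT.lf (nat_lit 0) (nat_lit 1797753423) (nat_lit 532) (nat_lit 3399547668) (nat_lit 608) (nat_lit 19967045116) (nat_lit 193) (nat_lit 5) (nat_lit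 200) (nat_lit 5) (nat_lit 201) (nat_lit 5) (nat_lit 498) (nat_lit 437) (nat_lit 205)) (XT.nd (nat_lit 78) (nat_lit 532) (nat_lit 0) (XT.lf (nat_lit 0) (nat_lit 8951841701) (nat_lit 608) (nat_lit 10957013266) (nat_lit 76) (nat_lit 5569402418) (nat_lit 193) (nat_lit 5) (nat_lit 201) (nat_lit 5) (nat_lit 194) (nat_lit 5) (nat_lit 499) (nat_lit 437) (nat_lit 204)) (XT.lf (nat_lit 0) (nat_lit 1695725776) (nat_lit 532) (nat_lit 11115537440) (nat_lit 608) (nat_lit 12986589950) (nat_lit 186) (nat_lit 5) (nat_lit 193) (nat_lit 5) (nat_lit 194) (nat_lit 5) (nat_lit 500) (nat_lit 437) (nat_lit 203)))) (XT.nd (nat_lit 156) (nat_lit 608) (nat_lit 0) (XT.nd (nat_lit 78) (nat_lit 456) (nat_lit 0) (XT.lf (nat_lit 0) (nat_lit 14745317848) (nat_lit 532) (nat_lit 2072391906) (nat_lit 608) (nat_lit 9304736514) (nat_lit 186) (nat_lit 5) (nat_lit 193) (nat_lit 5) (nat_lit 194) (nat_lit 5) (nat_lit 501) (nat_lit 437) (nat_lit 202))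 (XT.lf (nat_lit 0) (nat_lit 1571850459) (nat_lit 456) (nat_lit 19385448335) (nat_lit 532) (nat_lit 5495174263) (nat_lit 180) (nat_lit 5) (nat_lit 186) (nat_lit 5) (nat_lit 187) (nat_lit 5) (nat_lit 502) (nat_lit 437) (nat_lit 201))) (XT.nd (nat_lit 78) (nat_lit 608) (nat_lit 0) (XT.lf (nat_lit 0) (nat_lit 14915450848) (nat_lit 456) (nat_lit 10350625230) (nat_lit 532) (nat_lit 1521298429) (nat_lit 180) (nat_lit 5) (nat_lit 186) (nat_lit 5) (nat_lit 187) (nat_lit 5) (nat_lit 503) (nat_lit 437) (nat_lit 200)) (XT.lf (nat_lit 0) (nat_lit 1394165596) (nat_lit 532) (nat_lit 1110193622) (nat_lit 608) (nat_lit 24624177695) (nat_lit 172) (nat_lit 5) (nat_lit 179) (nat_lit 5) (nat_lit 180) (nat_lit 5) (nat_lit 504) (nat_lit 437) (nat_lit 199))))) (XT.nd (nat_lit 312) (nat_lit 532) (nat_lit 0) (XT.nd (nat_lit 156) (nat_lit 456) (nat_lit 0) (XT.nd (nat_lit 78) (nat_lit 456) (nat_lit 0) (XT.lf (nat_lit 0) (nat_lit 6720853341)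 (nat_lit 608) (nat_lit 12457677721) (nat_lit 76) (nat_lit 8295178456) (nat_lit 172) (nat_lit 5) (nat_lit 180) (nat_lit 5) (nat_lit 173) (nat_lit 5) (nat_lit 505) (nat_lit 437) (nat_lit 198)) (XT.lf (nat_lit 0) (nat_lit 1086880576) (nat_lit 456) (nat_lit 9945767771) (nat_lit 532) (nat_lit 16792919707) (nat_lit 166) (nat_lit 5) (nat_lit 172) (nat_lit 5) (nat_lit 173) (nat_lit 5) (nat_lit 506) (nat_lit 437) (nat_lit 197))) (XT.nd (nat_lit 78) (nat_lit 456) (nat_lit 0) (XT.lf (nat_lit 0) (nat_lit 15066655686) (nat_lit 456) (nat_lit 444221043) (nat_lit 532) (nat_lit 12671984943) (nat_lit 166) (nat_lit 5) (nat_lit 172) (nat_lit 5) (nat_lit 173) (nat_lit 5) (nat_lit 507) (nat_lit 437) (nat_lit 196)) (XT.lf (nat_lit 0) (nat_lit 723662493) (nat_lit 456) (nat_lit 19416404962) (nat_lit 532) (nat_lit 8406007576) (nat_lit 160) (nat_lit 5) (nat_lit 166) (nat_lit 5) (nat_lit 167) (nat_lit 5) (nat_lit 508) (nat_lit 437) (nat_lit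 195)))) (XT.nd (nat_lit 156) (nat_lit 0) (nat_lit 0) (XT.nd (nat_lit 78) (nat_lit 532) (nat_lit 0) (XT.lf (nat_lit 0) (nat_lit 15010657070) (nat_lit 456) (nat_lit 9938819773) (nat_lit 532) (nat_lit 3965324906) (nat_lit 160) (nat_lit 5) (nat_lit 166) (nat_lit 5) (nat_lit 167) (nat_lit 5) (nat_lit 509) (nat_lit 437) (nat_lit 194)) (XT.lf (nat_lit 0) (nat_lit 288163783) (nat_lit 456) (nat_lit 267216677) (nat_lit 532) (nat_lit 28735478837) (nat_lit 153) (nat_lit 5) (nat_lit 159) (nat_lit 5) (nat_lit 160) (nat_lit 5) (nat_lit 510) (nat_lit 437) (nat_lit 193))) (XT.nd (nat_lit 78) (nat_lit 0) (nat_lit 0) (XT.lf (nat_lit 0) (nat_lit 5266456248) (nat_lit 532) (nat_lit 14813443322) (nat_lit 76) (nat_lit 9590954855) (nat_lit 153) (nat_lit 5) (nat_lit 160) (nat_lit 5) (nat_lit 154) (nat_lit 5) (nat_lit 511) (nat_lit 437) (nat_lit 192)) (XT.lf (nat_lit 0) (nat_lit 10070351573) (nat_lit 532) (nat_lit 346558499) (nat_lit 76)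 (nat_lit 19641569076) (nat_lit 153) (nat_lit 5) (nat_lit 160) (nat_lit 5) (nat_lit 154) (nat_lit 5) (nat_lit 512) (nat_lit 437) (nat_lit 191))))))))
noncomputable def xc220 : XT := (XT.nd (nat_lit 55458) (nat_lit 0) (nat_lit 6840) (XT.nd (nat_lit 54366) (nat_lit 0) (nat_lit 17100) (XT.nd (nat_lit 53820) (nat_lit 0) (nat_lit 18316) (XT.nd (nat_lit 53508) (nat_lit 0) (nat_lit 19836) (XT.nd (nat_lit 78) (nat_lit 380) (nat_lit 0) (XT.lf (nat_lit 0) (nat_lit 14596806937) (nat_lit 456) (nat_lit 465180582) (nat_lit 532) (nat_lit 15390037214) (nat_lit 147) (nat_lit 5) (nat_lit 153) (nat_lit 5) (nat_lit 154) (nat_lit 5) (nat_lit 513) (nat_lit 437) (nat_lit 190)) (XT.nd (nat_lit 78) (nat_lit 380) (nat_lit 0) (XT.lf (nat_lit 0) (nat_lit 20215598484) (nat_lit 532) (nat_lit 1076881908) (nat_lit 76) (nat_lit 9559719579) (nat_lit 147) (nat_lit 5) (nat_lit 154) (nat_lit 5) (nat_lit 148) (nat_lit 5) (nat_lit 514) (nat_lit 437)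 (nat_lit 189)) (XT.lf (nat_lit 0) (nat_lit 14175616644) (nat_lit 380) (nat_lit 11388759740) (nat_lit 456) (nat_lit 5694161992) (nat_lit 142) (nat_lit 5) (nat_lit 147) (nat_lit 5) (nat_lit 148) (nat_lit 5) (nat_lit 515) (nat_lit 437) (nat_lit 188)))) (XT.nd (nat_lit 156) (nat_lit 0) (nat_lit 0) (XT.nd (nat_lit 78) (nat_lit 0) (nat_lit 0) (XT.lf (nat_lit 0) (nat_lit 2568419369) (nat_lit 0) (nat_lit 2568419369) (nat_lit 1596) (nat_lit 1442397326) (nat_lit 403) (nat_lit 5) (nat_lit 403) (nat_lit 3) (nat_lit 424) (nat_lit 3) (nat_lit 438) (nat_lit 438) (nat_lit 264)) (XT.lf (nat_lit 0) (nat_lit 10752620811) (nat_lit 1596) (nat_lit 2037491694) (nat_lit 1672) (nat_lit 492119044) (nat_lit 403) (nat_lit 5) (nat_lit 424) (nat_lit 3) (nat_lit 425) (nat_lit 5) (nat_lit 439) (nat_lit 438) (nat_lit 263))) (XT.nd (nat_lit 78) (nat_lit 0) (nat_lit 0) (XT.lf (nat_lit 76) (nat_lit 4080706357) (nat_lit 0) (nat_lit 7211198755) (nat_lit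 1672) (nat_lit 2115553703) (nat_lit 404) (nat_lit 5) (nat_lit 403) (nat_lit 5) (nat_lit 425) (nat_lit 5) (nat_lit 440) (nat_lit 438) (nat_lit 262)) (XT.lf (nat_lit 76) (nat_lit 10343793961) (nat_lit 0) (nat_lit 1502260566) (nat_lit 1672) (nat_lit 1689062257) (nat_lit 404) (nat_lit 5) (nat_lit 403) (nat_lit 5) (nat_lit 425) (nat_lit 5) (nat_lit 441) (nat_lit 438) (nat_lit 261))))) (XT.nd (nat_lit 234) (nat_lit 1596) (nat_lit 0) (XT.nd (nat_lit 78) (nat_lit 0) (nat_lit 0) (XT.lf (nat_lit 76) (nat_lit 3073858119) (nat_lit 0) (nat_lit 9376063733) (nat_lit 1672) (nat_lit 1214640953) (nat_lit 405) (nat_lit 5) (nat_lit 404) (nat_lit 5) (nat_lit 426) (nat_lit 5) (nat_lit 442) (nat_lit 438) (nat_lit 260)) (XT.nd (nat_lit 78) (nat_lit 0) (nat_lit 76) (XT.lf (nat_lit 76) (nat_lit 9492337649) (nat_lit 0) (nat_lit 3595601355) (nat_lit 1672) (nat_lit 708224739) (nat_lit 405) (nat_lit 5) (nat_lit 404) (nat_lit 5) (nat_lit 426)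 (nat_lit 5) (nat_lit 443) (nat_lit 438) (nat_lit 259)) (XT.lf (nat_lit 76) (nat_lit 2116314129) (nat_lit 0) (nat_lit 11642059436) (nat_lit 1672) (nat_lit 171637290) (nat_lit 406) (nat_lit 5) (nat_lit 405) (nat_lit 5) (nat_lit 427) (nat_lit 5) (nat_lit 444) (nat_lit 438) (nat_lit 258)))) (XT.nd (nat_lit 156) (nat_lit 0) (nat_lit 76) (XT.nd (nat_lit 78) (nat_lit 0) (nat_lit 76) (XT.lf (nat_lit 0) (nat_lit 414696126) (nat_lit 1672) (nat_lit 5374589630) (nat_lit 1748) (nat_lit 8276328559) (nat_lit 383) (nat_lit 5) (nat_lit 405) (nat_lit 5) (nat_lit 406) (nat_lit 5) (nat_lit 445) (nat_lit 438) (nat_lit 257)) (XT.lf (nat_lit 0) (nat_lit 1010755225) (nat_lit 1672) (nat_lit 13002532279) (nat_lit 1748) (nat_lit 190620582) (nat_lit 384) (nat_lit 5) (nat_lit 406) (nat_lit 5) (nat_lit 407) (nat_lit 5) (nat_lit 446) (nat_lit 438) (nat_lit 256))) (XT.nd (nat_lit 78) (nat_lit 0) (nat_lit 0) (XT.lf (nat_lit 0) (nat_lit 1684772708)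 (nat_lit 1672) (nat_lit 6406557924) (nat_lit 1748) (nat_lit 6252323098) (nat_lit 384) (nat_lit 5) (nat_lit 406) (nat_lit 5) (nat_lit 407) (nat_lit 5) (nat_lit 447) (nat_lit 438) (nat_lit 255)) (XT.lf (nat_lit 76) (nat_lit 320194583) (nat_lit 0) (nat_lit 2045716035) (nat_lit 1748) (nat_lit 12120417477) (nat_lit 385) (nat_lit 5) (nat_lit 384) (nat_lit 5) (nat_lit 407) (nat_lit 5) (nat_lit 448) (nat_lit 438) (nat_lit 254)))))) (XT.nd (nat_lit 546) (nat_lit 1368) (nat_lit 0) (XT.nd (nat_lit 234) (nat_lit 0) (nat_lit 76) (XT.nd (nat_lit 78) (nat_lit 0) (nat_lit 0) (XT.lf (nat_lit 0) (nat_lit 3122414088) (nat_lit 1672) (nat_lit 7395208887) (nat_lit 1748) (nat_lit 4113004598) (nat_lit 385) (nat_lit 5) (nat_lit 407) (nat_lit 5) (nat_lit 408) (nat_lit 5) (nat_lit 449) (nat_lit 438) (nat_lit 253)) (XT.nd (nat_lit 78) (nat_lit 0) (nat_lit 76) (XT.lf (nat_lit 0) (nat_lit 3899469607) (nat_lit 1672) (nat_lit 507803494) (nat_lit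 1748) (nat_lit 10370437853) (nat_lit 385) (nat_lit 5) (nat_lit 407) (nat_lit 5) (nat_lit 408) (nat_lit 5) (nat_lit 450) (nat_lit 438) (nat_lit 252)) (XT.lf (nat_lit 0) (nat_lit 4739094388) (nat_lit 1672) (nat_lit 8340589126) (nat_lit 1748) (nat_lit 1847118155) (nat_lit 386) (nat_lit 5) (nat_lit 408) (nat_lit 5) (nat_lit 409) (nat_lit 5) (nat_lit 451) (nat_lit 438) (nat_lit 251)))) (XT.nd (nat_lit 156) (nat_lit 0) (nat_lit 76) (XT.nd (nat_lit 78) (nat_lit 0) (nat_lit 0) (XT.lf (nat_lit 0) (nat_lit 5620301590) (nat_lit 1672) (nat_lit 1284452868) (nat_lit 1748) (nat_lit 8173630048) (nat_lit 386) (nat_lit 5) (nat_lit 408) (nat_lit 5) (nat_lit 409) (nat_lit 5) (nat_lit 452) (nat_lit 438) (nat_lit 250)) (XT.lf (nat_lit 76) (nat_lit 5985990585) (nat_lit 0) (nat_lit 564333344) (nat_lit 1748) (nat_lit 8682057238) (nat_lit 387) (nat_lit 5) (nat_lit 386) (nat_lit 5) (nat_lit 409) (nat_lit 5) (nat_lit 453) (nat_lit 438)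 (nat_lit 249))) (XT.nd (nat_lit 78) (nat_lit 0) (nat_lit 0) (XT.lf (nat_lit 0) (nat_lit 7538405519) (nat_lit 1672) (nat_lit 2013873589) (nat_lit 1748) (nat_lit 5836395347) (nat_lit 387) (nat_lit 5) (nat_lit 409) (nat_lit 5) (nat_lit 410) (nat_lit 5) (nat_lit 454) (nat_lit 438) (nat_lit 248)) (XT.lf (nat_lit 76) (nat_lit 5425358420) (nat_lit 0) (nat_lit 3152457406) (nat_lit 1748) (nat_lit 6969652195) (nat_lit 388) (nat_lit 5) (nat_lit 387) (nat_lit 5) (nat_lit 410) (nat_lit 5) (nat_lit 455) (nat_lit 438) (nat_lit 247))))) (XT.nd (nat_lit 234) (nat_lit 1596) (nat_lit 0) (XT.nd (nat_lit 78) (nat_lit 0) (nat_lit 0) (XT.lf (nat_lit 0) (nat_lit 9666261080) (nat_lit 1672) (nat_lit 2695979562) (nat_lit 1748) (nat_lit 3346637524) (nat_lit 388) (nat_lit 5) (nat_lit 410) (nat_lit 5) (nat_lit 411) (nat_lit 5) (nat_lit 456) (nat_lit 438) (nat_lit 246)) (XT.nd (nat_lit 78) (nat_lit 0) (nat_lit 76) (XT.lf (nat_lit 76) (nat_lit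 4916908024) (nat_lit 0) (nat_lit 5905238840) (nat_lit 1748) (nat_lit 5050461748) (nat_lit 389) (nat_lit 5) (nat_lit 388) (nat_lit 5) (nat_lit 411) (nat_lit 5) (nat_lit 457) (nat_lit 438) (nat_lit 245)) (XT.lf (nat_lit 0) (nat_lit 12016769163) (nat_lit 1672) (nat_lit 3330689931) (nat_lit 1748) (nat_lit 691847621) (nat_lit 389) (nat_lit 5) (nat_lit 411) (nat_lit 5) (nat_lit 412) (nat_lit 5) (nat_lit 458) (nat_lit 438) (nat_lit 244)))) (XT.nd (nat_lit 156) (nat_lit 1672) (nat_lit 0) (XT.nd (nat_lit 78) (nat_lit 0) (nat_lit 0) (XT.lf (nat_lit 76) (nat_lit 4460830261) (nat_lit 0) (nat_lit 8835648044) (nat_lit 1748) (nat_lit 2911641902) (nat_lit 390) (nat_lit 5) (nat_lit 389) (nat_lit 5) (nat_lit 412) (nat_lit 5) (nat_lit 459) (nat_lit 438) (nat_lit 243)) (XT.lf (nat_lit 76) (nat_lit 12447976955) (nat_lit 0) (nat_lit 2169379615) (nat_lit 1748) (nat_lit 1762647112) (nat_lit 390) (nat_lit 5) (nat_lit 389) (nat_lit 5)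 (nat_lit 412) (nat_lit 5) (nat_lit 460) (nat_lit 438) (nat_lit 242))) (XT.nd (nat_lit 78) (nat_lit 1748) (nat_lit 0) (XT.lf (nat_lit 76) (nat_lit 4057297150) (nat_lit 0) (nat_lit 11957126511) (nat_lit 1748) (nat_lit 539910850) (nat_lit 391) (nat_lit 5) (nat_lit 390) (nat_lit 5) (nat_lit 413) (nat_lit 5) (nat_lit 461) (nat_lit 438) (nat_lit 241)) (XT.lf (nat_lit 0) (nat_lit 732344705) (nat_lit 1748) (nat_lit 4496502021) (nat_lit 1824) (nat_lit 11502531487) (nat_lit 367) (nat_lit 5) (nat_lit 390) (nat_lit 5) (nat_lit 391) (nat_lit 5) (nat_lit 462) (nat_lit 438) (nat_lit 240))))))) (XT.nd (nat_lit 1092) (nat_lit 4864) (nat_lit 0) (XT.nd (nat_lit 546) (nat_lit 2508) (nat_lit 0) (XT.nd (nat_lit 234) (nat_lit 1672) (nat_lit 0) (XT.nd (nat_lit 78) (nat_lit 1292) (nat_lit 0) (XT.lf (nat_lit 0) (nat_lit 2051211117) (nat_lit 1748) (nat_lit 13218644770) (nat_lit 76) (nat_lit 1641472437) (nat_lit 368) (nat_lit 5) (nat_lit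 391) (nat_lit 5) (nat_lit 369) (nat_lit 5) (nat_lit 463) (nat_lit 438) (nat_lit 239)) (XT.nd (nat_lit 78) (nat_lit 1292) (nat_lit 0) (XT.lf (nat_lit 0) (nat_lit 3455098075) (nat_lit 1748) (nat_lit 5027945960) (nat_lit 76) (nat_lit 8610665260) (nat_lit 368) (nat_lit 5) (nat_lit 391) (nat_lit 5) (nat_lit 369) (nat_lit 5) (nat_lit 464) (nat_lit 438) (nat_lit 238)) (XT.lf (nat_lit 0) (nat_lit 3365362832) (nat_lit 1292) (nat_lit 1537316157) (nat_lit 1368) (nat_lit 12376751200) (nat_lit 351) (nat_lit 5) (nat_lit 368) (nat_lit 5) (nat_lit 369) (nat_lit 5) (nat_lit 465) (nat_lit 438) (nat_lit 237)))) (XT.nd (nat_lit 156) (nat_lit 836) (nat_lit 0) (XT.nd (nat_lit 78) (nat_lit 836) (nat_lit 0) (XT.lf (nat_lit 0) (nat_lit 6443051338) (nat_lit 1368) (nat_lit 5515177240) (nat_lit 76) (nat_lit 5509364662) (nat_lit 351) (nat_lit 5) (nat_lit 369) (nat_lit 5) (nat_lit 352) (nat_lit 5) (nat_lit 466) (nat_lit 438) (nat_lit 236))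 (XT.lf (nat_lit 0) (nat_lit 3076526518) (nat_lit 836) (nat_lit 4961840061) (nat_lit 912) (nat_lit 9620674714) (nat_lit 340) (nat_lit 5) (nat_lit 351) (nat_lit 5) (nat_lit 352) (nat_lit 5) (nat_lit 467) (nat_lit 438) (nat_lit 235))) (XT.nd (nat_lit 78) (nat_lit 836) (nat_lit 0) (XT.lf (nat_lit 0) (nat_lit 9711028603) (nat_lit 912) (nat_lit 5958541942) (nat_lit 76) (nat_lit 2183843314) (nat_lit 340) (nat_lit 5) (nat_lit 352) (nat_lit 5) (nat_lit 341) (nat_lit 5) (nat_lit 468) (nat_lit 438) (nat_lit 234)) (XT.lf (nat_lit 0) (nat_lit 2836939191) (nat_lit 836) (nat_lit 8625667652) (nat_lit 912) (nat_lit 6588162050) (nat_lit 329) (nat_lit 5) (nat_lit 340) (nat_lit 5) (nat_lit 341) (nat_lit 5) (nat_lit 469) (nat_lit 438) (nat_lit 233))))) (XT.nd (nat_lit 234) (nat_lit 1672) (nat_lit 0) (XT.nd (nat_lit 78) (nat_lit 836) (nat_lit 0) (XT.lf (nat_lit 0) (nat_lit 11883816285) (nat_lit 836) (nat_lit 1399648874) (nat_lit 912)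 (nat_lit 4967925089) (nat_lit 329) (nat_lit 5) (nat_lit 340) (nat_lit 5) (nat_lit 341) (nat_lit 5) (nat_lit 470) (nat_lit 438) (nat_lit 232)) (XT.nd (nat_lit 78) (nat_lit 0) (nat_lit 0) (XT.lf (nat_lit 0) (nat_lit 2646246763) (nat_lit 836) (nat_lit 12544820970) (nat_lit 912) (nat_lit 3263953866) (nat_lit 318) (nat_lit 5) (nat_lit 329) (nat_lit 5) (nat_lit 330) (nat_lit 5) (nat_lit 471) (nat_lit 438) (nat_lit 231)) (XT.lf (nat_lit 0) (nat_lit 11912001381) (nat_lit 836) (nat_lit 5271213927) (nat_lit 912) (nat_lit 1478586439) (nat_lit 318) (nat_lit 5) (nat_lit 329) (nat_lit 5) (nat_lit 330) (nat_lit 5) (nat_lit 472) (nat_lit 438) (nat_lit 230)))) (XT.nd (nat_lit 156) (nat_lit 760) (nat_lit 0) (XT.nd (nat_lit 78) (nat_lit 0) (nat_lit 0) (XT.lf (nat_lit 0) (nat_lit 362924962) (nat_lit 912) (nat_lit 16370640993) (nat_lit 76) (nat_lit 2138612373) (nat_lit 306) (nat_lit 5) (nat_lit 318) (nat_lit 5) (nat_lit 307) (nat_lit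 5) (nat_lit 473) (nat_lit 438) (nat_lit 229)) (XT.lf (nat_lit 0) (nat_lit 2296588879) (nat_lit 912) (nat_lit 7106776462) (nat_lit 76) (nat_lit 9681703016) (nat_lit 306) (nat_lit 5) (nat_lit 318) (nat_lit 5) (nat_lit 307) (nat_lit 5) (nat_lit 474) (nat_lit 438) (nat_lit 228))) (XT.nd (nat_lit 78) (nat_lit 0) (nat_lit 0) (XT.lf (nat_lit 0) (nat_lit 2368212741) (nat_lit 760) (nat_lit 1910793924) (nat_lit 836) (nat_lit 15023011633) (nat_lit 296) (nat_lit 5) (nat_lit 306) (nat_lit 5) (nat_lit 307) (nat_lit 5) (nat_lit 475) (nat_lit 438) (nat_lit 227)) (XT.lf (nat_lit 0) (nat_lit 6381067488) (nat_lit 836) (nat_lit 7436133169) (nat_lit 76) (nat_lit 5704510336) (nat_lit 296) (nat_lit 5) (nat_lit 307) (nat_lit 5) (nat_lit 297) (nat_lit 5) (nat_lit 476) (nat_lit 438) (nat_lit 226)))))) (XT.nd (nat_lit 546) (nat_lit 1900) (nat_lit 0) (XT.nd (nat_lit 234) (nat_lit 1520) (nat_lit 0) (XT.nd (nat_lit 78) (nat_lit 684) (nat_lit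 0) (XT.lf (nat_lit 0) (nat_lit 2263339840) (nat_lit 760) (nat_lit 6284056607) (nat_lit 836) (nat_lit 11197960135) (nat_lit 286) (nat_lit 5) (nat_lit 296) (nat_lit 5) (nat_lit 297) (nat_lit 5) (nat_lit 477) (nat_lit 438) (nat_lit 225)) (XT.nd (nat_lit 78) (nat_lit 684) (nat_lit 0) (XT.lf (nat_lit 0) (nat_lit 10811314887) (nat_lit 836) (nat_lit 7729547182) (nat_lit 76) (nat_lit 1431531262) (nat_lit 286) (nat_lit 5) (nat_lit 297) (nat_lit 5) (nat_lit 287) (nat_lit 5) (nat_lit 478) (nat_lit 438) (nat_lit 224)) (XT.lf (nat_lit 0) (nat_lit 2200060089) (nat_lit 684) (nat_lit 10971395223) (nat_lit 760) (nat_lit 7031500071) (nat_lit 277) (nat_lit 5) (nat_lit 286) (nat_lit 5) (nat_lit 287) (nat_lit 5) (nat_lit 479) (nat_lit 438) (nat_lit 223)))) (XT.nd (nat_lit 156) (nat_lit 760) (nat_lit 0) (XT.nd (nat_lit 78) (nat_lit 760) (nat_lit 0) (XT.lf (nat_lit 0) (nat_lit 12427919839) (nat_lit 684) (nat_lit 3197855114) (nat_lit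 760) (nat_lit 4811417566) (nat_lit 277) (nat_lit 5) (nat_lit 286) (nat_lit 5) (nat_lit 287) (nat_lit 5) (nat_lit 480) (nat_lit 438) (nat_lit 222)) (XT.lf (nat_lit 0) (nat_lit 2176942340) (nat_lit 760) (nat_lit 15992292201) (nat_lit 836) (nat_lit 2506082090) (nat_lit 267) (nat_lit 5) (nat_lit 277) (nat_lit 5) (nat_lit 278) (nat_lit 5) (nat_lit 481) (nat_lit 438) (nat_lit 221))) (XT.nd (nat_lit 78) (nat_lit 760) (nat_lit 0) (XT.lf (nat_lit 0) (nat_lit 12648910576) (nat_lit 760) (nat_lit 8184700406) (nat_lit 836) (nat_lit 83194531) (nat_lit 267) (nat_lit 5) (nat_lit 277) (nat_lit 5) (nat_lit 278) (nat_lit 5) (nat_lit 482) (nat_lit 438) (nat_lit 220)) (XT.lf (nat_lit 0) (nat_lit 2175171022) (nat_lit 684) (nat_lit 191103082) (nat_lit 760) (nat_lit 18796354186) (nat_lit 257) (nat_lit 5) (nat_lit 266) (nat_lit 5) (nat_lit 267) (nat_lit 5) (nat_lit 483) (nat_lit 438) (nat_lit 219))))) (XT.nd (nat_lit 234) (nat_lit 1216)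 (nat_lit 0) (XT.nd (nat_lit 78) (nat_lit 684) (nat_lit 0) (XT.lf (nat_lit 0) (nat_lit 4966543839) (nat_lit 760) (nat_lit 8530806415) (nat_lit 76) (nat_lit 7913950812) (nat_lit 257) (nat_lit 5) (nat_lit 267) (nat_lit 5) (nat_lit 258) (nat_lit 5) (nat_lit 484) (nat_lit 438) (nat_lit 218)) (XT.nd (nat_lit 78) (nat_lit 0) (nat_lit 0) (XT.lf (nat_lit 0) (nat_lit 2156996394) (nat_lit 684) (nat_lit 5472561768) (nat_lit 760) (nat_lit 14035177344) (nat_lit 248) (nat_lit 5) (nat_lit 257) (nat_lit 5) (nat_lit 258) (nat_lit 5) (nat_lit 485) (nat_lit 438) (nat_lit 217)) (XT.lf (nat_lit 0) (nat_lit 10416593172) (nat_lit 760) (nat_lit 8770954177) (nat_lit 76) (nat_lit 2734279013) (nat_lit 248) (nat_lit 5) (nat_lit 258) (nat_lit 5) (nat_lit 249) (nat_lit 5) (nat_lit 486) (nat_lit 438) (nat_lit 216)))) (XT.nd (nat_lit 156) (nat_lit 608) (nat_lit 0) (XT.nd (nat_lit 78) (nat_lit 0) (nat_lit 0) (XT.lf (nat_lit 0) (nat_lit 2167793422)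 (nat_lit 608) (nat_lit 11137502434) (nat_lit 684) (nat_lit 8877847516) (nat_lit 240) (nat_lit 5) (nat_lit 248) (nat_lit 5) (nat_lit 249) (nat_lit 5) (nat_lit 487) (nat_lit 438) (nat_lit 215)) (XT.lf (nat_lit 0) (nat_lit 13439279306) (nat_lit 608) (nat_lit 2867015171) (nat_lit 684) (nat_lit 6142304631) (nat_lit 240) (nat_lit 5) (nat_lit 248) (nat_lit 5) (nat_lit 249) (nat_lit 5) (nat_lit 488) (nat_lit 438) (nat_lit 214))) (XT.nd (nat_lit 78) (nat_lit 0) (nat_lit 0) (XT.lf (nat_lit 0) (nat_lit 2204672133) (nat_lit 608) (nat_lit 17208857407) (nat_lit 684) (nat_lit 3304912853) (nat_lit 232) (nat_lit 5) (nat_lit 240) (nat_lit 5) (nat_lit 241) (nat_lit 5) (nat_lit 489) (nat_lit 438) (nat_lit 213)) (XT.lf (nat_lit 0) (nat_lit 13740944160) (nat_lit 608) (nat_lit 8917081478) (nat_lit 684) (nat_lit 334157291) (nat_lit 232) (nat_lit 5) (nat_lit 240) (nat_lit 5) (nat_lit 241) (nat_lit 5) (nat_lit 490) (nat_lit 438) (nat_lit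 212))))))))
noncomputable def xc221 : XT := (XT.nd (nat_lit 55536) (nat_lit 0) (nat_lit 13832) (XT.nd (nat_lit 1092) (nat_lit 2508) (nat_lit 0) (XT.nd (nat_lit 546) (nat_lit 1596) (nat_lit 0) (XT.nd (nat_lit 234) (nat_lit 1064) (nat_lit 0) (XT.nd (nat_lit 78) (nat_lit 608) (nat_lit 0) (XT.lf (nat_lit 0) (nat_lit 2243618241) (nat_lit 608) (nat_lit 427453109) (nat_lit 684) (nat_lit 20599771111) (nat_lit 223) (nat_lit 5) (nat_lit 231) (nat_lit 5) (nat_lit 232) (nat_lit 5) (nat_lit 491) (nat_lit 438) (nat_lit 211)) (XT.nd (nat_lit 78) (nat_lit 608) (nat_lit 0) (XT.lf (nat_lit 0) (nat_lit 5843768687) (nat_lit 684) (nat_lit 9521023992) (nat_lit 76) (nat_lit 8188004116) (nat_lit 223) (nat_lit 5) (nat_lit 232) (nat_lit 5) (nat_lit 224) (nat_lit 5) (nat_lit 492) (nat_lit 438) (nat_lit 210)) (XT.lf (nat_lit 0) (nat_lit 2237009878) (nat_lit 608) (nat_lit 6856240644) (nat_lit 684) (nat_lit 14746875587) (nat_lit 215) (nat_lit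 5) (nat_lit 223) (nat_lit 5) (nat_lit 224) (nat_lit 5) (nat_lit 493) (nat_lit 438) (nat_lit 209)))) (XT.nd (nat_lit 156) (nat_lit 532) (nat_lit 0) (XT.nd (nat_lit 78) (nat_lit 532) (nat_lit 0) (XT.lf (nat_lit 0) (nat_lit 12479887378) (nat_lit 684) (nat_lit 9789759281) (nat_lit 76) (nat_lit 1862114500) (nat_lit 215) (nat_lit 5) (nat_lit 224) (nat_lit 5) (nat_lit 216) (nat_lit 5) (nat_lit 494) (nat_lit 438) (nat_lit 208)) (XT.lf (nat_lit 0) (nat_lit 2239076486) (nat_lit 532) (nat_lit 13751220106) (nat_lit 608) (nat_lit 8437813932) (nat_lit 208) (nat_lit 5) (nat_lit 215) (nat_lit 5) (nat_lit 216) (nat_lit 5) (nat_lit 495) (nat_lit 438) (nat_lit 207))) (XT.nd (nat_lit 78) (nat_lit 532) (nat_lit 0) (XT.lf (nat_lit 0) (nat_lit 14636474328) (nat_lit 532) (nat_lit 4996276498) (nat_lit 608) (nat_lit 5096401675) (nat_lit 208) (nat_lit 5) (nat_lit 215) (nat_lit 5) (nat_lit 216) (nat_lit 5) (nat_lit 496) (nat_lit 438) (nat_lit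 206)) (XT.lf (nat_lit 0) (nat_lit 2244807861) (nat_lit 532) (nat_lit 21139574246) (nat_lit 608) (nat_lit 1651108965) (nat_lit 201) (nat_lit 5) (nat_lit 208) (nat_lit 5) (nat_lit 209) (nat_lit 5) (nat_lit 497) (nat_lit 438) (nat_lit 205))))) (XT.nd (nat_lit 234) (nat_lit 988) (nat_lit 0) (XT.nd (nat_lit 78) (nat_lit 532) (nat_lit 0) (XT.lf (nat_lit 0) (nat_lit 1936147972) (nat_lit 608) (nat_lit 10431101023) (nat_lit 76) (nat_lit 12978517852) (nat_lit 200) (nat_lit 5) (nat_lit 208) (nat_lit 5) (nat_lit 201) (nat_lit 5) (nat_lit 498) (nat_lit 438) (nat_lit 204)) (XT.nd (nat_lit 78) (nat_lit 0) (nat_lit 0) (XT.lf (nat_lit 0) (nat_lit 2188818774) (nat_lit 532) (nat_lit 3394758286) (nat_lit 608) (nat_lit 20078244276) (nat_lit 193) (nat_lit 5) (nat_lit 200) (nat_lit 5) (nat_lit 201) (nat_lit 5) (nat_lit 499) (nat_lit 438) (nat_lit 203)) (XT.lf (nat_lit 0) (nat_lit 9408135873) (nat_lit 608) (nat_lit 10822771629) (nat_lit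 76) (nat_lit 5751207926) (nat_lit 193) (nat_lit 5) (nat_lit 201) (nat_lit 5) (nat_lit 194) (nat_lit 5) (nat_lit 500) (nat_lit 438) (nat_lit 202)))) (XT.nd (nat_lit 156) (nat_lit 456) (nat_lit 0) (XT.nd (nat_lit 78) (nat_lit 0) (nat_lit 0) (XT.lf (nat_lit 0) (nat_lit 2080697312) (nat_lit 532) (nat_lit 11260891383) (nat_lit 608) (nat_lit 12966580748) (nat_lit 186) (nat_lit 5) (nat_lit 193) (nat_lit 5) (nat_lit 194) (nat_lit 5) (nat_lit 501) (nat_lit 438) (nat_lit 201)) (XT.lf (nat_lit 0) (nat_lit 15384397755) (nat_lit 532) (nat_lit 2038391895) (nat_lit 608) (nat_lit 9216575361) (nat_lit 186) (nat_lit 5) (nat_lit 193) (nat_lit 5) (nat_lit 194) (nat_lit 5) (nat_lit 502) (nat_lit 438) (nat_lit 200))) (XT.nd (nat_lit 78) (nat_lit 0) (nat_lit 0) (XT.lf (nat_lit 0) (nat_lit 1950203883) (nat_lit 456) (nat_lit 19692430120) (nat_lit 532) (nat_lit 5333412115) (nat_lit 180) (nat_lit 5) (nat_lit 186) (nat_lit 5) (nat_lit 187)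 (nat_lit 5) (nat_lit 503) (nat_lit 438) (nat_lit 199)) (XT.lf (nat_lit 0) (nat_lit 15553873998) (nat_lit 456) (nat_lit 10478493438) (nat_lit 532) (nat_lit 1285385541) (nat_lit 180) (nat_lit 5) (nat_lit 186) (nat_lit 5) (nat_lit 187) (nat_lit 5) (nat_lit 504) (nat_lit 438) (nat_lit 198)))))) (XT.nd (nat_lit 546) (nat_lit 456) (nat_lit 0) (XT.nd (nat_lit 234) (nat_lit 988) (nat_lit 0) (XT.nd (nat_lit 78) (nat_lit 456) (nat_lit 0) (XT.lf (nat_lit 0) (nat_lit 1763541273) (nat_lit 532) (nat_lit 1050814260) (nat_lit 608) (nat_lit 24851410122) (nat_lit 172) (nat_lit 5) (nat_lit 179) (nat_lit 5) (nat_lit 180) (nat_lit 5) (nat_lit 505) (nat_lit 438) (nat_lit 197)) (XT.nd (nat_lit 78) (nat_lit 456) (nat_lit 0) (XT.lf (nat_lit 0) (nat_lit 7110602588) (nat_lit 608) (nat_lit 12367316894) (nat_lit 76) (nat_lit 8540016590) (nat_lit 172) (nat_lit 5) (nat_lit 180) (nat_lit 5) (nat_lit 173) (nat_lit 5) (nat_lit 506) (nat_lit 438)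 (nat_lit 196)) (XT.lf (nat_lit 0) (nat_lit 1445898922) (nat_lit 456) (nat_lit 10059917908) (nat_lit 532) (nat_lit 16871074045) (nat_lit 166) (nat_lit 5) (nat_lit 172) (nat_lit 5) (nat_lit 173) (nat_lit 5) (nat_lit 507) (nat_lit 438) (nat_lit 195)))) (XT.nd (nat_lit 156) (nat_lit 532) (nat_lit 0) (XT.nd (nat_lit 78) (nat_lit 456) (nat_lit 0) (XT.lf (nat_lit 0) (nat_lit 15698656187) (nat_lit 456) (nat_lit 370002309) (nat_lit 532) (nat_lit 12672773606) (nat_lit 166) (nat_lit 5) (nat_lit 172) (nat_lit 5) (nat_lit 173) (nat_lit 5) (nat_lit 508) (nat_lit 438) (nat_lit 194)) (XT.lf (nat_lit 0) (nat_lit 1071145013) (nat_lit 456) (nat_lit 19717124921) (nat_lit 532) (nat_lit 8323685714) (nat_lit 160) (nat_lit 5) (nat_lit 166) (nat_lit 5) (nat_lit 167) (nat_lit 5) (nat_lit 509) (nat_lit 438) (nat_lit 193))) (XT.nd (nat_lit 78) (nat_lit 532) (nat_lit 0) (XT.lf (nat_lit 0) (nat_lit 15637349888) (nat_lit 456) (nat_lit 10051705835)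 (nat_lit 532) (nat_lit 3799100018) (nat_lit 160) (nat_lit 5) (nat_lit 166) (nat_lit 5) (nat_lit 167) (nat_lit 5) (nat_lit 510) (nat_lit 438) (nat_lit 192)) (XT.lf (nat_lit 0) (nat_lit 621584707) (nat_lit 456) (nat_lit 184590731) (nat_lit 532) (nat_lit 29065582100) (nat_lit 153) (nat_lit 5) (nat_lit 159) (nat_lit 5) (nat_lit 160) (nat_lit 5) (nat_lit 511) (nat_lit 438) (nat_lit 191))))) (XT.nd (nat_lit 234) (nat_lit 0) (nat_lit 0) (XT.nd (nat_lit 78) (nat_lit 456) (nat_lit 0) (XT.lf (nat_lit 0) (nat_lit 5607332952) (nat_lit 532) (nat_lit 14784216666) (nat_lit 76) (nat_lit 9867888201) (nat_lit 153) (nat_lit 5) (nat_lit 160) (nat_lit 5) (nat_lit 154) (nat_lit 5) (nat_lit 512) (nat_lit 438) (nat_lit 190)) (XT.nd (nat_lit 78) (nat_lit 456) (nat_lit 0) (XT.lf (nat_lit 0) (nat_lit 10502687603) (nat_lit 532) (nat_lit 34376412) (nat_lit 76) (nat_lit 20117845800) (nat_lit 153) (nat_lit 5) (nat_lit 160) (nat_lit 5) (nat_lit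 154) (nat_lit 5) (nat_lit 513) (nat_lit 438) (nat_lit 189)) (XT.lf (nat_lit 0) (nat_lit 15205756904) (nat_lit 456) (nat_lit 385929608) (nat_lit 532) (nat_lit 15464691553) (nat_lit 147) (nat_lit 5) (nat_lit 153) (nat_lit 5) (nat_lit 154) (nat_lit 5) (nat_lit 514) (nat_lit 438) (nat_lit 188)))) (XT.nd (nat_lit 53508) (nat_lit 0) (nat_lit 19456) (XT.nd (nat_lit 53430) (nat_lit 0) (nat_lit 19456) (XT.lf (nat_lit 0) (nat_lit 20844453785) (nat_lit 532) (nat_lit 783590099) (nat_lit 76) (nat_lit 9836593555) (nat_lit 147) (nat_lit 5) (nat_lit 154) (nat_lit 5) (nat_lit 148) (nat_lit 5) (nat_lit 515) (nat_lit 438) (nat_lit 187)) (XT.lf (nat_lit 0) (nat_lit 2805061442) (nat_lit 0) (nat_lit 2805061442) (nat_lit 1596) (nat_lit 1092987739) (nat_lit 403) (nat_lit 5) (nat_lit 403) (nat_lit 3) (nat_lit 424) (nat_lit 3) (nat_lit 439) (nat_lit 439) (nat_lit 262))) (XT.nd (nat_lit 78) (nat_lit 0) (nat_lit 0) (XT.lf (nat_lit 0) (nat_lit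 11691878035) (nat_lit 1596) (nat_lit 1697483161) (nat_lit 1672) (nat_lit 143444193) (nat_lit 403) (nat_lit 5) (nat_lit 424) (nat_lit 3) (nat_lit 425) (nat_lit 5) (nat_lit 440) (nat_lit 439) (nat_lit 261)) (XT.lf (nat_lit 76) (nat_lit 4540573862) (nat_lit 0) (nat_lit 7689629937) (nat_lit 1672) (nat_lit 1430579789) (nat_lit 404) (nat_lit 5) (nat_lit 403) (nat_lit 5) (nat_lit 425) (nat_lit 5) (nat_lit 441) (nat_lit 439) (nat_lit 260))))))) (XT.nd (nat_lit 1092) (nat_lit 4104) (nat_lit 0) (XT.nd (nat_lit 546) (nat_lit 0) (nat_lit 76) (XT.nd (nat_lit 234) (nat_lit 1520) (nat_lit 0) (XT.nd (nat_lit 78) (nat_lit 0) (nat_lit 76) (XT.lf (nat_lit 76) (nat_lit 10921506485) (nat_lit 0) (nat_lit 1859959902) (nat_lit 1672) (nat_lit 1009819004) (nat_lit 404) (nat_lit 5) (nat_lit 403) (nat_lit 5) (nat_lit 425) (nat_lit 5) (nat_lit 442) (nat_lit 439) (nat_lit 259)) (XT.nd (nat_lit 78) (nat_lit 0) (nat_lit 0) (XT.lf (nat_lit 76)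 (nat_lit 3520283675) (nat_lit 0) (nat_lit 9863845192) (nat_lit 1672) (nat_lit 539468168) (nat_lit 405) (nat_lit 5) (nat_lit 404) (nat_lit 5) (nat_lit 426) (nat_lit 5) (nat_lit 443) (nat_lit 439) (nat_lit 258)) (XT.lf (nat_lit 76) (nat_lit 10059584788) (nat_lit 0) (nat_lit 3961886111) (nat_lit 1672) (nat_lit 36638641) (nat_lit 405) (nat_lit 5) (nat_lit 404) (nat_lit 5) (nat_lit 426) (nat_lit 5) (nat_lit 444) (nat_lit 439) (nat_lit 257)))) (XT.nd (nat_lit 156) (nat_lit 0) (nat_lit 0) (XT.nd (nat_lit 78) (nat_lit 0) (nat_lit 0) (XT.lf (nat_lit 0) (nat_lit 491380444) (nat_lit 1672) (nat_lit 11648785062) (nat_lit 1748) (nat_lit 2054664244) (nat_lit 383) (nat_lit 5) (nat_lit 405) (nat_lit 5) (nat_lit 406) (nat_lit 5) (nat_lit 445) (nat_lit 439) (nat_lit 256)) (XT.lf (nat_lit 0) (nat_lit 1074121819) (nat_lit 1672) (nat_lit 5089876591) (nat_lit 1748) (nat_lit 8169394803) (nat_lit 383) (nat_lit 5) (nat_lit 405) (nat_lit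 5) (nat_lit 406) (nat_lit 5) (nat_lit 446) (nat_lit 439) (nat_lit 255))) (XT.nd (nat_lit 78) (nat_lit 0) (nat_lit 76) (XT.lf (nat_lit 76) (nat_lit 1616332608) (nat_lit 0) (nat_lit 54252738) (nat_lit 1748) (nat_lit 12804107862) (nat_lit 384) (nat_lit 5) (nat_lit 383) (nat_lit 5) (nat_lit 406) (nat_lit 5) (nat_lit 447) (nat_lit 439) (nat_lit 254)) (XT.lf (nat_lit 0) (nat_lit 2345196370) (nat_lit 1672) (nat_lit 6138047348) (nat_lit 1748) (nat_lit 6134257602) (nat_lit 384) (nat_lit 5) (nat_lit 406) (nat_lit 5) (nat_lit 407) (nat_lit 5) (nat_lit 448) (nat_lit 439) (nat_lit 253))))) (XT.nd (nat_lit 234) (nat_lit 0) (nat_lit 152) (XT.nd (nat_lit 78) (nat_lit 0) (nat_lit 76) (XT.lf (nat_lit 76) (nat_lit 720630724) (nat_lit 0) (nat_lit 2309595846) (nat_lit 1748) (nat_lit 11733006839) (nat_lit 385) (nat_lit 5) (nat_lit 384) (nat_lit 5) (nat_lit 407) (nat_lit 5) (nat_lit 449) (nat_lit 439) (nat_lit 252)) (XT.nd (nat_lit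 78) (nat_lit 0) (nat_lit 0) (XT.lf (nat_lit 0) (nat_lit 3788342859) (nat_lit 1672) (nat_lit 7142817832) (nat_lit 1748) (nat_lit 3979537967) (nat_lit 385) (nat_lit 5) (nat_lit 407) (nat_lit 5) (nat_lit 408) (nat_lit 5) (nat_lit 450) (nat_lit 439) (nat_lit 251)) (XT.lf (nat_lit 0) (nat_lit 4569106537) (nat_lit 1672) (nat_lit 125513257) (nat_lit 1748) (nat_lit 10366349823) (nat_lit 385) (nat_lit 5) (nat_lit 407) (nat_lit 5) (nat_lit 408) (nat_lit 5) (nat_lit 451) (nat_lit 439) (nat_lit 250)))) (XT.nd (nat_lit 156) (nat_lit 0) (nat_lit 0) (XT.nd (nat_lit 78) (nat_lit 0) (nat_lit 0) (XT.lf (nat_lit 0) (nat_lit 5415202916) (nat_lit 1672) (nat_lit 8104180170) (nat_lit 1748) (nat_lit 1693874549) (nat_lit 386) (nat_lit 5) (nat_lit 408) (nat_lit 5) (nat_lit 409) (nat_lit 5) (nat_lit 452) (nat_lit 439) (nat_lit 249)) (XT.lf (nat_lit 0) (nat_lit 6302635701) (nat_lit 1672) (nat_lit 914827476) (nat_lit 1748) (nat_lit 8150645815)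 (nat_lit 386) (nat_lit 5) (nat_lit 408) (nat_lit 5) (nat_lit 409) (nat_lit 5) (nat_lit 453) (nat_lit 439) (nat_lit 248))) (XT.nd (nat_lit 78) (nat_lit 0) (nat_lit 76) (XT.lf (nat_lit 76) (nat_lit 6498424093) (nat_lit 0) (nat_lit 744209092) (nat_lit 1748) (nat_lit 8282733627) (nat_lit 387) (nat_lit 5) (nat_lit 386) (nat_lit 5) (nat_lit 409) (nat_lit 5) (nat_lit 454) (nat_lit 439) (nat_lit 247)) (XT.lf (nat_lit 0) (nat_lit 8238397340) (nat_lit 1672) (nat_lit 1656631191) (nat_lit 1748) (nat_lit 5790007563) (nat_lit 387) (nat_lit 5) (nat_lit 409) (nat_lit 5) (nat_lit 410) (nat_lit 5) (nat_lit 455) (nat_lit 439) (nat_lit 246)))))) (XT.nd (nat_lit 546) (nat_lit 4408) (nat_lit 0) (XT.nd (nat_lit 234) (nat_lit 0) (nat_lit 152) (XT.nd (nat_lit 78) (nat_lit 0) (nat_lit 76) (XT.lf (nat_lit 76) (nat_lit 5928770196) (nat_lit 0) (nat_lit 3361620548) (nat_lit 1748) (nat_lit 6556787270) (nat_lit 388) (nat_lit 5) (nat_lit 387)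 (nat_lit 5) (nat_lit 410) (nat_lit 5) (nat_lit 456) (nat_lit 439) (nat_lit 245)) (XT.nd (nat_lit 78) (nat_lit 0) (nat_lit 0) (XT.lf (nat_lit 0) (nat_lit 10389066627) (nat_lit 1672) (nat_lit 2350788719) (nat_lit 1748) (nat_lit 3272199997) (nat_lit 388) (nat_lit 5) (nat_lit 410) (nat_lit 5) (nat_lit 411) (nat_lit 5) (nat_lit 457) (nat_lit 439) (nat_lit 244)) (XT.lf (nat_lit 76) (nat_lit 5411730893) (nat_lit 0) (nat_lit 6148531509) (nat_lit 1748) (nat_lit 4618962206) (nat_lit 389) (nat_lit 5) (nat_lit 388) (nat_lit 5) (nat_lit 411) (nat_lit 5) (nat_lit 458) (nat_lit 439) (nat_lit 243)))) (XT.nd (nat_lit 156) (nat_lit 0) (nat_lit 0) (XT.nd (nat_lit 78) (nat_lit 0) (nat_lit 0) (XT.lf (nat_lit 0) (nat_lit 12767751406) (nat_lit 1672) (nat_lit 2997172662) (nat_lit 1748) (nat_lit 584561014) (nat_lit 389) (nat_lit 5) (nat_lit 411) (nat_lit 5) (nat_lit 412) (nat_lit 5) (nat_lit 459) (nat_lit 439) (nat_lit 242)) (XT.lf (nat_lit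 76) (nat_lit 4947545492) (nat_lit 0) (nat_lit 9118077380) (nat_lit 1748) (nat_lit 2456208352) (nat_lit 390) (nat_lit 5) (nat_lit 389) (nat_lit 5) (nat_lit 412) (nat_lit 5) (nat_lit 460) (nat_lit 439) (nat_lit 241))) (XT.nd (nat_lit 78) (nat_lit 0) (nat_lit 76) (XT.lf (nat_lit 76) (nat_lit 13086641029) (nat_lit 0) (nat_lit 2316410713) (nat_lit 1748) (nat_lit 1294305556) (nat_lit 390) (nat_lit 5) (nat_lit 389) (nat_lit 5) (nat_lit 412) (nat_lit 5) (nat_lit 461) (nat_lit 439) (nat_lit 240)) (XT.lf (nat_lit 76) (nat_lit 4536431325) (nat_lit 0) (nat_lit 12283879635) (nat_lit 1748) (nat_lit 55026209) (nat_lit 391) (nat_lit 5) (nat_lit 390) (nat_lit 5) (nat_lit 413) (nat_lit 5) (nat_lit 462) (nat_lit 439) (nat_lit 239))))) (XT.nd (nat_lit 312) (nat_lit 1672) (nat_lit 0) (XT.nd (nat_lit 156) (nat_lit 1216) (nat_lit 0) (XT.nd (nat_lit 78) (nat_lit 0) (nat_lit 76) (XT.lf (nat_lit 0) (nat_lit 1226581685) (nat_lit 1748)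 (nat_lit 4189516412) (nat_lit 1824) (nat_lit 11639958269) (nat_lit 367) (nat_lit 5) (nat_lit 390) (nat_lit 5) (nat_lit 391) (nat_lit 5) (nat_lit 463) (nat_lit 439) (nat_lit 238)) (XT.lf (nat_lit 0) (nat_lit 2564472486) (nat_lit 1748) (nat_lit 13078398480) (nat_lit 76) (nat_lit 1596888586) (nat_lit 368) (nat_lit 5) (nat_lit 391) (nat_lit 5) (nat_lit 369) (nat_lit 5) (nat_lit 464) (nat_lit 439) (nat_lit 237))) (XT.nd (nat_lit 78) (nat_lit 1292) (nat_lit 0) (XT.lf (nat_lit 0) (nat_lit 3987177631) (nat_lit 1748) (nat_lit 4731819403) (nat_lit 76) (nat_lit 8706983173) (nat_lit 368) (nat_lit 5) (nat_lit 391) (nat_lit 5) (nat_lit 369) (nat_lit 5) (nat_lit 465) (nat_lit 439) (nat_lit 236)) (XT.lf (nat_lit 0) (nat_lit 3826745791) (nat_lit 1292) (nat_lit 1630444980) (nat_lit 1368) (nat_lit 12158361874) (nat_lit 351) (nat_lit 5) (nat_lit 368) (nat_lit 5) (nat_lit 369) (nat_lit 5) (nat_lit 466) (nat_lit 439) (nat_lit 235))))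 (XT.nd (nat_lit 156) (nat_lit 836) (nat_lit 0) (XT.nd (nat_lit 78) (nat_lit 836) (nat_lit 0) (XT.lf (nat_lit 0) (nat_lit 7019023321) (nat_lit 1368) (nat_lit 5229454433) (nat_lit 76) (nat_lit 5559194757) (nat_lit 351) (nat_lit 5) (nat_lit 369) (nat_lit 5) (nat_lit 352) (nat_lit 5) (nat_lit 467) (nat_lit 439) (nat_lit 234)) (XT.lf (nat_lit 0) (nat_lit 3531477964) (nat_lit 836) (nat_lit 5108554371) (nat_lit 912) (nat_lit 9363047919) (nat_lit 340) (nat_lit 5) (nat_lit 351) (nat_lit 5) (nat_lit 352) (nat_lit 5) (nat_lit 468) (nat_lit 439) (nat_lit 233))) (XT.nd (nat_lit 78) (nat_lit 836) (nat_lit 0) (XT.lf (nat_lit 0) (nat_lit 10337200320) (nat_lit 912) (nat_lit 5682741177) (nat_lit 76) (nat_lit 2181584070) (nat_lit 340) (nat_lit 5) (nat_lit 352) (nat_lit 5) (nat_lit 341) (nat_lit 5) (nat_lit 469) (nat_lit 439) (nat_lit 232)) (XT.lf (nat_lit 0) (nat_lit 3286051081) (nat_lit 836) (nat_lit 8831836960) (nat_lit 912)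 (nat_lit 6285064328) (nat_lit 329) (nat_lit 5) (nat_lit 340) (nat_lit 5) (nat_lit 341) (nat_lit 5) (nat_lit 470) (nat_lit 439) (nat_lit 231))))))))
noncomputable def xc222 : XT := (XT.nd (nat_lit 2184) (nat_lit 4104) (nat_lit 0) (XT.nd (nat_lit 1092) (nat_lit 4256) (nat_lit 0) (XT.nd (nat_lit 546) (nat_lit 2964) (nat_lit 0) (XT.nd (nat_lit 234) (nat_lit 1672) (nat_lit 0) (XT.nd (nat_lit 78) (nat_lit 836) (nat_lit 0) (XT.lf (nat_lit 0) (nat_lit 12506172126) (nat_lit 836) (nat_lit 1460637886) (nat_lit 912) (nat_lit 4640949314) (nat_lit 329) (nat_lit 5) (nat_lit 340) (nat_lit 5) (nat_lit 341) (nat_lit 5) (nat_lit 471) (nat_lit 439) (nat_lit 230)) (XT.nd (nat_lit 78) (nat_lit 0) (nat_lit 0) (XT.lf (nat_lit 0) (nat_lit 3090135012) (nat_lit 836) (nat_lit 12816568271) (nat_lit 912) (nat_lit 2908883233) (nat_lit 318) (nat_lit 5) (nat_lit 329) (nat_lit 5) (nat_lit 330) (nat_lit 5) (nat_lit 472) (nat_lit 439) (nat_lit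 229)) (XT.lf (nat_lit 0) (nat_lit 12533538775) (nat_lit 836) (nat_lit 5397080246) (nat_lit 912) (nat_lit 1096050609) (nat_lit 318) (nat_lit 5) (nat_lit 329) (nat_lit 5) (nat_lit 330) (nat_lit 5) (nat_lit 473) (nat_lit 439) (nat_lit 228)))) (XT.nd (nat_lit 156) (nat_lit 760) (nat_lit 0) (XT.nd (nat_lit 78) (nat_lit 0) (nat_lit 0) (XT.lf (nat_lit 0) (nat_lit 771324424) (nat_lit 912) (nat_lit 16303220267) (nat_lit 76) (nat_lit 2166772412) (nat_lit 306) (nat_lit 5) (nat_lit 318) (nat_lit 5) (nat_lit 307) (nat_lit 5) (nat_lit 474) (nat_lit 439) (nat_lit 227)) (XT.lf (nat_lit 0) (nat_lit 2735796111) (nat_lit 912) (nat_lit 6861820280) (nat_lit 76) (nat_lit 9861011382) (nat_lit 306) (nat_lit 5) (nat_lit 318) (nat_lit 5) (nat_lit 307) (nat_lit 5) (nat_lit 475) (nat_lit 439) (nat_lit 226))) (XT.nd (nat_lit 78) (nat_lit 0) (nat_lit 0) (XT.lf (nat_lit 0) (nat_lit 2800122052) (nat_lit 760) (nat_lit 1952525639) (nat_lit 836)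 (nat_lit 14927378733) (nat_lit 296) (nat_lit 5) (nat_lit 306) (nat_lit 5) (nat_lit 307) (nat_lit 5) (nat_lit 476) (nat_lit 439) (nat_lit 225)) (XT.lf (nat_lit 0) (nat_lit 6889118313) (nat_lit 836) (nat_lit 7199953751) (nat_lit 76) (nat_lit 5815198851) (nat_lit 296) (nat_lit 5) (nat_lit 307) (nat_lit 5) (nat_lit 297) (nat_lit 5) (nat_lit 477) (nat_lit 439) (nat_lit 224))))) (XT.nd (nat_lit 234) (nat_lit 1520) (nat_lit 0) (XT.nd (nat_lit 78) (nat_lit 684) (nat_lit 0) (XT.lf (nat_lit 0) (nat_lit 2690976467) (nat_lit 760) (nat_lit 6402820581) (nat_lit 836) (nat_lit 11038697113) (nat_lit 286) (nat_lit 5) (nat_lit 296) (nat_lit 5) (nat_lit 297) (nat_lit 5) (nat_lit 478) (nat_lit 439) (nat_lit 223)) (XT.nd (nat_lit 78) (nat_lit 684) (nat_lit 0) (XT.lf (nat_lit 0) (nat_lit 11395676071) (nat_lit 836) (nat_lit 7501692565) (nat_lit 76) (nat_lit 1466854474) (nat_lit 286) (nat_lit 5) (nat_lit 297) (nat_lit 5) (nat_lit 287)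 (nat_lit 5) (nat_lit 479) (nat_lit 439) (nat_lit 222)) (XT.lf (nat_lit 0) (nat_lit 2623990763) (nat_lit 684) (nat_lit 11174276964) (nat_lit 760) (nat_lit 6801228715) (nat_lit 277) (nat_lit 5) (nat_lit 286) (nat_lit 5) (nat_lit 287) (nat_lit 5) (nat_lit 480) (nat_lit 439) (nat_lit 221)))) (XT.nd (nat_lit 156) (nat_lit 760) (nat_lit 0) (XT.nd (nat_lit 78) (nat_lit 760) (nat_lit 0) (XT.lf (nat_lit 0) (nat_lit 13048958109) (nat_lit 684) (nat_lit 3245590488) (nat_lit 760) (nat_lit 4544017135) (nat_lit 277) (nat_lit 5) (nat_lit 286) (nat_lit 5) (nat_lit 287) (nat_lit 5) (nat_lit 481) (nat_lit 439) (nat_lit 220)) (XT.lf (nat_lit 0) (nat_lit 2597728051) (nat_lit 760) (nat_lit 16286716466) (nat_lit 836) (nat_lit 2197101280) (nat_lit 267) (nat_lit 5) (nat_lit 277) (nat_lit 5) (nat_lit 278) (nat_lit 5) (nat_lit 482) (nat_lit 439) (nat_lit 219))) (XT.nd (nat_lit 78) (nat_lit 684) (nat_lit 0) (XT.lf (nat_lit 0) (nat_lit 263698392)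 (nat_lit 836) (nat_lit 8058003350) (nat_lit 76) (nat_lit 13006270707) (nat_lit 266) (nat_lit 5) (nat_lit 277) (nat_lit 5) (nat_lit 267) (nat_lit 5) (nat_lit 483) (nat_lit 439) (nat_lit 218)) (XT.lf (nat_lit 0) (nat_lit 2590907850) (nat_lit 684) (nat_lit 165739779) (nat_lit 760) (nat_lit 18822145488) (nat_lit 257) (nat_lit 5) (nat_lit 266) (nat_lit 5) (nat_lit 267) (nat_lit 5) (nat_lit 484) (nat_lit 439) (nat_lit 217)))))) (XT.nd (nat_lit 546) (nat_lit 2356) (nat_lit 0) (XT.nd (nat_lit 234) (nat_lit 1216) (nat_lit 0) (XT.nd (nat_lit 78) (nat_lit 684) (nat_lit 0) (XT.lf (nat_lit 0) (nat_lit 5402382101) (nat_lit 760) (nat_lit 8329724840) (nat_lit 76) (nat_lit 8100467665) (nat_lit 257) (nat_lit 5) (nat_lit 267) (nat_lit 5) (nat_lit 258) (nat_lit 5) (nat_lit 485) (nat_lit 439) (nat_lit 216)) (XT.nd (nat_lit 78) (nat_lit 0) (nat_lit 0) (XT.lf (nat_lit 0) (nat_lit 2569388644) (nat_lit 684) (nat_lit 5545067312) (nat_lit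 760) (nat_lit 13976710153) (nat_lit 248) (nat_lit 5) (nat_lit 257) (nat_lit 5) (nat_lit 258) (nat_lit 5) (nat_lit 486) (nat_lit 439) (nat_lit 215)) (XT.lf (nat_lit 0) (nat_lit 10950951024) (nat_lit 760) (nat_lit 8577866836) (nat_lit 76) (nat_lit 2824710810) (nat_lit 248) (nat_lit 5) (nat_lit 258) (nat_lit 5) (nat_lit 249) (nat_lit 5) (nat_lit 487) (nat_lit 439) (nat_lit 214)))) (XT.nd (nat_lit 156) (nat_lit 608) (nat_lit 0) (XT.nd (nat_lit 78) (nat_lit 0) (nat_lit 0) (XT.lf (nat_lit 0) (nat_lit 2577231331) (nat_lit 608) (nat_lit 11316180612) (nat_lit 684) (nat_lit 8726744585) (nat_lit 240) (nat_lit 5) (nat_lit 248) (nat_lit 5) (nat_lit 249) (nat_lit 5) (nat_lit 488) (nat_lit 439) (nat_lit 213)) (XT.lf (nat_lit 0) (nat_lit 14066968853) (nat_lit 608) (nat_lit 2881147758) (nat_lit 684) (nat_lit 5942935153) (nat_lit 240) (nat_lit 5) (nat_lit 248) (nat_lit 5) (nat_lit 249) (nat_lit 5) (nat_lit 489) (nat_lit 439) (nat_lit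 212))) (XT.nd (nat_lit 78) (nat_lit 0) (nat_lit 0) (XT.lf (nat_lit 0) (nat_lit 2611506074) (nat_lit 608) (nat_lit 17502430362) (nat_lit 684) (nat_lit 3052430703) (nat_lit 232) (nat_lit 5) (nat_lit 240) (nat_lit 5) (nat_lit 241) (nat_lit 5) (nat_lit 490) (nat_lit 439) (nat_lit 211)) (XT.lf (nat_lit 0) (nat_lit 14371390984) (nat_lit 608) (nat_lit 9045811154) (nat_lit 684) (nat_lit 28506705) (nat_lit 232) (nat_lit 5) (nat_lit 240) (nat_lit 5) (nat_lit 241) (nat_lit 5) (nat_lit 491) (nat_lit 439) (nat_lit 210))))) (XT.nd (nat_lit 234) (nat_lit 1064) (nat_lit 0) (XT.nd (nat_lit 78) (nat_lit 608) (nat_lit 0) (XT.lf (nat_lit 0) (nat_lit 2646040533) (nat_lit 608) (nat_lit 382967243) (nat_lit 684) (nat_lit 20700971476) (nat_lit 223) (nat_lit 5) (nat_lit 231) (nat_lit 5) (nat_lit 232) (nat_lit 5) (nat_lit 492) (nat_lit 439) (nat_lit 209)) (XT.nd (nat_lit 78) (nat_lit 608) (nat_lit 0) (XT.lf (nat_lit 0) (nat_lit 6259525764)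 (nat_lit 684) (nat_lit 9355085993) (nat_lit 76) (nat_lit 8403077302) (nat_lit 223) (nat_lit 5) (nat_lit 232) (nat_lit 5) (nat_lit 224) (nat_lit 5) (nat_lit 493) (nat_lit 439) (nat_lit 208)) (XT.lf (nat_lit 0) (nat_lit 2635764091) (nat_lit 608) (nat_lit 6934671213) (nat_lit 684) (nat_lit 14740404542) (nat_lit 215) (nat_lit 5) (nat_lit 223) (nat_lit 5) (nat_lit 224) (nat_lit 5) (nat_lit 494) (nat_lit 439) (nat_lit 207)))) (XT.nd (nat_lit 156) (nat_lit 532) (nat_lit 0) (XT.nd (nat_lit 78) (nat_lit 532) (nat_lit 0) (XT.lf (nat_lit 0) (nat_lit 13019387923) (nat_lit 684) (nat_lit 9632886114) (nat_lit 76) (nat_lit 1956145475) (nat_lit 215) (nat_lit 5) (nat_lit 224) (nat_lit 5) (nat_lit 216) (nat_lit 5) (nat_lit 495) (nat_lit 439) (nat_lit 206)) (XT.lf (nat_lit 0) (nat_lit 2634206182) (nat_lit 532) (nat_lit 13962389464) (nat_lit 608) (nat_lit 8314171919) (nat_lit 208) (nat_lit 5) (nat_lit 215) (nat_lit 5) (nat_lit 216)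 (nat_lit 5) (nat_lit 496) (nat_lit 439) (nat_lit 205))) (XT.nd (nat_lit 78) (nat_lit 532) (nat_lit 0) (XT.lf (nat_lit 0) (nat_lit 15272682408) (nat_lit 532) (nat_lit 5033599044) (nat_lit 608) (nat_lit 4911664717) (nat_lit 208) (nat_lit 5) (nat_lit 215) (nat_lit 5) (nat_lit 216) (nat_lit 5) (nat_lit 497) (nat_lit 439) (nat_lit 204)) (XT.lf (nat_lit 0) (nat_lit 2636270393) (nat_lit 532) (nat_lit 21493816229) (nat_lit 608) (nat_lit 1400385433) (nat_lit 201) (nat_lit 5) (nat_lit 208) (nat_lit 5) (nat_lit 209) (nat_lit 5) (nat_lit 498) (nat_lit 439) (nat_lit 203))))))) (XT.nd (nat_lit 1092) (nat_lit 456) (nat_lit 0) (XT.nd (nat_lit 546) (nat_lit 2052) (nat_lit 0) (XT.nd (nat_lit 234) (nat_lit 988) (nat_lit 0) (XT.nd (nat_lit 78) (nat_lit 532) (nat_lit 0) (XT.lf (nat_lit 0) (nat_lit 2249404594) (nat_lit 608) (nat_lit 10296141722) (nat_lit 76) (nat_lit 13301483237) (nat_lit 200) (nat_lit 5) (nat_lit 208) (nat_lit 5)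 (nat_lit 201) (nat_lit 5) (nat_lit 499) (nat_lit 439) (nat_lit 202)) (XT.nd (nat_lit 78) (nat_lit 0) (nat_lit 0) (XT.lf (nat_lit 0) (nat_lit 2573916066) (nat_lit 532) (nat_lit 3392699265) (nat_lit 608) (nat_lit 20202856314) (nat_lit 193) (nat_lit 5) (nat_lit 200) (nat_lit 5) (nat_lit 201) (nat_lit 5) (nat_lit 500) (nat_lit 439) (nat_lit 201)) (XT.lf (nat_lit 0) (nat_lit 9862789689) (nat_lit 608) (nat_lit 10699567410) (nat_lit 76) (nat_lit 5933915148) (nat_lit 193) (nat_lit 5) (nat_lit 201) (nat_lit 5) (nat_lit 194) (nat_lit 5) (nat_lit 501) (nat_lit 439) (nat_lit 200)))) (XT.nd (nat_lit 156) (nat_lit 456) (nat_lit 0) (XT.nd (nat_lit 78) (nat_lit 0) (nat_lit 0) (XT.lf (nat_lit 0) (nat_lit 2459736308) (nat_lit 532) (nat_lit 11412140731) (nat_lit 608) (nat_lit 12957034046) (nat_lit 186) (nat_lit 5) (nat_lit 193) (nat_lit 5) (nat_lit 194) (nat_lit 5) (nat_lit 502) (nat_lit 439) (nat_lit 199)) (XT.lf (nat_lit 0) (nat_lit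 16022894581) (nat_lit 532) (nat_lit 2006641615) (nat_lit 608) (nat_lit 9137300676) (nat_lit 186) (nat_lit 5) (nat_lit 193) (nat_lit 5) (nat_lit 194) (nat_lit 5) (nat_lit 503) (nat_lit 439) (nat_lit 198))) (XT.nd (nat_lit 78) (nat_lit 0) (nat_lit 0) (XT.lf (nat_lit 0) (nat_lit 2322653189) (nat_lit 456) (nat_lit 20008686275) (nat_lit 532) (nat_lit 5178963831) (nat_lit 180) (nat_lit 5) (nat_lit 186) (nat_lit 5) (nat_lit 187) (nat_lit 5) (nat_lit 504) (nat_lit 439) (nat_lit 197)) (XT.lf (nat_lit 0) (nat_lit 16191858564) (nat_lit 456) (nat_lit 10611992280) (nat_lit 532) (nat_lit 1055096657) (nat_lit 180) (nat_lit 5) (nat_lit 186) (nat_lit 5) (nat_lit 187) (nat_lit 5) (nat_lit 505) (nat_lit 439) (nat_lit 196))))) (XT.nd (nat_lit 234) (nat_lit 988) (nat_lit 0) (XT.nd (nat_lit 78) (nat_lit 456) (nat_lit 0) (XT.lf (nat_lit 0) (nat_lit 2127043900) (nat_lit 532) (nat_lit 993415288) (nat_lit 608) (nat_lit 25093487221) (nat_lit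 172) (nat_lit 5) (nat_lit 179) (nat_lit 5) (nat_lit 180) (nat_lit 5) (nat_lit 506) (nat_lit 439) (nat_lit 195)) (XT.nd (nat_lit 78) (nat_lit 456) (nat_lit 0) (XT.lf (nat_lit 0) (nat_lit 7498231960) (nat_lit 608) (nat_lit 12288332607) (nat_lit 76) (nat_lit 8786686361) (nat_lit 172) (nat_lit 5) (nat_lit 180) (nat_lit 5) (nat_lit 173) (nat_lit 5) (nat_lit 507) (nat_lit 439) (nat_lit 194)) (XT.lf (nat_lit 0) (nat_lit 1799000613) (nat_lit 456) (nat_lit 10179642586) (nat_lit 532) (nat_lit 16960798432) (nat_lit 166) (nat_lit 5) (nat_lit 172) (nat_lit 5) (nat_lit 173) (nat_lit 5) (nat_lit 508) (nat_lit 439) (nat_lit 193)))) (XT.nd (nat_lit 156) (nat_lit 532) (nat_lit 0) (XT.nd (nat_lit 78) (nat_lit 456) (nat_lit 0) (XT.lf (nat_lit 0) (nat_lit 16330456479) (nat_lit 456) (nat_lit 297526198) (nat_lit 532) (nat_lit 12683388790) (nat_lit 166) (nat_lit 5) (nat_lit 172) (nat_lit 5) (nat_lit 173) (nat_lit 5) (nat_lit 509) (nat_lit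 439) (nat_lit 192)) (XT.lf (nat_lit 0) (nat_lit 1412646027) (nat_lit 456) (nat_lit 20027261210) (nat_lit 532) (nat_lit 8249442383) (nat_lit 160) (nat_lit 5) (nat_lit 166) (nat_lit 5) (nat_lit 167) (nat_lit 5) (nat_lit 510) (nat_lit 439) (nat_lit 191))) (XT.nd (nat_lit 78) (nat_lit 532) (nat_lit 0) (XT.lf (nat_lit 0) (nat_lit 16263898958) (nat_lit 456) (nat_lit 10170184845) (nat_lit 532) (nat_lit 3639084915) (nat_lit 160) (nat_lit 5) (nat_lit 166) (nat_lit 5) (nat_lit 167) (nat_lit 5) (nat_lit 511) (nat_lit 439) (nat_lit 190)) (XT.lf (nat_lit 0) (nat_lit 948950704) (nat_lit 456) (nat_lit 103728258) (nat_lit 532) (nat_lit 29411785788) (nat_lit 153) (nat_lit 5) (nat_lit 159) (nat_lit 5) (nat_lit 160) (nat_lit 5) (nat_lit 512) (nat_lit 439) (nat_lit 189)))))) (XT.nd (nat_lit 53976) (nat_lit 0) (nat_lit 17860) (XT.nd (nat_lit 53664) (nat_lit 0) (nat_lit 19456) (XT.nd (nat_lit 78) (nat_lit 456) (nat_lit 0) (XT.lf (nat_lit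 0) (nat_lit 5945880590) (nat_lit 532) (nat_lit 14767044864) (nat_lit 76) (nat_lit 10147055124) (nat_lit 153) (nat_lit 5) (nat_lit 160) (nat_lit 5) (nat_lit 154) (nat_lit 5) (nat_lit 513) (nat_lit 439) (nat_lit 188)) (XT.nd (nat_lit 78) (nat_lit 0) (nat_lit 0) (XT.lf (nat_lit 0) (nat_lit 275267949) (nat_lit 456) (nat_lit 10661222372) (nat_lit 532) (nat_lit 20326927047) (nat_lit 147) (nat_lit 5) (nat_lit 153) (nat_lit 5) (nat_lit 154) (nat_lit 5) (nat_lit 514) (nat_lit 439) (nat_lit 187)) (XT.lf (nat_lit 0) (nat_lit 15814575837) (nat_lit 456) (nat_lit 308532298) (nat_lit 532) (nat_lit 15549892338) (nat_lit 147) (nat_lit 5) (nat_lit 153) (nat_lit 5) (nat_lit 154) (nat_lit 5) (nat_lit 515) (nat_lit 439) (nat_lit 186)))) (XT.nd (nat_lit 156) (nat_lit 0) (nat_lit 0) (XT.nd (nat_lit 78) (nat_lit 0) (nat_lit 0) (XT.lf (nat_lit 0) (nat_lit 3039241954) (nat_lit 0) (nat_lit 3039241954) (nat_lit 1596) (nat_lit 751278161)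 (nat_lit 403) (nat_lit 5) (nat_lit 403) (nat_lit 3) (nat_lit 424) (nat_lit 3) (nat_lit 440) (nat_lit 440) (nat_lit 260)) (XT.lf (nat_lit 0) (nat_lit 12422185575) (nat_lit 0) (nat_lit 200917562) (nat_lit 1596) (nat_lit 1165846696) (nat_lit 403) (nat_lit 5) (nat_lit 403) (nat_lit 3) (nat_lit 424) (nat_lit 3) (nat_lit 441) (nat_lit 440) (nat_lit 259))) (XT.nd (nat_lit 78) (nat_lit 0) (nat_lit 0) (XT.lf (nat_lit 76) (nat_lit 4994950678) (nat_lit 0) (nat_lit 8164652070) (nat_lit 1672) (nat_lit 760147760) (nat_lit 404) (nat_lit 5) (nat_lit 403) (nat_lit 5) (nat_lit 425) (nat_lit 5) (nat_lit 442) (nat_lit 440) (nat_lit 258)) (XT.lf (nat_lit 76) (nat_lit 11496373221) (nat_lit 0) (nat_lit 2212090016) (nat_lit 1672) (nat_lit 344678496) (nat_lit 404) (nat_lit 5) (nat_lit 403) (nat_lit 5) (nat_lit 425) (nat_lit 5) (nat_lit 443) (nat_lit 440) (nat_lit 257))))) (XT.nd (nat_lit 234) (nat_lit 0) (nat_lit 76) (XT.nd (nat_lit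 78) (nat_lit 0) (nat_lit 0) (XT.lf (nat_lit 0) (nat_lit 120446303) (nat_lit 1672) (nat_lit 10228468249) (nat_lit 1748) (nat_lit 3839435166) (nat_lit 382) (nat_lit 5) (nat_lit 404) (nat_lit 5) (nat_lit 405) (nat_lit 5) (nat_lit 444) (nat_lit 440) (nat_lit 256)) (XT.nd (nat_lit 78) (nat_lit 0) (nat_lit 76) (XT.lf (nat_lit 0) (nat_lit 613596276) (nat_lit 1672) (nat_lit 3706351881) (nat_lit 1748) (nat_lit 10005808123) (nat_lit 382) (nat_lit 5) (nat_lit 404) (nat_lit 5) (nat_lit 405) (nat_lit 5) (nat_lit 445) (nat_lit 440) (nat_lit 255)) (XT.lf (nat_lit 0) (nat_lit 1139572534) (nat_lit 1672) (nat_lit 11497246222) (nat_lit 1748) (nat_lit 1828639562) (nat_lit 383) (nat_lit 5) (nat_lit 405) (nat_lit 5) (nat_lit 406) (nat_lit 5) (nat_lit 446) (nat_lit 440) (nat_lit 254)))) (XT.nd (nat_lit 156) (nat_lit 0) (nat_lit 76) (XT.nd (nat_lit 78) (nat_lit 0) (nat_lit 0) (XT.lf (nat_lit 0) (nat_lit 1721451786) (nat_lit 1672) (nat_lit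 4814699082) (nat_lit 1748) (nat_lit 8070902339) (nat_lit 383) (nat_lit 5) (nat_lit 405) (nat_lit 5) (nat_lit 406) (nat_lit 5) (nat_lit 447) (nat_lit 440) (nat_lit 253)) (XT.lf (nat_lit 76) (nat_lit 2023154202) (nat_lit 0) (nat_lit 296850330) (nat_lit 1748) (nat_lit 12431381096) (nat_lit 384) (nat_lit 5) (nat_lit 383) (nat_lit 5) (nat_lit 406) (nat_lit 5) (nat_lit 448) (nat_lit 440) (nat_lit 252))) (XT.nd (nat_lit 78) (nat_lit 0) (nat_lit 0) (XT.lf (nat_lit 0) (nat_lit 2994491886) (nat_lit 1672) (nat_lit 5879568643) (nat_lit 1748) (nat_lit 6023271129) (nat_lit 384) (nat_lit 5) (nat_lit 406) (nat_lit 5) (nat_lit 407) (nat_lit 5) (nat_lit 449) (nat_lit 440) (nat_lit 251)) (XT.lf (nat_lit 76) (nat_lit 1113774834) (nat_lit 0) (nat_lit 2570095231) (nat_lit 1748) (nat_lit 11362304627) (nat_lit 385) (nat_lit 5) (nat_lit 384) (nat_lit 5) (nat_lit 407) (nat_lit 5) (nat_lit 450) (nat_lit 440) (nat_lit 250))))))))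
noncomputable def xc223 : XT := (XT.nd (nat_lit 2184) (nat_lit 9424) (nat_lit 0) (XT.nd (nat_lit 1092) (nat_lit 5396) (nat_lit 0) (XT.nd (nat_lit 546) (nat_lit 1368) (nat_lit 0) (XT.nd (nat_lit 234) (nat_lit 0) (nat_lit 76) (XT.nd (nat_lit 78) (nat_lit 0) (nat_lit 0) (XT.lf (nat_lit 0) (nat_lit 4444156322) (nat_lit 1672) (nat_lit 6900922907) (nat_lit 1748) (nat_lit 3851778935) (nat_lit 385) (nat_lit 5) (nat_lit 407) (nat_lit 5) (nat_lit 408) (nat_lit 5) (nat_lit 451) (nat_lit 440) (nat_lit 249)) (XT.nd (nat_lit 78) (nat_lit 0) (nat_lit 76) (XT.lf (nat_lit 76) (nat_lit 252495134) (nat_lit 0) (nat_lit 4978306043) (nat_lit 1748) (nat_lit 10119536942) (nat_lit 386) (nat_lit 5) (nat_lit 385) (nat_lit 5) (nat_lit 408) (nat_lit 5) (nat_lit 452) (nat_lit 440) (nat_lit 248)) (XT.lf (nat_lit 0) (nat_lit 6082259994) (nat_lit 1672) (nat_lit 7878700588) (nat_lit 1748) (nat_lit 1544951223) (nat_lit 386) (nat_lit 5) (nat_lit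 408) (nat_lit 5) (nat_lit 409) (nat_lit 5) (nat_lit 453) (nat_lit 440) (nat_lit 247)))) (XT.nd (nat_lit 156) (nat_lit 0) (nat_lit 76) (XT.nd (nat_lit 78) (nat_lit 0) (nat_lit 0) (XT.lf (nat_lit 0) (nat_lit 6976485493) (nat_lit 1672) (nat_lit 553160119) (nat_lit 1748) (nat_lit 8134442244) (nat_lit 386) (nat_lit 5) (nat_lit 408) (nat_lit 5) (nat_lit 409) (nat_lit 5) (nat_lit 454) (nat_lit 440) (nat_lit 246)) (XT.lf (nat_lit 76) (nat_lit 7005856719) (nat_lit 0) (nat_lit 921135835) (nat_lit 1748) (nat_lit 7897672464) (nat_lit 387) (nat_lit 5) (nat_lit 386) (nat_lit 5) (nat_lit 409) (nat_lit 5) (nat_lit 455) (nat_lit 440) (nat_lit 245))) (XT.nd (nat_lit 78) (nat_lit 0) (nat_lit 0) (XT.lf (nat_lit 0) (nat_lit 8931061972) (nat_lit 1672) (nat_lit 1307680127) (nat_lit 1748) (nat_lit 5749026004) (nat_lit 387) (nat_lit 5) (nat_lit 409) (nat_lit 5) (nat_lit 410) (nat_lit 5) (nat_lit 456) (nat_lit 440) (nat_lit 244)) (XT.lf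 (nat_lit 76) (nat_lit 6426915579) (nat_lit 0) (nat_lit 3569293169) (nat_lit 1748) (nat_lit 6157109897) (nat_lit 388) (nat_lit 5) (nat_lit 387) (nat_lit 5) (nat_lit 410) (nat_lit 5) (nat_lit 457) (nat_lit 440) (nat_lit 243))))) (XT.nd (nat_lit 234) (nat_lit 1596) (nat_lit 0) (XT.nd (nat_lit 78) (nat_lit 0) (nat_lit 0) (XT.lf (nat_lit 0) (nat_lit 11105767918) (nat_lit 1672) (nat_lit 2014192003) (nat_lit 1748) (nat_lit 3201763300) (nat_lit 388) (nat_lit 5) (nat_lit 410) (nat_lit 5) (nat_lit 411) (nat_lit 5) (nat_lit 458) (nat_lit 440) (nat_lit 242)) (XT.nd (nat_lit 78) (nat_lit 0) (nat_lit 76) (XT.lf (nat_lit 76) (nat_lit 5901054234) (nat_lit 0) (nat_lit 6391828832) (nat_lit 1748) (nat_lit 4199510638) (nat_lit 389) (nat_lit 5) (nat_lit 388) (nat_lit 5) (nat_lit 411) (nat_lit 5) (nat_lit 459) (nat_lit 440) (nat_lit 241)) (XT.lf (nat_lit 0) (nat_lit 13513924254) (nat_lit 1672) (nat_lit 2672522626) (nat_lit 1748) (nat_lit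 479832051) (nat_lit 389) (nat_lit 5) (nat_lit 411) (nat_lit 5) (nat_lit 412) (nat_lit 5) (nat_lit 460) (nat_lit 440) (nat_lit 240)))) (XT.nd (nat_lit 156) (nat_lit 1672) (nat_lit 0) (XT.nd (nat_lit 78) (nat_lit 0) (nat_lit 0) (XT.lf (nat_lit 76) (nat_lit 5428559672) (nat_lit 0) (nat_lit 9402050207) (nat_lit 1748) (nat_lit 2011612422) (nat_lit 390) (nat_lit 5) (nat_lit 389) (nat_lit 5) (nat_lit 412) (nat_lit 5) (nat_lit 461) (nat_lit 440) (nat_lit 239)) (XT.lf (nat_lit 76) (nat_lit 13722945682) (nat_lit 0) (nat_lit 2462357829) (nat_lit 1748) (nat_lit 836152357) (nat_lit 390) (nat_lit 5) (nat_lit 389) (nat_lit 5) (nat_lit 412) (nat_lit 5) (nat_lit 462) (nat_lit 440) (nat_lit 238))) (XT.nd (nat_lit 78) (nat_lit 0) (nat_lit 0) (XT.lf (nat_lit 0) (nat_lit 414795737) (nat_lit 1748) (nat_lit 12196186560) (nat_lit 1824) (nat_lit 4592114580) (nat_lit 367) (nat_lit 5) (nat_lit 390) (nat_lit 5) (nat_lit 391) (nat_lit 5)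 (nat_lit 463) (nat_lit 440) (nat_lit 237)) (XT.lf (nat_lit 0) (nat_lit 1712080337) (nat_lit 1748) (nat_lit 3891803810) (nat_lit 1824) (nat_lit 11783730285) (nat_lit 367) (nat_lit 5) (nat_lit 390) (nat_lit 5) (nat_lit 391) (nat_lit 5) (nat_lit 464) (nat_lit 440) (nat_lit 236)))))) (XT.nd (nat_lit 546) (nat_lit 2508) (nat_lit 0) (XT.nd (nat_lit 234) (nat_lit 1672) (nat_lit 0) (XT.nd (nat_lit 78) (nat_lit 1292) (nat_lit 0) (XT.lf (nat_lit 0) (nat_lit 3069661538) (nat_lit 1748) (nat_lit 12951059120) (nat_lit 76) (nat_lit 1554419110) (nat_lit 368) (nat_lit 5) (nat_lit 391) (nat_lit 5) (nat_lit 369) (nat_lit 5) (nat_lit 465) (nat_lit 440) (nat_lit 235)) (XT.nd (nat_lit 78) (nat_lit 1292) (nat_lit 0) (XT.lf (nat_lit 0) (nat_lit 4511920793) (nat_lit 1748) (nat_lit 4445174096) (nat_lit 76) (nat_lit 8808174555) (nat_lit 368) (nat_lit 5) (nat_lit 391) (nat_lit 5) (nat_lit 369) (nat_lit 5) (nat_lit 466) (nat_lit 440) (nat_lit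 234)) (XT.lf (nat_lit 0) (nat_lit 4282053971) (nat_lit 1292) (nat_lit 1723013991) (nat_lit 1368) (nat_lit 11953697172) (nat_lit 351) (nat_lit 5) (nat_lit 368) (nat_lit 5) (nat_lit 369) (nat_lit 5) (nat_lit 467) (nat_lit 440) (nat_lit 233)))) (XT.nd (nat_lit 156) (nat_lit 836) (nat_lit 0) (XT.nd (nat_lit 78) (nat_lit 836) (nat_lit 0) (XT.lf (nat_lit 0) (nat_lit 7589152879) (nat_lit 1368) (nat_lit 4953395356) (nat_lit 76) (nat_lit 5612365198) (nat_lit 351) (nat_lit 5) (nat_lit 369) (nat_lit 5) (nat_lit 352) (nat_lit 5) (nat_lit 468) (nat_lit 440) (nat_lit 232)) (XT.lf (nat_lit 0) (nat_lit 3980251424) (nat_lit 836) (nat_lit 5256359358) (nat_lit 912) (nat_lit 9117744201) (nat_lit 340) (nat_lit 5) (nat_lit 351) (nat_lit 5) (nat_lit 352) (nat_lit 5) (nat_lit 469) (nat_lit 440) (nat_lit 231))) (XT.nd (nat_lit 78) (nat_lit 836) (nat_lit 0) (XT.lf (nat_lit 0) (nat_lit 10959122282) (nat_lit 912) (nat_lit 5416761626) (nat_lit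 76) (nat_lit 2181063396) (nat_lit 340) (nat_lit 5) (nat_lit 352) (nat_lit 5) (nat_lit 341) (nat_lit 5) (nat_lit 470) (nat_lit 440) (nat_lit 230)) (XT.lf (nat_lit 0) (nat_lit 3728908883) (nat_lit 836) (nat_lit 9040822752) (nat_lit 912) (nat_lit 5992790834) (nat_lit 329) (nat_lit 5) (nat_lit 340) (nat_lit 5) (nat_lit 341) (nat_lit 5) (nat_lit 471) (nat_lit 440) (nat_lit 229))))) (XT.nd (nat_lit 234) (nat_lit 1672) (nat_lit 0) (XT.nd (nat_lit 78) (nat_lit 836) (nat_lit 0) (XT.lf (nat_lit 0) (nat_lit 13126037511) (nat_lit 836) (nat_lit 1521565401) (nat_lit 912) (nat_lit 4323989103) (nat_lit 329) (nat_lit 5) (nat_lit 340) (nat_lit 5) (nat_lit 341) (nat_lit 5) (nat_lit 472) (nat_lit 440) (nat_lit 228)) (XT.nd (nat_lit 78) (nat_lit 0) (nat_lit 0) (XT.lf (nat_lit 0) (nat_lit 3527719444) (nat_lit 836) (nat_lit 13092940853) (nat_lit 912) (nat_lit 2563033879) (nat_lit 318) (nat_lit 5) (nat_lit 329) (nat_lit 5) (nat_lit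 330) (nat_lit 5) (nat_lit 473) (nat_lit 440) (nat_lit 227)) (XT.lf (nat_lit 0) (nat_lit 13152623013) (nat_lit 836) (nat_lit 5524670103) (nat_lit 912) (nat_lit 721866701) (nat_lit 318) (nat_lit 5) (nat_lit 329) (nat_lit 5) (nat_lit 330) (nat_lit 5) (nat_lit 474) (nat_lit 440) (nat_lit 226)))) (XT.nd (nat_lit 156) (nat_lit 760) (nat_lit 0) (XT.nd (nat_lit 78) (nat_lit 0) (nat_lit 0) (XT.lf (nat_lit 0) (nat_lit 1172315083) (nat_lit 912) (nat_lit 16249782995) (nat_lit 76) (nat_lit 2196063062) (nat_lit 306) (nat_lit 5) (nat_lit 318) (nat_lit 5) (nat_lit 307) (nat_lit 5) (nat_lit 475) (nat_lit 440) (nat_lit 225)) (XT.lf (nat_lit 0) (nat_lit 3168516122) (nat_lit 912) (nat_lit 6626996217) (nat_lit 76) (nat_lit 10044462199) (nat_lit 306) (nat_lit 5) (nat_lit 318) (nat_lit 5) (nat_lit 307) (nat_lit 5) (nat_lit 476) (nat_lit 440) (nat_lit 224))) (XT.nd (nat_lit 78) (nat_lit 0) (nat_lit 0) (XT.lf (nat_lit 0) (nat_lit 3225737195)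 (nat_lit 760) (nat_lit 1994955464) (nat_lit 836) (nat_lit 14845213954) (nat_lit 296) (nat_lit 5) (nat_lit 306) (nat_lit 5) (nat_lit 307) (nat_lit 5) (nat_lit 477) (nat_lit 440) (nat_lit 223)) (XT.lf (nat_lit 0) (nat_lit 7392557615) (nat_lit 836) (nat_lit 6973996962) (nat_lit 76) (nat_lit 5928233227) (nat_lit 296) (nat_lit 5) (nat_lit 307) (nat_lit 5) (nat_lit 297) (nat_lit 5) (nat_lit 478) (nat_lit 440) (nat_lit 222))))))) (XT.nd (nat_lit 1092) (nat_lit 4484) (nat_lit 0) (XT.nd (nat_lit 546) (nat_lit 1976) (nat_lit 0) (XT.nd (nat_lit 234) (nat_lit 1520) (nat_lit 0) (XT.nd (nat_lit 78) (nat_lit 684) (nat_lit 0) (XT.lf (nat_lit 0) (nat_lit 3112317941) (nat_lit 760) (nat_lit 6524228436) (nat_lit 836) (nat_lit 10891129817) (nat_lit 286) (nat_lit 5) (nat_lit 296) (nat_lit 5) (nat_lit 297) (nat_lit 5) (nat_lit 479) (nat_lit 440) (nat_lit 221)) (XT.nd (nat_lit 78) (nat_lit 684) (nat_lit 0) (XT.lf (nat_lit 0) (nat_lit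 11977429351) (nat_lit 836) (nat_lit 7284131683) (nat_lit 76) (nat_lit 1502624269) (nat_lit 286) (nat_lit 5) (nat_lit 297) (nat_lit 5) (nat_lit 287) (nat_lit 5) (nat_lit 480) (nat_lit 440) (nat_lit 220)) (XT.lf (nat_lit 0) (nat_lit 3041646925) (nat_lit 684) (nat_lit 11381858848) (nat_lit 760) (nat_lit 6580754483) (nat_lit 277) (nat_lit 5) (nat_lit 286) (nat_lit 5) (nat_lit 287) (nat_lit 5) (nat_lit 481) (nat_lit 440) (nat_lit 219)))) (XT.nd (nat_lit 156) (nat_lit 760) (nat_lit 0) (XT.nd (nat_lit 78) (nat_lit 760) (nat_lit 0) (XT.lf (nat_lit 0) (nat_lit 13667953298) (nat_lit 684) (nat_lit 3294910479) (nat_lit 760) (nat_lit 4285388844) (nat_lit 277) (nat_lit 5) (nat_lit 286) (nat_lit 5) (nat_lit 287) (nat_lit 5) (nat_lit 482) (nat_lit 440) (nat_lit 218)) (XT.lf (nat_lit 0) (nat_lit 3012280521) (nat_lit 760) (nat_lit 16588016368) (nat_lit 836) (nat_lit 1895885240) (nat_lit 267) (nat_lit 5) (nat_lit 277) (nat_lit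 5) (nat_lit 278) (nat_lit 5) (nat_lit 483) (nat_lit 440) (nat_lit 217))) (XT.nd (nat_lit 78) (nat_lit 684) (nat_lit 0) (XT.lf (nat_lit 0) (nat_lit 602924571) (nat_lit 836) (nat_lit 7859014889) (nat_lit 76) (nat_lit 13285691061) (nat_lit 266) (nat_lit 5) (nat_lit 277) (nat_lit 5) (nat_lit 267) (nat_lit 5) (nat_lit 484) (nat_lit 440) (nat_lit 216)) (XT.lf (nat_lit 0) (nat_lit 3000505137) (nat_lit 684) (nat_lit 141002513) (nat_lit 760) (nat_lit 18862048814) (nat_lit 257) (nat_lit 5) (nat_lit 266) (nat_lit 5) (nat_lit 267) (nat_lit 5) (nat_lit 485) (nat_lit 440) (nat_lit 215))))) (XT.nd (nat_lit 234) (nat_lit 1292) (nat_lit 0) (XT.nd (nat_lit 78) (nat_lit 684) (nat_lit 0) (XT.lf (nat_lit 0) (nat_lit 5833870136) (nat_lit 760) (nat_lit 8139055109) (nat_lit 76) (nat_lit 8289618346) (nat_lit 257) (nat_lit 5) (nat_lit 267) (nat_lit 5) (nat_lit 258) (nat_lit 5) (nat_lit 486) (nat_lit 440) (nat_lit 214)) (XT.nd (nat_lit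 78) (nat_lit 0) (nat_lit 0) (XT.lf (nat_lit 0) (nat_lit 2975690222) (nat_lit 684) (nat_lit 5620457614) (nat_lit 760) (nat_lit 13930244031) (nat_lit 248) (nat_lit 5) (nat_lit 257) (nat_lit 5) (nat_lit 258) (nat_lit 5) (nat_lit 487) (nat_lit 440) (nat_lit 213)) (XT.lf (nat_lit 0) (nat_lit 11483336046) (nat_lit 760) (nat_lit 8395227301) (nat_lit 76) (nat_lit 2915563174) (nat_lit 248) (nat_lit 5) (nat_lit 258) (nat_lit 5) (nat_lit 249) (nat_lit 5) (nat_lit 488) (nat_lit 440) (nat_lit 212)))) (XT.nd (nat_lit 156) (nat_lit 684) (nat_lit 0) (XT.nd (nat_lit 78) (nat_lit 0) (nat_lit 0) (XT.lf (nat_lit 0) (nat_lit 2980642586) (nat_lit 608) (nat_lit 11500143717) (nat_lit 684) (nat_lit 8585381858) (nat_lit 240) (nat_lit 5) (nat_lit 248) (nat_lit 5) (nat_lit 249) (nat_lit 5) (nat_lit 489) (nat_lit 440) (nat_lit 211)) (XT.lf (nat_lit 0) (nat_lit 14693275513) (nat_lit 608) (nat_lit 2897240804) (nat_lit 684) (nat_lit 5752090309)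 (nat_lit 240) (nat_lit 5) (nat_lit 248) (nat_lit 5) (nat_lit 249) (nat_lit 5) (nat_lit 490) (nat_lit 440) (nat_lit 210))) (XT.nd (nat_lit 78) (nat_lit 76) (nat_lit 0) (XT.lf (nat_lit 0) (nat_lit 3012391039) (nat_lit 608) (nat_lit 17803839799) (nat_lit 684) (nat_lit 2807269777) (nat_lit 232) (nat_lit 5) (nat_lit 240) (nat_lit 5) (nat_lit 241) (nat_lit 5) (nat_lit 491) (nat_lit 440) (nat_lit 209)) (XT.lf (nat_lit 0) (nat_lit 267572692) (nat_lit 684) (nat_lit 8909673670) (nat_lit 76) (nat_lit 14731269031) (nat_lit 231) (nat_lit 5) (nat_lit 240) (nat_lit 5) (nat_lit 232) (nat_lit 5) (nat_lit 492) (nat_lit 440) (nat_lit 208)))))) (XT.nd (nat_lit 546) (nat_lit 2204) (nat_lit 0) (XT.nd (nat_lit 234) (nat_lit 1064) (nat_lit 0) (XT.nd (nat_lit 78) (nat_lit 608) (nat_lit 0) (XT.lf (nat_lit 0) (nat_lit 3042627172) (nat_lit 608) (nat_lit 339651070) (nat_lit 684) (nat_lit 20816264398) (nat_lit 223) (nat_lit 5) (nat_lit 231)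 (nat_lit 5) (nat_lit 232) (nat_lit 5) (nat_lit 493) (nat_lit 440) (nat_lit 207)) (XT.nd (nat_lit 78) (nat_lit 608) (nat_lit 0) (XT.lf (nat_lit 0) (nat_lit 6671992041) (nat_lit 684) (nat_lit 9199667068) (nat_lit 76) (nat_lit 8620459402) (nat_lit 223) (nat_lit 5) (nat_lit 232) (nat_lit 5) (nat_lit 224) (nat_lit 5) (nat_lit 494) (nat_lit 440) (nat_lit 206)) (XT.lf (nat_lit 0) (nat_lit 3028746592) (nat_lit 608) (nat_lit 7016949562) (nat_lit 684) (nat_lit 14745508138) (nat_lit 215) (nat_lit 5) (nat_lit 223) (nat_lit 5) (nat_lit 224) (nat_lit 5) (nat_lit 495) (nat_lit 440) (nat_lit 205)))) (XT.nd (nat_lit 156) (nat_lit 532) (nat_lit 0) (XT.nd (nat_lit 78) (nat_lit 532) (nat_lit 0) (XT.lf (nat_lit 0) (nat_lit 13558421199) (nat_lit 684) (nat_lit 9486570027) (nat_lit 76) (nat_lit 2049851896) (nat_lit 215) (nat_lit 5) (nat_lit 224) (nat_lit 5) (nat_lit 216) (nat_lit 5) (nat_lit 496) (nat_lit 440) (nat_lit 204)) (XT.lf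 (nat_lit 0) (nat_lit 3023634024) (nat_lit 532) (nat_lit 14180261778) (nat_lit 608) (nat_lit 8199411248) (nat_lit 208) (nat_lit 5) (nat_lit 215) (nat_lit 5) (nat_lit 216) (nat_lit 5) (nat_lit 497) (nat_lit 440) (nat_lit 203))) (XT.nd (nat_lit 78) (nat_lit 532) (nat_lit 0) (XT.lf (nat_lit 0) (nat_lit 15908276957) (nat_lit 532) (nat_lit 5074098990) (nat_lit 608) (nat_lit 4734364570) (nat_lit 208) (nat_lit 5) (nat_lit 215) (nat_lit 5) (nat_lit 216) (nat_lit 5) (nat_lit 498) (nat_lit 440) (nat_lit 202)) (XT.lf (nat_lit 0) (nat_lit 3022104581) (nat_lit 532) (nat_lit 21857804913) (nat_lit 608) (nat_lit 1155665622) (nat_lit 201) (nat_lit 5) (nat_lit 208) (nat_lit 5) (nat_lit 209) (nat_lit 5) (nat_lit 499) (nat_lit 440) (nat_lit 201))))) (XT.nd (nat_lit 312) (nat_lit 1064) (nat_lit 0) (XT.nd (nat_lit 156) (nat_lit 532) (nat_lit 0) (XT.nd (nat_lit 78) (nat_lit 532) (nat_lit 0) (XT.lf (nat_lit 0) (nat_lit 2558265871) (nat_lit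 608) (nat_lit 10171824917) (nat_lit 76) (nat_lit 13628446224) (nat_lit 200) (nat_lit 5) (nat_lit 208) (nat_lit 5) (nat_lit 201) (nat_lit 5) (nat_lit 500) (nat_lit 440) (nat_lit 200)) (XT.lf (nat_lit 0) (nat_lit 2953461398) (nat_lit 532) (nat_lit 3393315470) (nat_lit 608) (nat_lit 20340715010) (nat_lit 193) (nat_lit 5) (nat_lit 200) (nat_lit 5) (nat_lit 201) (nat_lit 5) (nat_lit 501) (nat_lit 440) (nat_lit 199))) (XT.nd (nat_lit 78) (nat_lit 532) (nat_lit 0) (XT.lf (nat_lit 0) (nat_lit 10316188406) (nat_lit 608) (nat_lit 10587088505) (nat_lit 76) (nat_lit 6117648299) (nat_lit 193) (nat_lit 5) (nat_lit 201) (nat_lit 5) (nat_lit 194) (nat_lit 5) (nat_lit 502) (nat_lit 440) (nat_lit 198)) (XT.lf (nat_lit 0) (nat_lit 2833253457) (nat_lit 532) (nat_lit 11569287352) (nat_lit 608) (nat_lit 12957737283) (nat_lit 186) (nat_lit 5) (nat_lit 193) (nat_lit 5) (nat_lit 194) (nat_lit 5) (nat_lit 503) (nat_lit 440) (nat_lit 197))))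 (XT.nd (nat_lit 156) (nat_lit 608) (nat_lit 0) (XT.nd (nat_lit 78) (nat_lit 456) (nat_lit 0) (XT.lf (nat_lit 0) (nat_lit 16661315633) (nat_lit 532) (nat_lit 1977072297) (nat_lit 608) (nat_lit 9066676646) (nat_lit 186) (nat_lit 5) (nat_lit 193) (nat_lit 5) (nat_lit 194) (nat_lit 5) (nat_lit 504) (nat_lit 440) (nat_lit 196)) (XT.lf (nat_lit 0) (nat_lit 2689603396) (nat_lit 456) (nat_lit 20334280563) (nat_lit 532) (nat_lit 5031566054) (nat_lit 180) (nat_lit 5) (nat_lit 186) (nat_lit 5) (nat_lit 187) (nat_lit 5) (nat_lit 505) (nat_lit 440) (nat_lit 195))) (XT.nd (nat_lit 78) (nat_lit 608) (nat_lit 0) (XT.lf (nat_lit 0) (nat_lit 16829908621) (nat_lit 456) (nat_lit 10751115030) (nat_lit 532) (nat_lit 830142656) (nat_lit 180) (nat_lit 5) (nat_lit 186) (nat_lit 5) (nat_lit 187) (nat_lit 5) (nat_lit 506) (nat_lit 440) (nat_lit 194)) (XT.lf (nat_lit 0) (nat_lit 2485070938) (nat_lit 532) (nat_lit 937913295) (nat_lit 608)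 (nat_lit 25350305925) (nat_lit 172) (nat_lit 5) (nat_lit 179) (nat_lit 5) (nat_lit 180) (nat_lit 5) (nat_lit 507) (nat_lit 440) (nat_lit 193))))))))
noncomputable def xc224 : XT := (XT.nd (nat_lit 55770) (nat_lit 0) (nat_lit 7220) (XT.nd (nat_lit 54678) (nat_lit 0) (nat_lit 17480) (XT.nd (nat_lit 54132) (nat_lit 0) (nat_lit 17328) (XT.nd (nat_lit 234) (nat_lit 988) (nat_lit 0) (XT.nd (nat_lit 78) (nat_lit 456) (nat_lit 0) (XT.lf (nat_lit 0) (nat_lit 7884084066) (nat_lit 608) (nat_lit 12220440451) (nat_lit 76) (nat_lit 9035343424) (nat_lit 172) (nat_lit 5) (nat_lit 180) (nat_lit 5) (nat_lit 173) (nat_lit 5) (nat_lit 508) (nat_lit 440) (nat_lit 192)) (XT.nd (nat_lit 78) (nat_lit 0) (nat_lit 0) (XT.lf (nat_lit 0) (nat_lit 2146575889) (nat_lit 456) (nat_lit 10304925479) (nat_lit 532) (nat_lit 17061935687) (nat_lit 166) (nat_lit 5) (nat_lit 172) (nat_lit 5) (nat_lit 173) (nat_lit 5) (nat_lit 509) (nat_lit 440) (nat_lit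 191)) (XT.lf (nat_lit 0) (nat_lit 16962551162) (nat_lit 456) (nat_lit 226702252) (nat_lit 532) (nat_lit 12703646062) (nat_lit 166) (nat_lit 5) (nat_lit 172) (nat_lit 5) (nat_lit 173) (nat_lit 5) (nat_lit 510) (nat_lit 440) (nat_lit 190)))) (XT.nd (nat_lit 156) (nat_lit 532) (nat_lit 0) (XT.nd (nat_lit 78) (nat_lit 0) (nat_lit 0) (XT.lf (nat_lit 0) (nat_lit 1748548038) (nat_lit 456) (nat_lit 20346870055) (nat_lit 532) (nat_lit 8183061521) (nat_lit 160) (nat_lit 5) (nat_lit 166) (nat_lit 5) (nat_lit 167) (nat_lit 5) (nat_lit 511) (nat_lit 440) (nat_lit 189)) (XT.lf (nat_lit 0) (nat_lit 16890793693) (nat_lit 456) (nat_lit 10294239150) (nat_lit 532) (nat_lit 3485033565) (nat_lit 160) (nat_lit 5) (nat_lit 166) (nat_lit 5) (nat_lit 167) (nat_lit 5) (nat_lit 512) (nat_lit 440) (nat_lit 188))) (XT.nd (nat_lit 78) (nat_lit 0) (nat_lit 0) (XT.lf (nat_lit 0) (nat_lit 1270634739) (nat_lit 456) (nat_lit 24531883) (nat_lit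 532) (nat_lit 29774043079) (nat_lit 153) (nat_lit 5) (nat_lit 159) (nat_lit 5) (nat_lit 160) (nat_lit 5) (nat_lit 513) (nat_lit 440) (nat_lit 187)) (XT.lf (nat_lit 0) (nat_lit 6282407755) (nat_lit 532) (nat_lit 14761678212) (nat_lit 76) (nat_lit 10428628636) (nat_lit 153) (nat_lit 5) (nat_lit 160) (nat_lit 5) (nat_lit 154) (nat_lit 5) (nat_lit 514) (nat_lit 440) (nat_lit 186))))) (XT.nd (nat_lit 234) (nat_lit 1672) (nat_lit 0) (XT.nd (nat_lit 78) (nat_lit 0) (nat_lit 0) (XT.lf (nat_lit 0) (nat_lit 3271191040) (nat_lit 0) (nat_lit 3271191040) (nat_lit 1596) (nat_lit 416852232) (nat_lit 403) (nat_lit 5) (nat_lit 403) (nat_lit 3) (nat_lit 424) (nat_lit 3) (nat_lit 441) (nat_lit 441) (nat_lit 258)) (XT.nd (nat_lit 78) (nat_lit 0) (nat_lit 0) (XT.lf (nat_lit 0) (nat_lit 13006245457) (nat_lit 0) (nat_lit 540552085) (nat_lit 1596) (nat_lit 503964625) (nat_lit 403) (nat_lit 5) (nat_lit 403) (nat_lit 3) (nat_lit 424)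 (nat_lit 3) (nat_lit 442) (nat_lit 441) (nat_lit 257)) (XT.lf (nat_lit 76) (nat_lit 5444297344) (nat_lit 0) (nat_lit 8636700912) (nat_lit 1672) (nat_lit 103451805) (nat_lit 404) (nat_lit 5) (nat_lit 403) (nat_lit 5) (nat_lit 425) (nat_lit 5) (nat_lit 443) (nat_lit 441) (nat_lit 256)))) (XT.nd (nat_lit 156) (nat_lit 0) (nat_lit 76) (XT.nd (nat_lit 78) (nat_lit 0) (nat_lit 76) (XT.lf (nat_lit 0) (nat_lit 303123995) (nat_lit 1672) (nat_lit 2253875464) (nat_lit 1748) (nat_lit 11763738306) (nat_lit 381) (nat_lit 5) (nat_lit 403) (nat_lit 5) (nat_lit 404) (nat_lit 5) (nat_lit 444) (nat_lit 441) (nat_lit 255)) (XT.lf (nat_lit 0) (nat_lit 760578324) (nat_lit 1672) (nat_lit 10068429058) (nat_lit 1748) (nat_lit 3629854129) (nat_lit 382) (nat_lit 5) (nat_lit 404) (nat_lit 5) (nat_lit 405) (nat_lit 5) (nat_lit 445) (nat_lit 441) (nat_lit 254))) (XT.nd (nat_lit 78) (nat_lit 0) (nat_lit 76) (XT.lf (nat_lit 0) (nat_lit 1251086922)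 (nat_lit 1672) (nat_lit 3423019550) (nat_lit 1748) (nat_lit 9925169639) (nat_lit 382) (nat_lit 5) (nat_lit 404) (nat_lit 5) (nat_lit 405) (nat_lit 5) (nat_lit 446) (nat_lit 441) (nat_lit 253)) (XT.lf (nat_lit 0) (nat_lit 1775939994) (nat_lit 1672) (nat_lit 11357607773) (nat_lit 1748) (nat_lit 1608466902) (nat_lit 383) (nat_lit 5) (nat_lit 405) (nat_lit 5) (nat_lit 406) (nat_lit 5) (nat_lit 447) (nat_lit 441) (nat_lit 252)))))) (XT.nd (nat_lit 546) (nat_lit 0) (nat_lit 228) (XT.nd (nat_lit 234) (nat_lit 0) (nat_lit 76) (XT.nd (nat_lit 78) (nat_lit 0) (nat_lit 0) (XT.lf (nat_lit 0) (nat_lit 2357425929) (nat_lit 1672) (nat_lit 4548656423) (nat_lit 1748) (nat_lit 7980609160) (nat_lit 383) (nat_lit 5) (nat_lit 405) (nat_lit 5) (nat_lit 406) (nat_lit 5) (nat_lit 448) (nat_lit 441) (nat_lit 251)) (XT.nd (nat_lit 78) (nat_lit 0) (nat_lit 76) (XT.lf (nat_lit 76) (nat_lit 2423570133) (nat_lit 0) (nat_lit 534921649) (nat_lit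 1748) (nat_lit 12075617212) (nat_lit 384) (nat_lit 5) (nat_lit 383) (nat_lit 5) (nat_lit 406) (nat_lit 5) (nat_lit 449) (nat_lit 441) (nat_lit 250)) (XT.lf (nat_lit 0) (nat_lit 3633381712) (nat_lit 1672) (nat_lit 5630724365) (nat_lit 1748) (nat_lit 5919138680) (nat_lit 384) (nat_lit 5) (nat_lit 406) (nat_lit 5) (nat_lit 407) (nat_lit 5) (nat_lit 450) (nat_lit 441) (nat_lit 249)))) (XT.nd (nat_lit 156) (nat_lit 0) (nat_lit 76) (XT.nd (nat_lit 78) (nat_lit 0) (nat_lit 76) (XT.lf (nat_lit 76) (nat_lit 1500075222) (nat_lit 0) (nat_lit 2827482784) (nat_lit 1748) (nat_lit 11007695329) (nat_lit 385) (nat_lit 5) (nat_lit 384) (nat_lit 5) (nat_lit 407) (nat_lit 5) (nat_lit 451) (nat_lit 441) (nat_lit 248)) (XT.lf (nat_lit 0) (nat_lit 5090562138) (nat_lit 1672) (nat_lit 6669130445) (nat_lit 1748) (nat_lit 3729516368) (nat_lit 385) (nat_lit 5) (nat_lit 407) (nat_lit 5) (nat_lit 408) (nat_lit 5) (nat_lit 452) (nat_lit 441)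 (nat_lit 247))) (XT.nd (nat_lit 78) (nat_lit 0) (nat_lit 76) (XT.lf (nat_lit 76) (nat_lit 624922990) (nat_lit 0) (nat_lit 5259470344) (nat_lit 1748) (nat_lit 9761544649) (nat_lit 386) (nat_lit 5) (nat_lit 385) (nat_lit 5) (nat_lit 408) (nat_lit 5) (nat_lit 453) (nat_lit 441) (nat_lit 246)) (XT.lf (nat_lit 0) (nat_lit 6740961152) (nat_lit 1672) (nat_lit 7663760965) (nat_lit 1748) (nat_lit 1400147808) (nat_lit 386) (nat_lit 5) (nat_lit 408) (nat_lit 5) (nat_lit 409) (nat_lit 5) (nat_lit 454) (nat_lit 441) (nat_lit 245))))) (XT.nd (nat_lit 234) (nat_lit 0) (nat_lit 76) (XT.nd (nat_lit 78) (nat_lit 0) (nat_lit 0) (XT.lf (nat_lit 0) (nat_lit 7642540652) (nat_lit 1672) (nat_lit 199013875) (nat_lit 1748) (nat_lit 8124873797) (nat_lit 386) (nat_lit 5) (nat_lit 408) (nat_lit 5) (nat_lit 409) (nat_lit 5) (nat_lit 455) (nat_lit 441) (nat_lit 244)) (XT.nd (nat_lit 78) (nat_lit 0) (nat_lit 76) (XT.lf (nat_lit 76) (nat_lit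 7508780605) (nat_lit 0) (nat_lit 1095308803) (nat_lit 1748) (nat_lit 7526295045) (nat_lit 387) (nat_lit 5) (nat_lit 386) (nat_lit 5) (nat_lit 409) (nat_lit 5) (nat_lit 456) (nat_lit 441) (nat_lit 243)) (XT.lf (nat_lit 0) (nat_lit 9617081024) (nat_lit 1672) (nat_lit 966586817) (nat_lit 1748) (nat_lit 5713312839) (nat_lit 387) (nat_lit 5) (nat_lit 409) (nat_lit 5) (nat_lit 410) (nat_lit 5) (nat_lit 457) (nat_lit 441) (nat_lit 242)))) (XT.nd (nat_lit 156) (nat_lit 0) (nat_lit 76) (XT.nd (nat_lit 78) (nat_lit 0) (nat_lit 76) (XT.lf (nat_lit 76) (nat_lit 6920284706) (nat_lit 0) (nat_lit 3775665777) (nat_lit 1748) (nat_lit 5770051097) (nat_lit 388) (nat_lit 5) (nat_lit 387) (nat_lit 5) (nat_lit 410) (nat_lit 5) (nat_lit 458) (nat_lit 441) (nat_lit 241)) (XT.lf (nat_lit 0) (nat_lit 11817041254) (nat_lit 1672) (nat_lit 1685759494) (nat_lit 1748) (nat_lit 3135194283) (nat_lit 388) (nat_lit 5) (nat_lit 410) (nat_lit 5)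 (nat_lit 411) (nat_lit 5) (nat_lit 459) (nat_lit 441) (nat_lit 240))) (XT.nd (nat_lit 78) (nat_lit 0) (nat_lit 76) (XT.lf (nat_lit 76) (nat_lit 6385365903) (nat_lit 0) (nat_lit 6635319670) (nat_lit 1748) (nat_lit 3791545052) (nat_lit 389) (nat_lit 5) (nat_lit 388) (nat_lit 5) (nat_lit 411) (nat_lit 5) (nat_lit 460) (nat_lit 441) (nat_lit 239)) (XT.lf (nat_lit 0) (nat_lit 14255961505) (nat_lit 1672) (nat_lit 2356313822) (nat_lit 1748) (nat_lit 377529246) (nat_lit 389) (nat_lit 5) (nat_lit 411) (nat_lit 5) (nat_lit 412) (nat_lit 5) (nat_lit 461) (nat_lit 441) (nat_lit 238))))))) (XT.nd (nat_lit 1092) (nat_lit 5320) (nat_lit 0) (XT.nd (nat_lit 546) (nat_lit 2508) (nat_lit 0) (XT.nd (nat_lit 234) (nat_lit 1216) (nat_lit 0) (XT.nd (nat_lit 78) (nat_lit 1672) (nat_lit 0) (XT.lf (nat_lit 76) (nat_lit 5904358152) (nat_lit 0) (nat_lit 9687756801) (nat_lit 1748) (nat_lit 1577296328) (nat_lit 390) (nat_lit 5) (nat_lit 389)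 (nat_lit 5) (nat_lit 412) (nat_lit 5) (nat_lit 462) (nat_lit 441) (nat_lit 237)) (XT.nd (nat_lit 78) (nat_lit 1672) (nat_lit 0) (XT.lf (nat_lit 76) (nat_lit 14357431348) (nat_lit 0) (nat_lit 2607355564) (nat_lit 1748) (nat_lit 387631931) (nat_lit 390) (nat_lit 5) (nat_lit 389) (nat_lit 5) (nat_lit 412) (nat_lit 5) (nat_lit 463) (nat_lit 441) (nat_lit 236)) (XT.lf (nat_lit 0) (nat_lit 875020101) (nat_lit 1748) (nat_lit 12066087810) (nat_lit 1824) (nat_lit 4596675352) (nat_lit 367) (nat_lit 5) (nat_lit 390) (nat_lit 5) (nat_lit 391) (nat_lit 5) (nat_lit 464) (nat_lit 441) (nat_lit 235)))) (XT.nd (nat_lit 156) (nat_lit 1216) (nat_lit 0) (XT.nd (nat_lit 78) (nat_lit 0) (nat_lit 76) (XT.lf (nat_lit 0) (nat_lit 2189389051) (nat_lit 1748) (nat_lit 3602951179) (nat_lit 1824) (nat_lit 11933834773) (nat_lit 367) (nat_lit 5) (nat_lit 390) (nat_lit 5) (nat_lit 391) (nat_lit 5) (nat_lit 465) (nat_lit 441) (nat_lit 234)) (XT.lf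 (nat_lit 0) (nat_lit 3567328896) (nat_lit 1748) (nat_lit 12836274719) (nat_lit 76) (nat_lit 1513989569) (nat_lit 368) (nat_lit 5) (nat_lit 391) (nat_lit 5) (nat_lit 369) (nat_lit 5) (nat_lit 466) (nat_lit 441) (nat_lit 233))) (XT.nd (nat_lit 78) (nat_lit 1292) (nat_lit 0) (XT.lf (nat_lit 0) (nat_lit 5029878942) (nat_lit 1748) (nat_lit 4167601515) (nat_lit 76) (nat_lit 8914222435) (nat_lit 368) (nat_lit 5) (nat_lit 391) (nat_lit 5) (nat_lit 369) (nat_lit 5) (nat_lit 467) (nat_lit 441) (nat_lit 232)) (XT.lf (nat_lit 0) (nat_lit 4731760086) (nat_lit 1292) (nat_lit 1815106058) (nat_lit 1368) (nat_lit 11762329036) (nat_lit 351) (nat_lit 5) (nat_lit 368) (nat_lit 5) (nat_lit 369) (nat_lit 5) (nat_lit 468) (nat_lit 441) (nat_lit 231))))) (XT.nd (nat_lit 234) (nat_lit 1672) (nat_lit 0) (XT.nd (nat_lit 78) (nat_lit 836) (nat_lit 0) (XT.lf (nat_lit 0) (nat_lit 8153997348) (nat_lit 1368) (nat_lit 4686596130) (nat_lit 76)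 (nat_lit 5668851780) (nat_lit 351) (nat_lit 5) (nat_lit 369) (nat_lit 5) (nat_lit 352) (nat_lit 5) (nat_lit 469) (nat_lit 441) (nat_lit 230)) (XT.nd (nat_lit 78) (nat_lit 0) (nat_lit 0) (XT.lf (nat_lit 0) (nat_lit 4423316565) (nat_lit 836) (nat_lit 5405348424) (nat_lit 912) (nat_lit 8884331423) (nat_lit 340) (nat_lit 5) (nat_lit 351) (nat_lit 5) (nat_lit 352) (nat_lit 5) (nat_lit 470) (nat_lit 441) (nat_lit 229)) (XT.lf (nat_lit 0) (nat_lit 11577360818) (nat_lit 912) (nat_lit 5160204149) (nat_lit 76) (nat_lit 2182246799) (nat_lit 340) (nat_lit 5) (nat_lit 352) (nat_lit 5) (nat_lit 341) (nat_lit 5) (nat_lit 471) (nat_lit 441) (nat_lit 228)))) (XT.nd (nat_lit 156) (nat_lit 836) (nat_lit 0) (XT.nd (nat_lit 78) (nat_lit 0) (nat_lit 0) (XT.lf (nat_lit 0) (nat_lit 4165979161) (nat_lit 836) (nat_lit 9252732107) (nat_lit 912) (nat_lit 5710902340) (nat_lit 329) (nat_lit 5) (nat_lit 340) (nat_lit 5) (nat_lit 341) (nat_lit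 5) (nat_lit 472) (nat_lit 441) (nat_lit 227)) (XT.lf (nat_lit 0) (nat_lit 13743942672) (nat_lit 836) (nat_lit 1582479945) (nat_lit 912) (nat_lit 4016601914) (nat_lit 329) (nat_lit 5) (nat_lit 340) (nat_lit 5) (nat_lit 341) (nat_lit 5) (nat_lit 473) (nat_lit 441) (nat_lit 226))) (XT.nd (nat_lit 78) (nat_lit 0) (nat_lit 0) (XT.lf (nat_lit 0) (nat_lit 3959463502) (nat_lit 836) (nat_lit 13374062661) (nat_lit 912) (nat_lit 2225956400) (nat_lit 318) (nat_lit 5) (nat_lit 329) (nat_lit 5) (nat_lit 330) (nat_lit 5) (nat_lit 474) (nat_lit 441) (nat_lit 225)) (XT.lf (nat_lit 0) (nat_lit 13769782992) (nat_lit 836) (nat_lit 5654048791) (nat_lit 912) (nat_lit 355580351) (nat_lit 318) (nat_lit 5) (nat_lit 329) (nat_lit 5) (nat_lit 330) (nat_lit 5) (nat_lit 475) (nat_lit 441) (nat_lit 224)))))) (XT.nd (nat_lit 546) (nat_lit 2204) (nat_lit 0) (XT.nd (nat_lit 234) (nat_lit 1444) (nat_lit 0) (XT.nd (nat_lit 78) (nat_lit 760) (nat_lit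 0) (XT.lf (nat_lit 0) (nat_lit 1566353628) (nat_lit 912) (nat_lit 16210013490) (nat_lit 76) (nat_lit 2226484901) (nat_lit 306) (nat_lit 5) (nat_lit 318) (nat_lit 5) (nat_lit 307) (nat_lit 5) (nat_lit 476) (nat_lit 441) (nat_lit 223)) (XT.nd (nat_lit 78) (nat_lit 760) (nat_lit 0) (XT.lf (nat_lit 0) (nat_lit 3595212173) (nat_lit 912) (nat_lit 6401923234) (nat_lit 76) (nat_lit 10232116716) (nat_lit 306) (nat_lit 5) (nat_lit 318) (nat_lit 5) (nat_lit 307) (nat_lit 5) (nat_lit 477) (nat_lit 441) (nat_lit 222)) (XT.lf (nat_lit 0) (nat_lit 3645512129) (nat_lit 760) (nat_lit 2038102663) (nat_lit 836) (nat_lit 14776189405) (nat_lit 296) (nat_lit 5) (nat_lit 306) (nat_lit 5) (nat_lit 307) (nat_lit 5) (nat_lit 478) (nat_lit 441) (nat_lit 221)))) (XT.nd (nat_lit 156) (nat_lit 684) (nat_lit 0) (XT.nd (nat_lit 78) (nat_lit 760) (nat_lit 0) (XT.lf (nat_lit 0) (nat_lit 7891866798) (nat_lit 836) (nat_lit 6757886874) (nat_lit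 76) (nat_lit 6043655254) (nat_lit 296) (nat_lit 5) (nat_lit 307) (nat_lit 5) (nat_lit 297) (nat_lit 5) (nat_lit 479) (nat_lit 441) (nat_lit 220)) (XT.lf (nat_lit 0) (nat_lit 3527814919) (nat_lit 760) (nat_lit 6648322620) (nat_lit 836) (nat_lit 10754914314) (nat_lit 286) (nat_lit 5) (nat_lit 296) (nat_lit 5) (nat_lit 297) (nat_lit 5) (nat_lit 480) (nat_lit 441) (nat_lit 219))) (XT.nd (nat_lit 78) (nat_lit 684) (nat_lit 0) (XT.lf (nat_lit 0) (nat_lit 12557077669) (nat_lit 836) (nat_lit 7076493735) (nat_lit 76) (nat_lit 1538859670) (nat_lit 286) (nat_lit 5) (nat_lit 297) (nat_lit 5) (nat_lit 287) (nat_lit 5) (nat_lit 481) (nat_lit 441) (nat_lit 218)) (XT.lf (nat_lit 0) (nat_lit 3453475968) (nat_lit 684) (nat_lit 11594209928) (nat_lit 760) (nat_lit 6369714050) (nat_lit 277) (nat_lit 5) (nat_lit 286) (nat_lit 5) (nat_lit 287) (nat_lit 5) (nat_lit 482) (nat_lit 441) (nat_lit 217))))) (XT.nd (nat_lit 234) (nat_lit 1368)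 (nat_lit 0) (XT.nd (nat_lit 78) (nat_lit 836) (nat_lit 0) (XT.lf (nat_lit 0) (nat_lit 14285426192) (nat_lit 684) (nat_lit 3345822319) (nat_lit 760) (nat_lit 4035159834) (nat_lit 277) (nat_lit 5) (nat_lit 286) (nat_lit 5) (nat_lit 287) (nat_lit 5) (nat_lit 483) (nat_lit 441) (nat_lit 216)) (XT.nd (nat_lit 78) (nat_lit 76) (nat_lit 0) (XT.lf (nat_lit 0) (nat_lit 3421043922) (nat_lit 760) (nat_lit 16896291086) (nat_lit 836) (nat_lit 1602047787) (nat_lit 267) (nat_lit 5) (nat_lit 277) (nat_lit 5) (nat_lit 278) (nat_lit 5) (nat_lit 484) (nat_lit 441) (nat_lit 215)) (XT.lf (nat_lit 0) (nat_lit 935967503) (nat_lit 836) (nat_lit 7670031665) (nat_lit 76) (nat_lit 13569950576) (nat_lit 266) (nat_lit 5) (nat_lit 277) (nat_lit 5) (nat_lit 267) (nat_lit 5) (nat_lit 485) (nat_lit 441) (nat_lit 214)))) (XT.nd (nat_lit 156) (nat_lit 684) (nat_lit 0) (XT.nd (nat_lit 78) (nat_lit 0) (nat_lit 0) (XT.lf (nat_lit 0) (nat_lit 3404401370)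 (nat_lit 684) (nat_lit 116859797) (nat_lit 760) (nat_lit 18915818449) (nat_lit 257) (nat_lit 5) (nat_lit 266) (nat_lit 5) (nat_lit 267) (nat_lit 5) (nat_lit 486) (nat_lit 441) (nat_lit 213)) (XT.lf (nat_lit 0) (nat_lit 6261428347) (nat_lit 760) (nat_lit 7958444989) (nat_lit 76) (nat_lit 8481498109) (nat_lit 257) (nat_lit 5) (nat_lit 267) (nat_lit 5) (nat_lit 258) (nat_lit 5) (nat_lit 487) (nat_lit 441) (nat_lit 212))) (XT.nd (nat_lit 78) (nat_lit 0) (nat_lit 0) (XT.lf (nat_lit 0) (nat_lit 3376336096) (nat_lit 684) (nat_lit 5698734659) (nat_lit 760) (nat_lit 13895507577) (nat_lit 248) (nat_lit 5) (nat_lit 257) (nat_lit 5) (nat_lit 258) (nat_lit 5) (nat_lit 488) (nat_lit 441) (nat_lit 211)) (XT.lf (nat_lit 0) (nat_lit 12014200385) (nat_lit 760) (nat_lit 8222688873) (nat_lit 76) (nat_lit 3006898417) (nat_lit 248) (nat_lit 5) (nat_lit 258) (nat_lit 5) (nat_lit 249) (nat_lit 5) (nat_lit 489) (nat_lit 441) (nat_lit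 210))))))))
noncomputable def xc225 : XT := (XT.nd (nat_lit 55848) (nat_lit 0) (nat_lit 14212) (XT.nd (nat_lit 1092) (nat_lit 3040) (nat_lit 0) (XT.nd (nat_lit 546) (nat_lit 1672) (nat_lit 0) (XT.nd (nat_lit 234) (nat_lit 1292) (nat_lit 0) (XT.nd (nat_lit 78) (nat_lit 608) (nat_lit 0) (XT.lf (nat_lit 0) (nat_lit 3378458656) (nat_lit 608) (nat_lit 11689430995) (nat_lit 684) (nat_lit 8453458567) (nat_lit 240) (nat_lit 5) (nat_lit 248) (nat_lit 5) (nat_lit 249) (nat_lit 5) (nat_lit 490) (nat_lit 441) (nat_lit 209)) (XT.nd (nat_lit 78) (nat_lit 608) (nat_lit 0) (XT.lf (nat_lit 0) (nat_lit 15318712806) (nat_lit 608) (nat_lit 2915268369) (nat_lit 684) (nat_lit 5569454734) (nat_lit 240) (nat_lit 5) (nat_lit 248) (nat_lit 5) (nat_lit 249) (nat_lit 5) (nat_lit 491) (nat_lit 441) (nat_lit 208)) (XT.lf (nat_lit 0) (nat_lit 3407755011) (nat_lit 608) (nat_lit 18113166143) (nat_lit 684) (nat_lit 2569096121) (nat_lit 232) (nat_lit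 5) (nat_lit 240) (nat_lit 5) (nat_lit 241) (nat_lit 5) (nat_lit 492) (nat_lit 441) (nat_lit 207)))) (XT.nd (nat_lit 156) (nat_lit 608) (nat_lit 0) (XT.nd (nat_lit 78) (nat_lit 608) (nat_lit 0) (XT.lf (nat_lit 0) (nat_lit 557687875) (nat_lit 684) (nat_lit 8755358723) (nat_lit 76) (nat_lit 15067765014) (nat_lit 231) (nat_lit 5) (nat_lit 240) (nat_lit 5) (nat_lit 232) (nat_lit 5) (nat_lit 493) (nat_lit 441) (nat_lit 206)) (XT.lf (nat_lit 0) (nat_lit 3433800580) (nat_lit 608) (nat_lit 297448016) (nat_lit 684) (nat_lit 20945463094) (nat_lit 223) (nat_lit 5) (nat_lit 231) (nat_lit 5) (nat_lit 232) (nat_lit 5) (nat_lit 494) (nat_lit 441) (nat_lit 205))) (XT.nd (nat_lit 78) (nat_lit 608) (nat_lit 0) (XT.lf (nat_lit 0) (nat_lit 7081552376) (nat_lit 684) (nat_lit 9054440259) (nat_lit 76) (nat_lit 8840273966) (nat_lit 223) (nat_lit 5) (nat_lit 232) (nat_lit 5) (nat_lit 224) (nat_lit 5) (nat_lit 495) (nat_lit 441) (nat_lit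 204)) (XT.lf (nat_lit 0) (nat_lit 3416375753) (nat_lit 608) (nat_lit 7103064145) (nat_lit 684) (nat_lit 14761963384) (nat_lit 215) (nat_lit 5) (nat_lit 223) (nat_lit 5) (nat_lit 224) (nat_lit 5) (nat_lit 496) (nat_lit 441) (nat_lit 203))))) (XT.nd (nat_lit 234) (nat_lit 1140) (nat_lit 0) (XT.nd (nat_lit 78) (nat_lit 532) (nat_lit 0) (XT.lf (nat_lit 0) (nat_lit 14097414996) (nat_lit 684) (nat_lit 9350490383) (nat_lit 76) (nat_lit 2143312900) (nat_lit 215) (nat_lit 5) (nat_lit 224) (nat_lit 5) (nat_lit 216) (nat_lit 5) (nat_lit 497) (nat_lit 441) (nat_lit 202)) (XT.nd (nat_lit 78) (nat_lit 0) (nat_lit 0) (XT.lf (nat_lit 0) (nat_lit 3407774255) (nat_lit 532) (nat_lit 14404874823) (nat_lit 608) (nat_lit 8093268649) (nat_lit 208) (nat_lit 5) (nat_lit 215) (nat_lit 5) (nat_lit 216) (nat_lit 5) (nat_lit 498) (nat_lit 441) (nat_lit 201)) (XT.lf (nat_lit 0) (nat_lit 16543763624) (nat_lit 532) (nat_lit 5117745489) (nat_lit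 608) (nat_lit 4564217720) (nat_lit 208) (nat_lit 5) (nat_lit 215) (nat_lit 5) (nat_lit 216) (nat_lit 5) (nat_lit 499) (nat_lit 441) (nat_lit 200)))) (XT.nd (nat_lit 156) (nat_lit 532) (nat_lit 0) (XT.nd (nat_lit 78) (nat_lit 76) (nat_lit 0) (XT.lf (nat_lit 0) (nat_lit 3402720432) (nat_lit 532) (nat_lit 22231631868) (nat_lit 608) (nat_lit 916641757) (nat_lit 201) (nat_lit 5) (nat_lit 208) (nat_lit 5) (nat_lit 209) (nat_lit 5) (nat_lit 500) (nat_lit 441) (nat_lit 199)) (XT.lf (nat_lit 0) (nat_lit 2863057856) (nat_lit 608) (nat_lit 10057845384) (nat_lit 76) (nat_lit 13959582356) (nat_lit 200) (nat_lit 5) (nat_lit 208) (nat_lit 5) (nat_lit 201) (nat_lit 5) (nat_lit 501) (nat_lit 441) (nat_lit 198))) (XT.nd (nat_lit 78) (nat_lit 0) (nat_lit 0) (XT.lf (nat_lit 0) (nat_lit 3327858394) (nat_lit 532) (nat_lit 3396554924) (nat_lit 608) (nat_lit 20491667689) (nat_lit 193) (nat_lit 5) (nat_lit 200) (nat_lit 5) (nat_lit 201)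 (nat_lit 5) (nat_lit 502) (nat_lit 441) (nat_lit 197)) (XT.lf (nat_lit 0) (nat_lit 10768708756) (nat_lit 608) (nat_lit 10485037259) (nat_lit 76) (nat_lit 6302529954) (nat_lit 193) (nat_lit 5) (nat_lit 201) (nat_lit 5) (nat_lit 194) (nat_lit 5) (nat_lit 503) (nat_lit 441) (nat_lit 196)))))) (XT.nd (nat_lit 546) (nat_lit 988) (nat_lit 0) (XT.nd (nat_lit 234) (nat_lit 1064) (nat_lit 0) (XT.nd (nat_lit 78) (nat_lit 456) (nat_lit 0) (XT.lf (nat_lit 0) (nat_lit 3201647114) (nat_lit 532) (nat_lit 11732337657) (nat_lit 608) (nat_lit 12968490025) (nat_lit 186) (nat_lit 5) (nat_lit 193) (nat_lit 5) (nat_lit 194) (nat_lit 5) (nat_lit 504) (nat_lit 441) (nat_lit 195)) (XT.nd (nat_lit 78) (nat_lit 456) (nat_lit 0) (XT.lf (nat_lit 0) (nat_lit 17300158208) (nat_lit 532) (nat_lit 1949618212) (nat_lit 608) (nat_lit 9004478803) (nat_lit 186) (nat_lit 5) (nat_lit 193) (nat_lit 5) (nat_lit 194) (nat_lit 5) (nat_lit 505) (nat_lit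 441) (nat_lit 194)) (XT.lf (nat_lit 0) (nat_lit 3051447312) (nat_lit 456) (nat_lit 20669282747) (nat_lit 532) (nat_lit 4890966066) (nat_lit 180) (nat_lit 5) (nat_lit 186) (nat_lit 5) (nat_lit 187) (nat_lit 5) (nat_lit 506) (nat_lit 441) (nat_lit 193)))) (XT.nd (nat_lit 156) (nat_lit 456) (nat_lit 0) (XT.nd (nat_lit 78) (nat_lit 608) (nat_lit 0) (XT.lf (nat_lit 0) (nat_lit 17468518410) (nat_lit 456) (nat_lit 10895859461) (nat_lit 532) (nat_lit 610244226) (nat_lit 180) (nat_lit 5) (nat_lit 186) (nat_lit 5) (nat_lit 187) (nat_lit 5) (nat_lit 507) (nat_lit 441) (nat_lit 192)) (XT.lf (nat_lit 0) (nat_lit 2838007804) (nat_lit 532) (nat_lit 884227984) (nat_lit 608) (nat_lit 25621776633) (nat_lit 172) (nat_lit 5) (nat_lit 179) (nat_lit 5) (nat_lit 180) (nat_lit 5) (nat_lit 508) (nat_lit 441) (nat_lit 191))) (XT.nd (nat_lit 78) (nat_lit 456) (nat_lit 0) (XT.lf (nat_lit 0) (nat_lit 8268493416) (nat_lit 608) (nat_lit 12163370205)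 (nat_lit 76) (nat_lit 9286141927) (nat_lit 172) (nat_lit 5) (nat_lit 180) (nat_lit 5) (nat_lit 173) (nat_lit 5) (nat_lit 509) (nat_lit 441) (nat_lit 190)) (XT.lf (nat_lit 0) (nat_lit 2489003047) (nat_lit 456) (nat_lit 10435754901) (nat_lit 532) (nat_lit 17174340573) (nat_lit 166) (nat_lit 5) (nat_lit 172) (nat_lit 5) (nat_lit 173) (nat_lit 5) (nat_lit 510) (nat_lit 441) (nat_lit 189))))) (XT.nd (nat_lit 234) (nat_lit 532) (nat_lit 0) (XT.nd (nat_lit 78) (nat_lit 456) (nat_lit 0) (XT.lf (nat_lit 0) (nat_lit 17595425361) (nat_lit 456) (nat_lit 157443075) (nat_lit 532) (nat_lit 12733372094) (nat_lit 166) (nat_lit 5) (nat_lit 172) (nat_lit 5) (nat_lit 173) (nat_lit 5) (nat_lit 511) (nat_lit 441) (nat_lit 188)) (XT.nd (nat_lit 78) (nat_lit 0) (nat_lit 0) (XT.lf (nat_lit 0) (nat_lit 2079221701) (nat_lit 456) (nat_lit 20676013934) (nat_lit 532) (nat_lit 8124337410) (nat_lit 160) (nat_lit 5) (nat_lit 166) (nat_lit 5)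 (nat_lit 167) (nat_lit 5) (nat_lit 512) (nat_lit 441) (nat_lit 187)) (XT.lf (nat_lit 0) (nat_lit 17518514177) (nat_lit 456) (nat_lit 10423855775) (nat_lit 532) (nat_lit 3336709392) (nat_lit 160) (nat_lit 5) (nat_lit 166) (nat_lit 5) (nat_lit 167) (nat_lit 5) (nat_lit 513) (nat_lit 441) (nat_lit 186)))) (XT.nd (nat_lit 53820) (nat_lit 0) (nat_lit 17252) (XT.nd (nat_lit 53742) (nat_lit 0) (nat_lit 19000) (XT.lf (nat_lit 0) (nat_lit 1534250191) (nat_lit 532) (nat_lit 30099572675) (nat_lit 76) (nat_lit 52396251) (nat_lit 153) (nat_lit 5) (nat_lit 160) (nat_lit 5) (nat_lit 154) (nat_lit 5) (nat_lit 514) (nat_lit 441) (nat_lit 185)) (XT.lf (nat_lit 0) (nat_lit 3501132592) (nat_lit 0) (nat_lit 3501132592) (nat_lit 1596) (nat_lit 89307412) (nat_lit 403) (nat_lit 5) (nat_lit 403) (nat_lit 3) (nat_lit 424) (nat_lit 3) (nat_lit 442) (nat_lit 442) (nat_lit 256))) (XT.nd (nat_lit 78) (nat_lit 0) (nat_lit 76) (XT.lf (nat_lit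 0) (nat_lit 142652200) (nat_lit 1748) (nat_lit 730337441) (nat_lit 1748) (nat_lit 13445344681) (nat_lit 380) (nat_lit 3) (nat_lit 403) (nat_lit 3) (nat_lit 403) (nat_lit 5) (nat_lit 443) (nat_lit 442) (nat_lit 255)) (XT.lf (nat_lit 0) (nat_lit 533201447) (nat_lit 1672) (nat_lit 8569421856) (nat_lit 1748) (nat_lit 5352281956) (nat_lit 381) (nat_lit 5) (nat_lit 403) (nat_lit 5) (nat_lit 404) (nat_lit 5) (nat_lit 444) (nat_lit 442) (nat_lit 254))))))) (XT.nd (nat_lit 1092) (nat_lit 3116) (nat_lit 0) (XT.nd (nat_lit 546) (nat_lit 0) (nat_lit 228) (XT.nd (nat_lit 234) (nat_lit 0) (nat_lit 152) (XT.nd (nat_lit 78) (nat_lit 0) (nat_lit 76) (XT.lf (nat_lit 0) (nat_lit 934028009) (nat_lit 1672) (nat_lit 1960865910) (nat_lit 1748) (nat_lit 11699270851) (nat_lit 381) (nat_lit 5) (nat_lit 403) (nat_lit 5) (nat_lit 404) (nat_lit 5) (nat_lit 445) (nat_lit 442) (nat_lit 253)) (XT.nd (nat_lit 78) (nat_lit 0) (nat_lit 0) (XT.lf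 (nat_lit 0) (nat_lit 1388749421) (nat_lit 1672) (nat_lit 9919347279) (nat_lit 1748) (nat_lit 3427201558) (nat_lit 382) (nat_lit 5) (nat_lit 404) (nat_lit 5) (nat_lit 405) (nat_lit 5) (nat_lit 446) (nat_lit 442) (nat_lit 252)) (XT.lf (nat_lit 0) (nat_lit 1877049376) (nat_lit 1672) (nat_lit 3147901156) (nat_lit 1748) (nat_lit 9853820429) (nat_lit 382) (nat_lit 5) (nat_lit 404) (nat_lit 5) (nat_lit 405) (nat_lit 5) (nat_lit 447) (nat_lit 442) (nat_lit 251)))) (XT.nd (nat_lit 156) (nat_lit 0) (nat_lit 0) (XT.nd (nat_lit 78) (nat_lit 0) (nat_lit 0) (XT.lf (nat_lit 0) (nat_lit 2401208900) (nat_lit 1672) (nat_lit 11229527928) (nat_lit 1748) (nat_lit 1393860528) (nat_lit 383) (nat_lit 5) (nat_lit 405) (nat_lit 5) (nat_lit 406) (nat_lit 5) (nat_lit 448) (nat_lit 442) (nat_lit 250)) (XT.lf (nat_lit 0) (nat_lit 2982760826) (nat_lit 1672) (nat_lit 4291362884) (nat_lit 1748) (nat_lit 7898284370) (nat_lit 383) (nat_lit 5)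 (nat_lit 405) (nat_lit 5) (nat_lit 406) (nat_lit 5) (nat_lit 449) (nat_lit 442) (nat_lit 249))) (XT.nd (nat_lit 78) (nat_lit 0) (nat_lit 76) (XT.lf (nat_lit 76) (nat_lit 2818016975) (nat_lit 0) (nat_lit 768740335) (nat_lit 1748) (nat_lit 11736207309) (nat_lit 384) (nat_lit 5) (nat_lit 383) (nat_lit 5) (nat_lit 406) (nat_lit 5) (nat_lit 450) (nat_lit 442) (nat_lit 248)) (XT.lf (nat_lit 0) (nat_lit 4262566060) (nat_lit 1672) (nat_lit 5391132343) (nat_lit 1748) (nat_lit 5821644992) (nat_lit 384) (nat_lit 5) (nat_lit 406) (nat_lit 5) (nat_lit 407) (nat_lit 5) (nat_lit 451) (nat_lit 442) (nat_lit 247))))) (XT.nd (nat_lit 234) (nat_lit 0) (nat_lit 152) (XT.nd (nat_lit 78) (nat_lit 0) (nat_lit 76) (XT.lf (nat_lit 76) (nat_lit 1879966087) (nat_lit 0) (nat_lit 3082019414) (nat_lit 1748) (nat_lit 10668587998) (nat_lit 385) (nat_lit 5) (nat_lit 384) (nat_lit 5) (nat_lit 407) (nat_lit 5) (nat_lit 452) (nat_lit 442) (nat_lit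 246)) (XT.nd (nat_lit 78) (nat_lit 0) (nat_lit 0) (XT.lf (nat_lit 0) (nat_lit 5728246785) (nat_lit 1672) (nat_lit 6447062343) (nat_lit 1748) (nat_lit 3612547539) (nat_lit 385) (nat_lit 5) (nat_lit 407) (nat_lit 5) (nat_lit 408) (nat_lit 5) (nat_lit 453) (nat_lit 442) (nat_lit 245)) (XT.lf (nat_lit 76) (nat_lit 990533669) (nat_lit 0) (nat_lit 5539206252) (nat_lit 1748) (nat_lit 9418152867) (nat_lit 386) (nat_lit 5) (nat_lit 385) (nat_lit 5) (nat_lit 408) (nat_lit 5) (nat_lit 454) (nat_lit 442) (nat_lit 244)))) (XT.nd (nat_lit 156) (nat_lit 0) (nat_lit 0) (XT.nd (nat_lit 78) (nat_lit 0) (nat_lit 0) (XT.lf (nat_lit 0) (nat_lit 7391981796) (nat_lit 1672) (nat_lit 7458987709) (nat_lit 1748) (nat_lit 1259271066) (nat_lit 386) (nat_lit 5) (nat_lit 408) (nat_lit 5) (nat_lit 409) (nat_lit 5) (nat_lit 455) (nat_lit 442) (nat_lit 243)) (XT.lf (nat_lit 76) (nat_lit 150001055) (nat_lit 0) (nat_lit 8152444141) (nat_lit 1748)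 (nat_lit 7972775792) (nat_lit 387) (nat_lit 5) (nat_lit 386) (nat_lit 5) (nat_lit 409) (nat_lit 5) (nat_lit 456) (nat_lit 442) (nat_lit 242))) (XT.nd (nat_lit 78) (nat_lit 0) (nat_lit 76) (XT.lf (nat_lit 76) (nat_lit 8007674741) (nat_lit 0) (nat_lit 1266917259) (nat_lit 1748) (nat_lit 7168044640) (nat_lit 387) (nat_lit 5) (nat_lit 386) (nat_lit 5) (nat_lit 409) (nat_lit 5) (nat_lit 457) (nat_lit 442) (nat_lit 241)) (XT.lf (nat_lit 0) (nat_lit 10297117582) (nat_lit 1672) (nat_lit 632932285) (nat_lit 1748) (nat_lit 5682737031) (nat_lit 387) (nat_lit 5) (nat_lit 409) (nat_lit 5) (nat_lit 410) (nat_lit 5) (nat_lit 458) (nat_lit 442) (nat_lit 240)))))) (XT.nd (nat_lit 546) (nat_lit 1976) (nat_lit 0) (XT.nd (nat_lit 234) (nat_lit 1596) (nat_lit 0) (XT.nd (nat_lit 78) (nat_lit 0) (nat_lit 76) (XT.lf (nat_lit 76) (nat_lit 7409354390) (nat_lit 0) (nat_lit 3980924138) (nat_lit 1748) (nat_lit 5395062848) (nat_lit 388) (nat_lit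 5) (nat_lit 387) (nat_lit 5) (nat_lit 410) (nat_lit 5) (nat_lit 459) (nat_lit 442) (nat_lit 239)) (XT.nd (nat_lit 78) (nat_lit 0) (nat_lit 0) (XT.lf (nat_lit 0) (nat_lit 12523545455) (nat_lit 1672) (nat_lit 1365076039) (nat_lit 1748) (nat_lit 3072365408) (nat_lit 388) (nat_lit 5) (nat_lit 410) (nat_lit 5) (nat_lit 411) (nat_lit 5) (nat_lit 460) (nat_lit 442) (nat_lit 238)) (XT.lf (nat_lit 76) (nat_lit 6865140295) (nat_lit 0) (nat_lit 6879189329) (nat_lit 1748) (nat_lit 3394523399) (nat_lit 389) (nat_lit 5) (nat_lit 388) (nat_lit 5) (nat_lit 411) (nat_lit 5) (nat_lit 461) (nat_lit 442) (nat_lit 237)))) (XT.nd (nat_lit 156) (nat_lit 1748) (nat_lit 0) (XT.nd (nat_lit 78) (nat_lit 0) (nat_lit 0) (XT.lf (nat_lit 0) (nat_lit 14994520533) (nat_lit 1672) (nat_lit 2048135162) (nat_lit 1748) (nat_lit 277525577) (nat_lit 389) (nat_lit 5) (nat_lit 411) (nat_lit 5) (nat_lit 412) (nat_lit 5) (nat_lit 462) (nat_lit 442) (nat_lit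 236)) (XT.lf (nat_lit 76) (nat_lit 6375412719) (nat_lit 0) (nat_lit 9975385053) (nat_lit 1748) (nat_lit 1152721202) (nat_lit 390) (nat_lit 5) (nat_lit 389) (nat_lit 5) (nat_lit 412) (nat_lit 5) (nat_lit 463) (nat_lit 442) (nat_lit 235))) (XT.nd (nat_lit 78) (nat_lit 0) (nat_lit 76) (XT.lf (nat_lit 0) (nat_lit 51113659) (nat_lit 1748) (nat_lit 2700078483) (nat_lit 1824) (nat_lit 14939169791) (nat_lit 366) (nat_lit 5) (nat_lit 389) (nat_lit 5) (nat_lit 390) (nat_lit 5) (nat_lit 464) (nat_lit 442) (nat_lit 234)) (XT.lf (nat_lit 0) (nat_lit 1326900020) (nat_lit 1748) (nat_lit 11947910834) (nat_lit 1824) (nat_lit 4604716587) (nat_lit 367) (nat_lit 5) (nat_lit 390) (nat_lit 5) (nat_lit 391) (nat_lit 5) (nat_lit 465) (nat_lit 442) (nat_lit 233))))) (XT.nd (nat_lit 234) (nat_lit 2052) (nat_lit 0) (XT.nd (nat_lit 78) (nat_lit 0) (nat_lit 76) (XT.lf (nat_lit 0) (nat_lit 2659039104) (nat_lit 1748) (nat_lit 3322560465) (nat_lit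 1824) (nat_lit 12090264143) (nat_lit 367) (nat_lit 5) (nat_lit 390) (nat_lit 5) (nat_lit 391) (nat_lit 5) (nat_lit 466) (nat_lit 442) (nat_lit 232)) (XT.nd (nat_lit 78) (nat_lit 0) (nat_lit 0) (XT.lf (nat_lit 0) (nat_lit 4058008545) (nat_lit 1748) (nat_lit 12733709956) (nat_lit 76) (nat_lit 1475528565) (nat_lit 368) (nat_lit 5) (nat_lit 391) (nat_lit 5) (nat_lit 369) (nat_lit 5) (nat_lit 467) (nat_lit 442) (nat_lit 231)) (XT.lf (nat_lit 0) (nat_lit 5541587375) (nat_lit 1748) (nat_lit 3898708195) (nat_lit 76) (nat_lit 9025113947) (nat_lit 368) (nat_lit 5) (nat_lit 391) (nat_lit 5) (nat_lit 369) (nat_lit 5) (nat_lit 468) (nat_lit 442) (nat_lit 230)))) (XT.nd (nat_lit 156) (nat_lit 836) (nat_lit 0) (XT.nd (nat_lit 78) (nat_lit 0) (nat_lit 0) (XT.lf (nat_lit 0) (nat_lit 5176323235) (nat_lit 1292) (nat_lit 1906802054) (nat_lit 1368) (nat_lit 11583848128) (nat_lit 351) (nat_lit 5) (nat_lit 368) (nat_lit 5) (nat_lit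 369) (nat_lit 5) (nat_lit 469) (nat_lit 442) (nat_lit 229)) (XT.lf (nat_lit 0) (nat_lit 8714099028) (nat_lit 1368) (nat_lit 4428667986) (nat_lit 76) (nat_lit 5728633351) (nat_lit 351) (nat_lit 5) (nat_lit 369) (nat_lit 5) (nat_lit 352) (nat_lit 5) (nat_lit 470) (nat_lit 442) (nat_lit 228))) (XT.nd (nat_lit 78) (nat_lit 0) (nat_lit 0) (XT.lf (nat_lit 0) (nat_lit 4861129410) (nat_lit 836) (nat_lit 5555614062) (nat_lit 912) (nat_lit 8662395153) (nat_lit 340) (nat_lit 5) (nat_lit 351) (nat_lit 5) (nat_lit 352) (nat_lit 5) (nat_lit 471) (nat_lit 442) (nat_lit 227)) (XT.lf (nat_lit 0) (nat_lit 12192468289) (nat_lit 912) (nat_lit 4912684751) (nat_lit 76) (nat_lit 2185101783) (nat_lit 340) (nat_lit 5) (nat_lit 352) (nat_lit 5) (nat_lit 341) (nat_lit 5) (nat_lit 472) (nat_lit 442) (nat_lit 226))))))))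
noncomputable def xc226 : XT := (XT.nd (nat_lit 2184) (nat_lit 3648) (nat_lit 0) (XT.nd (nat_lit 1092) (nat_lit 4408) (nat_lit 0) (XT.nd (nat_lit 546) (nat_lit 2280) (nat_lit 0) (XT.nd (nat_lit 234) (nat_lit 1672) (nat_lit 0) (XT.nd (nat_lit 78) (nat_lit 836) (nat_lit 0) (XT.lf (nat_lit 0) (nat_lit 4597714834) (nat_lit 836) (nat_lit 9467672274) (nat_lit 912) (nat_lit 5438976297) (nat_lit 329) (nat_lit 5) (nat_lit 340) (nat_lit 5) (nat_lit 341) (nat_lit 5) (nat_lit 473) (nat_lit 442) (nat_lit 225)) (XT.nd (nat_lit 78) (nat_lit 836) (nat_lit 0) (XT.lf (nat_lit 0) (nat_lit 14360405927) (nat_lit 836) (nat_lit 1643429078) (nat_lit 912) (nat_lit 3718361315) (nat_lit 329) (nat_lit 5) (nat_lit 340) (nat_lit 5) (nat_lit 341) (nat_lit 5) (nat_lit 474) (nat_lit 442) (nat_lit 224)) (XT.lf (nat_lit 0) (nat_lit 4385817006) (nat_lit 836) (nat_lit 13660058901) (nat_lit 912) (nat_lit 1897217015) (nat_lit 318) (nat_lit 5) (nat_lit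 329) (nat_lit 5) (nat_lit 330) (nat_lit 5) (nat_lit 475) (nat_lit 442) (nat_lit 223)))) (XT.nd (nat_lit 156) (nat_lit 760) (nat_lit 0) (XT.nd (nat_lit 78) (nat_lit 836) (nat_lit 0) (XT.lf (nat_lit 0) (nat_lit 3205164) (nat_lit 912) (nat_lit 5782055040) (nat_lit 76) (nat_lit 14382309070) (nat_lit 317) (nat_lit 5) (nat_lit 329) (nat_lit 5) (nat_lit 318) (nat_lit 5) (nat_lit 476) (nat_lit 442) (nat_lit 222)) (XT.lf (nat_lit 0) (nat_lit 1953882396) (nat_lit 912) (nat_lit 16183612870) (nat_lit 76) (nat_lit 2258039376) (nat_lit 306) (nat_lit 5) (nat_lit 318) (nat_lit 5) (nat_lit 307) (nat_lit 5) (nat_lit 477) (nat_lit 442) (nat_lit 221))) (XT.nd (nat_lit 78) (nat_lit 760) (nat_lit 0) (XT.lf (nat_lit 0) (nat_lit 4016333765) (nat_lit 912) (nat_lit 6186235337) (nat_lit 76) (nat_lit 10424038243) (nat_lit 306) (nat_lit 5) (nat_lit 318) (nat_lit 5) (nat_lit 307) (nat_lit 5) (nat_lit 478) (nat_lit 442) (nat_lit 220)) (XT.lf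 (nat_lit 0) (nat_lit 4059887376) (nat_lit 760) (nat_lit 2081986679) (nat_lit 836) (nat_lit 14719993826) (nat_lit 296) (nat_lit 5) (nat_lit 306) (nat_lit 5) (nat_lit 307) (nat_lit 5) (nat_lit 479) (nat_lit 442) (nat_lit 219))))) (XT.nd (nat_lit 234) (nat_lit 1520) (nat_lit 0) (XT.nd (nat_lit 78) (nat_lit 760) (nat_lit 0) (XT.lf (nat_lit 0) (nat_lit 8387514621) (nat_lit 836) (nat_lit 6551262578) (nat_lit 76) (nat_lit 6161507754) (nat_lit 296) (nat_lit 5) (nat_lit 307) (nat_lit 5) (nat_lit 297) (nat_lit 5) (nat_lit 480) (nat_lit 442) (nat_lit 218)) (XT.nd (nat_lit 78) (nat_lit 0) (nat_lit 0) (XT.lf (nat_lit 0) (nat_lit 3937904685) (nat_lit 760) (nat_lit 6775146834) (nat_lit 836) (nat_lit 10629722232) (nat_lit 286) (nat_lit 5) (nat_lit 296) (nat_lit 5) (nat_lit 297) (nat_lit 5) (nat_lit 481) (nat_lit 442) (nat_lit 217)) (XT.lf (nat_lit 0) (nat_lit 13135112465) (nat_lit 836) (nat_lit 6878422896) (nat_lit 76) (nat_lit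 1575579689) (nat_lit 286) (nat_lit 5) (nat_lit 297) (nat_lit 5) (nat_lit 287) (nat_lit 5) (nat_lit 482) (nat_lit 442) (nat_lit 216)))) (XT.nd (nat_lit 156) (nat_lit 836) (nat_lit 0) (XT.nd (nat_lit 78) (nat_lit 0) (nat_lit 0) (XT.lf (nat_lit 0) (nat_lit 3859911985) (nat_lit 684) (nat_lit 11811401608) (nat_lit 760) (nat_lit 6167758540) (nat_lit 277) (nat_lit 5) (nat_lit 286) (nat_lit 5) (nat_lit 287) (nat_lit 5) (nat_lit 483) (nat_lit 442) (nat_lit 215)) (XT.lf (nat_lit 0) (nat_lit 14901886184) (nat_lit 684) (nat_lit 3398334335) (nat_lit 760) (nat_lit 3792971078) (nat_lit 277) (nat_lit 5) (nat_lit 286) (nat_lit 5) (nat_lit 287) (nat_lit 5) (nat_lit 484) (nat_lit 442) (nat_lit 214))) (XT.nd (nat_lit 78) (nat_lit 76) (nat_lit 0) (XT.lf (nat_lit 0) (nat_lit 3824449221) (nat_lit 760) (nat_lit 17211643273) (nat_lit 836) (nat_lit 1315216042) (nat_lit 267) (nat_lit 5) (nat_lit 277) (nat_lit 5) (nat_lit 278) (nat_lit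 5) (nat_lit 485) (nat_lit 442) (nat_lit 213)) (XT.lf (nat_lit 0) (nat_lit 1263207076) (nat_lit 836) (nat_lit 7490710728) (nat_lit 76) (nat_lit 13859175129) (nat_lit 266) (nat_lit 5) (nat_lit 277) (nat_lit 5) (nat_lit 267) (nat_lit 5) (nat_lit 486) (nat_lit 442) (nat_lit 212)))))) (XT.nd (nat_lit 546) (nat_lit 1824) (nat_lit 0) (XT.nd (nat_lit 234) (nat_lit 1216) (nat_lit 0) (XT.nd (nat_lit 78) (nat_lit 684) (nat_lit 0) (XT.lf (nat_lit 0) (nat_lit 3803022010) (nat_lit 684) (nat_lit 93281225) (nat_lit 760) (nat_lit 18983224264) (nat_lit 257) (nat_lit 5) (nat_lit 266) (nat_lit 5) (nat_lit 267) (nat_lit 5) (nat_lit 487) (nat_lit 442) (nat_lit 211)) (XT.nd (nat_lit 78) (nat_lit 684) (nat_lit 0) (XT.lf (nat_lit 0) (nat_lit 6685465842) (nat_lit 760) (nat_lit 7787556966) (nat_lit 76) (nat_lit 8676202462) (nat_lit 257) (nat_lit 5) (nat_lit 267) (nat_lit 5) (nat_lit 258) (nat_lit 5) (nat_lit 488) (nat_lit 442) (nat_lit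 210)) (XT.lf (nat_lit 0) (nat_lit 3771748314) (nat_lit 684) (nat_lit 5779902636) (nat_lit 760) (nat_lit 13872243819) (nat_lit 248) (nat_lit 5) (nat_lit 257) (nat_lit 5) (nat_lit 258) (nat_lit 5) (nat_lit 489) (nat_lit 442) (nat_lit 209)))) (XT.nd (nat_lit 156) (nat_lit 608) (nat_lit 0) (XT.nd (nat_lit 78) (nat_lit 608) (nat_lit 0) (XT.lf (nat_lit 0) (nat_lit 12543986140) (nat_lit 760) (nat_lit 8059919491) (nat_lit 76) (nat_lit 3098778003) (nat_lit 248) (nat_lit 5) (nat_lit 258) (nat_lit 5) (nat_lit 249) (nat_lit 5) (nat_lit 490) (nat_lit 442) (nat_lit 208)) (XT.lf (nat_lit 0) (nat_lit 3771098204) (nat_lit 608) (nat_lit 11884085055) (nat_lit 684) (nat_lit 8330687169) (nat_lit 240) (nat_lit 5) (nat_lit 248) (nat_lit 5) (nat_lit 249) (nat_lit 5) (nat_lit 491) (nat_lit 442) (nat_lit 207))) (XT.nd (nat_lit 78) (nat_lit 608) (nat_lit 0) (XT.lf (nat_lit 0) (nat_lit 15943783508) (nat_lit 608) (nat_lit 2935206520) (nat_lit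 684) (nat_lit 5394725623) (nat_lit 240) (nat_lit 5) (nat_lit 248) (nat_lit 5) (nat_lit 249) (nat_lit 5) (nat_lit 492) (nat_lit 442) (nat_lit 206)) (XT.lf (nat_lit 0) (nat_lit 3798013294) (nat_lit 608) (nat_lit 18430494391) (nat_lit 684) (nat_lit 2337587760) (nat_lit 232) (nat_lit 5) (nat_lit 240) (nat_lit 5) (nat_lit 241) (nat_lit 5) (nat_lit 493) (nat_lit 442) (nat_lit 205))))) (XT.nd (nat_lit 234) (nat_lit 1140) (nat_lit 0) (XT.nd (nat_lit 78) (nat_lit 608) (nat_lit 0) (XT.lf (nat_lit 0) (nat_lit 842547639) (nat_lit 684) (nat_lit 8610869184) (nat_lit 76) (nat_lit 15409365030) (nat_lit 231) (nat_lit 5) (nat_lit 240) (nat_lit 5) (nat_lit 232) (nat_lit 5) (nat_lit 494) (nat_lit 442) (nat_lit 204)) (XT.nd (nat_lit 78) (nat_lit 0) (nat_lit 0) (XT.lf (nat_lit 0) (nat_lit 3819970695) (nat_lit 608) (nat_lit 256303478) (nat_lit 684) (nat_lit 21088395238) (nat_lit 223) (nat_lit 5) (nat_lit 231) (nat_lit 5) (nat_lit 232)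 (nat_lit 5) (nat_lit 495) (nat_lit 442) (nat_lit 203)) (XT.lf (nat_lit 0) (nat_lit 7488581822) (nat_lit 684) (nat_lit 8919092934) (nat_lit 76) (nat_lit 9062644013) (nat_lit 223) (nat_lit 5) (nat_lit 232) (nat_lit 5) (nat_lit 224) (nat_lit 5) (nat_lit 496) (nat_lit 442) (nat_lit 202)))) (XT.nd (nat_lit 156) (nat_lit 532) (nat_lit 0) (XT.nd (nat_lit 78) (nat_lit 0) (nat_lit 0) (XT.lf (nat_lit 0) (nat_lit 3799057582) (nat_lit 608) (nat_lit 7193006619) (nat_lit 684) (nat_lit 14789560479) (nat_lit 215) (nat_lit 5) (nat_lit 223) (nat_lit 5) (nat_lit 224) (nat_lit 5) (nat_lit 497) (nat_lit 442) (nat_lit 201)) (XT.lf (nat_lit 0) (nat_lit 14636788684) (nat_lit 684) (nat_lit 9224340787) (nat_lit 76) (nat_lit 2236605885) (nat_lit 215) (nat_lit 5) (nat_lit 224) (nat_lit 5) (nat_lit 216) (nat_lit 5) (nat_lit 498) (nat_lit 442) (nat_lit 200))) (XT.nd (nat_lit 78) (nat_lit 0) (nat_lit 0) (XT.lf (nat_lit 0) (nat_lit 3787028885)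 (nat_lit 532) (nat_lit 14636270868) (nat_lit 608) (nat_lit 7995492706) (nat_lit 208) (nat_lit 5) (nat_lit 215) (nat_lit 5) (nat_lit 216) (nat_lit 5) (nat_lit 499) (nat_lit 442) (nat_lit 199)) (XT.lf (nat_lit 0) (nat_lit 17179638058) (nat_lit 532) (nat_lit 5164510740) (nat_lit 608) (nat_lit 4400951766) (nat_lit 208) (nat_lit 5) (nat_lit 215) (nat_lit 5) (nat_lit 216) (nat_lit 5) (nat_lit 500) (nat_lit 442) (nat_lit 198))))))) (XT.nd (nat_lit 54912) (nat_lit 0) (nat_lit 16720) (XT.nd (nat_lit 546) (nat_lit 1520) (nat_lit 0) (XT.nd (nat_lit 234) (nat_lit 988) (nat_lit 0) (XT.nd (nat_lit 78) (nat_lit 608) (nat_lit 0) (XT.lf (nat_lit 0) (nat_lit 3778515864) (nat_lit 532) (nat_lit 22615394510) (nat_lit 608) (nat_lit 683016521) (nat_lit 201) (nat_lit 5) (nat_lit 208) (nat_lit 5) (nat_lit 209) (nat_lit 5) (nat_lit 501) (nat_lit 442) (nat_lit 197)) (XT.nd (nat_lit 78) (nat_lit 532) (nat_lit 0) (XT.lf (nat_lit 0) (nat_lit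 3164097049) (nat_lit 608) (nat_lit 9953911911) (nat_lit 76) (nat_lit 14295066973) (nat_lit 200) (nat_lit 5) (nat_lit 208) (nat_lit 5) (nat_lit 201) (nat_lit 5) (nat_lit 502) (nat_lit 442) (nat_lit 196)) (XT.lf (nat_lit 0) (nat_lit 3697498769) (nat_lit 532) (nat_lit 3402368706) (nat_lit 608) (nat_lit 20655574841) (nat_lit 193) (nat_lit 5) (nat_lit 200) (nat_lit 5) (nat_lit 201) (nat_lit 5) (nat_lit 503) (nat_lit 442) (nat_lit 195)))) (XT.nd (nat_lit 156) (nat_lit 456) (nat_lit 0) (XT.nd (nat_lit 78) (nat_lit 532) (nat_lit 0) (XT.lf (nat_lit 0) (nat_lit 11220719399) (nat_lit 608) (nat_lit 10393129954) (nat_lit 76) (nat_lit 6488681176) (nat_lit 193) (nat_lit 5) (nat_lit 201) (nat_lit 5) (nat_lit 194) (nat_lit 5) (nat_lit 504) (nat_lit 442) (nat_lit 194)) (XT.lf (nat_lit 0) (nat_lit 3565303843) (nat_lit 532) (nat_lit 11901302518) (nat_lit 608) (nat_lit 12989103575) (nat_lit 186) (nat_lit 5) (nat_lit 193) (nat_lit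 5) (nat_lit 194) (nat_lit 5) (nat_lit 505) (nat_lit 442) (nat_lit 193))) (XT.nd (nat_lit 78) (nat_lit 456) (nat_lit 0) (XT.lf (nat_lit 0) (nat_lit 17939910183) (nat_lit 532) (nat_lit 1924216564) (nat_lit 608) (nat_lit 8950493624) (nat_lit 186) (nat_lit 5) (nat_lit 193) (nat_lit 5) (nat_lit 194) (nat_lit 5) (nat_lit 506) (nat_lit 442) (nat_lit 192)) (XT.lf (nat_lit 0) (nat_lit 3408566079) (nat_lit 456) (nat_lit 21013768529) (nat_lit 532) (nat_lit 4756921385) (nat_lit 180) (nat_lit 5) (nat_lit 186) (nat_lit 5) (nat_lit 187) (nat_lit 5) (nat_lit 507) (nat_lit 442) (nat_lit 191))))) (XT.nd (nat_lit 234) (nat_lit 912) (nat_lit 0) (XT.nd (nat_lit 78) (nat_lit 608) (nat_lit 0) (XT.lf (nat_lit 0) (nat_lit 18108172915) (nat_lit 456) (nat_lit 11046227755) (nat_lit 532) (nat_lit 395131461) (nat_lit 180) (nat_lit 5) (nat_lit 186) (nat_lit 5) (nat_lit 187) (nat_lit 5) (nat_lit 508) (nat_lit 442) (nat_lit 190)) (XT.nd (nat_lit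 78) (nat_lit 0) (nat_lit 0) (XT.lf (nat_lit 0) (nat_lit 3186228406) (nat_lit 532) (nat_lit 832282038) (nat_lit 608) (nat_lit 25907822883) (nat_lit 172) (nat_lit 5) (nat_lit 179) (nat_lit 5) (nat_lit 180) (nat_lit 5) (nat_lit 509) (nat_lit 442) (nat_lit 189)) (XT.lf (nat_lit 0) (nat_lit 8651786841) (nat_lit 608) (nat_lit 12116865353) (nat_lit 76) (nat_lit 9539234656) (nat_lit 172) (nat_lit 5) (nat_lit 180) (nat_lit 5) (nat_lit 173) (nat_lit 5) (nat_lit 510) (nat_lit 442) (nat_lit 188)))) (XT.nd (nat_lit 156) (nat_lit 456) (nat_lit 0) (XT.nd (nat_lit 78) (nat_lit 0) (nat_lit 0) (XT.lf (nat_lit 0) (nat_lit 2826648967) (nat_lit 456) (nat_lit 10572123702) (nat_lit 532) (nat_lit 17297879454) (nat_lit 166) (nat_lit 5) (nat_lit 172) (nat_lit 5) (nat_lit 173) (nat_lit 5) (nat_lit 511) (nat_lit 442) (nat_lit 187)) (XT.lf (nat_lit 0) (nat_lit 18229555299) (nat_lit 456) (nat_lit 89664194) (nat_lit 532) (nat_lit 12772404309)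 (nat_lit 166) (nat_lit 5) (nat_lit 172) (nat_lit 5) (nat_lit 173) (nat_lit 5) (nat_lit 512) (nat_lit 442) (nat_lit 186))) (XT.nd (nat_lit 53898) (nat_lit 0) (nat_lit 16720) (XT.lf (nat_lit 0) (nat_lit 2405026340) (nat_lit 456) (nat_lit 21014761509) (nat_lit 532) (nat_lit 8073074311) (nat_lit 160) (nat_lit 5) (nat_lit 166) (nat_lit 5) (nat_lit 167) (nat_lit 5) (nat_lit 513) (nat_lit 442) (nat_lit 185)) (XT.lf (nat_lit 0) (nat_lit 228706216) (nat_lit 1748) (nat_lit 3499043595) (nat_lit 1748) (nat_lit 3499043595) (nat_lit 380) (nat_lit 3) (nat_lit 403) (nat_lit 3) (nat_lit 403) (nat_lit 5) (nat_lit 443) (nat_lit 443) (nat_lit 254)))))) (XT.nd (nat_lit 546) (nat_lit 0) (nat_lit 228) (XT.nd (nat_lit 234) (nat_lit 0) (nat_lit 152) (XT.nd (nat_lit 78) (nat_lit 0) (nat_lit 76) (XT.lf (nat_lit 0) (nat_lit 770221065) (nat_lit 1748) (nat_lit 426093661) (nat_lit 1748) (nat_lit 13395401046) (nat_lit 380) (nat_lit 3) (nat_lit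 403) (nat_lit 3) (nat_lit 403) (nat_lit 5) (nat_lit 444) (nat_lit 443) (nat_lit 253)) (XT.nd (nat_lit 78) (nat_lit 0) (nat_lit 0) (XT.lf (nat_lit 0) (nat_lit 1156455215) (nat_lit 1672) (nat_lit 8409352388) (nat_lit 1748) (nat_lit 5165462672) (nat_lit 381) (nat_lit 5) (nat_lit 403) (nat_lit 5) (nat_lit 404) (nat_lit 5) (nat_lit 445) (nat_lit 443) (nat_lit 252)) (XT.lf (nat_lit 0) (nat_lit 1553286745) (nat_lit 1672) (nat_lit 1675124497) (nat_lit 1748) (nat_lit 11645153402) (nat_lit 381) (nat_lit 5) (nat_lit 403) (nat_lit 5) (nat_lit 404) (nat_lit 5) (nat_lit 446) (nat_lit 443) (nat_lit 251)))) (XT.nd (nat_lit 156) (nat_lit 0) (nat_lit 76) (XT.nd (nat_lit 78) (nat_lit 0) (nat_lit 0) (XT.lf (nat_lit 0) (nat_lit 2005681974) (nat_lit 1672) (nat_lit 9780892278) (nat_lit 1748) (nat_lit 3231184215) (nat_lit 382) (nat_lit 5) (nat_lit 404) (nat_lit 5) (nat_lit 405) (nat_lit 5) (nat_lit 447) (nat_lit 443) (nat_lit 250))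 (XT.lf (nat_lit 0) (nat_lit 2492195819) (nat_lit 1672) (nat_lit 2880621977) (nat_lit 1748) (nat_lit 9791522941) (nat_lit 382) (nat_lit 5) (nat_lit 404) (nat_lit 5) (nat_lit 405) (nat_lit 5) (nat_lit 448) (nat_lit 443) (nat_lit 249))) (XT.nd (nat_lit 78) (nat_lit 0) (nat_lit 0) (XT.lf (nat_lit 0) (nat_lit 3016082468) (nat_lit 1672) (nat_lit 11112680577) (nat_lit 1748) (nat_lit 1184544628) (nat_lit 383) (nat_lit 5) (nat_lit 405) (nat_lit 5) (nat_lit 406) (nat_lit 5) (nat_lit 449) (nat_lit 443) (nat_lit 248)) (XT.lf (nat_lit 0) (nat_lit 3598150739) (nat_lit 1672) (nat_lit 4042447094) (nat_lit 1748) (nat_lit 7823707792) (nat_lit 383) (nat_lit 5) (nat_lit 405) (nat_lit 5) (nat_lit 406) (nat_lit 5) (nat_lit 450) (nat_lit 443) (nat_lit 247))))) (XT.nd (nat_lit 234) (nat_lit 0) (nat_lit 152) (XT.nd (nat_lit 78) (nat_lit 0) (nat_lit 76) (XT.lf (nat_lit 76) (nat_lit 3206918105) (nat_lit 0) (nat_lit 998571364) (nat_lit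 1748) (nat_lit 11412567126) (nat_lit 384) (nat_lit 5) (nat_lit 383) (nat_lit 5) (nat_lit 406) (nat_lit 5) (nat_lit 451) (nat_lit 443) (nat_lit 246)) (XT.nd (nat_lit 78) (nat_lit 0) (nat_lit 0) (XT.lf (nat_lit 0) (nat_lit 4882723872) (nat_lit 1672) (nat_lit 5160425090) (nat_lit 1748) (nat_lit 5730584176) (nat_lit 384) (nat_lit 5) (nat_lit 406) (nat_lit 5) (nat_lit 407) (nat_lit 5) (nat_lit 452) (nat_lit 443) (nat_lit 245)) (XT.lf (nat_lit 76) (nat_lit 2253868139) (nat_lit 0) (nat_lit 3333958701) (nat_lit 1748) (nat_lit 10344415317) (nat_lit 385) (nat_lit 5) (nat_lit 384) (nat_lit 5) (nat_lit 407) (nat_lit 5) (nat_lit 453) (nat_lit 443) (nat_lit 244)))) (XT.nd (nat_lit 156) (nat_lit 0) (nat_lit 76) (XT.nd (nat_lit 78) (nat_lit 0) (nat_lit 0) (XT.lf (nat_lit 0) (nat_lit 6357876507) (nat_lit 1672) (nat_lit 6234355463) (nat_lit 1748) (nat_lit 3500677809) (nat_lit 385) (nat_lit 5) (nat_lit 407) (nat_lit 5) (nat_lit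 408) (nat_lit 5) (nat_lit 454) (nat_lit 443) (nat_lit 243)) (XT.lf (nat_lit 76) (nat_lit 1349744784) (nat_lit 0) (nat_lit 5817759025) (nat_lit 1748) (nat_lit 9088808624) (nat_lit 386) (nat_lit 5) (nat_lit 385) (nat_lit 5) (nat_lit 408) (nat_lit 5) (nat_lit 455) (nat_lit 443) (nat_lit 242))) (XT.nd (nat_lit 78) (nat_lit 0) (nat_lit 0) (XT.lf (nat_lit 0) (nat_lit 8035978123) (nat_lit 1672) (nat_lit 7264022446) (nat_lit 1748) (nat_lit 1122134593) (nat_lit 386) (nat_lit 5) (nat_lit 408) (nat_lit 5) (nat_lit 409) (nat_lit 5) (nat_lit 456) (nat_lit 443) (nat_lit 241)) (XT.lf (nat_lit 76) (nat_lit 494881981) (nat_lit 0) (nat_lit 8462259964) (nat_lit 1748) (nat_lit 7633431008) (nat_lit 387) (nat_lit 5) (nat_lit 386) (nat_lit 5) (nat_lit 409) (nat_lit 5) (nat_lit 457) (nat_lit 443) (nat_lit 240))))))))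
noncomputable def xc227 : XT := (XT.nd (nat_lit 2184) (nat_lit 8436) (nat_lit 0) (XT.nd (nat_lit 1092) (nat_lit 5624) (nat_lit 0) (XT.nd (nat_lit 546) (nat_lit 2660) (nat_lit 0) (XT.nd (nat_lit 234) (nat_lit 0) (nat_lit 152) (XT.nd (nat_lit 78) (nat_lit 0) (nat_lit 76) (XT.lf (nat_lit 76) (nat_lit 8503005594) (nat_lit 0) (nat_lit 1436144761) (nat_lit 1748) (nat_lit 6822385631) (nat_lit 387) (nat_lit 5) (nat_lit 386) (nat_lit 5) (nat_lit 409) (nat_lit 5) (nat_lit 458) (nat_lit 443) (nat_lit 239)) (XT.nd (nat_lit 78) (nat_lit 0) (nat_lit 0) (XT.lf (nat_lit 0) (nat_lit 10971817082) (nat_lit 1672) (nat_lit 306311550) (nat_lit 1748) (nat_lit 5657174100) (nat_lit 387) (nat_lit 5) (nat_lit 409) (nat_lit 5) (nat_lit 410) (nat_lit 5) (nat_lit 459) (nat_lit 443) (nat_lit 238)) (XT.lf (nat_lit 76) (nat_lit 7894588757) (nat_lit 0) (nat_lit 4185249507) (nat_lit 1748) (nat_lit 5031617246) (nat_lit 388) (nat_lit 5) (nat_lit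 387) (nat_lit 5) (nat_lit 410) (nat_lit 5) (nat_lit 460) (nat_lit 443) (nat_lit 237)))) (XT.nd (nat_lit 156) (nat_lit 0) (nat_lit 76) (XT.nd (nat_lit 78) (nat_lit 0) (nat_lit 0) (XT.lf (nat_lit 0) (nat_lit 13225922724) (nat_lit 1672) (nat_lit 1051740647) (nat_lit 1748) (nat_lit 3013154546) (nat_lit 388) (nat_lit 5) (nat_lit 410) (nat_lit 5) (nat_lit 411) (nat_lit 5) (nat_lit 461) (nat_lit 443) (nat_lit 236)) (XT.lf (nat_lit 76) (nat_lit 7340838982) (nat_lit 0) (nat_lit 7123619776) (nat_lit 1748) (nat_lit 3007922753) (nat_lit 389) (nat_lit 5) (nat_lit 388) (nat_lit 5) (nat_lit 411) (nat_lit 5) (nat_lit 462) (nat_lit 443) (nat_lit 235))) (XT.nd (nat_lit 78) (nat_lit 0) (nat_lit 0) (XT.lf (nat_lit 0) (nat_lit 15730243121) (nat_lit 1672) (nat_lit 1747589853) (nat_lit 1748) (nat_lit 179698298) (nat_lit 389) (nat_lit 5) (nat_lit 411) (nat_lit 5) (nat_lit 412) (nat_lit 5) (nat_lit 463) (nat_lit 443) (nat_lit 234)) (XT.lf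 (nat_lit 76) (nat_lit 6842182223) (nat_lit 0) (nat_lit 10265120663) (nat_lit 1748) (nat_lit 737366309) (nat_lit 390) (nat_lit 5) (nat_lit 389) (nat_lit 5) (nat_lit 412) (nat_lit 5) (nat_lit 464) (nat_lit 443) (nat_lit 233))))) (XT.nd (nat_lit 234) (nat_lit 1140) (nat_lit 0) (XT.nd (nat_lit 78) (nat_lit 0) (nat_lit 76) (XT.lf (nat_lit 0) (nat_lit 476311912) (nat_lit 1748) (nat_lit 2415516362) (nat_lit 1824) (nat_lit 15143539831) (nat_lit 366) (nat_lit 5) (nat_lit 389) (nat_lit 5) (nat_lit 390) (nat_lit 5) (nat_lit 465) (nat_lit 443) (nat_lit 232)) (XT.nd (nat_lit 78) (nat_lit 0) (nat_lit 0) (XT.lf (nat_lit 0) (nat_lit 1770950051) (nat_lit 1748) (nat_lit 11841330092) (nat_lit 1824) (nat_lit 4616176286) (nat_lit 367) (nat_lit 5) (nat_lit 390) (nat_lit 5) (nat_lit 391) (nat_lit 5) (nat_lit 466) (nat_lit 443) (nat_lit 231)) (XT.lf (nat_lit 0) (nat_lit 3121545407) (nat_lit 1748) (nat_lit 3050247990) (nat_lit 1824)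 (nat_lit 12253015864) (nat_lit 367) (nat_lit 5) (nat_lit 390) (nat_lit 5) (nat_lit 391) (nat_lit 5) (nat_lit 467) (nat_lit 443) (nat_lit 230)))) (XT.nd (nat_lit 156) (nat_lit 1292) (nat_lit 0) (XT.nd (nat_lit 78) (nat_lit 0) (nat_lit 0) (XT.lf (nat_lit 0) (nat_lit 4542218574) (nat_lit 1748) (nat_lit 12643045576) (nat_lit 76) (nat_lit 1438967630) (nat_lit 368) (nat_lit 5) (nat_lit 391) (nat_lit 5) (nat_lit 369) (nat_lit 5) (nat_lit 468) (nat_lit 443) (nat_lit 229)) (XT.lf (nat_lit 0) (nat_lit 6047566042) (nat_lit 1748) (nat_lit 3638115124) (nat_lit 76) (nat_lit 9140840239) (nat_lit 368) (nat_lit 5) (nat_lit 391) (nat_lit 5) (nat_lit 369) (nat_lit 5) (nat_lit 469) (nat_lit 443) (nat_lit 228))) (XT.nd (nat_lit 78) (nat_lit 0) (nat_lit 0) (XT.lf (nat_lit 0) (nat_lit 5616189517) (nat_lit 1292) (nat_lit 1998180958) (nat_lit 1368) (nat_lit 11417863144) (nat_lit 351) (nat_lit 5) (nat_lit 368) (nat_lit 5) (nat_lit 369)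 (nat_lit 5) (nat_lit 470) (nat_lit 443) (nat_lit 227)) (XT.lf (nat_lit 0) (nat_lit 9269985904) (nat_lit 1368) (nat_lit 4179236668) (nat_lit 76) (nat_lit 5791691731) (nat_lit 351) (nat_lit 5) (nat_lit 369) (nat_lit 5) (nat_lit 352) (nat_lit 5) (nat_lit 471) (nat_lit 443) (nat_lit 226)))))) (XT.nd (nat_lit 546) (nat_lit 2204) (nat_lit 0) (XT.nd (nat_lit 234) (nat_lit 1748) (nat_lit 0) (XT.nd (nat_lit 78) (nat_lit 836) (nat_lit 0) (XT.lf (nat_lit 0) (nat_lit 5294132961) (nat_lit 836) (nat_lit 5707247939) (nat_lit 912) (nat_lit 8451538003) (nat_lit 340) (nat_lit 5) (nat_lit 351) (nat_lit 5) (nat_lit 352) (nat_lit 5) (nat_lit 472) (nat_lit 443) (nat_lit 225)) (XT.nd (nat_lit 78) (nat_lit 836) (nat_lit 0) (XT.lf (nat_lit 0) (nat_lit 12804983798) (nat_lit 912) (nat_lit 4673833985) (nat_lit 76) (nat_lit 2189597791) (nat_lit 340) (nat_lit 5) (nat_lit 352) (nat_lit 5) (nat_lit 341) (nat_lit 5) (nat_lit 473) (nat_lit 443)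 (nat_lit 224)) (XT.lf (nat_lit 0) (nat_lit 5024555798) (nat_lit 836) (nat_lit 9685750753) (nat_lit 912) (nat_lit 5176606178) (nat_lit 329) (nat_lit 5) (nat_lit 340) (nat_lit 5) (nat_lit 341) (nat_lit 5) (nat_lit 474) (nat_lit 443) (nat_lit 223)))) (XT.nd (nat_lit 156) (nat_lit 912) (nat_lit 0) (XT.nd (nat_lit 78) (nat_lit 836) (nat_lit 0) (XT.lf (nat_lit 0) (nat_lit 14975934309) (nat_lit 836) (nat_lit 1704459457) (nat_lit 912) (nat_lit 3428856341) (nat_lit 329) (nat_lit 5) (nat_lit 340) (nat_lit 5) (nat_lit 341) (nat_lit 5) (nat_lit 475) (nat_lit 443) (nat_lit 222)) (XT.lf (nat_lit 0) (nat_lit 4807216770) (nat_lit 836) (nat_lit 13951056105) (nat_lit 912) (nat_lit 1576396925) (nat_lit 318) (nat_lit 5) (nat_lit 329) (nat_lit 5) (nat_lit 330) (nat_lit 5) (nat_lit 476) (nat_lit 443) (nat_lit 221))) (XT.nd (nat_lit 78) (nat_lit 836) (nat_lit 0) (XT.lf (nat_lit 0) (nat_lit 350386101) (nat_lit 912) (nat_lit 5565697056)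 (nat_lit 76) (nat_lit 14647649693) (nat_lit 317) (nat_lit 5) (nat_lit 329) (nat_lit 5) (nat_lit 318) (nat_lit 5) (nat_lit 477) (nat_lit 443) (nat_lit 220)) (XT.lf (nat_lit 0) (nat_lit 2335329993) (nat_lit 912) (nat_lit 16170298498) (nat_lit 76) (nat_lit 2290728784) (nat_lit 306) (nat_lit 5) (nat_lit 318) (nat_lit 5) (nat_lit 307) (nat_lit 5) (nat_lit 478) (nat_lit 443) (nat_lit 219))))) (XT.nd (nat_lit 234) (nat_lit 1444) (nat_lit 0) (XT.nd (nat_lit 78) (nat_lit 760) (nat_lit 0) (XT.lf (nat_lit 0) (nat_lit 4432317253) (nat_lit 912) (nat_lit 5979580995) (nat_lit 76) (nat_lit 10620292166) (nat_lit 306) (nat_lit 5) (nat_lit 318) (nat_lit 5) (nat_lit 307) (nat_lit 5) (nat_lit 479) (nat_lit 443) (nat_lit 218)) (XT.nd (nat_lit 78) (nat_lit 0) (nat_lit 0) (XT.lf (nat_lit 0) (nat_lit 4469290626) (nat_lit 760) (nat_lit 2126627145) (nat_lit 836) (nat_lit 14676332028) (nat_lit 296) (nat_lit 5) (nat_lit 306) (nat_lit 5)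 (nat_lit 307) (nat_lit 5) (nat_lit 480) (nat_lit 443) (nat_lit 217)) (XT.lf (nat_lit 0) (nat_lit 8879957808) (nat_lit 836) (nat_lit 6353777609) (nat_lit 76) (nat_lit 6281834598) (nat_lit 296) (nat_lit 5) (nat_lit 307) (nat_lit 5) (nat_lit 297) (nat_lit 5) (nat_lit 481) (nat_lit 443) (nat_lit 216)))) (XT.nd (nat_lit 156) (nat_lit 684) (nat_lit 0) (XT.nd (nat_lit 78) (nat_lit 0) (nat_lit 0) (XT.lf (nat_lit 0) (nat_lit 4343011747) (nat_lit 760) (nat_lit 6904746042) (nat_lit 836) (nat_lit 10515240198) (nat_lit 286) (nat_lit 5) (nat_lit 296) (nat_lit 5) (nat_lit 297) (nat_lit 5) (nat_lit 482) (nat_lit 443) (nat_lit 215)) (XT.lf (nat_lit 0) (nat_lit 13712014295) (nat_lit 836) (nat_lit 6689577751) (nat_lit 76) (nat_lit 1612803341) (nat_lit 286) (nat_lit 5) (nat_lit 297) (nat_lit 5) (nat_lit 287) (nat_lit 5) (nat_lit 483) (nat_lit 443) (nat_lit 214))) (XT.nd (nat_lit 78) (nat_lit 0) (nat_lit 0) (XT.lf (nat_lit 0) (nat_lit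 4261376370) (nat_lit 684) (nat_lit 12033507649) (nat_lit 760) (nat_lit 5974552973) (nat_lit 277) (nat_lit 5) (nat_lit 286) (nat_lit 5) (nat_lit 287) (nat_lit 5) (nat_lit 484) (nat_lit 443) (nat_lit 213)) (XT.lf (nat_lit 0) (nat_lit 15517831894) (nat_lit 684) (nat_lit 3452455933) (nat_lit 760) (nat_lit 3558476836) (nat_lit 277) (nat_lit 5) (nat_lit 286) (nat_lit 5) (nat_lit 287) (nat_lit 5) (nat_lit 485) (nat_lit 443) (nat_lit 212))))))) (XT.nd (nat_lit 1092) (nat_lit 3724) (nat_lit 0) (XT.nd (nat_lit 546) (nat_lit 1900) (nat_lit 0) (XT.nd (nat_lit 234) (nat_lit 1292) (nat_lit 0) (XT.nd (nat_lit 78) (nat_lit 760) (nat_lit 0) (XT.lf (nat_lit 0) (nat_lit 4222914771) (nat_lit 760) (nat_lit 17534179066) (nat_lit 836) (nat_lit 1035029878) (nat_lit 267) (nat_lit 5) (nat_lit 277) (nat_lit 5) (nat_lit 278) (nat_lit 5) (nat_lit 486) (nat_lit 443) (nat_lit 211)) (XT.nd (nat_lit 78) (nat_lit 684) (nat_lit 0) (XT.lf (nat_lit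 0) (nat_lit 1585011225) (nat_lit 836) (nat_lit 7320723356) (nat_lit 76) (nat_lit 14153491985) (nat_lit 266) (nat_lit 5) (nat_lit 277) (nat_lit 5) (nat_lit 267) (nat_lit 5) (nat_lit 487) (nat_lit 443) (nat_lit 210)) (XT.lf (nat_lit 0) (nat_lit 4196780079) (nat_lit 684) (nat_lit 70237421) (nat_lit 760) (nat_lit 19064051230) (nat_lit 257) (nat_lit 5) (nat_lit 266) (nat_lit 5) (nat_lit 267) (nat_lit 5) (nat_lit 488) (nat_lit 443) (nat_lit 209)))) (XT.nd (nat_lit 156) (nat_lit 608) (nat_lit 0) (XT.nd (nat_lit 78) (nat_lit 684) (nat_lit 0) (XT.lf (nat_lit 0) (nat_lit 7106380972) (nat_lit 760) (nat_lit 7626067696) (nat_lit 76) (nat_lit 8873827233) (nat_lit 257) (nat_lit 5) (nat_lit 267) (nat_lit 5) (nat_lit 258) (nat_lit 5) (nat_lit 489) (nat_lit 443) (nat_lit 208)) (XT.lf (nat_lit 0) (nat_lit 4162336582) (nat_lit 684) (nat_lit 5863967897) (nat_lit 760) (nat_lit 13860209736) (nat_lit 248) (nat_lit 5) (nat_lit 257) (nat_lit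 5) (nat_lit 258) (nat_lit 5) (nat_lit 490) (nat_lit 443) (nat_lit 207))) (XT.nd (nat_lit 78) (nat_lit 608) (nat_lit 0) (XT.lf (nat_lit 0) (nat_lit 13073125904) (nat_lit 760) (nat_lit 7906601196) (nat_lit 76) (nat_lit 3191262616) (nat_lit 248) (nat_lit 5) (nat_lit 258) (nat_lit 5) (nat_lit 249) (nat_lit 5) (nat_lit 491) (nat_lit 443) (nat_lit 206)) (XT.lf (nat_lit 0) (nat_lit 4158967665) (nat_lit 608) (nat_lit 12084151838) (nat_lit 684) (nat_lit 8216792868) (nat_lit 240) (nat_lit 5) (nat_lit 248) (nat_lit 5) (nat_lit 249) (nat_lit 5) (nat_lit 492) (nat_lit 443) (nat_lit 205))))) (XT.nd (nat_lit 234) (nat_lit 1216) (nat_lit 0) (XT.nd (nat_lit 78) (nat_lit 684) (nat_lit 0) (XT.lf (nat_lit 0) (nat_lit 16568980253) (nat_lit 608) (nat_lit 2957033281) (nat_lit 684) (nat_lit 5227612249) (nat_lit 240) (nat_lit 5) (nat_lit 248) (nat_lit 5) (nat_lit 249) (nat_lit 5) (nat_lit 493) (nat_lit 443) (nat_lit 204)) (XT.nd (nat_lit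 78) (nat_lit 76) (nat_lit 0) (XT.lf (nat_lit 0) (nat_lit 4183569083) (nat_lit 608) (nat_lit 18755914088) (nat_lit 684) (nat_lit 2112434206) (nat_lit 232) (nat_lit 5) (nat_lit 240) (nat_lit 5) (nat_lit 241) (nat_lit 5) (nat_lit 494) (nat_lit 443) (nat_lit 203)) (XT.lf (nat_lit 0) (nat_lit 1122476261) (nat_lit 684) (nat_lit 8475900185) (nat_lit 76) (nat_lit 15756234295) (nat_lit 231) (nat_lit 5) (nat_lit 240) (nat_lit 5) (nat_lit 232) (nat_lit 5) (nat_lit 495) (nat_lit 443) (nat_lit 202)))) (XT.nd (nat_lit 156) (nat_lit 608) (nat_lit 0) (XT.nd (nat_lit 78) (nat_lit 0) (nat_lit 0) (XT.lf (nat_lit 0) (nat_lit 4201535529) (nat_lit 608) (nat_lit 216164746) (nat_lit 684) (nat_lit 21244902554) (nat_lit 223) (nat_lit 5) (nat_lit 231) (nat_lit 5) (nat_lit 232) (nat_lit 5) (nat_lit 496) (nat_lit 443) (nat_lit 201)) (XT.lf (nat_lit 0) (nat_lit 7893446114) (nat_lit 684) (nat_lit 8793326262) (nat_lit 76) (nat_lit 9287692133)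 (nat_lit 223) (nat_lit 5) (nat_lit 232) (nat_lit 5) (nat_lit 224) (nat_lit 5) (nat_lit 497) (nat_lit 443) (nat_lit 200))) (XT.nd (nat_lit 78) (nat_lit 0) (nat_lit 0) (XT.lf (nat_lit 0) (nat_lit 4177186286) (nat_lit 608) (nat_lit 7286771779) (nat_lit 684) (nat_lit 14828102387) (nat_lit 215) (nat_lit 5) (nat_lit 223) (nat_lit 5) (nat_lit 224) (nat_lit 5) (nat_lit 498) (nat_lit 443) (nat_lit 199)) (XT.lf (nat_lit 0) (nat_lit 15176953703) (nat_lit 684) (nat_lit 9107828560) (nat_lit 76) (nat_lit 2329806598) (nat_lit 215) (nat_lit 5) (nat_lit 224) (nat_lit 5) (nat_lit 216) (nat_lit 5) (nat_lit 499) (nat_lit 443) (nat_lit 198)))))) (XT.nd (nat_lit 546) (nat_lit 1520) (nat_lit 0) (XT.nd (nat_lit 234) (nat_lit 1140) (nat_lit 0) (XT.nd (nat_lit 78) (nat_lit 532) (nat_lit 0) (XT.lf (nat_lit 0) (nat_lit 4161788248) (nat_lit 532) (nat_lit 14874496620) (nat_lit 608) (nat_lit 7905843434) (nat_lit 208) (nat_lit 5) (nat_lit 215)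 (nat_lit 5) (nat_lit 216) (nat_lit 5) (nat_lit 500) (nat_lit 443) (nat_lit 197)) (XT.nd (nat_lit 78) (nat_lit 532) (nat_lit 0) (XT.lf (nat_lit 0) (nat_lit 17816386491) (nat_lit 532) (nat_lit 5214369910) (nat_lit 608) (nat_lit 4244304991) (nat_lit 208) (nat_lit 5) (nat_lit 215) (nat_lit 5) (nat_lit 216) (nat_lit 5) (nat_lit 501) (nat_lit 443) (nat_lit 196)) (XT.lf (nat_lit 0) (nat_lit 4149877244) (nat_lit 532) (nat_lit 23009196060) (nat_lit 608) (nat_lit 454502619) (nat_lit 201) (nat_lit 5) (nat_lit 208) (nat_lit 5) (nat_lit 209) (nat_lit 5) (nat_lit 502) (nat_lit 443) (nat_lit 195)))) (XT.nd (nat_lit 156) (nat_lit 532) (nat_lit 0) (XT.nd (nat_lit 78) (nat_lit 532) (nat_lit 0) (XT.lf (nat_lit 0) (nat_lit 3461690826) (nat_lit 608) (nat_lit 9859746800) (nat_lit 76) (nat_lit 14635075359) (nat_lit 200) (nat_lit 5) (nat_lit 208) (nat_lit 5) (nat_lit 201) (nat_lit 5) (nat_lit 503) (nat_lit 443) (nat_lit 194)) (XT.lf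 (nat_lit 0) (nat_lit 4062762861) (nat_lit 532) (nat_lit 3410710856) (nat_lit 608) (nat_lit 20832309749) (nat_lit 193) (nat_lit 5) (nat_lit 200) (nat_lit 5) (nat_lit 201) (nat_lit 5) (nat_lit 504) (nat_lit 443) (nat_lit 193))) (XT.nd (nat_lit 78) (nat_lit 532) (nat_lit 0) (XT.lf (nat_lit 0) (nat_lit 11672581373) (nat_lit 608) (nat_lit 10311096310) (nat_lit 76) (nat_lit 6676221643) (nat_lit 193) (nat_lit 5) (nat_lit 201) (nat_lit 5) (nat_lit 194) (nat_lit 5) (nat_lit 505) (nat_lit 443) (nat_lit 192)) (XT.lf (nat_lit 0) (nat_lit 3924598950) (nat_lit 532) (nat_lit 12076197183) (nat_lit 608) (nat_lit 13019400592) (nat_lit 186) (nat_lit 5) (nat_lit 193) (nat_lit 5) (nat_lit 194) (nat_lit 5) (nat_lit 506) (nat_lit 443) (nat_lit 191))))) (XT.nd (nat_lit 312) (nat_lit 456) (nat_lit 0) (XT.nd (nat_lit 156) (nat_lit 608) (nat_lit 0) (XT.nd (nat_lit 78) (nat_lit 456) (nat_lit 0) (XT.lf (nat_lit 0) (nat_lit 18581050573) (nat_lit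 532) (nat_lit 1900807380) (nat_lit 608) (nat_lit 8904518149) (nat_lit 186) (nat_lit 5) (nat_lit 193) (nat_lit 5) (nat_lit 194) (nat_lit 5) (nat_lit 507) (nat_lit 443) (nat_lit 190)) (XT.lf (nat_lit 0) (nat_lit 3761329692) (nat_lit 456) (nat_lit 21367819493) (nat_lit 532) (nat_lit 4629199371) (nat_lit 180) (nat_lit 5) (nat_lit 186) (nat_lit 5) (nat_lit 187) (nat_lit 5) (nat_lit 508) (nat_lit 443) (nat_lit 189))) (XT.nd (nat_lit 78) (nat_lit 608) (nat_lit 0) (XT.lf (nat_lit 0) (nat_lit 18749348424) (nat_lit 456) (nat_lit 11202226422) (nat_lit 532) (nat_lit 184543461) (nat_lit 180) (nat_lit 5) (nat_lit 186) (nat_lit 5) (nat_lit 187) (nat_lit 5) (nat_lit 509) (nat_lit 443) (nat_lit 188)) (XT.lf (nat_lit 0) (nat_lit 3530095656) (nat_lit 532) (nat_lit 782001011) (nat_lit 608) (nat_lit 26208381029) (nat_lit 172) (nat_lit 5) (nat_lit 179) (nat_lit 5) (nat_lit 180) (nat_lit 5) (nat_lit 510) (nat_lit 443) (nat_lit 187))))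 (XT.nd (nat_lit 156) (nat_lit 0) (nat_lit 0) (XT.nd (nat_lit 78) (nat_lit 456) (nat_lit 0) (XT.lf (nat_lit 0) (nat_lit 9034283898) (nat_lit 608) (nat_lit 12080682615) (nat_lit 76) (nat_lit 9794773185) (nat_lit 172) (nat_lit 5) (nat_lit 180) (nat_lit 5) (nat_lit 173) (nat_lit 5) (nat_lit 511) (nat_lit 443) (nat_lit 186)) (XT.lf (nat_lit 0) (nat_lit 3159869623) (nat_lit 456) (nat_lit 10714029174) (nat_lit 532) (nat_lit 17432429959) (nat_lit 166) (nat_lit 5) (nat_lit 172) (nat_lit 5) (nat_lit 173) (nat_lit 5) (nat_lit 512) (nat_lit 443) (nat_lit 185))) (XT.nd (nat_lit 53976) (nat_lit 0) (nat_lit 16264) (XT.lf (nat_lit 0) (nat_lit 18865408834) (nat_lit 456) (nat_lit 23283946) (nat_lit 532) (nat_lit 12820590548) (nat_lit 166) (nat_lit 5) (nat_lit 172) (nat_lit 5) (nat_lit 173) (nat_lit 5) (nat_lit 513) (nat_lit 443) (nat_lit 184)) (XT.lf (nat_lit 0) (nat_lit 539513586) (nat_lit 1748) (nat_lit 3412725188) (nat_lit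 1748) (nat_lit 3412725188) (nat_lit 380) (nat_lit 3) (nat_lit 403) (nat_lit 3) (nat_lit 403) (nat_lit 5) (nat_lit 444) (nat_lit 444) (nat_lit 252))))))))
noncomputable def xc228 : XT := (XT.nd (nat_lit 2184) (nat_lit 10336) (nat_lit 0) (XT.nd (nat_lit 1092) (nat_lit 2204) (nat_lit 0) (XT.nd (nat_lit 546) (nat_lit 0) (nat_lit 228) (XT.nd (nat_lit 234) (nat_lit 0) (nat_lit 152) (XT.nd (nat_lit 78) (nat_lit 0) (nat_lit 76) (XT.lf (nat_lit 0) (nat_lit 1386082831) (nat_lit 1748) (nat_lit 128146359) (nat_lit 1748) (nat_lit 13356839892) (nat_lit 380) (nat_lit 3) (nat_lit 403) (nat_lit 3) (nat_lit 403) (nat_lit 5) (nat_lit 445) (nat_lit 444) (nat_lit 251)) (XT.nd (nat_lit 78) (nat_lit 0) (nat_lit 0) (XT.lf (nat_lit 0) (nat_lit 1768386453) (nat_lit 1672) (nat_lit 8258952445) (nat_lit 1748) (nat_lit 4986318136) (nat_lit 381) (nat_lit 5) (nat_lit 403) (nat_lit 5) (nat_lit 404) (nat_lit 5) (nat_lit 446) (nat_lit 444) (nat_lit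 250)) (XT.lf (nat_lit 0) (nat_lit 2161609473) (nat_lit 1672) (nat_lit 1396286800) (nat_lit 1748) (nat_lit 11601140990) (nat_lit 381) (nat_lit 5) (nat_lit 403) (nat_lit 5) (nat_lit 404) (nat_lit 5) (nat_lit 447) (nat_lit 444) (nat_lit 249)))) (XT.nd (nat_lit 156) (nat_lit 0) (nat_lit 76) (XT.nd (nat_lit 78) (nat_lit 0) (nat_lit 0) (XT.lf (nat_lit 0) (nat_lit 2612075472) (nat_lit 1672) (nat_lit 9652748160) (nat_lit 1748) (nat_lit 3041519765) (nat_lit 382) (nat_lit 5) (nat_lit 404) (nat_lit 5) (nat_lit 405) (nat_lit 5) (nat_lit 448) (nat_lit 444) (nat_lit 248)) (XT.lf (nat_lit 0) (nat_lit 3097216068) (nat_lit 1672) (nat_lit 2620820727) (nat_lit 1748) (nat_lit 9738051308) (nat_lit 382) (nat_lit 5) (nat_lit 404) (nat_lit 5) (nat_lit 405) (nat_lit 5) (nat_lit 449) (nat_lit 444) (nat_lit 247))) (XT.nd (nat_lit 78) (nat_lit 0) (nat_lit 0) (XT.lf (nat_lit 0) (nat_lit 3621242055) (nat_lit 1672) (nat_lit 11006754730) (nat_lit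 1748) (nat_lit 980252908) (nat_lit 383) (nat_lit 5) (nat_lit 405) (nat_lit 5) (nat_lit 406) (nat_lit 5) (nat_lit 450) (nat_lit 444) (nat_lit 246)) (XT.lf (nat_lit 0) (nat_lit 4204268594) (nat_lit 1672) (nat_lit 3801551469) (nat_lit 1748) (nat_lit 7756669582) (nat_lit 383) (nat_lit 5) (nat_lit 405) (nat_lit 5) (nat_lit 406) (nat_lit 5) (nat_lit 451) (nat_lit 444) (nat_lit 245))))) (XT.nd (nat_lit 234) (nat_lit 0) (nat_lit 152) (XT.nd (nat_lit 78) (nat_lit 0) (nat_lit 76) (XT.lf (nat_lit 76) (nat_lit 3590684294) (nat_lit 0) (nat_lit 1224671416) (nat_lit 1748) (nat_lit 11104136108) (nat_lit 384) (nat_lit 5) (nat_lit 383) (nat_lit 5) (nat_lit 406) (nat_lit 5) (nat_lit 452) (nat_lit 444) (nat_lit 244)) (XT.nd (nat_lit 78) (nat_lit 0) (nat_lit 0) (XT.lf (nat_lit 0) (nat_lit 5494513770) (nat_lit 1672) (nat_lit 4938249219) (nat_lit 1748) (nat_lit 5645759378) (nat_lit 384) (nat_lit 5) (nat_lit 406) (nat_lit 5) (nat_lit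 407) (nat_lit 5) (nat_lit 453) (nat_lit 444) (nat_lit 243)) (XT.lf (nat_lit 76) (nat_lit 2622189187) (nat_lit 0) (nat_lit 3583547235) (nat_lit 1748) (nat_lit 10034632688) (nat_lit 385) (nat_lit 5) (nat_lit 384) (nat_lit 5) (nat_lit 407) (nat_lit 5) (nat_lit 454) (nat_lit 444) (nat_lit 242)))) (XT.nd (nat_lit 156) (nat_lit 0) (nat_lit 76) (XT.nd (nat_lit 78) (nat_lit 0) (nat_lit 0) (XT.lf (nat_lit 0) (nat_lit 6980098231) (nat_lit 1672) (nat_lit 6030661059) (nat_lit 1748) (nat_lit 3393720314) (nat_lit 385) (nat_lit 5) (nat_lit 407) (nat_lit 5) (nat_lit 408) (nat_lit 5) (nat_lit 455) (nat_lit 444) (nat_lit 241)) (XT.lf (nat_lit 76) (nat_lit 1702960789) (nat_lit 0) (nat_lit 6095368193) (nat_lit 1748) (nat_lit 8772980702) (nat_lit 386) (nat_lit 5) (nat_lit 385) (nat_lit 5) (nat_lit 408) (nat_lit 5) (nat_lit 456) (nat_lit 444) (nat_lit 240))) (XT.nd (nat_lit 78) (nat_lit 0) (nat_lit 0) (XT.lf (nat_lit 0) (nat_lit 8673588007)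 (nat_lit 1672) (nat_lit 7078521448) (nat_lit 1748) (nat_lit 988558548) (nat_lit 386) (nat_lit 5) (nat_lit 408) (nat_lit 5) (nat_lit 409) (nat_lit 5) (nat_lit 457) (nat_lit 444) (nat_lit 239)) (XT.lf (nat_lit 76) (nat_lit 833384874) (nat_lit 0) (nat_lit 8772572965) (nat_lit 1748) (nat_lit 7306668352) (nat_lit 387) (nat_lit 5) (nat_lit 386) (nat_lit 5) (nat_lit 409) (nat_lit 5) (nat_lit 458) (nat_lit 444) (nat_lit 238)))))) (XT.nd (nat_lit 546) (nat_lit 2660) (nat_lit 0) (XT.nd (nat_lit 234) (nat_lit 0) (nat_lit 152) (XT.nd (nat_lit 78) (nat_lit 0) (nat_lit 76) (XT.lf (nat_lit 76) (nat_lit 8995227719) (nat_lit 0) (nat_lit 1603169422) (nat_lit 1748) (nat_lit 6488802681) (nat_lit 387) (nat_lit 5) (nat_lit 386) (nat_lit 5) (nat_lit 409) (nat_lit 5) (nat_lit 459) (nat_lit 444) (nat_lit 237)) (XT.nd (nat_lit 78) (nat_lit 0) (nat_lit 0) (XT.lf (nat_lit 76) (nat_lit 13848593) (nat_lit 0) (nat_lit 11628049481) (nat_lit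 1748) (nat_lit 5622747222) (nat_lit 388) (nat_lit 5) (nat_lit 387) (nat_lit 5) (nat_lit 410) (nat_lit 5) (nat_lit 460) (nat_lit 444) (nat_lit 236)) (XT.lf (nat_lit 76) (nat_lit 8376439855) (nat_lit 0) (nat_lit 4388818864) (nat_lit 1748) (nat_lit 4679205706) (nat_lit 388) (nat_lit 5) (nat_lit 387) (nat_lit 5) (nat_lit 410) (nat_lit 5) (nat_lit 461) (nat_lit 444) (nat_lit 235)))) (XT.nd (nat_lit 156) (nat_lit 0) (nat_lit 76) (XT.nd (nat_lit 78) (nat_lit 0) (nat_lit 0) (XT.lf (nat_lit 0) (nat_lit 13924799463) (nat_lit 1672) (nat_lit 745365893) (nat_lit 1748) (nat_lit 2957444770) (nat_lit 388) (nat_lit 5) (nat_lit 410) (nat_lit 5) (nat_lit 411) (nat_lit 5) (nat_lit 462) (nat_lit 444) (nat_lit 234)) (XT.lf (nat_lit 76) (nat_lit 7812911318) (nat_lit 0) (nat_lit 7368789845) (nat_lit 1748) (nat_lit 2631238538) (nat_lit 389) (nat_lit 5) (nat_lit 388) (nat_lit 5) (nat_lit 411) (nat_lit 5) (nat_lit 463) (nat_lit 444) (nat_lit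 233))) (XT.nd (nat_lit 78) (nat_lit 0) (nat_lit 0) (XT.lf (nat_lit 0) (nat_lit 16463756267) (nat_lit 1672) (nat_lit 1454294809) (nat_lit 1748) (nat_lit 83928758) (nat_lit 389) (nat_lit 5) (nat_lit 411) (nat_lit 5) (nat_lit 412) (nat_lit 5) (nat_lit 464) (nat_lit 444) (nat_lit 232)) (XT.lf (nat_lit 76) (nat_lit 7305113190) (nat_lit 0) (nat_lit 10557147325) (nat_lit 1748) (nat_lit 330728287) (nat_lit 390) (nat_lit 5) (nat_lit 389) (nat_lit 5) (nat_lit 412) (nat_lit 5) (nat_lit 465) (nat_lit 444) (nat_lit 231))))) (XT.nd (nat_lit 234) (nat_lit 1140) (nat_lit 0) (XT.nd (nat_lit 78) (nat_lit 0) (nat_lit 76) (XT.lf (nat_lit 0) (nat_lit 893542859) (nat_lit 1748) (nat_lit 2138409840) (nat_lit 1824) (nat_lit 15355663458) (nat_lit 366) (nat_lit 5) (nat_lit 389) (nat_lit 5) (nat_lit 390) (nat_lit 5) (nat_lit 466) (nat_lit 444) (nat_lit 230)) (XT.nd (nat_lit 78) (nat_lit 0) (nat_lit 0) (XT.lf (nat_lit 0) (nat_lit 2207668582)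 (nat_lit 1748) (nat_lit 11746035435) (nat_lit 1824) (nat_lit 4630996320) (nat_lit 367) (nat_lit 5) (nat_lit 390) (nat_lit 5) (nat_lit 391) (nat_lit 5) (nat_lit 467) (nat_lit 444) (nat_lit 229)) (XT.lf (nat_lit 0) (nat_lit 3577407226) (nat_lit 1748) (nat_lit 2785643871) (nat_lit 1824) (nat_lit 12422092366) (nat_lit 367) (nat_lit 5) (nat_lit 390) (nat_lit 5) (nat_lit 391) (nat_lit 5) (nat_lit 468) (nat_lit 444) (nat_lit 228)))) (XT.nd (nat_lit 156) (nat_lit 1292) (nat_lit 0) (XT.nd (nat_lit 78) (nat_lit 0) (nat_lit 0) (XT.lf (nat_lit 0) (nat_lit 5020461885) (nat_lit 1748) (nat_lit 12563977826) (nat_lit 76) (nat_lit 1404241114) (nat_lit 368) (nat_lit 5) (nat_lit 391) (nat_lit 5) (nat_lit 369) (nat_lit 5) (nat_lit 469) (nat_lit 444) (nat_lit 227)) (XT.lf (nat_lit 0) (nat_lit 6548320245) (nat_lit 1748) (nat_lit 3385457171) (nat_lit 76) (nat_lit 9261396388) (nat_lit 368) (nat_lit 5) (nat_lit 391) (nat_lit 5) (nat_lit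 369) (nat_lit 5) (nat_lit 470) (nat_lit 444) (nat_lit 226))) (XT.nd (nat_lit 78) (nat_lit 0) (nat_lit 0) (XT.lf (nat_lit 0) (nat_lit 6051792641) (nat_lit 1292) (nat_lit 2089319955) (nat_lit 1368) (nat_lit 11264000159) (nat_lit 351) (nat_lit 5) (nat_lit 368) (nat_lit 5) (nat_lit 369) (nat_lit 5) (nat_lit 471) (nat_lit 444) (nat_lit 225)) (XT.lf (nat_lit 0) (nat_lit 9822172334) (nat_lit 1368) (nat_lit 3937941857) (nat_lit 76) (nat_lit 5858011640) (nat_lit 351) (nat_lit 5) (nat_lit 369) (nat_lit 5) (nat_lit 352) (nat_lit 5) (nat_lit 472) (nat_lit 444) (nat_lit 224))))))) (XT.nd (nat_lit 1092) (nat_lit 4712) (nat_lit 0) (XT.nd (nat_lit 546) (nat_lit 2204) (nat_lit 0) (XT.nd (nat_lit 234) (nat_lit 1748) (nat_lit 0) (XT.nd (nat_lit 78) (nat_lit 836) (nat_lit 0) (XT.lf (nat_lit 0) (nat_lit 5722757799) (nat_lit 836) (nat_lit 5860340992) (nat_lit 912) (nat_lit 8251378977) (nat_lit 340) (nat_lit 5) (nat_lit 351) (nat_lit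 5) (nat_lit 352) (nat_lit 5) (nat_lit 473) (nat_lit 444) (nat_lit 223)) (XT.nd (nat_lit 78) (nat_lit 836) (nat_lit 0) (XT.lf (nat_lit 0) (nat_lit 13415433862) (nat_lit 912) (nat_lit 4443296381) (nat_lit 76) (nat_lit 2195706137) (nat_lit 340) (nat_lit 5) (nat_lit 352) (nat_lit 5) (nat_lit 341) (nat_lit 5) (nat_lit 474) (nat_lit 444) (nat_lit 222)) (XT.lf (nat_lit 0) (nat_lit 5446929525) (nat_lit 836) (nat_lit 9907075373) (nat_lit 912) (nat_lit 4923400851) (nat_lit 329) (nat_lit 5) (nat_lit 340) (nat_lit 5) (nat_lit 341) (nat_lit 5) (nat_lit 475) (nat_lit 444) (nat_lit 221)))) (XT.nd (nat_lit 156) (nat_lit 912) (nat_lit 0) (XT.nd (nat_lit 78) (nat_lit 836) (nat_lit 0) (XT.lf (nat_lit 0) (nat_lit 15591024182) (nat_lit 836) (nat_lit 1765616887) (nat_lit 912) (nat_lit 3147690869) (nat_lit 329) (nat_lit 5) (nat_lit 340) (nat_lit 5) (nat_lit 341) (nat_lit 5) (nat_lit 476) (nat_lit 444) (nat_lit 220)) (XT.lf (nat_lit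 0) (nat_lit 5224087195) (nat_lit 836) (nat_lit 14247182213) (nat_lit 912) (nat_lit 1263091694) (nat_lit 318) (nat_lit 5) (nat_lit 329) (nat_lit 5) (nat_lit 330) (nat_lit 5) (nat_lit 477) (nat_lit 444) (nat_lit 219))) (XT.nd (nat_lit 78) (nat_lit 836) (nat_lit 0) (XT.lf (nat_lit 0) (nat_lit 691031687) (nat_lit 912) (nat_lit 5357903841) (nat_lit 76) (nat_lit 14919163281) (nat_lit 317) (nat_lit 5) (nat_lit 329) (nat_lit 5) (nat_lit 318) (nat_lit 5) (nat_lit 478) (nat_lit 444) (nat_lit 218)) (XT.lf (nat_lit 0) (nat_lit 2711111900) (nat_lit 912) (nat_lit 16169803440) (nat_lit 76) (nat_lit 2324556259) (nat_lit 306) (nat_lit 5) (nat_lit 318) (nat_lit 5) (nat_lit 307) (nat_lit 5) (nat_lit 479) (nat_lit 444) (nat_lit 217))))) (XT.nd (nat_lit 234) (nat_lit 1444) (nat_lit 0) (XT.nd (nat_lit 78) (nat_lit 760) (nat_lit 0) (XT.lf (nat_lit 0) (nat_lit 4843586449) (nat_lit 912) (nat_lit 5781622588) (nat_lit 76) (nat_lit 10820945950)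 (nat_lit 306) (nat_lit 5) (nat_lit 318) (nat_lit 5) (nat_lit 307) (nat_lit 5) (nat_lit 480) (nat_lit 444) (nat_lit 216)) (XT.nd (nat_lit 78) (nat_lit 0) (nat_lit 0) (XT.lf (nat_lit 0) (nat_lit 4874137320) (nat_lit 760) (nat_lit 2172043899) (nat_lit 836) (nat_lit 14644924341) (nat_lit 296) (nat_lit 5) (nat_lit 306) (nat_lit 5) (nat_lit 307) (nat_lit 5) (nat_lit 481) (nat_lit 444) (nat_lit 215)) (XT.lf (nat_lit 0) (nat_lit 9369641637) (nat_lit 836) (nat_lit 6165099394) (nat_lit 76) (nat_lit 6404680718) (nat_lit 296) (nat_lit 5) (nat_lit 307) (nat_lit 5) (nat_lit 297) (nat_lit 5) (nat_lit 482) (nat_lit 444) (nat_lit 214)))) (XT.nd (nat_lit 156) (nat_lit 684) (nat_lit 0) (XT.nd (nat_lit 78) (nat_lit 0) (nat_lit 0) (XT.lf (nat_lit 0) (nat_lit 4743548423) (nat_lit 760) (nat_lit 7037166484) (nat_lit 836) (nat_lit 10411169302) (nat_lit 286) (nat_lit 5) (nat_lit 296) (nat_lit 5) (nat_lit 297) (nat_lit 5) (nat_lit 483)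 (nat_lit 444) (nat_lit 213)) (XT.lf (nat_lit 0) (nat_lit 14288253408) (nat_lit 836) (nat_lit 6509630740) (nat_lit 76) (nat_lit 1650549660) (nat_lit 286) (nat_lit 5) (nat_lit 297) (nat_lit 5) (nat_lit 287) (nat_lit 5) (nat_lit 484) (nat_lit 444) (nat_lit 212))) (XT.nd (nat_lit 78) (nat_lit 0) (nat_lit 0) (XT.lf (nat_lit 0) (nat_lit 4658278394) (nat_lit 684) (nat_lit 12260604186) (nat_lit 760) (nat_lit 5789775734) (nat_lit 277) (nat_lit 5) (nat_lit 286) (nat_lit 5) (nat_lit 287) (nat_lit 5) (nat_lit 485) (nat_lit 444) (nat_lit 211)) (XT.lf (nat_lit 0) (nat_lit 16133751763) (nat_lit 684) (nat_lit 3508197584) (nat_lit 760) (nat_lit 3331344119) (nat_lit 277) (nat_lit 5) (nat_lit 286) (nat_lit 5) (nat_lit 287) (nat_lit 5) (nat_lit 486) (nat_lit 444) (nat_lit 210)))))) (XT.nd (nat_lit 546) (nat_lit 1900) (nat_lit 0) (XT.nd (nat_lit 234) (nat_lit 1292) (nat_lit 0) (XT.nd (nat_lit 78) (nat_lit 760) (nat_lit 0) (XT.lf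 (nat_lit 0) (nat_lit 4616846891) (nat_lit 760) (nat_lit 17864008098) (nat_lit 836) (nat_lit 761141390) (nat_lit 267) (nat_lit 5) (nat_lit 277) (nat_lit 5) (nat_lit 278) (nat_lit 5) (nat_lit 487) (nat_lit 444) (nat_lit 209)) (XT.nd (nat_lit 78) (nat_lit 684) (nat_lit 0) (XT.lf (nat_lit 0) (nat_lit 1901736446) (nat_lit 836) (nat_lit 7159754522) (nat_lit 76) (nat_lit 14453029870) (nat_lit 266) (nat_lit 5) (nat_lit 277) (nat_lit 5) (nat_lit 267) (nat_lit 5) (nat_lit 488) (nat_lit 444) (nat_lit 208)) (XT.lf (nat_lit 0) (nat_lit 4586076723) (nat_lit 684) (nat_lit 47700005) (nat_lit 760) (nat_lit 19158098961) (nat_lit 257) (nat_lit 5) (nat_lit 266) (nat_lit 5) (nat_lit 267) (nat_lit 5) (nat_lit 489) (nat_lit 444) (nat_lit 207)))) (XT.nd (nat_lit 156) (nat_lit 608) (nat_lit 0) (XT.nd (nat_lit 78) (nat_lit 684) (nat_lit 0) (XT.lf (nat_lit 0) (nat_lit 7524561852) (nat_lit 760) (nat_lit 7473667471) (nat_lit 76) (nat_lit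 9074468639) (nat_lit 257) (nat_lit 5) (nat_lit 267) (nat_lit 5) (nat_lit 258) (nat_lit 5) (nat_lit 490) (nat_lit 444) (nat_lit 206)) (XT.lf (nat_lit 0) (nat_lit 4548498829) (nat_lit 684) (nat_lit 5950938920) (nat_lit 760) (nat_lit 13859175793) (nat_lit 248) (nat_lit 5) (nat_lit 257) (nat_lit 5) (nat_lit 258) (nat_lit 5) (nat_lit 491) (nat_lit 444) (nat_lit 205))) (XT.nd (nat_lit 78) (nat_lit 608) (nat_lit 0) (XT.lf (nat_lit 0) (nat_lit 13602043288) (nat_lit 760) (nat_lit 7762429601) (nat_lit 76) (nat_lit 3284412216) (nat_lit 248) (nat_lit 5) (nat_lit 258) (nat_lit 5) (nat_lit 249) (nat_lit 5) (nat_lit 492) (nat_lit 444) (nat_lit 204)) (XT.lf (nat_lit 0) (nat_lit 4542461798) (nat_lit 608) (nat_lit 12289680591) (nat_lit 684) (nat_lit 8111513150) (nat_lit 240) (nat_lit 5) (nat_lit 248) (nat_lit 5) (nat_lit 249) (nat_lit 5) (nat_lit 493) (nat_lit 444) (nat_lit 203))))) (XT.nd (nat_lit 234) (nat_lit 1216) (nat_lit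 0) (XT.nd (nat_lit 78) (nat_lit 684) (nat_lit 0) (XT.lf (nat_lit 0) (nat_lit 17194786112) (nat_lit 608) (nat_lit 2980728569) (nat_lit 684) (nat_lit 5067835498) (nat_lit 240) (nat_lit 5) (nat_lit 248) (nat_lit 5) (nat_lit 249) (nat_lit 5) (nat_lit 494) (nat_lit 444) (nat_lit 202)) (XT.nd (nat_lit 78) (nat_lit 76) (nat_lit 0) (XT.lf (nat_lit 0) (nat_lit 4564814016) (nat_lit 608) (nat_lit 19089519306) (nat_lit 684) (nat_lit 1893335996) (nat_lit 232) (nat_lit 5) (nat_lit 240) (nat_lit 5) (nat_lit 241) (nat_lit 5) (nat_lit 495) (nat_lit 444) (nat_lit 201)) (XT.lf (nat_lit 0) (nat_lit 1397787828) (nat_lit 684) (nat_lit 8350160227) (nat_lit 76) (nat_lit 16108538877) (nat_lit 231) (nat_lit 5) (nat_lit 240) (nat_lit 5) (nat_lit 232) (nat_lit 5) (nat_lit 496) (nat_lit 444) (nat_lit 200)))) (XT.nd (nat_lit 156) (nat_lit 608) (nat_lit 0) (XT.nd (nat_lit 78) (nat_lit 0) (nat_lit 0) (XT.lf (nat_lit 0) (nat_lit 4578881714)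 (nat_lit 608) (nat_lit 176980928) (nat_lit 684) (nat_lit 21414840408) (nat_lit 223) (nat_lit 5) (nat_lit 231) (nat_lit 5) (nat_lit 232) (nat_lit 5) (nat_lit 497) (nat_lit 444) (nat_lit 199)) (XT.lf (nat_lit 0) (nat_lit 8296502133) (nat_lit 684) (nat_lit 8676854715) (nat_lit 76) (nat_lit 9515540593) (nat_lit 223) (nat_lit 5) (nat_lit 232) (nat_lit 5) (nat_lit 224) (nat_lit 5) (nat_lit 498) (nat_lit 444) (nat_lit 198))) (XT.nd (nat_lit 78) (nat_lit 0) (nat_lit 0) (XT.lf (nat_lit 0) (nat_lit 4551144808) (nat_lit 608) (nat_lit 7384357491) (nat_lit 684) (nat_lit 14877404438) (nat_lit 215) (nat_lit 5) (nat_lit 223) (nat_lit 5) (nat_lit 224) (nat_lit 5) (nat_lit 499) (nat_lit 444) (nat_lit 197)) (XT.lf (nat_lit 0) (nat_lit 15718314044) (nat_lit 684) (nat_lit 9000674249) (nat_lit 76) (nat_lit 2422989231) (nat_lit 215) (nat_lit 5) (nat_lit 224) (nat_lit 5) (nat_lit 216) (nat_lit 5) (nat_lit 500) (nat_lit 444) (nat_lit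 196))))))))
noncomputable def xc229 : XT := (XT.nd (nat_lit 56160) (nat_lit 0) (nat_lit 8436) (XT.nd (nat_lit 55068) (nat_lit 0) (nat_lit 16264) (XT.nd (nat_lit 546) (nat_lit 1520) (nat_lit 0) (XT.nd (nat_lit 234) (nat_lit 1140) (nat_lit 0) (XT.nd (nat_lit 78) (nat_lit 532) (nat_lit 0) (XT.lf (nat_lit 0) (nat_lit 4532431535) (nat_lit 532) (nat_lit 15119603175) (nat_lit 608) (nat_lit 7824091862) (nat_lit 208) (nat_lit 5) (nat_lit 215) (nat_lit 5) (nat_lit 216) (nat_lit 5) (nat_lit 501) (nat_lit 444) (nat_lit 195)) (XT.nd (nat_lit 78) (nat_lit 532) (nat_lit 0) (XT.lf (nat_lit 0) (nat_lit 18454486301) (nat_lit 532) (nat_lit 5267301057) (nat_lit 608) (nat_lit 4094025952) (nat_lit 208) (nat_lit 5) (nat_lit 215) (nat_lit 5) (nat_lit 216) (nat_lit 5) (nat_lit 502) (nat_lit 444) (nat_lit 194)) (XT.lf (nat_lit 0) (nat_lit 4517179926) (nat_lit 532) (nat_lit 23413145515) (nat_lit 608) (nat_lit 230822360) (nat_lit 201) (nat_lit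 5) (nat_lit 208) (nat_lit 5) (nat_lit 209) (nat_lit 5) (nat_lit 503) (nat_lit 444) (nat_lit 193)))) (XT.nd (nat_lit 156) (nat_lit 532) (nat_lit 0) (XT.nd (nat_lit 78) (nat_lit 532) (nat_lit 0) (XT.lf (nat_lit 0) (nat_lit 3756137866) (nat_lit 608) (nat_lit 9775085384) (nat_lit 76) (nat_lit 14979782870) (nat_lit 200) (nat_lit 5) (nat_lit 208) (nat_lit 5) (nat_lit 201) (nat_lit 5) (nat_lit 504) (nat_lit 444) (nat_lit 192)) (XT.lf (nat_lit 0) (nat_lit 4424020152) (nat_lit 532) (nat_lit 3421538275) (nat_lit 608) (nat_lit 21021758147) (nat_lit 193) (nat_lit 5) (nat_lit 200) (nat_lit 5) (nat_lit 201) (nat_lit 5) (nat_lit 505) (nat_lit 444) (nat_lit 191))) (XT.nd (nat_lit 78) (nat_lit 532) (nat_lit 0) (XT.lf (nat_lit 0) (nat_lit 12124648520) (nat_lit 608) (nat_lit 10238679019) (nat_lit 76) (nat_lit 6865269762) (nat_lit 193) (nat_lit 5) (nat_lit 201) (nat_lit 5) (nat_lit 194) (nat_lit 5) (nat_lit 506) (nat_lit 444) (nat_lit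 190)) (XT.lf (nat_lit 0) (nat_lit 4279896995) (nat_lit 532) (nat_lit 12257041210) (nat_lit 608) (nat_lit 13059214734) (nat_lit 186) (nat_lit 5) (nat_lit 193) (nat_lit 5) (nat_lit 194) (nat_lit 5) (nat_lit 507) (nat_lit 444) (nat_lit 189))))) (XT.nd (nat_lit 234) (nat_lit 988) (nat_lit 0) (XT.nd (nat_lit 78) (nat_lit 532) (nat_lit 0) (XT.lf (nat_lit 0) (nat_lit 19224050080) (nat_lit 532) (nat_lit 1879333414) (nat_lit 608) (nat_lit 8866359619) (nat_lit 186) (nat_lit 5) (nat_lit 193) (nat_lit 5) (nat_lit 194) (nat_lit 5) (nat_lit 508) (nat_lit 444) (nat_lit 188)) (XT.nd (nat_lit 78) (nat_lit 76) (nat_lit 0) (XT.lf (nat_lit 0) (nat_lit 4110097511) (nat_lit 456) (nat_lit 21731523051) (nat_lit 532) (nat_lit 4507576860) (nat_lit 180) (nat_lit 5) (nat_lit 186) (nat_lit 5) (nat_lit 187) (nat_lit 5) (nat_lit 509) (nat_lit 444) (nat_lit 187)) (XT.lf (nat_lit 0) (nat_lit 21486495) (nat_lit 532) (nat_lit 11342235532) (nat_lit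 76) (nat_lit 19370882384) (nat_lit 179) (nat_lit 5) (nat_lit 186) (nat_lit 5) (nat_lit 180) (nat_lit 5) (nat_lit 510) (nat_lit 444) (nat_lit 186)))) (XT.nd (nat_lit 156) (nat_lit 456) (nat_lit 0) (XT.nd (nat_lit 78) (nat_lit 0) (nat_lit 0) (XT.lf (nat_lit 0) (nat_lit 3869961969) (nat_lit 532) (nat_lit 733313208) (nat_lit 608) (nat_lit 26523399946) (nat_lit 172) (nat_lit 5) (nat_lit 179) (nat_lit 5) (nat_lit 180) (nat_lit 5) (nat_lit 511) (nat_lit 444) (nat_lit 185)) (XT.lf (nat_lit 0) (nat_lit 9416297257) (nat_lit 608) (nat_lit 12054591494) (nat_lit 76) (nat_lit 10052908014) (nat_lit 172) (nat_lit 5) (nat_lit 180) (nat_lit 5) (nat_lit 173) (nat_lit 5) (nat_lit 512) (nat_lit 444) (nat_lit 184))) (XT.nd (nat_lit 54054) (nat_lit 0) (nat_lit 16264) (XT.lf (nat_lit 0) (nat_lit 3489010573) (nat_lit 456) (nat_lit 10861472962) (nat_lit 532) (nat_lit 17577880668) (nat_lit 166) (nat_lit 5) (nat_lit 172) (nat_lit 5) (nat_lit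 173) (nat_lit 5) (nat_lit 513) (nat_lit 444) (nat_lit 183)) (XT.lf (nat_lit 0) (nat_lit 844645693) (nat_lit 1748) (nat_lit 3330749704) (nat_lit 1748) (nat_lit 3330749704) (nat_lit 380) (nat_lit 3) (nat_lit 403) (nat_lit 3) (nat_lit 403) (nat_lit 5) (nat_lit 445) (nat_lit 445) (nat_lit 250)))))) (XT.nd (nat_lit 546) (nat_lit 0) (nat_lit 228) (XT.nd (nat_lit 234) (nat_lit 0) (nat_lit 152) (XT.nd (nat_lit 78) (nat_lit 0) (nat_lit 76) (XT.lf (nat_lit 76) (nat_lit 166036919) (nat_lit 0) (nat_lit 1825986445) (nat_lit 1748) (nat_lit 13164449190) (nat_lit 381) (nat_lit 5) (nat_lit 380) (nat_lit 3) (nat_lit 403) (nat_lit 5) (nat_lit 446) (nat_lit 445) (nat_lit 249)) (XT.nd (nat_lit 78) (nat_lit 0) (nat_lit 0) (XT.lf (nat_lit 0) (nat_lit 2369692410) (nat_lit 1672) (nat_lit 8117915624) (nat_lit 1748) (nat_lit 4814558734) (nat_lit 381) (nat_lit 5) (nat_lit 403) (nat_lit 5) (nat_lit 404) (nat_lit 5) (nat_lit 447) (nat_lit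 445) (nat_lit 248)) (XT.lf (nat_lit 0) (nat_lit 2759683063) (nat_lit 1672) (nat_lit 1124000900) (nat_lit 1748) (nat_lit 11567001295) (nat_lit 381) (nat_lit 5) (nat_lit 403) (nat_lit 5) (nat_lit 404) (nat_lit 5) (nat_lit 448) (nat_lit 445) (nat_lit 247)))) (XT.nd (nat_lit 156) (nat_lit 0) (nat_lit 76) (XT.nd (nat_lit 78) (nat_lit 0) (nat_lit 0) (XT.lf (nat_lit 0) (nat_lit 3208607503) (nat_lit 1672) (nat_lit 9534613232) (nat_lit 1748) (nat_lit 2857936345) (nat_lit 382) (nat_lit 5) (nat_lit 404) (nat_lit 5) (nat_lit 405) (nat_lit 5) (nat_lit 449) (nat_lit 445) (nat_lit 246)) (XT.lf (nat_lit 0) (nat_lit 3692778547) (nat_lit 1672) (nat_lit 2368149013) (nat_lit 1748) (nat_lit 9693190947) (nat_lit 382) (nat_lit 5) (nat_lit 404) (nat_lit 5) (nat_lit 405) (nat_lit 5) (nat_lit 450) (nat_lit 445) (nat_lit 245))) (XT.nd (nat_lit 78) (nat_lit 0) (nat_lit 0) (XT.lf (nat_lit 0) (nat_lit 4217348113) (nat_lit 1672) (nat_lit 10911453975)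 (nat_lit 1748) (nat_lit 780728196) (nat_lit 383) (nat_lit 5) (nat_lit 405) (nat_lit 5) (nat_lit 406) (nat_lit 5) (nat_lit 451) (nat_lit 445) (nat_lit 244)) (XT.lf (nat_lit 0) (nat_lit 4801766924) (nat_lit 1672) (nat_lit 3568331664) (nat_lit 1748) (nat_lit 7696969866) (nat_lit 383) (nat_lit 5) (nat_lit 405) (nat_lit 5) (nat_lit 406) (nat_lit 5) (nat_lit 452) (nat_lit 445) (nat_lit 243))))) (XT.nd (nat_lit 234) (nat_lit 0) (nat_lit 152) (XT.nd (nat_lit 78) (nat_lit 0) (nat_lit 76) (XT.lf (nat_lit 76) (nat_lit 3969714269) (nat_lit 0) (nat_lit 1447289245) (nat_lit 1748) (nat_lit 10810376499) (nat_lit 384) (nat_lit 5) (nat_lit 383) (nat_lit 5) (nat_lit 406) (nat_lit 5) (nat_lit 453) (nat_lit 445) (nat_lit 242)) (XT.nd (nat_lit 78) (nat_lit 0) (nat_lit 0) (XT.lf (nat_lit 0) (nat_lit 6098574961) (nat_lit 1672) (nat_lit 4724264903) (nat_lit 1748) (nat_lit 5566982445) (nat_lit 384) (nat_lit 5) (nat_lit 406) (nat_lit 5)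 (nat_lit 407) (nat_lit 5) (nat_lit 454) (nat_lit 445) (nat_lit 241)) (XT.lf (nat_lit 76) (nat_lit 2985324710) (nat_lit 0) (nat_lit 3831024947) (nat_lit 1748) (nat_lit 9738717368) (nat_lit 385) (nat_lit 5) (nat_lit 384) (nat_lit 5) (nat_lit 407) (nat_lit 5) (nat_lit 455) (nat_lit 445) (nat_lit 240)))) (XT.nd (nat_lit 156) (nat_lit 0) (nat_lit 76) (XT.nd (nat_lit 78) (nat_lit 0) (nat_lit 0) (XT.lf (nat_lit 0) (nat_lit 7595540443) (nat_lit 1672) (nat_lit 5835644221) (nat_lit 1748) (nat_lit 3291495672) (nat_lit 385) (nat_lit 5) (nat_lit 407) (nat_lit 5) (nat_lit 408) (nat_lit 5) (nat_lit 456) (nat_lit 445) (nat_lit 239)) (XT.lf (nat_lit 76) (nat_lit 2050573551) (nat_lit 0) (nat_lit 6372267855) (nat_lit 1748) (nat_lit 8470158794) (nat_lit 386) (nat_lit 5) (nat_lit 385) (nat_lit 5) (nat_lit 408) (nat_lit 5) (nat_lit 457) (nat_lit 445) (nat_lit 238))) (XT.nd (nat_lit 78) (nat_lit 0) (nat_lit 0) (XT.lf (nat_lit 0) (nat_lit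 9305431856) (nat_lit 1672) (nat_lit 6902155076) (nat_lit 1748) (nat_lit 858369379) (nat_lit 386) (nat_lit 5) (nat_lit 408) (nat_lit 5) (nat_lit 409) (nat_lit 5) (nat_lit 458) (nat_lit 445) (nat_lit 237)) (XT.lf (nat_lit 76) (nat_lit 1165897682) (nat_lit 0) (nat_lit 9083614391) (nat_lit 1748) (nat_lit 6991987344) (nat_lit 387) (nat_lit 5) (nat_lit 386) (nat_lit 5) (nat_lit 409) (nat_lit 5) (nat_lit 459) (nat_lit 445) (nat_lit 236))))))) (XT.nd (nat_lit 1092) (nat_lit 5624) (nat_lit 0) (XT.nd (nat_lit 546) (nat_lit 1140) (nat_lit 0) (XT.nd (nat_lit 234) (nat_lit 1520) (nat_lit 0) (XT.nd (nat_lit 78) (nat_lit 0) (nat_lit 76) (XT.lf (nat_lit 76) (nat_lit 9484784342) (nat_lit 0) (nat_lit 1768164150) (nat_lit 1748) (nat_lit 6166799935) (nat_lit 387) (nat_lit 5) (nat_lit 386) (nat_lit 5) (nat_lit 409) (nat_lit 5) (nat_lit 460) (nat_lit 445) (nat_lit 235)) (XT.nd (nat_lit 78) (nat_lit 0) (nat_lit 0) (XT.lf (nat_lit 76)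 (nat_lit 331732745) (nat_lit 0) (nat_lit 11978124556) (nat_lit 1748) (nat_lit 5291041495) (nat_lit 388) (nat_lit 5) (nat_lit 387) (nat_lit 5) (nat_lit 410) (nat_lit 5) (nat_lit 461) (nat_lit 445) (nat_lit 234)) (XT.lf (nat_lit 76) (nat_lit 8855348240) (nat_lit 0) (nat_lit 4591805128) (nat_lit 1748) (nat_lit 4337338181) (nat_lit 388) (nat_lit 5) (nat_lit 387) (nat_lit 5) (nat_lit 410) (nat_lit 5) (nat_lit 462) (nat_lit 445) (nat_lit 233)))) (XT.nd (nat_lit 156) (nat_lit 1672) (nat_lit 0) (XT.nd (nat_lit 78) (nat_lit 0) (nat_lit 0) (XT.lf (nat_lit 0) (nat_lit 14620787075) (nat_lit 1672) (nat_lit 445577357) (nat_lit 1748) (nat_lit 2905124167) (nat_lit 388) (nat_lit 5) (nat_lit 410) (nat_lit 5) (nat_lit 411) (nat_lit 5) (nat_lit 463) (nat_lit 445) (nat_lit 232)) (XT.lf (nat_lit 76) (nat_lit 8281795031) (nat_lit 0) (nat_lit 7614875441) (nat_lit 1748) (nat_lit 2263983772) (nat_lit 389) (nat_lit 5) (nat_lit 388) (nat_lit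 5) (nat_lit 411) (nat_lit 5) (nat_lit 464) (nat_lit 445) (nat_lit 231))) (XT.nd (nat_lit 78) (nat_lit 1672) (nat_lit 0) (XT.lf (nat_lit 76) (nat_lit 17185708771) (nat_lit 0) (nat_lit 10029302) (nat_lit 1748) (nat_lit 1157915904) (nat_lit 389) (nat_lit 5) (nat_lit 388) (nat_lit 5) (nat_lit 411) (nat_lit 5) (nat_lit 465) (nat_lit 445) (nat_lit 230)) (XT.lf (nat_lit 0) (nat_lit 66791958) (nat_lit 1748) (nat_lit 10784406745) (nat_lit 1824) (nat_lit 7697400240) (nat_lit 366) (nat_lit 5) (nat_lit 389) (nat_lit 5) (nat_lit 390) (nat_lit 5) (nat_lit 466) (nat_lit 445) (nat_lit 229))))) (XT.nd (nat_lit 234) (nat_lit 1140) (nat_lit 0) (XT.nd (nat_lit 78) (nat_lit 0) (nat_lit 76) (XT.lf (nat_lit 0) (nat_lit 1303286755) (nat_lit 1748) (nat_lit 1868397521) (nat_lit 1824) (nat_lit 15575553381) (nat_lit 366) (nat_lit 5) (nat_lit 389) (nat_lit 5) (nat_lit 390) (nat_lit 5) (nat_lit 467) (nat_lit 445) (nat_lit 228)) (XT.nd (nat_lit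 78) (nat_lit 0) (nat_lit 0) (XT.lf (nat_lit 0) (nat_lit 2637538534) (nat_lit 1748) (nat_lit 11661731557) (nat_lit 1824) (nat_lit 4649122310) (nat_lit 367) (nat_lit 5) (nat_lit 390) (nat_lit 5) (nat_lit 391) (nat_lit 5) (nat_lit 468) (nat_lit 445) (nat_lit 227)) (XT.lf (nat_lit 0) (nat_lit 4027108881) (nat_lit 1748) (nat_lit 2528391468) (nat_lit 1824) (nat_lit 12597500942) (nat_lit 367) (nat_lit 5) (nat_lit 390) (nat_lit 5) (nat_lit 391) (nat_lit 5) (nat_lit 469) (nat_lit 445) (nat_lit 226)))) (XT.nd (nat_lit 156) (nat_lit 1292) (nat_lit 0) (XT.nd (nat_lit 78) (nat_lit 0) (nat_lit 0) (XT.lf (nat_lit 0) (nat_lit 5493226890) (nat_lit 1748) (nat_lit 12496217916) (nat_lit 76) (nat_lit 1371286077) (nat_lit 368) (nat_lit 5) (nat_lit 391) (nat_lit 5) (nat_lit 369) (nat_lit 5) (nat_lit 470) (nat_lit 445) (nat_lit 225)) (XT.lf (nat_lit 0) (nat_lit 7044341323) (nat_lit 1748) (nat_lit 3140382524) (nat_lit 76) (nat_lit 9386781317)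 (nat_lit 368) (nat_lit 5) (nat_lit 391) (nat_lit 5) (nat_lit 369) (nat_lit 5) (nat_lit 471) (nat_lit 445) (nat_lit 224))) (XT.nd (nat_lit 78) (nat_lit 0) (nat_lit 0) (XT.lf (nat_lit 0) (nat_lit 6483554496) (nat_lit 1292) (nat_lit 2180294530) (nat_lit 1368) (nat_lit 11121901992) (nat_lit 351) (nat_lit 5) (nat_lit 368) (nat_lit 5) (nat_lit 369) (nat_lit 5) (nat_lit 472) (nat_lit 445) (nat_lit 223)) (XT.lf (nat_lit 0) (nat_lit 10371159718) (nat_lit 1368) (nat_lit 3704436619) (nat_lit 76) (nat_lit 5927580634) (nat_lit 351) (nat_lit 5) (nat_lit 369) (nat_lit 5) (nat_lit 352) (nat_lit 5) (nat_lit 473) (nat_lit 445) (nat_lit 222)))))) (XT.nd (nat_lit 546) (nat_lit 2204) (nat_lit 0) (XT.nd (nat_lit 234) (nat_lit 1748) (nat_lit 0) (XT.nd (nat_lit 78) (nat_lit 836) (nat_lit 0) (XT.lf (nat_lit 0) (nat_lit 6147422661) (nat_lit 836) (nat_lit 6014983503) (nat_lit 912) (nat_lit 8061552860) (nat_lit 340) (nat_lit 5) (nat_lit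 351) (nat_lit 5) (nat_lit 352) (nat_lit 5) (nat_lit 474) (nat_lit 445) (nat_lit 221)) (XT.nd (nat_lit 78) (nat_lit 836) (nat_lit 0) (XT.lf (nat_lit 0) (nat_lit 14024333069) (nat_lit 912) (nat_lit 4220729894) (nat_lit 76) (nat_lit 2203399950) (nat_lit 340) (nat_lit 5) (nat_lit 352) (nat_lit 5) (nat_lit 341) (nat_lit 5) (nat_lit 475) (nat_lit 445) (nat_lit 220)) (XT.lf (nat_lit 0) (nat_lit 5865251632) (nat_lit 836) (nat_lit 10131754371) (nat_lit 912) (nat_lit 4678983967) (nat_lit 329) (nat_lit 5) (nat_lit 340) (nat_lit 5) (nat_lit 341) (nat_lit 5) (nat_lit 476) (nat_lit 445) (nat_lit 219)))) (XT.nd (nat_lit 156) (nat_lit 912) (nat_lit 0) (XT.nd (nat_lit 78) (nat_lit 836) (nat_lit 0) (XT.lf (nat_lit 0) (nat_lit 16206161839) (nat_lit 836) (nat_lit 1826946372) (nat_lit 912) (nat_lit 2874483019) (nat_lit 329) (nat_lit 5) (nat_lit 340) (nat_lit 5) (nat_lit 341) (nat_lit 5) (nat_lit 477) (nat_lit 445) (nat_lit 218))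 (XT.lf (nat_lit 0) (nat_lit 5636840843) (nat_lit 836) (nat_lit 14548566635) (nat_lit 912) (nat_lit 956910650) (nat_lit 318) (nat_lit 5) (nat_lit 329) (nat_lit 5) (nat_lit 330) (nat_lit 5) (nat_lit 478) (nat_lit 445) (nat_lit 217))) (XT.nd (nat_lit 78) (nat_lit 836) (nat_lit 0) (XT.lf (nat_lit 0) (nat_lit 1025534619) (nat_lit 912) (nat_lit 5158346082) (nat_lit 76) (nat_lit 15196939658) (nat_lit 317) (nat_lit 5) (nat_lit 329) (nat_lit 5) (nat_lit 318) (nat_lit 5) (nat_lit 479) (nat_lit 445) (nat_lit 216)) (XT.lf (nat_lit 0) (nat_lit 3081631050) (nat_lit 912) (nat_lit 16181875953) (nat_lit 76) (nat_lit 2359525758) (nat_lit 306) (nat_lit 5) (nat_lit 318) (nat_lit 5) (nat_lit 307) (nat_lit 5) (nat_lit 480) (nat_lit 445) (nat_lit 215))))) (XT.nd (nat_lit 234) (nat_lit 1444) (nat_lit 0) (XT.nd (nat_lit 78) (nat_lit 760) (nat_lit 0) (XT.lf (nat_lit 0) (nat_lit 5250553189) (nat_lit 912) (nat_lit 5592035867) (nat_lit 76)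 (nat_lit 11026069156) (nat_lit 306) (nat_lit 5) (nat_lit 318) (nat_lit 5) (nat_lit 307) (nat_lit 5) (nat_lit 481) (nat_lit 445) (nat_lit 214)) (XT.nd (nat_lit 78) (nat_lit 0) (nat_lit 0) (XT.lf (nat_lit 0) (nat_lit 5274831219) (nat_lit 760) (nat_lit 2218256990) (nat_lit 836) (nat_lit 14625506096) (nat_lit 296) (nat_lit 5) (nat_lit 306) (nat_lit 5) (nat_lit 307) (nat_lit 5) (nat_lit 482) (nat_lit 445) (nat_lit 213)) (XT.lf (nat_lit 0) (nat_lit 9857000515) (nat_lit 836) (nat_lit 5984908717) (nat_lit 76) (nat_lit 6530092121) (nat_lit 296) (nat_lit 5) (nat_lit 307) (nat_lit 5) (nat_lit 297) (nat_lit 5) (nat_lit 483) (nat_lit 445) (nat_lit 212)))) (XT.nd (nat_lit 156) (nat_lit 684) (nat_lit 0) (XT.nd (nat_lit 78) (nat_lit 0) (nat_lit 0) (XT.lf (nat_lit 0) (nat_lit 5139915393) (nat_lit 760) (nat_lit 7172455682) (nat_lit 836) (nat_lit 10317224579) (nat_lit 286) (nat_lit 5) (nat_lit 296) (nat_lit 5) (nat_lit 297) (nat_lit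 5) (nat_lit 484) (nat_lit 445) (nat_lit 211)) (XT.lf (nat_lit 0) (nat_lit 14864290321) (nat_lit 836) (nat_lit 6338267640) (nat_lit 76) (nat_lit 1688837713) (nat_lit 286) (nat_lit 5) (nat_lit 297) (nat_lit 5) (nat_lit 287) (nat_lit 5) (nat_lit 485) (nat_lit 445) (nat_lit 210))) (XT.nd (nat_lit 78) (nat_lit 0) (nat_lit 0) (XT.lf (nat_lit 0) (nat_lit 5051015757) (nat_lit 684) (nat_lit 12492769733) (nat_lit 760) (nat_lit 5613118059) (nat_lit 277) (nat_lit 5) (nat_lit 286) (nat_lit 5) (nat_lit 287) (nat_lit 5) (nat_lit 486) (nat_lit 445) (nat_lit 209)) (XT.lf (nat_lit 0) (nat_lit 16750124637) (nat_lit 684) (nat_lit 3565570814) (nat_lit 760) (nat_lit 3111252189) (nat_lit 277) (nat_lit 5) (nat_lit 286) (nat_lit 5) (nat_lit 287) (nat_lit 5) (nat_lit 487) (nat_lit 445) (nat_lit 208))))))))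
noncomputable def xc230 : XT := (XT.nd (nat_lit 56316) (nat_lit 0) (nat_lit 12768) (XT.nd (nat_lit 1092) (nat_lit 3268) (nat_lit 0) (XT.nd (nat_lit 546) (nat_lit 1900) (nat_lit 0) (XT.nd (nat_lit 234) (nat_lit 1292) (nat_lit 0) (XT.nd (nat_lit 78) (nat_lit 760) (nat_lit 0) (XT.lf (nat_lit 0) (nat_lit 5006640407) (nat_lit 760) (nat_lit 18201243518) (nat_lit 836) (nat_lit 493214385) (nat_lit 267) (nat_lit 5) (nat_lit 277) (nat_lit 5) (nat_lit 278) (nat_lit 5) (nat_lit 488) (nat_lit 445) (nat_lit 207)) (XT.nd (nat_lit 78) (nat_lit 684) (nat_lit 0) (XT.lf (nat_lit 0) (nat_lit 2213728304) (nat_lit 836) (nat_lit 7007502379) (nat_lit 76) (nat_lit 14757919038) (nat_lit 266) (nat_lit 5) (nat_lit 277) (nat_lit 5) (nat_lit 267) (nat_lit 5) (nat_lit 489) (nat_lit 445) (nat_lit 206)) (XT.lf (nat_lit 0) (nat_lit 4971301758) (nat_lit 684) (nat_lit 25641544) (nat_lit 760) (nat_lit 19265181265) (nat_lit 257) (nat_lit 5) (nat_lit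 266) (nat_lit 5) (nat_lit 267) (nat_lit 5) (nat_lit 490) (nat_lit 445) (nat_lit 205)))) (XT.nd (nat_lit 156) (nat_lit 608) (nat_lit 0) (XT.nd (nat_lit 78) (nat_lit 684) (nat_lit 0) (XT.lf (nat_lit 0) (nat_lit 7940386866) (nat_lit 760) (nat_lit 7330059719) (nat_lit 76) (nat_lit 9278223354) (nat_lit 257) (nat_lit 5) (nat_lit 267) (nat_lit 5) (nat_lit 258) (nat_lit 5) (nat_lit 491) (nat_lit 445) (nat_lit 204)) (XT.lf (nat_lit 0) (nat_lit 4930621743) (nat_lit 684) (nat_lit 6040826273) (nat_lit 760) (nat_lit 13868925496) (nat_lit 248) (nat_lit 5) (nat_lit 257) (nat_lit 5) (nat_lit 258) (nat_lit 5) (nat_lit 492) (nat_lit 445) (nat_lit 203))) (XT.nd (nat_lit 78) (nat_lit 608) (nat_lit 0) (XT.lf (nat_lit 0) (nat_lit 14131153420) (nat_lit 760) (nat_lit 7627113392) (nat_lit 76) (nat_lit 3378286109) (nat_lit 248) (nat_lit 5) (nat_lit 258) (nat_lit 5) (nat_lit 249) (nat_lit 5) (nat_lit 493) (nat_lit 445) (nat_lit 202)) (XT.lf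 (nat_lit 0) (nat_lit 4921964224) (nat_lit 608) (nat_lit 12500723833) (nat_lit 684) (nat_lit 8014597339) (nat_lit 240) (nat_lit 5) (nat_lit 248) (nat_lit 5) (nat_lit 249) (nat_lit 5) (nat_lit 494) (nat_lit 445) (nat_lit 201))))) (XT.nd (nat_lit 234) (nat_lit 1216) (nat_lit 0) (XT.nd (nat_lit 78) (nat_lit 684) (nat_lit 0) (XT.lf (nat_lit 0) (nat_lit 17821675158) (nat_lit 608) (nat_lit 3006274151) (nat_lit 684) (nat_lit 4915127430) (nat_lit 240) (nat_lit 5) (nat_lit 248) (nat_lit 5) (nat_lit 249) (nat_lit 5) (nat_lit 495) (nat_lit 445) (nat_lit 200)) (XT.nd (nat_lit 78) (nat_lit 76) (nat_lit 0) (XT.lf (nat_lit 0) (nat_lit 4942128704) (nat_lit 608) (nat_lit 19431408632) (nat_lit 684) (nat_lit 1680004239) (nat_lit 232) (nat_lit 5) (nat_lit 240) (nat_lit 5) (nat_lit 241) (nat_lit 5) (nat_lit 496) (nat_lit 445) (nat_lit 199)) (XT.lf (nat_lit 0) (nat_lit 1668786686) (nat_lit 684) (nat_lit 8233370697) (nat_lit 76) (nat_lit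 16466445811) (nat_lit 231) (nat_lit 5) (nat_lit 240) (nat_lit 5) (nat_lit 232) (nat_lit 5) (nat_lit 497) (nat_lit 445) (nat_lit 198)))) (XT.nd (nat_lit 156) (nat_lit 608) (nat_lit 0) (XT.nd (nat_lit 78) (nat_lit 0) (nat_lit 0) (XT.lf (nat_lit 0) (nat_lit 4952385026) (nat_lit 608) (nat_lit 138702868) (nat_lit 684) (nat_lit 21598077434) (nat_lit 223) (nat_lit 5) (nat_lit 231) (nat_lit 5) (nat_lit 232) (nat_lit 5) (nat_lit 498) (nat_lit 445) (nat_lit 197)) (XT.lf (nat_lit 0) (nat_lit 8698098358) (nat_lit 684) (nat_lit 8569405581) (nat_lit 76) (nat_lit 9746311437) (nat_lit 223) (nat_lit 5) (nat_lit 232) (nat_lit 5) (nat_lit 224) (nat_lit 5) (nat_lit 499) (nat_lit 445) (nat_lit 196))) (XT.nd (nat_lit 78) (nat_lit 0) (nat_lit 0) (XT.lf (nat_lit 0) (nat_lit 4921305339) (nat_lit 608) (nat_lit 7485764630) (nat_lit 684) (nat_lit 14937293937) (nat_lit 215) (nat_lit 5) (nat_lit 223) (nat_lit 5) (nat_lit 224) (nat_lit 5)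 (nat_lit 500) (nat_lit 445) (nat_lit 195)) (XT.lf (nat_lit 0) (nat_lit 16261266702) (nat_lit 684) (nat_lit 8902611145) (nat_lit 76) (nat_lit 2516226506) (nat_lit 215) (nat_lit 5) (nat_lit 224) (nat_lit 5) (nat_lit 216) (nat_lit 5) (nat_lit 501) (nat_lit 445) (nat_lit 194)))))) (XT.nd (nat_lit 546) (nat_lit 1064) (nat_lit 0) (XT.nd (nat_lit 234) (nat_lit 1140) (nat_lit 0) (XT.nd (nat_lit 78) (nat_lit 532) (nat_lit 0) (XT.lf (nat_lit 0) (nat_lit 4899327303) (nat_lit 532) (nat_lit 15371645972) (nat_lit 608) (nat_lit 7750019641) (nat_lit 208) (nat_lit 5) (nat_lit 215) (nat_lit 5) (nat_lit 216) (nat_lit 5) (nat_lit 502) (nat_lit 445) (nat_lit 193)) (XT.nd (nat_lit 78) (nat_lit 532) (nat_lit 0) (XT.lf (nat_lit 0) (nat_lit 19094406554) (nat_lit 532) (nat_lit 5323285052) (nat_lit 608) (nat_lit 3949873082) (nat_lit 208) (nat_lit 5) (nat_lit 215) (nat_lit 5) (nat_lit 216) (nat_lit 5) (nat_lit 503) (nat_lit 445) (nat_lit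 192)) (XT.lf (nat_lit 0) (nat_lit 4880788745) (nat_lit 532) (nat_lit 23827357611) (nat_lit 608) (nat_lit 11707250) (nat_lit 201) (nat_lit 5) (nat_lit 208) (nat_lit 5) (nat_lit 209) (nat_lit 5) (nat_lit 504) (nat_lit 445) (nat_lit 191)))) (XT.nd (nat_lit 156) (nat_lit 532) (nat_lit 0) (XT.nd (nat_lit 78) (nat_lit 532) (nat_lit 0) (XT.lf (nat_lit 0) (nat_lit 4047728542) (nat_lit 608) (nat_lit 9699675565) (nat_lit 76) (nat_lit 15329365074) (nat_lit 200) (nat_lit 5) (nat_lit 208) (nat_lit 5) (nat_lit 201) (nat_lit 5) (nat_lit 505) (nat_lit 445) (nat_lit 190)) (XT.lf (nat_lit 0) (nat_lit 4781629770) (nat_lit 532) (nat_lit 3434810641) (nat_lit 608) (nat_lit 21223817880) (nat_lit 193) (nat_lit 5) (nat_lit 200) (nat_lit 5) (nat_lit 201) (nat_lit 5) (nat_lit 506) (nat_lit 445) (nat_lit 189))) (XT.nd (nat_lit 78) (nat_lit 532) (nat_lit 0) (XT.lf (nat_lit 0) (nat_lit 12577267902) (nat_lit 608) (nat_lit 10175633281) (nat_lit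 76) (nat_lit 7055942791) (nat_lit 193) (nat_lit 5) (nat_lit 201) (nat_lit 5) (nat_lit 194) (nat_lit 5) (nat_lit 507) (nat_lit 445) (nat_lit 188)) (XT.lf (nat_lit 0) (nat_lit 4631552283) (nat_lit 532) (nat_lit 12443858393) (nat_lit 608) (nat_lit 13108390310) (nat_lit 186) (nat_lit 5) (nat_lit 193) (nat_lit 5) (nat_lit 194) (nat_lit 5) (nat_lit 508) (nat_lit 445) (nat_lit 187))))) (XT.nd (nat_lit 234) (nat_lit 532) (nat_lit 0) (XT.nd (nat_lit 78) (nat_lit 532) (nat_lit 0) (XT.lf (nat_lit 0) (nat_lit 19869371619) (nat_lit 532) (nat_lit 1859740041) (nat_lit 608) (nat_lit 8835835127) (nat_lit 186) (nat_lit 5) (nat_lit 193) (nat_lit 5) (nat_lit 194) (nat_lit 5) (nat_lit 509) (nat_lit 445) (nat_lit 186)) (XT.nd (nat_lit 78) (nat_lit 76) (nat_lit 0) (XT.lf (nat_lit 0) (nat_lit 4455218748) (nat_lit 456) (nat_lit 22104972397) (nat_lit 532) (nat_lit 4391839798) (nat_lit 180) (nat_lit 5) (nat_lit 186) (nat_lit 5) (nat_lit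 187) (nat_lit 5) (nat_lit 510) (nat_lit 445) (nat_lit 185)) (XT.lf (nat_lit 0) (nat_lit 221120473) (nat_lit 532) (nat_lit 11308557743) (nat_lit 76) (nat_lit 19815523024) (nat_lit 179) (nat_lit 5) (nat_lit 186) (nat_lit 5) (nat_lit 180) (nat_lit 5) (nat_lit 511) (nat_lit 445) (nat_lit 184)))) (XT.nd (nat_lit 54288) (nat_lit 0) (nat_lit 15808) (XT.nd (nat_lit 54210) (nat_lit 0) (nat_lit 15808) (XT.lf (nat_lit 0) (nat_lit 4206169743) (nat_lit 532) (nat_lit 686149576) (nat_lit 608) (nat_lit 26852840740) (nat_lit 172) (nat_lit 5) (nat_lit 179) (nat_lit 5) (nat_lit 180) (nat_lit 5) (nat_lit 512) (nat_lit 445) (nat_lit 183)) (XT.lf (nat_lit 0) (nat_lit 1144450791) (nat_lit 1748) (nat_lit 3252968325) (nat_lit 1748) (nat_lit 3252968325) (nat_lit 380) (nat_lit 3) (nat_lit 403) (nat_lit 3) (nat_lit 403) (nat_lit 5) (nat_lit 446) (nat_lit 446) (nat_lit 248))) (XT.nd (nat_lit 78) (nat_lit 0) (nat_lit 76) (XT.lf (nat_lit 76)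 (nat_lit 456250453) (nat_lit 0) (nat_lit 2132205848) (nat_lit 1748) (nat_lit 12859577931) (nat_lit 381) (nat_lit 5) (nat_lit 380) (nat_lit 3) (nat_lit 403) (nat_lit 5) (nat_lit 447) (nat_lit 446) (nat_lit 247)) (XT.lf (nat_lit 0) (nat_lit 2961048416) (nat_lit 1672) (nat_lit 7985948803) (nat_lit 1748) (nat_lit 4649906267) (nat_lit 381) (nat_lit 5) (nat_lit 403) (nat_lit 5) (nat_lit 404) (nat_lit 5) (nat_lit 448) (nat_lit 446) (nat_lit 246))))))) (XT.nd (nat_lit 1092) (nat_lit 3116) (nat_lit 0) (XT.nd (nat_lit 546) (nat_lit 0) (nat_lit 228) (XT.nd (nat_lit 234) (nat_lit 0) (nat_lit 152) (XT.nd (nat_lit 78) (nat_lit 0) (nat_lit 76) (XT.lf (nat_lit 0) (nat_lit 3348172957) (nat_lit 1672) (nat_lit 857926864) (nat_lit 1748) (nat_lit 11542514221) (nat_lit 381) (nat_lit 5) (nat_lit 403) (nat_lit 5) (nat_lit 404) (nat_lit 5) (nat_lit 449) (nat_lit 446) (nat_lit 245)) (XT.nd (nat_lit 78) (nat_lit 0) (nat_lit 0) (XT.lf (nat_lit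 0) (nat_lit 3795934710) (nat_lit 1672) (nat_lit 9426199488) (nat_lit 1748) (nat_lit 2680172143) (nat_lit 382) (nat_lit 5) (nat_lit 404) (nat_lit 5) (nat_lit 405) (nat_lit 5) (nat_lit 450) (nat_lit 446) (nat_lit 244)) (XT.lf (nat_lit 0) (nat_lit 4279531233) (nat_lit 1672) (nat_lit 2122270808) (nat_lit 1748) (nat_lit 9656738168) (nat_lit 382) (nat_lit 5) (nat_lit 404) (nat_lit 5) (nat_lit 405) (nat_lit 5) (nat_lit 451) (nat_lit 446) (nat_lit 243)))) (XT.nd (nat_lit 156) (nat_lit 0) (nat_lit 0) (XT.nd (nat_lit 78) (nat_lit 0) (nat_lit 0) (XT.lf (nat_lit 0) (nat_lit 4805041112) (nat_lit 1672) (nat_lit 10826495962) (nat_lit 1748) (nat_lit 585722065) (nat_lit 383) (nat_lit 5) (nat_lit 405) (nat_lit 5) (nat_lit 406) (nat_lit 5) (nat_lit 452) (nat_lit 446) (nat_lit 242)) (XT.lf (nat_lit 0) (nat_lit 5391278769) (nat_lit 1672) (nat_lit 3342456051) (nat_lit 1748) (nat_lit 7644418386) (nat_lit 383) (nat_lit 5) (nat_lit 405)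 (nat_lit 5) (nat_lit 406) (nat_lit 5) (nat_lit 453) (nat_lit 446) (nat_lit 241))) (XT.nd (nat_lit 78) (nat_lit 0) (nat_lit 76) (XT.lf (nat_lit 76) (nat_lit 4344395260) (nat_lit 0) (nat_lit 1666666017) (nat_lit 1748) (nat_lit 10530772484) (nat_lit 384) (nat_lit 5) (nat_lit 383) (nat_lit 5) (nat_lit 406) (nat_lit 5) (nat_lit 454) (nat_lit 446) (nat_lit 240)) (XT.lf (nat_lit 0) (nat_lit 6695528116) (nat_lit 1672) (nat_lit 4518145338) (nat_lit 1748) (nat_lit 5494073612) (nat_lit 384) (nat_lit 5) (nat_lit 406) (nat_lit 5) (nat_lit 407) (nat_lit 5) (nat_lit 455) (nat_lit 446) (nat_lit 239))))) (XT.nd (nat_lit 234) (nat_lit 0) (nat_lit 152) (XT.nd (nat_lit 78) (nat_lit 0) (nat_lit 76) (XT.lf (nat_lit 76) (nat_lit 3343658404) (nat_lit 0) (nat_lit 4076625422) (nat_lit 1748) (nat_lit 9456167635) (nat_lit 385) (nat_lit 5) (nat_lit 384) (nat_lit 5) (nat_lit 407) (nat_lit 5) (nat_lit 456) (nat_lit 446) (nat_lit 238)) (XT.nd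 (nat_lit 78) (nat_lit 0) (nat_lit 0) (XT.lf (nat_lit 0) (nat_lit 8204814042) (nat_lit 1672) (nat_lit 5648983346) (nat_lit 1748) (nat_lit 3193831690) (nat_lit 385) (nat_lit 5) (nat_lit 407) (nat_lit 5) (nat_lit 408) (nat_lit 5) (nat_lit 457) (nat_lit 446) (nat_lit 237)) (XT.lf (nat_lit 76) (nat_lit 2392962901) (nat_lit 0) (nat_lit 6648686970) (nat_lit 1748) (nat_lit 8179852703) (nat_lit 386) (nat_lit 5) (nat_lit 385) (nat_lit 5) (nat_lit 408) (nat_lit 5) (nat_lit 458) (nat_lit 446) (nat_lit 236)))) (XT.nd (nat_lit 156) (nat_lit 0) (nat_lit 0) (XT.nd (nat_lit 78) (nat_lit 0) (nat_lit 0) (XT.lf (nat_lit 0) (nat_lit 9932113436) (nat_lit 1672) (nat_lit 6734607251) (nat_lit 1748) (nat_lit 731399570) (nat_lit 386) (nat_lit 5) (nat_lit 408) (nat_lit 5) (nat_lit 409) (nat_lit 5) (nat_lit 459) (nat_lit 446) (nat_lit 235)) (XT.lf (nat_lit 76) (nat_lit 1492796096) (nat_lit 0) (nat_lit 9395611521) (nat_lit 1748) (nat_lit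 6688906699) (nat_lit 387) (nat_lit 5) (nat_lit 386) (nat_lit 5) (nat_lit 409) (nat_lit 5) (nat_lit 460) (nat_lit 446) (nat_lit 234))) (XT.nd (nat_lit 78) (nat_lit 0) (nat_lit 76) (XT.lf (nat_lit 76) (nat_lit 9972107931) (nat_lit 0) (nat_lit 1931296887) (nat_lit 1748) (nat_lit 5855900256) (nat_lit 387) (nat_lit 5) (nat_lit 386) (nat_lit 5) (nat_lit 409) (nat_lit 5) (nat_lit 461) (nat_lit 446) (nat_lit 233)) (XT.lf (nat_lit 76) (nat_lit 643641505) (nat_lit 0) (nat_lit 12330637916) (nat_lit 1748) (nat_lit 4969948953) (nat_lit 388) (nat_lit 5) (nat_lit 387) (nat_lit 5) (nat_lit 410) (nat_lit 5) (nat_lit 462) (nat_lit 446) (nat_lit 232)))))) (XT.nd (nat_lit 546) (nat_lit 1976) (nat_lit 0) (XT.nd (nat_lit 234) (nat_lit 1596) (nat_lit 0) (XT.nd (nat_lit 78) (nat_lit 0) (nat_lit 76) (XT.lf (nat_lit 76) (nat_lit 9331743543) (nat_lit 0) (nat_lit 4794377378) (nat_lit 1748) (nat_lit 4005542423) (nat_lit 388) (nat_lit 5)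 (nat_lit 387) (nat_lit 5) (nat_lit 410) (nat_lit 5) (nat_lit 463) (nat_lit 446) (nat_lit 231)) (XT.nd (nat_lit 78) (nat_lit 0) (nat_lit 0) (XT.lf (nat_lit 0) (nat_lit 15314482731) (nat_lit 1672) (nat_lit 152013074) (nat_lit 1748) (nat_lit 2856085648) (nat_lit 388) (nat_lit 5) (nat_lit 410) (nat_lit 5) (nat_lit 411) (nat_lit 5) (nat_lit 464) (nat_lit 446) (nat_lit 230)) (XT.lf (nat_lit 76) (nat_lit 8747916789) (nat_lit 0) (nat_lit 7862049726) (nat_lit 1748) (nat_lit 1905688344) (nat_lit 389) (nat_lit 5) (nat_lit 388) (nat_lit 5) (nat_lit 411) (nat_lit 5) (nat_lit 465) (nat_lit 446) (nat_lit 229)))) (XT.nd (nat_lit 156) (nat_lit 0) (nat_lit 0) (XT.nd (nat_lit 78) (nat_lit 1672) (nat_lit 0) (XT.lf (nat_lit 76) (nat_lit 17824016925) (nat_lit 0) (nat_lit 103246335) (nat_lit 1748) (nat_lit 785412357) (nat_lit 389) (nat_lit 5) (nat_lit 388) (nat_lit 5) (nat_lit 411) (nat_lit 5) (nat_lit 466) (nat_lit 446) (nat_lit 228))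 (XT.lf (nat_lit 0) (nat_lit 452317050) (nat_lit 1748) (nat_lit 10693447314) (nat_lit 1824) (nat_lit 7765835160) (nat_lit 366) (nat_lit 5) (nat_lit 389) (nat_lit 5) (nat_lit 390) (nat_lit 5) (nat_lit 467) (nat_lit 446) (nat_lit 227))) (XT.nd (nat_lit 78) (nat_lit 0) (nat_lit 76) (XT.lf (nat_lit 0) (nat_lit 1706008621) (nat_lit 1748) (nat_lit 1605130604) (nat_lit 1824) (nat_lit 15803228090) (nat_lit 366) (nat_lit 5) (nat_lit 389) (nat_lit 5) (nat_lit 390) (nat_lit 5) (nat_lit 468) (nat_lit 446) (nat_lit 226)) (XT.lf (nat_lit 0) (nat_lit 3061028040) (nat_lit 1748) (nat_lit 11588137482) (nat_lit 1824) (nat_lit 4670503509) (nat_lit 367) (nat_lit 5) (nat_lit 390) (nat_lit 5) (nat_lit 391) (nat_lit 5) (nat_lit 469) (nat_lit 446) (nat_lit 225))))) (XT.nd (nat_lit 234) (nat_lit 2052) (nat_lit 0) (XT.nd (nat_lit 78) (nat_lit 0) (nat_lit 76) (XT.lf (nat_lit 0) (nat_lit 4471120407) (nat_lit 1748) (nat_lit 2278146840) (nat_lit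 1824) (nat_lit 12779253660) (nat_lit 367) (nat_lit 5) (nat_lit 390) (nat_lit 5) (nat_lit 391) (nat_lit 5) (nat_lit 470) (nat_lit 446) (nat_lit 224)) (XT.nd (nat_lit 78) (nat_lit 0) (nat_lit 0) (XT.lf (nat_lit 0) (nat_lit 5960988166) (nat_lit 1748) (nat_lit 12439491499) (nat_lit 76) (nat_lit 1340042192) (nat_lit 368) (nat_lit 5) (nat_lit 391) (nat_lit 5) (nat_lit 369) (nat_lit 5) (nat_lit 471) (nat_lit 446) (nat_lit 223)) (XT.lf (nat_lit 0) (nat_lit 7536107305) (nat_lit 1748) (nat_lit 2902552159) (nat_lit 76) (nat_lit 9516997721) (nat_lit 368) (nat_lit 5) (nat_lit 391) (nat_lit 5) (nat_lit 369) (nat_lit 5) (nat_lit 472) (nat_lit 446) (nat_lit 222)))) (XT.nd (nat_lit 156) (nat_lit 836) (nat_lit 0) (XT.nd (nat_lit 78) (nat_lit 0) (nat_lit 0) (XT.lf (nat_lit 0) (nat_lit 6911885720) (nat_lit 1292) (nat_lit 2271178559) (nat_lit 1368) (nat_lit 10991227604) (nat_lit 351) (nat_lit 5) (nat_lit 368) (nat_lit 5) (nat_lit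 369) (nat_lit 5) (nat_lit 473) (nat_lit 446) (nat_lit 221)) (XT.lf (nat_lit 0) (nat_lit 10917437139) (nat_lit 1368) (nat_lit 3478386871) (nat_lit 76) (nat_lit 6000389034) (nat_lit 351) (nat_lit 5) (nat_lit 369) (nat_lit 5) (nat_lit 352) (nat_lit 5) (nat_lit 474) (nat_lit 446) (nat_lit 220))) (XT.nd (nat_lit 78) (nat_lit 0) (nat_lit 0) (XT.lf (nat_lit 0) (nat_lit 6568535000) (nat_lit 836) (nat_lit 6171265191) (nat_lit 912) (nat_lit 7881709622) (nat_lit 340) (nat_lit 5) (nat_lit 351) (nat_lit 5) (nat_lit 352) (nat_lit 5) (nat_lit 475) (nat_lit 446) (nat_lit 219)) (XT.lf (nat_lit 0) (nat_lit 14632184715) (nat_lit 912) (nat_lit 4005805378) (nat_lit 76) (nat_lit 2212654118) (nat_lit 340) (nat_lit 5) (nat_lit 352) (nat_lit 5) (nat_lit 341) (nat_lit 5) (nat_lit 476) (nat_lit 446) (nat_lit 218))))))))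
noncomputable def xc231 : XT := (XT.nd (nat_lit 2184) (nat_lit 2204) (nat_lit 0) (XT.nd (nat_lit 1092) (nat_lit 4408) (nat_lit 0) (XT.nd (nat_lit 546) (nat_lit 2280) (nat_lit 0) (XT.nd (nat_lit 234) (nat_lit 1672) (nat_lit 0) (XT.nd (nat_lit 78) (nat_lit 836) (nat_lit 0) (XT.lf (nat_lit 0) (nat_lit 6279926443) (nat_lit 836) (nat_lit 10359896466) (nat_lit 912) (nat_lit 4442993384) (nat_lit 329) (nat_lit 5) (nat_lit 340) (nat_lit 5) (nat_lit 341) (nat_lit 5) (nat_lit 477) (nat_lit 446) (nat_lit 217)) (XT.nd (nat_lit 78) (nat_lit 836) (nat_lit 0) (XT.lf (nat_lit 0) (nat_lit 16821824073) (nat_lit 836) (nat_lit 1888492170) (nat_lit 912) (nat_lit 2608864579) (nat_lit 329) (nat_lit 5) (nat_lit 340) (nat_lit 5) (nat_lit 341) (nat_lit 5) (nat_lit 478) (nat_lit 446) (nat_lit 216)) (XT.lf (nat_lit 0) (nat_lit 6045878991) (nat_lit 836) (nat_lit 14855340330) (nat_lit 912) (nat_lit 657476316) (nat_lit 318) (nat_lit 5) (nat_lit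 329) (nat_lit 5) (nat_lit 330) (nat_lit 5) (nat_lit 479) (nat_lit 446) (nat_lit 215)))) (XT.nd (nat_lit 156) (nat_lit 760) (nat_lit 0) (XT.nd (nat_lit 78) (nat_lit 836) (nat_lit 0) (XT.lf (nat_lit 0) (nat_lit 1354275126) (nat_lit 912) (nat_lit 4966707317) (nat_lit 76) (nat_lit 15481071754) (nat_lit 317) (nat_lit 5) (nat_lit 329) (nat_lit 5) (nat_lit 318) (nat_lit 5) (nat_lit 480) (nat_lit 446) (nat_lit 214)) (XT.lf (nat_lit 0) (nat_lit 3447278388) (nat_lit 912) (nat_lit 16206278989) (nat_lit 76) (nat_lit 2395642045) (nat_lit 306) (nat_lit 5) (nat_lit 318) (nat_lit 5) (nat_lit 307) (nat_lit 5) (nat_lit 481) (nat_lit 446) (nat_lit 213))) (XT.nd (nat_lit 78) (nat_lit 760) (nat_lit 0) (XT.lf (nat_lit 0) (nat_lit 5653617897) (nat_lit 912) (nat_lit 5410509444) (nat_lit 76) (nat_lit 11235733453) (nat_lit 306) (nat_lit 5) (nat_lit 318) (nat_lit 5) (nat_lit 307) (nat_lit 5) (nat_lit 482) (nat_lit 446) (nat_lit 212)) (XT.lf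 (nat_lit 0) (nat_lit 5671764936) (nat_lit 760) (nat_lit 2265286695) (nat_lit 836) (nat_lit 14617827125) (nat_lit 296) (nat_lit 5) (nat_lit 306) (nat_lit 5) (nat_lit 307) (nat_lit 5) (nat_lit 483) (nat_lit 446) (nat_lit 211))))) (XT.nd (nat_lit 234) (nat_lit 1520) (nat_lit 0) (XT.nd (nat_lit 78) (nat_lit 760) (nat_lit 0) (XT.lf (nat_lit 0) (nat_lit 10342458523) (nat_lit 836) (nat_lit 5812899217) (nat_lit 76) (nat_lit 6658115906) (nat_lit 296) (nat_lit 5) (nat_lit 307) (nat_lit 5) (nat_lit 297) (nat_lit 5) (nat_lit 484) (nat_lit 446) (nat_lit 210)) (XT.nd (nat_lit 78) (nat_lit 0) (nat_lit 0) (XT.lf (nat_lit 0) (nat_lit 5532502246) (nat_lit 760) (nat_lit 7310662454) (nat_lit 836) (nat_lit 10233134518) (nat_lit 286) (nat_lit 5) (nat_lit 296) (nat_lit 5) (nat_lit 297) (nat_lit 5) (nat_lit 485) (nat_lit 446) (nat_lit 209)) (XT.lf (nat_lit 0) (nat_lit 15440576363) (nat_lit 836) (nat_lit 6175187054) (nat_lit 76) (nat_lit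 1727686611) (nat_lit 286) (nat_lit 5) (nat_lit 297) (nat_lit 5) (nat_lit 287) (nat_lit 5) (nat_lit 486) (nat_lit 446) (nat_lit 208)))) (XT.nd (nat_lit 156) (nat_lit 836) (nat_lit 0) (XT.nd (nat_lit 78) (nat_lit 0) (nat_lit 0) (XT.lf (nat_lit 0) (nat_lit 5439975130) (nat_lit 684) (nat_lit 12730085204) (nat_lit 760) (nat_lit 5444283545) (nat_lit 277) (nat_lit 5) (nat_lit 286) (nat_lit 5) (nat_lit 287) (nat_lit 5) (nat_lit 487) (nat_lit 446) (nat_lit 207)) (XT.lf (nat_lit 0) (nat_lit 17367420324) (nat_lit 684) (nat_lit 3624588187) (nat_lit 760) (nat_lit 2897892060) (nat_lit 277) (nat_lit 5) (nat_lit 286) (nat_lit 5) (nat_lit 287) (nat_lit 5) (nat_lit 488) (nat_lit 446) (nat_lit 206))) (XT.nd (nat_lit 78) (nat_lit 76) (nat_lit 0) (XT.lf (nat_lit 0) (nat_lit 5392679192) (nat_lit 760) (nat_lit 18546002009) (nat_lit 836) (nat_lit 230923893) (nat_lit 267) (nat_lit 5) (nat_lit 277) (nat_lit 5) (nat_lit 278) (nat_lit 5)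 (nat_lit 489) (nat_lit 446) (nat_lit 205)) (XT.lf (nat_lit 0) (nat_lit 2521321910) (nat_lit 836) (nat_lit 6863677770) (nat_lit 76) (nat_lit 15068291347) (nat_lit 266) (nat_lit 5) (nat_lit 277) (nat_lit 5) (nat_lit 267) (nat_lit 5) (nat_lit 490) (nat_lit 446) (nat_lit 204)))))) (XT.nd (nat_lit 546) (nat_lit 1824) (nat_lit 0) (XT.nd (nat_lit 234) (nat_lit 1216) (nat_lit 0) (XT.nd (nat_lit 78) (nat_lit 684) (nat_lit 0) (XT.lf (nat_lit 0) (nat_lit 5352834196) (nat_lit 684) (nat_lit 4035516) (nat_lit 760) (nat_lit 19385125726) (nat_lit 257) (nat_lit 5) (nat_lit 266) (nat_lit 5) (nat_lit 267) (nat_lit 5) (nat_lit 491) (nat_lit 446) (nat_lit 203)) (XT.nd (nat_lit 78) (nat_lit 684) (nat_lit 0) (XT.lf (nat_lit 0) (nat_lit 8354225146) (nat_lit 760) (nat_lit 7194960508) (nat_lit 76) (nat_lit 9485188572) (nat_lit 257) (nat_lit 5) (nat_lit 267) (nat_lit 5) (nat_lit 258) (nat_lit 5) (nat_lit 492) (nat_lit 446) (nat_lit 202))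 (XT.lf (nat_lit 0) (nat_lit 5309081291) (nat_lit 684) (nat_lit 6133642583) (nat_lit 760) (nat_lit 13889254975) (nat_lit 248) (nat_lit 5) (nat_lit 257) (nat_lit 5) (nat_lit 258) (nat_lit 5) (nat_lit 493) (nat_lit 446) (nat_lit 201)))) (XT.nd (nat_lit 156) (nat_lit 608) (nat_lit 0) (XT.nd (nat_lit 78) (nat_lit 608) (nat_lit 0) (XT.lf (nat_lit 0) (nat_lit 14660863442) (nat_lit 760) (nat_lit 7500373844) (nat_lit 76) (nat_lit 3472942996) (nat_lit 248) (nat_lit 5) (nat_lit 258) (nat_lit 5) (nat_lit 249) (nat_lit 5) (nat_lit 494) (nat_lit 446) (nat_lit 200)) (XT.lf (nat_lit 0) (nat_lit 5297847944) (nat_lit 608) (nat_lit 12717337339) (nat_lit 684) (nat_lit 7925806169) (nat_lit 240) (nat_lit 5) (nat_lit 248) (nat_lit 5) (nat_lit 249) (nat_lit 5) (nat_lit 495) (nat_lit 446) (nat_lit 199))) (XT.nd (nat_lit 78) (nat_lit 608) (nat_lit 0) (XT.lf (nat_lit 0) (nat_lit 18450113010) (nat_lit 608) (nat_lit 3033653585) (nat_lit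 684) (nat_lit 4769230845) (nat_lit 240) (nat_lit 5) (nat_lit 248) (nat_lit 5) (nat_lit 249) (nat_lit 5) (nat_lit 496) (nat_lit 446) (nat_lit 198)) (XT.lf (nat_lit 0) (nat_lit 5315883243) (nat_lit 608) (nat_lit 19781685151) (nat_lit 684) (nat_lit 1472160191) (nat_lit 232) (nat_lit 5) (nat_lit 240) (nat_lit 5) (nat_lit 241) (nat_lit 5) (nat_lit 497) (nat_lit 446) (nat_lit 197))))) (XT.nd (nat_lit 234) (nat_lit 1140) (nat_lit 0) (XT.nd (nat_lit 78) (nat_lit 608) (nat_lit 0) (XT.lf (nat_lit 0) (nat_lit 1935767860) (nat_lit 684) (nat_lit 8125265393) (nat_lit 76) (nat_lit 16830123204) (nat_lit 231) (nat_lit 5) (nat_lit 240) (nat_lit 5) (nat_lit 232) (nat_lit 5) (nat_lit 498) (nat_lit 446) (nat_lit 196)) (XT.nd (nat_lit 78) (nat_lit 0) (nat_lit 0) (XT.lf (nat_lit 0) (nat_lit 5322410886) (nat_lit 608) (nat_lit 101283077) (nat_lit 684) (nat_lit 21794495170) (nat_lit 223) (nat_lit 5) (nat_lit 231) (nat_lit 5) (nat_lit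 232) (nat_lit 5) (nat_lit 499) (nat_lit 446) (nat_lit 195)) (XT.lf (nat_lit 0) (nat_lit 9098575303) (nat_lit 684) (nat_lit 8470718502) (nat_lit 76) (nat_lit 9980126585) (nat_lit 223) (nat_lit 5) (nat_lit 232) (nat_lit 5) (nat_lit 224) (nat_lit 5) (nat_lit 500) (nat_lit 446) (nat_lit 194)))) (XT.nd (nat_lit 156) (nat_lit 532) (nat_lit 0) (XT.nd (nat_lit 78) (nat_lit 0) (nat_lit 0) (XT.lf (nat_lit 0) (nat_lit 5288029826) (nat_lit 608) (nat_lit 7590997021) (nat_lit 684) (nat_lit 15007609798) (nat_lit 215) (nat_lit 5) (nat_lit 223) (nat_lit 5) (nat_lit 224) (nat_lit 5) (nat_lit 501) (nat_lit 446) (nat_lit 193)) (XT.lf (nat_lit 0) (nat_lit 16806202125) (nat_lit 684) (nat_lit 8813384832) (nat_lit 76) (nat_lit 2609589762) (nat_lit 215) (nat_lit 5) (nat_lit 224) (nat_lit 5) (nat_lit 216) (nat_lit 5) (nat_lit 502) (nat_lit 446) (nat_lit 192))) (XT.nd (nat_lit 78) (nat_lit 0) (nat_lit 0) (XT.lf (nat_lit 0) (nat_lit 5262833973)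 (nat_lit 532) (nat_lit 15630684749) (nat_lit 608) (nat_lit 7683418672) (nat_lit 208) (nat_lit 5) (nat_lit 215) (nat_lit 5) (nat_lit 216) (nat_lit 5) (nat_lit 503) (nat_lit 446) (nat_lit 191)) (XT.lf (nat_lit 0) (nat_lit 19736608532) (nat_lit 532) (nat_lit 5382305514) (nat_lit 608) (nat_lit 3811614306) (nat_lit 208) (nat_lit 5) (nat_lit 215) (nat_lit 5) (nat_lit 216) (nat_lit 5) (nat_lit 504) (nat_lit 446) (nat_lit 190))))))) (XT.nd (nat_lit 55302) (nat_lit 0) (nat_lit 15504) (XT.nd (nat_lit 546) (nat_lit 76) (nat_lit 0) (XT.nd (nat_lit 234) (nat_lit 988) (nat_lit 0) (XT.nd (nat_lit 78) (nat_lit 532) (nat_lit 0) (XT.lf (nat_lit 0) (nat_lit 200438667) (nat_lit 608) (nat_lit 24050169091) (nat_lit 76) (nat_lit 5039274803) (nat_lit 200) (nat_lit 5) (nat_lit 208) (nat_lit 5) (nat_lit 201) (nat_lit 5) (nat_lit 505) (nat_lit 446) (nat_lit 189)) (XT.nd (nat_lit 78) (nat_lit 532) (nat_lit 0) (XT.lf (nat_lit 0) (nat_lit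 4336745319) (nat_lit 608) (nat_lit 9633277374) (nat_lit 76) (nat_lit 15683997885) (nat_lit 200) (nat_lit 5) (nat_lit 208) (nat_lit 5) (nat_lit 201) (nat_lit 5) (nat_lit 506) (nat_lit 446) (nat_lit 188)) (XT.lf (nat_lit 0) (nat_lit 5135940964) (nat_lit 532) (nat_lit 3450490323) (nat_lit 608) (nat_lit 21438398591) (nat_lit 193) (nat_lit 5) (nat_lit 200) (nat_lit 5) (nat_lit 201) (nat_lit 5) (nat_lit 507) (nat_lit 446) (nat_lit 187)))) (XT.nd (nat_lit 156) (nat_lit 456) (nat_lit 0) (XT.nd (nat_lit 78) (nat_lit 532) (nat_lit 0) (XT.lf (nat_lit 0) (nat_lit 13030780207) (nat_lit 608) (nat_lit 10121726380) (nat_lit 76) (nat_lit 7248356951) (nat_lit 193) (nat_lit 5) (nat_lit 201) (nat_lit 5) (nat_lit 194) (nat_lit 5) (nat_lit 508) (nat_lit 446) (nat_lit 186)) (XT.lf (nat_lit 0) (nat_lit 4979909346) (nat_lit 532) (nat_lit 12636676698) (nat_lit 608) (nat_lit 13166781956) (nat_lit 186) (nat_lit 5) (nat_lit 193) (nat_lit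 5) (nat_lit 194) (nat_lit 5) (nat_lit 509) (nat_lit 446) (nat_lit 185))) (XT.nd (nat_lit 78) (nat_lit 456) (nat_lit 0) (XT.lf (nat_lit 0) (nat_lit 20517470833) (nat_lit 532) (nat_lit 1841975172) (nat_lit 608) (nat_lit 8812771280) (nat_lit 186) (nat_lit 5) (nat_lit 193) (nat_lit 5) (nat_lit 194) (nat_lit 5) (nat_lit 510) (nat_lit 446) (nat_lit 184)) (XT.lf (nat_lit 0) (nat_lit 4797032934) (nat_lit 456) (nat_lit 22488266467) (nat_lit 532) (nat_lit 4281782901) (nat_lit 180) (nat_lit 5) (nat_lit 186) (nat_lit 5) (nat_lit 187) (nat_lit 5) (nat_lit 511) (nat_lit 446) (nat_lit 183))))) (XT.nd (nat_lit 54444) (nat_lit 0) (nat_lit 15352) (XT.nd (nat_lit 54288) (nat_lit 0) (nat_lit 15276) (XT.lf (nat_lit 0) (nat_lit 417011787) (nat_lit 532) (nat_lit 11284322806) (nat_lit 76) (nat_lit 20266834439) (nat_lit 179) (nat_lit 5) (nat_lit 186) (nat_lit 5) (nat_lit 180) (nat_lit 5) (nat_lit 512) (nat_lit 446) (nat_lit 182)) (XT.nd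 (nat_lit 78) (nat_lit 0) (nat_lit 0) (XT.lf (nat_lit 0) (nat_lit 1439266165) (nat_lit 1748) (nat_lit 3179238404) (nat_lit 1748) (nat_lit 3179238404) (nat_lit 380) (nat_lit 3) (nat_lit 403) (nat_lit 3) (nat_lit 403) (nat_lit 5) (nat_lit 447) (nat_lit 447) (nat_lit 246)) (XT.lf (nat_lit 76) (nat_lit 741127861) (nat_lit 0) (nat_lit 2434076872) (nat_lit 1748) (nat_lit 12570671603) (nat_lit 381) (nat_lit 5) (nat_lit 380) (nat_lit 3) (nat_lit 403) (nat_lit 5) (nat_lit 448) (nat_lit 447) (nat_lit 245)))) (XT.nd (nat_lit 156) (nat_lit 0) (nat_lit 76) (XT.nd (nat_lit 78) (nat_lit 0) (nat_lit 0) (XT.lf (nat_lit 0) (nat_lit 3543108828) (nat_lit 1672) (nat_lit 7862771648) (nat_lit 1748) (nat_lit 4492093510) (nat_lit 381) (nat_lit 5) (nat_lit 403) (nat_lit 5) (nat_lit 404) (nat_lit 5) (nat_lit 449) (nat_lit 447) (nat_lit 244)) (XT.lf (nat_lit 0) (nat_lit 3927724107) (nat_lit 1672) (nat_lit 597736254) (nat_lit 1748) (nat_lit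 11527471484) (nat_lit 381) (nat_lit 5) (nat_lit 403) (nat_lit 5) (nat_lit 404) (nat_lit 5) (nat_lit 450) (nat_lit 447) (nat_lit 243))) (XT.nd (nat_lit 78) (nat_lit 0) (nat_lit 0) (XT.lf (nat_lit 0) (nat_lit 4374693713) (nat_lit 1672) (nat_lit 9327232120) (nat_lit 1748) (nat_lit 2507975000) (nat_lit 382) (nat_lit 5) (nat_lit 404) (nat_lit 5) (nat_lit 405) (nat_lit 5) (nat_lit 451) (nat_lit 447) (nat_lit 242)) (XT.lf (nat_lit 0) (nat_lit 4858102552) (nat_lit 1672) (nat_lit 1882861952) (nat_lit 1748) (nat_lit 9628499808) (nat_lit 382) (nat_lit 5) (nat_lit 404) (nat_lit 5) (nat_lit 405) (nat_lit 5) (nat_lit 452) (nat_lit 447) (nat_lit 241)))))) (XT.nd (nat_lit 546) (nat_lit 0) (nat_lit 228) (XT.nd (nat_lit 234) (nat_lit 0) (nat_lit 76) (XT.nd (nat_lit 78) (nat_lit 0) (nat_lit 0) (XT.lf (nat_lit 0) (nat_lit 5384942430) (nat_lit 1672) (nat_lit 10751611914) (nat_lit 1748) (nat_lit 394994471) (nat_lit 383) (nat_lit 5)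 (nat_lit 405) (nat_lit 5) (nat_lit 406) (nat_lit 5) (nat_lit 453) (nat_lit 447) (nat_lit 240)) (XT.nd (nat_lit 78) (nat_lit 0) (nat_lit 0) (XT.lf (nat_lit 0) (nat_lit 5973418556) (nat_lit 1672) (nat_lit 3123605203) (nat_lit 1748) (nat_lit 7598834170) (nat_lit 383) (nat_lit 5) (nat_lit 405) (nat_lit 5) (nat_lit 406) (nat_lit 5) (nat_lit 454) (nat_lit 447) (nat_lit 239)) (XT.lf (nat_lit 76) (nat_lit 4715103528) (nat_lit 0) (nat_lit 1883035658) (nat_lit 1748) (nat_lit 10264829356) (nat_lit 384) (nat_lit 5) (nat_lit 383) (nat_lit 5) (nat_lit 406) (nat_lit 5) (nat_lit 455) (nat_lit 447) (nat_lit 238)))) (XT.nd (nat_lit 156) (nat_lit 0) (nat_lit 76) (XT.nd (nat_lit 78) (nat_lit 0) (nat_lit 0) (XT.lf (nat_lit 0) (nat_lit 7285976218) (nat_lit 1672) (nat_lit 4319576234) (nat_lit 1748) (nat_lit 5426861196) (nat_lit 384) (nat_lit 5) (nat_lit 406) (nat_lit 5) (nat_lit 407) (nat_lit 5) (nat_lit 456) (nat_lit 447) (nat_lit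 237)) (XT.lf (nat_lit 76) (nat_lit 3697562715) (nat_lit 0) (nat_lit 4320576208) (nat_lit 1748) (nat_lit 9186501983) (nat_lit 385) (nat_lit 5) (nat_lit 384) (nat_lit 5) (nat_lit 407) (nat_lit 5) (nat_lit 457) (nat_lit 447) (nat_lit 236))) (XT.nd (nat_lit 78) (nat_lit 0) (nat_lit 0) (XT.lf (nat_lit 0) (nat_lit 8808513159) (nat_lit 1672) (nat_lit 5470369626) (nat_lit 1748) (nat_lit 3100563095) (nat_lit 385) (nat_lit 5) (nat_lit 407) (nat_lit 5) (nat_lit 408) (nat_lit 5) (nat_lit 458) (nat_lit 447) (nat_lit 235)) (XT.lf (nat_lit 76) (nat_lit 2730497168) (nat_lit 0) (nat_lit 6924849635) (nat_lit 1748) (nat_lit 7901591561) (nat_lit 386) (nat_lit 5) (nat_lit 385) (nat_lit 5) (nat_lit 408) (nat_lit 5) (nat_lit 459) (nat_lit 447) (nat_lit 234))))) (XT.nd (nat_lit 312) (nat_lit 0) (nat_lit 76) (XT.nd (nat_lit 156) (nat_lit 0) (nat_lit 0) (XT.nd (nat_lit 78) (nat_lit 0) (nat_lit 0) (XT.lf (nat_lit 0) (nat_lit 10554220663)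 (nat_lit 1672) (nat_lit 6575574938) (nat_lit 1748) (nat_lit 607487388) (nat_lit 386) (nat_lit 5) (nat_lit 408) (nat_lit 5) (nat_lit 409) (nat_lit 5) (nat_lit 460) (nat_lit 447) (nat_lit 233)) (XT.lf (nat_lit 76) (nat_lit 1814444078) (nat_lit 0) (nat_lit 9708787922) (nat_lit 1748) (nat_lit 6396963580) (nat_lit 387) (nat_lit 5) (nat_lit 386) (nat_lit 5) (nat_lit 409) (nat_lit 5) (nat_lit 461) (nat_lit 447) (nat_lit 232))) (XT.nd (nat_lit 78) (nat_lit 0) (nat_lit 76) (XT.lf (nat_lit 76) (nat_lit 10457620738) (nat_lit 0) (nat_lit 2092730835) (nat_lit 1748) (nat_lit 5555644484) (nat_lit 387) (nat_lit 5) (nat_lit 386) (nat_lit 5) (nat_lit 409) (nat_lit 5) (nat_lit 462) (nat_lit 447) (nat_lit 231)) (XT.lf (nat_lit 76) (nat_lit 949934275) (nat_lit 0) (nat_lit 12685815525) (nat_lit 1748) (nat_lit 4659012127) (nat_lit 388) (nat_lit 5) (nat_lit 387) (nat_lit 5) (nat_lit 410) (nat_lit 5) (nat_lit 463) (nat_lit 447) (nat_lit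 230)))) (XT.nd (nat_lit 156) (nat_lit 0) (nat_lit 76) (XT.nd (nat_lit 78) (nat_lit 0) (nat_lit 76) (XT.lf (nat_lit 76) (nat_lit 9806045022) (nat_lit 0) (nat_lit 4996701052) (nat_lit 1748) (nat_lit 3683363267) (nat_lit 388) (nat_lit 5) (nat_lit 387) (nat_lit 5) (nat_lit 410) (nat_lit 5) (nat_lit 464) (nat_lit 447) (nat_lit 229)) (XT.lf (nat_lit 76) (nat_lit 137480065) (nat_lit 0) (nat_lit 15869882659) (nat_lit 1748) (nat_lit 2673639321) (nat_lit 389) (nat_lit 5) (nat_lit 388) (nat_lit 5) (nat_lit 411) (nat_lit 5) (nat_lit 465) (nat_lit 447) (nat_lit 228))) (XT.nd (nat_lit 78) (nat_lit 0) (nat_lit 0) (XT.lf (nat_lit 76) (nat_lit 9211692751) (nat_lit 0) (nat_lit 8110483316) (nat_lit 1748) (nat_lit 1555898322) (nat_lit 389) (nat_lit 5) (nat_lit 388) (nat_lit 5) (nat_lit 411) (nat_lit 5) (nat_lit 466) (nat_lit 447) (nat_lit 227)) (XT.lf (nat_lit 76) (nat_lit 18463651799) (nat_lit 0) (nat_lit 194715768) (nat_lit 1748)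 (nat_lit 420822771) (nat_lit 389) (nat_lit 5) (nat_lit 388) (nat_lit 5) (nat_lit 411) (nat_lit 5) (nat_lit 467) (nat_lit 447) (nat_lit 226))))))))
noncomputable def xc232 : XT := (XT.nd (nat_lit 2184) (nat_lit 4712) (nat_lit 0) (XT.nd (nat_lit 1092) (nat_lit 5244) (nat_lit 0) (XT.nd (nat_lit 546) (nat_lit 2584) (nat_lit 0) (XT.nd (nat_lit 234) (nat_lit 1140) (nat_lit 0) (XT.nd (nat_lit 78) (nat_lit 0) (nat_lit 0) (XT.lf (nat_lit 0) (nat_lit 830634108) (nat_lit 1748) (nat_lit 10612576194) (nat_lit 1824) (nat_lit 7838959355) (nat_lit 366) (nat_lit 5) (nat_lit 389) (nat_lit 5) (nat_lit 390) (nat_lit 5) (nat_lit 468) (nat_lit 447) (nat_lit 225)) (XT.nd (nat_lit 78) (nat_lit 0) (nat_lit 76) (XT.lf (nat_lit 0) (nat_lit 2102158908) (nat_lit 1748) (nat_lit 1348272366) (nat_lit 1824) (nat_lit 16038711762) (nat_lit 366) (nat_lit 5) (nat_lit 389) (nat_lit 5) (nat_lit 390) (nat_lit 5) (nat_lit 469) (nat_lit 447) (nat_lit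 224)) (XT.lf (nat_lit 0) (nat_lit 3478591099) (nat_lit 1748) (nat_lit 11524986057) (nat_lit 1824) (nat_lit 4695092697) (nat_lit 367) (nat_lit 5) (nat_lit 390) (nat_lit 5) (nat_lit 391) (nat_lit 5) (nat_lit 470) (nat_lit 447) (nat_lit 223)))) (XT.nd (nat_lit 156) (nat_lit 1216) (nat_lit 0) (XT.nd (nat_lit 78) (nat_lit 0) (nat_lit 76) (XT.lf (nat_lit 0) (nat_lit 4909898205) (nat_lit 1748) (nat_lit 2034578234) (nat_lit 1824) (nat_lit 12967367280) (nat_lit 367) (nat_lit 5) (nat_lit 390) (nat_lit 5) (nat_lit 391) (nat_lit 5) (nat_lit 471) (nat_lit 447) (nat_lit 222)) (XT.lf (nat_lit 0) (nat_lit 6424207102) (nat_lit 1748) (nat_lit 12393538178) (nat_lit 76) (nat_lit 1310451641) (nat_lit 368) (nat_lit 5) (nat_lit 391) (nat_lit 5) (nat_lit 369) (nat_lit 5) (nat_lit 472) (nat_lit 447) (nat_lit 221))) (XT.nd (nat_lit 78) (nat_lit 1292) (nat_lit 0) (XT.lf (nat_lit 0) (nat_lit 8024083542) (nat_lit 1748) (nat_lit 2671639328)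 (nat_lit 76) (nat_lit 9652051994) (nat_lit 368) (nat_lit 5) (nat_lit 391) (nat_lit 5) (nat_lit 369) (nat_lit 5) (nat_lit 473) (nat_lit 447) (nat_lit 220)) (XT.lf (nat_lit 0) (nat_lit 7337186230) (nat_lit 1292) (nat_lit 2362044401) (nat_lit 1368) (nat_lit 10871651514) (nat_lit 351) (nat_lit 5) (nat_lit 368) (nat_lit 5) (nat_lit 369) (nat_lit 5) (nat_lit 474) (nat_lit 447) (nat_lit 219))))) (XT.nd (nat_lit 234) (nat_lit 1748) (nat_lit 0) (XT.nd (nat_lit 78) (nat_lit 836) (nat_lit 0) (XT.lf (nat_lit 0) (nat_lit 11461481985) (nat_lit 1368) (nat_lit 3259470871) (nat_lit 76) (nat_lit 6076429866) (nat_lit 351) (nat_lit 5) (nat_lit 369) (nat_lit 5) (nat_lit 352) (nat_lit 5) (nat_lit 475) (nat_lit 447) (nat_lit 218)) (XT.nd (nat_lit 78) (nat_lit 0) (nat_lit 0) (XT.lf (nat_lit 0) (nat_lit 6986491519) (nat_lit 836) (nat_lit 6329275288) (nat_lit 912) (nat_lit 7711513850) (nat_lit 340) (nat_lit 5) (nat_lit 351) (nat_lit 5)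 (nat_lit 352) (nat_lit 5) (nat_lit 476) (nat_lit 447) (nat_lit 217)) (XT.lf (nat_lit 0) (nat_lit 15239481413) (nat_lit 912) (nat_lit 3798206075) (nat_lit 76) (nat_lit 2223445233) (nat_lit 340) (nat_lit 5) (nat_lit 352) (nat_lit 5) (nat_lit 341) (nat_lit 5) (nat_lit 477) (nat_lit 447) (nat_lit 216)))) (XT.nd (nat_lit 156) (nat_lit 912) (nat_lit 0) (XT.nd (nat_lit 78) (nat_lit 0) (nat_lit 0) (XT.lf (nat_lit 0) (nat_lit 6691347518) (nat_lit 836) (nat_lit 10591610935) (nat_lit 912) (nat_lit 4215080604) (nat_lit 329) (nat_lit 5) (nat_lit 340) (nat_lit 5) (nat_lit 341) (nat_lit 5) (nat_lit 478) (nat_lit 447) (nat_lit 215)) (XT.lf (nat_lit 0) (nat_lit 17438478738) (nat_lit 836) (nat_lit 1950297836) (nat_lit 912) (nat_lit 2350480451) (nat_lit 329) (nat_lit 5) (nat_lit 340) (nat_lit 5) (nat_lit 341) (nat_lit 5) (nat_lit 479) (nat_lit 447) (nat_lit 214))) (XT.nd (nat_lit 78) (nat_lit 76) (nat_lit 0) (XT.lf (nat_lit 0)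 (nat_lit 6451592160) (nat_lit 836) (nat_lit 15167635874) (nat_lit 912) (nat_lit 364423856) (nat_lit 318) (nat_lit 5) (nat_lit 329) (nat_lit 5) (nat_lit 330) (nat_lit 5) (nat_lit 480) (nat_lit 447) (nat_lit 213)) (XT.lf (nat_lit 0) (nat_lit 1677621503) (nat_lit 912) (nat_lit 4782683441) (nat_lit 76) (nat_lit 15771655609) (nat_lit 317) (nat_lit 5) (nat_lit 329) (nat_lit 5) (nat_lit 318) (nat_lit 5) (nat_lit 481) (nat_lit 447) (nat_lit 212)))))) (XT.nd (nat_lit 546) (nat_lit 2204) (nat_lit 0) (XT.nd (nat_lit 234) (nat_lit 1444) (nat_lit 0) (XT.nd (nat_lit 78) (nat_lit 760) (nat_lit 0) (XT.lf (nat_lit 0) (nat_lit 3808433411) (nat_lit 912) (nat_lit 16242789726) (nat_lit 76) (nat_lit 2432910684) (nat_lit 306) (nat_lit 5) (nat_lit 318) (nat_lit 5) (nat_lit 307) (nat_lit 5) (nat_lit 482) (nat_lit 447) (nat_lit 211)) (XT.nd (nat_lit 78) (nat_lit 760) (nat_lit 0) (XT.lf (nat_lit 0) (nat_lit 6053170113) (nat_lit 912) (nat_lit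 5236744296) (nat_lit 76) (nat_lit 11450012630) (nat_lit 306) (nat_lit 5) (nat_lit 318) (nat_lit 5) (nat_lit 307) (nat_lit 5) (nat_lit 483) (nat_lit 447) (nat_lit 210)) (XT.lf (nat_lit 0) (nat_lit 6065320471) (nat_lit 760) (nat_lit 2313153525) (nat_lit 836) (nat_lit 14621651284) (nat_lit 296) (nat_lit 5) (nat_lit 306) (nat_lit 5) (nat_lit 307) (nat_lit 5) (nat_lit 484) (nat_lit 447) (nat_lit 209)))) (XT.nd (nat_lit 156) (nat_lit 684) (nat_lit 0) (XT.nd (nat_lit 78) (nat_lit 760) (nat_lit 0) (XT.lf (nat_lit 0) (nat_lit 10826429953) (nat_lit 836) (nat_lit 5648776892) (nat_lit 76) (nat_lit 6788800276) (nat_lit 296) (nat_lit 5) (nat_lit 307) (nat_lit 5) (nat_lit 297) (nat_lit 5) (nat_lit 485) (nat_lit 447) (nat_lit 208)) (XT.lf (nat_lit 0) (nat_lit 5921687994) (nat_lit 760) (nat_lit 7451836928) (nat_lit 836) (nat_lit 10158640583) (nat_lit 286) (nat_lit 5) (nat_lit 296) (nat_lit 5) (nat_lit 297) (nat_lit 5) (nat_lit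 486) (nat_lit 447) (nat_lit 207))) (XT.nd (nat_lit 78) (nat_lit 684) (nat_lit 0) (XT.lf (nat_lit 0) (nat_lit 16017554206) (nat_lit 836) (nat_lit 6020099928) (nat_lit 76) (nat_lit 1767115530) (nat_lit 286) (nat_lit 5) (nat_lit 297) (nat_lit 5) (nat_lit 287) (nat_lit 5) (nat_lit 487) (nat_lit 447) (nat_lit 206)) (XT.lf (nat_lit 0) (nat_lit 5825532666) (nat_lit 684) (nat_lit 12972633925) (nat_lit 760) (nat_lit 5282987674) (nat_lit 277) (nat_lit 5) (nat_lit 286) (nat_lit 5) (nat_lit 287) (nat_lit 5) (nat_lit 488) (nat_lit 447) (nat_lit 205))))) (XT.nd (nat_lit 234) (nat_lit 1368) (nat_lit 0) (XT.nd (nat_lit 78) (nat_lit 836) (nat_lit 0) (XT.lf (nat_lit 0) (nat_lit 17986100135) (nat_lit 684) (nat_lit 3685263301) (nat_lit 760) (nat_lit 2690966037) (nat_lit 277) (nat_lit 5) (nat_lit 286) (nat_lit 5) (nat_lit 287) (nat_lit 5) (nat_lit 489) (nat_lit 447) (nat_lit 204)) (XT.nd (nat_lit 78) (nat_lit 0) (nat_lit 0) (XT.lf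 (nat_lit 0) (nat_lit 25702730) (nat_lit 836) (nat_lit 18872528597) (nat_lit 76) (nat_lit 5749461466) (nat_lit 266) (nat_lit 5) (nat_lit 277) (nat_lit 5) (nat_lit 267) (nat_lit 5) (nat_lit 490) (nat_lit 447) (nat_lit 203)) (XT.lf (nat_lit 0) (nat_lit 2824842389) (nat_lit 836) (nat_lit 6728003751) (nat_lit 76) (nat_lit 15384280327) (nat_lit 266) (nat_lit 5) (nat_lit 277) (nat_lit 5) (nat_lit 267) (nat_lit 5) (nat_lit 491) (nat_lit 447) (nat_lit 202)))) (XT.nd (nat_lit 156) (nat_lit 684) (nat_lit 0) (XT.nd (nat_lit 78) (nat_lit 0) (nat_lit 0) (XT.lf (nat_lit 0) (nat_lit 5714010325) (nat_lit 760) (nat_lit 19500740874) (nat_lit 76) (nat_lit 16918886) (nat_lit 257) (nat_lit 5) (nat_lit 267) (nat_lit 5) (nat_lit 258) (nat_lit 5) (nat_lit 492) (nat_lit 447) (nat_lit 201)) (XT.lf (nat_lit 0) (nat_lit 8766437045) (nat_lit 760) (nat_lit 7068098083) (nat_lit 76) (nat_lit 9695462078) (nat_lit 257) (nat_lit 5) (nat_lit 267)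 (nat_lit 5) (nat_lit 258) (nat_lit 5) (nat_lit 493) (nat_lit 447) (nat_lit 200))) (XT.nd (nat_lit 78) (nat_lit 0) (nat_lit 0) (XT.lf (nat_lit 0) (nat_lit 5684243225) (nat_lit 684) (nat_lit 6229402500) (nat_lit 760) (nat_lit 13919972570) (nat_lit 248) (nat_lit 5) (nat_lit 257) (nat_lit 5) (nat_lit 258) (nat_lit 5) (nat_lit 494) (nat_lit 447) (nat_lit 199)) (XT.lf (nat_lit 0) (nat_lit 15191572977) (nat_lit 760) (nat_lit 7381944358) (nat_lit 76) (nat_lit 3568441039) (nat_lit 248) (nat_lit 5) (nat_lit 258) (nat_lit 5) (nat_lit 249) (nat_lit 5) (nat_lit 495) (nat_lit 447) (nat_lit 198))))))) (XT.nd (nat_lit 1092) (nat_lit 532) (nat_lit 0) (XT.nd (nat_lit 546) (nat_lit 1672) (nat_lit 0) (XT.nd (nat_lit 234) (nat_lit 1292) (nat_lit 0) (XT.nd (nat_lit 78) (nat_lit 608) (nat_lit 0) (XT.lf (nat_lit 0) (nat_lit 5670475832) (nat_lit 608) (nat_lit 12939580116) (nat_lit 684) (nat_lit 7844911378) (nat_lit 240) (nat_lit 5) (nat_lit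 248) (nat_lit 5) (nat_lit 249) (nat_lit 5) (nat_lit 496) (nat_lit 447) (nat_lit 197)) (XT.nd (nat_lit 78) (nat_lit 608) (nat_lit 0) (XT.lf (nat_lit 0) (nat_lit 19080557358) (nat_lit 608) (nat_lit 3062852176) (nat_lit 684) (nat_lit 4629898879) (nat_lit 240) (nat_lit 5) (nat_lit 248) (nat_lit 5) (nat_lit 249) (nat_lit 5) (nat_lit 497) (nat_lit 447) (nat_lit 196)) (XT.lf (nat_lit 0) (nat_lit 5686437706) (nat_lit 608) (nat_lit 20140456441) (nat_lit 684) (nat_lit 1269534832) (nat_lit 232) (nat_lit 5) (nat_lit 240) (nat_lit 5) (nat_lit 241) (nat_lit 5) (nat_lit 498) (nat_lit 447) (nat_lit 195)))) (XT.nd (nat_lit 156) (nat_lit 608) (nat_lit 0) (XT.nd (nat_lit 78) (nat_lit 608) (nat_lit 0) (XT.lf (nat_lit 0) (nat_lit 2199017475) (nat_lit 684) (nat_lit 8025590081) (nat_lit 76) (nat_lit 17199740353) (nat_lit 231) (nat_lit 5) (nat_lit 240) (nat_lit 5) (nat_lit 232) (nat_lit 5) (nat_lit 499) (nat_lit 447) (nat_lit 194))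 (XT.lf (nat_lit 0) (nat_lit 5689314852) (nat_lit 608) (nat_lit 64675667) (nat_lit 684) (nat_lit 22003987715) (nat_lit 223) (nat_lit 5) (nat_lit 231) (nat_lit 5) (nat_lit 232) (nat_lit 5) (nat_lit 500) (nat_lit 447) (nat_lit 193))) (XT.nd (nat_lit 78) (nat_lit 608) (nat_lit 0) (XT.lf (nat_lit 0) (nat_lit 9498265935) (nat_lit 684) (nat_lit 8380545030) (nat_lit 76) (nat_lit 10217107932) (nat_lit 223) (nat_lit 5) (nat_lit 232) (nat_lit 5) (nat_lit 224) (nat_lit 5) (nat_lit 501) (nat_lit 447) (nat_lit 192)) (XT.lf (nat_lit 0) (nat_lit 5651670449) (nat_lit 608) (nat_lit 7700061386) (nat_lit 684) (nat_lit 15088202193) (nat_lit 215) (nat_lit 5) (nat_lit 223) (nat_lit 5) (nat_lit 224) (nat_lit 5) (nat_lit 502) (nat_lit 447) (nat_lit 191))))) (XT.nd (nat_lit 234) (nat_lit 1140) (nat_lit 0) (XT.nd (nat_lit 78) (nat_lit 532) (nat_lit 0) (XT.lf (nat_lit 0) (nat_lit 17353504647) (nat_lit 684) (nat_lit 8732752744) (nat_lit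 76) (nat_lit 2703149037) (nat_lit 215) (nat_lit 5) (nat_lit 224) (nat_lit 5) (nat_lit 216) (nat_lit 5) (nat_lit 503) (nat_lit 447) (nat_lit 190)) (XT.nd (nat_lit 78) (nat_lit 0) (nat_lit 0) (XT.lf (nat_lit 0) (nat_lit 5623300307) (nat_lit 532) (nat_lit 15896783504) (nat_lit 608) (nat_lit 7624090734) (nat_lit 208) (nat_lit 5) (nat_lit 215) (nat_lit 5) (nat_lit 216) (nat_lit 5) (nat_lit 504) (nat_lit 447) (nat_lit 189)) (XT.lf (nat_lit 0) (nat_lit 20381546247) (nat_lit 532) (nat_lit 5444348743) (nat_lit 608) (nat_lit 3679026679) (nat_lit 208) (nat_lit 5) (nat_lit 215) (nat_lit 5) (nat_lit 216) (nat_lit 5) (nat_lit 505) (nat_lit 447) (nat_lit 188)))) (XT.nd (nat_lit 156) (nat_lit 532) (nat_lit 0) (XT.nd (nat_lit 78) (nat_lit 0) (nat_lit 0) (XT.lf (nat_lit 0) (nat_lit 408429995) (nat_lit 608) (nat_lit 24275886491) (nat_lit 76) (nat_lit 5187163739) (nat_lit 200) (nat_lit 5) (nat_lit 208) (nat_lit 5) (nat_lit 201)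 (nat_lit 5) (nat_lit 506) (nat_lit 447) (nat_lit 187)) (XT.lf (nat_lit 0) (nat_lit 4623463122) (nat_lit 608) (nat_lit 9575662547) (nat_lit 76) (nat_lit 16043857685) (nat_lit 200) (nat_lit 5) (nat_lit 208) (nat_lit 5) (nat_lit 201) (nat_lit 5) (nat_lit 507) (nat_lit 447) (nat_lit 186))) (XT.nd (nat_lit 78) (nat_lit 0) (nat_lit 0) (XT.lf (nat_lit 0) (nat_lit 5487293576) (nat_lit 532) (nat_lit 3468542295) (nat_lit 608) (nat_lit 21665421421) (nat_lit 193) (nat_lit 5) (nat_lit 200) (nat_lit 5) (nat_lit 201) (nat_lit 5) (nat_lit 508) (nat_lit 447) (nat_lit 185)) (XT.lf (nat_lit 0) (nat_lit 13485520136) (nat_lit 608) (nat_lit 10076737256) (nat_lit 76) (nat_lit 7442627534) (nat_lit 193) (nat_lit 5) (nat_lit 201) (nat_lit 5) (nat_lit 194) (nat_lit 5) (nat_lit 509) (nat_lit 447) (nat_lit 184)))))) (XT.nd (nat_lit 54912) (nat_lit 0) (nat_lit 14896) (XT.nd (nat_lit 54600) (nat_lit 0) (nat_lit 14744) (XT.nd (nat_lit 78) (nat_lit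 0) (nat_lit 0) (XT.lf (nat_lit 0) (nat_lit 5325303397) (nat_lit 532) (nat_lit 12835528202) (nat_lit 608) (nat_lit 13234254310) (nat_lit 186) (nat_lit 5) (nat_lit 193) (nat_lit 5) (nat_lit 194) (nat_lit 5) (nat_lit 510) (nat_lit 447) (nat_lit 183)) (XT.nd (nat_lit 54444) (nat_lit 0) (nat_lit 14744) (XT.lf (nat_lit 0) (nat_lit 21168796588) (nat_lit 532) (nat_lit 1825989157) (nat_lit 608) (nat_lit 8797003878) (nat_lit 186) (nat_lit 5) (nat_lit 193) (nat_lit 5) (nat_lit 194) (nat_lit 5) (nat_lit 511) (nat_lit 447) (nat_lit 182)) (XT.lf (nat_lit 0) (nat_lit 1729418615) (nat_lit 1748) (nat_lit 3109423243) (nat_lit 1748) (nat_lit 3109423243) (nat_lit 380) (nat_lit 3) (nat_lit 403) (nat_lit 3) (nat_lit 403) (nat_lit 5) (nat_lit 448) (nat_lit 448) (nat_lit 244)))) (XT.nd (nat_lit 156) (nat_lit 0) (nat_lit 76) (XT.nd (nat_lit 78) (nat_lit 0) (nat_lit 76) (XT.lf (nat_lit 76) (nat_lit 1020995015) (nat_lit 0) (nat_lit 2731919220)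 (nat_lit 1748) (nat_lit 12297192794) (nat_lit 381) (nat_lit 5) (nat_lit 380) (nat_lit 3) (nat_lit 403) (nat_lit 5) (nat_lit 449) (nat_lit 448) (nat_lit 243)) (XT.lf (nat_lit 0) (nat_lit 4116507956) (nat_lit 1672) (nat_lit 7748116152) (nat_lit 1748) (nat_lit 4340863791) (nat_lit 381) (nat_lit 5) (nat_lit 403) (nat_lit 5) (nat_lit 404) (nat_lit 5) (nat_lit 450) (nat_lit 448) (nat_lit 242))) (XT.nd (nat_lit 78) (nat_lit 0) (nat_lit 76) (XT.lf (nat_lit 0) (nat_lit 4498961874) (nat_lit 1672) (nat_lit 343111637) (nat_lit 1748) (nat_lit 11521676218) (nat_lit 381) (nat_lit 5) (nat_lit 403) (nat_lit 5) (nat_lit 404) (nat_lit 5) (nat_lit 451) (nat_lit 448) (nat_lit 241)) (XT.lf (nat_lit 0) (nat_lit 4945501993) (nat_lit 1672) (nat_lit 9237449044) (nat_lit 1748) (nat_lit 2341102026) (nat_lit 382) (nat_lit 5) (nat_lit 404) (nat_lit 5) (nat_lit 405) (nat_lit 5) (nat_lit 452) (nat_lit 448) (nat_lit 240))))) (XT.nd (nat_lit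 234) (nat_lit 0) (nat_lit 76) (XT.nd (nat_lit 78) (nat_lit 0) (nat_lit 76) (XT.lf (nat_lit 0) (nat_lit 5429102257) (nat_lit 1672) (nat_lit 1649609664) (nat_lit 1748) (nat_lit 9608292869) (nat_lit 382) (nat_lit 5) (nat_lit 404) (nat_lit 5) (nat_lit 405) (nat_lit 5) (nat_lit 453) (nat_lit 448) (nat_lit 239)) (XT.nd (nat_lit 78) (nat_lit 0) (nat_lit 0) (XT.lf (nat_lit 0) (nat_lit 5957655213) (nat_lit 1672) (nat_lit 10686546144) (nat_lit 1748) (nat_lit 208313395) (nat_lit 383) (nat_lit 5) (nat_lit 405) (nat_lit 5) (nat_lit 406) (nat_lit 5) (nat_lit 454) (nat_lit 448) (nat_lit 238)) (XT.lf (nat_lit 0) (nat_lit 6548782941) (nat_lit 1672) (nat_lit 2911471417) (nat_lit 1748) (nat_lit 7560045201) (nat_lit 383) (nat_lit 5) (nat_lit 405) (nat_lit 5) (nat_lit 406) (nat_lit 5) (nat_lit 455) (nat_lit 448) (nat_lit 237)))) (XT.nd (nat_lit 156) (nat_lit 0) (nat_lit 76) (XT.nd (nat_lit 78) (nat_lit 0) (nat_lit 76) (XT.lf (nat_lit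 76) (nat_lit 5082204872) (nat_lit 0) (nat_lit 2096625169) (nat_lit 1748) (nat_lit 10012072715) (nat_lit 384) (nat_lit 5) (nat_lit 383) (nat_lit 5) (nat_lit 406) (nat_lit 5) (nat_lit 456) (nat_lit 448) (nat_lit 236)) (XT.lf (nat_lit 0) (nat_lit 7870505373) (nat_lit 1672) (nat_lit 4128255330) (nat_lit 1748) (nat_lit 5365181303) (nat_lit 384) (nat_lit 5) (nat_lit 406) (nat_lit 5) (nat_lit 407) (nat_lit 5) (nat_lit 457) (nat_lit 448) (nat_lit 235))) (XT.nd (nat_lit 78) (nat_lit 0) (nat_lit 76) (XT.lf (nat_lit 76) (nat_lit 4047399342) (nat_lit 0) (nat_lit 4563099111) (nat_lit 1748) (nat_lit 8929258354) (nat_lit 385) (nat_lit 5) (nat_lit 384) (nat_lit 5) (nat_lit 407) (nat_lit 5) (nat_lit 458) (nat_lit 448) (nat_lit 234)) (XT.lf (nat_lit 0) (nat_lit 9407215944) (nat_lit 1672) (nat_lit 5299506559) (nat_lit 1748) (nat_lit 3011531270) (nat_lit 385) (nat_lit 5) (nat_lit 407) (nat_lit 5) (nat_lit 408) (nat_lit 5) (nat_lit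 459) (nat_lit 448) (nat_lit 233))))))))
noncomputable def xc233 : XT := (XT.nd (nat_lit 2184) (nat_lit 7600) (nat_lit 0) (XT.nd (nat_lit 1092) (nat_lit 6080) (nat_lit 0) (XT.nd (nat_lit 546) (nat_lit 1444) (nat_lit 0) (XT.nd (nat_lit 234) (nat_lit 0) (nat_lit 76) (XT.nd (nat_lit 78) (nat_lit 0) (nat_lit 76) (XT.lf (nat_lit 76) (nat_lit 3063533687) (nat_lit 0) (nat_lit 7200975353) (nat_lit 1748) (nat_lit 7634923088) (nat_lit 386) (nat_lit 5) (nat_lit 385) (nat_lit 5) (nat_lit 408) (nat_lit 5) (nat_lit 460) (nat_lit 448) (nat_lit 232)) (XT.nd (nat_lit 78) (nat_lit 0) (nat_lit 0) (XT.lf (nat_lit 0) (nat_lit 11172326374) (nat_lit 1672) (nat_lit 6424767656) (nat_lit 1748) (nat_lit 486476646) (nat_lit 386) (nat_lit 5) (nat_lit 408) (nat_lit 5) (nat_lit 409) (nat_lit 5) (nat_lit 461) (nat_lit 448) (nat_lit 231)) (XT.lf (nat_lit 76) (nat_lit 2131194380) (nat_lit 0) (nat_lit 10023363691) (nat_lit 1748) (nat_lit 6115712874)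 (nat_lit 387) (nat_lit 5) (nat_lit 386) (nat_lit 5) (nat_lit 409) (nat_lit 5) (nat_lit 462) (nat_lit 448) (nat_lit 230)))) (XT.nd (nat_lit 156) (nat_lit 0) (nat_lit 76) (XT.nd (nat_lit 78) (nat_lit 0) (nat_lit 76) (XT.lf (nat_lit 76) (nat_lit 10941735329) (nat_lit 0) (nat_lit 2252624677) (nat_lit 1748) (nat_lit 5265590728) (nat_lit 387) (nat_lit 5) (nat_lit 386) (nat_lit 5) (nat_lit 409) (nat_lit 5) (nat_lit 463) (nat_lit 448) (nat_lit 229)) (XT.lf (nat_lit 76) (nat_lit 1250959046) (nat_lit 0) (nat_lit 13043880979) (nat_lit 1748) (nat_lit 4357790404) (nat_lit 388) (nat_lit 5) (nat_lit 387) (nat_lit 5) (nat_lit 410) (nat_lit 5) (nat_lit 464) (nat_lit 448) (nat_lit 228))) (XT.nd (nat_lit 78) (nat_lit 0) (nat_lit 76) (XT.lf (nat_lit 76) (nat_lit 10278662085) (nat_lit 0) (nat_lit 5198938156) (nat_lit 1748) (nat_lit 3370361938) (nat_lit 388) (nat_lit 5) (nat_lit 387) (nat_lit 5) (nat_lit 410) (nat_lit 5) (nat_lit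 465) (nat_lit 448) (nat_lit 227)) (XT.lf (nat_lit 76) (nat_lit 423384201) (nat_lit 0) (nat_lit 16276684818) (nat_lit 1748) (nat_lit 2346814275) (nat_lit 389) (nat_lit 5) (nat_lit 388) (nat_lit 5) (nat_lit 411) (nat_lit 5) (nat_lit 466) (nat_lit 448) (nat_lit 226))))) (XT.nd (nat_lit 234) (nat_lit 0) (nat_lit 0) (XT.nd (nat_lit 78) (nat_lit 1672) (nat_lit 0) (XT.lf (nat_lit 76) (nat_lit 9673529091) (nat_lit 0) (nat_lit 8360344459) (nat_lit 1748) (nat_lit 1214175275) (nat_lit 389) (nat_lit 5) (nat_lit 388) (nat_lit 5) (nat_lit 411) (nat_lit 5) (nat_lit 467) (nat_lit 448) (nat_lit 225)) (XT.nd (nat_lit 78) (nat_lit 1672) (nat_lit 0) (XT.lf (nat_lit 76) (nat_lit 19105084134) (nat_lit 0) (nat_lit 284542903) (nat_lit 1748) (nat_lit 63708822) (nat_lit 389) (nat_lit 5) (nat_lit 388) (nat_lit 5) (nat_lit 411) (nat_lit 5) (nat_lit 468) (nat_lit 448) (nat_lit 224)) (XT.lf (nat_lit 0) (nat_lit 1202178275) (nat_lit 1748)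 (nat_lit 10541532768) (nat_lit 1824) (nat_lit 7916737670) (nat_lit 366) (nat_lit 5) (nat_lit 389) (nat_lit 5) (nat_lit 390) (nat_lit 5) (nat_lit 469) (nat_lit 448) (nat_lit 223)))) (XT.nd (nat_lit 156) (nat_lit 0) (nat_lit 76) (XT.nd (nat_lit 78) (nat_lit 0) (nat_lit 76) (XT.lf (nat_lit 0) (nat_lit 2492174130) (nat_lit 1748) (nat_lit 1097497666) (nat_lit 1824) (nat_lit 16282034162) (nat_lit 366) (nat_lit 5) (nat_lit 389) (nat_lit 5) (nat_lit 390) (nat_lit 5) (nat_lit 470) (nat_lit 448) (nat_lit 222)) (XT.lf (nat_lit 0) (nat_lit 3890668205) (nat_lit 1748) (nat_lit 11472023481) (nat_lit 1824) (nat_lit 4722846067) (nat_lit 367) (nat_lit 5) (nat_lit 390) (nat_lit 5) (nat_lit 391) (nat_lit 5) (nat_lit 471) (nat_lit 448) (nat_lit 221))) (XT.nd (nat_lit 78) (nat_lit 0) (nat_lit 76) (XT.lf (nat_lit 0) (nat_lit 5343885664) (nat_lit 1748) (nat_lit 1797365586) (nat_lit 1824) (nat_lit 13161863171) (nat_lit 367) (nat_lit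 5) (nat_lit 390) (nat_lit 5) (nat_lit 391) (nat_lit 5) (nat_lit 472) (nat_lit 448) (nat_lit 220)) (XT.lf (nat_lit 0) (nat_lit 6883332509) (nat_lit 1748) (nat_lit 12358111025) (nat_lit 76) (nat_lit 1282459026) (nat_lit 368) (nat_lit 5) (nat_lit 391) (nat_lit 5) (nat_lit 369) (nat_lit 5) (nat_lit 473) (nat_lit 448) (nat_lit 219)))))) (XT.nd (nat_lit 546) (nat_lit 3268) (nat_lit 0) (XT.nd (nat_lit 234) (nat_lit 1672) (nat_lit 0) (XT.nd (nat_lit 78) (nat_lit 1292) (nat_lit 0) (XT.lf (nat_lit 0) (nat_lit 8508723316) (nat_lit 1748) (nat_lit 2447329060) (nat_lit 76) (nat_lit 9791954164) (nat_lit 368) (nat_lit 5) (nat_lit 391) (nat_lit 5) (nat_lit 369) (nat_lit 5) (nat_lit 474) (nat_lit 448) (nat_lit 218)) (XT.nd (nat_lit 78) (nat_lit 0) (nat_lit 0) (XT.lf (nat_lit 0) (nat_lit 7759845753) (nat_lit 1292) (nat_lit 2452962981) (nat_lit 1368) (nat_lit 10762863243) (nat_lit 351) (nat_lit 5) (nat_lit 368) (nat_lit 5) (nat_lit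 369) (nat_lit 5) (nat_lit 475) (nat_lit 448) (nat_lit 217)) (XT.lf (nat_lit 0) (nat_lit 12003760552) (nat_lit 1368) (nat_lit 3047378725) (nat_lit 76) (nat_lit 6155698805) (nat_lit 351) (nat_lit 5) (nat_lit 369) (nat_lit 5) (nat_lit 352) (nat_lit 5) (nat_lit 476) (nat_lit 448) (nat_lit 216)))) (XT.nd (nat_lit 156) (nat_lit 836) (nat_lit 0) (XT.nd (nat_lit 78) (nat_lit 0) (nat_lit 0) (XT.lf (nat_lit 0) (nat_lit 7401678691) (nat_lit 836) (nat_lit 6489102616) (nat_lit 912) (nat_lit 7550644199) (nat_lit 340) (nat_lit 5) (nat_lit 351) (nat_lit 5) (nat_lit 352) (nat_lit 5) (nat_lit 477) (nat_lit 448) (nat_lit 215)) (XT.lf (nat_lit 0) (nat_lit 15846705685) (nat_lit 912) (nat_lit 3597627125) (nat_lit 76) (nat_lit 2235751539) (nat_lit 340) (nat_lit 5) (nat_lit 352) (nat_lit 5) (nat_lit 341) (nat_lit 5) (nat_lit 478) (nat_lit 448) (nat_lit 214))) (XT.nd (nat_lit 78) (nat_lit 0) (nat_lit 0) (XT.lf (nat_lit 0) (nat_lit 7099898178)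 (nat_lit 836) (nat_lit 10827007686) (nat_lit 912) (nat_lit 3994910236) (nat_lit 329) (nat_lit 5) (nat_lit 340) (nat_lit 5) (nat_lit 341) (nat_lit 5) (nat_lit 479) (nat_lit 448) (nat_lit 213)) (XT.lf (nat_lit 0) (nat_lit 18056585282) (nat_lit 836) (nat_lit 2012406276) (nat_lit 912) (nat_lit 2098988119) (nat_lit 329) (nat_lit 5) (nat_lit 340) (nat_lit 5) (nat_lit 341) (nat_lit 5) (nat_lit 480) (nat_lit 448) (nat_lit 212))))) (XT.nd (nat_lit 234) (nat_lit 1520) (nat_lit 0) (XT.nd (nat_lit 78) (nat_lit 912) (nat_lit 0) (XT.lf (nat_lit 0) (nat_lit 6854360633) (nat_lit 836) (nat_lit 15485587532) (nat_lit 912) (nat_lit 77400543) (nat_lit 318) (nat_lit 5) (nat_lit 329) (nat_lit 5) (nat_lit 330) (nat_lit 5) (nat_lit 481) (nat_lit 448) (nat_lit 211)) (XT.nd (nat_lit 78) (nat_lit 836) (nat_lit 0) (XT.lf (nat_lit 0) (nat_lit 1995930638) (nat_lit 912) (nat_lit 4605982225) (nat_lit 76) (nat_lit 16068790395) (nat_lit 317) (nat_lit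 5) (nat_lit 329) (nat_lit 5) (nat_lit 318) (nat_lit 5) (nat_lit 482) (nat_lit 448) (nat_lit 210)) (XT.lf (nat_lit 0) (nat_lit 4165464685) (nat_lit 912) (nat_lit 16291199112) (nat_lit 76) (nat_lit 2471338023) (nat_lit 306) (nat_lit 5) (nat_lit 318) (nat_lit 5) (nat_lit 307) (nat_lit 5) (nat_lit 483) (nat_lit 448) (nat_lit 209)))) (XT.nd (nat_lit 156) (nat_lit 760) (nat_lit 0) (XT.nd (nat_lit 78) (nat_lit 760) (nat_lit 0) (XT.lf (nat_lit 0) (nat_lit 6449589011) (nat_lit 912) (nat_lit 5070453292) (nat_lit 76) (nat_lit 11668982613) (nat_lit 306) (nat_lit 5) (nat_lit 318) (nat_lit 5) (nat_lit 307) (nat_lit 5) (nat_lit 484) (nat_lit 448) (nat_lit 208)) (XT.lf (nat_lit 0) (nat_lit 6455869706) (nat_lit 760) (nat_lit 2361878242) (nat_lit 836) (nat_lit 14636755989) (nat_lit 296) (nat_lit 5) (nat_lit 306) (nat_lit 5) (nat_lit 307) (nat_lit 5) (nat_lit 485) (nat_lit 448) (nat_lit 207))) (XT.nd (nat_lit 78) (nat_lit 760)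 (nat_lit 0) (XT.lf (nat_lit 0) (nat_lit 11309319815) (nat_lit 836) (nat_lit 5492259629) (nat_lit 76) (nat_lit 6922194555) (nat_lit 296) (nat_lit 5) (nat_lit 307) (nat_lit 5) (nat_lit 297) (nat_lit 5) (nat_lit 486) (nat_lit 448) (nat_lit 206)) (XT.lf (nat_lit 0) (nat_lit 6307841575) (nat_lit 760) (nat_lit 7596030553) (nat_lit 836) (nat_lit 10093496762) (nat_lit 286) (nat_lit 5) (nat_lit 296) (nat_lit 5) (nat_lit 297) (nat_lit 5) (nat_lit 487) (nat_lit 448) (nat_lit 205))))))) (XT.nd (nat_lit 1092) (nat_lit 2812) (nat_lit 0) (XT.nd (nat_lit 546) (nat_lit 2584) (nat_lit 0) (XT.nd (nat_lit 234) (nat_lit 1520) (nat_lit 0) (XT.nd (nat_lit 78) (nat_lit 684) (nat_lit 0) (XT.lf (nat_lit 0) (nat_lit 16595658382) (nat_lit 836) (nat_lit 5872729082) (nat_lit 76) (nat_lit 1807143718) (nat_lit 286) (nat_lit 5) (nat_lit 297) (nat_lit 5) (nat_lit 287) (nat_lit 5) (nat_lit 488) (nat_lit 448) (nat_lit 204)) (XT.nd (nat_lit 78)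 (nat_lit 0) (nat_lit 0) (XT.lf (nat_lit 0) (nat_lit 6208054500) (nat_lit 684) (nat_lit 13220501652) (nat_lit 760) (nat_lit 5128957365) (nat_lit 277) (nat_lit 5) (nat_lit 286) (nat_lit 5) (nat_lit 287) (nat_lit 5) (nat_lit 489) (nat_lit 448) (nat_lit 203)) (XT.lf (nat_lit 0) (nat_lit 18606617414) (nat_lit 684) (nat_lit 3747610772) (nat_lit 760) (nat_lit 2490187257) (nat_lit 277) (nat_lit 5) (nat_lit 286) (nat_lit 5) (nat_lit 287) (nat_lit 5) (nat_lit 490) (nat_lit 448) (nat_lit 202)))) (XT.nd (nat_lit 156) (nat_lit 684) (nat_lit 0) (XT.nd (nat_lit 78) (nat_lit 0) (nat_lit 0) (XT.lf (nat_lit 0) (nat_lit 274348197) (nat_lit 836) (nat_lit 18982383508) (nat_lit 76) (nat_lit 5878787119) (nat_lit 266) (nat_lit 5) (nat_lit 277) (nat_lit 5) (nat_lit 267) (nat_lit 5) (nat_lit 491) (nat_lit 448) (nat_lit 201)) (XT.lf (nat_lit 0) (nat_lit 3124605327) (nat_lit 836) (nat_lit 6600215138) (nat_lit 76) (nat_lit 15706021251) (nat_lit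 266) (nat_lit 5) (nat_lit 277) (nat_lit 5) (nat_lit 267) (nat_lit 5) (nat_lit 492) (nat_lit 448) (nat_lit 200))) (XT.nd (nat_lit 78) (nat_lit 0) (nat_lit 0) (XT.lf (nat_lit 0) (nat_lit 6068611508) (nat_lit 760) (nat_lit 19625303107) (nat_lit 76) (nat_lit 37423670) (nat_lit 257) (nat_lit 5) (nat_lit 267) (nat_lit 5) (nat_lit 258) (nat_lit 5) (nat_lit 493) (nat_lit 448) (nat_lit 199)) (XT.lf (nat_lit 0) (nat_lit 9177374586) (nat_lit 760) (nat_lit 6949212413) (nat_lit 76) (nat_lit 9909142305) (nat_lit 257) (nat_lit 5) (nat_lit 267) (nat_lit 5) (nat_lit 258) (nat_lit 5) (nat_lit 494) (nat_lit 448) (nat_lit 198))))) (XT.nd (nat_lit 234) (nat_lit 1292) (nat_lit 0) (XT.nd (nat_lit 78) (nat_lit 608) (nat_lit 0) (XT.lf (nat_lit 0) (nat_lit 6056463565) (nat_lit 684) (nat_lit 6328122679) (nat_lit 760) (nat_lit 13960898449) (nat_lit 248) (nat_lit 5) (nat_lit 257) (nat_lit 5) (nat_lit 258) (nat_lit 5) (nat_lit 495) (nat_lit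 448) (nat_lit 197)) (XT.nd (nat_lit 78) (nat_lit 608) (nat_lit 0) (XT.lf (nat_lit 0) (nat_lit 15723674589) (nat_lit 760) (nat_lit 7271570018) (nat_lit 76) (nat_lit 3664837908) (nat_lit 248) (nat_lit 5) (nat_lit 258) (nat_lit 5) (nat_lit 249) (nat_lit 5) (nat_lit 496) (nat_lit 448) (nat_lit 196)) (XT.lf (nat_lit 0) (nat_lit 6040201121) (nat_lit 608) (nat_lit 13167514385) (nat_lit 684) (nat_lit 7771695308) (nat_lit 240) (nat_lit 5) (nat_lit 248) (nat_lit 5) (nat_lit 249) (nat_lit 5) (nat_lit 497) (nat_lit 448) (nat_lit 195)))) (XT.nd (nat_lit 156) (nat_lit 684) (nat_lit 0) (XT.nd (nat_lit 78) (nat_lit 608) (nat_lit 0) (XT.lf (nat_lit 0) (nat_lit 19713458478) (nat_lit 608) (nat_lit 3093856932) (nat_lit 684) (nat_lit 4496894604) (nat_lit 240) (nat_lit 5) (nat_lit 248) (nat_lit 5) (nat_lit 249) (nat_lit 5) (nat_lit 498) (nat_lit 448) (nat_lit 194)) (XT.lf (nat_lit 0) (nat_lit 6054142621) (nat_lit 608) (nat_lit 20507834570)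 (nat_lit 684) (nat_lit 1071868470) (nat_lit 232) (nat_lit 5) (nat_lit 240) (nat_lit 5) (nat_lit 241) (nat_lit 5) (nat_lit 499) (nat_lit 448) (nat_lit 193))) (XT.nd (nat_lit 78) (nat_lit 608) (nat_lit 0) (XT.lf (nat_lit 0) (nat_lit 2458813143) (nat_lit 684) (nat_lit 7934102056) (nat_lit 76) (nat_lit 17575467843) (nat_lit 231) (nat_lit 5) (nat_lit 240) (nat_lit 5) (nat_lit 232) (nat_lit 5) (nat_lit 500) (nat_lit 448) (nat_lit 192)) (XT.lf (nat_lit 0) (nat_lit 6053443082) (nat_lit 608) (nat_lit 28836279) (nat_lit 684) (nat_lit 22226461396) (nat_lit 223) (nat_lit 5) (nat_lit 231) (nat_lit 5) (nat_lit 232) (nat_lit 5) (nat_lit 501) (nat_lit 448) (nat_lit 191)))))) (XT.nd (nat_lit 546) (nat_lit 1064) (nat_lit 0) (XT.nd (nat_lit 234) (nat_lit 1140) (nat_lit 0) (XT.nd (nat_lit 78) (nat_lit 608) (nat_lit 0) (XT.lf (nat_lit 0) (nat_lit 9897496079) (nat_lit 684) (nat_lit 8298648201) (nat_lit 76) (nat_lit 10457377442) (nat_lit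 223) (nat_lit 5) (nat_lit 232) (nat_lit 5) (nat_lit 224) (nat_lit 5) (nat_lit 502) (nat_lit 448) (nat_lit 190)) (XT.nd (nat_lit 78) (nat_lit 0) (nat_lit 0) (XT.lf (nat_lit 0) (nat_lit 6012570090) (nat_lit 608) (nat_lit 7812967288) (nat_lit 684) (nat_lit 15178932210) (nat_lit 215) (nat_lit 5) (nat_lit 223) (nat_lit 5) (nat_lit 224) (nat_lit 5) (nat_lit 503) (nat_lit 448) (nat_lit 189)) (XT.lf (nat_lit 0) (nat_lit 17903552901) (nat_lit 684) (nat_lit 8660483746) (nat_lit 76) (nat_lit 2796973148) (nat_lit 215) (nat_lit 5) (nat_lit 224) (nat_lit 5) (nat_lit 216) (nat_lit 5) (nat_lit 504) (nat_lit 448) (nat_lit 188)))) (XT.nd (nat_lit 156) (nat_lit 608) (nat_lit 0) (XT.nd (nat_lit 78) (nat_lit 0) (nat_lit 0) (XT.lf (nat_lit 0) (nat_lit 5981065866) (nat_lit 532) (nat_lit 16170010466) (nat_lit 608) (nat_lit 7571847143) (nat_lit 208) (nat_lit 5) (nat_lit 215) (nat_lit 5) (nat_lit 216) (nat_lit 5) (nat_lit 505) (nat_lit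 448) (nat_lit 187)) (XT.lf (nat_lit 0) (nat_lit 21029666929) (nat_lit 532) (nat_lit 5509403651) (nat_lit 608) (nat_lit 3551896031) (nat_lit 208) (nat_lit 5) (nat_lit 215) (nat_lit 5) (nat_lit 216) (nat_lit 5) (nat_lit 506) (nat_lit 448) (nat_lit 186))) (XT.nd (nat_lit 78) (nat_lit 0) (nat_lit 0) (XT.lf (nat_lit 0) (nat_lit 612660259) (nat_lit 608) (nat_lit 24516031304) (nat_lit 76) (nat_lit 5336181370) (nat_lit 200) (nat_lit 5) (nat_lit 208) (nat_lit 5) (nat_lit 201) (nat_lit 5) (nat_lit 507) (nat_lit 448) (nat_lit 185)) (XT.lf (nat_lit 0) (nat_lit 4908149701) (nat_lit 608) (nat_lit 9526614115) (nat_lit 76) (nat_lit 16409121462) (nat_lit 200) (nat_lit 5) (nat_lit 208) (nat_lit 5) (nat_lit 201) (nat_lit 5) (nat_lit 508) (nat_lit 448) (nat_lit 184))))) (XT.nd (nat_lit 54678) (nat_lit 0) (nat_lit 14744) (XT.nd (nat_lit 78) (nat_lit 532) (nat_lit 0) (XT.lf (nat_lit 0) (nat_lit 5836018488) (nat_lit 532) (nat_lit 3488934061)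 (nat_lit 608) (nat_lit 21904818717) (nat_lit 193) (nat_lit 5) (nat_lit 200) (nat_lit 5) (nat_lit 201) (nat_lit 5) (nat_lit 509) (nat_lit 448) (nat_lit 183)) (XT.nd (nat_lit 78) (nat_lit 532) (nat_lit 0) (XT.lf (nat_lit 0) (nat_lit 13941816779) (nat_lit 608) (nat_lit 10040456112) (nat_lit 76) (nat_lit 7638869016) (nat_lit 193) (nat_lit 5) (nat_lit 201) (nat_lit 5) (nat_lit 194) (nat_lit 5) (nat_lit 510) (nat_lit 448) (nat_lit 182)) (XT.lf (nat_lit 0) (nat_lit 5668060776) (nat_lit 532) (nat_lit 13040449042) (nat_lit 608) (nat_lit 13310681722) (nat_lit 186) (nat_lit 5) (nat_lit 193) (nat_lit 5) (nat_lit 194) (nat_lit 5) (nat_lit 511) (nat_lit 448) (nat_lit 181)))) (XT.nd (nat_lit 156) (nat_lit 0) (nat_lit 76) (XT.nd (nat_lit 78) (nat_lit 0) (nat_lit 0) (XT.lf (nat_lit 0) (nat_lit 2015224910) (nat_lit 1748) (nat_lit 3043391860) (nat_lit 1748) (nat_lit 3043391860) (nat_lit 380) (nat_lit 3) (nat_lit 403) (nat_lit 3)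 (nat_lit 403) (nat_lit 5) (nat_lit 449) (nat_lit 449) (nat_lit 242)) (XT.lf (nat_lit 76) (nat_lit 1296167507) (nat_lit 0) (nat_lit 3026043197) (nat_lit 1748) (nat_lit 12038626615) (nat_lit 381) (nat_lit 5) (nat_lit 380) (nat_lit 3) (nat_lit 403) (nat_lit 5) (nat_lit 450) (nat_lit 449) (nat_lit 241))) (XT.nd (nat_lit 78) (nat_lit 0) (nat_lit 0) (XT.lf (nat_lit 0) (nat_lit 4681860944) (nat_lit 1672) (nat_lit 7641726179) (nat_lit 1748) (nat_lit 4195970580) (nat_lit 381) (nat_lit 5) (nat_lit 403) (nat_lit 5) (nat_lit 404) (nat_lit 5) (nat_lit 451) (nat_lit 449) (nat_lit 240)) (XT.lf (nat_lit 0) (nat_lit 5062492904) (nat_lit 1672) (nat_lit 93746128) (nat_lit 1748) (nat_lit 11524942599) (nat_lit 381) (nat_lit 5) (nat_lit 403) (nat_lit 5) (nat_lit 404) (nat_lit 5) (nat_lit 452) (nat_lit 449) (nat_lit 239))))))))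
noncomputable def xc234 : XT := (XT.nd (nat_lit 2184) (nat_lit 9804) (nat_lit 0) (XT.nd (nat_lit 1092) (nat_lit 4028) (nat_lit 0) (XT.nd (nat_lit 546) (nat_lit 0) (nat_lit 228) (XT.nd (nat_lit 234) (nat_lit 0) (nat_lit 76) (XT.nd (nat_lit 78) (nat_lit 0) (nat_lit 0) (XT.lf (nat_lit 0) (nat_lit 5508958752) (nat_lit 1672) (nat_lit 9156600449) (nat_lit 1748) (nat_lit 2179319228) (nat_lit 382) (nat_lit 5) (nat_lit 404) (nat_lit 5) (nat_lit 405) (nat_lit 5) (nat_lit 453) (nat_lit 449) (nat_lit 238)) (XT.nd (nat_lit 78) (nat_lit 0) (nat_lit 76) (XT.lf (nat_lit 0) (nat_lit 5993122262) (nat_lit 1672) (nat_lit 1422212076) (nat_lit 1748) (nat_lit 9595944180) (nat_lit 382) (nat_lit 5) (nat_lit 404) (nat_lit 5) (nat_lit 405) (nat_lit 5) (nat_lit 454) (nat_lit 449) (nat_lit 237)) (XT.lf (nat_lit 0) (nat_lit 6523765193) (nat_lit 1672) (nat_lit 10631055606) (nat_lit 1748) (nat_lit 25454514) (nat_lit 383) (nat_lit 5) (nat_lit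 405) (nat_lit 5) (nat_lit 406) (nat_lit 5) (nat_lit 455) (nat_lit 449) (nat_lit 236)))) (XT.nd (nat_lit 156) (nat_lit 0) (nat_lit 76) (XT.nd (nat_lit 78) (nat_lit 0) (nat_lit 0) (XT.lf (nat_lit 0) (nat_lit 7117951615) (nat_lit 1672) (nat_lit 2705758237) (nat_lit 1748) (nat_lit 7527888116) (nat_lit 383) (nat_lit 5) (nat_lit 405) (nat_lit 5) (nat_lit 406) (nat_lit 5) (nat_lit 456) (nat_lit 449) (nat_lit 235)) (XT.lf (nat_lit 76) (nat_lit 5446055113) (nat_lit 0) (nat_lit 2307654939) (nat_lit 1748) (nat_lit 9772047707) (nat_lit 384) (nat_lit 5) (nat_lit 383) (nat_lit 5) (nat_lit 406) (nat_lit 5) (nat_lit 457) (nat_lit 449) (nat_lit 234))) (XT.nd (nat_lit 78) (nat_lit 0) (nat_lit 0) (XT.lf (nat_lit 0) (nat_lit 8449685598) (nat_lit 1672) (nat_lit 3943891920) (nat_lit 1748) (nat_lit 5308877550) (nat_lit 384) (nat_lit 5) (nat_lit 406) (nat_lit 5) (nat_lit 407) (nat_lit 5) (nat_lit 458) (nat_lit 449) (nat_lit 233)) (XT.lf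 (nat_lit 76) (nat_lit 4393519737) (nat_lit 0) (nat_lit 4804410476) (nat_lit 1748) (nat_lit 8683993397) (nat_lit 385) (nat_lit 5) (nat_lit 384) (nat_lit 5) (nat_lit 407) (nat_lit 5) (nat_lit 459) (nat_lit 449) (nat_lit 232))))) (XT.nd (nat_lit 234) (nat_lit 0) (nat_lit 76) (XT.nd (nat_lit 78) (nat_lit 0) (nat_lit 0) (XT.lf (nat_lit 0) (nat_lit 10001485332) (nat_lit 1672) (nat_lit 5136109473) (nat_lit 1748) (nat_lit 2926583995) (nat_lit 385) (nat_lit 5) (nat_lit 407) (nat_lit 5) (nat_lit 408) (nat_lit 5) (nat_lit 460) (nat_lit 449) (nat_lit 231)) (XT.nd (nat_lit 78) (nat_lit 0) (nat_lit 76) (XT.lf (nat_lit 76) (nat_lit 3392419293) (nat_lit 0) (nat_lit 7477279294) (nat_lit 1748) (nat_lit 7379412877) (nat_lit 386) (nat_lit 5) (nat_lit 385) (nat_lit 5) (nat_lit 408) (nat_lit 5) (nat_lit 461) (nat_lit 449) (nat_lit 230)) (XT.lf (nat_lit 0) (nat_lit 11786989066) (nat_lit 1672) (nat_lit 6281907012) (nat_lit 1748) (nat_lit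 368216473) (nat_lit 386) (nat_lit 5) (nat_lit 408) (nat_lit 5) (nat_lit 409) (nat_lit 5) (nat_lit 462) (nat_lit 449) (nat_lit 229)))) (XT.nd (nat_lit 156) (nat_lit 0) (nat_lit 76) (XT.nd (nat_lit 78) (nat_lit 0) (nat_lit 0) (XT.lf (nat_lit 76) (nat_lit 2443389028) (nat_lit 0) (nat_lit 10339555695) (nat_lit 1748) (nat_lit 5844726499) (nat_lit 387) (nat_lit 5) (nat_lit 386) (nat_lit 5) (nat_lit 409) (nat_lit 5) (nat_lit 463) (nat_lit 449) (nat_lit 228)) (XT.lf (nat_lit 76) (nat_lit 11424855095) (nat_lit 0) (nat_lit 2411132789) (nat_lit 1748) (nat_lit 4985313688) (nat_lit 387) (nat_lit 5) (nat_lit 386) (nat_lit 5) (nat_lit 409) (nat_lit 5) (nat_lit 464) (nat_lit 449) (nat_lit 227))) (XT.nd (nat_lit 78) (nat_lit 0) (nat_lit 0) (XT.lf (nat_lit 76) (nat_lit 1547052897) (nat_lit 0) (nat_lit 13405055739) (nat_lit 1748) (nat_lit 4065859355) (nat_lit 388) (nat_lit 5) (nat_lit 387) (nat_lit 5) (nat_lit 410) (nat_lit 5)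 (nat_lit 465) (nat_lit 449) (nat_lit 226)) (XT.lf (nat_lit 76) (nat_lit 10749994806) (nat_lit 0) (nat_lit 5401247449) (nat_lit 1748) (nat_lit 3066115396) (nat_lit 388) (nat_lit 5) (nat_lit 387) (nat_lit 5) (nat_lit 410) (nat_lit 5) (nat_lit 466) (nat_lit 449) (nat_lit 225)))))) (XT.nd (nat_lit 546) (nat_lit 2736) (nat_lit 0) (XT.nd (nat_lit 234) (nat_lit 0) (nat_lit 76) (XT.nd (nat_lit 78) (nat_lit 1748) (nat_lit 0) (XT.lf (nat_lit 76) (nat_lit 704011185) (nat_lit 0) (nat_lit 16688151334) (nat_lit 1748) (nat_lit 2028220156) (nat_lit 389) (nat_lit 5) (nat_lit 388) (nat_lit 5) (nat_lit 411) (nat_lit 5) (nat_lit 467) (nat_lit 449) (nat_lit 224)) (XT.nd (nat_lit 78) (nat_lit 1748) (nat_lit 0) (XT.lf (nat_lit 76) (nat_lit 10133822516) (nat_lit 0) (nat_lit 8611799210) (nat_lit 1748) (nat_lit 880095639) (nat_lit 389) (nat_lit 5) (nat_lit 388) (nat_lit 5) (nat_lit 411) (nat_lit 5) (nat_lit 468) (nat_lit 449) (nat_lit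 223)) (XT.lf (nat_lit 0) (nat_lit 282597837) (nat_lit 1748) (nat_lit 88335487) (nat_lit 1824) (nat_lit 19464282621) (nat_lit 365) (nat_lit 5) (nat_lit 388) (nat_lit 5) (nat_lit 389) (nat_lit 5) (nat_lit 469) (nat_lit 449) (nat_lit 222)))) (XT.nd (nat_lit 156) (nat_lit 0) (nat_lit 76) (XT.nd (nat_lit 78) (nat_lit 0) (nat_lit 0) (XT.lf (nat_lit 0) (nat_lit 1567370903) (nat_lit 1748) (nat_lit 10480069161) (nat_lit 1824) (nat_lit 7999139251) (nat_lit 366) (nat_lit 5) (nat_lit 389) (nat_lit 5) (nat_lit 390) (nat_lit 5) (nat_lit 470) (nat_lit 449) (nat_lit 221)) (XT.lf (nat_lit 0) (nat_lit 2876477478) (nat_lit 1748) (nat_lit 852492460) (nat_lit 1824) (nat_lit 16533230559) (nat_lit 366) (nat_lit 5) (nat_lit 389) (nat_lit 5) (nat_lit 390) (nat_lit 5) (nat_lit 471) (nat_lit 449) (nat_lit 220))) (XT.nd (nat_lit 78) (nat_lit 0) (nat_lit 0) (XT.lf (nat_lit 0) (nat_lit 4297686957) (nat_lit 1748) (nat_lit 11429008840) (nat_lit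 1824) (nat_lit 4753723130) (nat_lit 367) (nat_lit 5) (nat_lit 390) (nat_lit 5) (nat_lit 391) (nat_lit 5) (nat_lit 472) (nat_lit 449) (nat_lit 219)) (XT.lf (nat_lit 0) (nat_lit 5773513757) (nat_lit 1748) (nat_lit 1566200044) (nat_lit 1824) (nat_lit 13362767240) (nat_lit 367) (nat_lit 5) (nat_lit 390) (nat_lit 5) (nat_lit 391) (nat_lit 5) (nat_lit 473) (nat_lit 449) (nat_lit 218))))) (XT.nd (nat_lit 234) (nat_lit 1672) (nat_lit 0) (XT.nd (nat_lit 78) (nat_lit 1292) (nat_lit 0) (XT.lf (nat_lit 0) (nat_lit 7338801221) (nat_lit 1748) (nat_lit 12332976133) (nat_lit 76) (nat_lit 1256011275) (nat_lit 368) (nat_lit 5) (nat_lit 391) (nat_lit 5) (nat_lit 369) (nat_lit 5) (nat_lit 474) (nat_lit 449) (nat_lit 217)) (XT.nd (nat_lit 78) (nat_lit 1292) (nat_lit 0) (XT.lf (nat_lit 0) (nat_lit 8990468431) (nat_lit 1748) (nat_lit 2229317687) (nat_lit 76) (nat_lit 9936717824) (nat_lit 368) (nat_lit 5) (nat_lit 391) (nat_lit 5) (nat_lit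 369) (nat_lit 5) (nat_lit 475) (nat_lit 449) (nat_lit 216)) (XT.lf (nat_lit 0) (nat_lit 8180244319) (nat_lit 1292) (nat_lit 2544003875) (nat_lit 1368) (nat_lit 10664566777) (nat_lit 351) (nat_lit 5) (nat_lit 368) (nat_lit 5) (nat_lit 369) (nat_lit 5) (nat_lit 476) (nat_lit 449) (nat_lit 215)))) (XT.nd (nat_lit 156) (nat_lit 836) (nat_lit 0) (XT.nd (nat_lit 78) (nat_lit 836) (nat_lit 0) (XT.lf (nat_lit 0) (nat_lit 12544728619) (nat_lit 1368) (nat_lit 2841811918) (nat_lit 76) (nat_lit 6238194117) (nat_lit 351) (nat_lit 5) (nat_lit 369) (nat_lit 5) (nat_lit 352) (nat_lit 5) (nat_lit 477) (nat_lit 449) (nat_lit 214)) (XT.lf (nat_lit 0) (nat_lit 7814473262) (nat_lit 836) (nat_lit 6650835671) (nat_lit 912) (nat_lit 7398792870) (nat_lit 340) (nat_lit 5) (nat_lit 351) (nat_lit 5) (nat_lit 352) (nat_lit 5) (nat_lit 478) (nat_lit 449) (nat_lit 213))) (XT.nd (nat_lit 78) (nat_lit 836) (nat_lit 0) (XT.lf (nat_lit 0) (nat_lit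 16454330537) (nat_lit 912) (nat_lit 3403775101) (nat_lit 76) (nat_lit 2249552885) (nat_lit 340) (nat_lit 5) (nat_lit 352) (nat_lit 5) (nat_lit 341) (nat_lit 5) (nat_lit 479) (nat_lit 449) (nat_lit 212)) (XT.lf (nat_lit 0) (nat_lit 7505951994) (nat_lit 836) (nat_lit 11066197333) (nat_lit 912) (nat_lit 3782159479) (nat_lit 329) (nat_lit 5) (nat_lit 340) (nat_lit 5) (nat_lit 341) (nat_lit 5) (nat_lit 480) (nat_lit 449) (nat_lit 211))))))) (XT.nd (nat_lit 1092) (nat_lit 4332) (nat_lit 0) (XT.nd (nat_lit 546) (nat_lit 2964) (nat_lit 0) (XT.nd (nat_lit 234) (nat_lit 1596) (nat_lit 0) (XT.nd (nat_lit 78) (nat_lit 912) (nat_lit 0) (XT.lf (nat_lit 0) (nat_lit 18676595275) (nat_lit 836) (nat_lit 2074859786) (nat_lit 912) (nat_lit 1854057135) (nat_lit 329) (nat_lit 5) (nat_lit 340) (nat_lit 5) (nat_lit 341) (nat_lit 5) (nat_lit 481) (nat_lit 449) (nat_lit 210)) (XT.nd (nat_lit 78) (nat_lit 0) (nat_lit 0) (XT.lf (nat_lit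 0) (nat_lit 201260109) (nat_lit 912) (nat_lit 15606720657) (nat_lit 76) (nat_lit 7051944277) (nat_lit 317) (nat_lit 5) (nat_lit 329) (nat_lit 5) (nat_lit 318) (nat_lit 5) (nat_lit 482) (nat_lit 449) (nat_lit 209)) (XT.lf (nat_lit 0) (nat_lit 2309548505) (nat_lit 912) (nat_lit 4436322857) (nat_lit 76) (nat_lit 16372578422) (nat_lit 317) (nat_lit 5) (nat_lit 329) (nat_lit 5) (nat_lit 318) (nat_lit 5) (nat_lit 483) (nat_lit 449) (nat_lit 208)))) (XT.nd (nat_lit 156) (nat_lit 760) (nat_lit 0) (XT.nd (nat_lit 78) (nat_lit 0) (nat_lit 0) (XT.lf (nat_lit 0) (nat_lit 4518730348) (nat_lit 912) (nat_lit 16351311436) (nat_lit 76) (nat_lit 2510931186) (nat_lit 306) (nat_lit 5) (nat_lit 318) (nat_lit 5) (nat_lit 307) (nat_lit 5) (nat_lit 484) (nat_lit 449) (nat_lit 207)) (XT.lf (nat_lit 0) (nat_lit 6843243898) (nat_lit 912) (nat_lit 4911360732) (nat_lit 76) (nat_lit 11892721484) (nat_lit 306) (nat_lit 5) (nat_lit 318) (nat_lit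 5) (nat_lit 307) (nat_lit 5) (nat_lit 485) (nat_lit 449) (nat_lit 206))) (XT.nd (nat_lit 78) (nat_lit 0) (nat_lit 0) (XT.lf (nat_lit 0) (nat_lit 6843774899) (nat_lit 760) (nat_lit 2411481864) (nat_lit 836) (nat_lit 14662931786) (nat_lit 296) (nat_lit 5) (nat_lit 306) (nat_lit 5) (nat_lit 307) (nat_lit 5) (nat_lit 486) (nat_lit 449) (nat_lit 205)) (XT.lf (nat_lit 0) (nat_lit 11791524343) (nat_lit 836) (nat_lit 5343076755) (nat_lit 76) (nat_lit 7058349205) (nat_lit 296) (nat_lit 5) (nat_lit 307) (nat_lit 5) (nat_lit 297) (nat_lit 5) (nat_lit 487) (nat_lit 449) (nat_lit 204))))) (XT.nd (nat_lit 234) (nat_lit 1520) (nat_lit 0) (XT.nd (nat_lit 78) (nat_lit 684) (nat_lit 0) (XT.lf (nat_lit 0) (nat_lit 6691322341) (nat_lit 760) (nat_lit 7743296115) (nat_lit 836) (nat_lit 10037469126) (nat_lit 286) (nat_lit 5) (nat_lit 296) (nat_lit 5) (nat_lit 297) (nat_lit 5) (nat_lit 488) (nat_lit 449) (nat_lit 203)) (XT.nd (nat_lit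 78) (nat_lit 684) (nat_lit 0) (XT.lf (nat_lit 0) (nat_lit 17175315774) (nat_lit 836) (nat_lit 5732808764) (nat_lit 76) (nat_lit 1847790512) (nat_lit 286) (nat_lit 5) (nat_lit 297) (nat_lit 5) (nat_lit 287) (nat_lit 5) (nat_lit 489) (nat_lit 449) (nat_lit 202)) (XT.lf (nat_lit 0) (nat_lit 6587897233) (nat_lit 684) (nat_lit 13473776592) (nat_lit 760) (nat_lit 4981930531) (nat_lit 277) (nat_lit 5) (nat_lit 286) (nat_lit 5) (nat_lit 287) (nat_lit 5) (nat_lit 490) (nat_lit 449) (nat_lit 201)))) (XT.nd (nat_lit 156) (nat_lit 684) (nat_lit 0) (XT.nd (nat_lit 78) (nat_lit 836) (nat_lit 0) (XT.lf (nat_lit 0) (nat_lit 19229418039) (nat_lit 684) (nat_lit 3811646229) (nat_lit 760) (nat_lit 2295279256) (nat_lit 277) (nat_lit 5) (nat_lit 286) (nat_lit 5) (nat_lit 287) (nat_lit 5) (nat_lit 491) (nat_lit 449) (nat_lit 200)) (XT.lf (nat_lit 0) (nat_lit 518331328) (nat_lit 836) (nat_lit 19104826582) (nat_lit 76) (nat_lit 6010142585)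 (nat_lit 266) (nat_lit 5) (nat_lit 277) (nat_lit 5) (nat_lit 267) (nat_lit 5) (nat_lit 492) (nat_lit 449) (nat_lit 199))) (XT.nd (nat_lit 78) (nat_lit 684) (nat_lit 0) (XT.lf (nat_lit 0) (nat_lit 3420917206) (nat_lit 836) (nat_lit 6480058073) (nat_lit 76) (nat_lit 16033651209) (nat_lit 266) (nat_lit 5) (nat_lit 277) (nat_lit 5) (nat_lit 267) (nat_lit 5) (nat_lit 493) (nat_lit 449) (nat_lit 198)) (XT.lf (nat_lit 0) (nat_lit 6420972758) (nat_lit 760) (nat_lit 19762664433) (nat_lit 76) (nat_lit 57555463) (nat_lit 257) (nat_lit 5) (nat_lit 267) (nat_lit 5) (nat_lit 258) (nat_lit 5) (nat_lit 494) (nat_lit 449) (nat_lit 197)))))) (XT.nd (nat_lit 546) (nat_lit 2356) (nat_lit 0) (XT.nd (nat_lit 234) (nat_lit 1292) (nat_lit 0) (XT.nd (nat_lit 78) (nat_lit 684) (nat_lit 0) (XT.lf (nat_lit 0) (nat_lit 9587381902) (nat_lit 760) (nat_lit 6838054763) (nat_lit 76) (nat_lit 10126328406) (nat_lit 257) (nat_lit 5) (nat_lit 267)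 (nat_lit 5) (nat_lit 258) (nat_lit 5) (nat_lit 495) (nat_lit 449) (nat_lit 196)) (XT.nd (nat_lit 78) (nat_lit 0) (nat_lit 0) (XT.lf (nat_lit 0) (nat_lit 6426089065) (nat_lit 684) (nat_lit 6429821741) (nat_lit 760) (nat_lit 14011864234) (nat_lit 248) (nat_lit 5) (nat_lit 257) (nat_lit 5) (nat_lit 258) (nat_lit 5) (nat_lit 496) (nat_lit 449) (nat_lit 195)) (XT.lf (nat_lit 0) (nat_lit 16257554225) (nat_lit 760) (nat_lit 7169007158) (nat_lit 76) (nat_lit 3762190846) (nat_lit 248) (nat_lit 5) (nat_lit 258) (nat_lit 5) (nat_lit 249) (nat_lit 5) (nat_lit 497) (nat_lit 449) (nat_lit 194)))) (XT.nd (nat_lit 156) (nat_lit 684) (nat_lit 0) (XT.nd (nat_lit 78) (nat_lit 0) (nat_lit 0) (XT.lf (nat_lit 0) (nat_lit 6407367862) (nat_lit 608) (nat_lit 13401205567) (nat_lit 684) (nat_lit 7705950535) (nat_lit 240) (nat_lit 5) (nat_lit 248) (nat_lit 5) (nat_lit 249) (nat_lit 5) (nat_lit 498) (nat_lit 449) (nat_lit 193)) (XT.lf (nat_lit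 0) (nat_lit 20349259725) (nat_lit 608) (nat_lit 3126656516) (nat_lit 684) (nat_lit 4369990654) (nat_lit 240) (nat_lit 5) (nat_lit 248) (nat_lit 5) (nat_lit 249) (nat_lit 5) (nat_lit 499) (nat_lit 449) (nat_lit 192))) (XT.nd (nat_lit 78) (nat_lit 76) (nat_lit 0) (XT.lf (nat_lit 0) (nat_lit 6419339431) (nat_lit 608) (nat_lit 20883936091) (nat_lit 684) (nat_lit 878910359) (nat_lit 232) (nat_lit 5) (nat_lit 240) (nat_lit 5) (nat_lit 241) (nat_lit 5) (nat_lit 500) (nat_lit 449) (nat_lit 191)) (XT.lf (nat_lit 0) (nat_lit 2715424352) (nat_lit 684) (nat_lit 7850569730) (nat_lit 76) (nat_lit 17957477665) (nat_lit 231) (nat_lit 5) (nat_lit 240) (nat_lit 5) (nat_lit 232) (nat_lit 5) (nat_lit 501) (nat_lit 449) (nat_lit 190))))) (XT.nd (nat_lit 234) (nat_lit 1140) (nat_lit 0) (XT.nd (nat_lit 78) (nat_lit 608) (nat_lit 0) (XT.lf (nat_lit 0) (nat_lit 6408895574) (nat_lit 684) (nat_lit 22455597238) (nat_lit 76) (nat_lit 6195644)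 (nat_lit 223) (nat_lit 5) (nat_lit 232) (nat_lit 5) (nat_lit 224) (nat_lit 5) (nat_lit 502) (nat_lit 449) (nat_lit 189)) (XT.nd (nat_lit 78) (nat_lit 608) (nat_lit 0) (XT.lf (nat_lit 0) (nat_lit 10296584819) (nat_lit 684) (nat_lit 8224802124) (nat_lit 76) (nat_lit 10701057238) (nat_lit 223) (nat_lit 5) (nat_lit 232) (nat_lit 5) (nat_lit 224) (nat_lit 5) (nat_lit 503) (nat_lit 449) (nat_lit 188)) (XT.lf (nat_lit 0) (nat_lit 6371062775) (nat_lit 608) (nat_lit 7929727090) (nat_lit 684) (nat_lit 15279671536) (nat_lit 215) (nat_lit 5) (nat_lit 223) (nat_lit 5) (nat_lit 224) (nat_lit 5) (nat_lit 504) (nat_lit 449) (nat_lit 187)))) (XT.nd (nat_lit 156) (nat_lit 608) (nat_lit 0) (XT.nd (nat_lit 78) (nat_lit 532) (nat_lit 0) (XT.lf (nat_lit 0) (nat_lit 18456720230) (nat_lit 684) (nat_lit 8596357730) (nat_lit 76) (nat_lit 2891129768) (nat_lit 215) (nat_lit 5) (nat_lit 224) (nat_lit 5) (nat_lit 216) (nat_lit 5) (nat_lit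 505) (nat_lit 449) (nat_lit 186)) (XT.lf (nat_lit 0) (nat_lit 6336461455) (nat_lit 532) (nat_lit 16450438061) (nat_lit 608) (nat_lit 7526508418) (nat_lit 208) (nat_lit 5) (nat_lit 215) (nat_lit 5) (nat_lit 216) (nat_lit 5) (nat_lit 506) (nat_lit 449) (nat_lit 185))) (XT.nd (nat_lit 78) (nat_lit 608) (nat_lit 0) (XT.lf (nat_lit 0) (nat_lit 21681411514) (nat_lit 532) (nat_lit 5577461710) (nat_lit 608) (nat_lit 3430016630) (nat_lit 208) (nat_lit 5) (nat_lit 215) (nat_lit 5) (nat_lit 216) (nat_lit 5) (nat_lit 507) (nat_lit 449) (nat_lit 184)) (XT.lf (nat_lit 0) (nat_lit 813361814) (nat_lit 608) (nat_lit 24770507143) (nat_lit 76) (nat_lit 5486421294) (nat_lit 200) (nat_lit 5) (nat_lit 208) (nat_lit 5) (nat_lit 201) (nat_lit 5) (nat_lit 508) (nat_lit 449) (nat_lit 183))))))))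
noncomputable def xc235 : XT := (XT.nd (nat_lit 56706) (nat_lit 0) (nat_lit 2280) (XT.nd (nat_lit 55614) (nat_lit 0) (nat_lit 13072) (XT.nd (nat_lit 55068) (nat_lit 0) (nat_lit 14364) (XT.nd (nat_lit 54756) (nat_lit 0) (nat_lit 14212) (XT.nd (nat_lit 78) (nat_lit 532) (nat_lit 0) (XT.lf (nat_lit 0) (nat_lit 5191065980) (nat_lit 608) (nat_lit 9485926018) (nat_lit 76) (nat_lit 16779966928) (nat_lit 200) (nat_lit 5) (nat_lit 208) (nat_lit 5) (nat_lit 201) (nat_lit 5) (nat_lit 509) (nat_lit 449) (nat_lit 182)) (XT.nd (nat_lit 78) (nat_lit 0) (nat_lit 0) (XT.lf (nat_lit 0) (nat_lit 6182438051) (nat_lit 532) (nat_lit 3511635580) (nat_lit 608) (nat_lit 22156533765) (nat_lit 193) (nat_lit 5) (nat_lit 200) (nat_lit 5) (nat_lit 201) (nat_lit 5) (nat_lit 510) (nat_lit 449) (nat_lit 181)) (XT.lf (nat_lit 0) (nat_lit 14399993984) (nat_lit 608) (nat_lit 10012684025) (nat_lit 76) (nat_lit 7837195158) (nat_lit 193) (nat_lit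 5) (nat_lit 201) (nat_lit 5) (nat_lit 194) (nat_lit 5) (nat_lit 511) (nat_lit 449) (nat_lit 180)))) (XT.nd (nat_lit 156) (nat_lit 0) (nat_lit 76) (XT.nd (nat_lit 78) (nat_lit 0) (nat_lit 0) (XT.lf (nat_lit 0) (nat_lit 2296992233) (nat_lit 1748) (nat_lit 2981018783) (nat_lit 1748) (nat_lit 2981018783) (nat_lit 380) (nat_lit 3) (nat_lit 403) (nat_lit 3) (nat_lit 403) (nat_lit 5) (nat_lit 450) (nat_lit 450) (nat_lit 240)) (XT.lf (nat_lit 76) (nat_lit 1566951096) (nat_lit 0) (nat_lit 3316750136) (nat_lit 1748) (nat_lit 11794479851) (nat_lit 381) (nat_lit 5) (nat_lit 380) (nat_lit 3) (nat_lit 403) (nat_lit 5) (nat_lit 451) (nat_lit 450) (nat_lit 239))) (XT.nd (nat_lit 78) (nat_lit 0) (nat_lit 0) (XT.lf (nat_lit 0) (nat_lit 5239764626) (nat_lit 1672) (nat_lit 7543357034) (nat_lit 1748) (nat_lit 4057177106) (nat_lit 381) (nat_lit 5) (nat_lit 403) (nat_lit 5) (nat_lit 404) (nat_lit 5) (nat_lit 452) (nat_lit 450) (nat_lit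 238)) (XT.lf (nat_lit 76) (nat_lit 152659207) (nat_lit 0) (nat_lit 5467237920) (nat_lit 1748) (nat_lit 11385427442) (nat_lit 382) (nat_lit 5) (nat_lit 381) (nat_lit 5) (nat_lit 404) (nat_lit 5) (nat_lit 453) (nat_lit 450) (nat_lit 237))))) (XT.nd (nat_lit 234) (nat_lit 0) (nat_lit 76) (XT.nd (nat_lit 78) (nat_lit 0) (nat_lit 0) (XT.lf (nat_lit 0) (nat_lit 6065645731) (nat_lit 1672) (nat_lit 9084448360) (nat_lit 1748) (nat_lit 2022401155) (nat_lit 382) (nat_lit 5) (nat_lit 404) (nat_lit 5) (nat_lit 405) (nat_lit 5) (nat_lit 454) (nat_lit 450) (nat_lit 236)) (XT.nd (nat_lit 78) (nat_lit 0) (nat_lit 0) (XT.lf (nat_lit 0) (nat_lit 6550737456) (nat_lit 1672) (nat_lit 1200377790) (nat_lit 1748) (nat_lit 9591290065) (nat_lit 382) (nat_lit 5) (nat_lit 404) (nat_lit 5) (nat_lit 405) (nat_lit 5) (nat_lit 455) (nat_lit 450) (nat_lit 235)) (XT.lf (nat_lit 76) (nat_lit 6929010289) (nat_lit 0) (nat_lit 155843039) (nat_lit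 1748) (nat_lit 10430078251) (nat_lit 383) (nat_lit 5) (nat_lit 382) (nat_lit 5) (nat_lit 405) (nat_lit 5) (nat_lit 456) (nat_lit 450) (nat_lit 234)))) (XT.nd (nat_lit 156) (nat_lit 0) (nat_lit 76) (XT.nd (nat_lit 78) (nat_lit 0) (nat_lit 0) (XT.lf (nat_lit 0) (nat_lit 7681488094) (nat_lit 1672) (nat_lit 2506180006) (nat_lit 1748) (nat_lit 7502207903) (nat_lit 383) (nat_lit 5) (nat_lit 405) (nat_lit 5) (nat_lit 406) (nat_lit 5) (nat_lit 457) (nat_lit 450) (nat_lit 233)) (XT.lf (nat_lit 76) (nat_lit 5807000576) (nat_lit 0) (nat_lit 2516339053) (nat_lit 1748) (nat_lit 9544318282) (nat_lit 384) (nat_lit 5) (nat_lit 383) (nat_lit 5) (nat_lit 406) (nat_lit 5) (nat_lit 458) (nat_lit 450) (nat_lit 232))) (XT.nd (nat_lit 78) (nat_lit 0) (nat_lit 0) (XT.lf (nat_lit 0) (nat_lit 9024071581) (nat_lit 1672) (nat_lit 3766206402) (nat_lit 1748) (nat_lit 5257800796) (nat_lit 384) (nat_lit 5) (nat_lit 406) (nat_lit 5) (nat_lit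 407) (nat_lit 5) (nat_lit 459) (nat_lit 450) (nat_lit 231)) (XT.lf (nat_lit 76) (nat_lit 4736265571) (nat_lit 0) (nat_lit 5044721468) (nat_lit 1748) (nat_lit 8450281758) (nat_lit 385) (nat_lit 5) (nat_lit 384) (nat_lit 5) (nat_lit 407) (nat_lit 5) (nat_lit 460) (nat_lit 450) (nat_lit 230)))))) (XT.nd (nat_lit 546) (nat_lit 1520) (nat_lit 0) (XT.nd (nat_lit 234) (nat_lit 0) (nat_lit 76) (XT.nd (nat_lit 78) (nat_lit 0) (nat_lit 0) (XT.lf (nat_lit 0) (nat_lit 10591869776) (nat_lit 1672) (nat_lit 4979905080) (nat_lit 1748) (nat_lit 2845575209) (nat_lit 385) (nat_lit 5) (nat_lit 407) (nat_lit 5) (nat_lit 408) (nat_lit 5) (nat_lit 461) (nat_lit 450) (nat_lit 229)) (XT.nd (nat_lit 78) (nat_lit 0) (nat_lit 76) (XT.lf (nat_lit 76) (nat_lit 3717490797) (nat_lit 0) (nat_lit 7753972548) (nat_lit 1748) (nat_lit 7134643701) (nat_lit 386) (nat_lit 5) (nat_lit 385) (nat_lit 5) (nat_lit 408) (nat_lit 5) (nat_lit 462) (nat_lit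 450) (nat_lit 228)) (XT.lf (nat_lit 0) (nat_lit 12398753611) (nat_lit 1672) (nat_lit 6146726239) (nat_lit 1748) (nat_lit 252561093) (nat_lit 386) (nat_lit 5) (nat_lit 408) (nat_lit 5) (nat_lit 409) (nat_lit 5) (nat_lit 463) (nat_lit 450) (nat_lit 227)))) (XT.nd (nat_lit 156) (nat_lit 0) (nat_lit 76) (XT.nd (nat_lit 78) (nat_lit 0) (nat_lit 0) (XT.lf (nat_lit 76) (nat_lit 2751359808) (nat_lit 0) (nat_lit 10657577808) (nat_lit 1748) (nat_lit 5583592739) (nat_lit 387) (nat_lit 5) (nat_lit 386) (nat_lit 5) (nat_lit 409) (nat_lit 5) (nat_lit 464) (nat_lit 450) (nat_lit 226)) (XT.lf (nat_lit 76) (nat_lit 11907374745) (nat_lit 0) (nat_lit 2568405443) (nat_lit 1748) (nat_lit 4714403991) (nat_lit 387) (nat_lit 5) (nat_lit 386) (nat_lit 5) (nat_lit 409) (nat_lit 5) (nat_lit 465) (nat_lit 450) (nat_lit 225))) (XT.nd (nat_lit 78) (nat_lit 0) (nat_lit 0) (XT.lf (nat_lit 76) (nat_lit 1838542464) (nat_lit 0) (nat_lit 13769559333)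 (nat_lit 1748) (nat_lit 3782810090) (nat_lit 388) (nat_lit 5) (nat_lit 387) (nat_lit 5) (nat_lit 410) (nat_lit 5) (nat_lit 466) (nat_lit 450) (nat_lit 224)) (XT.lf (nat_lit 76) (nat_lit 11220434418) (nat_lit 0) (nat_lit 5603784633) (nat_lit 1748) (nat_lit 2770215692) (nat_lit 388) (nat_lit 5) (nat_lit 387) (nat_lit 5) (nat_lit 410) (nat_lit 5) (nat_lit 467) (nat_lit 450) (nat_lit 223))))) (XT.nd (nat_lit 234) (nat_lit 0) (nat_lit 76) (XT.nd (nat_lit 78) (nat_lit 1748) (nat_lit 0) (XT.lf (nat_lit 76) (nat_lit 979682430) (nat_lit 0) (nat_lit 17104510304) (nat_lit 1748) (nat_lit 1717448145) (nat_lit 389) (nat_lit 5) (nat_lit 388) (nat_lit 5) (nat_lit 411) (nat_lit 5) (nat_lit 468) (nat_lit 450) (nat_lit 222)) (XT.nd (nat_lit 78) (nat_lit 1748) (nat_lit 0) (XT.lf (nat_lit 76) (nat_lit 10592960752) (nat_lit 0) (nat_lit 8865011610) (nat_lit 1748) (nat_lit 553250088) (nat_lit 389) (nat_lit 5) (nat_lit 388) (nat_lit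 5) (nat_lit 411) (nat_lit 5) (nat_lit 469) (nat_lit 450) (nat_lit 221)) (XT.lf (nat_lit 76) (nat_lit 168216410) (nat_lit 0) (nat_lit 454390236) (nat_lit 1824) (nat_lit 19602376098) (nat_lit 366) (nat_lit 5) (nat_lit 365) (nat_lit 5) (nat_lit 389) (nat_lit 5) (nat_lit 470) (nat_lit 450) (nat_lit 220)))) (XT.nd (nat_lit 156) (nat_lit 0) (nat_lit 76) (XT.nd (nat_lit 78) (nat_lit 0) (nat_lit 0) (XT.lf (nat_lit 0) (nat_lit 1926620149) (nat_lit 1748) (nat_lit 10427949800) (nat_lit 1824) (nat_lit 8086137442) (nat_lit 366) (nat_lit 5) (nat_lit 389) (nat_lit 5) (nat_lit 390) (nat_lit 5) (nat_lit 471) (nat_lit 450) (nat_lit 219)) (XT.lf (nat_lit 0) (nat_lit 3255479408) (nat_lit 1748) (nat_lit 612953345) (nat_lit 1824) (nat_lit 16792341646) (nat_lit 366) (nat_lit 5) (nat_lit 389) (nat_lit 5) (nat_lit 390) (nat_lit 5) (nat_lit 472) (nat_lit 450) (nat_lit 218))) (XT.nd (nat_lit 78) (nat_lit 0) (nat_lit 0) (XT.lf (nat_lit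 0) (nat_lit 4700062637) (nat_lit 1748) (nat_lit 11395713671) (nat_lit 1824) (nat_lit 4787686619) (nat_lit 367) (nat_lit 5) (nat_lit 390) (nat_lit 5) (nat_lit 391) (nat_lit 5) (nat_lit 473) (nat_lit 450) (nat_lit 217)) (XT.lf (nat_lit 0) (nat_lit 6199201621) (nat_lit 1748) (nat_lit 1340783509) (nat_lit 1824) (nat_lit 13570109865) (nat_lit 367) (nat_lit 5) (nat_lit 390) (nat_lit 5) (nat_lit 391) (nat_lit 5) (nat_lit 474) (nat_lit 450) (nat_lit 216))))))) (XT.nd (nat_lit 1092) (nat_lit 5548) (nat_lit 0) (XT.nd (nat_lit 546) (nat_lit 2508) (nat_lit 0) (XT.nd (nat_lit 234) (nat_lit 1672) (nat_lit 0) (XT.nd (nat_lit 78) (nat_lit 1292) (nat_lit 0) (XT.lf (nat_lit 0) (nat_lit 7791038666) (nat_lit 1748) (nat_lit 12317912171) (nat_lit 76) (nat_lit 1231057556) (nat_lit 368) (nat_lit 5) (nat_lit 391) (nat_lit 5) (nat_lit 369) (nat_lit 5) (nat_lit 475) (nat_lit 450) (nat_lit 215)) (XT.nd (nat_lit 78) (nat_lit 1292) (nat_lit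 0) (XT.lf (nat_lit 0) (nat_lit 9469749781) (nat_lit 1748) (nat_lit 2017312390) (nat_lit 76) (nat_lit 10086360078) (nat_lit 368) (nat_lit 5) (nat_lit 391) (nat_lit 5) (nat_lit 369) (nat_lit 5) (nat_lit 476) (nat_lit 450) (nat_lit 214)) (XT.lf (nat_lit 0) (nat_lit 8598752754) (nat_lit 1292) (nat_lit 2635235389) (nat_lit 1368) (nat_lit 10576480055) (nat_lit 351) (nat_lit 5) (nat_lit 368) (nat_lit 5) (nat_lit 369) (nat_lit 5) (nat_lit 477) (nat_lit 450) (nat_lit 213)))) (XT.nd (nat_lit 156) (nat_lit 836) (nat_lit 0) (XT.nd (nat_lit 78) (nat_lit 836) (nat_lit 0) (XT.lf (nat_lit 0) (nat_lit 13084832011) (nat_lit 1368) (nat_lit 2642482853) (nat_lit 76) (nat_lit 6323916607) (nat_lit 351) (nat_lit 5) (nat_lit 369) (nat_lit 5) (nat_lit 352) (nat_lit 5) (nat_lit 478) (nat_lit 450) (nat_lit 212)) (XT.lf (nat_lit 0) (nat_lit 8225242733) (nat_lit 836) (nat_lit 6814562690) (nat_lit 912) (nat_lit 7255665101) (nat_lit 340) (nat_lit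 5) (nat_lit 351) (nat_lit 5) (nat_lit 352) (nat_lit 5) (nat_lit 479) (nat_lit 450) (nat_lit 211))) (XT.nd (nat_lit 78) (nat_lit 836) (nat_lit 0) (XT.lf (nat_lit 0) (nat_lit 17062820010) (nat_lit 912) (nat_lit 3216367551) (nat_lit 76) (nat_lit 2264830673) (nat_lit 340) (nat_lit 5) (nat_lit 352) (nat_lit 5) (nat_lit 341) (nat_lit 5) (nat_lit 480) (nat_lit 450) (nat_lit 210)) (XT.lf (nat_lit 0) (nat_lit 7909873276) (nat_lit 836) (nat_lit 11309291265) (nat_lit 912) (nat_lit 3576517623) (nat_lit 329) (nat_lit 5) (nat_lit 340) (nat_lit 5) (nat_lit 341) (nat_lit 5) (nat_lit 481) (nat_lit 450) (nat_lit 209))))) (XT.nd (nat_lit 234) (nat_lit 1596) (nat_lit 0) (XT.nd (nat_lit 78) (nat_lit 912) (nat_lit 0) (XT.lf (nat_lit 0) (nat_lit 19298952908) (nat_lit 836) (nat_lit 2137700105) (nat_lit 912) (nat_lit 1615368625) (nat_lit 329) (nat_lit 5) (nat_lit 340) (nat_lit 5) (nat_lit 341) (nat_lit 5) (nat_lit 482) (nat_lit 450)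 (nat_lit 208)) (XT.nd (nat_lit 78) (nat_lit 0) (nat_lit 0) (XT.lf (nat_lit 0) (nat_lit 473617914) (nat_lit 912) (nat_lit 15662208979) (nat_lit 76) (nat_lit 7175740240) (nat_lit 317) (nat_lit 5) (nat_lit 329) (nat_lit 5) (nat_lit 318) (nat_lit 5) (nat_lit 483) (nat_lit 450) (nat_lit 207)) (XT.lf (nat_lit 0) (nat_lit 2618810653) (nat_lit 912) (nat_lit 4273435499) (nat_lit 76) (nat_lit 16683125165) (nat_lit 317) (nat_lit 5) (nat_lit 329) (nat_lit 5) (nat_lit 318) (nat_lit 5) (nat_lit 484) (nat_lit 450) (nat_lit 206)))) (XT.nd (nat_lit 156) (nat_lit 760) (nat_lit 0) (XT.nd (nat_lit 78) (nat_lit 0) (nat_lit 0) (XT.lf (nat_lit 0) (nat_lit 4868578588) (nat_lit 912) (nat_lit 16422943915) (nat_lit 76) (nat_lit 2551698063) (nat_lit 306) (nat_lit 5) (nat_lit 318) (nat_lit 5) (nat_lit 307) (nat_lit 5) (nat_lit 485) (nat_lit 450) (nat_lit 205)) (XT.lf (nat_lit 0) (nat_lit 7234494691) (nat_lit 912) (nat_lit 4759201918) (nat_lit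 76) (nat_lit 12121309495) (nat_lit 306) (nat_lit 5) (nat_lit 318) (nat_lit 5) (nat_lit 307) (nat_lit 5) (nat_lit 486) (nat_lit 450) (nat_lit 204))) (XT.nd (nat_lit 78) (nat_lit 0) (nat_lit 0) (XT.lf (nat_lit 0) (nat_lit 7229389150) (nat_lit 760) (nat_lit 2461985681) (nat_lit 836) (nat_lit 14699981922) (nat_lit 296) (nat_lit 5) (nat_lit 306) (nat_lit 5) (nat_lit 307) (nat_lit 5) (nat_lit 487) (nat_lit 450) (nat_lit 203)) (XT.lf (nat_lit 0) (nat_lit 12273431465) (nat_lit 836) (nat_lit 5200968599) (nat_lit 76) (nat_lit 7197315842) (nat_lit 296) (nat_lit 5) (nat_lit 307) (nat_lit 5) (nat_lit 297) (nat_lit 5) (nat_lit 488) (nat_lit 450) (nat_lit 202)))))) (XT.nd (nat_lit 546) (nat_lit 2584) (nat_lit 0) (XT.nd (nat_lit 234) (nat_lit 1520) (nat_lit 0) (XT.nd (nat_lit 78) (nat_lit 684) (nat_lit 0) (XT.lf (nat_lit 0) (nat_lit 7072480521) (nat_lit 760) (nat_lit 7893687749) (nat_lit 836) (nat_lit 9990335414) (nat_lit 286)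 (nat_lit 5) (nat_lit 296) (nat_lit 5) (nat_lit 297) (nat_lit 5) (nat_lit 489) (nat_lit 450) (nat_lit 201)) (XT.nd (nat_lit 78) (nat_lit 684) (nat_lit 0) (XT.lf (nat_lit 0) (nat_lit 17756946104) (nat_lit 836) (nat_lit 5600084222) (nat_lit 76) (nat_lit 1889075348) (nat_lit 286) (nat_lit 5) (nat_lit 297) (nat_lit 5) (nat_lit 287) (nat_lit 5) (nat_lit 490) (nat_lit 450) (nat_lit 200)) (XT.lf (nat_lit 0) (nat_lit 6965408391) (nat_lit 684) (nat_lit 13732549420) (nat_lit 760) (nat_lit 4841655665) (nat_lit 277) (nat_lit 5) (nat_lit 286) (nat_lit 5) (nat_lit 287) (nat_lit 5) (nat_lit 491) (nat_lit 450) (nat_lit 199)))) (XT.nd (nat_lit 156) (nat_lit 684) (nat_lit 0) (XT.nd (nat_lit 78) (nat_lit 836) (nat_lit 0) (XT.lf (nat_lit 0) (nat_lit 19854940923) (nat_lit 684) (nat_lit 3877386307) (nat_lit 760) (nat_lit 2105975550) (nat_lit 277) (nat_lit 5) (nat_lit 286) (nat_lit 5) (nat_lit 287) (nat_lit 5) (nat_lit 492) (nat_lit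 450) (nat_lit 198)) (XT.lf (nat_lit 0) (nat_lit 757933025) (nat_lit 836) (nat_lit 19239706086) (nat_lit 76) (nat_lit 6143590077) (nat_lit 266) (nat_lit 5) (nat_lit 277) (nat_lit 5) (nat_lit 267) (nat_lit 5) (nat_lit 493) (nat_lit 450) (nat_lit 197))) (XT.nd (nat_lit 78) (nat_lit 684) (nat_lit 0) (XT.lf (nat_lit 0) (nat_lit 3714075815) (nat_lit 836) (nat_lit 6367289599) (nat_lit 76) (nat_lit 16367309174) (nat_lit 266) (nat_lit 5) (nat_lit 277) (nat_lit 5) (nat_lit 267) (nat_lit 5) (nat_lit 494) (nat_lit 450) (nat_lit 196)) (XT.lf (nat_lit 0) (nat_lit 6771411648) (nat_lit 760) (nat_lit 19912680567) (nat_lit 76) (nat_lit 77337214) (nat_lit 257) (nat_lit 5) (nat_lit 267) (nat_lit 5) (nat_lit 258) (nat_lit 5) (nat_lit 495) (nat_lit 450) (nat_lit 195))))) (XT.nd (nat_lit 312) (nat_lit 1292) (nat_lit 0) (XT.nd (nat_lit 156) (nat_lit 608) (nat_lit 0) (XT.nd (nat_lit 78) (nat_lit 684) (nat_lit 0) (XT.lf (nat_lit 0) (nat_lit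 9996795652) (nat_lit 760) (nat_lit 6734387275) (nat_lit 76) (nat_lit 10347120309) (nat_lit 257) (nat_lit 5) (nat_lit 267) (nat_lit 5) (nat_lit 258) (nat_lit 5) (nat_lit 496) (nat_lit 450) (nat_lit 194)) (XT.lf (nat_lit 0) (nat_lit 6793457663) (nat_lit 684) (nat_lit 6534520261) (nat_lit 760) (nat_lit 14072712646) (nat_lit 248) (nat_lit 5) (nat_lit 257) (nat_lit 5) (nat_lit 258) (nat_lit 5) (nat_lit 497) (nat_lit 450) (nat_lit 193))) (XT.nd (nat_lit 78) (nat_lit 608) (nat_lit 0) (XT.lf (nat_lit 0) (nat_lit 16793591645) (nat_lit 760) (nat_lit 7074022961) (nat_lit 76) (nat_lit 3860556711) (nat_lit 248) (nat_lit 5) (nat_lit 258) (nat_lit 5) (nat_lit 249) (nat_lit 5) (nat_lit 498) (nat_lit 450) (nat_lit 192)) (XT.lf (nat_lit 0) (nat_lit 6772311374) (nat_lit 608) (nat_lit 13640722272) (nat_lit 684) (nat_lit 7647479505) (nat_lit 240) (nat_lit 5) (nat_lit 248) (nat_lit 5) (nat_lit 249) (nat_lit 5) (nat_lit 499) (nat_lit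 450) (nat_lit 191)))) (XT.nd (nat_lit 156) (nat_lit 684) (nat_lit 0) (XT.nd (nat_lit 78) (nat_lit 608) (nat_lit 0) (XT.lf (nat_lit 0) (nat_lit 20988398012) (nat_lit 608) (nat_lit 3161241208) (nat_lit 684) (nat_lit 4248968858) (nat_lit 240) (nat_lit 5) (nat_lit 248) (nat_lit 5) (nat_lit 249) (nat_lit 5) (nat_lit 500) (nat_lit 450) (nat_lit 190)) (XT.lf (nat_lit 0) (nat_lit 6782360934) (nat_lit 608) (nat_lit 21268882045) (nat_lit 684) (nat_lit 690418323) (nat_lit 232) (nat_lit 5) (nat_lit 240) (nat_lit 5) (nat_lit 241) (nat_lit 5) (nat_lit 501) (nat_lit 450) (nat_lit 189))) (XT.nd (nat_lit 78) (nat_lit 608) (nat_lit 0) (XT.lf (nat_lit 0) (nat_lit 2969112834) (nat_lit 684) (nat_lit 7774772237) (nat_lit 76) (nat_lit 18345943313) (nat_lit 231) (nat_lit 5) (nat_lit 240) (nat_lit 5) (nat_lit 232) (nat_lit 5) (nat_lit 502) (nat_lit 450) (nat_lit 188)) (XT.lf (nat_lit 0) (nat_lit 6734268405) (nat_lit 684) (nat_lit 22669592477)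 (nat_lit 76) (nat_lit 40174702) (nat_lit 223) (nat_lit 5) (nat_lit 232) (nat_lit 5) (nat_lit 224) (nat_lit 5) (nat_lit 503) (nat_lit 450) (nat_lit 187))))))))
noncomputable def xc236 : XT := (XT.nd (nat_lit 56862) (nat_lit 0) (nat_lit 3648) (XT.nd (nat_lit 55770) (nat_lit 0) (nat_lit 12540) (XT.nd (nat_lit 55224) (nat_lit 0) (nat_lit 13680) (XT.nd (nat_lit 234) (nat_lit 1140) (nat_lit 0) (XT.nd (nat_lit 78) (nat_lit 608) (nat_lit 0) (XT.lf (nat_lit 0) (nat_lit 10695844868) (nat_lit 684) (nat_lit 8158791592) (nat_lit 76) (nat_lit 10948269701) (nat_lit 223) (nat_lit 5) (nat_lit 232) (nat_lit 5) (nat_lit 224) (nat_lit 5) (nat_lit 504) (nat_lit 450) (nat_lit 186)) (XT.nd (nat_lit 78) (nat_lit 0) (nat_lit 0) (XT.lf (nat_lit 0) (nat_lit 6727474115) (nat_lit 608) (nat_lit 8050355904) (nat_lit 684) (nat_lit 15390302146) (nat_lit 215) (nat_lit 5) (nat_lit 223) (nat_lit 5) (nat_lit 224) (nat_lit 5) (nat_lit 505) (nat_lit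 450) (nat_lit 185)) (XT.lf (nat_lit 0) (nat_lit 19013375081) (nat_lit 684) (nat_lit 8540165228) (nat_lit 76) (nat_lit 2985685501) (nat_lit 215) (nat_lit 5) (nat_lit 224) (nat_lit 5) (nat_lit 216) (nat_lit 5) (nat_lit 506) (nat_lit 450) (nat_lit 184)))) (XT.nd (nat_lit 156) (nat_lit 608) (nat_lit 0) (XT.nd (nat_lit 78) (nat_lit 0) (nat_lit 0) (XT.lf (nat_lit 0) (nat_lit 6689809554) (nat_lit 532) (nat_lit 16738142887) (nat_lit 608) (nat_lit 7487903958) (nat_lit 208) (nat_lit 5) (nat_lit 215) (nat_lit 5) (nat_lit 216) (nat_lit 5) (nat_lit 507) (nat_lit 450) (nat_lit 183)) (XT.lf (nat_lit 0) (nat_lit 22337215107) (nat_lit 532) (nat_lit 5648516890) (nat_lit 608) (nat_lit 3313190855) (nat_lit 208) (nat_lit 5) (nat_lit 215) (nat_lit 5) (nat_lit 216) (nat_lit 5) (nat_lit 508) (nat_lit 450) (nat_lit 182))) (XT.nd (nat_lit 78) (nat_lit 0) (nat_lit 0) (XT.lf (nat_lit 0) (nat_lit 1010759721) (nat_lit 608) (nat_lit 25039230639)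 (nat_lit 76) (nat_lit 5637976227) (nat_lit 200) (nat_lit 5) (nat_lit 208) (nat_lit 5) (nat_lit 201) (nat_lit 5) (nat_lit 509) (nat_lit 450) (nat_lit 181)) (XT.lf (nat_lit 0) (nat_lit 5472466389) (nat_lit 608) (nat_lit 9453402728) (nat_lit 76) (nat_lit 17156572646) (nat_lit 200) (nat_lit 5) (nat_lit 208) (nat_lit 5) (nat_lit 201) (nat_lit 5) (nat_lit 510) (nat_lit 450) (nat_lit 180))))) (XT.nd (nat_lit 234) (nat_lit 0) (nat_lit 76) (XT.nd (nat_lit 78) (nat_lit 0) (nat_lit 0) (XT.lf (nat_lit 0) (nat_lit 2575018606) (nat_lit 1748) (nat_lit 2922183838) (nat_lit 1748) (nat_lit 2922183838) (nat_lit 380) (nat_lit 3) (nat_lit 403) (nat_lit 3) (nat_lit 403) (nat_lit 5) (nat_lit 451) (nat_lit 451) (nat_lit 238)) (XT.nd (nat_lit 78) (nat_lit 0) (nat_lit 76) (XT.lf (nat_lit 76) (nat_lit 1833642135) (nat_lit 0) (nat_lit 3604332808) (nat_lit 1748) (nat_lit 11564280159) (nat_lit 381) (nat_lit 5) (nat_lit 380) (nat_lit 3) (nat_lit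 403) (nat_lit 5) (nat_lit 452) (nat_lit 451) (nat_lit 237)) (XT.lf (nat_lit 0) (nat_lit 5790798350) (nat_lit 1672) (nat_lit 7452775052) (nat_lit 1748) (nat_lit 3924255975) (nat_lit 381) (nat_lit 5) (nat_lit 403) (nat_lit 5) (nat_lit 404) (nat_lit 5) (nat_lit 453) (nat_lit 451) (nat_lit 236)))) (XT.nd (nat_lit 156) (nat_lit 0) (nat_lit 76) (XT.nd (nat_lit 78) (nat_lit 0) (nat_lit 76) (XT.lf (nat_lit 76) (nat_lit 395573033) (nat_lit 0) (nat_lit 5775768028) (nat_lit 1748) (nat_lit 11164965357) (nat_lit 382) (nat_lit 5) (nat_lit 381) (nat_lit 5) (nat_lit 404) (nat_lit 5) (nat_lit 454) (nat_lit 451) (nat_lit 235)) (XT.lf (nat_lit 0) (nat_lit 6616128007) (nat_lit 1672) (nat_lit 9020766221) (nat_lit 1748) (nat_lit 1870130552) (nat_lit 382) (nat_lit 5) (nat_lit 404) (nat_lit 5) (nat_lit 405) (nat_lit 5) (nat_lit 455) (nat_lit 451) (nat_lit 234))) (XT.nd (nat_lit 78) (nat_lit 0) (nat_lit 0) (XT.lf (nat_lit 0) (nat_lit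 7102506481) (nat_lit 1672) (nat_lit 983825438) (nat_lit 1748) (nat_lit 9594176037) (nat_lit 382) (nat_lit 5) (nat_lit 404) (nat_lit 5) (nat_lit 405) (nat_lit 5) (nat_lit 456) (nat_lit 451) (nat_lit 233)) (XT.lf (nat_lit 76) (nat_lit 7306567772) (nat_lit 0) (nat_lit 334038414) (nat_lit 1748) (nat_lit 10216019012) (nat_lit 383) (nat_lit 5) (nat_lit 382) (nat_lit 5) (nat_lit 405) (nat_lit 5) (nat_lit 457) (nat_lit 451) (nat_lit 232)))))) (XT.nd (nat_lit 546) (nat_lit 1368) (nat_lit 0) (XT.nd (nat_lit 234) (nat_lit 0) (nat_lit 76) (XT.nd (nat_lit 78) (nat_lit 0) (nat_lit 0) (XT.lf (nat_lit 0) (nat_lit 8239940469) (nat_lit 1672) (nat_lit 2312461434) (nat_lit 1748) (nat_lit 7482857622) (nat_lit 383) (nat_lit 5) (nat_lit 405) (nat_lit 5) (nat_lit 406) (nat_lit 5) (nat_lit 458) (nat_lit 451) (nat_lit 231)) (XT.nd (nat_lit 78) (nat_lit 0) (nat_lit 76) (XT.lf (nat_lit 76) (nat_lit 6165378534) (nat_lit 0) (nat_lit 2722885571)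 (nat_lit 1748) (nat_lit 9328466489) (nat_lit 384) (nat_lit 5) (nat_lit 383) (nat_lit 5) (nat_lit 406) (nat_lit 5) (nat_lit 459) (nat_lit 451) (nat_lit 230)) (XT.lf (nat_lit 0) (nat_lit 9594203406) (nat_lit 1672) (nat_lit 3594929841) (nat_lit 1748) (nat_lit 5211808884) (nat_lit 384) (nat_lit 5) (nat_lit 406) (nat_lit 5) (nat_lit 407) (nat_lit 5) (nat_lit 460) (nat_lit 451) (nat_lit 229)))) (XT.nd (nat_lit 156) (nat_lit 0) (nat_lit 76) (XT.nd (nat_lit 78) (nat_lit 0) (nat_lit 76) (XT.lf (nat_lit 76) (nat_lit 5075969199) (nat_lit 0) (nat_lit 5284238333) (nat_lit 1748) (nat_lit 8227715395) (nat_lit 385) (nat_lit 5) (nat_lit 384) (nat_lit 5) (nat_lit 407) (nat_lit 5) (nat_lit 461) (nat_lit 451) (nat_lit 228)) (XT.lf (nat_lit 0) (nat_lit 11178903959) (nat_lit 1672) (nat_lit 4830631034) (nat_lit 1748) (nat_lit 2768364774) (nat_lit 385) (nat_lit 5) (nat_lit 407) (nat_lit 5) (nat_lit 408) (nat_lit 5) (nat_lit 462) (nat_lit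 451) (nat_lit 227))) (XT.nd (nat_lit 78) (nat_lit 0) (nat_lit 76) (XT.lf (nat_lit 76) (nat_lit 4039075444) (nat_lit 0) (nat_lit 8031262369) (nat_lit 1748) (nat_lit 6900214860) (nat_lit 386) (nat_lit 5) (nat_lit 385) (nat_lit 5) (nat_lit 408) (nat_lit 5) (nat_lit 463) (nat_lit 451) (nat_lit 226)) (XT.lf (nat_lit 0) (nat_lit 13008151948) (nat_lit 1672) (nat_lit 6018969766) (nat_lit 1748) (nat_lit 139369610) (nat_lit 386) (nat_lit 5) (nat_lit 408) (nat_lit 5) (nat_lit 409) (nat_lit 5) (nat_lit 464) (nat_lit 451) (nat_lit 225))))) (XT.nd (nat_lit 234) (nat_lit 1596) (nat_lit 0) (XT.nd (nat_lit 78) (nat_lit 0) (nat_lit 0) (XT.lf (nat_lit 76) (nat_lit 3055428719) (nat_lit 0) (nat_lit 10977641127) (nat_lit 1748) (nat_lit 5331915604) (nat_lit 387) (nat_lit 5) (nat_lit 386) (nat_lit 5) (nat_lit 409) (nat_lit 5) (nat_lit 465) (nat_lit 451) (nat_lit 224)) (XT.nd (nat_lit 78) (nat_lit 0) (nat_lit 76) (XT.lf (nat_lit 76)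 (nat_lit 12389680784) (nat_lit 0) (nat_lit 2724589007) (nat_lit 1748) (nat_lit 4452467571) (nat_lit 387) (nat_lit 5) (nat_lit 386) (nat_lit 5) (nat_lit 409) (nat_lit 5) (nat_lit 466) (nat_lit 451) (nat_lit 223)) (XT.lf (nat_lit 76) (nat_lit 2125744407) (nat_lit 0) (nat_lit 14137609574) (nat_lit 1748) (nat_lit 3508248633) (nat_lit 388) (nat_lit 5) (nat_lit 387) (nat_lit 5) (nat_lit 410) (nat_lit 5) (nat_lit 467) (nat_lit 451) (nat_lit 222)))) (XT.nd (nat_lit 156) (nat_lit 1672) (nat_lit 0) (XT.nd (nat_lit 78) (nat_lit 0) (nat_lit 76) (XT.lf (nat_lit 76) (nat_lit 11690363786) (nat_lit 0) (nat_lit 5806702535) (nat_lit 1748) (nat_lit 2482269360) (nat_lit 388) (nat_lit 5) (nat_lit 387) (nat_lit 5) (nat_lit 410) (nat_lit 5) (nat_lit 468) (nat_lit 451) (nat_lit 221)) (XT.lf (nat_lit 76) (nat_lit 1250709203) (nat_lit 0) (nat_lit 17525989153) (nat_lit 1748) (nat_lit 1414103516) (nat_lit 389) (nat_lit 5) (nat_lit 388)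 (nat_lit 5) (nat_lit 411) (nat_lit 5) (nat_lit 469) (nat_lit 451) (nat_lit 220))) (XT.nd (nat_lit 78) (nat_lit 1748) (nat_lit 0) (XT.lf (nat_lit 76) (nat_lit 11051323030) (nat_lit 0) (nat_lit 9120143844) (nat_lit 1748) (nat_lit 233242940) (nat_lit 389) (nat_lit 5) (nat_lit 388) (nat_lit 5) (nat_lit 411) (nat_lit 5) (nat_lit 470) (nat_lit 451) (nat_lit 219)) (XT.lf (nat_lit 76) (nat_lit 421019434) (nat_lit 0) (nat_lit 535982473) (nat_lit 1824) (nat_lit 19665800969) (nat_lit 366) (nat_lit 5) (nat_lit 365) (nat_lit 5) (nat_lit 389) (nat_lit 5) (nat_lit 471) (nat_lit 451) (nat_lit 218))))))) (XT.nd (nat_lit 1092) (nat_lit 5244) (nat_lit 0) (XT.nd (nat_lit 546) (nat_lit 2584) (nat_lit 0) (XT.nd (nat_lit 234) (nat_lit 1140) (nat_lit 0) (XT.nd (nat_lit 78) (nat_lit 0) (nat_lit 0) (XT.lf (nat_lit 0) (nat_lit 2280321553) (nat_lit 1748) (nat_lit 10384950987) (nat_lit 1824) (nat_lit 8177709677) (nat_lit 366) (nat_lit 5)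 (nat_lit 389) (nat_lit 5) (nat_lit 390) (nat_lit 5) (nat_lit 472) (nat_lit 451) (nat_lit 217)) (XT.nd (nat_lit 78) (nat_lit 0) (nat_lit 76) (XT.lf (nat_lit 0) (nat_lit 3629578213) (nat_lit 1748) (nat_lit 378587109) (nat_lit 1824) (nat_lit 17059413465) (nat_lit 366) (nat_lit 5) (nat_lit 389) (nat_lit 5) (nat_lit 390) (nat_lit 5) (nat_lit 473) (nat_lit 451) (nat_lit 216)) (XT.lf (nat_lit 0) (nat_lit 5098198780) (nat_lit 1748) (nat_lit 11371921536) (nat_lit 1824) (nat_lit 4824702390) (nat_lit 367) (nat_lit 5) (nat_lit 390) (nat_lit 5) (nat_lit 391) (nat_lit 5) (nat_lit 474) (nat_lit 451) (nat_lit 215)))) (XT.nd (nat_lit 156) (nat_lit 1216) (nat_lit 0) (XT.nd (nat_lit 78) (nat_lit 0) (nat_lit 76) (XT.lf (nat_lit 0) (nat_lit 6621357115) (nat_lit 1748) (nat_lit 1120828191) (nat_lit 1824) (nat_lit 13783925827) (nat_lit 367) (nat_lit 5) (nat_lit 390) (nat_lit 5) (nat_lit 391) (nat_lit 5) (nat_lit 475) (nat_lit 451) (nat_lit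 214)) (XT.lf (nat_lit 0) (nat_lit 8240459421) (nat_lit 1748) (nat_lit 12312709973) (nat_lit 76) (nat_lit 1207549195) (nat_lit 368) (nat_lit 5) (nat_lit 391) (nat_lit 5) (nat_lit 369) (nat_lit 5) (nat_lit 476) (nat_lit 451) (nat_lit 213))) (XT.nd (nat_lit 78) (nat_lit 1292) (nat_lit 0) (XT.lf (nat_lit 0) (nat_lit 9946987895) (nat_lit 1748) (nat_lit 1811030753) (nat_lit 76) (nat_lit 10240901483) (nat_lit 368) (nat_lit 5) (nat_lit 391) (nat_lit 5) (nat_lit 369) (nat_lit 5) (nat_lit 477) (nat_lit 451) (nat_lit 212)) (XT.lf (nat_lit 0) (nat_lit 9015733141) (nat_lit 1292) (nat_lit 2726724637) (nat_lit 1368) (nat_lit 10498334476) (nat_lit 351) (nat_lit 5) (nat_lit 368) (nat_lit 5) (nat_lit 369) (nat_lit 5) (nat_lit 478) (nat_lit 451) (nat_lit 211))))) (XT.nd (nat_lit 234) (nat_lit 1748) (nat_lit 0) (XT.nd (nat_lit 78) (nat_lit 836) (nat_lit 0) (XT.lf (nat_lit 0) (nat_lit 13624507140) (nat_lit 1368) (nat_lit 2449114418)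 (nat_lit 76) (nat_lit 6412869572) (nat_lit 351) (nat_lit 5) (nat_lit 369) (nat_lit 5) (nat_lit 352) (nat_lit 5) (nat_lit 479) (nat_lit 451) (nat_lit 210)) (XT.nd (nat_lit 78) (nat_lit 0) (nat_lit 0) (XT.lf (nat_lit 0) (nat_lit 8634345824) (nat_lit 836) (nat_lit 6980371731) (nat_lit 912) (nat_lit 7120978685) (nat_lit 340) (nat_lit 5) (nat_lit 351) (nat_lit 5) (nat_lit 352) (nat_lit 5) (nat_lit 480) (nat_lit 451) (nat_lit 209)) (XT.lf (nat_lit 0) (nat_lit 17672629719) (nat_lit 912) (nat_lit 3035132569) (nat_lit 76) (nat_lit 2281567820) (nat_lit 340) (nat_lit 5) (nat_lit 352) (nat_lit 5) (nat_lit 341) (nat_lit 5) (nat_lit 481) (nat_lit 451) (nat_lit 208)))) (XT.nd (nat_lit 156) (nat_lit 912) (nat_lit 0) (XT.nd (nat_lit 78) (nat_lit 0) (nat_lit 0) (XT.lf (nat_lit 0) (nat_lit 8312017533) (nat_lit 836) (nat_lit 11556401721) (nat_lit 912) (nat_lit 3377685571) (nat_lit 329) (nat_lit 5) (nat_lit 340) (nat_lit 5) (nat_lit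 341) (nat_lit 5) (nat_lit 482) (nat_lit 451) (nat_lit 207)) (XT.lf (nat_lit 0) (nat_lit 19924095487) (nat_lit 836) (nat_lit 2200968451) (nat_lit 912) (nat_lit 1382614817) (nat_lit 329) (nat_lit 5) (nat_lit 340) (nat_lit 5) (nat_lit 341) (nat_lit 5) (nat_lit 483) (nat_lit 451) (nat_lit 206))) (XT.nd (nat_lit 78) (nat_lit 0) (nat_lit 0) (XT.lf (nat_lit 0) (nat_lit 741003192) (nat_lit 912) (nat_lit 15728772948) (nat_lit 76) (nat_lit 7302681686) (nat_lit 317) (nat_lit 5) (nat_lit 329) (nat_lit 5) (nat_lit 318) (nat_lit 5) (nat_lit 484) (nat_lit 451) (nat_lit 205)) (XT.lf (nat_lit 0) (nat_lit 2924042670) (nat_lit 912) (nat_lit 4117060866) (nat_lit 76) (nat_lit 17000539277) (nat_lit 317) (nat_lit 5) (nat_lit 329) (nat_lit 5) (nat_lit 318) (nat_lit 5) (nat_lit 485) (nat_lit 451) (nat_lit 204)))))) (XT.nd (nat_lit 546) (nat_lit 2204) (nat_lit 0) (XT.nd (nat_lit 234) (nat_lit 1444) (nat_lit 0) (XT.nd (nat_lit 78) (nat_lit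 760) (nat_lit 0) (XT.lf (nat_lit 0) (nat_lit 5215348116) (nat_lit 912) (nat_lit 16505926294) (nat_lit 76) (nat_lit 2593647300) (nat_lit 306) (nat_lit 5) (nat_lit 318) (nat_lit 5) (nat_lit 307) (nat_lit 5) (nat_lit 486) (nat_lit 451) (nat_lit 203)) (XT.nd (nat_lit 78) (nat_lit 760) (nat_lit 0) (XT.lf (nat_lit 0) (nat_lit 7623692386) (nat_lit 912) (nat_lit 4613722721) (nat_lit 76) (nat_lit 12354829092) (nat_lit 306) (nat_lit 5) (nat_lit 318) (nat_lit 5) (nat_lit 307) (nat_lit 5) (nat_lit 487) (nat_lit 451) (nat_lit 202)) (XT.lf (nat_lit 0) (nat_lit 7613056857) (nat_lit 760) (nat_lit 2513411266) (nat_lit 836) (nat_lit 14747721948) (nat_lit 296) (nat_lit 5) (nat_lit 306) (nat_lit 5) (nat_lit 307) (nat_lit 5) (nat_lit 488) (nat_lit 451) (nat_lit 201)))) (XT.nd (nat_lit 156) (nat_lit 684) (nat_lit 0) (XT.nd (nat_lit 78) (nat_lit 760) (nat_lit 0) (XT.lf (nat_lit 0) (nat_lit 12755421274) (nat_lit 836) (nat_lit 5065686076)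 (nat_lit 76) (nat_lit 7339147254) (nat_lit 296) (nat_lit 5) (nat_lit 307) (nat_lit 5) (nat_lit 297) (nat_lit 5) (nat_lit 489) (nat_lit 451) (nat_lit 200)) (XT.lf (nat_lit 0) (nat_lit 7451657672) (nat_lit 760) (nat_lit 8047260958) (nat_lit 836) (nat_lit 9951884631) (nat_lit 286) (nat_lit 5) (nat_lit 296) (nat_lit 5) (nat_lit 297) (nat_lit 5) (nat_lit 490) (nat_lit 451) (nat_lit 199))) (XT.nd (nat_lit 78) (nat_lit 684) (nat_lit 0) (XT.lf (nat_lit 0) (nat_lit 18340962395) (nat_lit 836) (nat_lit 5474311283) (nat_lit 76) (nat_lit 1931017780) (nat_lit 286) (nat_lit 5) (nat_lit 297) (nat_lit 5) (nat_lit 287) (nat_lit 5) (nat_lit 491) (nat_lit 451) (nat_lit 198)) (XT.lf (nat_lit 0) (nat_lit 7340926875) (nat_lit 684) (nat_lit 13996913303) (nat_lit 760) (nat_lit 4707891435) (nat_lit 277) (nat_lit 5) (nat_lit 286) (nat_lit 5) (nat_lit 287) (nat_lit 5) (nat_lit 492) (nat_lit 451) (nat_lit 197))))) (XT.nd (nat_lit 234) (nat_lit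 1368) (nat_lit 0) (XT.nd (nat_lit 78) (nat_lit 836) (nat_lit 0) (XT.lf (nat_lit 0) (nat_lit 20483618483) (nat_lit 684) (nat_lit 3944848636) (nat_lit 760) (nat_lit 1922019234) (nat_lit 277) (nat_lit 5) (nat_lit 286) (nat_lit 5) (nat_lit 287) (nat_lit 5) (nat_lit 493) (nat_lit 451) (nat_lit 196)) (XT.nd (nat_lit 78) (nat_lit 0) (nat_lit 0) (XT.lf (nat_lit 0) (nat_lit 993425279) (nat_lit 836) (nat_lit 19386882918) (nat_lit 76) (nat_lit 6279192213) (nat_lit 266) (nat_lit 5) (nat_lit 277) (nat_lit 5) (nat_lit 267) (nat_lit 5) (nat_lit 494) (nat_lit 451) (nat_lit 195)) (XT.lf (nat_lit 0) (nat_lit 4004370658) (nat_lit 836) (nat_lit 6261677264) (nat_lit 76) (nat_lit 16707136078) (nat_lit 266) (nat_lit 5) (nat_lit 277) (nat_lit 5) (nat_lit 267) (nat_lit 5) (nat_lit 495) (nat_lit 451) (nat_lit 194)))) (XT.nd (nat_lit 156) (nat_lit 684) (nat_lit 0) (XT.nd (nat_lit 78) (nat_lit 0) (nat_lit 0) (XT.lf (nat_lit 0) (nat_lit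 7120238031) (nat_lit 760) (nat_lit 20075219880) (nat_lit 76) (nat_lit 96791150) (nat_lit 257) (nat_lit 5) (nat_lit 267) (nat_lit 5) (nat_lit 258) (nat_lit 5) (nat_lit 496) (nat_lit 451) (nat_lit 193)) (XT.lf (nat_lit 0) (nat_lit 10405945437) (nat_lit 760) (nat_lit 6637982572) (nat_lit 76) (nat_lit 10571618786) (nat_lit 257) (nat_lit 5) (nat_lit 267) (nat_lit 5) (nat_lit 258) (nat_lit 5) (nat_lit 497) (nat_lit 451) (nat_lit 192))) (XT.nd (nat_lit 78) (nat_lit 0) (nat_lit 0) (XT.lf (nat_lit 0) (nat_lit 7158898920) (nat_lit 684) (nat_lit 6642240736) (nat_lit 760) (nat_lit 14143297163) (nat_lit 248) (nat_lit 5) (nat_lit 257) (nat_lit 5) (nat_lit 258) (nat_lit 5) (nat_lit 498) (nat_lit 451) (nat_lit 191)) (XT.lf (nat_lit 0) (nat_lit 17332160841) (nat_lit 760) (nat_lit 6986395058) (nat_lit 76) (nat_lit 3959992037) (nat_lit 248) (nat_lit 5) (nat_lit 258) (nat_lit 5) (nat_lit 249) (nat_lit 5) (nat_lit 499) (nat_lit 451)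 (nat_lit 190))))))))
noncomputable def xc237 : XT := (XT.nd (nat_lit 56940) (nat_lit 0) (nat_lit 5016) (XT.nd (nat_lit 55848) (nat_lit 0) (nat_lit 13756) (XT.nd (nat_lit 546) (nat_lit 1140) (nat_lit 0) (XT.nd (nat_lit 234) (nat_lit 1292) (nat_lit 0) (XT.nd (nat_lit 78) (nat_lit 608) (nat_lit 0) (XT.lf (nat_lit 0) (nat_lit 7135358672) (nat_lit 608) (nat_lit 13886136288) (nat_lit 684) (nat_lit 7596094184) (nat_lit 240) (nat_lit 5) (nat_lit 248) (nat_lit 5) (nat_lit 249) (nat_lit 5) (nat_lit 500) (nat_lit 451) (nat_lit 189)) (XT.nd (nat_lit 78) (nat_lit 608) (nat_lit 0) (XT.lf (nat_lit 0) (nat_lit 21631304276) (nat_lit 608) (nat_lit 3197602866) (nat_lit 684) (nat_lit 4133619891) (nat_lit 240) (nat_lit 5) (nat_lit 248) (nat_lit 5) (nat_lit 249) (nat_lit 5) (nat_lit 501) (nat_lit 451) (nat_lit 188)) (XT.lf (nat_lit 0) (nat_lit 7143531715) (nat_lit 608) (nat_lit 21662797972) (nat_lit 684) (nat_lit 506158405) (nat_lit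 232) (nat_lit 5) (nat_lit 240) (nat_lit 5) (nat_lit 241) (nat_lit 5) (nat_lit 502) (nat_lit 451) (nat_lit 187)))) (XT.nd (nat_lit 156) (nat_lit 608) (nat_lit 0) (XT.nd (nat_lit 78) (nat_lit 608) (nat_lit 0) (XT.lf (nat_lit 0) (nat_lit 3220132917) (nat_lit 684) (nat_lit 7706499047) (nat_lit 76) (nat_lit 18741039894) (nat_lit 231) (nat_lit 5) (nat_lit 240) (nat_lit 5) (nat_lit 232) (nat_lit 5) (nat_lit 503) (nat_lit 451) (nat_lit 186)) (XT.lf (nat_lit 0) (nat_lit 7058491374) (nat_lit 684) (nat_lit 22896997488) (nat_lit 76) (nat_lit 73518705) (nat_lit 223) (nat_lit 5) (nat_lit 232) (nat_lit 5) (nat_lit 224) (nat_lit 5) (nat_lit 504) (nat_lit 451) (nat_lit 185))) (XT.nd (nat_lit 78) (nat_lit 608) (nat_lit 0) (XT.lf (nat_lit 0) (nat_lit 11095582942) (nat_lit 684) (nat_lit 8100411700) (nat_lit 76) (nat_lit 11199137555) (nat_lit 223) (nat_lit 5) (nat_lit 232) (nat_lit 5) (nat_lit 224) (nat_lit 5) (nat_lit 505) (nat_lit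 451) (nat_lit 184)) (XT.lf (nat_lit 0) (nat_lit 7082121717) (nat_lit 608) (nat_lit 8174871549) (nat_lit 684) (nat_lit 15510716012) (nat_lit 215) (nat_lit 5) (nat_lit 223) (nat_lit 5) (nat_lit 224) (nat_lit 5) (nat_lit 506) (nat_lit 451) (nat_lit 183))))) (XT.nd (nat_lit 234) (nat_lit 608) (nat_lit 0) (XT.nd (nat_lit 78) (nat_lit 532) (nat_lit 0) (XT.lf (nat_lit 0) (nat_lit 19573881381) (nat_lit 684) (nat_lit 8491707040) (nat_lit 76) (nat_lit 3080705957) (nat_lit 215) (nat_lit 5) (nat_lit 224) (nat_lit 5) (nat_lit 216) (nat_lit 5) (nat_lit 507) (nat_lit 451) (nat_lit 182)) (XT.nd (nat_lit 78) (nat_lit 0) (nat_lit 0) (XT.lf (nat_lit 0) (nat_lit 7041424727) (nat_lit 532) (nat_lit 17033205692) (nat_lit 608) (nat_lit 7455871736) (nat_lit 208) (nat_lit 5) (nat_lit 215) (nat_lit 5) (nat_lit 216) (nat_lit 5) (nat_lit 508) (nat_lit 451) (nat_lit 181)) (XT.lf (nat_lit 0) (nat_lit 22997507431) (nat_lit 532) (nat_lit 5722565607)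 (nat_lit 608) (nat_lit 3201228887) (nat_lit 208) (nat_lit 5) (nat_lit 215) (nat_lit 5) (nat_lit 216) (nat_lit 5) (nat_lit 509) (nat_lit 451) (nat_lit 180)))) (XT.nd (nat_lit 54912) (nat_lit 0) (nat_lit 13680) (XT.nd (nat_lit 54834) (nat_lit 0) (nat_lit 13680) (XT.lf (nat_lit 0) (nat_lit 1205072062) (nat_lit 608) (nat_lit 25322131124) (nat_lit 76) (nat_lit 5790938084) (nat_lit 200) (nat_lit 5) (nat_lit 208) (nat_lit 5) (nat_lit 201) (nat_lit 5) (nat_lit 510) (nat_lit 451) (nat_lit 179)) (XT.lf (nat_lit 0) (nat_lit 2849593304) (nat_lit 1748) (nat_lit 2866771960) (nat_lit 1748) (nat_lit 2866771960) (nat_lit 380) (nat_lit 3) (nat_lit 403) (nat_lit 3) (nat_lit 403) (nat_lit 5) (nat_lit 452) (nat_lit 452) (nat_lit 236))) (XT.nd (nat_lit 78) (nat_lit 0) (nat_lit 76) (XT.lf (nat_lit 76) (nat_lit 2096527989) (nat_lit 0) (nat_lit 3889075817) (nat_lit 1748) (nat_lit 11347575289) (nat_lit 381) (nat_lit 5) (nat_lit 380) (nat_lit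 3) (nat_lit 403) (nat_lit 5) (nat_lit 453) (nat_lit 452) (nat_lit 235)) (XT.lf (nat_lit 0) (nat_lit 6335524766) (nat_lit 1672) (nat_lit 7369757193) (nat_lit 1748) (nat_lit 3796988814) (nat_lit 381) (nat_lit 5) (nat_lit 403) (nat_lit 5) (nat_lit 404) (nat_lit 5) (nat_lit 454) (nat_lit 452) (nat_lit 234)))))) (XT.nd (nat_lit 546) (nat_lit 0) (nat_lit 228) (XT.nd (nat_lit 234) (nat_lit 0) (nat_lit 76) (XT.nd (nat_lit 78) (nat_lit 0) (nat_lit 76) (XT.lf (nat_lit 76) (nat_lit 634031055) (nat_lit 0) (nat_lit 6082734128) (nat_lit 1748) (nat_lit 10957497042) (nat_lit 382) (nat_lit 5) (nat_lit 381) (nat_lit 5) (nat_lit 404) (nat_lit 5) (nat_lit 455) (nat_lit 452) (nat_lit 233)) (XT.nd (nat_lit 78) (nat_lit 0) (nat_lit 0) (XT.lf (nat_lit 0) (nat_lit 7160954760) (nat_lit 1672) (nat_lit 8965338499) (nat_lit 1748) (nat_lit 1722298037) (nat_lit 382) (nat_lit 5) (nat_lit 404) (nat_lit 5) (nat_lit 405) (nat_lit 5) (nat_lit 456)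 (nat_lit 452) (nat_lit 232)) (XT.lf (nat_lit 0) (nat_lit 7648972485) (nat_lit 1672) (nat_lit 772283274) (nat_lit 1748) (nat_lit 9604456493) (nat_lit 382) (nat_lit 5) (nat_lit 404) (nat_lit 5) (nat_lit 405) (nat_lit 5) (nat_lit 457) (nat_lit 452) (nat_lit 231)))) (XT.nd (nat_lit 156) (nat_lit 0) (nat_lit 76) (XT.nd (nat_lit 78) (nat_lit 0) (nat_lit 76) (XT.lf (nat_lit 76) (nat_lit 7682396625) (nat_lit 0) (nat_lit 508999185) (nat_lit 1748) (nat_lit 10014091023) (nat_lit 383) (nat_lit 5) (nat_lit 382) (nat_lit 5) (nat_lit 405) (nat_lit 5) (nat_lit 458) (nat_lit 452) (nat_lit 230)) (XT.lf (nat_lit 0) (nat_lit 8793842136) (nat_lit 1672) (nat_lit 2124337179) (nat_lit 1748) (nat_lit 7469698127) (nat_lit 383) (nat_lit 5) (nat_lit 405) (nat_lit 5) (nat_lit 406) (nat_lit 5) (nat_lit 459) (nat_lit 452) (nat_lit 229))) (XT.nd (nat_lit 78) (nat_lit 0) (nat_lit 76) (XT.lf (nat_lit 76) (nat_lit 6521517657) (nat_lit 0) (nat_lit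 2927496817) (nat_lit 1748) (nat_lit 9124091800) (nat_lit 384) (nat_lit 5) (nat_lit 383) (nat_lit 5) (nat_lit 406) (nat_lit 5) (nat_lit 460) (nat_lit 452) (nat_lit 228)) (XT.lf (nat_lit 0) (nat_lit 10160607269) (nat_lit 1672) (nat_lit 3429803554) (nat_lit 1748) (nat_lit 5170766391) (nat_lit 384) (nat_lit 5) (nat_lit 406) (nat_lit 5) (nat_lit 407) (nat_lit 5) (nat_lit 461) (nat_lit 452) (nat_lit 227))))) (XT.nd (nat_lit 234) (nat_lit 0) (nat_lit 152) (XT.nd (nat_lit 78) (nat_lit 0) (nat_lit 76) (XT.lf (nat_lit 76) (nat_lit 5412954092) (nat_lit 0) (nat_lit 5523162658) (nat_lit 1748) (nat_lit 8015902923) (nat_lit 385) (nat_lit 5) (nat_lit 384) (nat_lit 5) (nat_lit 407) (nat_lit 5) (nat_lit 462) (nat_lit 452) (nat_lit 226)) (XT.nd (nat_lit 78) (nat_lit 0) (nat_lit 0) (XT.lf (nat_lit 0) (nat_lit 11763109478) (nat_lit 1672) (nat_lit 4688035516) (nat_lit 1748) (nat_lit 2694818249) (nat_lit 385) (nat_lit 5) (nat_lit 407)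 (nat_lit 5) (nat_lit 408) (nat_lit 5) (nat_lit 463) (nat_lit 452) (nat_lit 225)) (XT.lf (nat_lit 76) (nat_lit 4357491354) (nat_lit 0) (nat_lit 8309352408) (nat_lit 1748) (nat_lit 6675741537) (nat_lit 386) (nat_lit 5) (nat_lit 385) (nat_lit 5) (nat_lit 408) (nat_lit 5) (nat_lit 464) (nat_lit 452) (nat_lit 224)))) (XT.nd (nat_lit 156) (nat_lit 0) (nat_lit 0) (XT.nd (nat_lit 78) (nat_lit 0) (nat_lit 0) (XT.lf (nat_lit 0) (nat_lit 13615703745) (nat_lit 1672) (nat_lit 5898392802) (nat_lit 1748) (nat_lit 28505807) (nat_lit 386) (nat_lit 5) (nat_lit 408) (nat_lit 5) (nat_lit 409) (nat_lit 5) (nat_lit 465) (nat_lit 452) (nat_lit 223)) (XT.lf (nat_lit 76) (nat_lit 3355908414) (nat_lit 0) (nat_lit 11299954199) (nat_lit 1748) (nat_lit 5089314210) (nat_lit 387) (nat_lit 5) (nat_lit 386) (nat_lit 5) (nat_lit 409) (nat_lit 5) (nat_lit 466) (nat_lit 452) (nat_lit 222))) (XT.nd (nat_lit 78) (nat_lit 0) (nat_lit 76) (XT.lf (nat_lit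 76) (nat_lit 12872151969) (nat_lit 0) (nat_lit 2879826129) (nat_lit 1748) (nat_lit 4199125054) (nat_lit 387) (nat_lit 5) (nat_lit 386) (nat_lit 5) (nat_lit 409) (nat_lit 5) (nat_lit 467) (nat_lit 452) (nat_lit 221)) (XT.lf (nat_lit 76) (nat_lit 2408965844) (nat_lit 0) (nat_lit 14509422755) (nat_lit 1748) (nat_lit 3241795325) (nat_lit 388) (nat_lit 5) (nat_lit 387) (nat_lit 5) (nat_lit 410) (nat_lit 5) (nat_lit 468) (nat_lit 452) (nat_lit 220))))))) (XT.nd (nat_lit 1092) (nat_lit 5624) (nat_lit 0) (XT.nd (nat_lit 546) (nat_lit 1900) (nat_lit 0) (XT.nd (nat_lit 234) (nat_lit 0) (nat_lit 0) (XT.nd (nat_lit 78) (nat_lit 1672) (nat_lit 0) (XT.lf (nat_lit 76) (nat_lit 12160157874) (nat_lit 0) (nat_lit 6010151282) (nat_lit 1748) (nat_lit 2201896825) (nat_lit 388) (nat_lit 5) (nat_lit 387) (nat_lit 5) (nat_lit 410) (nat_lit 5) (nat_lit 469) (nat_lit 452) (nat_lit 219)) (XT.nd (nat_lit 78) (nat_lit 1748) (nat_lit 0) (XT.lf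 (nat_lit 76) (nat_lit 1517393056) (nat_lit 0) (nat_lit 17952814820) (nat_lit 1748) (nat_lit 1117805048) (nat_lit 389) (nat_lit 5) (nat_lit 388) (nat_lit 5) (nat_lit 411) (nat_lit 5) (nat_lit 470) (nat_lit 452) (nat_lit 218)) (XT.lf (nat_lit 0) (nat_lit 79255155) (nat_lit 1748) (nat_lit 9297569413) (nat_lit 1824) (nat_lit 11429493540) (nat_lit 365) (nat_lit 5) (nat_lit 388) (nat_lit 5) (nat_lit 389) (nat_lit 5) (nat_lit 471) (nat_lit 452) (nat_lit 217)))) (XT.nd (nat_lit 156) (nat_lit 0) (nat_lit 76) (XT.nd (nat_lit 78) (nat_lit 0) (nat_lit 76) (XT.lf (nat_lit 76) (nat_lit 669192509) (nat_lit 0) (nat_lit 616391120) (nat_lit 1824) (nat_lit 19743255156) (nat_lit 366) (nat_lit 5) (nat_lit 365) (nat_lit 5) (nat_lit 389) (nat_lit 5) (nat_lit 472) (nat_lit 452) (nat_lit 216)) (XT.lf (nat_lit 0) (nat_lit 2628858589) (nat_lit 1748) (nat_lit 10350860495) (nat_lit 1824) (nat_lit 8273837386) (nat_lit 366) (nat_lit 5) (nat_lit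 389) (nat_lit 5) (nat_lit 390) (nat_lit 5) (nat_lit 473) (nat_lit 452) (nat_lit 215))) (XT.nd (nat_lit 78) (nat_lit 0) (nat_lit 76) (XT.lf (nat_lit 0) (nat_lit 3999160566) (nat_lit 1748) (nat_lit 149110310) (nat_lit 1824) (nat_lit 17334497339) (nat_lit 366) (nat_lit 5) (nat_lit 389) (nat_lit 5) (nat_lit 390) (nat_lit 5) (nat_lit 474) (nat_lit 452) (nat_lit 214)) (XT.lf (nat_lit 0) (nat_lit 5492487719) (nat_lit 1748) (nat_lit 11357427626) (nat_lit 1824) (nat_lit 4864739344) (nat_lit 367) (nat_lit 5) (nat_lit 390) (nat_lit 5) (nat_lit 391) (nat_lit 5) (nat_lit 475) (nat_lit 452) (nat_lit 213))))) (XT.nd (nat_lit 234) (nat_lit 2052) (nat_lit 0) (XT.nd (nat_lit 78) (nat_lit 0) (nat_lit 76) (XT.lf (nat_lit 0) (nat_lit 7040377358) (nat_lit 1748) (nat_lit 906056185) (nat_lit 1824) (nat_lit 14004254251) (nat_lit 367) (nat_lit 5) (nat_lit 390) (nat_lit 5) (nat_lit 391) (nat_lit 5) (nat_lit 476) (nat_lit 452) (nat_lit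 212)) (XT.nd (nat_lit 78) (nat_lit 0) (nat_lit 0) (XT.lf (nat_lit 0) (nat_lit 8687467745) (nat_lit 1748) (nat_lit 12317172129) (nat_lit 76) (nat_lit 1185439594) (nat_lit 368) (nat_lit 5) (nat_lit 391) (nat_lit 5) (nat_lit 369) (nat_lit 5) (nat_lit 477) (nat_lit 452) (nat_lit 211)) (XT.lf (nat_lit 0) (nat_lit 10422593473) (nat_lit 1748) (nat_lit 1610200345) (nat_lit 76) (nat_lit 10400365999) (nat_lit 368) (nat_lit 5) (nat_lit 391) (nat_lit 5) (nat_lit 369) (nat_lit 5) (nat_lit 478) (nat_lit 452) (nat_lit 210)))) (XT.nd (nat_lit 156) (nat_lit 836) (nat_lit 0) (XT.nd (nat_lit 78) (nat_lit 0) (nat_lit 0) (XT.lf (nat_lit 0) (nat_lit 9431539281) (nat_lit 1292) (nat_lit 2818537620) (nat_lit 1368) (nat_lit 10429874426) (nat_lit 351) (nat_lit 5) (nat_lit 368) (nat_lit 5) (nat_lit 369) (nat_lit 5) (nat_lit 479) (nat_lit 452) (nat_lit 209)) (XT.lf (nat_lit 0) (nat_lit 14164181527) (nat_lit 1368) (nat_lit 2261439562) (nat_lit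 76) (nat_lit 6505058753) (nat_lit 351) (nat_lit 5) (nat_lit 369) (nat_lit 5) (nat_lit 352) (nat_lit 5) (nat_lit 480) (nat_lit 452) (nat_lit 208))) (XT.nd (nat_lit 78) (nat_lit 0) (nat_lit 0) (XT.lf (nat_lit 0) (nat_lit 9042132929) (nat_lit 836) (nat_lit 7148350742) (nat_lit 912) (nat_lit 6994463504) (nat_lit 340) (nat_lit 5) (nat_lit 351) (nat_lit 5) (nat_lit 352) (nat_lit 5) (nat_lit 481) (nat_lit 452) (nat_lit 207)) (XT.lf (nat_lit 0) (nat_lit 18284207370) (nat_lit 912) (nat_lit 2859808372) (nat_lit 76) (nat_lit 2299748708) (nat_lit 340) (nat_lit 5) (nat_lit 352) (nat_lit 5) (nat_lit 341) (nat_lit 5) (nat_lit 482) (nat_lit 452) (nat_lit 206)))))) (XT.nd (nat_lit 546) (nat_lit 2280) (nat_lit 0) (XT.nd (nat_lit 234) (nat_lit 1596) (nat_lit 0) (XT.nd (nat_lit 78) (nat_lit 912) (nat_lit 0) (XT.lf (nat_lit 0) (nat_lit 8712731924) (nat_lit 836) (nat_lit 11807641857) (nat_lit 912) (nat_lit 3185375380) (nat_lit 329)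 (nat_lit 5) (nat_lit 340) (nat_lit 5) (nat_lit 341) (nat_lit 5) (nat_lit 483) (nat_lit 452) (nat_lit 205)) (XT.nd (nat_lit 78) (nat_lit 912) (nat_lit 0) (XT.lf (nat_lit 0) (nat_lit 20552453907) (nat_lit 836) (nat_lit 2264705566) (nat_lit 912) (nat_lit 1155498581) (nat_lit 329) (nat_lit 5) (nat_lit 340) (nat_lit 5) (nat_lit 341) (nat_lit 5) (nat_lit 484) (nat_lit 452) (nat_lit 204)) (XT.lf (nat_lit 0) (nat_lit 1003721103) (nat_lit 912) (nat_lit 15806247090) (nat_lit 76) (nat_lit 7432805525) (nat_lit 317) (nat_lit 5) (nat_lit 329) (nat_lit 5) (nat_lit 318) (nat_lit 5) (nat_lit 485) (nat_lit 452) (nat_lit 203)))) (XT.nd (nat_lit 156) (nat_lit 760) (nat_lit 0) (XT.nd (nat_lit 78) (nat_lit 836) (nat_lit 0) (XT.lf (nat_lit 0) (nat_lit 3225560629) (nat_lit 912) (nat_lit 3966949811) (nat_lit 76) (nat_lit 17324932617) (nat_lit 317) (nat_lit 5) (nat_lit 329) (nat_lit 5) (nat_lit 318) (nat_lit 5) (nat_lit 486) (nat_lit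 452) (nat_lit 202)) (XT.lf (nat_lit 0) (nat_lit 5559368609) (nat_lit 912) (nat_lit 16600100472) (nat_lit 76) (nat_lit 2636788293) (nat_lit 306) (nat_lit 5) (nat_lit 318) (nat_lit 5) (nat_lit 307) (nat_lit 5) (nat_lit 487) (nat_lit 452) (nat_lit 201))) (XT.nd (nat_lit 78) (nat_lit 760) (nat_lit 0) (XT.lf (nat_lit 0) (nat_lit 8011179498) (nat_lit 912) (nat_lit 4474679188) (nat_lit 76) (nat_lit 12593364936) (nat_lit 306) (nat_lit 5) (nat_lit 318) (nat_lit 5) (nat_lit 307) (nat_lit 5) (nat_lit 488) (nat_lit 452) (nat_lit 200)) (XT.lf (nat_lit 0) (nat_lit 7995114153) (nat_lit 760) (nat_lit 2565780483) (nat_lit 836) (nat_lit 14805979336) (nat_lit 296) (nat_lit 5) (nat_lit 306) (nat_lit 5) (nat_lit 307) (nat_lit 5) (nat_lit 489) (nat_lit 452) (nat_lit 199))))) (XT.nd (nat_lit 234) (nat_lit 1520) (nat_lit 0) (XT.nd (nat_lit 78) (nat_lit 760) (nat_lit 0) (XT.lf (nat_lit 0) (nat_lit 13237866473) (nat_lit 836) (nat_lit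 4936990287) (nat_lit 76) (nat_lit 7483897418) (nat_lit 296) (nat_lit 5) (nat_lit 307) (nat_lit 5) (nat_lit 297) (nat_lit 5) (nat_lit 490) (nat_lit 452) (nat_lit 198)) (XT.nd (nat_lit 78) (nat_lit 0) (nat_lit 0) (XT.lf (nat_lit 0) (nat_lit 7829187115) (nat_lit 760) (nat_lit 8204072627) (nat_lit 836) (nat_lit 9921916661) (nat_lit 286) (nat_lit 5) (nat_lit 296) (nat_lit 5) (nat_lit 297) (nat_lit 5) (nat_lit 491) (nat_lit 452) (nat_lit 197)) (XT.lf (nat_lit 0) (nat_lit 18927771425) (nat_lit 836) (nat_lit 5355255964) (nat_lit 76) (nat_lit 1973637487) (nat_lit 286) (nat_lit 5) (nat_lit 297) (nat_lit 5) (nat_lit 287) (nat_lit 5) (nat_lit 492) (nat_lit 452) (nat_lit 196)))) (XT.nd (nat_lit 156) (nat_lit 836) (nat_lit 0) (XT.nd (nat_lit 78) (nat_lit 0) (nat_lit 0) (XT.lf (nat_lit 0) (nat_lit 7714783394) (nat_lit 684) (nat_lit 14266963925) (nat_lit 760) (nat_lit 4580406295) (nat_lit 277) (nat_lit 5) (nat_lit 286) (nat_lit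 5) (nat_lit 287) (nat_lit 5) (nat_lit 493) (nat_lit 452) (nat_lit 195)) (XT.lf (nat_lit 0) (nat_lit 21115877109) (nat_lit 684) (nat_lit 4014051840) (nat_lit 760) (nat_lit 1743162591) (nat_lit 277) (nat_lit 5) (nat_lit 286) (nat_lit 5) (nat_lit 287) (nat_lit 5) (nat_lit 494) (nat_lit 452) (nat_lit 194))) (XT.nd (nat_lit 78) (nat_lit 0) (nat_lit 0) (XT.lf (nat_lit 0) (nat_lit 1225071555) (nat_lit 836) (nat_lit 19546230256) (nat_lit 76) (nat_lit 6417012057) (nat_lit 266) (nat_lit 5) (nat_lit 277) (nat_lit 5) (nat_lit 267) (nat_lit 5) (nat_lit 495) (nat_lit 452) (nat_lit 193)) (XT.lf (nat_lit 0) (nat_lit 4292083337) (nat_lit 836) (nat_lit 6162998731) (nat_lit 76) (nat_lit 17053274878) (nat_lit 266) (nat_lit 5) (nat_lit 277) (nat_lit 5) (nat_lit 267) (nat_lit 5) (nat_lit 496) (nat_lit 452) (nat_lit 192))))))))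
noncomputable def xc238 : XT := (XT.nd (nat_lit 57096) (nat_lit 0) (nat_lit 5244) (XT.nd (nat_lit 56004) (nat_lit 0) (nat_lit 13072) (XT.nd (nat_lit 546) (nat_lit 1824) (nat_lit 0) (XT.nd (nat_lit 234) (nat_lit 1216) (nat_lit 0) (XT.nd (nat_lit 78) (nat_lit 684) (nat_lit 0) (XT.lf (nat_lit 0) (nat_lit 7467754431) (nat_lit 760) (nat_lit 20250163054) (nat_lit 76) (nat_lit 115938806) (nat_lit 257) (nat_lit 5) (nat_lit 267) (nat_lit 5) (nat_lit 258) (nat_lit 5) (nat_lit 497) (nat_lit 452) (nat_lit 191)) (XT.nd (nat_lit 78) (nat_lit 684) (nat_lit 0) (XT.lf (nat_lit 0) (nat_lit 10815154189) (nat_lit 760) (nat_lit 6548623376) (nat_lit 76) (nat_lit 10799925508) (nat_lit 257) (nat_lit 5) (nat_lit 267) (nat_lit 5) (nat_lit 258) (nat_lit 5) (nat_lit 498) (nat_lit 452) (nat_lit 190)) (XT.lf (nat_lit 0) (nat_lit 7522734437) (nat_lit 684) (nat_lit 6753007572) (nat_lit 760) (nat_lit 14223481699) (nat_lit 248) (nat_lit 5) (nat_lit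 257) (nat_lit 5) (nat_lit 258) (nat_lit 5) (nat_lit 499) (nat_lit 452) (nat_lit 189)))) (XT.nd (nat_lit 156) (nat_lit 608) (nat_lit 0) (XT.nd (nat_lit 78) (nat_lit 608) (nat_lit 0) (XT.lf (nat_lit 0) (nat_lit 17873630434) (nat_lit 760) (nat_lit 6905911153) (nat_lit 76) (nat_lit 4060553077) (nat_lit 248) (nat_lit 5) (nat_lit 258) (nat_lit 5) (nat_lit 249) (nat_lit 5) (nat_lit 500) (nat_lit 452) (nat_lit 188)) (XT.lf (nat_lit 0) (nat_lit 7496828889) (nat_lit 608) (nat_lit 14137522576) (nat_lit 684) (nat_lit 7551615731) (nat_lit 240) (nat_lit 5) (nat_lit 248) (nat_lit 5) (nat_lit 249) (nat_lit 5) (nat_lit 501) (nat_lit 452) (nat_lit 187))) (XT.nd (nat_lit 78) (nat_lit 608) (nat_lit 0) (XT.lf (nat_lit 0) (nat_lit 22278403934) (nat_lit 608) (nat_lit 3235734887) (nat_lit 684) (nat_lit 4023742939) (nat_lit 240) (nat_lit 5) (nat_lit 248) (nat_lit 5) (nat_lit 249) (nat_lit 5) (nat_lit 502) (nat_lit 452) (nat_lit 186))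 (XT.lf (nat_lit 0) (nat_lit 7503168558) (nat_lit 608) (nat_lit 22065813914) (nat_lit 684) (nat_lit 325904522) (nat_lit 232) (nat_lit 5) (nat_lit 240) (nat_lit 5) (nat_lit 241) (nat_lit 5) (nat_lit 503) (nat_lit 452) (nat_lit 185))))) (XT.nd (nat_lit 234) (nat_lit 1140) (nat_lit 0) (XT.nd (nat_lit 78) (nat_lit 608) (nat_lit 0) (XT.lf (nat_lit 0) (nat_lit 3468731871) (nat_lit 684) (nat_lit 7645549602) (nat_lit 76) (nat_lit 19142944232) (nat_lit 231) (nat_lit 5) (nat_lit 240) (nat_lit 5) (nat_lit 232) (nat_lit 5) (nat_lit 504) (nat_lit 452) (nat_lit 184)) (XT.nd (nat_lit 78) (nat_lit 0) (nat_lit 0) (XT.lf (nat_lit 0) (nat_lit 7381838826) (nat_lit 684) (nat_lit 23137725944) (nat_lit 76) (nat_lit 106265999) (nat_lit 223) (nat_lit 5) (nat_lit 232) (nat_lit 5) (nat_lit 224) (nat_lit 5) (nat_lit 505) (nat_lit 452) (nat_lit 183)) (XT.lf (nat_lit 0) (nat_lit 11496100115) (nat_lit 684) (nat_lit 8049467490) (nat_lit 76)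 (nat_lit 11453783954) (nat_lit 223) (nat_lit 5) (nat_lit 232) (nat_lit 5) (nat_lit 224) (nat_lit 5) (nat_lit 506) (nat_lit 452) (nat_lit 182)))) (XT.nd (nat_lit 156) (nat_lit 532) (nat_lit 0) (XT.nd (nat_lit 78) (nat_lit 0) (nat_lit 0) (XT.lf (nat_lit 0) (nat_lit 7435315594) (nat_lit 608) (nat_lit 8303294516) (nat_lit 684) (nat_lit 15640814823) (nat_lit 215) (nat_lit 5) (nat_lit 223) (nat_lit 5) (nat_lit 224) (nat_lit 5) (nat_lit 507) (nat_lit 452) (nat_lit 181)) (XT.lf (nat_lit 0) (nat_lit 20138598915) (nat_lit 684) (nat_lit 8450793880) (nat_lit 76) (nat_lit 3176255818) (nat_lit 215) (nat_lit 5) (nat_lit 224) (nat_lit 5) (nat_lit 216) (nat_lit 5) (nat_lit 508) (nat_lit 452) (nat_lit 180))) (XT.nd (nat_lit 54990) (nat_lit 0) (nat_lit 13072) (XT.lf (nat_lit 0) (nat_lit 7391614028) (nat_lit 532) (nat_lit 17335711354) (nat_lit 608) (nat_lit 7430258009) (nat_lit 208) (nat_lit 5) (nat_lit 215) (nat_lit 5) (nat_lit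 216) (nat_lit 5) (nat_lit 509) (nat_lit 452) (nat_lit 179)) (XT.lf (nat_lit 0) (nat_lit 3120997248) (nat_lit 1748) (nat_lit 2814672994) (nat_lit 1748) (nat_lit 2814672994) (nat_lit 380) (nat_lit 3) (nat_lit 403) (nat_lit 3) (nat_lit 403) (nat_lit 5) (nat_lit 453) (nat_lit 453) (nat_lit 234)))))) (XT.nd (nat_lit 546) (nat_lit 0) (nat_lit 228) (XT.nd (nat_lit 234) (nat_lit 0) (nat_lit 152) (XT.nd (nat_lit 78) (nat_lit 0) (nat_lit 76) (XT.lf (nat_lit 76) (nat_lit 2355887433) (nat_lit 0) (nat_lit 4171255980) (nat_lit 1748) (nat_lit 11143932338) (nat_lit 381) (nat_lit 5) (nat_lit 380) (nat_lit 3) (nat_lit 403) (nat_lit 5) (nat_lit 454) (nat_lit 453) (nat_lit 233)) (XT.nd (nat_lit 78) (nat_lit 0) (nat_lit 0) (XT.lf (nat_lit 0) (nat_lit 6874490594) (nat_lit 1672) (nat_lit 7294090669) (nat_lit 1748) (nat_lit 3675165922) (nat_lit 381) (nat_lit 5) (nat_lit 403) (nat_lit 5) (nat_lit 404) (nat_lit 5) (nat_lit 455) (nat_lit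 453) (nat_lit 232)) (XT.lf (nat_lit 76) (nat_lit 868305834) (nat_lit 0) (nat_lit 6388405285) (nat_lit 1748) (nat_lit 10762606592) (nat_lit 382) (nat_lit 5) (nat_lit 381) (nat_lit 5) (nat_lit 404) (nat_lit 5) (nat_lit 456) (nat_lit 453) (nat_lit 231)))) (XT.nd (nat_lit 156) (nat_lit 0) (nat_lit 0) (XT.nd (nat_lit 78) (nat_lit 0) (nat_lit 0) (XT.lf (nat_lit 0) (nat_lit 7700660007) (nat_lit 1672) (nat_lit 8917960296) (nat_lit 1748) (nat_lit 1578701776) (nat_lit 382) (nat_lit 5) (nat_lit 404) (nat_lit 5) (nat_lit 405) (nat_lit 5) (nat_lit 457) (nat_lit 453) (nat_lit 230)) (XT.lf (nat_lit 0) (nat_lit 8190663849) (nat_lit 1672) (nat_lit 565488769) (nat_lit 1748) (nat_lit 9621994426) (nat_lit 382) (nat_lit 5) (nat_lit 404) (nat_lit 5) (nat_lit 405) (nat_lit 5) (nat_lit 458) (nat_lit 453) (nat_lit 229))) (XT.nd (nat_lit 78) (nat_lit 0) (nat_lit 76) (XT.lf (nat_lit 76) (nat_lit 8056822621) (nat_lit 0) (nat_lit 680924654)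 (nat_lit 1748) (nat_lit 9823899592) (nat_lit 383) (nat_lit 5) (nat_lit 382) (nat_lit 5) (nat_lit 405) (nat_lit 5) (nat_lit 459) (nat_lit 453) (nat_lit 228)) (XT.lf (nat_lit 0) (nat_lit 9343712499) (nat_lit 1672) (nat_lit 1941551448) (nat_lit 1748) (nat_lit 7462597812) (nat_lit 383) (nat_lit 5) (nat_lit 405) (nat_lit 5) (nat_lit 406) (nat_lit 5) (nat_lit 460) (nat_lit 453) (nat_lit 227))))) (XT.nd (nat_lit 234) (nat_lit 0) (nat_lit 152) (XT.nd (nat_lit 78) (nat_lit 0) (nat_lit 76) (XT.lf (nat_lit 76) (nat_lit 6875738430) (nat_lit 0) (nat_lit 3130369643) (nat_lit 1748) (nat_lit 8930810449) (nat_lit 384) (nat_lit 5) (nat_lit 383) (nat_lit 5) (nat_lit 406) (nat_lit 5) (nat_lit 461) (nat_lit 453) (nat_lit 226)) (XT.nd (nat_lit 78) (nat_lit 0) (nat_lit 0) (XT.lf (nat_lit 0) (nat_lit 10723796149) (nat_lit 1672) (nat_lit 3270578707) (nat_lit 1748) (nat_lit 5134544396) (nat_lit 384) (nat_lit 5) (nat_lit 406) (nat_lit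 5) (nat_lit 407) (nat_lit 5) (nat_lit 462) (nat_lit 453) (nat_lit 225)) (XT.lf (nat_lit 76) (nat_lit 5747535271) (nat_lit 0) (nat_lit 5761691615) (nat_lit 1748) (nat_lit 7814468982) (nat_lit 385) (nat_lit 5) (nat_lit 384) (nat_lit 5) (nat_lit 407) (nat_lit 5) (nat_lit 463) (nat_lit 453) (nat_lit 224)))) (XT.nd (nat_lit 156) (nat_lit 0) (nat_lit 0) (XT.nd (nat_lit 78) (nat_lit 0) (nat_lit 0) (XT.lf (nat_lit 0) (nat_lit 12344995503) (nat_lit 1672) (nat_lit 4551876831) (nat_lit 1748) (nat_lit 2624806674) (nat_lit 385) (nat_lit 5) (nat_lit 407) (nat_lit 5) (nat_lit 408) (nat_lit 5) (nat_lit 464) (nat_lit 453) (nat_lit 223)) (XT.lf (nat_lit 76) (nat_lit 4673047949) (nat_lit 0) (nat_lit 8588442947) (nat_lit 1748) (nat_lit 6460854196) (nat_lit 386) (nat_lit 5) (nat_lit 385) (nat_lit 5) (nat_lit 408) (nat_lit 5) (nat_lit 465) (nat_lit 453) (nat_lit 222))) (XT.nd (nat_lit 78) (nat_lit 0) (nat_lit 76) (XT.lf (nat_lit 76)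 (nat_lit 14141217062) (nat_lit 0) (nat_lit 81227369) (nat_lit 1748) (nat_lit 5704060939) (nat_lit 386) (nat_lit 5) (nat_lit 385) (nat_lit 5) (nat_lit 408) (nat_lit 5) (nat_lit 466) (nat_lit 453) (nat_lit 221)) (XT.lf (nat_lit 76) (nat_lit 3653102631) (nat_lit 0) (nat_lit 11624723226) (nat_lit 1748) (nat_lit 4855422192) (nat_lit 387) (nat_lit 5) (nat_lit 386) (nat_lit 5) (nat_lit 409) (nat_lit 5) (nat_lit 467) (nat_lit 453) (nat_lit 220))))))) (XT.nd (nat_lit 1092) (nat_lit 5624) (nat_lit 0) (XT.nd (nat_lit 546) (nat_lit 1064) (nat_lit 0) (XT.nd (nat_lit 234) (nat_lit 1596) (nat_lit 0) (XT.nd (nat_lit 78) (nat_lit 0) (nat_lit 76) (XT.lf (nat_lit 76) (nat_lit 13355159762) (nat_lit 0) (nat_lit 3034255930) (nat_lit 1748) (nat_lit 3954011180) (nat_lit 387) (nat_lit 5) (nat_lit 386) (nat_lit 5) (nat_lit 409) (nat_lit 5) (nat_lit 468) (nat_lit 453) (nat_lit 219)) (XT.nd (nat_lit 78) (nat_lit 0) (nat_lit 0) (XT.lf (nat_lit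 76) (nat_lit 2688504781) (nat_lit 0) (nat_lit 14885213854) (nat_lit 1748) (nat_lit 2983084250) (nat_lit 388) (nat_lit 5) (nat_lit 387) (nat_lit 5) (nat_lit 410) (nat_lit 5) (nat_lit 469) (nat_lit 453) (nat_lit 218)) (XT.lf (nat_lit 76) (nat_lit 12630184189) (nat_lit 0) (nat_lit 6214278467) (nat_lit 1748) (nat_lit 1928731838) (nat_lit 388) (nat_lit 5) (nat_lit 387) (nat_lit 5) (nat_lit 410) (nat_lit 5) (nat_lit 470) (nat_lit 453) (nat_lit 217)))) (XT.nd (nat_lit 156) (nat_lit 0) (nat_lit 0) (XT.nd (nat_lit 78) (nat_lit 1748) (nat_lit 0) (XT.lf (nat_lit 76) (nat_lit 1780026259) (nat_lit 0) (nat_lit 18385213951) (nat_lit 1748) (nat_lit 828184468) (nat_lit 389) (nat_lit 5) (nat_lit 388) (nat_lit 5) (nat_lit 411) (nat_lit 5) (nat_lit 471) (nat_lit 453) (nat_lit 216)) (XT.lf (nat_lit 0) (nat_lit 382688347) (nat_lit 1748) (nat_lit 9251551892) (nat_lit 1824) (nat_lit 11581940489) (nat_lit 365) (nat_lit 5) (nat_lit 388)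 (nat_lit 5) (nat_lit 389) (nat_lit 5) (nat_lit 472) (nat_lit 453) (nat_lit 215))) (XT.nd (nat_lit 78) (nat_lit 0) (nat_lit 76) (XT.lf (nat_lit 76) (nat_lit 913019157) (nat_lit 0) (nat_lit 695701831) (nat_lit 1824) (nat_lit 19834523726) (nat_lit 366) (nat_lit 5) (nat_lit 365) (nat_lit 5) (nat_lit 389) (nat_lit 5) (nat_lit 473) (nat_lit 453) (nat_lit 214)) (XT.lf (nat_lit 0) (nat_lit 2972603201) (nat_lit 1748) (nat_lit 10325477174) (nat_lit 1824) (nat_lit 8374505903) (nat_lit 366) (nat_lit 5) (nat_lit 389) (nat_lit 5) (nat_lit 390) (nat_lit 5) (nat_lit 474) (nat_lit 453) (nat_lit 213))))) (XT.nd (nat_lit 234) (nat_lit 1140) (nat_lit 0) (XT.nd (nat_lit 78) (nat_lit 0) (nat_lit 76) (XT.lf (nat_lit 76) (nat_lit 76757834) (nat_lit 0) (nat_lit 4288342581) (nat_lit 1824) (nat_lit 17541390332) (nat_lit 367) (nat_lit 5) (nat_lit 366) (nat_lit 5) (nat_lit 390) (nat_lit 5) (nat_lit 475) (nat_lit 453) (nat_lit 212)) (XT.nd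 (nat_lit 78) (nat_lit 0) (nat_lit 0) (XT.lf (nat_lit 0) (nat_lit 5883311101) (nat_lit 1748) (nat_lit 11352038365) (nat_lit 1824) (nat_lit 4907769335) (nat_lit 367) (nat_lit 5) (nat_lit 390) (nat_lit 5) (nat_lit 391) (nat_lit 5) (nat_lit 476) (nat_lit 453) (nat_lit 211)) (XT.lf (nat_lit 0) (nat_lit 7456649247) (nat_lit 1748) (nat_lit 696199060) (nat_lit 1824) (nat_lit 14231138555) (nat_lit 367) (nat_lit 5) (nat_lit 390) (nat_lit 5) (nat_lit 391) (nat_lit 5) (nat_lit 477) (nat_lit 453) (nat_lit 210)))) (XT.nd (nat_lit 156) (nat_lit 1292) (nat_lit 0) (XT.nd (nat_lit 78) (nat_lit 0) (nat_lit 0) (XT.lf (nat_lit 0) (nat_lit 9132458100) (nat_lit 1748) (nat_lit 12331112607) (nat_lit 76) (nat_lit 1164684156) (nat_lit 368) (nat_lit 5) (nat_lit 391) (nat_lit 5) (nat_lit 369) (nat_lit 5) (nat_lit 478) (nat_lit 453) (nat_lit 209)) (XT.lf (nat_lit 0) (nat_lit 10896967891) (nat_lit 1748) (nat_lit 1414558309) (nat_lit 76) (nat_lit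 10564780936) (nat_lit 368) (nat_lit 5) (nat_lit 391) (nat_lit 5) (nat_lit 369) (nat_lit 5) (nat_lit 479) (nat_lit 453) (nat_lit 208))) (XT.nd (nat_lit 78) (nat_lit 0) (nat_lit 0) (XT.lf (nat_lit 0) (nat_lit 9846517123) (nat_lit 1292) (nat_lit 2910739293) (nat_lit 1368) (nat_lit 10370856824) (nat_lit 351) (nat_lit 5) (nat_lit 368) (nat_lit 5) (nat_lit 369) (nat_lit 5) (nat_lit 480) (nat_lit 453) (nat_lit 207)) (XT.lf (nat_lit 0) (nat_lit 14704274313) (nat_lit 1368) (nat_lit 2079200895) (nat_lit 76) (nat_lit 6600492289) (nat_lit 351) (nat_lit 5) (nat_lit 369) (nat_lit 5) (nat_lit 352) (nat_lit 5) (nat_lit 481) (nat_lit 453) (nat_lit 206)))))) (XT.nd (nat_lit 546) (nat_lit 2204) (nat_lit 0) (XT.nd (nat_lit 234) (nat_lit 1748) (nat_lit 0) (XT.nd (nat_lit 78) (nat_lit 836) (nat_lit 0) (XT.lf (nat_lit 0) (nat_lit 9448946550) (nat_lit 836) (nat_lit 7318587629) (nat_lit 912) (nat_lit 6875861084) (nat_lit 340) (nat_lit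 5) (nat_lit 351) (nat_lit 5) (nat_lit 352) (nat_lit 5) (nat_lit 482) (nat_lit 453) (nat_lit 205)) (XT.nd (nat_lit 78) (nat_lit 836) (nat_lit 0) (XT.lf (nat_lit 0) (nat_lit 18897993263) (nat_lit 912) (nat_lit 2690142901) (nat_lit 76) (nat_lit 2319359149) (nat_lit 340) (nat_lit 5) (nat_lit 352) (nat_lit 5) (nat_lit 341) (nat_lit 5) (nat_lit 483) (nat_lit 453) (nat_lit 204)) (XT.lf (nat_lit 0) (nat_lit 9112355690) (nat_lit 836) (nat_lit 12063125818) (nat_lit 912) (nat_lit 2999309817) (nat_lit 329) (nat_lit 5) (nat_lit 340) (nat_lit 5) (nat_lit 341) (nat_lit 5) (nat_lit 484) (nat_lit 453) (nat_lit 203)))) (XT.nd (nat_lit 156) (nat_lit 836) (nat_lit 0) (XT.nd (nat_lit 78) (nat_lit 912) (nat_lit 0) (XT.lf (nat_lit 0) (nat_lit 21184453110) (nat_lit 836) (nat_lit 2328951760) (nat_lit 912) (nat_lit 933732993) (nat_lit 329) (nat_lit 5) (nat_lit 340) (nat_lit 5) (nat_lit 341) (nat_lit 5) (nat_lit 485) (nat_lit 453) (nat_lit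 202)) (XT.lf (nat_lit 0) (nat_lit 1262067197) (nat_lit 912) (nat_lit 15894477647) (nat_lit 76) (nat_lit 7566150414) (nat_lit 317) (nat_lit 5) (nat_lit 329) (nat_lit 5) (nat_lit 318) (nat_lit 5) (nat_lit 486) (nat_lit 453) (nat_lit 201))) (XT.nd (nat_lit 78) (nat_lit 836) (nat_lit 0) (XT.lf (nat_lit 0) (nat_lit 3523671520) (nat_lit 912) (nat_lit 3822862940) (nat_lit 76) (nat_lit 17656420268) (nat_lit 317) (nat_lit 5) (nat_lit 329) (nat_lit 5) (nat_lit 318) (nat_lit 5) (nat_lit 487) (nat_lit 453) (nat_lit 200)) (XT.lf (nat_lit 0) (nat_lit 5900961142) (nat_lit 912) (nat_lit 16705320140) (nat_lit 76) (nat_lit 2681131178) (nat_lit 306) (nat_lit 5) (nat_lit 318) (nat_lit 5) (nat_lit 307) (nat_lit 5) (nat_lit 488) (nat_lit 453) (nat_lit 199))))) (XT.nd (nat_lit 234) (nat_lit 1444) (nat_lit 0) (XT.nd (nat_lit 78) (nat_lit 760) (nat_lit 0) (XT.lf (nat_lit 0) (nat_lit 8397290501) (nat_lit 912) (nat_lit 4341837143) (nat_lit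 76) (nat_lit 12837003920) (nat_lit 306) (nat_lit 5) (nat_lit 318) (nat_lit 5) (nat_lit 307) (nat_lit 5) (nat_lit 489) (nat_lit 453) (nat_lit 198)) (XT.nd (nat_lit 78) (nat_lit 0) (nat_lit 0) (XT.lf (nat_lit 0) (nat_lit 8375889330) (nat_lit 760) (nat_lit 2619115500) (nat_lit 836) (nat_lit 14874593107) (nat_lit 296) (nat_lit 5) (nat_lit 306) (nat_lit 5) (nat_lit 307) (nat_lit 5) (nat_lit 490) (nat_lit 453) (nat_lit 197)) (XT.lf (nat_lit 0) (nat_lit 13721132812) (nat_lit 836) (nat_lit 4814652132) (nat_lit 76) (nat_lit 7631621521) (nat_lit 296) (nat_lit 5) (nat_lit 307) (nat_lit 5) (nat_lit 297) (nat_lit 5) (nat_lit 491) (nat_lit 453) (nat_lit 196)))) (XT.nd (nat_lit 156) (nat_lit 684) (nat_lit 0) (XT.nd (nat_lit 78) (nat_lit 0) (nat_lit 0) (XT.lf (nat_lit 0) (nat_lit 8205394358) (nat_lit 760) (nat_lit 8364181040) (nat_lit 836) (nat_lit 9900241900) (nat_lit 286) (nat_lit 5) (nat_lit 296) (nat_lit 5) (nat_lit 297)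 (nat_lit 5) (nat_lit 492) (nat_lit 453) (nat_lit 195)) (XT.lf (nat_lit 0) (nat_lit 19517774163) (nat_lit 836) (nat_lit 5242694086) (nat_lit 76) (nat_lit 2016954289) (nat_lit 286) (nat_lit 5) (nat_lit 297) (nat_lit 5) (nat_lit 287) (nat_lit 5) (nat_lit 493) (nat_lit 453) (nat_lit 194))) (XT.nd (nat_lit 78) (nat_lit 0) (nat_lit 0) (XT.lf (nat_lit 0) (nat_lit 8087300883) (nat_lit 684) (nat_lit 14542799508) (nat_lit 760) (nat_lit 4458978120) (nat_lit 277) (nat_lit 5) (nat_lit 286) (nat_lit 5) (nat_lit 287) (nat_lit 5) (nat_lit 494) (nat_lit 453) (nat_lit 193)) (XT.lf (nat_lit 0) (nat_lit 21752137612) (nat_lit 684) (nat_lit 4085015528) (nat_lit 760) (nat_lit 1569166724) (nat_lit 277) (nat_lit 5) (nat_lit 286) (nat_lit 5) (nat_lit 287) (nat_lit 5) (nat_lit 495) (nat_lit 453) (nat_lit 192))))))))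
noncomputable def xc239 : XT := (XT.nd (nat_lit 57174) (nat_lit 0) (nat_lit 4712) (XT.nd (nat_lit 56082) (nat_lit 0) (nat_lit 12540) (XT.nd (nat_lit 546) (nat_lit 1900) (nat_lit 0) (XT.nd (nat_lit 234) (nat_lit 1292) (nat_lit 0) (XT.nd (nat_lit 78) (nat_lit 684) (nat_lit 0) (XT.lf (nat_lit 0) (nat_lit 1453127169) (nat_lit 836) (nat_lit 19717633215) (nat_lit 76) (nat_lit 6557113160) (nat_lit 266) (nat_lit 5) (nat_lit 277) (nat_lit 5) (nat_lit 267) (nat_lit 5) (nat_lit 496) (nat_lit 453) (nat_lit 191)) (XT.nd (nat_lit 78) (nat_lit 684) (nat_lit 0) (XT.lf (nat_lit 0) (nat_lit 4577487927) (nat_lit 836) (nat_lit 6071041405) (nat_lit 76) (nat_lit 17405870632) (nat_lit 266) (nat_lit 5) (nat_lit 277) (nat_lit 5) (nat_lit 267) (nat_lit 5) (nat_lit 497) (nat_lit 453) (nat_lit 190)) (XT.lf (nat_lit 0) (nat_lit 7814256424) (nat_lit 760) (nat_lit 20437402739) (nat_lit 76) (nat_lit 134801059) (nat_lit 257) (nat_lit 5) (nat_lit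 267) (nat_lit 5) (nat_lit 258) (nat_lit 5) (nat_lit 498) (nat_lit 453) (nat_lit 189)))) (XT.nd (nat_lit 156) (nat_lit 608) (nat_lit 0) (XT.nd (nat_lit 78) (nat_lit 684) (nat_lit 0) (XT.lf (nat_lit 0) (nat_lit 11224738551) (nat_lit 760) (nat_lit 6466102142) (nat_lit 76) (nat_lit 11032143113) (nat_lit 257) (nat_lit 5) (nat_lit 267) (nat_lit 5) (nat_lit 258) (nat_lit 5) (nat_lit 499) (nat_lit 453) (nat_lit 188)) (XT.lf (nat_lit 0) (nat_lit 7885278264) (nat_lit 684) (nat_lit 6866847058) (nat_lit 760) (nat_lit 14313140292) (nat_lit 248) (nat_lit 5) (nat_lit 257) (nat_lit 5) (nat_lit 258) (nat_lit 5) (nat_lit 500) (nat_lit 453) (nat_lit 187))) (XT.nd (nat_lit 78) (nat_lit 608) (nat_lit 0) (XT.lf (nat_lit 0) (nat_lit 18418364074) (nat_lit 760) (nat_lit 6832368663) (nat_lit 76) (nat_lit 4162295856) (nat_lit 248) (nat_lit 5) (nat_lit 258) (nat_lit 5) (nat_lit 249) (nat_lit 5) (nat_lit 501) (nat_lit 453) (nat_lit 186))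 (XT.lf (nat_lit 0) (nat_lit 7857033675) (nat_lit 608) (nat_lit 14394959267) (nat_lit 684) (nat_lit 7513874172) (nat_lit 240) (nat_lit 5) (nat_lit 248) (nat_lit 5) (nat_lit 249) (nat_lit 5) (nat_lit 502) (nat_lit 453) (nat_lit 185))))) (XT.nd (nat_lit 234) (nat_lit 1216) (nat_lit 0) (XT.nd (nat_lit 78) (nat_lit 684) (nat_lit 0) (XT.lf (nat_lit 0) (nat_lit 22930117315) (nat_lit 608) (nat_lit 3275632172) (nat_lit 684) (nat_lit 3919145373) (nat_lit 240) (nat_lit 5) (nat_lit 248) (nat_lit 5) (nat_lit 249) (nat_lit 5) (nat_lit 503) (nat_lit 453) (nat_lit 184)) (XT.nd (nat_lit 78) (nat_lit 76) (nat_lit 0) (XT.lf (nat_lit 0) (nat_lit 7861580841) (nat_lit 608) (nat_lit 22478064432) (nat_lit 684) (nat_lit 149438134) (nat_lit 232) (nat_lit 5) (nat_lit 240) (nat_lit 5) (nat_lit 241) (nat_lit 5) (nat_lit 504) (nat_lit 453) (nat_lit 183)) (XT.lf (nat_lit 0) (nat_lit 3715150238) (nat_lit 684) (nat_lit 7591732964) (nat_lit 76)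 (nat_lit 19551834970) (nat_lit 231) (nat_lit 5) (nat_lit 240) (nat_lit 5) (nat_lit 232) (nat_lit 5) (nat_lit 505) (nat_lit 453) (nat_lit 182)))) (XT.nd (nat_lit 156) (nat_lit 608) (nat_lit 0) (XT.nd (nat_lit 78) (nat_lit 0) (nat_lit 0) (XT.lf (nat_lit 0) (nat_lit 7704579048) (nat_lit 684) (nat_lit 23391703557) (nat_lit 76) (nat_lit 138453719) (nat_lit 223) (nat_lit 5) (nat_lit 232) (nat_lit 5) (nat_lit 224) (nat_lit 5) (nat_lit 506) (nat_lit 453) (nat_lit 181)) (XT.lf (nat_lit 0) (nat_lit 11897692162) (nat_lit 684) (nat_lit 8005773598) (nat_lit 76) (nat_lit 11712332574) (nat_lit 223) (nat_lit 5) (nat_lit 232) (nat_lit 5) (nat_lit 224) (nat_lit 5) (nat_lit 507) (nat_lit 453) (nat_lit 180))) (XT.nd (nat_lit 78) (nat_lit 0) (nat_lit 0) (XT.lf (nat_lit 0) (nat_lit 7787358547) (nat_lit 608) (nat_lit 8435647926) (nat_lit 684) (nat_lit 15780509714) (nat_lit 215) (nat_lit 5) (nat_lit 223) (nat_lit 5) (nat_lit 224) (nat_lit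 5) (nat_lit 508) (nat_lit 453) (nat_lit 179)) (XT.lf (nat_lit 0) (nat_lit 20707883682) (nat_lit 684) (nat_lit 8417246030) (nat_lit 76) (nat_lit 3272398910) (nat_lit 215) (nat_lit 5) (nat_lit 224) (nat_lit 5) (nat_lit 216) (nat_lit 5) (nat_lit 509) (nat_lit 453) (nat_lit 178)))))) (XT.nd (nat_lit 546) (nat_lit 0) (nat_lit 228) (XT.nd (nat_lit 234) (nat_lit 0) (nat_lit 76) (XT.nd (nat_lit 78) (nat_lit 0) (nat_lit 0) (XT.lf (nat_lit 0) (nat_lit 3389503389) (nat_lit 1748) (nat_lit 2765781520) (nat_lit 1748) (nat_lit 2765781520) (nat_lit 380) (nat_lit 3) (nat_lit 403) (nat_lit 3) (nat_lit 403) (nat_lit 5) (nat_lit 454) (nat_lit 454) (nat_lit 232)) (XT.nd (nat_lit 78) (nat_lit 0) (nat_lit 76) (XT.lf (nat_lit 76) (nat_lit 2611991037) (nat_lit 0) (nat_lit 4451142698) (nat_lit 1748) (nat_lit 10952937035) (nat_lit 381) (nat_lit 5) (nat_lit 380) (nat_lit 3) (nat_lit 403) (nat_lit 5) (nat_lit 455) (nat_lit 454) (nat_lit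 231)) (XT.lf (nat_lit 0) (nat_lit 7408227363) (nat_lit 1672) (nat_lit 7225572570) (nat_lit 1748) (nat_lit 3558585937) (nat_lit 381) (nat_lit 5) (nat_lit 403) (nat_lit 5) (nat_lit 404) (nat_lit 5) (nat_lit 456) (nat_lit 454) (nat_lit 230)))) (XT.nd (nat_lit 156) (nat_lit 0) (nat_lit 76) (XT.nd (nat_lit 78) (nat_lit 0) (nat_lit 76) (XT.lf (nat_lit 76) (nat_lit 1098661337) (nat_lit 0) (nat_lit 6693044282) (nat_lit 1748) (nat_lit 10579896026) (nat_lit 382) (nat_lit 5) (nat_lit 381) (nat_lit 5) (nat_lit 404) (nat_lit 5) (nat_lit 457) (nat_lit 454) (nat_lit 229)) (XT.lf (nat_lit 0) (nat_lit 8235763318) (nat_lit 1672) (nat_lit 8878436982) (nat_lit 1748) (nat_lit 1439147188) (nat_lit 382) (nat_lit 5) (nat_lit 404) (nat_lit 5) (nat_lit 405) (nat_lit 5) (nat_lit 458) (nat_lit 454) (nat_lit 228))) (XT.nd (nat_lit 78) (nat_lit 0) (nat_lit 0) (XT.lf (nat_lit 0) (nat_lit 8728094882) (nat_lit 1672) (nat_lit 363188231) (nat_lit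 1748) (nat_lit 9646661153) (nat_lit 382) (nat_lit 5) (nat_lit 404) (nat_lit 5) (nat_lit 405) (nat_lit 5) (nat_lit 459) (nat_lit 454) (nat_lit 227)) (XT.lf (nat_lit 76) (nat_lit 8430164056) (nat_lit 0) (nat_lit 850007857) (nat_lit 1748) (nat_lit 9645066886) (nat_lit 383) (nat_lit 5) (nat_lit 382) (nat_lit 5) (nat_lit 405) (nat_lit 5) (nat_lit 460) (nat_lit 454) (nat_lit 226))))) (XT.nd (nat_lit 234) (nat_lit 0) (nat_lit 76) (XT.nd (nat_lit 78) (nat_lit 0) (nat_lit 0) (XT.lf (nat_lit 0) (nat_lit 9890057644) (nat_lit 1672) (nat_lit 1763857606) (nat_lit 1748) (nat_lit 7461432353) (nat_lit 383) (nat_lit 5) (nat_lit 405) (nat_lit 5) (nat_lit 406) (nat_lit 5) (nat_lit 461) (nat_lit 454) (nat_lit 225)) (XT.nd (nat_lit 78) (nat_lit 0) (nat_lit 76) (XT.lf (nat_lit 76) (nat_lit 7228353563) (nat_lit 0) (nat_lit 3331695691) (nat_lit 1748) (nat_lit 8748254814) (nat_lit 384) (nat_lit 5) (nat_lit 383) (nat_lit 5) (nat_lit 406)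 (nat_lit 5) (nat_lit 462) (nat_lit 454) (nat_lit 224)) (XT.lf (nat_lit 0) (nat_lit 11284270471) (nat_lit 1672) (nat_lit 3117015926) (nat_lit 1748) (nat_lit 5103020249) (nat_lit 384) (nat_lit 5) (nat_lit 406) (nat_lit 5) (nat_lit 407) (nat_lit 5) (nat_lit 463) (nat_lit 454) (nat_lit 223)))) (XT.nd (nat_lit 156) (nat_lit 0) (nat_lit 76) (XT.nd (nat_lit 78) (nat_lit 0) (nat_lit 76) (XT.lf (nat_lit 76) (nat_lit 6080019710) (nat_lit 0) (nat_lit 6000018203) (nat_lit 1748) (nat_lit 7623053634) (nat_lit 385) (nat_lit 5) (nat_lit 384) (nat_lit 5) (nat_lit 407) (nat_lit 5) (nat_lit 464) (nat_lit 454) (nat_lit 222)) (XT.lf (nat_lit 0) (nat_lit 12925059423) (nat_lit 1672) (nat_lit 4421923022) (nat_lit 1748) (nat_lit 2558206364) (nat_lit 385) (nat_lit 5) (nat_lit 407) (nat_lit 5) (nat_lit 408) (nat_lit 5) (nat_lit 465) (nat_lit 454) (nat_lit 221))) (XT.nd (nat_lit 78) (nat_lit 0) (nat_lit 0) (XT.lf (nat_lit 76) (nat_lit 4986046362)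 (nat_lit 0) (nat_lit 8868731116) (nat_lit 1748) (nat_lit 6255197989) (nat_lit 386) (nat_lit 5) (nat_lit 385) (nat_lit 5) (nat_lit 408) (nat_lit 5) (nat_lit 466) (nat_lit 454) (nat_lit 220)) (XT.lf (nat_lit 76) (nat_lit 14639274202) (nat_lit 0) (nat_lit 189243398) (nat_lit 1748) (nat_lit 5489835009) (nat_lit 386) (nat_lit 5) (nat_lit 385) (nat_lit 5) (nat_lit 408) (nat_lit 5) (nat_lit 467) (nat_lit 454) (nat_lit 219))))))) (XT.nd (nat_lit 1092) (nat_lit 5624) (nat_lit 0) (XT.nd (nat_lit 546) (nat_lit 1064) (nat_lit 0) (XT.nd (nat_lit 234) (nat_lit 1596) (nat_lit 0) (XT.nd (nat_lit 78) (nat_lit 0) (nat_lit 0) (XT.lf (nat_lit 76) (nat_lit 3947306599) (nat_lit 0) (nat_lit 11952152277) (nat_lit 1748) (nat_lit 4629887130) (nat_lit 387) (nat_lit 5) (nat_lit 386) (nat_lit 5) (nat_lit 409) (nat_lit 5) (nat_lit 468) (nat_lit 454) (nat_lit 218)) (XT.nd (nat_lit 78) (nat_lit 0) (nat_lit 76) (XT.lf (nat_lit 76) (nat_lit 13839068756)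 (nat_lit 0) (nat_lit 3188014172) (nat_lit 1748) (nat_lit 3716774242) (nat_lit 387) (nat_lit 5) (nat_lit 386) (nat_lit 5) (nat_lit 409) (nat_lit 5) (nat_lit 469) (nat_lit 454) (nat_lit 217)) (XT.lf (nat_lit 76) (nat_lit 2964650521) (nat_lit 0) (nat_lit 15265196719) (nat_lit 1748) (nat_lit 2731762676) (nat_lit 388) (nat_lit 5) (nat_lit 387) (nat_lit 5) (nat_lit 410) (nat_lit 5) (nat_lit 470) (nat_lit 454) (nat_lit 216)))) (XT.nd (nat_lit 156) (nat_lit 1672) (nat_lit 0) (XT.nd (nat_lit 78) (nat_lit 0) (nat_lit 76) (XT.lf (nat_lit 76) (nat_lit 13100803210) (nat_lit 0) (nat_lit 6419229319) (nat_lit 1748) (nat_lit 1662420928) (nat_lit 388) (nat_lit 5) (nat_lit 387) (nat_lit 5) (nat_lit 410) (nat_lit 5) (nat_lit 471) (nat_lit 454) (nat_lit 215)) (XT.lf (nat_lit 76) (nat_lit 2038892203) (nat_lit 0) (nat_lit 18823413072) (nat_lit 1748) (nat_lit 544885912) (nat_lit 389) (nat_lit 5) (nat_lit 388) (nat_lit 5) (nat_lit 411)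 (nat_lit 5) (nat_lit 472) (nat_lit 454) (nat_lit 214))) (XT.nd (nat_lit 78) (nat_lit 0) (nat_lit 0) (XT.lf (nat_lit 0) (nat_lit 680469073) (nat_lit 1748) (nat_lit 9213621657) (nat_lit 1824) (nat_lit 11740393100) (nat_lit 365) (nat_lit 5) (nat_lit 388) (nat_lit 5) (nat_lit 389) (nat_lit 5) (nat_lit 473) (nat_lit 454) (nat_lit 213)) (XT.lf (nat_lit 76) (nat_lit 1152773963) (nat_lit 0) (nat_lit 773997729) (nat_lit 1824) (nat_lit 19939406691) (nat_lit 366) (nat_lit 5) (nat_lit 365) (nat_lit 5) (nat_lit 389) (nat_lit 5) (nat_lit 474) (nat_lit 454) (nat_lit 212))))) (XT.nd (nat_lit 234) (nat_lit 1140) (nat_lit 0) (XT.nd (nat_lit 78) (nat_lit 0) (nat_lit 0) (XT.lf (nat_lit 0) (nat_lit 3311916318) (nat_lit 1748) (nat_lit 10308610582) (nat_lit 1824) (nat_lit 8479704372) (nat_lit 366) (nat_lit 5) (nat_lit 389) (nat_lit 5) (nat_lit 390) (nat_lit 5) (nat_lit 475) (nat_lit 454) (nat_lit 211)) (XT.nd (nat_lit 78) (nat_lit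 0) (nat_lit 76) (XT.lf (nat_lit 76) (nat_lit 300199545) (nat_lit 0) (nat_lit 4428017224) (nat_lit 1824) (nat_lit 17610682105) (nat_lit 367) (nat_lit 5) (nat_lit 366) (nat_lit 5) (nat_lit 390) (nat_lit 5) (nat_lit 476) (nat_lit 454) (nat_lit 210)) (XT.lf (nat_lit 0) (nat_lit 6271040403) (nat_lit 1748) (nat_lit 11355571045) (nat_lit 1824) (nat_lit 4953767093) (nat_lit 367) (nat_lit 5) (nat_lit 390) (nat_lit 5) (nat_lit 391) (nat_lit 5) (nat_lit 477) (nat_lit 454) (nat_lit 209)))) (XT.nd (nat_lit 156) (nat_lit 1216) (nat_lit 0) (XT.nd (nat_lit 78) (nat_lit 0) (nat_lit 76) (XT.lf (nat_lit 0) (nat_lit 7870549957) (nat_lit 1748) (nat_lit 490997466) (nat_lit 1824) (nat_lit 14464626397) (nat_lit 367) (nat_lit 5) (nat_lit 390) (nat_lit 5) (nat_lit 391) (nat_lit 5) (nat_lit 478) (nat_lit 454) (nat_lit 208)) (XT.lf (nat_lit 0) (nat_lit 9575815643) (nat_lit 1748) (nat_lit 12354356386) (nat_lit 76) (nat_lit 1145240210) (nat_lit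 368) (nat_lit 5) (nat_lit 391) (nat_lit 5) (nat_lit 369) (nat_lit 5) (nat_lit 479) (nat_lit 454) (nat_lit 207))) (XT.nd (nat_lit 78) (nat_lit 1292) (nat_lit 0) (XT.lf (nat_lit 0) (nat_lit 11370503701) (nat_lit 1748) (nat_lit 1223850972) (nat_lit 76) (nat_lit 10734176919) (nat_lit 368) (nat_lit 5) (nat_lit 391) (nat_lit 5) (nat_lit 369) (nat_lit 5) (nat_lit 480) (nat_lit 454) (nat_lit 206)) (XT.lf (nat_lit 0) (nat_lit 10261005189) (nat_lit 1292) (nat_lit 3003393641) (nat_lit 1368) (nat_lit 10321050691) (nat_lit 351) (nat_lit 5) (nat_lit 368) (nat_lit 5) (nat_lit 369) (nat_lit 5) (nat_lit 481) (nat_lit 454) (nat_lit 205)))))) (XT.nd (nat_lit 546) (nat_lit 3040) (nat_lit 0) (XT.nd (nat_lit 234) (nat_lit 1748) (nat_lit 0) (XT.nd (nat_lit 78) (nat_lit 836) (nat_lit 0) (XT.lf (nat_lit 0) (nat_lit 15245196742) (nat_lit 1368) (nat_lit 1902150293) (nat_lit 76) (nat_lit 6699180683) (nat_lit 351) (nat_lit 5) (nat_lit 369)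 (nat_lit 5) (nat_lit 352) (nat_lit 5) (nat_lit 482) (nat_lit 454) (nat_lit 204)) (XT.nd (nat_lit 78) (nat_lit 0) (nat_lit 0) (XT.lf (nat_lit 0) (nat_lit 9855121715) (nat_lit 836) (nat_lit 7491170332) (nat_lit 912) (nat_lit 6764924164) (nat_lit 340) (nat_lit 5) (nat_lit 351) (nat_lit 5) (nat_lit 352) (nat_lit 5) (nat_lit 483) (nat_lit 454) (nat_lit 203)) (XT.lf (nat_lit 0) (nat_lit 19514420781) (nat_lit 912) (nat_lit 2525893434) (nat_lit 76) (nat_lit 2340386343) (nat_lit 340) (nat_lit 5) (nat_lit 352) (nat_lit 5) (nat_lit 341) (nat_lit 5) (nat_lit 484) (nat_lit 454) (nat_lit 202)))) (XT.nd (nat_lit 156) (nat_lit 912) (nat_lit 0) (XT.nd (nat_lit 78) (nat_lit 0) (nat_lit 0) (XT.lf (nat_lit 0) (nat_lit 9511220573) (nat_lit 836) (nat_lit 12322968807) (nat_lit 912) (nat_lit 2819221935) (nat_lit 329) (nat_lit 5) (nat_lit 340) (nat_lit 5) (nat_lit 341) (nat_lit 5) (nat_lit 485) (nat_lit 454) (nat_lit 201)) (XT.lf (nat_lit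 0) (nat_lit 21820512535) (nat_lit 836) (nat_lit 2393746945) (nat_lit 912) (nat_lit 717040910) (nat_lit 329) (nat_lit 5) (nat_lit 340) (nat_lit 5) (nat_lit 341) (nat_lit 5) (nat_lit 486) (nat_lit 454) (nat_lit 200))) (XT.nd (nat_lit 78) (nat_lit 0) (nat_lit 0) (XT.lf (nat_lit 0) (nat_lit 1516327833) (nat_lit 912) (nat_lit 15993322233) (nat_lit 76) (nat_lit 7702756755) (nat_lit 317) (nat_lit 5) (nat_lit 329) (nat_lit 5) (nat_lit 318) (nat_lit 5) (nat_lit 487) (nat_lit 454) (nat_lit 199)) (XT.lf (nat_lit 0) (nat_lit 3818673668) (nat_lit 912) (nat_lit 3684570231) (nat_lit 76) (nat_lit 17995120567) (nat_lit 317) (nat_lit 5) (nat_lit 329) (nat_lit 5) (nat_lit 318) (nat_lit 5) (nat_lit 488) (nat_lit 454) (nat_lit 198))))) (XT.nd (nat_lit 312) (nat_lit 1444) (nat_lit 0) (XT.nd (nat_lit 156) (nat_lit 760) (nat_lit 0) (XT.nd (nat_lit 78) (nat_lit 0) (nat_lit 0) (XT.lf (nat_lit 0) (nat_lit 6240438613) (nat_lit 912) (nat_lit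 16821450437) (nat_lit 76) (nat_lit 2726686826) (nat_lit 306) (nat_lit 5) (nat_lit 318) (nat_lit 5) (nat_lit 307) (nat_lit 5) (nat_lit 489) (nat_lit 454) (nat_lit 197)) (XT.lf (nat_lit 0) (nat_lit 8782352240) (nat_lit 912) (nat_lit 4214971820) (nat_lit 76) (nat_lit 13085835200) (nat_lit 306) (nat_lit 5) (nat_lit 318) (nat_lit 5) (nat_lit 307) (nat_lit 5) (nat_lit 490) (nat_lit 454) (nat_lit 196))) (XT.nd (nat_lit 78) (nat_lit 0) (nat_lit 0) (XT.lf (nat_lit 0) (nat_lit 8755703247) (nat_lit 760) (nat_lit 2673438801) (nat_lit 836) (nat_lit 14953413482) (nat_lit 296) (nat_lit 5) (nat_lit 306) (nat_lit 5) (nat_lit 307) (nat_lit 5) (nat_lit 491) (nat_lit 454) (nat_lit 195)) (XT.lf (nat_lit 0) (nat_lit 14205579507) (nat_lit 836) (nat_lit 4698451940) (nat_lit 76) (nat_lit 7782375977) (nat_lit 296) (nat_lit 5) (nat_lit 307) (nat_lit 5) (nat_lit 297) (nat_lit 5) (nat_lit 492) (nat_lit 454) (nat_lit 194)))) (XT.nd (nat_lit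 156) (nat_lit 684) (nat_lit 0) (XT.nd (nat_lit 78) (nat_lit 0) (nat_lit 0) (XT.lf (nat_lit 0) (nat_lit 8580597498) (nat_lit 760) (nat_lit 8527645899) (nat_lit 836) (nat_lit 9886680904) (nat_lit 286) (nat_lit 5) (nat_lit 296) (nat_lit 5) (nat_lit 297) (nat_lit 5) (nat_lit 493) (nat_lit 454) (nat_lit 193)) (XT.lf (nat_lit 0) (nat_lit 20111366200) (nat_lit 836) (nat_lit 5136410907) (nat_lit 76) (nat_lit 2060988157) (nat_lit 286) (nat_lit 5) (nat_lit 297) (nat_lit 5) (nat_lit 287) (nat_lit 5) (nat_lit 494) (nat_lit 454) (nat_lit 192))) (XT.nd (nat_lit 78) (nat_lit 0) (nat_lit 0) (XT.lf (nat_lit 0) (nat_lit 8458794901) (nat_lit 684) (nat_lit 14824520844) (nat_lit 760) (nat_lit 4343393840) (nat_lit 277) (nat_lit 5) (nat_lit 286) (nat_lit 5) (nat_lit 287) (nat_lit 5) (nat_lit 495) (nat_lit 454) (nat_lit 191)) (XT.lf (nat_lit 0) (nat_lit 22392815660) (nat_lit 684) (nat_lit 4157760295) (nat_lit 760) (nat_lit 1399801193)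 (nat_lit 277) (nat_lit 5) (nat_lit 286) (nat_lit 5) (nat_lit 287) (nat_lit 5) (nat_lit 496) (nat_lit 454) (nat_lit 190))))))))
noncomputable def xc240 : XT := (XT.nd (nat_lit 57330) (nat_lit 0) (nat_lit 3268) (XT.nd (nat_lit 56238) (nat_lit 0) (nat_lit 12008) (XT.nd (nat_lit 546) (nat_lit 1292) (nat_lit 0) (XT.nd (nat_lit 234) (nat_lit 1292) (nat_lit 0) (XT.nd (nat_lit 78) (nat_lit 684) (nat_lit 0) (XT.lf (nat_lit 0) (nat_lit 1677839637) (nat_lit 836) (nat_lit 19900988527) (nat_lit 76) (nat_lit 6699559596) (nat_lit 266) (nat_lit 5) (nat_lit 277) (nat_lit 5) (nat_lit 267) (nat_lit 5) (nat_lit 497) (nat_lit 454) (nat_lit 189)) (XT.nd (nat_lit 78) (nat_lit 684) (nat_lit 0) (XT.lf (nat_lit 0) (nat_lit 4860851338) (nat_lit 836) (nat_lit 5985602084) (nat_lit 76) (nat_lit 17765070567) (nat_lit 266) (nat_lit 5) (nat_lit 277) (nat_lit 5) (nat_lit 267) (nat_lit 5) (nat_lit 498) (nat_lit 454) (nat_lit 188)) (XT.lf (nat_lit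 0) (nat_lit 8160033002) (nat_lit 760) (nat_lit 20636843243) (nat_lit 76) (nat_lit 153398154) (nat_lit 257) (nat_lit 5) (nat_lit 267) (nat_lit 5) (nat_lit 258) (nat_lit 5) (nat_lit 499) (nat_lit 454) (nat_lit 187)))) (XT.nd (nat_lit 156) (nat_lit 608) (nat_lit 0) (XT.nd (nat_lit 78) (nat_lit 684) (nat_lit 0) (XT.lf (nat_lit 0) (nat_lit 11635009254) (nat_lit 760) (nat_lit 6390220703) (nat_lit 76) (nat_lit 11268375263) (nat_lit 257) (nat_lit 5) (nat_lit 267) (nat_lit 5) (nat_lit 258) (nat_lit 5) (nat_lit 500) (nat_lit 454) (nat_lit 186)) (XT.lf (nat_lit 0) (nat_lit 8246837287) (nat_lit 684) (nat_lit 6983787359) (nat_lit 760) (nat_lit 14412156807) (nat_lit 248) (nat_lit 5) (nat_lit 257) (nat_lit 5) (nat_lit 258) (nat_lit 5) (nat_lit 501) (nat_lit 454) (nat_lit 185))) (XT.nd (nat_lit 78) (nat_lit 608) (nat_lit 0) (XT.lf (nat_lit 0) (nat_lit 18966720813) (nat_lit 760) (nat_lit 6765574367) (nat_lit 76) (nat_lit 4265276219)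 (nat_lit 248) (nat_lit 5) (nat_lit 258) (nat_lit 5) (nat_lit 249) (nat_lit 5) (nat_lit 502) (nat_lit 454) (nat_lit 184)) (XT.lf (nat_lit 0) (nat_lit 8216277586) (nat_lit 608) (nat_lit 14658527655) (nat_lit 684) (nat_lit 7482708103) (nat_lit 240) (nat_lit 5) (nat_lit 248) (nat_lit 5) (nat_lit 249) (nat_lit 5) (nat_lit 503) (nat_lit 454) (nat_lit 183))))) (XT.nd (nat_lit 234) (nat_lit 608) (nat_lit 0) (XT.nd (nat_lit 78) (nat_lit 684) (nat_lit 0) (XT.lf (nat_lit 0) (nat_lit 23586860090) (nat_lit 608) (nat_lit 3317291093) (nat_lit 684) (nat_lit 3819642445) (nat_lit 240) (nat_lit 5) (nat_lit 248) (nat_lit 5) (nat_lit 249) (nat_lit 5) (nat_lit 504) (nat_lit 454) (nat_lit 182)) (XT.nd (nat_lit 78) (nat_lit 0) (nat_lit 0) (XT.lf (nat_lit 0) (nat_lit 23144492) (nat_lit 684) (nat_lit 22876388815) (nat_lit 76) (nat_lit 8195771123) (nat_lit 231) (nat_lit 5) (nat_lit 240) (nat_lit 5) (nat_lit 232) (nat_lit 5) (nat_lit 505)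 (nat_lit 454) (nat_lit 181)) (XT.lf (nat_lit 0) (nat_lit 3959622149) (nat_lit 684) (nat_lit 7544867480) (nat_lit 76) (nat_lit 19967892674) (nat_lit 231) (nat_lit 5) (nat_lit 240) (nat_lit 5) (nat_lit 232) (nat_lit 5) (nat_lit 506) (nat_lit 454) (nat_lit 180)))) (XT.nd (nat_lit 55302) (nat_lit 0) (nat_lit 11932) (XT.nd (nat_lit 78) (nat_lit 0) (nat_lit 0) (XT.lf (nat_lit 0) (nat_lit 8026974594) (nat_lit 684) (nat_lit 23658867783) (nat_lit 76) (nat_lit 170117834) (nat_lit 223) (nat_lit 5) (nat_lit 232) (nat_lit 5) (nat_lit 224) (nat_lit 5) (nat_lit 507) (nat_lit 454) (nat_lit 179)) (XT.lf (nat_lit 0) (nat_lit 12300649892) (nat_lit 684) (nat_lit 7969153927) (nat_lit 76) (nat_lit 11974907696) (nat_lit 223) (nat_lit 5) (nat_lit 232) (nat_lit 5) (nat_lit 224) (nat_lit 5) (nat_lit 508) (nat_lit 454) (nat_lit 178))) (XT.nd (nat_lit 78) (nat_lit 0) (nat_lit 0) (XT.lf (nat_lit 0) (nat_lit 3655377074) (nat_lit 1748) (nat_lit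 2719996675) (nat_lit 1748) (nat_lit 2719996675) (nat_lit 380) (nat_lit 3) (nat_lit 403) (nat_lit 3) (nat_lit 403) (nat_lit 5) (nat_lit 455) (nat_lit 455) (nat_lit 230)) (XT.lf (nat_lit 76) (nat_lit 2865101538) (nat_lit 0) (nat_lit 4728998308) (nat_lit 1748) (nat_lit 10774193055) (nat_lit 381) (nat_lit 5) (nat_lit 380) (nat_lit 3) (nat_lit 403) (nat_lit 5) (nat_lit 456) (nat_lit 455) (nat_lit 229)))))) (XT.nd (nat_lit 546) (nat_lit 0) (nat_lit 228) (XT.nd (nat_lit 234) (nat_lit 0) (nat_lit 76) (XT.nd (nat_lit 78) (nat_lit 0) (nat_lit 0) (XT.lf (nat_lit 0) (nat_lit 7937252114) (nat_lit 1672) (nat_lit 7164009519) (nat_lit 1748) (nat_lit 3447055518) (nat_lit 381) (nat_lit 5) (nat_lit 403) (nat_lit 5) (nat_lit 404) (nat_lit 5) (nat_lit 457) (nat_lit 455) (nat_lit 228)) (XT.nd (nat_lit 78) (nat_lit 0) (nat_lit 76) (XT.lf (nat_lit 76) (nat_lit 1325353312) (nat_lit 0) (nat_lit 6996907945) (nat_lit 1748) (nat_lit 10408984626)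 (nat_lit 382) (nat_lit 5) (nat_lit 381) (nat_lit 5) (nat_lit 404) (nat_lit 5) (nat_lit 458) (nat_lit 455) (nat_lit 227)) (XT.lf (nat_lit 0) (nat_lit 8766770502) (nat_lit 1672) (nat_lit 8846583845) (nat_lit 1748) (nat_lit 1303446640) (nat_lit 382) (nat_lit 5) (nat_lit 404) (nat_lit 5) (nat_lit 405) (nat_lit 5) (nat_lit 459) (nat_lit 455) (nat_lit 226)))) (XT.nd (nat_lit 156) (nat_lit 0) (nat_lit 76) (XT.nd (nat_lit 78) (nat_lit 0) (nat_lit 0) (XT.lf (nat_lit 0) (nat_lit 9261766503) (nat_lit 1672) (nat_lit 165136431) (nat_lit 1748) (nat_lit 9678336051) (nat_lit 382) (nat_lit 5) (nat_lit 404) (nat_lit 5) (nat_lit 405) (nat_lit 5) (nat_lit 460) (nat_lit 455) (nat_lit 225)) (XT.lf (nat_lit 76) (nat_lit 8802732142) (nat_lit 0) (nat_lit 1016435841) (nat_lit 1748) (nat_lit 9477231297) (nat_lit 383) (nat_lit 5) (nat_lit 382) (nat_lit 5) (nat_lit 405) (nat_lit 5) (nat_lit 461) (nat_lit 455) (nat_lit 224))) (XT.nd (nat_lit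 78) (nat_lit 0) (nat_lit 0) (XT.lf (nat_lit 0) (nat_lit 10433370999) (nat_lit 1672) (nat_lit 1591017813) (nat_lit 1748) (nat_lit 7466084477) (nat_lit 383) (nat_lit 5) (nat_lit 405) (nat_lit 5) (nat_lit 406) (nat_lit 5) (nat_lit 462) (nat_lit 455) (nat_lit 223)) (XT.lf (nat_lit 76) (nat_lit 7579668390) (nat_lit 0) (nat_lit 3531661647) (nat_lit 1748) (nat_lit 8576072809) (nat_lit 384) (nat_lit 5) (nat_lit 383) (nat_lit 5) (nat_lit 406) (nat_lit 5) (nat_lit 463) (nat_lit 455) (nat_lit 222))))) (XT.nd (nat_lit 234) (nat_lit 0) (nat_lit 76) (XT.nd (nat_lit 78) (nat_lit 0) (nat_lit 0) (XT.lf (nat_lit 0) (nat_lit 11842518740) (nat_lit 1672) (nat_lit 2968884931) (nat_lit 1748) (nat_lit 5076077353) (nat_lit 384) (nat_lit 5) (nat_lit 406) (nat_lit 5) (nat_lit 407) (nat_lit 5) (nat_lit 464) (nat_lit 455) (nat_lit 221)) (XT.nd (nat_lit 78) (nat_lit 0) (nat_lit 76) (XT.lf (nat_lit 76) (nat_lit 6410706738) (nat_lit 0) (nat_lit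 6238331482) (nat_lit 1748) (nat_lit 7441311776) (nat_lit 385) (nat_lit 5) (nat_lit 384) (nat_lit 5) (nat_lit 407) (nat_lit 5) (nat_lit 465) (nat_lit 455) (nat_lit 220)) (XT.lf (nat_lit 0) (nat_lit 13503787457) (nat_lit 1672) (nat_lit 4297951501) (nat_lit 1748) (nat_lit 2494898708) (nat_lit 385) (nat_lit 5) (nat_lit 407) (nat_lit 5) (nat_lit 408) (nat_lit 5) (nat_lit 466) (nat_lit 455) (nat_lit 219)))) (XT.nd (nat_lit 156) (nat_lit 0) (nat_lit 76) (XT.nd (nat_lit 78) (nat_lit 0) (nat_lit 0) (XT.lf (nat_lit 76) (nat_lit 5296779837) (nat_lit 0) (nat_lit 9150411112) (nat_lit 1748) (nat_lit 6058432195) (nat_lit 386) (nat_lit 5) (nat_lit 385) (nat_lit 5) (nat_lit 408) (nat_lit 5) (nat_lit 467) (nat_lit 455) (nat_lit 218)) (XT.lf (nat_lit 76) (nat_lit 15138934732) (nat_lit 0) (nat_lit 295288436) (nat_lit 1748) (nat_lit 5284073128) (nat_lit 386) (nat_lit 5) (nat_lit 385) (nat_lit 5) (nat_lit 408) (nat_lit 5) (nat_lit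 468) (nat_lit 455) (nat_lit 217))) (XT.nd (nat_lit 78) (nat_lit 0) (nat_lit 0) (XT.lf (nat_lit 76) (nat_lit 4238807436) (nat_lit 0) (nat_lit 12282443483) (nat_lit 1748) (nat_lit 4412370008) (nat_lit 387) (nat_lit 5) (nat_lit 386) (nat_lit 5) (nat_lit 409) (nat_lit 5) (nat_lit 469) (nat_lit 455) (nat_lit 216)) (XT.lf (nat_lit 76) (nat_lit 14324237097) (nat_lit 0) (nat_lit 3341233436) (nat_lit 1748) (nat_lit 3487075545) (nat_lit 387) (nat_lit 5) (nat_lit 386) (nat_lit 5) (nat_lit 409) (nat_lit 5) (nat_lit 470) (nat_lit 455) (nat_lit 215))))))) (XT.nd (nat_lit 1092) (nat_lit 5624) (nat_lit 0) (XT.nd (nat_lit 546) (nat_lit 1900) (nat_lit 0) (XT.nd (nat_lit 234) (nat_lit 1672) (nat_lit 0) (XT.nd (nat_lit 78) (nat_lit 0) (nat_lit 0) (XT.lf (nat_lit 76) (nat_lit 3237684058) (nat_lit 0) (nat_lit 15649584263) (nat_lit 1748) (nat_lit 2487490530) (nat_lit 388) (nat_lit 5) (nat_lit 387) (nat_lit 5) (nat_lit 410) (nat_lit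 5) (nat_lit 471) (nat_lit 455) (nat_lit 214)) (XT.nd (nat_lit 78) (nat_lit 0) (nat_lit 76) (XT.lf (nat_lit 76) (nat_lit 13572368810) (nat_lit 0) (nat_lit 6625146857) (nat_lit 1748) (nat_lit 1402622876) (nat_lit 388) (nat_lit 5) (nat_lit 387) (nat_lit 5) (nat_lit 410) (nat_lit 5) (nat_lit 472) (nat_lit 455) (nat_lit 213)) (XT.lf (nat_lit 76) (nat_lit 2294265797) (nat_lit 0) (nat_lit 19267638776) (nat_lit 1748) (nat_lit 267565400) (nat_lit 389) (nat_lit 5) (nat_lit 388) (nat_lit 5) (nat_lit 411) (nat_lit 5) (nat_lit 473) (nat_lit 455) (nat_lit 212)))) (XT.nd (nat_lit 156) (nat_lit 0) (nat_lit 76) (XT.nd (nat_lit 78) (nat_lit 0) (nat_lit 0) (XT.lf (nat_lit 0) (nat_lit 972939430) (nat_lit 1748) (nat_lit 9183590675) (nat_lit 1824) (nat_lit 11904856673) (nat_lit 365) (nat_lit 5) (nat_lit 388) (nat_lit 5) (nat_lit 389) (nat_lit 5) (nat_lit 474) (nat_lit 455) (nat_lit 211)) (XT.lf (nat_lit 76) (nat_lit 1388722966) (nat_lit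 0) (nat_lit 851359519) (nat_lit 1824) (nat_lit 20057718557) (nat_lit 366) (nat_lit 5) (nat_lit 365) (nat_lit 5) (nat_lit 389) (nat_lit 5) (nat_lit 475) (nat_lit 455) (nat_lit 210))) (XT.nd (nat_lit 78) (nat_lit 0) (nat_lit 0) (XT.lf (nat_lit 0) (nat_lit 3647148352) (nat_lit 1748) (nat_lit 10300080626) (nat_lit 1824) (nat_lit 8589425671) (nat_lit 366) (nat_lit 5) (nat_lit 389) (nat_lit 5) (nat_lit 390) (nat_lit 5) (nat_lit 476) (nat_lit 455) (nat_lit 209)) (XT.lf (nat_lit 76) (nat_lit 519493190) (nat_lit 0) (nat_lit 4568392054) (nat_lit 1824) (nat_lit 17692292099) (nat_lit 367) (nat_lit 5) (nat_lit 366) (nat_lit 5) (nat_lit 390) (nat_lit 5) (nat_lit 477) (nat_lit 455) (nat_lit 208))))) (XT.nd (nat_lit 234) (nat_lit 2052) (nat_lit 0) (XT.nd (nat_lit 78) (nat_lit 0) (nat_lit 0) (XT.lf (nat_lit 0) (nat_lit 6656037412) (nat_lit 1748) (nat_lit 11367853471) (nat_lit 1824) (nat_lit 5002710151) (nat_lit 367) (nat_lit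 5) (nat_lit 390) (nat_lit 5) (nat_lit 391) (nat_lit 5) (nat_lit 478) (nat_lit 455) (nat_lit 207)) (XT.nd (nat_lit 78) (nat_lit 0) (nat_lit 76) (XT.lf (nat_lit 0) (nat_lit 8282447427) (nat_lit 1748) (nat_lit 290200753) (nat_lit 1824) (nat_lit 14704769627) (nat_lit 367) (nat_lit 5) (nat_lit 390) (nat_lit 5) (nat_lit 391) (nat_lit 5) (nat_lit 479) (nat_lit 455) (nat_lit 206)) (XT.lf (nat_lit 0) (nat_lit 10017916713) (nat_lit 1748) (nat_lit 12386739099) (nat_lit 76) (nat_lit 1127066939) (nat_lit 368) (nat_lit 5) (nat_lit 391) (nat_lit 5) (nat_lit 369) (nat_lit 5) (nat_lit 480) (nat_lit 455) (nat_lit 205)))) (XT.nd (nat_lit 156) (nat_lit 836) (nat_lit 0) (XT.nd (nat_lit 78) (nat_lit 1292) (nat_lit 0) (XT.lf (nat_lit 0) (nat_lit 11843585105) (nat_lit 1748) (nat_lit 1037833467) (nat_lit 76) (nat_lit 10908587834) (nat_lit 368) (nat_lit 5) (nat_lit 391) (nat_lit 5) (nat_lit 369) (nat_lit 5) (nat_lit 481) (nat_lit 455)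 (nat_lit 204)) (XT.lf (nat_lit 0) (nat_lit 10675334985) (nat_lit 1292) (nat_lit 3096563746) (nat_lit 1368) (nat_lit 10280236728) (nat_lit 351) (nat_lit 5) (nat_lit 368) (nat_lit 5) (nat_lit 369) (nat_lit 5) (nat_lit 482) (nat_lit 455) (nat_lit 203))) (XT.nd (nat_lit 78) (nat_lit 836) (nat_lit 0) (XT.lf (nat_lit 0) (nat_lit 15787352640) (nat_lit 1368) (nat_lit 1730048528) (nat_lit 76) (nat_lit 6801136757) (nat_lit 351) (nat_lit 5) (nat_lit 369) (nat_lit 5) (nat_lit 352) (nat_lit 5) (nat_lit 483) (nat_lit 455) (nat_lit 202)) (XT.lf (nat_lit 0) (nat_lit 10260986389) (nat_lit 836) (nat_lit 7666186886) (nat_lit 912) (nat_lit 6661416282) (nat_lit 340) (nat_lit 5) (nat_lit 351) (nat_lit 5) (nat_lit 352) (nat_lit 5) (nat_lit 484) (nat_lit 455) (nat_lit 201)))))) (XT.nd (nat_lit 546) (nat_lit 3040) (nat_lit 0) (XT.nd (nat_lit 234) (nat_lit 1748) (nat_lit 0) (XT.nd (nat_lit 78) (nat_lit 836) (nat_lit 0) (XT.lf (nat_lit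 0) (nat_lit 20133916860) (nat_lit 912) (nat_lit 2366826216) (nat_lit 76) (nat_lit 2362818840) (nat_lit 340) (nat_lit 5) (nat_lit 352) (nat_lit 5) (nat_lit 341) (nat_lit 5) (nat_lit 485) (nat_lit 455) (nat_lit 200)) (XT.nd (nat_lit 78) (nat_lit 0) (nat_lit 0) (XT.lf (nat_lit 0) (nat_lit 9909651222) (nat_lit 836) (nat_lit 12587287154) (nat_lit 912) (nat_lit 2644854665) (nat_lit 329) (nat_lit 5) (nat_lit 340) (nat_lit 5) (nat_lit 341) (nat_lit 5) (nat_lit 486) (nat_lit 455) (nat_lit 199)) (XT.lf (nat_lit 0) (nat_lit 22461046548) (nat_lit 836) (nat_lit 2459130678) (nat_lit 912) (nat_lit 505154562) (nat_lit 329) (nat_lit 5) (nat_lit 340) (nat_lit 5) (nat_lit 341) (nat_lit 5) (nat_lit 487) (nat_lit 455) (nat_lit 198)))) (XT.nd (nat_lit 156) (nat_lit 836) (nat_lit 0) (XT.nd (nat_lit 78) (nat_lit 0) (nat_lit 0) (XT.lf (nat_lit 0) (nat_lit 1766780584) (nat_lit 912) (nat_lit 16102649493) (nat_lit 76) (nat_lit 7842666688)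 (nat_lit 317) (nat_lit 5) (nat_lit 329) (nat_lit 5) (nat_lit 318) (nat_lit 5) (nat_lit 488) (nat_lit 455) (nat_lit 197)) (XT.lf (nat_lit 0) (nat_lit 4110857135) (nat_lit 912) (nat_lit 3551850670) (nat_lit 76) (nat_lit 18341155133) (nat_lit 317) (nat_lit 5) (nat_lit 329) (nat_lit 5) (nat_lit 318) (nat_lit 5) (nat_lit 489) (nat_lit 455) (nat_lit 196))) (XT.nd (nat_lit 78) (nat_lit 0) (nat_lit 0) (XT.lf (nat_lit 0) (nat_lit 6578106139) (nat_lit 912) (nat_lit 16948367617) (nat_lit 76) (nat_lit 2773466838) (nat_lit 306) (nat_lit 5) (nat_lit 318) (nat_lit 5) (nat_lit 307) (nat_lit 5) (nat_lit 490) (nat_lit 455) (nat_lit 195)) (XT.lf (nat_lit 0) (nat_lit 9166684338) (nat_lit 912) (nat_lit 4093867503) (nat_lit 76) (nat_lit 13339950213) (nat_lit 306) (nat_lit 5) (nat_lit 318) (nat_lit 5) (nat_lit 307) (nat_lit 5) (nat_lit 491) (nat_lit 455) (nat_lit 194))))) (XT.nd (nat_lit 234) (nat_lit 1520) (nat_lit 0) (XT.nd (nat_lit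 78) (nat_lit 760) (nat_lit 0) (XT.lf (nat_lit 0) (nat_lit 9134869725) (nat_lit 760) (nat_lit 2728773197) (nat_lit 836) (nat_lit 15042301544) (nat_lit 296) (nat_lit 5) (nat_lit 306) (nat_lit 5) (nat_lit 307) (nat_lit 5) (nat_lit 492) (nat_lit 455) (nat_lit 193)) (XT.nd (nat_lit 78) (nat_lit 760) (nat_lit 0) (XT.lf (nat_lit 0) (nat_lit 14691559647) (nat_lit 836) (nat_lit 4588179116) (nat_lit 76) (nat_lit 7936218445) (nat_lit 296) (nat_lit 5) (nat_lit 307) (nat_lit 5) (nat_lit 297) (nat_lit 5) (nat_lit 493) (nat_lit 455) (nat_lit 192)) (XT.lf (nat_lit 0) (nat_lit 8955107614) (nat_lit 760) (nat_lit 8694528342) (nat_lit 836) (nat_lit 9881064048) (nat_lit 286) (nat_lit 5) (nat_lit 296) (nat_lit 5) (nat_lit 297) (nat_lit 5) (nat_lit 494) (nat_lit 455) (nat_lit 191)))) (XT.nd (nat_lit 156) (nat_lit 836) (nat_lit 0) (XT.nd (nat_lit 78) (nat_lit 684) (nat_lit 0) (XT.lf (nat_lit 0) (nat_lit 20708938155) (nat_lit 836) (nat_lit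 5036200774) (nat_lit 76) (nat_lit 2105759229) (nat_lit 286) (nat_lit 5) (nat_lit 297) (nat_lit 5) (nat_lit 287) (nat_lit 5) (nat_lit 495) (nat_lit 455) (nat_lit 190)) (XT.lf (nat_lit 0) (nat_lit 8829574030) (nat_lit 684) (nat_lit 15112231316) (nat_lit 760) (nat_lit 4233449104) (nat_lit 277) (nat_lit 5) (nat_lit 286) (nat_lit 5) (nat_lit 287) (nat_lit 5) (nat_lit 496) (nat_lit 455) (nat_lit 189))) (XT.nd (nat_lit 78) (nat_lit 836) (nat_lit 0) (XT.lf (nat_lit 0) (nat_lit 23038322199) (nat_lit 684) (nat_lit 4232307712) (nat_lit 760) (nat_lit 1234843675) (nat_lit 277) (nat_lit 5) (nat_lit 286) (nat_lit 5) (nat_lit 287) (nat_lit 5) (nat_lit 497) (nat_lit 455) (nat_lit 188)) (XT.lf (nat_lit 0) (nat_lit 1899449030) (nat_lit 836) (nat_lit 20096204229) (nat_lit 76) (nat_lit 6844416005) (nat_lit 266) (nat_lit 5) (nat_lit 277) (nat_lit 5) (nat_lit 267) (nat_lit 5) (nat_lit 498) (nat_lit 455) (nat_lit 187))))))))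
noncomputable def xc241 : XT := (XT.nd (nat_lit 57408) (nat_lit 0) (nat_lit 2584) (XT.nd (nat_lit 56316) (nat_lit 0) (nat_lit 12084) (XT.nd (nat_lit 546) (nat_lit 1292) (nat_lit 0) (XT.nd (nat_lit 234) (nat_lit 1292) (nat_lit 0) (XT.nd (nat_lit 78) (nat_lit 684) (nat_lit 0) (XT.lf (nat_lit 0) (nat_lit 5142433659) (nat_lit 836) (nat_lit 5906486607) (nat_lit 76) (nat_lit 18131024152) (nat_lit 266) (nat_lit 5) (nat_lit 277) (nat_lit 5) (nat_lit 267) (nat_lit 5) (nat_lit 499) (nat_lit 455) (nat_lit 186)) (XT.nd (nat_lit 78) (nat_lit 0) (nat_lit 0) (XT.lf (nat_lit 0) (nat_lit 8505366928) (nat_lit 760) (nat_lit 20848400225) (nat_lit 76) (nat_lit 171749732) (nat_lit 257) (nat_lit 5) (nat_lit 267) (nat_lit 5) (nat_lit 258) (nat_lit 5) (nat_lit 500) (nat_lit 455) (nat_lit 185)) (XT.lf (nat_lit 0) (nat_lit 12046271464) (nat_lit 760) (nat_lit 6320789938) (nat_lit 76) (nat_lit 11508726705) (nat_lit 257) (nat_lit 5) (nat_lit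 267) (nat_lit 5) (nat_lit 258) (nat_lit 5) (nat_lit 501) (nat_lit 455) (nat_lit 184)))) (XT.nd (nat_lit 156) (nat_lit 608) (nat_lit 0) (XT.nd (nat_lit 78) (nat_lit 0) (nat_lit 0) (XT.lf (nat_lit 0) (nat_lit 8607711613) (nat_lit 684) (nat_lit 7103858492) (nat_lit 760) (nat_lit 14520424653) (nat_lit 248) (nat_lit 5) (nat_lit 257) (nat_lit 5) (nat_lit 258) (nat_lit 5) (nat_lit 502) (nat_lit 455) (nat_lit 183)) (XT.lf (nat_lit 0) (nat_lit 19519055476) (nat_lit 760) (nat_lit 6705344073) (nat_lit 76) (nat_lit 4369549876) (nat_lit 248) (nat_lit 5) (nat_lit 258) (nat_lit 5) (nat_lit 249) (nat_lit 5) (nat_lit 503) (nat_lit 455) (nat_lit 182))) (XT.nd (nat_lit 78) (nat_lit 0) (nat_lit 0) (XT.lf (nat_lit 0) (nat_lit 8574858460) (nat_lit 608) (nat_lit 14928312206) (nat_lit 684) (nat_lit 7457964386) (nat_lit 240) (nat_lit 5) (nat_lit 248) (nat_lit 5) (nat_lit 249) (nat_lit 5) (nat_lit 504) (nat_lit 455) (nat_lit 181)) (XT.lf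 (nat_lit 0) (nat_lit 24249043687) (nat_lit 608) (nat_lit 3360709462) (nat_lit 684) (nat_lit 3725056981) (nat_lit 240) (nat_lit 5) (nat_lit 248) (nat_lit 5) (nat_lit 249) (nat_lit 5) (nat_lit 505) (nat_lit 455) (nat_lit 180))))) (XT.nd (nat_lit 55458) (nat_lit 0) (nat_lit 11932) (XT.nd (nat_lit 78) (nat_lit 608) (nat_lit 0) (XT.lf (nat_lit 0) (nat_lit 190439642) (nat_lit 684) (nat_lit 23139112528) (nat_lit 76) (nat_lit 8384216942) (nat_lit 231) (nat_lit 5) (nat_lit 240) (nat_lit 5) (nat_lit 232) (nat_lit 5) (nat_lit 506) (nat_lit 455) (nat_lit 179)) (XT.nd (nat_lit 78) (nat_lit 608) (nat_lit 0) (XT.lf (nat_lit 0) (nat_lit 4202375631) (nat_lit 684) (nat_lit 7504780454) (nat_lit 76) (nat_lit 20391299936) (nat_lit 231) (nat_lit 5) (nat_lit 240) (nat_lit 5) (nat_lit 232) (nat_lit 5) (nat_lit 507) (nat_lit 455) (nat_lit 178)) (XT.lf (nat_lit 0) (nat_lit 8349282602) (nat_lit 684) (nat_lit 23939167548) (nat_lit 76) (nat_lit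 201293201) (nat_lit 223) (nat_lit 5) (nat_lit 232) (nat_lit 5) (nat_lit 224) (nat_lit 5) (nat_lit 508) (nat_lit 455) (nat_lit 177)))) (XT.nd (nat_lit 156) (nat_lit 0) (nat_lit 76) (XT.nd (nat_lit 78) (nat_lit 0) (nat_lit 0) (XT.lf (nat_lit 0) (nat_lit 3918876405) (nat_lit 1748) (nat_lit 2677221988) (nat_lit 1748) (nat_lit 2677221988) (nat_lit 380) (nat_lit 3) (nat_lit 403) (nat_lit 3) (nat_lit 403) (nat_lit 5) (nat_lit 456) (nat_lit 456) (nat_lit 228)) (XT.lf (nat_lit 76) (nat_lit 3115474196) (nat_lit 0) (nat_lit 5005078423) (nat_lit 1748) (nat_lit 10607321361) (nat_lit 381) (nat_lit 5) (nat_lit 380) (nat_lit 3) (nat_lit 403) (nat_lit 5) (nat_lit 457) (nat_lit 456) (nat_lit 227))) (XT.nd (nat_lit 78) (nat_lit 0) (nat_lit 0) (XT.lf (nat_lit 0) (nat_lit 8462068095) (nat_lit 1672) (nat_lit 7109217332) (nat_lit 1748) (nat_lit 3340389038) (nat_lit 381) (nat_lit 5) (nat_lit 403) (nat_lit 5) (nat_lit 404) (nat_lit 5)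 (nat_lit 458) (nat_lit 456) (nat_lit 226)) (XT.lf (nat_lit 76) (nat_lit 1548629649) (nat_lit 0) (nat_lit 7300247468) (nat_lit 1748) (nat_lit 10249508300) (nat_lit 382) (nat_lit 5) (nat_lit 381) (nat_lit 5) (nat_lit 404) (nat_lit 5) (nat_lit 459) (nat_lit 456) (nat_lit 225)))))) (XT.nd (nat_lit 546) (nat_lit 0) (nat_lit 228) (XT.nd (nat_lit 234) (nat_lit 0) (nat_lit 76) (XT.nd (nat_lit 78) (nat_lit 0) (nat_lit 0) (XT.lf (nat_lit 0) (nat_lit 9294174269) (nat_lit 1672) (nat_lit 8822225753) (nat_lit 1748) (nat_lit 1171419176) (nat_lit 382) (nat_lit 5) (nat_lit 404) (nat_lit 5) (nat_lit 405) (nat_lit 5) (nat_lit 460) (nat_lit 456) (nat_lit 224)) (XT.nd (nat_lit 78) (nat_lit 0) (nat_lit 0) (XT.lf (nat_lit 76) (nat_lit 29287866) (nat_lit 0) (nat_lit 9763069177) (nat_lit 1748) (nat_lit 9687808594) (nat_lit 383) (nat_lit 5) (nat_lit 382) (nat_lit 5) (nat_lit 405) (nat_lit 5) (nat_lit 461) (nat_lit 456) (nat_lit 223))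 (XT.lf (nat_lit 76) (nat_lit 9174831387) (nat_lit 0) (nat_lit 1180389920) (nat_lit 1748) (nat_lit 9320046851) (nat_lit 383) (nat_lit 5) (nat_lit 382) (nat_lit 5) (nat_lit 405) (nat_lit 5) (nat_lit 462) (nat_lit 456) (nat_lit 222)))) (XT.nd (nat_lit 156) (nat_lit 0) (nat_lit 76) (XT.nd (nat_lit 78) (nat_lit 0) (nat_lit 0) (XT.lf (nat_lit 0) (nat_lit 10974133962) (nat_lit 1672) (nat_lit 1422802658) (nat_lit 1748) (nat_lit 7476443726) (nat_lit 383) (nat_lit 5) (nat_lit 405) (nat_lit 5) (nat_lit 406) (nat_lit 5) (nat_lit 463) (nat_lit 456) (nat_lit 221)) (XT.lf (nat_lit 76) (nat_lit 7929981246) (nat_lit 0) (nat_lit 3730449475) (nat_lit 1748) (nat_lit 8413927309) (nat_lit 384) (nat_lit 5) (nat_lit 383) (nat_lit 5) (nat_lit 406) (nat_lit 5) (nat_lit 464) (nat_lit 456) (nat_lit 220))) (XT.nd (nat_lit 78) (nat_lit 0) (nat_lit 0) (XT.lf (nat_lit 0) (nat_lit 12399018153) (nat_lit 1672) (nat_lit 2825964174) (nat_lit 1748)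 (nat_lit 5053604953) (nat_lit 384) (nat_lit 5) (nat_lit 406) (nat_lit 5) (nat_lit 407) (nat_lit 5) (nat_lit 465) (nat_lit 456) (nat_lit 219)) (XT.lf (nat_lit 76) (nat_lit 6739888418) (nat_lit 0) (nat_lit 6476816791) (nat_lit 1748) (nat_lit 7268912589) (nat_lit 385) (nat_lit 5) (nat_lit 384) (nat_lit 5) (nat_lit 407) (nat_lit 5) (nat_lit 466) (nat_lit 456) (nat_lit 218))))) (XT.nd (nat_lit 234) (nat_lit 0) (nat_lit 76) (XT.nd (nat_lit 78) (nat_lit 0) (nat_lit 0) (XT.lf (nat_lit 0) (nat_lit 14081655253) (nat_lit 1672) (nat_lit 4179748688) (nat_lit 1748) (nat_lit 2434769977) (nat_lit 385) (nat_lit 5) (nat_lit 407) (nat_lit 5) (nat_lit 408) (nat_lit 5) (nat_lit 467) (nat_lit 456) (nat_lit 217)) (XT.nd (nat_lit 78) (nat_lit 0) (nat_lit 0) (XT.lf (nat_lit 76) (nat_lit 5605534107) (nat_lit 0) (nat_lit 9433674403) (nat_lit 1748) (nat_lit 5870229681) (nat_lit 386) (nat_lit 5) (nat_lit 385) (nat_lit 5) (nat_lit 408) (nat_lit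 5) (nat_lit 468) (nat_lit 456) (nat_lit 216)) (XT.lf (nat_lit 76) (nat_lit 15640555264) (nat_lit 0) (nat_lit 399483488) (nat_lit 1748) (nat_lit 5086449533) (nat_lit 386) (nat_lit 5) (nat_lit 385) (nat_lit 5) (nat_lit 408) (nat_lit 5) (nat_lit 469) (nat_lit 456) (nat_lit 215)))) (XT.nd (nat_lit 156) (nat_lit 0) (nat_lit 76) (XT.nd (nat_lit 78) (nat_lit 0) (nat_lit 0) (XT.lf (nat_lit 76) (nat_lit 4527884532) (nat_lit 0) (nat_lit 12615797236) (nat_lit 1748) (nat_lit 4202544682) (nat_lit 387) (nat_lit 5) (nat_lit 386) (nat_lit 5) (nat_lit 409) (nat_lit 5) (nat_lit 470) (nat_lit 456) (nat_lit 214)) (XT.lf (nat_lit 76) (nat_lit 14811016885) (nat_lit 0) (nat_lit 3494043285) (nat_lit 1748) (nat_lit 3264588893) (nat_lit 387) (nat_lit 5) (nat_lit 386) (nat_lit 5) (nat_lit 409) (nat_lit 5) (nat_lit 471) (nat_lit 456) (nat_lit 213))) (XT.nd (nat_lit 78) (nat_lit 0) (nat_lit 0) (XT.lf (nat_lit 76) (nat_lit 3507878461) (nat_lit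 0) (nat_lit 16038588646) (nat_lit 1748) (nat_lit 2249939880) (nat_lit 388) (nat_lit 5) (nat_lit 387) (nat_lit 5) (nat_lit 410) (nat_lit 5) (nat_lit 472) (nat_lit 456) (nat_lit 212)) (XT.lf (nat_lit 76) (nat_lit 14045228659) (nat_lit 0) (nat_lit 6832172046) (nat_lit 1748) (nat_lit 1149008215) (nat_lit 388) (nat_lit 5) (nat_lit 387) (nat_lit 5) (nat_lit 410) (nat_lit 5) (nat_lit 473) (nat_lit 456) (nat_lit 211))))))) (XT.nd (nat_lit 1092) (nat_lit 5472) (nat_lit 0) (XT.nd (nat_lit 546) (nat_lit 2736) (nat_lit 0) (XT.nd (nat_lit 234) (nat_lit 0) (nat_lit 76) (XT.nd (nat_lit 78) (nat_lit 0) (nat_lit 0) (XT.lf (nat_lit 0) (nat_lit 4055756) (nat_lit 1748) (nat_lit 19714034916) (nat_lit 1824) (nat_lit 2542330876) (nat_lit 365) (nat_lit 5) (nat_lit 388) (nat_lit 5) (nat_lit 389) (nat_lit 5) (nat_lit 474) (nat_lit 456) (nat_lit 210)) (XT.nd (nat_lit 78) (nat_lit 0) (nat_lit 0) (XT.lf (nat_lit 0) (nat_lit 1260430684) (nat_lit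 1748) (nat_lit 9161280736) (nat_lit 1824) (nat_lit 12075341071) (nat_lit 365) (nat_lit 5) (nat_lit 388) (nat_lit 5) (nat_lit 389) (nat_lit 5) (nat_lit 475) (nat_lit 456) (nat_lit 209)) (XT.lf (nat_lit 76) (nat_lit 1621124035) (nat_lit 0) (nat_lit 927865597) (nat_lit 1824) (nat_lit 20189287895) (nat_lit 366) (nat_lit 5) (nat_lit 365) (nat_lit 5) (nat_lit 389) (nat_lit 5) (nat_lit 476) (nat_lit 456) (nat_lit 208)))) (XT.nd (nat_lit 156) (nat_lit 0) (nat_lit 76) (XT.nd (nat_lit 78) (nat_lit 0) (nat_lit 0) (XT.lf (nat_lit 0) (nat_lit 3978639674) (nat_lit 1748) (nat_lit 10299717218) (nat_lit 1824) (nat_lit 8703666330) (nat_lit 366) (nat_lit 5) (nat_lit 389) (nat_lit 5) (nat_lit 390) (nat_lit 5) (nat_lit 477) (nat_lit 456) (nat_lit 207)) (XT.lf (nat_lit 76) (nat_lit 734890409) (nat_lit 0) (nat_lit 4709562361) (nat_lit 1824) (nat_lit 17786042164) (nat_lit 367) (nat_lit 5) (nat_lit 366) (nat_lit 5) (nat_lit 390) (nat_lit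 5) (nat_lit 478) (nat_lit 456) (nat_lit 206))) (XT.nd (nat_lit 78) (nat_lit 0) (nat_lit 0) (XT.lf (nat_lit 0) (nat_lit 7038654701) (nat_lit 1748) (nat_lit 11388723617) (nat_lit 1824) (nat_lit 5054578768) (nat_lit 367) (nat_lit 5) (nat_lit 390) (nat_lit 5) (nat_lit 391) (nat_lit 5) (nat_lit 479) (nat_lit 456) (nat_lit 205)) (XT.lf (nat_lit 0) (nat_lit 8692700828) (nat_lit 1748) (nat_lit 93566608) (nat_lit 1824) (nat_lit 14951624248) (nat_lit 367) (nat_lit 5) (nat_lit 390) (nat_lit 5) (nat_lit 391) (nat_lit 5) (nat_lit 480) (nat_lit 456) (nat_lit 204))))) (XT.nd (nat_lit 234) (nat_lit 1672) (nat_lit 0) (XT.nd (nat_lit 78) (nat_lit 1292) (nat_lit 0) (XT.lf (nat_lit 0) (nat_lit 10459129293) (nat_lit 1748) (nat_lit 12428106700) (nat_lit 76) (nat_lit 1110125314) (nat_lit 368) (nat_lit 5) (nat_lit 391) (nat_lit 5) (nat_lit 369) (nat_lit 5) (nat_lit 481) (nat_lit 456) (nat_lit 203)) (XT.nd (nat_lit 78) (nat_lit 1292)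 (nat_lit 0) (XT.lf (nat_lit 0) (nat_lit 12316588421) (nat_lit 1748) (nat_lit 856269370) (nat_lit 76) (nat_lit 11088050803) (nat_lit 368) (nat_lit 5) (nat_lit 391) (nat_lit 5) (nat_lit 369) (nat_lit 5) (nat_lit 482) (nat_lit 456) (nat_lit 202)) (XT.lf (nat_lit 0) (nat_lit 11089831393) (nat_lit 1292) (nat_lit 3190311852) (nat_lit 1368) (nat_lit 10248206921) (nat_lit 351) (nat_lit 5) (nat_lit 368) (nat_lit 5) (nat_lit 369) (nat_lit 5) (nat_lit 483) (nat_lit 456) (nat_lit 201)))) (XT.nd (nat_lit 156) (nat_lit 836) (nat_lit 0) (XT.nd (nat_lit 78) (nat_lit 836) (nat_lit 0) (XT.lf (nat_lit 0) (nat_lit 16331138874) (nat_lit 1368) (nat_lit 1562664905) (nat_lit 76) (nat_lit 6906375621) (nat_lit 351) (nat_lit 5) (nat_lit 369) (nat_lit 5) (nat_lit 352) (nat_lit 5) (nat_lit 484) (nat_lit 456) (nat_lit 200)) (XT.lf (nat_lit 0) (nat_lit 10666861864) (nat_lit 836) (nat_lit 7843725491) (nat_lit 912) (nat_lit 6565111384) (nat_lit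 340) (nat_lit 5) (nat_lit 351) (nat_lit 5) (nat_lit 352) (nat_lit 5) (nat_lit 485) (nat_lit 456) (nat_lit 199))) (XT.nd (nat_lit 78) (nat_lit 836) (nat_lit 0) (XT.lf (nat_lit 0) (nat_lit 20756902447) (nat_lit 912) (nat_lit 2212716098) (nat_lit 76) (nat_lit 2386646507) (nat_lit 340) (nat_lit 5) (nat_lit 352) (nat_lit 5) (nat_lit 341) (nat_lit 5) (nat_lit 486) (nat_lit 456) (nat_lit 198)) (XT.lf (nat_lit 0) (nat_lit 10307965582) (nat_lit 836) (nat_lit 12856198382) (nat_lit 912) (nat_lit 2475960419) (nat_lit 329) (nat_lit 5) (nat_lit 340) (nat_lit 5) (nat_lit 341) (nat_lit 5) (nat_lit 487) (nat_lit 456) (nat_lit 197)))))) (XT.nd (nat_lit 546) (nat_lit 2964) (nat_lit 0) (XT.nd (nat_lit 234) (nat_lit 1596) (nat_lit 0) (XT.nd (nat_lit 78) (nat_lit 912) (nat_lit 0) (XT.lf (nat_lit 0) (nat_lit 23106464867) (nat_lit 836) (nat_lit 2525142199) (nat_lit 912) (nat_lit 297815164) (nat_lit 329) (nat_lit 5) (nat_lit 340) (nat_lit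 5) (nat_lit 341) (nat_lit 5) (nat_lit 488) (nat_lit 456) (nat_lit 196)) (XT.nd (nat_lit 78) (nat_lit 0) (nat_lit 0) (XT.lf (nat_lit 0) (nat_lit 2013694621) (nat_lit 912) (nat_lit 16222338792) (nat_lit 76) (nat_lit 7985924095) (nat_lit 317) (nat_lit 5) (nat_lit 329) (nat_lit 5) (nat_lit 318) (nat_lit 5) (nat_lit 489) (nat_lit 456) (nat_lit 195)) (XT.lf (nat_lit 0) (nat_lit 4400504107) (nat_lit 912) (nat_lit 3424491908) (nat_lit 76) (nat_lit 18694648896) (nat_lit 317) (nat_lit 5) (nat_lit 329) (nat_lit 5) (nat_lit 318) (nat_lit 5) (nat_lit 490) (nat_lit 456) (nat_lit 194)))) (XT.nd (nat_lit 156) (nat_lit 760) (nat_lit 0) (XT.nd (nat_lit 78) (nat_lit 0) (nat_lit 0) (XT.lf (nat_lit 0) (nat_lit 6914261452) (nat_lit 912) (nat_lit 17085958740) (nat_lit 76) (nat_lit 2821483537) (nat_lit 306) (nat_lit 5) (nat_lit 318) (nat_lit 5) (nat_lit 307) (nat_lit 5) (nat_lit 491) (nat_lit 456) (nat_lit 193)) (XT.lf (nat_lit 0) (nat_lit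 9550599583) (nat_lit 912) (nat_lit 3978317178) (nat_lit 76) (nat_lit 13599442709) (nat_lit 306) (nat_lit 5) (nat_lit 318) (nat_lit 5) (nat_lit 307) (nat_lit 5) (nat_lit 492) (nat_lit 456) (nat_lit 192))) (XT.nd (nat_lit 78) (nat_lit 0) (nat_lit 0) (XT.lf (nat_lit 0) (nat_lit 9513695929) (nat_lit 760) (nat_lit 2785141836) (nat_lit 836) (nat_lit 15141128921) (nat_lit 296) (nat_lit 5) (nat_lit 306) (nat_lit 5) (nat_lit 307) (nat_lit 5) (nat_lit 493) (nat_lit 456) (nat_lit 191)) (XT.lf (nat_lit 0) (nat_lit 15179420587) (nat_lit 836) (nat_lit 4483631796) (nat_lit 76) (nat_lit 8093207855) (nat_lit 296) (nat_lit 5) (nat_lit 307) (nat_lit 5) (nat_lit 297) (nat_lit 5) (nat_lit 494) (nat_lit 456) (nat_lit 190))))) (XT.nd (nat_lit 234) (nat_lit 1520) (nat_lit 0) (XT.nd (nat_lit 78) (nat_lit 684) (nat_lit 0) (XT.lf (nat_lit 0) (nat_lit 9329229150) (nat_lit 760) (nat_lit 8864890964) (nat_lit 836) (nat_lit 9883231200) (nat_lit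 286) (nat_lit 5) (nat_lit 296) (nat_lit 5) (nat_lit 297) (nat_lit 5) (nat_lit 495) (nat_lit 456) (nat_lit 189)) (XT.nd (nat_lit 78) (nat_lit 684) (nat_lit 0) (XT.lf (nat_lit 0) (nat_lit 21310876078) (nat_lit 836) (nat_lit 4941866781) (nat_lit 76) (nat_lit 2151287822) (nat_lit 286) (nat_lit 5) (nat_lit 297) (nat_lit 5) (nat_lit 287) (nat_lit 5) (nat_lit 496) (nat_lit 456) (nat_lit 188)) (XT.lf (nat_lit 0) (nat_lit 9199940242) (nat_lit 684) (nat_lit 15406036933) (nat_lit 760) (nat_lit 4128947947) (nat_lit 277) (nat_lit 5) (nat_lit 286) (nat_lit 5) (nat_lit 287) (nat_lit 5) (nat_lit 497) (nat_lit 456) (nat_lit 187)))) (XT.nd (nat_lit 156) (nat_lit 684) (nat_lit 0) (XT.nd (nat_lit 78) (nat_lit 836) (nat_lit 0) (XT.lf (nat_lit 0) (nat_lit 23689063870) (nat_lit 684) (nat_lit 4308680327) (nat_lit 760) (nat_lit 1074079628) (nat_lit 277) (nat_lit 5) (nat_lit 286) (nat_lit 5) (nat_lit 287) (nat_lit 5) (nat_lit 498) (nat_lit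 456) (nat_lit 186)) (XT.lf (nat_lit 0) (nat_lit 2118188300) (nat_lit 836) (nat_lit 20303199374) (nat_lit 76) (nat_lit 6991747634) (nat_lit 266) (nat_lit 5) (nat_lit 277) (nat_lit 5) (nat_lit 267) (nat_lit 5) (nat_lit 499) (nat_lit 456) (nat_lit 185))) (XT.nd (nat_lit 78) (nat_lit 684) (nat_lit 0) (XT.lf (nat_lit 0) (nat_lit 5422488498) (nat_lit 836) (nat_lit 5833509536) (nat_lit 76) (nat_lit 18503883173) (nat_lit 266) (nat_lit 5) (nat_lit 277) (nat_lit 5) (nat_lit 267) (nat_lit 5) (nat_lit 500) (nat_lit 456) (nat_lit 184)) (XT.lf (nat_lit 0) (nat_lit 8850535076) (nat_lit 760) (nat_lit 21072000406) (nat_lit 76) (nat_lit 189874861) (nat_lit 257) (nat_lit 5) (nat_lit 267) (nat_lit 5) (nat_lit 258) (nat_lit 5) (nat_lit 501) (nat_lit 456) (nat_lit 183))))))))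
noncomputable def xc242 : XT := (XT.nd (nat_lit 57564) (nat_lit 0) (nat_lit 684) (XT.nd (nat_lit 56472) (nat_lit 0) (nat_lit 10184) (XT.nd (nat_lit 55926) (nat_lit 0) (nat_lit 11324) (XT.nd (nat_lit 234) (nat_lit 1292) (nat_lit 0) (XT.nd (nat_lit 78) (nat_lit 684) (nat_lit 0) (XT.lf (nat_lit 0) (nat_lit 12458825138) (nat_lit 760) (nat_lit 6257629439) (nat_lit 76) (nat_lit 11753303331) (nat_lit 257) (nat_lit 5) (nat_lit 267) (nat_lit 5) (nat_lit 258) (nat_lit 5) (nat_lit 502) (nat_lit 456) (nat_lit 182)) (XT.nd (nat_lit 78) (nat_lit 0) (nat_lit 0) (XT.lf (nat_lit 0) (nat_lit 8968194930) (nat_lit 684) (nat_lit 7227092319) (nat_lit 760) (nat_lit 14637846517) (nat_lit 248) (nat_lit 5) (nat_lit 257) (nat_lit 5) (nat_lit 258) (nat_lit 5) (nat_lit 503) (nat_lit 456) (nat_lit 181)) (XT.lf (nat_lit 0) (nat_lit 20075719022) (nat_lit 760) (nat_lit 6651502299) (nat_lit 76) (nat_lit 4475172451) (nat_lit 248) (nat_lit 5) (nat_lit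 258) (nat_lit 5) (nat_lit 249) (nat_lit 5) (nat_lit 504) (nat_lit 456) (nat_lit 180)))) (XT.nd (nat_lit 156) (nat_lit 684) (nat_lit 0) (XT.nd (nat_lit 78) (nat_lit 0) (nat_lit 0) (XT.lf (nat_lit 0) (nat_lit 8933067781) (nat_lit 608) (nat_lit 15204400554) (nat_lit 684) (nat_lit 7439497877) (nat_lit 240) (nat_lit 5) (nat_lit 248) (nat_lit 5) (nat_lit 249) (nat_lit 5) (nat_lit 505) (nat_lit 456) (nat_lit 179)) (XT.lf (nat_lit 0) (nat_lit 24917075689) (nat_lit 608) (nat_lit 3405886498) (nat_lit 684) (nat_lit 3635219104) (nat_lit 240) (nat_lit 5) (nat_lit 248) (nat_lit 5) (nat_lit 249) (nat_lit 5) (nat_lit 506) (nat_lit 456) (nat_lit 178))) (XT.nd (nat_lit 55458) (nat_lit 0) (nat_lit 11324) (XT.lf (nat_lit 0) (nat_lit 354602395) (nat_lit 684) (nat_lit 23414655195) (nat_lit 76) (nat_lit 8575479133) (nat_lit 231) (nat_lit 5) (nat_lit 240) (nat_lit 5) (nat_lit 232) (nat_lit 5) (nat_lit 507) (nat_lit 456) (nat_lit 177))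 (XT.lf (nat_lit 0) (nat_lit 4180252577) (nat_lit 1748) (nat_lit 2637365217) (nat_lit 1748) (nat_lit 2637365217) (nat_lit 380) (nat_lit 3) (nat_lit 403) (nat_lit 3) (nat_lit 403) (nat_lit 5) (nat_lit 457) (nat_lit 457) (nat_lit 226))))) (XT.nd (nat_lit 234) (nat_lit 0) (nat_lit 152) (XT.nd (nat_lit 78) (nat_lit 0) (nat_lit 76) (XT.lf (nat_lit 76) (nat_lit 3363357139) (nat_lit 0) (nat_lit 5279632269) (nat_lit 1748) (nat_lit 10451959565) (nat_lit 381) (nat_lit 5) (nat_lit 380) (nat_lit 3) (nat_lit 403) (nat_lit 5) (nat_lit 458) (nat_lit 457) (nat_lit 225)) (XT.nd (nat_lit 78) (nat_lit 0) (nat_lit 0) (XT.lf (nat_lit 0) (nat_lit 8983165414) (nat_lit 1672) (nat_lit 7061020692) (nat_lit 1748) (nat_lit 3238408285) (nat_lit 381) (nat_lit 5) (nat_lit 403) (nat_lit 5) (nat_lit 404) (nat_lit 5) (nat_lit 459) (nat_lit 457) (nat_lit 224)) (XT.lf (nat_lit 76) (nat_lit 1768730721) (nat_lit 0) (nat_lit 7603308706) (nat_lit 1748)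 (nat_lit 10101118980) (nat_lit 382) (nat_lit 5) (nat_lit 381) (nat_lit 5) (nat_lit 404) (nat_lit 5) (nat_lit 460) (nat_lit 457) (nat_lit 223)))) (XT.nd (nat_lit 156) (nat_lit 0) (nat_lit 0) (XT.nd (nat_lit 78) (nat_lit 0) (nat_lit 0) (XT.lf (nat_lit 0) (nat_lit 9818454867) (nat_lit 1672) (nat_lit 8805196825) (nat_lit 1748) (nat_lit 1042890238) (nat_lit 382) (nat_lit 5) (nat_lit 404) (nat_lit 5) (nat_lit 405) (nat_lit 5) (nat_lit 461) (nat_lit 457) (nat_lit 222)) (XT.lf (nat_lit 76) (nat_lit 222074214) (nat_lit 0) (nat_lit 10099139739) (nat_lit 1748) (nat_lit 9541634303) (nat_lit 383) (nat_lit 5) (nat_lit 382) (nat_lit 5) (nat_lit 405) (nat_lit 5) (nat_lit 462) (nat_lit 457) (nat_lit 221))) (XT.nd (nat_lit 78) (nat_lit 0) (nat_lit 76) (XT.lf (nat_lit 76) (nat_lit 9546759967) (nat_lit 0) (nat_lit 1342045932) (nat_lit 1748) (nat_lit 9173182628) (nat_lit 383) (nat_lit 5) (nat_lit 382) (nat_lit 5) (nat_lit 405) (nat_lit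 5) (nat_lit 463) (nat_lit 457) (nat_lit 220)) (XT.lf (nat_lit 0) (nat_lit 11512816509) (nat_lit 1672) (nat_lit 1258990822) (nat_lit 1748) (nat_lit 7492406241) (nat_lit 383) (nat_lit 5) (nat_lit 405) (nat_lit 5) (nat_lit 406) (nat_lit 5) (nat_lit 464) (nat_lit 457) (nat_lit 219)))))) (XT.nd (nat_lit 546) (nat_lit 1368) (nat_lit 0) (XT.nd (nat_lit 234) (nat_lit 0) (nat_lit 152) (XT.nd (nat_lit 78) (nat_lit 0) (nat_lit 76) (XT.lf (nat_lit 76) (nat_lit 8279583839) (nat_lit 0) (nat_lit 3928236662) (nat_lit 1748) (nat_lit 8261495594) (nat_lit 384) (nat_lit 5) (nat_lit 383) (nat_lit 5) (nat_lit 406) (nat_lit 5) (nat_lit 465) (nat_lit 457) (nat_lit 218)) (XT.nd (nat_lit 78) (nat_lit 0) (nat_lit 0) (XT.lf (nat_lit 0) (nat_lit 12954235193) (nat_lit 1672) (nat_lit 2688040497) (nat_lit 1748) (nat_lit 5035497942) (nat_lit 384) (nat_lit 5) (nat_lit 406) (nat_lit 5) (nat_lit 407) (nat_lit 5) (nat_lit 466) (nat_lit 457) (nat_lit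 217)) (XT.lf (nat_lit 76) (nat_lit 7067849917) (nat_lit 0) (nat_lit 6715655972) (nat_lit 1748) (nat_lit 7105538993) (nat_lit 385) (nat_lit 5) (nat_lit 384) (nat_lit 5) (nat_lit 407) (nat_lit 5) (nat_lit 467) (nat_lit 457) (nat_lit 216)))) (XT.nd (nat_lit 156) (nat_lit 0) (nat_lit 0) (XT.nd (nat_lit 78) (nat_lit 0) (nat_lit 0) (XT.lf (nat_lit 0) (nat_lit 14659128465) (nat_lit 1672) (nat_lit 4067109671) (nat_lit 1748) (nat_lit 2377711143) (nat_lit 385) (nat_lit 5) (nat_lit 407) (nat_lit 5) (nat_lit 408) (nat_lit 5) (nat_lit 468) (nat_lit 457) (nat_lit 215)) (XT.lf (nat_lit 76) (nat_lit 5912587766) (nat_lit 0) (nat_lit 9718709933) (nat_lit 1748) (nat_lit 5690276375) (nat_lit 386) (nat_lit 5) (nat_lit 385) (nat_lit 5) (nat_lit 408) (nat_lit 5) (nat_lit 469) (nat_lit 457) (nat_lit 214))) (XT.nd (nat_lit 78) (nat_lit 0) (nat_lit 76) (XT.lf (nat_lit 76) (nat_lit 16144486935) (nat_lit 0) (nat_lit 501945748) (nat_lit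 1748) (nat_lit 4896651172) (nat_lit 386) (nat_lit 5) (nat_lit 385) (nat_lit 5) (nat_lit 408) (nat_lit 5) (nat_lit 470) (nat_lit 457) (nat_lit 213)) (XT.lf (nat_lit 76) (nat_lit 4814809915) (nat_lit 0) (nat_lit 12952412377) (nat_lit 1748) (nat_lit 4000097377) (nat_lit 387) (nat_lit 5) (nat_lit 386) (nat_lit 5) (nat_lit 409) (nat_lit 5) (nat_lit 471) (nat_lit 457) (nat_lit 212))))) (XT.nd (nat_lit 234) (nat_lit 1596) (nat_lit 0) (XT.nd (nat_lit 78) (nat_lit 0) (nat_lit 76) (XT.lf (nat_lit 76) (nat_lit 15299754568) (nat_lit 0) (nat_lit 3646570421) (nat_lit 1748) (nat_lit 3049000084) (nat_lit 387) (nat_lit 5) (nat_lit 386) (nat_lit 5) (nat_lit 409) (nat_lit 5) (nat_lit 472) (nat_lit 457) (nat_lit 211)) (XT.nd (nat_lit 78) (nat_lit 0) (nat_lit 0) (XT.lf (nat_lit 76) (nat_lit 3775499238) (nat_lit 0) (nat_lit 16432421451) (nat_lit 1748) (nat_lit 2018794444) (nat_lit 388) (nat_lit 5) (nat_lit 387) (nat_lit 5) (nat_lit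 410) (nat_lit 5) (nat_lit 473) (nat_lit 457) (nat_lit 210)) (XT.lf (nat_lit 76) (nat_lit 14519724612) (nat_lit 0) (nat_lit 7040443950) (nat_lit 1748) (nat_lit 901258738) (nat_lit 388) (nat_lit 5) (nat_lit 387) (nat_lit 5) (nat_lit 410) (nat_lit 5) (nat_lit 474) (nat_lit 457) (nat_lit 209)))) (XT.nd (nat_lit 156) (nat_lit 0) (nat_lit 0) (XT.nd (nat_lit 78) (nat_lit 0) (nat_lit 0) (XT.lf (nat_lit 0) (nat_lit 266913797) (nat_lit 1748) (nat_lit 19906372720) (nat_lit 1824) (nat_lit 2526890498) (nat_lit 365) (nat_lit 5) (nat_lit 388) (nat_lit 5) (nat_lit 389) (nat_lit 5) (nat_lit 475) (nat_lit 457) (nat_lit 208)) (XT.lf (nat_lit 0) (nat_lit 1543263734) (nat_lit 1748) (nat_lit 9146523120) (nat_lit 1824) (nat_lit 12251860643) (nat_lit 365) (nat_lit 5) (nat_lit 388) (nat_lit 5) (nat_lit 389) (nat_lit 5) (nat_lit 476) (nat_lit 457) (nat_lit 207))) (XT.nd (nat_lit 78) (nat_lit 0) (nat_lit 76) (XT.lf (nat_lit 76) (nat_lit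 1850227225) (nat_lit 0) (nat_lit 1003592160) (nat_lit 1824) (nat_lit 20333956936) (nat_lit 366) (nat_lit 5) (nat_lit 365) (nat_lit 5) (nat_lit 389) (nat_lit 5) (nat_lit 477) (nat_lit 457) (nat_lit 206)) (XT.lf (nat_lit 0) (nat_lit 4306721074) (nat_lit 1748) (nat_lit 10307359947) (nat_lit 1824) (nat_lit 8822426455) (nat_lit 366) (nat_lit 5) (nat_lit 389) (nat_lit 5) (nat_lit 390) (nat_lit 5) (nat_lit 478) (nat_lit 457) (nat_lit 205))))))) (XT.nd (nat_lit 1092) (nat_lit 5016) (nat_lit 0) (XT.nd (nat_lit 546) (nat_lit 3420) (nat_lit 0) (XT.nd (nat_lit 234) (nat_lit 1140) (nat_lit 0) (XT.nd (nat_lit 78) (nat_lit 0) (nat_lit 76) (XT.lf (nat_lit 76) (nat_lit 946634888) (nat_lit 0) (nat_lit 4851622184) (nat_lit 1824) (nat_lit 17891767065) (nat_lit 367) (nat_lit 5) (nat_lit 366) (nat_lit 5) (nat_lit 390) (nat_lit 5) (nat_lit 479) (nat_lit 457) (nat_lit 204)) (XT.nd (nat_lit 78) (nat_lit 0) (nat_lit 0) (XT.lf (nat_lit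 0) (nat_lit 7419236081) (nat_lit 1748) (nat_lit 11418029304) (nat_lit 1824) (nat_lit 5109355862) (nat_lit 367) (nat_lit 5) (nat_lit 390) (nat_lit 5) (nat_lit 391) (nat_lit 5) (nat_lit 480) (nat_lit 457) (nat_lit 203)) (XT.lf (nat_lit 76) (nat_lit 100456808) (nat_lit 0) (nat_lit 9001856431) (nat_lit 1824) (nat_lit 15105445803) (nat_lit 368) (nat_lit 5) (nat_lit 367) (nat_lit 5) (nat_lit 391) (nat_lit 5) (nat_lit 481) (nat_lit 457) (nat_lit 202)))) (XT.nd (nat_lit 156) (nat_lit 1292) (nat_lit 0) (XT.nd (nat_lit 78) (nat_lit 0) (nat_lit 0) (XT.lf (nat_lit 0) (nat_lit 10899813460) (nat_lit 1748) (nat_lit 12478315142) (nat_lit 76) (nat_lit 1094378029) (nat_lit 368) (nat_lit 5) (nat_lit 391) (nat_lit 5) (nat_lit 369) (nat_lit 5) (nat_lit 482) (nat_lit 457) (nat_lit 201)) (XT.lf (nat_lit 0) (nat_lit 12789882524) (nat_lit 1748) (nat_lit 678930354) (nat_lit 76) (nat_lit 11272606141) (nat_lit 368) (nat_lit 5) (nat_lit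 391) (nat_lit 5) (nat_lit 369) (nat_lit 5) (nat_lit 483) (nat_lit 457) (nat_lit 200))) (XT.nd (nat_lit 78) (nat_lit 0) (nat_lit 0) (XT.lf (nat_lit 0) (nat_lit 11504813053) (nat_lit 1292) (nat_lit 3284699435) (nat_lit 1368) (nat_lit 10224764157) (nat_lit 351) (nat_lit 5) (nat_lit 368) (nat_lit 5) (nat_lit 369) (nat_lit 5) (nat_lit 484) (nat_lit 457) (nat_lit 199)) (XT.lf (nat_lit 0) (nat_lit 16876945792) (nat_lit 1368) (nat_lit 1399776918) (nat_lit 76) (nat_lit 7014914637) (nat_lit 351) (nat_lit 5) (nat_lit 369) (nat_lit 5) (nat_lit 352) (nat_lit 5) (nat_lit 485) (nat_lit 457) (nat_lit 198))))) (XT.nd (nat_lit 234) (nat_lit 1748) (nat_lit 0) (XT.nd (nat_lit 78) (nat_lit 836) (nat_lit 0) (XT.lf (nat_lit 0) (nat_lit 11073063142) (nat_lit 836) (nat_lit 8023874574) (nat_lit 912) (nat_lit 6475793444) (nat_lit 340) (nat_lit 5) (nat_lit 351) (nat_lit 5) (nat_lit 352) (nat_lit 5) (nat_lit 486) (nat_lit 457) (nat_lit 197))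 (XT.nd (nat_lit 78) (nat_lit 836) (nat_lit 0) (XT.lf (nat_lit 0) (nat_lit 21383792947) (nat_lit 912) (nat_lit 2063346196) (nat_lit 76) (nat_lit 2411860492) (nat_lit 340) (nat_lit 5) (nat_lit 352) (nat_lit 5) (nat_lit 341) (nat_lit 5) (nat_lit 487) (nat_lit 457) (nat_lit 196)) (XT.lf (nat_lit 0) (nat_lit 10706475274) (nat_lit 836) (nat_lit 13129821278) (nat_lit 912) (nat_lit 2312300717) (nat_lit 329) (nat_lit 5) (nat_lit 340) (nat_lit 5) (nat_lit 341) (nat_lit 5) (nat_lit 488) (nat_lit 457) (nat_lit 195)))) (XT.nd (nat_lit 156) (nat_lit 836) (nat_lit 0) (XT.nd (nat_lit 78) (nat_lit 912) (nat_lit 0) (XT.lf (nat_lit 0) (nat_lit 23757172968) (nat_lit 836) (nat_lit 2591820463) (nat_lit 912) (nat_lit 94772535) (nat_lit 329) (nat_lit 5) (nat_lit 340) (nat_lit 5) (nat_lit 341) (nat_lit 5) (nat_lit 489) (nat_lit 457) (nat_lit 194)) (XT.lf (nat_lit 0) (nat_lit 2257331091) (nat_lit 912) (nat_lit 16352279905) (nat_lit 76)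 (nat_lit 8132574597) (nat_lit 317) (nat_lit 5) (nat_lit 329) (nat_lit 5) (nat_lit 318) (nat_lit 5) (nat_lit 490) (nat_lit 457) (nat_lit 193))) (XT.nd (nat_lit 78) (nat_lit 836) (nat_lit 0) (XT.lf (nat_lit 0) (nat_lit 4687889265) (nat_lit 912) (nat_lit 3302289920) (nat_lit 76) (nat_lit 19055730129) (nat_lit 317) (nat_lit 5) (nat_lit 329) (nat_lit 5) (nat_lit 318) (nat_lit 5) (nat_lit 491) (nat_lit 457) (nat_lit 192)) (XT.lf (nat_lit 0) (nat_lit 7249195267) (nat_lit 912) (nat_lit 17234121370) (nat_lit 76) (nat_lit 2870749965) (nat_lit 306) (nat_lit 5) (nat_lit 318) (nat_lit 5) (nat_lit 307) (nat_lit 5) (nat_lit 492) (nat_lit 457) (nat_lit 191)))))) (XT.nd (nat_lit 546) (nat_lit 2812) (nat_lit 0) (XT.nd (nat_lit 234) (nat_lit 1444) (nat_lit 0) (XT.nd (nat_lit 78) (nat_lit 760) (nat_lit 0) (XT.lf (nat_lit 0) (nat_lit 9934404307) (nat_lit 912) (nat_lit 3868122203) (nat_lit 76) (nat_lit 13864408776) (nat_lit 306) (nat_lit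 5) (nat_lit 318) (nat_lit 5) (nat_lit 307) (nat_lit 5) (nat_lit 493) (nat_lit 457) (nat_lit 190)) (XT.nd (nat_lit 78) (nat_lit 0) (nat_lit 0) (XT.lf (nat_lit 0) (nat_lit 9892482736) (nat_lit 760) (nat_lit 2842568218) (nat_lit 836) (nat_lit 15249777476) (nat_lit 296) (nat_lit 5) (nat_lit 306) (nat_lit 5) (nat_lit 307) (nat_lit 5) (nat_lit 494) (nat_lit 457) (nat_lit 189)) (XT.lf (nat_lit 0) (nat_lit 15669504335) (nat_lit 836) (nat_lit 4384616521) (nat_lit 76) (nat_lit 8253404424) (nat_lit 296) (nat_lit 5) (nat_lit 307) (nat_lit 5) (nat_lit 297) (nat_lit 5) (nat_lit 495) (nat_lit 457) (nat_lit 188)))) (XT.nd (nat_lit 156) (nat_lit 684) (nat_lit 0) (XT.nd (nat_lit 78) (nat_lit 0) (nat_lit 0) (XT.lf (nat_lit 0) (nat_lit 9703260276) (nat_lit 760) (nat_lit 9038797832) (nat_lit 836) (nat_lit 9893031418) (nat_lit 286) (nat_lit 5) (nat_lit 296) (nat_lit 5) (nat_lit 297) (nat_lit 5) (nat_lit 496) (nat_lit 457) (nat_lit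 187)) (XT.lf (nat_lit 0) (nat_lit 21917561843) (nat_lit 836) (nat_lit 4853220449) (nat_lit 76) (nat_lit 2197594439) (nat_lit 286) (nat_lit 5) (nat_lit 297) (nat_lit 5) (nat_lit 287) (nat_lit 5) (nat_lit 497) (nat_lit 457) (nat_lit 186))) (XT.nd (nat_lit 78) (nat_lit 0) (nat_lit 0) (XT.lf (nat_lit 0) (nat_lit 9570189269) (nat_lit 684) (nat_lit 15706046359) (nat_lit 760) (nat_lit 4029702474) (nat_lit 277) (nat_lit 5) (nat_lit 286) (nat_lit 5) (nat_lit 287) (nat_lit 5) (nat_lit 498) (nat_lit 457) (nat_lit 185)) (XT.lf (nat_lit 0) (nat_lit 24345443405) (nat_lit 684) (nat_lit 4386901667) (nat_lit 760) (nat_lit 917301974) (nat_lit 277) (nat_lit 5) (nat_lit 286) (nat_lit 5) (nat_lit 287) (nat_lit 5) (nat_lit 499) (nat_lit 457) (nat_lit 184))))) (XT.nd (nat_lit 234) (nat_lit 1292) (nat_lit 0) (XT.nd (nat_lit 78) (nat_lit 684) (nat_lit 0) (XT.lf (nat_lit 0) (nat_lit 2334283600) (nat_lit 836) (nat_lit 20521903751) (nat_lit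 76) (nat_lit 7141620368) (nat_lit 266) (nat_lit 5) (nat_lit 277) (nat_lit 5) (nat_lit 267) (nat_lit 5) (nat_lit 500) (nat_lit 457) (nat_lit 183)) (XT.nd (nat_lit 78) (nat_lit 684) (nat_lit 0) (XT.lf (nat_lit 0) (nat_lit 5701263301) (nat_lit 836) (nat_lit 5766493833) (nat_lit 76) (nat_lit 18883801799) (nat_lit 266) (nat_lit 5) (nat_lit 277) (nat_lit 5) (nat_lit 267) (nat_lit 5) (nat_lit 501) (nat_lit 457) (nat_lit 182)) (XT.lf (nat_lit 0) (nat_lit 9195808762) (nat_lit 760) (nat_lit 21307581299) (nat_lit 76) (nat_lit 207792056) (nat_lit 257) (nat_lit 5) (nat_lit 267) (nat_lit 5) (nat_lit 258) (nat_lit 5) (nat_lit 502) (nat_lit 457) (nat_lit 181)))) (XT.nd (nat_lit 156) (nat_lit 608) (nat_lit 0) (XT.nd (nat_lit 78) (nat_lit 684) (nat_lit 0) (XT.lf (nat_lit 0) (nat_lit 12872965351) (nat_lit 760) (nat_lit 6200567209) (nat_lit 76) (nat_lit 12002212239) (nat_lit 257) (nat_lit 5) (nat_lit 267) (nat_lit 5) (nat_lit 258)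 (nat_lit 5) (nat_lit 503) (nat_lit 457) (nat_lit 180)) (XT.lf (nat_lit 0) (nat_lit 9328574865) (nat_lit 684) (nat_lit 7353522533) (nat_lit 760) (nat_lit 14764334100) (nat_lit 248) (nat_lit 5) (nat_lit 257) (nat_lit 5) (nat_lit 258) (nat_lit 5) (nat_lit 504) (nat_lit 457) (nat_lit 179))) (XT.nd (nat_lit 78) (nat_lit 608) (nat_lit 0) (XT.lf (nat_lit 0) (nat_lit 20637058890) (nat_lit 760) (nat_lit 6603881964) (nat_lit 76) (nat_lit 4582199524) (nat_lit 248) (nat_lit 5) (nat_lit 258) (nat_lit 5) (nat_lit 249) (nat_lit 5) (nat_lit 505) (nat_lit 457) (nat_lit 178)) (XT.lf (nat_lit 0) (nat_lit 9291191027) (nat_lit 608) (nat_lit 15486883514) (nat_lit 684) (nat_lit 7427171152) (nat_lit 240) (nat_lit 5) (nat_lit 248) (nat_lit 5) (nat_lit 249) (nat_lit 5) (nat_lit 506) (nat_lit 457) (nat_lit 177))))))))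
noncomputable def xc243 : XT := (XT.nd (nat_lit 57642) (nat_lit 0) (nat_lit 608) (XT.nd (nat_lit 56550) (nat_lit 0) (nat_lit 9500) (XT.nd (nat_lit 56004) (nat_lit 0) (nat_lit 10792) (XT.nd (nat_lit 55692) (nat_lit 0) (nat_lit 10716) (XT.nd (nat_lit 55536) (nat_lit 0) (nat_lit 10640) (XT.lf (nat_lit 0) (nat_lit 25591360233) (nat_lit 608) (nat_lit 3452822805) (nat_lit 684) (nat_lit 3549965954) (nat_lit 240) (nat_lit 5) (nat_lit 248) (nat_lit 5) (nat_lit 249) (nat_lit 5) (nat_lit 507) (nat_lit 457) (nat_lit 176)) (XT.nd (nat_lit 78) (nat_lit 0) (nat_lit 0) (XT.lf (nat_lit 0) (nat_lit 4439750212) (nat_lit 1748) (nat_lit 2600338193) (nat_lit 1748) (nat_lit 2600338193) (nat_lit 380) (nat_lit 3) (nat_lit 403) (nat_lit 3) (nat_lit 403) (nat_lit 5) (nat_lit 458) (nat_lit 458) (nat_lit 224)) (XT.lf (nat_lit 76) (nat_lit 3608991698) (nat_lit 0) (nat_lit 5552902997) (nat_lit 1748) (nat_lit 10307761325) (nat_lit 381) (nat_lit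 5) (nat_lit 380) (nat_lit 3) (nat_lit 403) (nat_lit 5) (nat_lit 459) (nat_lit 458) (nat_lit 223)))) (XT.nd (nat_lit 156) (nat_lit 0) (nat_lit 76) (XT.nd (nat_lit 78) (nat_lit 0) (nat_lit 0) (XT.lf (nat_lit 0) (nat_lit 9501021684) (nat_lit 1672) (nat_lit 7019252846) (nat_lit 1748) (nat_lit 3140942182) (nat_lit 381) (nat_lit 5) (nat_lit 403) (nat_lit 5) (nat_lit 404) (nat_lit 5) (nat_lit 460) (nat_lit 458) (nat_lit 222)) (XT.lf (nat_lit 76) (nat_lit 1985889726) (nat_lit 0) (nat_lit 7906332482) (nat_lit 1748) (nat_lit 9963484029) (nat_lit 382) (nat_lit 5) (nat_lit 381) (nat_lit 5) (nat_lit 404) (nat_lit 5) (nat_lit 461) (nat_lit 458) (nat_lit 221))) (XT.nd (nat_lit 78) (nat_lit 0) (nat_lit 0) (XT.lf (nat_lit 0) (nat_lit 10340080705) (nat_lit 1672) (nat_lit 8795340129) (nat_lit 1748) (nat_lit 917691410) (nat_lit 382) (nat_lit 5) (nat_lit 404) (nat_lit 5) (nat_lit 405) (nat_lit 5) (nat_lit 462) (nat_lit 458) (nat_lit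 220)) (XT.lf (nat_lit 76) (nat_lit 411252906) (nat_lit 0) (nat_lit 10436463920) (nat_lit 1748) (nat_lit 9405736440) (nat_lit 383) (nat_lit 5) (nat_lit 382) (nat_lit 5) (nat_lit 405) (nat_lit 5) (nat_lit 463) (nat_lit 458) (nat_lit 219))))) (XT.nd (nat_lit 234) (nat_lit 0) (nat_lit 152) (XT.nd (nat_lit 78) (nat_lit 0) (nat_lit 76) (XT.lf (nat_lit 76) (nat_lit 9918810076) (nat_lit 0) (nat_lit 1501574484) (nat_lit 1748) (nat_lit 9036322213) (nat_lit 383) (nat_lit 5) (nat_lit 382) (nat_lit 5) (nat_lit 405) (nat_lit 5) (nat_lit 464) (nat_lit 458) (nat_lit 218)) (XT.nd (nat_lit 78) (nat_lit 0) (nat_lit 0) (XT.lf (nat_lit 0) (nat_lit 12049877787) (nat_lit 1672) (nat_lit 1099368747) (nat_lit 1748) (nat_lit 7513874551) (nat_lit 383) (nat_lit 5) (nat_lit 405) (nat_lit 5) (nat_lit 406) (nat_lit 5) (nat_lit 465) (nat_lit 458) (nat_lit 217)) (XT.lf (nat_lit 76) (nat_lit 8628761606) (nat_lit 0) (nat_lit 4125196432) (nat_lit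 1748) (nat_lit 8118468814) (nat_lit 384) (nat_lit 5) (nat_lit 383) (nat_lit 5) (nat_lit 406) (nat_lit 5) (nat_lit 466) (nat_lit 458) (nat_lit 216)))) (XT.nd (nat_lit 156) (nat_lit 0) (nat_lit 76) (XT.nd (nat_lit 78) (nat_lit 0) (nat_lit 0) (XT.lf (nat_lit 0) (nat_lit 13508626199) (nat_lit 1672) (nat_lit 2554908804) (nat_lit 1748) (nat_lit 5021656661) (nat_lit 384) (nat_lit 5) (nat_lit 406) (nat_lit 5) (nat_lit 407) (nat_lit 5) (nat_lit 467) (nat_lit 458) (nat_lit 215)) (XT.lf (nat_lit 76) (nat_lit 7394869862) (nat_lit 0) (nat_lit 6955027574) (nat_lit 1748) (nat_lit 6950887135) (nat_lit 385) (nat_lit 5) (nat_lit 384) (nat_lit 5) (nat_lit 407) (nat_lit 5) (nat_lit 468) (nat_lit 458) (nat_lit 214))) (XT.nd (nat_lit 78) (nat_lit 0) (nat_lit 0) (XT.lf (nat_lit 0) (nat_lit 15236663309) (nat_lit 1672) (nat_lit 3959837880) (nat_lit 1748) (nat_lit 2323617698) (nat_lit 385) (nat_lit 5) (nat_lit 407) (nat_lit 5) (nat_lit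 408) (nat_lit 5) (nat_lit 469) (nat_lit 458) (nat_lit 213)) (XT.lf (nat_lit 76) (nat_lit 6218212625) (nat_lit 0) (nat_lit 10005704318) (nat_lit 1748) (nat_lit 5518270773) (nat_lit 386) (nat_lit 5) (nat_lit 385) (nat_lit 5) (nat_lit 408) (nat_lit 5) (nat_lit 470) (nat_lit 458) (nat_lit 212)))))) (XT.nd (nat_lit 546) (nat_lit 0) (nat_lit 0) (XT.nd (nat_lit 234) (nat_lit 1520) (nat_lit 0) (XT.nd (nat_lit 78) (nat_lit 0) (nat_lit 76) (XT.lf (nat_lit 76) (nat_lit 16651075794) (nat_lit 0) (nat_lit 602788767) (nat_lit 1748) (nat_lit 4714377205) (nat_lit 386) (nat_lit 5) (nat_lit 385) (nat_lit 5) (nat_lit 408) (nat_lit 5) (nat_lit 471) (nat_lit 458) (nat_lit 211)) (XT.nd (nat_lit 78) (nat_lit 0) (nat_lit 0) (XT.lf (nat_lit 76) (nat_lit 5099848608) (nat_lit 0) (nat_lit 13292486379) (nat_lit 1748) (nat_lit 3804726199) (nat_lit 387) (nat_lit 5) (nat_lit 386) (nat_lit 5) (nat_lit 409) (nat_lit 5) (nat_lit 472) (nat_lit 458)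 (nat_lit 210)) (XT.lf (nat_lit 76) (nat_lit 15790791322) (nat_lit 0) (nat_lit 3798938844) (nat_lit 1748) (nat_lit 2840006434) (nat_lit 387) (nat_lit 5) (nat_lit 386) (nat_lit 5) (nat_lit 409) (nat_lit 5) (nat_lit 473) (nat_lit 458) (nat_lit 209)))) (XT.nd (nat_lit 156) (nat_lit 1672) (nat_lit 0) (XT.nd (nat_lit 78) (nat_lit 0) (nat_lit 0) (XT.lf (nat_lit 76) (nat_lit 4040804694) (nat_lit 0) (nat_lit 16831293862) (nat_lit 1748) (nat_lit 1793749116) (nat_lit 388) (nat_lit 5) (nat_lit 387) (nat_lit 5) (nat_lit 410) (nat_lit 5) (nat_lit 474) (nat_lit 458) (nat_lit 208)) (XT.lf (nat_lit 76) (nat_lit 14996193096) (nat_lit 0) (nat_lit 7250099870) (nat_lit 1748) (nat_lit 659067034) (nat_lit 388) (nat_lit 5) (nat_lit 387) (nat_lit 5) (nat_lit 410) (nat_lit 5) (nat_lit 475) (nat_lit 458) (nat_lit 207))) (XT.nd (nat_lit 78) (nat_lit 0) (nat_lit 0) (XT.lf (nat_lit 0) (nat_lit 524825051) (nat_lit 1748) (nat_lit 20110398968)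 (nat_lit 1824) (nat_lit 2513715318) (nat_lit 365) (nat_lit 5) (nat_lit 388) (nat_lit 5) (nat_lit 389) (nat_lit 5) (nat_lit 476) (nat_lit 458) (nat_lit 206)) (XT.lf (nat_lit 0) (nat_lit 1821749575) (nat_lit 1748) (nat_lit 9139158283) (nat_lit 1824) (nat_lit 12434434140) (nat_lit 365) (nat_lit 5) (nat_lit 388) (nat_lit 5) (nat_lit 389) (nat_lit 5) (nat_lit 477) (nat_lit 458) (nat_lit 205))))) (XT.nd (nat_lit 234) (nat_lit 0) (nat_lit 152) (XT.nd (nat_lit 78) (nat_lit 0) (nat_lit 76) (XT.lf (nat_lit 76) (nat_lit 2076275126) (nat_lit 0) (nat_lit 1078613302) (nat_lit 1824) (nat_lit 20491581175) (nat_lit 366) (nat_lit 5) (nat_lit 365) (nat_lit 5) (nat_lit 389) (nat_lit 5) (nat_lit 478) (nat_lit 458) (nat_lit 204)) (XT.nd (nat_lit 78) (nat_lit 0) (nat_lit 0) (XT.lf (nat_lit 0) (nat_lit 4631714209) (nat_lit 1748) (nat_lit 10322857766) (nat_lit 1824) (nat_lit 8945709662) (nat_lit 366) (nat_lit 5) (nat_lit 389) (nat_lit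 5) (nat_lit 390) (nat_lit 5) (nat_lit 479) (nat_lit 458) (nat_lit 203)) (XT.lf (nat_lit 76) (nat_lit 1154962694) (nat_lit 0) (nat_lit 4994664409) (nat_lit 1824) (nat_lit 18009314112) (nat_lit 367) (nat_lit 5) (nat_lit 366) (nat_lit 5) (nat_lit 390) (nat_lit 5) (nat_lit 480) (nat_lit 458) (nat_lit 202)))) (XT.nd (nat_lit 156) (nat_lit 0) (nat_lit 76) (XT.nd (nat_lit 78) (nat_lit 0) (nat_lit 0) (XT.lf (nat_lit 0) (nat_lit 7798117041) (nat_lit 1748) (nat_lit 11455627890) (nat_lit 1824) (nat_lit 5167026946) (nat_lit 367) (nat_lit 5) (nat_lit 390) (nat_lit 5) (nat_lit 391) (nat_lit 5) (nat_lit 481) (nat_lit 458) (nat_lit 201)) (XT.lf (nat_lit 76) (nat_lit 291972931) (nat_lit 0) (nat_lit 9219593682) (nat_lit 1824) (nat_lit 15175634967) (nat_lit 368) (nat_lit 5) (nat_lit 367) (nat_lit 5) (nat_lit 391) (nat_lit 5) (nat_lit 482) (nat_lit 458) (nat_lit 200))) (XT.nd (nat_lit 78) (nat_lit 0) (nat_lit 0) (XT.lf (nat_lit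 0) (nat_lit 11340321822) (nat_lit 1748) (nat_lit 12537230068) (nat_lit 76) (nat_lit 1079789434) (nat_lit 368) (nat_lit 5) (nat_lit 391) (nat_lit 5) (nat_lit 369) (nat_lit 5) (nat_lit 483) (nat_lit 458) (nat_lit 199)) (XT.lf (nat_lit 0) (nat_lit 13263829285) (nat_lit 1748) (nat_lit 505595847) (nat_lit 76) (nat_lit 11462297327) (nat_lit 368) (nat_lit 5) (nat_lit 391) (nat_lit 5) (nat_lit 369) (nat_lit 5) (nat_lit 484) (nat_lit 458) (nat_lit 198))))))) (XT.nd (nat_lit 1092) (nat_lit 2888) (nat_lit 0) (XT.nd (nat_lit 546) (nat_lit 2356) (nat_lit 0) (XT.nd (nat_lit 234) (nat_lit 1748) (nat_lit 0) (XT.nd (nat_lit 78) (nat_lit 836) (nat_lit 0) (XT.lf (nat_lit 0) (nat_lit 11920592737) (nat_lit 1292) (nat_lit 3379787259) (nat_lit 1368) (nat_lit 10209721856) (nat_lit 351) (nat_lit 5) (nat_lit 368) (nat_lit 5) (nat_lit 369) (nat_lit 5) (nat_lit 485) (nat_lit 458) (nat_lit 197)) (XT.nd (nat_lit 78) (nat_lit 836) (nat_lit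 0) (XT.lf (nat_lit 0) (nat_lit 17425157662) (nat_lit 1368) (nat_lit 1241169913) (nat_lit 76) (nat_lit 7126773391) (nat_lit 351) (nat_lit 5) (nat_lit 369) (nat_lit 5) (nat_lit 352) (nat_lit 5) (nat_lit 486) (nat_lit 458) (nat_lit 196)) (XT.lf (nat_lit 0) (nat_lit 11479899299) (nat_lit 836) (nat_lit 8206722860) (nat_lit 912) (nat_lit 6393256094) (nat_lit 340) (nat_lit 5) (nat_lit 351) (nat_lit 5) (nat_lit 352) (nat_lit 5) (nat_lit 487) (nat_lit 458) (nat_lit 195)))) (XT.nd (nat_lit 156) (nat_lit 912) (nat_lit 0) (XT.nd (nat_lit 78) (nat_lit 836) (nat_lit 0) (XT.lf (nat_lit 0) (nat_lit 22014998651) (nat_lit 912) (nat_lit 1918507561) (nat_lit 76) (nat_lit 2438453195) (nat_lit 340) (nat_lit 5) (nat_lit 352) (nat_lit 5) (nat_lit 341) (nat_lit 5) (nat_lit 488) (nat_lit 458) (nat_lit 194)) (XT.lf (nat_lit 0) (nat_lit 11105485961) (nat_lit 836) (nat_lit 13408275958) (nat_lit 912) (nat_lit 2153645817) (nat_lit 329) (nat_lit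 5) (nat_lit 340) (nat_lit 5) (nat_lit 341) (nat_lit 5) (nat_lit 489) (nat_lit 458) (nat_lit 193))) (XT.nd (nat_lit 78) (nat_lit 836) (nat_lit 0) (XT.lf (nat_lit 0) (nat_lit 102848460) (nat_lit 912) (nat_lit 2555665552) (nat_lit 76) (nat_lit 24310033859) (nat_lit 328) (nat_lit 5) (nat_lit 340) (nat_lit 5) (nat_lit 329) (nat_lit 5) (nat_lit 490) (nat_lit 458) (nat_lit 192)) (XT.lf (nat_lit 0) (nat_lit 2497943474) (nat_lit 912) (nat_lit 16492372732) (nat_lit 76) (nat_lit 8282665554) (nat_lit 317) (nat_lit 5) (nat_lit 329) (nat_lit 5) (nat_lit 318) (nat_lit 5) (nat_lit 491) (nat_lit 458) (nat_lit 191))))) (XT.nd (nat_lit 234) (nat_lit 1520) (nat_lit 0) (XT.nd (nat_lit 78) (nat_lit 836) (nat_lit 0) (XT.lf (nat_lit 0) (nat_lit 4973280149) (nat_lit 912) (nat_lit 3185048689) (nat_lit 76) (nat_lit 19424530482) (nat_lit 317) (nat_lit 5) (nat_lit 329) (nat_lit 5) (nat_lit 318) (nat_lit 5) (nat_lit 492) (nat_lit 458) (nat_lit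 190)) (XT.nd (nat_lit 78) (nat_lit 0) (nat_lit 0) (XT.lf (nat_lit 0) (nat_lit 7583191655) (nat_lit 912) (nat_lit 17392763290) (nat_lit 76) (nat_lit 2921279879) (nat_lit 306) (nat_lit 5) (nat_lit 318) (nat_lit 5) (nat_lit 307) (nat_lit 5) (nat_lit 493) (nat_lit 458) (nat_lit 189)) (XT.lf (nat_lit 0) (nat_lit 10318398748) (nat_lit 912) (nat_lit 3763091992) (nat_lit 76) (nat_lit 14134946868) (nat_lit 306) (nat_lit 5) (nat_lit 318) (nat_lit 5) (nat_lit 307) (nat_lit 5) (nat_lit 494) (nat_lit 458) (nat_lit 188)))) (XT.nd (nat_lit 156) (nat_lit 760) (nat_lit 0) (XT.nd (nat_lit 78) (nat_lit 0) (nat_lit 0) (XT.lf (nat_lit 0) (nat_lit 10271525094) (nat_lit 760) (nat_lit 2901076199) (nat_lit 836) (nat_lit 15368139017) (nat_lit 296) (nat_lit 5) (nat_lit 306) (nat_lit 5) (nat_lit 307) (nat_lit 5) (nat_lit 495) (nat_lit 458) (nat_lit 187)) (XT.lf (nat_lit 0) (nat_lit 16162147916) (nat_lit 836) (nat_lit 4290947922) (nat_lit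 76) (nat_lit 8416869679) (nat_lit 296) (nat_lit 5) (nat_lit 307) (nat_lit 5) (nat_lit 297) (nat_lit 5) (nat_lit 496) (nat_lit 458) (nat_lit 186))) (XT.nd (nat_lit 78) (nat_lit 0) (nat_lit 0) (XT.lf (nat_lit 0) (nat_lit 10077493247) (nat_lit 760) (nat_lit 9216314512) (nat_lit 836) (nat_lit 9910322644) (nat_lit 286) (nat_lit 5) (nat_lit 296) (nat_lit 5) (nat_lit 297) (nat_lit 5) (nat_lit 497) (nat_lit 458) (nat_lit 185)) (XT.lf (nat_lit 0) (nat_lit 22529373521) (nat_lit 836) (nat_lit 4770081410) (nat_lit 76) (nat_lit 2244699789) (nat_lit 286) (nat_lit 5) (nat_lit 297) (nat_lit 5) (nat_lit 287) (nat_lit 5) (nat_lit 498) (nat_lit 458) (nat_lit 184)))))) (XT.nd (nat_lit 546) (nat_lit 0) (nat_lit 0) (XT.nd (nat_lit 234) (nat_lit 1368) (nat_lit 0) (XT.nd (nat_lit 78) (nat_lit 836) (nat_lit 0) (XT.lf (nat_lit 0) (nat_lit 9940610954) (nat_lit 684) (nat_lit 16012370946) (nat_lit 760) (nat_lit 3935532555) (nat_lit 277)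 (nat_lit 5) (nat_lit 286) (nat_lit 5) (nat_lit 287) (nat_lit 5) (nat_lit 499) (nat_lit 458) (nat_lit 183)) (XT.nd (nat_lit 78) (nat_lit 836) (nat_lit 0) (XT.lf (nat_lit 0) (nat_lit 25007860017) (nat_lit 684) (nat_lit 4466996230) (nat_lit 760) (nat_lit 764310790) (nat_lit 277) (nat_lit 5) (nat_lit 286) (nat_lit 5) (nat_lit 287) (nat_lit 5) (nat_lit 500) (nat_lit 458) (nat_lit 182)) (XT.lf (nat_lit 0) (nat_lit 2547954599) (nat_lit 836) (nat_lit 20752257617) (nat_lit 76) (nat_lit 7294100778) (nat_lit 266) (nat_lit 5) (nat_lit 277) (nat_lit 5) (nat_lit 267) (nat_lit 5) (nat_lit 501) (nat_lit 458) (nat_lit 181)))) (XT.nd (nat_lit 156) (nat_lit 684) (nat_lit 0) (XT.nd (nat_lit 78) (nat_lit 684) (nat_lit 0) (XT.lf (nat_lit 0) (nat_lit 5978999673) (nat_lit 836) (nat_lit 5705270564) (nat_lit 76) (nat_lit 19270936661) (nat_lit 266) (nat_lit 5) (nat_lit 277) (nat_lit 5) (nat_lit 267) (nat_lit 5) (nat_lit 502) (nat_lit 458)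 (nat_lit 180)) (XT.lf (nat_lit 0) (nat_lit 9541454065) (nat_lit 760) (nat_lit 21555090946) (nat_lit 76) (nat_lit 225519311) (nat_lit 257) (nat_lit 5) (nat_lit 267) (nat_lit 5) (nat_lit 258) (nat_lit 5) (nat_lit 503) (nat_lit 458) (nat_lit 179))) (XT.nd (nat_lit 78) (nat_lit 684) (nat_lit 0) (XT.lf (nat_lit 0) (nat_lit 13288982626) (nat_lit 760) (nat_lit 6149439358) (nat_lit 76) (nat_lit 12255561790) (nat_lit 257) (nat_lit 5) (nat_lit 267) (nat_lit 5) (nat_lit 258) (nat_lit 5) (nat_lit 504) (nat_lit 458) (nat_lit 178)) (XT.lf (nat_lit 0) (nat_lit 9689133326) (nat_lit 684) (nat_lit 7483184647) (nat_lit 760) (nat_lit 14899807875) (nat_lit 248) (nat_lit 5) (nat_lit 257) (nat_lit 5) (nat_lit 258) (nat_lit 5) (nat_lit 505) (nat_lit 458) (nat_lit 177))))) (XT.nd (nat_lit 55926) (nat_lit 0) (nat_lit 10108) (XT.nd (nat_lit 55770) (nat_lit 0) (nat_lit 10032) (XT.nd (nat_lit 55692) (nat_lit 0) (nat_lit 10032) (XT.lf (nat_lit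 0) (nat_lit 21203419336) (nat_lit 760) (nat_lit 6562324098) (nat_lit 76) (nat_lit 4690686674) (nat_lit 248) (nat_lit 5) (nat_lit 258) (nat_lit 5) (nat_lit 249) (nat_lit 5) (nat_lit 506) (nat_lit 458) (nat_lit 176)) (XT.lf (nat_lit 0) (nat_lit 4697607676) (nat_lit 1748) (nat_lit 2566056675) (nat_lit 1748) (nat_lit 2566056675) (nat_lit 380) (nat_lit 3) (nat_lit 403) (nat_lit 3) (nat_lit 403) (nat_lit 5) (nat_lit 459) (nat_lit 459) (nat_lit 222))) (XT.nd (nat_lit 78) (nat_lit 0) (nat_lit 76) (XT.lf (nat_lit 76) (nat_lit 3852612723) (nat_lit 0) (nat_lit 5825127996) (nat_lit 1748) (nat_lit 10174395761) (nat_lit 381) (nat_lit 5) (nat_lit 380) (nat_lit 3) (nat_lit 403) (nat_lit 5) (nat_lit 460) (nat_lit 459) (nat_lit 221)) (XT.lf (nat_lit 0) (nat_lit 10016102635) (nat_lit 1672) (nat_lit 6983755300) (nat_lit 1748) (nat_lit 3047826511) (nat_lit 381) (nat_lit 5) (nat_lit 403) (nat_lit 5) (nat_lit 404) (nat_lit 5) (nat_lit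 461) (nat_lit 459) (nat_lit 220)))) (XT.nd (nat_lit 156) (nat_lit 0) (nat_lit 76) (XT.nd (nat_lit 78) (nat_lit 0) (nat_lit 76) (XT.lf (nat_lit 76) (nat_lit 2200333001) (nat_lit 0) (nat_lit 8209554866) (nat_lit 1748) (nat_lit 9836285687) (nat_lit 382) (nat_lit 5) (nat_lit 381) (nat_lit 5) (nat_lit 404) (nat_lit 5) (nat_lit 462) (nat_lit 459) (nat_lit 219)) (XT.lf (nat_lit 0) (nat_lit 10859508943) (nat_lit 1672) (nat_lit 8792507377) (nat_lit 1748) (nat_lit 795660162) (nat_lit 382) (nat_lit 5) (nat_lit 404) (nat_lit 5) (nat_lit 405) (nat_lit 5) (nat_lit 463) (nat_lit 459) (nat_lit 218))) (XT.nd (nat_lit 78) (nat_lit 0) (nat_lit 0) (XT.lf (nat_lit 76) (nat_lit 597041601) (nat_lit 0) (nat_lit 10775279114) (nat_lit 1748) (nat_lit 9279807966) (nat_lit 383) (nat_lit 5) (nat_lit 382) (nat_lit 5) (nat_lit 405) (nat_lit 5) (nat_lit 464) (nat_lit 459) (nat_lit 217)) (XT.lf (nat_lit 76) (nat_lit 10291268274) (nat_lit 0) (nat_lit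 1659141185) (nat_lit 1748) (nat_lit 8909163164) (nat_lit 383) (nat_lit 5) (nat_lit 382) (nat_lit 5) (nat_lit 405) (nat_lit 5) (nat_lit 465) (nat_lit 459) (nat_lit 216))))))))
noncomputable def xc244 : XT := (XT.nd (nat_lit 2184) (nat_lit 5244) (nat_lit 0) (XT.nd (nat_lit 1092) (nat_lit 3648) (nat_lit 0) (XT.nd (nat_lit 546) (nat_lit 1368) (nat_lit 0) (XT.nd (nat_lit 234) (nat_lit 0) (nat_lit 76) (XT.nd (nat_lit 78) (nat_lit 0) (nat_lit 0) (XT.lf (nat_lit 0) (nat_lit 12585766680) (nat_lit 1672) (nat_lit 943730312) (nat_lit 1748) (nat_lit 7540757371) (nat_lit 383) (nat_lit 5) (nat_lit 405) (nat_lit 5) (nat_lit 406) (nat_lit 5) (nat_lit 466) (nat_lit 459) (nat_lit 215)) (XT.nd (nat_lit 78) (nat_lit 0) (nat_lit 76) (XT.lf (nat_lit 76) (nat_lit 8977794057) (nat_lit 0) (nat_lit 4321497974) (nat_lit 1748) (nat_lit 7984551482) (nat_lit 384) (nat_lit 5) (nat_lit 383) (nat_lit 5) (nat_lit 406) (nat_lit 5) (nat_lit 467)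 (nat_lit 459) (nat_lit 214)) (XT.lf (nat_lit 0) (nat_lit 14062637921) (nat_lit 1672) (nat_lit 2426371740) (nat_lit 1748) (nat_lit 5011986718) (nat_lit 384) (nat_lit 5) (nat_lit 406) (nat_lit 5) (nat_lit 407) (nat_lit 5) (nat_lit 468) (nat_lit 459) (nat_lit 213)))) (XT.nd (nat_lit 156) (nat_lit 0) (nat_lit 76) (XT.nd (nat_lit 78) (nat_lit 0) (nat_lit 76) (XT.lf (nat_lit 76) (nat_lit 7721220688) (nat_lit 0) (nat_lit 7195107058) (nat_lit 1748) (nat_lit 6804665895) (nat_lit 385) (nat_lit 5) (nat_lit 384) (nat_lit 5) (nat_lit 407) (nat_lit 5) (nat_lit 469) (nat_lit 459) (nat_lit 212)) (XT.lf (nat_lit 0) (nat_lit 15814707104) (nat_lit 1672) (nat_lit 3857744763) (nat_lit 1748) (nat_lit 2272389487) (nat_lit 385) (nat_lit 5) (nat_lit 407) (nat_lit 5) (nat_lit 408) (nat_lit 5) (nat_lit 470) (nat_lit 459) (nat_lit 211))) (XT.nd (nat_lit 78) (nat_lit 0) (nat_lit 0) (XT.lf (nat_lit 76) (nat_lit 6522674055) (nat_lit 0) (nat_lit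 10294842037) (nat_lit 1748) (nat_lit 5353923454) (nat_lit 386) (nat_lit 5) (nat_lit 385) (nat_lit 5) (nat_lit 408) (nat_lit 5) (nat_lit 471) (nat_lit 459) (nat_lit 210)) (XT.lf (nat_lit 76) (nat_lit 17160663171) (nat_lit 0) (nat_lit 702122613) (nat_lit 1748) (nat_lit 4539338539) (nat_lit 386) (nat_lit 5) (nat_lit 385) (nat_lit 5) (nat_lit 408) (nat_lit 5) (nat_lit 472) (nat_lit 459) (nat_lit 209))))) (XT.nd (nat_lit 234) (nat_lit 1596) (nat_lit 0) (XT.nd (nat_lit 78) (nat_lit 0) (nat_lit 0) (XT.lf (nat_lit 76) (nat_lit 5383258975) (nat_lit 0) (nat_lit 13636215533) (nat_lit 1748) (nat_lit 3616140673) (nat_lit 387) (nat_lit 5) (nat_lit 386) (nat_lit 5) (nat_lit 409) (nat_lit 5) (nat_lit 473) (nat_lit 459) (nat_lit 208)) (XT.nd (nat_lit 78) (nat_lit 0) (nat_lit 76) (XT.lf (nat_lit 76) (nat_lit 16284463417) (nat_lit 0) (nat_lit 3951270000) (nat_lit 1748) (nat_lit 2637316316) (nat_lit 387) (nat_lit 5) (nat_lit 386)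 (nat_lit 5) (nat_lit 409) (nat_lit 5) (nat_lit 474) (nat_lit 459) (nat_lit 207)) (XT.lf (nat_lit 76) (nat_lit 4304046270) (nat_lit 0) (nat_lit 17235416840) (nat_lit 1748) (nat_lit 1574509511) (nat_lit 388) (nat_lit 5) (nat_lit 387) (nat_lit 5) (nat_lit 410) (nat_lit 5) (nat_lit 475) (nat_lit 459) (nat_lit 206)))) (XT.nd (nat_lit 156) (nat_lit 0) (nat_lit 0) (XT.nd (nat_lit 78) (nat_lit 1672) (nat_lit 0) (XT.lf (nat_lit 76) (nat_lit 15474965469) (nat_lit 0) (nat_lit 7461275495) (nat_lit 1748) (nat_lit 422136034) (nat_lit 388) (nat_lit 5) (nat_lit 387) (nat_lit 5) (nat_lit 410) (nat_lit 5) (nat_lit 476) (nat_lit 459) (nat_lit 205)) (XT.lf (nat_lit 0) (nat_lit 778086813) (nat_lit 1748) (nat_lit 20326042928) (nat_lit 1824) (nat_lit 2502750687) (nat_lit 365) (nat_lit 5) (nat_lit 388) (nat_lit 5) (nat_lit 389) (nat_lit 5) (nat_lit 477) (nat_lit 459) (nat_lit 204))) (XT.nd (nat_lit 78) (nat_lit 0) (nat_lit 0) (XT.lf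 (nat_lit 0) (nat_lit 2096189725) (nat_lit 1748) (nat_lit 9139035547) (nat_lit 1824) (nat_lit 12623084649) (nat_lit 365) (nat_lit 5) (nat_lit 388) (nat_lit 5) (nat_lit 389) (nat_lit 5) (nat_lit 478) (nat_lit 459) (nat_lit 203)) (XT.lf (nat_lit 76) (nat_lit 2299503202) (nat_lit 0) (nat_lit 1153001118) (nat_lit 1824) (nat_lit 20662029004) (nat_lit 366) (nat_lit 5) (nat_lit 365) (nat_lit 5) (nat_lit 389) (nat_lit 5) (nat_lit 479) (nat_lit 459) (nat_lit 202)))))) (XT.nd (nat_lit 546) (nat_lit 2584) (nat_lit 0) (XT.nd (nat_lit 234) (nat_lit 1140) (nat_lit 0) (XT.nd (nat_lit 78) (nat_lit 0) (nat_lit 0) (XT.lf (nat_lit 0) (nat_lit 4953932033) (nat_lit 1748) (nat_lit 10346068689) (nat_lit 1824) (nat_lit 9073523007) (nat_lit 366) (nat_lit 5) (nat_lit 389) (nat_lit 5) (nat_lit 390) (nat_lit 5) (nat_lit 480) (nat_lit 459) (nat_lit 201)) (XT.nd (nat_lit 78) (nat_lit 0) (nat_lit 76) (XT.lf (nat_lit 76) (nat_lit 1360102613)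 (nat_lit 0) (nat_lit 5138780862) (nat_lit 1824) (nat_lit 18138542787) (nat_lit 367) (nat_lit 5) (nat_lit 366) (nat_lit 5) (nat_lit 390) (nat_lit 5) (nat_lit 481) (nat_lit 459) (nat_lit 200)) (XT.lf (nat_lit 0) (nat_lit 8175625170) (nat_lit 1748) (nat_lit 11501385969) (nat_lit 1824) (nat_lit 5227580063) (nat_lit 367) (nat_lit 5) (nat_lit 390) (nat_lit 5) (nat_lit 391) (nat_lit 5) (nat_lit 482) (nat_lit 459) (nat_lit 199)))) (XT.nd (nat_lit 156) (nat_lit 1216) (nat_lit 0) (XT.nd (nat_lit 78) (nat_lit 0) (nat_lit 76) (XT.lf (nat_lit 76) (nat_lit 479960589) (nat_lit 0) (nat_lit 9440221736) (nat_lit 1824) (nat_lit 15256233641) (nat_lit 368) (nat_lit 5) (nat_lit 367) (nat_lit 5) (nat_lit 391) (nat_lit 5) (nat_lit 483) (nat_lit 459) (nat_lit 198)) (XT.lf (nat_lit 0) (nat_lit 11780999936) (nat_lit 1748) (nat_lit 12604726519) (nat_lit 76) (nat_lit 1066325481) (nat_lit 368) (nat_lit 5) (nat_lit 391) (nat_lit 5) (nat_lit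 369) (nat_lit 5) (nat_lit 484) (nat_lit 459) (nat_lit 197))) (XT.nd (nat_lit 78) (nat_lit 1292) (nat_lit 0) (XT.lf (nat_lit 0) (nat_lit 13738783986) (nat_lit 1748) (nat_lit 336052714) (nat_lit 76) (nat_lit 11657170978) (nat_lit 368) (nat_lit 5) (nat_lit 391) (nat_lit 5) (nat_lit 369) (nat_lit 5) (nat_lit 485) (nat_lit 459) (nat_lit 196)) (XT.lf (nat_lit 0) (nat_lit 12337477700) (nat_lit 1292) (nat_lit 3475635440) (nat_lit 1368) (nat_lit 10202903621) (nat_lit 351) (nat_lit 5) (nat_lit 368) (nat_lit 5) (nat_lit 369) (nat_lit 5) (nat_lit 486) (nat_lit 459) (nat_lit 195))))) (XT.nd (nat_lit 234) (nat_lit 1748) (nat_lit 0) (XT.nd (nat_lit 78) (nat_lit 836) (nat_lit 0) (XT.lf (nat_lit 0) (nat_lit 17976153081) (nat_lit 1368) (nat_lit 1086636773) (nat_lit 76) (nat_lit 7241973663) (nat_lit 351) (nat_lit 5) (nat_lit 369) (nat_lit 5) (nat_lit 352) (nat_lit 5) (nat_lit 487) (nat_lit 459) (nat_lit 194)) (XT.nd (nat_lit 78)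 (nat_lit 0) (nat_lit 0) (XT.lf (nat_lit 0) (nat_lit 11887673847) (nat_lit 836) (nat_lit 8392359426) (nat_lit 912) (nat_lit 6317302283) (nat_lit 340) (nat_lit 5) (nat_lit 351) (nat_lit 5) (nat_lit 352) (nat_lit 5) (nat_lit 488) (nat_lit 459) (nat_lit 193)) (XT.lf (nat_lit 0) (nat_lit 22650925158) (nat_lit 912) (nat_lit 1777998858) (nat_lit 76) (nat_lit 2466418235) (nat_lit 340) (nat_lit 5) (nat_lit 352) (nat_lit 5) (nat_lit 341) (nat_lit 5) (nat_lit 489) (nat_lit 459) (nat_lit 192)))) (XT.nd (nat_lit 156) (nat_lit 836) (nat_lit 0) (XT.nd (nat_lit 78) (nat_lit 76) (nat_lit 0) (XT.lf (nat_lit 0) (nat_lit 11505297699) (nat_lit 836) (nat_lit 13691683936) (nat_lit 912) (nat_lit 1999774371) (nat_lit 329) (nat_lit 5) (nat_lit 340) (nat_lit 5) (nat_lit 341) (nat_lit 5) (nat_lit 490) (nat_lit 459) (nat_lit 191)) (XT.lf (nat_lit 0) (nat_lit 295455823) (nat_lit 912) (nat_lit 2429893365) (nat_lit 76) (nat_lit 24778623115)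 (nat_lit 328) (nat_lit 5) (nat_lit 340) (nat_lit 5) (nat_lit 329) (nat_lit 5) (nat_lit 491) (nat_lit 459) (nat_lit 190))) (XT.nd (nat_lit 78) (nat_lit 0) (nat_lit 0) (XT.lf (nat_lit 0) (nat_lit 2735777930) (nat_lit 912) (nat_lit 16642527020) (nat_lit 76) (nat_lit 8436246072) (nat_lit 317) (nat_lit 5) (nat_lit 329) (nat_lit 5) (nat_lit 318) (nat_lit 5) (nat_lit 492) (nat_lit 459) (nat_lit 189)) (XT.lf (nat_lit 0) (nat_lit 5256937504) (nat_lit 912) (nat_lit 3072579891) (nat_lit 76) (nat_lit 19801185020) (nat_lit 317) (nat_lit 5) (nat_lit 329) (nat_lit 5) (nat_lit 318) (nat_lit 5) (nat_lit 493) (nat_lit 459) (nat_lit 188))))))) (XT.nd (nat_lit 56784) (nat_lit 0) (nat_lit 10032) (XT.nd (nat_lit 546) (nat_lit 2204) (nat_lit 0) (XT.nd (nat_lit 234) (nat_lit 1444) (nat_lit 0) (XT.nd (nat_lit 78) (nat_lit 760) (nat_lit 0) (XT.lf (nat_lit 0) (nat_lit 7916528385) (nat_lit 912) (nat_lit 17561802227) (nat_lit 76) (nat_lit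 2973087747) (nat_lit 306) (nat_lit 5) (nat_lit 318) (nat_lit 5) (nat_lit 307) (nat_lit 5) (nat_lit 494) (nat_lit 459) (nat_lit 187)) (XT.nd (nat_lit 78) (nat_lit 760) (nat_lit 0) (XT.lf (nat_lit 0) (nat_lit 10702877407) (nat_lit 912) (nat_lit 3663043706) (nat_lit 76) (nat_lit 14411157836) (nat_lit 306) (nat_lit 5) (nat_lit 318) (nat_lit 5) (nat_lit 307) (nat_lit 5) (nat_lit 495) (nat_lit 459) (nat_lit 186)) (XT.lf (nat_lit 0) (nat_lit 10651112366) (nat_lit 760) (nat_lit 2960690012) (nat_lit 836) (nat_lit 15496115014) (nat_lit 296) (nat_lit 5) (nat_lit 306) (nat_lit 5) (nat_lit 307) (nat_lit 5) (nat_lit 496) (nat_lit 459) (nat_lit 185)))) (XT.nd (nat_lit 156) (nat_lit 684) (nat_lit 0) (XT.nd (nat_lit 78) (nat_lit 760) (nat_lit 0) (XT.lf (nat_lit 0) (nat_lit 16657683737) (nat_lit 836) (nat_lit 4202448417) (nat_lit 76) (nat_lit 8583666479) (nat_lit 296) (nat_lit 5) (nat_lit 307) (nat_lit 5) (nat_lit 297) (nat_lit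 5) (nat_lit 497) (nat_lit 459) (nat_lit 184)) (XT.lf (nat_lit 0) (nat_lit 10452214743) (nat_lit 760) (nat_lit 9397508087) (nat_lit 836) (nat_lit 9934971425) (nat_lit 286) (nat_lit 5) (nat_lit 296) (nat_lit 5) (nat_lit 297) (nat_lit 5) (nat_lit 498) (nat_lit 459) (nat_lit 183))) (XT.nd (nat_lit 78) (nat_lit 684) (nat_lit 0) (XT.lf (nat_lit 0) (nat_lit 23146685753) (nat_lit 836) (nat_lit 4692277109) (nat_lit 76) (nat_lit 2292624793) (nat_lit 286) (nat_lit 5) (nat_lit 297) (nat_lit 5) (nat_lit 287) (nat_lit 5) (nat_lit 499) (nat_lit 459) (nat_lit 182)) (XT.lf (nat_lit 0) (nat_lit 10311489589) (nat_lit 684) (nat_lit 16325124767) (nat_lit 760) (nat_lit 3846265537) (nat_lit 277) (nat_lit 5) (nat_lit 286) (nat_lit 5) (nat_lit 287) (nat_lit 5) (nat_lit 500) (nat_lit 459) (nat_lit 181))))) (XT.nd (nat_lit 234) (nat_lit 1368) (nat_lit 0) (XT.nd (nat_lit 78) (nat_lit 836) (nat_lit 0) (XT.lf (nat_lit 0) (nat_lit 25676709782)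 (nat_lit 684) (nat_lit 4548989489) (nat_lit 760) (nat_lit 614913015) (nat_lit 277) (nat_lit 5) (nat_lit 286) (nat_lit 5) (nat_lit 287) (nat_lit 5) (nat_lit 501) (nat_lit 459) (nat_lit 180)) (XT.nd (nat_lit 78) (nat_lit 0) (nat_lit 0) (XT.lf (nat_lit 0) (nat_lit 2759414775) (nat_lit 836) (nat_lit 20994211449) (nat_lit 76) (nat_lit 7449256153) (nat_lit 266) (nat_lit 5) (nat_lit 277) (nat_lit 5) (nat_lit 267) (nat_lit 5) (nat_lit 502) (nat_lit 459) (nat_lit 179)) (XT.lf (nat_lit 0) (nat_lit 6255933670) (nat_lit 836) (nat_lit 5649678603) (nat_lit 76) (nat_lit 19665446922) (nat_lit 266) (nat_lit 5) (nat_lit 277) (nat_lit 5) (nat_lit 267) (nat_lit 5) (nat_lit 503) (nat_lit 459) (nat_lit 178)))) (XT.nd (nat_lit 156) (nat_lit 684) (nat_lit 0) (XT.nd (nat_lit 78) (nat_lit 0) (nat_lit 0) (XT.lf (nat_lit 0) (nat_lit 9887732135) (nat_lit 760) (nat_lit 21814487671) (nat_lit 76) (nat_lit 243074115) (nat_lit 257) (nat_lit 5)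 (nat_lit 267) (nat_lit 5) (nat_lit 258) (nat_lit 5) (nat_lit 504) (nat_lit 459) (nat_lit 177)) (XT.lf (nat_lit 0) (nat_lit 13707163248) (nat_lit 760) (nat_lit 6104089818) (nat_lit 76) (nat_lit 12513461672) (nat_lit 257) (nat_lit 5) (nat_lit 267) (nat_lit 5) (nat_lit 258) (nat_lit 5) (nat_lit 505) (nat_lit 459) (nat_lit 176))) (XT.nd (nat_lit 55770) (nat_lit 0) (nat_lit 10032) (XT.lf (nat_lit 0) (nat_lit 10050146831) (nat_lit 684) (nat_lit 7616115991) (nat_lit 760) (nat_lit 15044196856) (nat_lit 248) (nat_lit 5) (nat_lit 257) (nat_lit 5) (nat_lit 258) (nat_lit 5) (nat_lit 506) (nat_lit 459) (nat_lit 175)) (XT.lf (nat_lit 0) (nat_lit 4954057389) (nat_lit 1748) (nat_lit 2534440206) (nat_lit 1748) (nat_lit 2534440206) (nat_lit 380) (nat_lit 3) (nat_lit 403) (nat_lit 3) (nat_lit 403) (nat_lit 5) (nat_lit 460) (nat_lit 460) (nat_lit 220)))))) (XT.nd (nat_lit 546) (nat_lit 0) (nat_lit 228) (XT.nd (nat_lit 234) (nat_lit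 0) (nat_lit 152) (XT.nd (nat_lit 78) (nat_lit 0) (nat_lit 76) (XT.lf (nat_lit 76) (nat_lit 4094448899) (nat_lit 0) (nat_lit 6096539185) (nat_lit 1748) (nat_lit 10051546891) (nat_lit 381) (nat_lit 5) (nat_lit 380) (nat_lit 3) (nat_lit 403) (nat_lit 5) (nat_lit 461) (nat_lit 460) (nat_lit 219)) (XT.nd (nat_lit 78) (nat_lit 0) (nat_lit 0) (XT.lf (nat_lit 0) (nat_lit 10528862709) (nat_lit 1672) (nat_lit 6954377538) (nat_lit 1748) (nat_lit 2958903654) (nat_lit 381) (nat_lit 5) (nat_lit 403) (nat_lit 5) (nat_lit 404) (nat_lit 5) (nat_lit 462) (nat_lit 460) (nat_lit 218)) (XT.lf (nat_lit 76) (nat_lit 2412280339) (nat_lit 0) (nat_lit 8513207453) (nat_lit 1748) (nat_lit 9719220530) (nat_lit 382) (nat_lit 5) (nat_lit 381) (nat_lit 5) (nat_lit 404) (nat_lit 5) (nat_lit 463) (nat_lit 460) (nat_lit 217)))) (XT.nd (nat_lit 156) (nat_lit 0) (nat_lit 0) (XT.nd (nat_lit 78) (nat_lit 0) (nat_lit 0) (XT.lf (nat_lit 0) (nat_lit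 11377186074) (nat_lit 1672) (nat_lit 8796558644) (nat_lit 1748) (nat_lit 676639613) (nat_lit 382) (nat_lit 5) (nat_lit 404) (nat_lit 5) (nat_lit 405) (nat_lit 5) (nat_lit 464) (nat_lit 460) (nat_lit 216)) (XT.lf (nat_lit 76) (nat_lit 779651057) (nat_lit 0) (nat_lit 11115819217) (nat_lit 1748) (nat_lit 9163555602) (nat_lit 383) (nat_lit 5) (nat_lit 382) (nat_lit 5) (nat_lit 405) (nat_lit 5) (nat_lit 465) (nat_lit 460) (nat_lit 215))) (XT.nd (nat_lit 78) (nat_lit 0) (nat_lit 76) (XT.lf (nat_lit 76) (nat_lit 10664415820) (nat_lit 0) (nat_lit 1814906872) (nat_lit 1748) (nat_lit 8791416503) (nat_lit 383) (nat_lit 5) (nat_lit 382) (nat_lit 5) (nat_lit 405) (nat_lit 5) (nat_lit 466) (nat_lit 460) (nat_lit 214)) (XT.lf (nat_lit 0) (nat_lit 13120922362) (nat_lit 1672) (nat_lit 791876536) (nat_lit 1748) (nat_lit 7572969414) (nat_lit 383) (nat_lit 5) (nat_lit 405) (nat_lit 5) (nat_lit 406) (nat_lit 5) (nat_lit 467) (nat_lit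 460) (nat_lit 213))))) (XT.nd (nat_lit 234) (nat_lit 0) (nat_lit 152) (XT.nd (nat_lit 78) (nat_lit 0) (nat_lit 76) (XT.lf (nat_lit 76) (nat_lit 9326955107) (nat_lit 0) (nat_lit 4517306647) (nat_lit 1748) (nat_lit 7859460978) (nat_lit 384) (nat_lit 5) (nat_lit 383) (nat_lit 5) (nat_lit 406) (nat_lit 5) (nat_lit 468) (nat_lit 460) (nat_lit 212)) (XT.nd (nat_lit 78) (nat_lit 0) (nat_lit 0) (XT.lf (nat_lit 0) (nat_lit 14616708056) (nat_lit 1672) (nat_lit 2302239391) (nat_lit 1748) (nat_lit 5006398813) (nat_lit 384) (nat_lit 5) (nat_lit 406) (nat_lit 5) (nat_lit 407) (nat_lit 5) (nat_lit 469) (nat_lit 460) (nat_lit 211)) (XT.lf (nat_lit 76) (nat_lit 8047168967) (nat_lit 0) (nat_lit 7436066998) (nat_lit 1748) (nat_lit 6666596407) (nat_lit 385) (nat_lit 5) (nat_lit 384) (nat_lit 5) (nat_lit 407) (nat_lit 5) (nat_lit 470) (nat_lit 460) (nat_lit 210)))) (XT.nd (nat_lit 156) (nat_lit 0) (nat_lit 0) (XT.nd (nat_lit 78)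 (nat_lit 0) (nat_lit 0) (XT.lf (nat_lit 0) (nat_lit 16393698795) (nat_lit 1672) (nat_lit 3760649491) (nat_lit 1748) (nat_lit 2223930543) (nat_lit 385) (nat_lit 5) (nat_lit 407) (nat_lit 5) (nat_lit 408) (nat_lit 5) (nat_lit 471) (nat_lit 460) (nat_lit 209)) (XT.lf (nat_lit 76) (nat_lit 6826231321) (nat_lit 0) (nat_lit 10586305613) (nat_lit 1748) (nat_lit 5196956618) (nat_lit 386) (nat_lit 5) (nat_lit 385) (nat_lit 5) (nat_lit 408) (nat_lit 5) (nat_lit 472) (nat_lit 460) (nat_lit 208))) (XT.nd (nat_lit 78) (nat_lit 0) (nat_lit 76) (XT.lf (nat_lit 76) (nat_lit 17673586027) (nat_lit 0) (nat_lit 800054022) (nat_lit 1748) (nat_lit 4371257364) (nat_lit 386) (nat_lit 5) (nat_lit 385) (nat_lit 5) (nat_lit 408) (nat_lit 5) (nat_lit 473) (nat_lit 460) (nat_lit 207)) (XT.lf (nat_lit 76) (nat_lit 5665293045) (nat_lit 0) (nat_lit 13983795117) (nat_lit 1748) (nat_lit 3434061284) (nat_lit 387) (nat_lit 5) (nat_lit 386) (nat_lit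 5) (nat_lit 409) (nat_lit 5) (nat_lit 474) (nat_lit 460) (nat_lit 206))))))))
noncomputable def xc245 : XT := (XT.nd (nat_lit 2184) (nat_lit 1520) (nat_lit 0) (XT.nd (nat_lit 1092) (nat_lit 5624) (nat_lit 0) (XT.nd (nat_lit 546) (nat_lit 1064) (nat_lit 0) (XT.nd (nat_lit 234) (nat_lit 1596) (nat_lit 0) (XT.nd (nat_lit 78) (nat_lit 0) (nat_lit 76) (XT.lf (nat_lit 76) (nat_lit 16781102579) (nat_lit 0) (nat_lit 4103682923) (nat_lit 1748) (nat_lit 2440648719) (nat_lit 387) (nat_lit 5) (nat_lit 386) (nat_lit 5) (nat_lit 409) (nat_lit 5) (nat_lit 475) (nat_lit 460) (nat_lit 205)) (XT.nd (nat_lit 78) (nat_lit 0) (nat_lit 0) (XT.lf (nat_lit 76) (nat_lit 4565468873) (nat_lit 0) (nat_lit 17645001282) (nat_lit 1748) (nat_lit 1360791524) (nat_lit 388) (nat_lit 5) (nat_lit 387) (nat_lit 5) (nat_lit 410) (nat_lit 5) (nat_lit 476) (nat_lit 460) (nat_lit 204)) (XT.lf (nat_lit 76) (nat_lit 15956368384) (nat_lit 0) (nat_lit 7674105030)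 (nat_lit 1748) (nat_lit 190178581) (nat_lit 388) (nat_lit 5) (nat_lit 387) (nat_lit 5) (nat_lit 410) (nat_lit 5) (nat_lit 477) (nat_lit 460) (nat_lit 203)))) (XT.nd (nat_lit 156) (nat_lit 0) (nat_lit 0) (XT.nd (nat_lit 78) (nat_lit 0) (nat_lit 0) (XT.lf (nat_lit 0) (nat_lit 1026986939) (nat_lit 1748) (nat_lit 20553244276) (nat_lit 1824) (nat_lit 2493944746) (nat_lit 365) (nat_lit 5) (nat_lit 388) (nat_lit 5) (nat_lit 389) (nat_lit 5) (nat_lit 478) (nat_lit 460) (nat_lit 202)) (XT.lf (nat_lit 0) (nat_lit 2366876647) (nat_lit 1748) (nat_lit 9146012816) (nat_lit 1824) (nat_lit 12817839523) (nat_lit 365) (nat_lit 5) (nat_lit 388) (nat_lit 5) (nat_lit 389) (nat_lit 5) (nat_lit 479) (nat_lit 460) (nat_lit 201))) (XT.nd (nat_lit 78) (nat_lit 0) (nat_lit 76) (XT.lf (nat_lit 76) (nat_lit 2520140107) (nat_lit 0) (nat_lit 1226825799) (nat_lit 1824) (nat_lit 20845181354) (nat_lit 366) (nat_lit 5) (nat_lit 365) (nat_lit 5)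 (nat_lit 389) (nat_lit 5) (nat_lit 480) (nat_lit 460) (nat_lit 200)) (XT.lf (nat_lit 0) (nat_lit 5273679204) (nat_lit 1748) (nat_lit 10376859504) (nat_lit 1824) (nat_lit 9205876927) (nat_lit 366) (nat_lit 5) (nat_lit 389) (nat_lit 5) (nat_lit 390) (nat_lit 5) (nat_lit 481) (nat_lit 460) (nat_lit 199))))) (XT.nd (nat_lit 234) (nat_lit 1140) (nat_lit 0) (XT.nd (nat_lit 78) (nat_lit 0) (nat_lit 76) (XT.lf (nat_lit 76) (nat_lit 1562276470) (nat_lit 0) (nat_lit 5284062404) (nat_lit 1824) (nat_lit 18279324401) (nat_lit 367) (nat_lit 5) (nat_lit 366) (nat_lit 5) (nat_lit 390) (nat_lit 5) (nat_lit 482) (nat_lit 460) (nat_lit 198)) (XT.nd (nat_lit 78) (nat_lit 0) (nat_lit 0) (XT.lf (nat_lit 0) (nat_lit 8552080568) (nat_lit 1748) (nat_lit 11555179087) (nat_lit 1824) (nat_lit 5291005731) (nat_lit 367) (nat_lit 5) (nat_lit 390) (nat_lit 5) (nat_lit 391) (nat_lit 5) (nat_lit 483) (nat_lit 460) (nat_lit 197)) (XT.lf (nat_lit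 76) (nat_lit 664634964) (nat_lit 0) (nat_lit 9663855256) (nat_lit 1824) (nat_lit 15347100312) (nat_lit 368) (nat_lit 5) (nat_lit 367) (nat_lit 5) (nat_lit 391) (nat_lit 5) (nat_lit 484) (nat_lit 460) (nat_lit 196)))) (XT.nd (nat_lit 156) (nat_lit 1292) (nat_lit 0) (XT.nd (nat_lit 78) (nat_lit 0) (nat_lit 0) (XT.lf (nat_lit 0) (nat_lit 12222186714) (nat_lit 1748) (nat_lit 12680688647) (nat_lit 76) (nat_lit 1053953661) (nat_lit 368) (nat_lit 5) (nat_lit 391) (nat_lit 5) (nat_lit 369) (nat_lit 5) (nat_lit 485) (nat_lit 460) (nat_lit 195)) (XT.lf (nat_lit 0) (nat_lit 14215095724) (nat_lit 1748) (nat_lit 170094943) (nat_lit 76) (nat_lit 11857276820) (nat_lit 368) (nat_lit 5) (nat_lit 391) (nat_lit 5) (nat_lit 369) (nat_lit 5) (nat_lit 486) (nat_lit 460) (nat_lit 194))) (XT.nd (nat_lit 78) (nat_lit 0) (nat_lit 0) (XT.lf (nat_lit 0) (nat_lit 12755770035) (nat_lit 1292) (nat_lit 3572303509) (nat_lit 1368) (nat_lit 10204142900)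 (nat_lit 351) (nat_lit 5) (nat_lit 368) (nat_lit 5) (nat_lit 369) (nat_lit 5) (nat_lit 487) (nat_lit 460) (nat_lit 193)) (XT.lf (nat_lit 0) (nat_lit 18530305388) (nat_lit 1368) (nat_lit 935977602) (nat_lit 76) (nat_lit 7360539398) (nat_lit 351) (nat_lit 5) (nat_lit 369) (nat_lit 5) (nat_lit 352) (nat_lit 5) (nat_lit 488) (nat_lit 460) (nat_lit 192)))))) (XT.nd (nat_lit 546) (nat_lit 2204) (nat_lit 0) (XT.nd (nat_lit 234) (nat_lit 1748) (nat_lit 0) (XT.nd (nat_lit 78) (nat_lit 836) (nat_lit 0) (XT.lf (nat_lit 0) (nat_lit 12296685072) (nat_lit 836) (nat_lit 8580873770) (nat_lit 912) (nat_lit 6247743933) (nat_lit 340) (nat_lit 5) (nat_lit 351) (nat_lit 5) (nat_lit 352) (nat_lit 5) (nat_lit 489) (nat_lit 460) (nat_lit 191)) (XT.nd (nat_lit 78) (nat_lit 836) (nat_lit 0) (XT.lf (nat_lit 0) (nat_lit 23291973778) (nat_lit 912) (nat_lit 1641626066) (nat_lit 76) (nat_lit 2495750421) (nat_lit 340) (nat_lit 5) (nat_lit 352)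 (nat_lit 5) (nat_lit 341) (nat_lit 5) (nat_lit 490) (nat_lit 460) (nat_lit 190)) (XT.lf (nat_lit 0) (nat_lit 11906205286) (nat_lit 836) (nat_lit 13980168191) (nat_lit 912) (nat_lit 1850473087) (nat_lit 329) (nat_lit 5) (nat_lit 340) (nat_lit 5) (nat_lit 341) (nat_lit 5) (nat_lit 491) (nat_lit 460) (nat_lit 189)))) (XT.nd (nat_lit 156) (nat_lit 836) (nat_lit 0) (XT.nd (nat_lit 78) (nat_lit 836) (nat_lit 0) (XT.lf (nat_lit 0) (nat_lit 484516028) (nat_lit 912) (nat_lit 2308474412) (nat_lit 76) (nat_lit 25257268030) (nat_lit 328) (nat_lit 5) (nat_lit 340) (nat_lit 5) (nat_lit 329) (nat_lit 5) (nat_lit 492) (nat_lit 460) (nat_lit 188)) (XT.lf (nat_lit 0) (nat_lit 2971073638) (nat_lit 912) (nat_lit 16802662099) (nat_lit 76) (nat_lit 8593367001) (nat_lit 317) (nat_lit 5) (nat_lit 329) (nat_lit 5) (nat_lit 318) (nat_lit 5) (nat_lit 493) (nat_lit 460) (nat_lit 187))) (XT.nd (nat_lit 78) (nat_lit 836) (nat_lit 0) (XT.lf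 (nat_lit 0) (nat_lit 5539115616) (nat_lit 912) (nat_lit 2964702605) (nat_lit 76) (nat_lit 20185832257) (nat_lit 317) (nat_lit 5) (nat_lit 329) (nat_lit 5) (nat_lit 318) (nat_lit 5) (nat_lit 494) (nat_lit 460) (nat_lit 186)) (XT.lf (nat_lit 0) (nat_lit 8249477270) (nat_lit 912) (nat_lit 17741165599) (nat_lit 76) (nat_lit 3026188748) (nat_lit 306) (nat_lit 5) (nat_lit 318) (nat_lit 5) (nat_lit 307) (nat_lit 5) (nat_lit 495) (nat_lit 460) (nat_lit 185))))) (XT.nd (nat_lit 234) (nat_lit 1444) (nat_lit 0) (XT.nd (nat_lit 78) (nat_lit 760) (nat_lit 0) (XT.lf (nat_lit 0) (nat_lit 11088129384) (nat_lit 912) (nat_lit 3567801961) (nat_lit 76) (nat_lit 14693144959) (nat_lit 306) (nat_lit 5) (nat_lit 318) (nat_lit 5) (nat_lit 307) (nat_lit 5) (nat_lit 496) (nat_lit 460) (nat_lit 184)) (XT.nd (nat_lit 78) (nat_lit 0) (nat_lit 0) (XT.lf (nat_lit 0) (nat_lit 11031528663) (nat_lit 760) (nat_lit 3021434270) (nat_lit 836) (nat_lit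 15633616338) (nat_lit 296) (nat_lit 5) (nat_lit 306) (nat_lit 5) (nat_lit 307) (nat_lit 5) (nat_lit 497) (nat_lit 460) (nat_lit 183)) (XT.lf (nat_lit 0) (nat_lit 17156439933) (nat_lit 836) (nat_lit 4118947920) (nat_lit 76) (nat_lit 8753859038) (nat_lit 296) (nat_lit 5) (nat_lit 307) (nat_lit 5) (nat_lit 297) (nat_lit 5) (nat_lit 498) (nat_lit 460) (nat_lit 182)))) (XT.nd (nat_lit 156) (nat_lit 684) (nat_lit 0) (XT.nd (nat_lit 78) (nat_lit 0) (nat_lit 0) (XT.lf (nat_lit 0) (nat_lit 10827706204) (nat_lit 760) (nat_lit 9582447182) (nat_lit 836) (nat_lit 9966852637) (nat_lit 286) (nat_lit 5) (nat_lit 296) (nat_lit 5) (nat_lit 297) (nat_lit 5) (nat_lit 499) (nat_lit 460) (nat_lit 181)) (XT.lf (nat_lit 0) (nat_lit 23769870104) (nat_lit 836) (nat_lit 4619642520) (nat_lit 76) (nat_lit 2341390600) (nat_lit 286) (nat_lit 5) (nat_lit 297) (nat_lit 5) (nat_lit 287) (nat_lit 5) (nat_lit 500) (nat_lit 460) (nat_lit 180)))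 (XT.nd (nat_lit 78) (nat_lit 0) (nat_lit 0) (XT.lf (nat_lit 0) (nat_lit 10683104248) (nat_lit 684) (nat_lit 16644424649) (nat_lit 760) (nat_lit 3761735955) (nat_lit 277) (nat_lit 5) (nat_lit 286) (nat_lit 5) (nat_lit 287) (nat_lit 5) (nat_lit 501) (nat_lit 460) (nat_lit 179)) (XT.lf (nat_lit 0) (nat_lit 26352386005) (nat_lit 684) (nat_lit 4632907894) (nat_lit 760) (nat_lit 468922166) (nat_lit 277) (nat_lit 5) (nat_lit 286) (nat_lit 5) (nat_lit 287) (nat_lit 5) (nat_lit 502) (nat_lit 460) (nat_lit 178))))))) (XT.nd (nat_lit 56940) (nat_lit 0) (nat_lit 8132) (XT.nd (nat_lit 56394) (nat_lit 0) (nat_lit 9500) (XT.nd (nat_lit 56082) (nat_lit 0) (nat_lit 9348) (XT.nd (nat_lit 78) (nat_lit 684) (nat_lit 0) (XT.lf (nat_lit 0) (nat_lit 2968871701) (nat_lit 836) (nat_lit 21247725705) (nat_lit 76) (nat_lit 7607154539) (nat_lit 266) (nat_lit 5) (nat_lit 277) (nat_lit 5) (nat_lit 267) (nat_lit 5) (nat_lit 503) (nat_lit 460)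 (nat_lit 177)) (XT.nd (nat_lit 78) (nat_lit 684) (nat_lit 0) (XT.lf (nat_lit 0) (nat_lit 6532296099) (nat_lit 836) (nat_lit 5599564359) (nat_lit 76) (nat_lit 20067494354) (nat_lit 266) (nat_lit 5) (nat_lit 277) (nat_lit 5) (nat_lit 267) (nat_lit 5) (nat_lit 504) (nat_lit 460) (nat_lit 176)) (XT.lf (nat_lit 0) (nat_lit 10234899493) (nat_lit 760) (nat_lit 22085739849) (nat_lit 76) (nat_lit 260473486) (nat_lit 257) (nat_lit 5) (nat_lit 267) (nat_lit 5) (nat_lit 258) (nat_lit 5) (nat_lit 505) (nat_lit 460) (nat_lit 175)))) (XT.nd (nat_lit 156) (nat_lit 0) (nat_lit 76) (XT.nd (nat_lit 78) (nat_lit 0) (nat_lit 0) (XT.lf (nat_lit 0) (nat_lit 5209326117) (nat_lit 1748) (nat_lit 2505411975) (nat_lit 1748) (nat_lit 2505411975) (nat_lit 380) (nat_lit 3) (nat_lit 403) (nat_lit 3) (nat_lit 403) (nat_lit 5) (nat_lit 461) (nat_lit 461) (nat_lit 218)) (XT.lf (nat_lit 76) (nat_lit 4334723038) (nat_lit 0) (nat_lit 6367363308)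 (nat_lit 1748) (nat_lit 9938913099) (nat_lit 381) (nat_lit 5) (nat_lit 380) (nat_lit 3) (nat_lit 403) (nat_lit 5) (nat_lit 462) (nat_lit 461) (nat_lit 217))) (XT.nd (nat_lit 78) (nat_lit 0) (nat_lit 0) (XT.lf (nat_lit 0) (nat_lit 11039745634) (nat_lit 1672) (nat_lit 6930976751) (nat_lit 1748) (nat_lit 2874022338) (nat_lit 381) (nat_lit 5) (nat_lit 403) (nat_lit 5) (nat_lit 404) (nat_lit 5) (nat_lit 463) (nat_lit 461) (nat_lit 216)) (XT.lf (nat_lit 76) (nat_lit 2621945282) (nat_lit 0) (nat_lit 8817517633) (nat_lit 1748) (nat_lit 9611998951) (nat_lit 382) (nat_lit 5) (nat_lit 381) (nat_lit 5) (nat_lit 404) (nat_lit 5) (nat_lit 464) (nat_lit 461) (nat_lit 215))))) (XT.nd (nat_lit 234) (nat_lit 0) (nat_lit 76) (XT.nd (nat_lit 78) (nat_lit 0) (nat_lit 0) (XT.lf (nat_lit 0) (nat_lit 11893548473) (nat_lit 1672) (nat_lit 8807362097) (nat_lit 1748) (nat_lit 560478295) (nat_lit 382) (nat_lit 5) (nat_lit 404) (nat_lit 5)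 (nat_lit 405) (nat_lit 5) (nat_lit 465) (nat_lit 461) (nat_lit 214)) (XT.nd (nat_lit 78) (nat_lit 0) (nat_lit 0) (XT.lf (nat_lit 76) (nat_lit 959285432) (nat_lit 0) (nat_lit 11458314879) (nat_lit 1748) (nat_lit 9056699337) (nat_lit 383) (nat_lit 5) (nat_lit 382) (nat_lit 5) (nat_lit 405) (nat_lit 5) (nat_lit 466) (nat_lit 461) (nat_lit 213)) (XT.lf (nat_lit 76) (nat_lit 11038528993) (nat_lit 0) (nat_lit 1969027831) (nat_lit 1748) (nat_lit 8682806228) (nat_lit 383) (nat_lit 5) (nat_lit 382) (nat_lit 5) (nat_lit 405) (nat_lit 5) (nat_lit 467) (nat_lit 461) (nat_lit 212)))) (XT.nd (nat_lit 156) (nat_lit 0) (nat_lit 76) (XT.nd (nat_lit 78) (nat_lit 0) (nat_lit 0) (XT.lf (nat_lit 0) (nat_lit 13655774822) (nat_lit 1672) (nat_lit 643615275) (nat_lit 1748) (nat_lit 7610431200) (nat_lit 383) (nat_lit 5) (nat_lit 405) (nat_lit 5) (nat_lit 406) (nat_lit 5) (nat_lit 468) (nat_lit 461) (nat_lit 211)) (XT.lf (nat_lit 76) (nat_lit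 9676513404) (nat_lit 0) (nat_lit 4712784185) (nat_lit 1748) (nat_lit 7742927077) (nat_lit 384) (nat_lit 5) (nat_lit 383) (nat_lit 5) (nat_lit 406) (nat_lit 5) (nat_lit 469) (nat_lit 461) (nat_lit 210))) (XT.nd (nat_lit 78) (nat_lit 0) (nat_lit 0) (XT.lf (nat_lit 0) (nat_lit 15171265763) (nat_lit 1672) (nat_lit 2182328984) (nat_lit 1748) (nat_lit 5004808567) (nat_lit 384) (nat_lit 5) (nat_lit 406) (nat_lit 5) (nat_lit 407) (nat_lit 5) (nat_lit 470) (nat_lit 461) (nat_lit 209)) (XT.lf (nat_lit 76) (nat_lit 8372975730) (nat_lit 0) (nat_lit 7678077263) (nat_lit 1748) (nat_lit 6536411606) (nat_lit 385) (nat_lit 5) (nat_lit 384) (nat_lit 5) (nat_lit 407) (nat_lit 5) (nat_lit 471) (nat_lit 461) (nat_lit 208)))))) (XT.nd (nat_lit 546) (nat_lit 0) (nat_lit 76) (XT.nd (nat_lit 234) (nat_lit 1596) (nat_lit 0) (XT.nd (nat_lit 78) (nat_lit 0) (nat_lit 0) (XT.lf (nat_lit 0) (nat_lit 16974069453) (nat_lit 1672) (nat_lit 3668378660)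 (nat_lit 1748) (nat_lit 2178148934) (nat_lit 385) (nat_lit 5) (nat_lit 407) (nat_lit 5) (nat_lit 408) (nat_lit 5) (nat_lit 472) (nat_lit 461) (nat_lit 207)) (XT.nd (nat_lit 78) (nat_lit 0) (nat_lit 0) (XT.lf (nat_lit 76) (nat_lit 7129137902) (nat_lit 0) (nat_lit 10880275801) (nat_lit 1748) (nat_lit 5047103647) (nat_lit 386) (nat_lit 5) (nat_lit 385) (nat_lit 5) (nat_lit 408) (nat_lit 5) (nat_lit 473) (nat_lit 461) (nat_lit 206)) (XT.lf (nat_lit 76) (nat_lit 18190177310) (nat_lit 0) (nat_lit 896686549) (nat_lit 1748) (nat_lit 4209866723) (nat_lit 386) (nat_lit 5) (nat_lit 385) (nat_lit 5) (nat_lit 408) (nat_lit 5) (nat_lit 474) (nat_lit 461) (nat_lit 205)))) (XT.nd (nat_lit 156) (nat_lit 1672) (nat_lit 0) (XT.nd (nat_lit 78) (nat_lit 0) (nat_lit 0) (XT.lf (nat_lit 76) (nat_lit 5946196841) (nat_lit 0) (nat_lit 14335419572) (nat_lit 1748) (nat_lit 3258219055) (nat_lit 387) (nat_lit 5) (nat_lit 386) (nat_lit 5) (nat_lit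 409) (nat_lit 5) (nat_lit 475) (nat_lit 461) (nat_lit 204)) (XT.lf (nat_lit 76) (nat_lit 17281036331) (nat_lit 0) (nat_lit 4256294377) (nat_lit 1748) (nat_lit 2249732817) (nat_lit 387) (nat_lit 5) (nat_lit 386) (nat_lit 5) (nat_lit 409) (nat_lit 5) (nat_lit 476) (nat_lit 461) (nat_lit 203))) (XT.nd (nat_lit 78) (nat_lit 1748) (nat_lit 0) (XT.lf (nat_lit 76) (nat_lit 4825311197) (nat_lit 0) (nat_lit 18060258194) (nat_lit 1748) (nat_lit 1152320910) (nat_lit 388) (nat_lit 5) (nat_lit 387) (nat_lit 5) (nat_lit 410) (nat_lit 5) (nat_lit 477) (nat_lit 461) (nat_lit 202)) (XT.lf (nat_lit 0) (nat_lit 36596638) (nat_lit 1748) (nat_lit 7851879112) (nat_lit 1824) (nat_lit 16403881910) (nat_lit 364) (nat_lit 5) (nat_lit 387) (nat_lit 5) (nat_lit 388) (nat_lit 5) (nat_lit 478) (nat_lit 461) (nat_lit 201))))) (XT.nd (nat_lit 234) (nat_lit 0) (nat_lit 76) (XT.nd (nat_lit 78) (nat_lit 0) (nat_lit 0) (XT.lf (nat_lit 0) (nat_lit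 1271804254) (nat_lit 1748) (nat_lit 20791952845) (nat_lit 1824) (nat_lit 2487248329) (nat_lit 365) (nat_lit 5) (nat_lit 388) (nat_lit 5) (nat_lit 389) (nat_lit 5) (nat_lit 479) (nat_lit 461) (nat_lit 200)) (XT.nd (nat_lit 78) (nat_lit 0) (nat_lit 0) (XT.lf (nat_lit 0) (nat_lit 2634094156) (nat_lit 1748) (nat_lit 9159956291) (nat_lit 1824) (nat_lit 13018730322) (nat_lit 365) (nat_lit 5) (nat_lit 388) (nat_lit 5) (nat_lit 389) (nat_lit 5) (nat_lit 480) (nat_lit 461) (nat_lit 199)) (XT.lf (nat_lit 76) (nat_lit 2738408000) (nat_lit 0) (nat_lit 1300155720) (nat_lit 1824) (nat_lit 21040931358) (nat_lit 366) (nat_lit 5) (nat_lit 365) (nat_lit 5) (nat_lit 389) (nat_lit 5) (nat_lit 481) (nat_lit 461) (nat_lit 198)))) (XT.nd (nat_lit 156) (nat_lit 0) (nat_lit 76) (XT.nd (nat_lit 78) (nat_lit 0) (nat_lit 0) (XT.lf (nat_lit 0) (nat_lit 5591252491) (nat_lit 1748) (nat_lit 10415105501) (nat_lit 1824) (nat_lit 9342785181) (nat_lit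 366) (nat_lit 5) (nat_lit 389) (nat_lit 5) (nat_lit 390) (nat_lit 5) (nat_lit 482) (nat_lit 461) (nat_lit 197)) (XT.lf (nat_lit 76) (nat_lit 1761699435) (nat_lit 0) (nat_lit 5430599021) (nat_lit 1824) (nat_lit 18431541760) (nat_lit 367) (nat_lit 5) (nat_lit 366) (nat_lit 5) (nat_lit 390) (nat_lit 5) (nat_lit 483) (nat_lit 461) (nat_lit 196))) (XT.nd (nat_lit 78) (nat_lit 0) (nat_lit 0) (XT.lf (nat_lit 0) (nat_lit 8927796243) (nat_lit 1748) (nat_lit 11616891472) (nat_lit 1824) (nat_lit 5357296881) (nat_lit 367) (nat_lit 5) (nat_lit 390) (nat_lit 5) (nat_lit 391) (nat_lit 5) (nat_lit 484) (nat_lit 461) (nat_lit 195)) (XT.lf (nat_lit 76) (nat_lit 846204444) (nat_lit 0) (nat_lit 9890608991) (nat_lit 1824) (nat_lit 15448104216) (nat_lit 368) (nat_lit 5) (nat_lit 367) (nat_lit 5) (nat_lit 391) (nat_lit 5) (nat_lit 485) (nat_lit 461) (nat_lit 194))))))))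
noncomputable def xc246 : XT := (XT.nd (nat_lit 58110) (nat_lit 0) (nat_lit 3040) (XT.nd (nat_lit 1092) (nat_lit 2280) (nat_lit 0) (XT.nd (nat_lit 546) (nat_lit 2508) (nat_lit 0) (XT.nd (nat_lit 234) (nat_lit 1672) (nat_lit 0) (XT.nd (nat_lit 78) (nat_lit 1292) (nat_lit 0) (XT.lf (nat_lit 0) (nat_lit 12664214819) (nat_lit 1748) (nat_lit 12765009454) (nat_lit 76) (nat_lit 1042642953) (nat_lit 368) (nat_lit 5) (nat_lit 391) (nat_lit 5) (nat_lit 369) (nat_lit 5) (nat_lit 486) (nat_lit 461) (nat_lit 193)) (XT.nd (nat_lit 78) (nat_lit 1292) (nat_lit 0) (XT.lf (nat_lit 0) (nat_lit 14693107805) (nat_lit 1748) (nat_lit 7523346) (nat_lit 76) (nat_lit 12062667668) (nat_lit 368) (nat_lit 5) (nat_lit 391) (nat_lit 5) (nat_lit 369) (nat_lit 5) (nat_lit 487) (nat_lit 461) (nat_lit 192)) (XT.lf (nat_lit 0) (nat_lit 13175767001) (nat_lit 1292) (nat_lit 3669850463) (nat_lit 1368) (nat_lit 10213282666) (nat_lit 351) (nat_lit 5)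 (nat_lit 368) (nat_lit 5) (nat_lit 369) (nat_lit 5) (nat_lit 488) (nat_lit 461) (nat_lit 191)))) (XT.nd (nat_lit 156) (nat_lit 836) (nat_lit 0) (XT.nd (nat_lit 78) (nat_lit 836) (nat_lit 0) (XT.lf (nat_lit 0) (nat_lit 19087983050) (nat_lit 1368) (nat_lit 788999437) (nat_lit 76) (nat_lit 7482496690) (nat_lit 351) (nat_lit 5) (nat_lit 369) (nat_lit 5) (nat_lit 352) (nat_lit 5) (nat_lit 489) (nat_lit 461) (nat_lit 190)) (XT.lf (nat_lit 0) (nat_lit 12707226375) (nat_lit 836) (nat_lit 8772355870) (nat_lit 912) (nat_lit 6184401622) (nat_lit 340) (nat_lit 5) (nat_lit 351) (nat_lit 5) (nat_lit 352) (nat_lit 5) (nat_lit 490) (nat_lit 461) (nat_lit 189))) (XT.nd (nat_lit 78) (nat_lit 836) (nat_lit 0) (XT.lf (nat_lit 0) (nat_lit 23938541932) (nat_lit 912) (nat_lit 1509202176) (nat_lit 76) (nat_lit 2526445727) (nat_lit 340) (nat_lit 5) (nat_lit 352) (nat_lit 5) (nat_lit 341) (nat_lit 5) (nat_lit 491) (nat_lit 461) (nat_lit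 188)) (XT.lf (nat_lit 0) (nat_lit 12308498589) (nat_lit 836) (nat_lit 14273853232) (nat_lit 912) (nat_lit 1705536401) (nat_lit 329) (nat_lit 5) (nat_lit 340) (nat_lit 5) (nat_lit 341) (nat_lit 5) (nat_lit 492) (nat_lit 461) (nat_lit 187))))) (XT.nd (nat_lit 234) (nat_lit 1596) (nat_lit 0) (XT.nd (nat_lit 78) (nat_lit 836) (nat_lit 0) (XT.lf (nat_lit 0) (nat_lit 670245458) (nat_lit 912) (nat_lit 2191229041) (nat_lit 76) (nat_lit 25746143160) (nat_lit 328) (nat_lit 5) (nat_lit 340) (nat_lit 5) (nat_lit 329) (nat_lit 5) (nat_lit 493) (nat_lit 461) (nat_lit 186)) (XT.nd (nat_lit 78) (nat_lit 0) (nat_lit 0) (XT.lf (nat_lit 0) (nat_lit 3204063112) (nat_lit 912) (nat_lit 16972706630) (nat_lit 76) (nat_lit 8754080946) (nat_lit 317) (nat_lit 5) (nat_lit 329) (nat_lit 5) (nat_lit 318) (nat_lit 5) (nat_lit 494) (nat_lit 461) (nat_lit 185)) (XT.lf (nat_lit 0) (nat_lit 5820062636) (nat_lit 912) (nat_lit 2861243019) (nat_lit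 76) (nat_lit 20578614201) (nat_lit 317) (nat_lit 5) (nat_lit 329) (nat_lit 5) (nat_lit 318) (nat_lit 5) (nat_lit 495) (nat_lit 461) (nat_lit 184)))) (XT.nd (nat_lit 156) (nat_lit 760) (nat_lit 0) (XT.nd (nat_lit 78) (nat_lit 0) (nat_lit 0) (XT.lf (nat_lit 0) (nat_lit 8582304491) (nat_lit 912) (nat_lit 17930790264) (nat_lit 76) (nat_lit 3080598764) (nat_lit 306) (nat_lit 5) (nat_lit 318) (nat_lit 5) (nat_lit 307) (nat_lit 5) (nat_lit 496) (nat_lit 461) (nat_lit 183)) (XT.lf (nat_lit 0) (nat_lit 11474438712) (nat_lit 912) (nat_lit 3477198542) (nat_lit 76) (nat_lit 14981013976) (nat_lit 306) (nat_lit 5) (nat_lit 318) (nat_lit 5) (nat_lit 307) (nat_lit 5) (nat_lit 497) (nat_lit 461) (nat_lit 182))) (XT.nd (nat_lit 78) (nat_lit 0) (nat_lit 0) (XT.lf (nat_lit 0) (nat_lit 11413053172) (nat_lit 760) (nat_lit 3083333985) (nat_lit 836) (nat_lit 15780563006) (nat_lit 296) (nat_lit 5) (nat_lit 306) (nat_lit 5) (nat_lit 307)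 (nat_lit 5) (nat_lit 498) (nat_lit 461) (nat_lit 181)) (XT.lf (nat_lit 0) (nat_lit 17658740706) (nat_lit 836) (nat_lit 4040283564) (nat_lit 76) (nat_lit 8927512948) (nat_lit 296) (nat_lit 5) (nat_lit 307) (nat_lit 5) (nat_lit 297) (nat_lit 5) (nat_lit 499) (nat_lit 461) (nat_lit 180)))))) (XT.nd (nat_lit 56472) (nat_lit 0) (nat_lit 8664) (XT.nd (nat_lit 234) (nat_lit 836) (nat_lit 0) (XT.nd (nat_lit 78) (nat_lit 684) (nat_lit 0) (XT.lf (nat_lit 0) (nat_lit 11204244147) (nat_lit 760) (nat_lit 9771201981) (nat_lit 836) (nat_lit 10005849228) (nat_lit 286) (nat_lit 5) (nat_lit 296) (nat_lit 5) (nat_lit 297) (nat_lit 5) (nat_lit 500) (nat_lit 461) (nat_lit 179)) (XT.nd (nat_lit 78) (nat_lit 684) (nat_lit 0) (XT.lf (nat_lit 0) (nat_lit 24399295414) (nat_lit 836) (nat_lit 4552019866) (nat_lit 76) (nat_lit 2391018595) (nat_lit 286) (nat_lit 5) (nat_lit 297) (nat_lit 5) (nat_lit 287) (nat_lit 5) (nat_lit 501) (nat_lit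 461) (nat_lit 178)) (XT.lf (nat_lit 0) (nat_lit 11055729105) (nat_lit 684) (nat_lit 16970390215) (nat_lit 760) (nat_lit 3681785272) (nat_lit 277) (nat_lit 5) (nat_lit 286) (nat_lit 5) (nat_lit 287) (nat_lit 5) (nat_lit 502) (nat_lit 461) (nat_lit 177)))) (XT.nd (nat_lit 156) (nat_lit 0) (nat_lit 0) (XT.nd (nat_lit 78) (nat_lit 836) (nat_lit 0) (XT.lf (nat_lit 0) (nat_lit 27035279579) (nat_lit 684) (nat_lit 4718778869) (nat_lit 760) (nat_lit 326158058) (nat_lit 277) (nat_lit 5) (nat_lit 286) (nat_lit 5) (nat_lit 287) (nat_lit 5) (nat_lit 503) (nat_lit 461) (nat_lit 176)) (XT.lf (nat_lit 0) (nat_lit 3176527327) (nat_lit 836) (nat_lit 21512770596) (nat_lit 76) (nat_lit 7767864780) (nat_lit 266) (nat_lit 5) (nat_lit 277) (nat_lit 5) (nat_lit 267) (nat_lit 5) (nat_lit 504) (nat_lit 461) (nat_lit 175))) (XT.nd (nat_lit 56004) (nat_lit 0) (nat_lit 8664) (XT.lf (nat_lit 0) (nat_lit 6808312797) (nat_lit 836) (nat_lit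 5554781505) (nat_lit 76) (nat_lit 20477243408) (nat_lit 266) (nat_lit 5) (nat_lit 277) (nat_lit 5) (nat_lit 267) (nat_lit 5) (nat_lit 505) (nat_lit 461) (nat_lit 174)) (XT.lf (nat_lit 0) (nat_lit 5463635266) (nat_lit 1748) (nat_lit 2478898690) (nat_lit 1748) (nat_lit 2478898690) (nat_lit 380) (nat_lit 3) (nat_lit 403) (nat_lit 3) (nat_lit 403) (nat_lit 5) (nat_lit 462) (nat_lit 462) (nat_lit 216))))) (XT.nd (nat_lit 234) (nat_lit 0) (nat_lit 152) (XT.nd (nat_lit 78) (nat_lit 0) (nat_lit 76) (XT.lf (nat_lit 76) (nat_lit 4573652370) (nat_lit 0) (nat_lit 6637822203) (nat_lit 1748) (nat_lit 9836206615) (nat_lit 381) (nat_lit 5) (nat_lit 380) (nat_lit 3) (nat_lit 403) (nat_lit 5) (nat_lit 463) (nat_lit 462) (nat_lit 215)) (XT.nd (nat_lit 78) (nat_lit 0) (nat_lit 0) (XT.lf (nat_lit 0) (nat_lit 11549184984) (nat_lit 1672) (nat_lit 6913417567) (nat_lit 1748) (nat_lit 2793037399) (nat_lit 381) (nat_lit 5) (nat_lit 403)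 (nat_lit 5) (nat_lit 404) (nat_lit 5) (nat_lit 464) (nat_lit 462) (nat_lit 214)) (XT.lf (nat_lit 76) (nat_lit 2829535414) (nat_lit 0) (nat_lit 9122708845) (nat_lit 1748) (nat_lit 9514344669) (nat_lit 382) (nat_lit 5) (nat_lit 381) (nat_lit 5) (nat_lit 404) (nat_lit 5) (nat_lit 465) (nat_lit 462) (nat_lit 213)))) (XT.nd (nat_lit 156) (nat_lit 0) (nat_lit 0) (XT.nd (nat_lit 78) (nat_lit 0) (nat_lit 0) (XT.lf (nat_lit 0) (nat_lit 12409022939) (nat_lit 1672) (nat_lit 8824793730) (nat_lit 1748) (nat_lit 447029930) (nat_lit 382) (nat_lit 5) (nat_lit 404) (nat_lit 5) (nat_lit 405) (nat_lit 5) (nat_lit 466) (nat_lit 462) (nat_lit 212)) (XT.lf (nat_lit 76) (nat_lit 1136142569) (nat_lit 0) (nat_lit 11802993746) (nat_lit 1748) (nat_lit 8958971947) (nat_lit 383) (nat_lit 5) (nat_lit 382) (nat_lit 5) (nat_lit 405) (nat_lit 5) (nat_lit 467) (nat_lit 462) (nat_lit 211))) (XT.nd (nat_lit 78) (nat_lit 0) (nat_lit 76) (XT.lf (nat_lit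 76) (nat_lit 11413879404) (nat_lit 0) (nat_lit 2121656005) (nat_lit 1748) (nat_lit 8583068846) (nat_lit 383) (nat_lit 5) (nat_lit 382) (nat_lit 5) (nat_lit 405) (nat_lit 5) (nat_lit 468) (nat_lit 462) (nat_lit 210)) (XT.lf (nat_lit 0) (nat_lit 14190745388) (nat_lit 1672) (nat_lit 498760945) (nat_lit 1748) (nat_lit 7653068888) (nat_lit 383) (nat_lit 5) (nat_lit 405) (nat_lit 5) (nat_lit 406) (nat_lit 5) (nat_lit 469) (nat_lit 462) (nat_lit 209))))))) (XT.nd (nat_lit 1092) (nat_lit 4408) (nat_lit 0) (XT.nd (nat_lit 546) (nat_lit 1444) (nat_lit 0) (XT.nd (nat_lit 234) (nat_lit 0) (nat_lit 152) (XT.nd (nat_lit 78) (nat_lit 0) (nat_lit 76) (XT.lf (nat_lit 76) (nat_lit 10026732632) (nat_lit 0) (nat_lit 4908088893) (nat_lit 1748) (nat_lit 7634691501) (nat_lit 384) (nat_lit 5) (nat_lit 383) (nat_lit 5) (nat_lit 406) (nat_lit 5) (nat_lit 470) (nat_lit 462) (nat_lit 208)) (XT.nd (nat_lit 78) (nat_lit 0) (nat_lit 0) (XT.lf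 (nat_lit 0) (nat_lit 15726732163) (nat_lit 1672) (nat_lit 2066464612) (nat_lit 1748) (nat_lit 5007136358) (nat_lit 384) (nat_lit 5) (nat_lit 406) (nat_lit 5) (nat_lit 407) (nat_lit 5) (nat_lit 471) (nat_lit 462) (nat_lit 207)) (XT.lf (nat_lit 76) (nat_lit 8698896782) (nat_lit 0) (nat_lit 7921305212) (nat_lit 1748) (nat_lit 6413855784) (nat_lit 385) (nat_lit 5) (nat_lit 384) (nat_lit 5) (nat_lit 407) (nat_lit 5) (nat_lit 472) (nat_lit 462) (nat_lit 206)))) (XT.nd (nat_lit 156) (nat_lit 0) (nat_lit 0) (XT.nd (nat_lit 78) (nat_lit 0) (nat_lit 0) (XT.lf (nat_lit 0) (nat_lit 17556242770) (nat_lit 1672) (nat_lit 3580766013) (nat_lit 1748) (nat_lit 2134956607) (nat_lit 385) (nat_lit 5) (nat_lit 407) (nat_lit 5) (nat_lit 408) (nat_lit 5) (nat_lit 473) (nat_lit 462) (nat_lit 205)) (XT.lf (nat_lit 76) (nat_lit 7431641799) (nat_lit 0) (nat_lit 11176931754) (nat_lit 1748) (nat_lit 4904108672) (nat_lit 386) (nat_lit 5) (nat_lit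 385) (nat_lit 5) (nat_lit 408) (nat_lit 5) (nat_lit 474) (nat_lit 462) (nat_lit 204))) (XT.nd (nat_lit 78) (nat_lit 0) (nat_lit 76) (XT.lf (nat_lit 76) (nat_lit 18710766288) (nat_lit 0) (nat_lit 992120709) (nat_lit 1748) (nat_lit 4054910090) (nat_lit 386) (nat_lit 5) (nat_lit 385) (nat_lit 5) (nat_lit 408) (nat_lit 5) (nat_lit 475) (nat_lit 462) (nat_lit 203)) (XT.lf (nat_lit 76) (nat_lit 6226210680) (nat_lit 0) (nat_lit 14691282665) (nat_lit 1748) (nat_lit 3088355126) (nat_lit 387) (nat_lit 5) (nat_lit 386) (nat_lit 5) (nat_lit 409) (nat_lit 5) (nat_lit 476) (nat_lit 462) (nat_lit 202))))) (XT.nd (nat_lit 234) (nat_lit 0) (nat_lit 76) (XT.nd (nat_lit 78) (nat_lit 1672) (nat_lit 0) (XT.lf (nat_lit 76) (nat_lit 17784588334) (nat_lit 0) (nat_lit 4409218992) (nat_lit 1748) (nat_lit 2064307561) (nat_lit 387) (nat_lit 5) (nat_lit 386) (nat_lit 5) (nat_lit 409) (nat_lit 5) (nat_lit 477) (nat_lit 462) (nat_lit 201))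 (XT.nd (nat_lit 78) (nat_lit 1748) (nat_lit 0) (XT.lf (nat_lit 76) (nat_lit 5083806028) (nat_lit 0) (nat_lit 18481398851) (nat_lit 1748) (nat_lit 948832876) (nat_lit 388) (nat_lit 5) (nat_lit 387) (nat_lit 5) (nat_lit 410) (nat_lit 5) (nat_lit 478) (nat_lit 462) (nat_lit 200)) (XT.lf (nat_lit 0) (nat_lit 256508387) (nat_lit 1748) (nat_lit 7847026354) (nat_lit 1824) (nat_lit 16670121280) (nat_lit 364) (nat_lit 5) (nat_lit 387) (nat_lit 5) (nat_lit 388) (nat_lit 5) (nat_lit 479) (nat_lit 462) (nat_lit 199)))) (XT.nd (nat_lit 156) (nat_lit 0) (nat_lit 0) (XT.nd (nat_lit 78) (nat_lit 0) (nat_lit 0) (XT.lf (nat_lit 0) (nat_lit 1512808944) (nat_lit 1748) (nat_lit 21042128392) (nat_lit 1824) (nat_lit 2482614872) (nat_lit 365) (nat_lit 5) (nat_lit 388) (nat_lit 5) (nat_lit 389) (nat_lit 5) (nat_lit 480) (nat_lit 462) (nat_lit 198)) (XT.lf (nat_lit 0) (nat_lit 2898117809) (nat_lit 1748) (nat_lit 9180740211) (nat_lit 1824)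 (nat_lit 13225792748) (nat_lit 365) (nat_lit 5) (nat_lit 388) (nat_lit 5) (nat_lit 389) (nat_lit 5) (nat_lit 481) (nat_lit 462) (nat_lit 197))) (XT.nd (nat_lit 78) (nat_lit 0) (nat_lit 76) (XT.lf (nat_lit 76) (nat_lit 2954522845) (nat_lit 0) (nat_lit 1373057532) (nat_lit 1824) (nat_lit 21249184027) (nat_lit 366) (nat_lit 5) (nat_lit 365) (nat_lit 5) (nat_lit 389) (nat_lit 5) (nat_lit 482) (nat_lit 462) (nat_lit 196)) (XT.lf (nat_lit 0) (nat_lit 5906941154) (nat_lit 1748) (nat_lit 10460690200) (nat_lit 1824) (nat_lit 9484264794) (nat_lit 366) (nat_lit 5) (nat_lit 389) (nat_lit 5) (nat_lit 390) (nat_lit 5) (nat_lit 483) (nat_lit 462) (nat_lit 195)))))) (XT.nd (nat_lit 546) (nat_lit 3420) (nat_lit 0) (XT.nd (nat_lit 234) (nat_lit 1140) (nat_lit 0) (XT.nd (nat_lit 78) (nat_lit 0) (nat_lit 76) (XT.lf (nat_lit 76) (nat_lit 1958580325) (nat_lit 0) (nat_lit 5578479906) (nat_lit 1824) (nat_lit 18595088849) (nat_lit 367)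 (nat_lit 5) (nat_lit 366) (nat_lit 5) (nat_lit 390) (nat_lit 5) (nat_lit 484) (nat_lit 462) (nat_lit 194)) (XT.nd (nat_lit 78) (nat_lit 0) (nat_lit 0) (XT.lf (nat_lit 0) (nat_lit 9303078488) (nat_lit 1748) (nat_lit 11686415771) (nat_lit 1824) (nat_lit 5426448813) (nat_lit 367) (nat_lit 5) (nat_lit 390) (nat_lit 5) (nat_lit 391) (nat_lit 5) (nat_lit 485) (nat_lit 462) (nat_lit 193)) (XT.lf (nat_lit 76) (nat_lit 1024870922) (nat_lit 0) (nat_lit 10120597862) (nat_lit 1824) (nat_lit 15559125025) (nat_lit 368) (nat_lit 5) (nat_lit 367) (nat_lit 5) (nat_lit 391) (nat_lit 5) (nat_lit 486) (nat_lit 462) (nat_lit 192)))) (XT.nd (nat_lit 156) (nat_lit 0) (nat_lit 0) (XT.nd (nat_lit 78) (nat_lit 1292) (nat_lit 0) (XT.lf (nat_lit 0) (nat_lit 13107411044) (nat_lit 1748) (nat_lit 12857590529) (nat_lit 76) (nat_lit 1032363764) (nat_lit 368) (nat_lit 5) (nat_lit 391) (nat_lit 5) (nat_lit 369) (nat_lit 5) (nat_lit 487) (nat_lit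 462) (nat_lit 191)) (XT.lf (nat_lit 0) (nat_lit 153872799) (nat_lit 1292) (nat_lit 15020284372) (nat_lit 1368) (nat_lit 12120525651) (nat_lit 351) (nat_lit 5) (nat_lit 368) (nat_lit 5) (nat_lit 369) (nat_lit 5) (nat_lit 488) (nat_lit 462) (nat_lit 190))) (XT.nd (nat_lit 78) (nat_lit 0) (nat_lit 0) (XT.lf (nat_lit 0) (nat_lit 13597761354) (nat_lit 1292) (nat_lit 3768334827) (nat_lit 1368) (nat_lit 10230175105) (nat_lit 351) (nat_lit 5) (nat_lit 368) (nat_lit 5) (nat_lit 369) (nat_lit 5) (nat_lit 489) (nat_lit 462) (nat_lit 189)) (XT.lf (nat_lit 0) (nat_lit 19649550048) (nat_lit 1368) (nat_lit 645515952) (nat_lit 76) (nat_lit 7607873752) (nat_lit 351) (nat_lit 5) (nat_lit 369) (nat_lit 5) (nat_lit 352) (nat_lit 5) (nat_lit 490) (nat_lit 462) (nat_lit 188))))) (XT.nd (nat_lit 234) (nat_lit 1748) (nat_lit 0) (XT.nd (nat_lit 78) (nat_lit 836) (nat_lit 0) (XT.lf (nat_lit 0) (nat_lit 13119586590) (nat_lit 836) (nat_lit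 8966896244) (nat_lit 912) (nat_lit 6127104274) (nat_lit 340) (nat_lit 5) (nat_lit 351) (nat_lit 5) (nat_lit 352) (nat_lit 5) (nat_lit 491) (nat_lit 462) (nat_lit 187)) (XT.nd (nat_lit 78) (nat_lit 836) (nat_lit 0) (XT.lf (nat_lit 0) (nat_lit 24591023534) (nat_lit 912) (nat_lit 1380546917) (nat_lit 76) (nat_lit 2558501263) (nat_lit 340) (nat_lit 5) (nat_lit 352) (nat_lit 5) (nat_lit 341) (nat_lit 5) (nat_lit 492) (nat_lit 462) (nat_lit 186)) (XT.lf (nat_lit 0) (nat_lit 12712462869) (nat_lit 836) (nat_lit 14572865164) (nat_lit 912) (nat_lit 1564766172) (nat_lit 329) (nat_lit 5) (nat_lit 340) (nat_lit 5) (nat_lit 341) (nat_lit 5) (nat_lit 493) (nat_lit 462) (nat_lit 185)))) (XT.nd (nat_lit 156) (nat_lit 836) (nat_lit 0) (XT.nd (nat_lit 78) (nat_lit 836) (nat_lit 0) (XT.lf (nat_lit 0) (nat_lit 852853663) (nat_lit 912) (nat_lit 2077984361) (nat_lit 76) (nat_lit 26245427585) (nat_lit 328) (nat_lit 5) (nat_lit 340)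 (nat_lit 5) (nat_lit 329) (nat_lit 5) (nat_lit 494) (nat_lit 462) (nat_lit 184)) (XT.lf (nat_lit 0) (nat_lit 3434972519) (nat_lit 912) (nat_lit 17152598374) (nat_lit 76) (nat_lit 8918442269) (nat_lit 317) (nat_lit 5) (nat_lit 329) (nat_lit 5) (nat_lit 318) (nat_lit 5) (nat_lit 495) (nat_lit 462) (nat_lit 183))) (XT.nd (nat_lit 78) (nat_lit 836) (nat_lit 0) (XT.lf (nat_lit 0) (nat_lit 6100020894) (nat_lit 912) (nat_lit 2762034164) (nat_lit 76) (nat_lit 20979676392) (nat_lit 317) (nat_lit 5) (nat_lit 329) (nat_lit 5) (nat_lit 318) (nat_lit 5) (nat_lit 496) (nat_lit 462) (nat_lit 182)) (XT.lf (nat_lit 0) (nat_lit 8915270914) (nat_lit 912) (nat_lit 18130622287) (nat_lit 76) (nat_lit 3136334385) (nat_lit 306) (nat_lit 5) (nat_lit 318) (nat_lit 5) (nat_lit 307) (nat_lit 5) (nat_lit 497) (nat_lit 462) (nat_lit 181))))))))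
noncomputable def xc247 : XT := (XT.nd (nat_lit 58266) (nat_lit 0) (nat_lit 684) (XT.nd (nat_lit 57174) (nat_lit 0) (nat_lit 6612) (XT.nd (nat_lit 56628) (nat_lit 0) (nat_lit 7828) (XT.nd (nat_lit 234) (nat_lit 1444) (nat_lit 0) (XT.nd (nat_lit 78) (nat_lit 760) (nat_lit 0) (XT.lf (nat_lit 0) (nat_lit 11862084676) (nat_lit 912) (nat_lit 3391072138) (nat_lit 76) (nat_lit 15274873125) (nat_lit 306) (nat_lit 5) (nat_lit 318) (nat_lit 5) (nat_lit 307) (nat_lit 5) (nat_lit 498) (nat_lit 462) (nat_lit 180)) (XT.nd (nat_lit 78) (nat_lit 0) (nat_lit 0) (XT.lf (nat_lit 0) (nat_lit 11795960463) (nat_lit 760) (nat_lit 3146414571) (nat_lit 836) (nat_lit 15936883936) (nat_lit 296) (nat_lit 5) (nat_lit 306) (nat_lit 5) (nat_lit 307) (nat_lit 5) (nat_lit 499) (nat_lit 462) (nat_lit 179)) (XT.lf (nat_lit 0) (nat_lit 18164906651) (nat_lit 836) (nat_lit 3966299428) (nat_lit 76) (nat_lit 9104695204) (nat_lit 296) (nat_lit 5) (nat_lit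 307) (nat_lit 5) (nat_lit 297) (nat_lit 5) (nat_lit 500) (nat_lit 462) (nat_lit 178)))) (XT.nd (nat_lit 156) (nat_lit 684) (nat_lit 0) (XT.nd (nat_lit 78) (nat_lit 0) (nat_lit 0) (XT.lf (nat_lit 0) (nat_lit 11582100483) (nat_lit 760) (nat_lit 9963844260) (nat_lit 836) (nat_lit 10051851967) (nat_lit 286) (nat_lit 5) (nat_lit 296) (nat_lit 5) (nat_lit 297) (nat_lit 5) (nat_lit 501) (nat_lit 462) (nat_lit 177)) (XT.lf (nat_lit 0) (nat_lit 25035328139) (nat_lit 836) (nat_lit 4489258355) (nat_lit 76) (nat_lit 2441530416) (nat_lit 286) (nat_lit 5) (nat_lit 297) (nat_lit 5) (nat_lit 287) (nat_lit 5) (nat_lit 502) (nat_lit 462) (nat_lit 176))) (XT.nd (nat_lit 78) (nat_lit 0) (nat_lit 0) (XT.lf (nat_lit 0) (nat_lit 11429633740) (nat_lit 684) (nat_lit 17303143919) (nat_lit 760) (nat_lit 3606261614) (nat_lit 277) (nat_lit 5) (nat_lit 286) (nat_lit 5) (nat_lit 287) (nat_lit 5) (nat_lit 503) (nat_lit 462) (nat_lit 175)) (XT.lf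 (nat_lit 0) (nat_lit 27725779341) (nat_lit 684) (nat_lit 4806630817) (nat_lit 760) (nat_lit 186446549) (nat_lit 277) (nat_lit 5) (nat_lit 286) (nat_lit 5) (nat_lit 287) (nat_lit 5) (nat_lit 504) (nat_lit 462) (nat_lit 174))))) (XT.nd (nat_lit 234) (nat_lit 0) (nat_lit 76) (XT.nd (nat_lit 78) (nat_lit 0) (nat_lit 0) (XT.lf (nat_lit 0) (nat_lit 5717201153) (nat_lit 1748) (nat_lit 2454830446) (nat_lit 1748) (nat_lit 2454830446) (nat_lit 380) (nat_lit 3) (nat_lit 403) (nat_lit 3) (nat_lit 403) (nat_lit 5) (nat_lit 463) (nat_lit 463) (nat_lit 214)) (XT.nd (nat_lit 78) (nat_lit 0) (nat_lit 76) (XT.lf (nat_lit 76) (nat_lit 4811448824) (nat_lit 0) (nat_lit 6908133078) (nat_lit 1748) (nat_lit 9743153021) (nat_lit 381) (nat_lit 5) (nat_lit 380) (nat_lit 3) (nat_lit 403) (nat_lit 5) (nat_lit 464) (nat_lit 463) (nat_lit 213)) (XT.lf (nat_lit 0) (nat_lit 12057604705) (nat_lit 1672) (nat_lit 6901571810) (nat_lit 1748) (nat_lit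 2715809540) (nat_lit 381) (nat_lit 5) (nat_lit 403) (nat_lit 5) (nat_lit 404) (nat_lit 5) (nat_lit 465) (nat_lit 463) (nat_lit 212)))) (XT.nd (nat_lit 156) (nat_lit 0) (nat_lit 76) (XT.nd (nat_lit 78) (nat_lit 0) (nat_lit 76) (XT.lf (nat_lit 76) (nat_lit 3035252638) (nat_lit 0) (nat_lit 9429000834) (nat_lit 1748) (nat_lit 9425994249) (nat_lit 382) (nat_lit 5) (nat_lit 381) (nat_lit 5) (nat_lit 404) (nat_lit 5) (nat_lit 466) (nat_lit 463) (nat_lit 211)) (XT.lf (nat_lit 0) (nat_lit 12924027212) (nat_lit 1672) (nat_lit 8848737115) (nat_lit 1748) (nat_lit 336153218) (nat_lit 382) (nat_lit 5) (nat_lit 404) (nat_lit 5) (nat_lit 405) (nat_lit 5) (nat_lit 467) (nat_lit 463) (nat_lit 210))) (XT.nd (nat_lit 78) (nat_lit 0) (nat_lit 0) (XT.lf (nat_lit 76) (nat_lit 1310414274) (nat_lit 0) (nat_lit 12150080698) (nat_lit 1748) (nat_lit 8870118536) (nat_lit 383) (nat_lit 5) (nat_lit 382) (nat_lit 5) (nat_lit 405) (nat_lit 5)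 (nat_lit 468) (nat_lit 463) (nat_lit 209)) (XT.lf (nat_lit 76) (nat_lit 11790734300) (nat_lit 0) (nat_lit 2272939200) (nat_lit 1748) (nat_lit 8491952918) (nat_lit 383) (nat_lit 5) (nat_lit 382) (nat_lit 5) (nat_lit 405) (nat_lit 5) (nat_lit 469) (nat_lit 463) (nat_lit 208)))))) (XT.nd (nat_lit 546) (nat_lit 1444) (nat_lit 0) (XT.nd (nat_lit 234) (nat_lit 0) (nat_lit 76) (XT.nd (nat_lit 78) (nat_lit 0) (nat_lit 0) (XT.lf (nat_lit 0) (nat_lit 14726247213) (nat_lit 1672) (nat_lit 357134246) (nat_lit 1748) (nat_lit 7700814103) (nat_lit 383) (nat_lit 5) (nat_lit 405) (nat_lit 5) (nat_lit 406) (nat_lit 5) (nat_lit 470) (nat_lit 463) (nat_lit 207)) (XT.nd (nat_lit 78) (nat_lit 0) (nat_lit 76) (XT.lf (nat_lit 76) (nat_lit 10377871822) (nat_lit 0) (nat_lit 5103375838) (nat_lit 1748) (nat_lit 7534507478) (nat_lit 384) (nat_lit 5) (nat_lit 383) (nat_lit 5) (nat_lit 406) (nat_lit 5) (nat_lit 471) (nat_lit 463) (nat_lit 206))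 (XT.lf (nat_lit 0) (nat_lit 16283520830) (nat_lit 1672) (nat_lit 1954476957) (nat_lit 1748) (nat_lit 5013307170) (nat_lit 384) (nat_lit 5) (nat_lit 406) (nat_lit 5) (nat_lit 407) (nat_lit 5) (nat_lit 472) (nat_lit 463) (nat_lit 205)))) (XT.nd (nat_lit 156) (nat_lit 0) (nat_lit 76) (XT.nd (nat_lit 78) (nat_lit 0) (nat_lit 76) (XT.lf (nat_lit 76) (nat_lit 9025183001) (nat_lit 0) (nat_lit 8165915863) (nat_lit 1748) (nat_lit 6298684175) (nat_lit 385) (nat_lit 5) (nat_lit 384) (nat_lit 5) (nat_lit 407) (nat_lit 5) (nat_lit 473) (nat_lit 463) (nat_lit 204)) (XT.lf (nat_lit 0) (nat_lit 18140635531) (nat_lit 1672) (nat_lit 3497652171) (nat_lit 1748) (nat_lit 2094269247) (nat_lit 385) (nat_lit 5) (nat_lit 407) (nat_lit 5) (nat_lit 408) (nat_lit 5) (nat_lit 474) (nat_lit 463) (nat_lit 203))) (XT.nd (nat_lit 78) (nat_lit 0) (nat_lit 0) (XT.lf (nat_lit 76) (nat_lit 7733985842) (nat_lit 0) (nat_lit 11476451202) (nat_lit 1748)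 (nat_lit 4767726172) (nat_lit 386) (nat_lit 5) (nat_lit 385) (nat_lit 5) (nat_lit 408) (nat_lit 5) (nat_lit 475) (nat_lit 463) (nat_lit 202)) (XT.lf (nat_lit 76) (nat_lit 19235678875) (nat_lit 0) (nat_lit 1086454116) (nat_lit 1748) (nat_lit 3906140964) (nat_lit 386) (nat_lit 5) (nat_lit 385) (nat_lit 5) (nat_lit 408) (nat_lit 5) (nat_lit 476) (nat_lit 463) (nat_lit 201))))) (XT.nd (nat_lit 234) (nat_lit 1672) (nat_lit 0) (XT.nd (nat_lit 78) (nat_lit 0) (nat_lit 0) (XT.lf (nat_lit 76) (nat_lit 6505569479) (nat_lit 0) (nat_lit 15051577659) (nat_lit 1748) (nat_lit 2924220354) (nat_lit 387) (nat_lit 5) (nat_lit 386) (nat_lit 5) (nat_lit 409) (nat_lit 5) (nat_lit 477) (nat_lit 463) (nat_lit 200)) (XT.nd (nat_lit 78) (nat_lit 0) (nat_lit 76) (XT.lf (nat_lit 76) (nat_lit 18292078714) (nat_lit 0) (nat_lit 4562569392) (nat_lit 1748) (nat_lit 1884121286) (nat_lit 387) (nat_lit 5) (nat_lit 386) (nat_lit 5) (nat_lit 409)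 (nat_lit 5) (nat_lit 478) (nat_lit 463) (nat_lit 199)) (XT.lf (nat_lit 76) (nat_lit 5341180541) (nat_lit 0) (nat_lit 18908634953) (nat_lit 1748) (nat_lit 750071689) (nat_lit 388) (nat_lit 5) (nat_lit 387) (nat_lit 5) (nat_lit 410) (nat_lit 5) (nat_lit 479) (nat_lit 463) (nat_lit 198)))) (XT.nd (nat_lit 156) (nat_lit 0) (nat_lit 76) (XT.nd (nat_lit 78) (nat_lit 0) (nat_lit 76) (XT.lf (nat_lit 0) (nat_lit 472307352) (nat_lit 1748) (nat_lit 7848362939) (nat_lit 1824) (nat_lit 16944086692) (nat_lit 364) (nat_lit 5) (nat_lit 387) (nat_lit 5) (nat_lit 388) (nat_lit 5) (nat_lit 480) (nat_lit 463) (nat_lit 197)) (XT.lf (nat_lit 0) (nat_lit 1750262935) (nat_lit 1748) (nat_lit 21303740365) (nat_lit 1824) (nat_lit 2480000326) (nat_lit 365) (nat_lit 5) (nat_lit 388) (nat_lit 5) (nat_lit 389) (nat_lit 5) (nat_lit 481) (nat_lit 463) (nat_lit 196))) (XT.nd (nat_lit 78) (nat_lit 0) (nat_lit 0) (XT.lf (nat_lit 0) (nat_lit 3159215275)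 (nat_lit 1748) (nat_lit 9208246589) (nat_lit 1824) (nat_lit 13439066600) (nat_lit 365) (nat_lit 5) (nat_lit 388) (nat_lit 5) (nat_lit 389) (nat_lit 5) (nat_lit 482) (nat_lit 463) (nat_lit 195)) (XT.lf (nat_lit 76) (nat_lit 3168694699) (nat_lit 0) (nat_lit 1445596246) (nat_lit 1824) (nat_lit 21469855944) (nat_lit 366) (nat_lit 5) (nat_lit 365) (nat_lit 5) (nat_lit 389) (nat_lit 5) (nat_lit 483) (nat_lit 463) (nat_lit 194))))))) (XT.nd (nat_lit 1092) (nat_lit 2356) (nat_lit 0) (XT.nd (nat_lit 546) (nat_lit 2584) (nat_lit 0) (XT.nd (nat_lit 234) (nat_lit 1140) (nat_lit 0) (XT.nd (nat_lit 78) (nat_lit 0) (nat_lit 0) (XT.lf (nat_lit 0) (nat_lit 6221027317) (nat_lit 1748) (nat_lit 10513505109) (nat_lit 1824) (nat_lit 9630336008) (nat_lit 366) (nat_lit 5) (nat_lit 389) (nat_lit 5) (nat_lit 390) (nat_lit 5) (nat_lit 484) (nat_lit 463) (nat_lit 193)) (XT.nd (nat_lit 78) (nat_lit 0) (nat_lit 76) (XT.lf (nat_lit 76) (nat_lit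 2153121887) (nat_lit 0) (nat_lit 5727793550) (nat_lit 1824) (nat_lit 18769870532) (nat_lit 367) (nat_lit 5) (nat_lit 366) (nat_lit 5) (nat_lit 390) (nat_lit 5) (nat_lit 485) (nat_lit 463) (nat_lit 192)) (XT.lf (nat_lit 0) (nat_lit 9678227254) (nat_lit 1748) (nat_lit 11763652805) (nat_lit 1824) (nat_lit 5498459137) (nat_lit 367) (nat_lit 5) (nat_lit 390) (nat_lit 5) (nat_lit 391) (nat_lit 5) (nat_lit 486) (nat_lit 463) (nat_lit 191)))) (XT.nd (nat_lit 156) (nat_lit 1216) (nat_lit 0) (XT.nd (nat_lit 78) (nat_lit 0) (nat_lit 76) (XT.lf (nat_lit 76) (nat_lit 1200830075) (nat_lit 0) (nat_lit 10353937050) (nat_lit 1824) (nat_lit 15680052551) (nat_lit 368) (nat_lit 5) (nat_lit 367) (nat_lit 5) (nat_lit 391) (nat_lit 5) (nat_lit 487) (nat_lit 463) (nat_lit 190)) (XT.lf (nat_lit 0) (nat_lit 13552096682) (nat_lit 1748) (nat_lit 12958341808) (nat_lit 76) (nat_lit 1023087888) (nat_lit 368) (nat_lit 5) (nat_lit 391) (nat_lit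 5) (nat_lit 369) (nat_lit 5) (nat_lit 488) (nat_lit 463) (nat_lit 189))) (XT.nd (nat_lit 78) (nat_lit 0) (nat_lit 0) (XT.lf (nat_lit 0) (nat_lit 312321836) (nat_lit 1292) (nat_lit 15345285506) (nat_lit 1368) (nat_lit 12179236935) (nat_lit 351) (nat_lit 5) (nat_lit 368) (nat_lit 5) (nat_lit 369) (nat_lit 5) (nat_lit 489) (nat_lit 463) (nat_lit 188)) (XT.lf (nat_lit 0) (nat_lit 14022041661) (nat_lit 1292) (nat_lit 3867814706) (nat_lit 1368) (nat_lit 10254681323) (nat_lit 351) (nat_lit 5) (nat_lit 368) (nat_lit 5) (nat_lit 369) (nat_lit 5) (nat_lit 490) (nat_lit 463) (nat_lit 187))))) (XT.nd (nat_lit 234) (nat_lit 1748) (nat_lit 0) (XT.nd (nat_lit 78) (nat_lit 836) (nat_lit 0) (XT.lf (nat_lit 0) (nat_lit 20215366249) (nat_lit 1368) (nat_lit 505347192) (nat_lit 76) (nat_lit 7736700900) (nat_lit 351) (nat_lit 5) (nat_lit 369) (nat_lit 5) (nat_lit 352) (nat_lit 5) (nat_lit 491) (nat_lit 463) (nat_lit 186)) (XT.nd (nat_lit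 78) (nat_lit 0) (nat_lit 0) (XT.lf (nat_lit 0) (nat_lit 13534050302) (nat_lit 836) (nat_lit 9164586012) (nat_lit 912) (nat_lit 6075688863) (nat_lit 340) (nat_lit 5) (nat_lit 351) (nat_lit 5) (nat_lit 352) (nat_lit 5) (nat_lit 492) (nat_lit 463) (nat_lit 185)) (XT.lf (nat_lit 0) (nat_lit 25249809367) (nat_lit 912) (nat_lit 1255486476) (nat_lit 76) (nat_lit 2591915254) (nat_lit 340) (nat_lit 5) (nat_lit 352) (nat_lit 5) (nat_lit 341) (nat_lit 5) (nat_lit 493) (nat_lit 463) (nat_lit 184)))) (XT.nd (nat_lit 156) (nat_lit 836) (nat_lit 0) (XT.nd (nat_lit 78) (nat_lit 76) (nat_lit 0) (XT.lf (nat_lit 0) (nat_lit 13118379088) (nat_lit 836) (nat_lit 14877331759) (nat_lit 912) (nat_lit 1427971379) (nat_lit 329) (nat_lit 5) (nat_lit 340) (nat_lit 5) (nat_lit 341) (nat_lit 5) (nat_lit 494) (nat_lit 463) (nat_lit 183)) (XT.lf (nat_lit 0) (nat_lit 1032543662) (nat_lit 912) (nat_lit 1968573978) (nat_lit 76) (nat_lit 26755304959)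 (nat_lit 328) (nat_lit 5) (nat_lit 340) (nat_lit 5) (nat_lit 329) (nat_lit 5) (nat_lit 495) (nat_lit 463) (nat_lit 182))) (XT.nd (nat_lit 78) (nat_lit 0) (nat_lit 0) (XT.lf (nat_lit 0) (nat_lit 3664021974) (nat_lit 912) (nat_lit 17342283953) (nat_lit 76) (nat_lit 9086507102) (nat_lit 317) (nat_lit 5) (nat_lit 329) (nat_lit 5) (nat_lit 318) (nat_lit 5) (nat_lit 496) (nat_lit 463) (nat_lit 181)) (XT.lf (nat_lit 0) (nat_lit 6379227198) (nat_lit 912) (nat_lit 2666915644) (nat_lit 76) (nat_lit 21389167946) (nat_lit 317) (nat_lit 5) (nat_lit 329) (nat_lit 5) (nat_lit 318) (nat_lit 5) (nat_lit 497) (nat_lit 463) (nat_lit 180)))))) (XT.nd (nat_lit 56784) (nat_lit 0) (nat_lit 7144) (XT.nd (nat_lit 234) (nat_lit 760) (nat_lit 0) (XT.nd (nat_lit 78) (nat_lit 760) (nat_lit 0) (XT.lf (nat_lit 0) (nat_lit 9248632401) (nat_lit 912) (nat_lit 18340616718) (nat_lit 76) (nat_lit 3193412904) (nat_lit 306) (nat_lit 5) (nat_lit 318)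 (nat_lit 5) (nat_lit 307) (nat_lit 5) (nat_lit 498) (nat_lit 463) (nat_lit 179)) (XT.nd (nat_lit 78) (nat_lit 760) (nat_lit 0) (XT.lf (nat_lit 0) (nat_lit 12251342123) (nat_lit 912) (nat_lit 3309268076) (nat_lit 76) (nat_lit 15574833167) (nat_lit 306) (nat_lit 5) (nat_lit 318) (nat_lit 5) (nat_lit 307) (nat_lit 5) (nat_lit 499) (nat_lit 463) (nat_lit 178)) (XT.lf (nat_lit 0) (nat_lit 12180520798) (nat_lit 760) (nat_lit 3210701866) (nat_lit 836) (nat_lit 16102516723) (nat_lit 296) (nat_lit 5) (nat_lit 306) (nat_lit 5) (nat_lit 307) (nat_lit 5) (nat_lit 500) (nat_lit 463) (nat_lit 177)))) (XT.nd (nat_lit 156) (nat_lit 0) (nat_lit 0) (XT.nd (nat_lit 78) (nat_lit 760) (nat_lit 0) (XT.lf (nat_lit 0) (nat_lit 18675255084) (nat_lit 836) (nat_lit 3896846287) (nat_lit 76) (nat_lit 9285474226) (nat_lit 296) (nat_lit 5) (nat_lit 307) (nat_lit 5) (nat_lit 297) (nat_lit 5) (nat_lit 501) (nat_lit 463) (nat_lit 176)) (XT.lf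 (nat_lit 0) (nat_lit 11961542813) (nat_lit 760) (nat_lit 10160447403) (nat_lit 836) (nat_lit 10104759204) (nat_lit 286) (nat_lit 5) (nat_lit 296) (nat_lit 5) (nat_lit 297) (nat_lit 5) (nat_lit 502) (nat_lit 463) (nat_lit 175))) (XT.nd (nat_lit 56316) (nat_lit 0) (nat_lit 7144) (XT.lf (nat_lit 0) (nat_lit 25678332680) (nat_lit 836) (nat_lit 4431213930) (nat_lit 76) (nat_lit 2492947961) (nat_lit 286) (nat_lit 5) (nat_lit 297) (nat_lit 5) (nat_lit 287) (nat_lit 5) (nat_lit 503) (nat_lit 463) (nat_lit 174)) (XT.lf (nat_lit 0) (nat_lit 5970235278) (nat_lit 1748) (nat_lit 2433140610) (nat_lit 1748) (nat_lit 2433140610) (nat_lit 380) (nat_lit 3) (nat_lit 403) (nat_lit 3) (nat_lit 403) (nat_lit 5) (nat_lit 464) (nat_lit 464) (nat_lit 212))))) (XT.nd (nat_lit 312) (nat_lit 0) (nat_lit 152) (XT.nd (nat_lit 156) (nat_lit 0) (nat_lit 76) (XT.nd (nat_lit 78) (nat_lit 0) (nat_lit 76) (XT.lf (nat_lit 76) (nat_lit 5048319290)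 (nat_lit 0) (nat_lit 7178508763) (nat_lit 1748) (nat_lit 9659490778) (nat_lit 381) (nat_lit 5) (nat_lit 380) (nat_lit 3) (nat_lit 403) (nat_lit 5) (nat_lit 465) (nat_lit 464) (nat_lit 211)) (XT.lf (nat_lit 0) (nat_lit 12565419641) (nat_lit 1672) (nat_lit 6895318252) (nat_lit 1748) (nat_lit 2642205116) (nat_lit 381) (nat_lit 5) (nat_lit 403) (nat_lit 5) (nat_lit 404) (nat_lit 5) (nat_lit 466) (nat_lit 464) (nat_lit 210))) (XT.nd (nat_lit 78) (nat_lit 0) (nat_lit 76) (XT.lf (nat_lit 76) (nat_lit 3239293442) (nat_lit 0) (nat_lit 9736609890) (nat_lit 1748) (nat_lit 9346696646) (nat_lit 382) (nat_lit 5) (nat_lit 381) (nat_lit 5) (nat_lit 404) (nat_lit 5) (nat_lit 467) (nat_lit 464) (nat_lit 209)) (XT.lf (nat_lit 0) (nat_lit 13438970476) (nat_lit 1672) (nat_lit 8879083168) (nat_lit 1748) (nat_lit 227711624) (nat_lit 382) (nat_lit 5) (nat_lit 404) (nat_lit 5) (nat_lit 405) (nat_lit 5) (nat_lit 468) (nat_lit 464) (nat_lit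 208)))) (XT.nd (nat_lit 156) (nat_lit 0) (nat_lit 76) (XT.nd (nat_lit 78) (nat_lit 0) (nat_lit 0) (XT.lf (nat_lit 76) (nat_lit 1482286587) (nat_lit 0) (nat_lit 12499798071) (nat_lit 1748) (nat_lit 8789896099) (nat_lit 383) (nat_lit 5) (nat_lit 382) (nat_lit 5) (nat_lit 405) (nat_lit 5) (nat_lit 469) (nat_lit 464) (nat_lit 207)) (XT.lf (nat_lit 76) (nat_lit 12169356856) (nat_lit 0) (nat_lit 2423021278) (nat_lit 1748) (nat_lit 8409218636) (nat_lit 383) (nat_lit 5) (nat_lit 382) (nat_lit 5) (nat_lit 405) (nat_lit 5) (nat_lit 470) (nat_lit 464) (nat_lit 206))) (XT.nd (nat_lit 78) (nat_lit 0) (nat_lit 0) (XT.lf (nat_lit 0) (nat_lit 15262685765) (nat_lit 1672) (nat_lit 218561900) (nat_lit 1748) (nat_lit 7753603777) (nat_lit 383) (nat_lit 5) (nat_lit 405) (nat_lit 5) (nat_lit 406) (nat_lit 5) (nat_lit 471) (nat_lit 464) (nat_lit 205)) (XT.lf (nat_lit 76) (nat_lit 10730185637) (nat_lit 0) (nat_lit 5298797034) (nat_lit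 1748) (nat_lit 7442139330) (nat_lit 384) (nat_lit 5) (nat_lit 383) (nat_lit 5) (nat_lit 406) (nat_lit 5) (nat_lit 472) (nat_lit 464) (nat_lit 204))))))))
noncomputable def xc248 : XT := (XT.nd (nat_lit 2184) (nat_lit 1520) (nat_lit 0) (XT.nd (nat_lit 1092) (nat_lit 4408) (nat_lit 0) (XT.nd (nat_lit 546) (nat_lit 1520) (nat_lit 0) (XT.nd (nat_lit 234) (nat_lit 0) (nat_lit 76) (XT.nd (nat_lit 78) (nat_lit 0) (nat_lit 0) (XT.lf (nat_lit 0) (nat_lit 16842038250) (nat_lit 1672) (nat_lit 1846203033) (nat_lit 1748) (nat_lit 5023250442) (nat_lit 384) (nat_lit 5) (nat_lit 406) (nat_lit 5) (nat_lit 407) (nat_lit 5) (nat_lit 473) (nat_lit 464) (nat_lit 203)) (XT.nd (nat_lit 78) (nat_lit 0) (nat_lit 76) (XT.lf (nat_lit 76) (nat_lit 9352080628) (nat_lit 0) (nat_lit 8412072077) (nat_lit 1748) (nat_lit 6190662544) (nat_lit 385) (nat_lit 5) (nat_lit 384) (nat_lit 5) (nat_lit 407) (nat_lit 5) (nat_lit 474) (nat_lit 464) (nat_lit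 202)) (XT.lf (nat_lit 0) (nat_lit 18727658069) (nat_lit 1672) (nat_lit 3418884375) (nat_lit 1748) (nat_lit 2056006140) (nat_lit 385) (nat_lit 5) (nat_lit 407) (nat_lit 5) (nat_lit 408) (nat_lit 5) (nat_lit 475) (nat_lit 464) (nat_lit 201)))) (XT.nd (nat_lit 156) (nat_lit 0) (nat_lit 76) (XT.nd (nat_lit 78) (nat_lit 0) (nat_lit 0) (XT.lf (nat_lit 76) (nat_lit 8036407973) (nat_lit 0) (nat_lit 11779010611) (nat_lit 1748) (nat_lit 4637720570) (nat_lit 386) (nat_lit 5) (nat_lit 385) (nat_lit 5) (nat_lit 408) (nat_lit 5) (nat_lit 476) (nat_lit 464) (nat_lit 200)) (XT.lf (nat_lit 76) (nat_lit 19765237956) (nat_lit 0) (nat_lit 1179781615) (nat_lit 1748) (nat_lit 3763322484) (nat_lit 386) (nat_lit 5) (nat_lit 385) (nat_lit 5) (nat_lit 408) (nat_lit 5) (nat_lit 477) (nat_lit 464) (nat_lit 199))) (XT.nd (nat_lit 78) (nat_lit 0) (nat_lit 0) (XT.lf (nat_lit 76) (nat_lit 6784503038) (nat_lit 0) (nat_lit 15416497467) (nat_lit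 1748) (nat_lit 2765574931) (nat_lit 387) (nat_lit 5) (nat_lit 386) (nat_lit 5) (nat_lit 409) (nat_lit 5) (nat_lit 478) (nat_lit 464) (nat_lit 198)) (XT.lf (nat_lit 76) (nat_lit 18803824376) (nat_lit 0) (nat_lit 4716456324) (nat_lit 1748) (nat_lit 1708931330) (nat_lit 387) (nat_lit 5) (nat_lit 386) (nat_lit 5) (nat_lit 409) (nat_lit 5) (nat_lit 479) (nat_lit 464) (nat_lit 197))))) (XT.nd (nat_lit 234) (nat_lit 0) (nat_lit 76) (XT.nd (nat_lit 78) (nat_lit 1748) (nat_lit 0) (XT.lf (nat_lit 76) (nat_lit 5597656585) (nat_lit 0) (nat_lit 19342178784) (nat_lit 1748) (nat_lit 555790305) (nat_lit 388) (nat_lit 5) (nat_lit 387) (nat_lit 5) (nat_lit 410) (nat_lit 5) (nat_lit 480) (nat_lit 464) (nat_lit 196)) (XT.nd (nat_lit 78) (nat_lit 0) (nat_lit 76) (XT.lf (nat_lit 0) (nat_lit 684241770) (nat_lit 1748) (nat_lit 7855768547) (nat_lit 1824) (nat_lit 17225839425) (nat_lit 364) (nat_lit 5) (nat_lit 387) (nat_lit 5) (nat_lit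 388) (nat_lit 5) (nat_lit 481) (nat_lit 464) (nat_lit 195)) (XT.lf (nat_lit 0) (nat_lit 1984420263) (nat_lit 1748) (nat_lit 21576767696) (nat_lit 1824) (nat_lit 2479363075) (nat_lit 365) (nat_lit 5) (nat_lit 388) (nat_lit 5) (nat_lit 389) (nat_lit 5) (nat_lit 482) (nat_lit 464) (nat_lit 194)))) (XT.nd (nat_lit 156) (nat_lit 0) (nat_lit 76) (XT.nd (nat_lit 78) (nat_lit 0) (nat_lit 0) (XT.lf (nat_lit 0) (nat_lit 3417646708) (nat_lit 1748) (nat_lit 9242364976) (nat_lit 1824) (nat_lit 13658595718) (nat_lit 365) (nat_lit 5) (nat_lit 388) (nat_lit 5) (nat_lit 389) (nat_lit 5) (nat_lit 483) (nat_lit 464) (nat_lit 193)) (XT.lf (nat_lit 76) (nat_lit 3381127990) (nat_lit 0) (nat_lit 1517835318) (nat_lit 1824) (nat_lit 21702874974) (nat_lit 366) (nat_lit 5) (nat_lit 365) (nat_lit 5) (nat_lit 389) (nat_lit 5) (nat_lit 484) (nat_lit 464) (nat_lit 192))) (XT.nd (nat_lit 78) (nat_lit 0) (nat_lit 0) (XT.lf (nat_lit 0) (nat_lit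 6533786330) (nat_lit 1748) (nat_lit 10573449476) (nat_lit 1824) (nat_lit 9781022234) (nat_lit 366) (nat_lit 5) (nat_lit 389) (nat_lit 5) (nat_lit 390) (nat_lit 5) (nat_lit 485) (nat_lit 464) (nat_lit 191)) (XT.lf (nat_lit 76) (nat_lit 2345521075) (nat_lit 0) (nat_lit 5878627819) (nat_lit 1824) (nat_lit 18955802262) (nat_lit 367) (nat_lit 5) (nat_lit 366) (nat_lit 5) (nat_lit 390) (nat_lit 5) (nat_lit 486) (nat_lit 464) (nat_lit 190)))))) (XT.nd (nat_lit 546) (nat_lit 2584) (nat_lit 0) (XT.nd (nat_lit 234) (nat_lit 2052) (nat_lit 0) (XT.nd (nat_lit 78) (nat_lit 0) (nat_lit 0) (XT.lf (nat_lit 0) (nat_lit 10053536510) (nat_lit 1748) (nat_lit 11848511326) (nat_lit 1824) (nat_lit 5573327731) (nat_lit 367) (nat_lit 5) (nat_lit 390) (nat_lit 5) (nat_lit 391) (nat_lit 5) (nat_lit 487) (nat_lit 464) (nat_lit 189)) (XT.nd (nat_lit 78) (nat_lit 0) (nat_lit 76) (XT.lf (nat_lit 76) (nat_lit 1374271642) (nat_lit 0) (nat_lit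 10590742080) (nat_lit 1824) (nat_lit 15810786461) (nat_lit 368) (nat_lit 5) (nat_lit 367) (nat_lit 5) (nat_lit 391) (nat_lit 5) (nat_lit 488) (nat_lit 464) (nat_lit 188)) (XT.lf (nat_lit 0) (nat_lit 13998587883) (nat_lit 1748) (nat_lit 13067181335) (nat_lit 76) (nat_lit 1014788446) (nat_lit 368) (nat_lit 5) (nat_lit 391) (nat_lit 5) (nat_lit 369) (nat_lit 5) (nat_lit 489) (nat_lit 464) (nat_lit 187)))) (XT.nd (nat_lit 156) (nat_lit 836) (nat_lit 0) (XT.nd (nat_lit 78) (nat_lit 0) (nat_lit 0) (XT.lf (nat_lit 0) (nat_lit 467906587) (nat_lit 1292) (nat_lit 15675831591) (nat_lit 1368) (nat_lit 12246255709) (nat_lit 351) (nat_lit 5) (nat_lit 368) (nat_lit 5) (nat_lit 369) (nat_lit 5) (nat_lit 490) (nat_lit 464) (nat_lit 186)) (XT.lf (nat_lit 0) (nat_lit 14448892606) (nat_lit 1292) (nat_lit 3968347838) (nat_lit 1368) (nat_lit 10286671063) (nat_lit 351) (nat_lit 5) (nat_lit 368) (nat_lit 5) (nat_lit 369) (nat_lit 5)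 (nat_lit 491) (nat_lit 464) (nat_lit 185))) (XT.nd (nat_lit 78) (nat_lit 836) (nat_lit 0) (XT.lf (nat_lit 0) (nat_lit 20785787760) (nat_lit 1368) (nat_lit 368319304) (nat_lit 76) (nat_lit 7869010535) (nat_lit 351) (nat_lit 5) (nat_lit 369) (nat_lit 5) (nat_lit 352) (nat_lit 5) (nat_lit 492) (nat_lit 464) (nat_lit 184)) (XT.lf (nat_lit 0) (nat_lit 13950898147) (nat_lit 836) (nat_lit 9365516950) (nat_lit 912) (nat_lit 6030000124) (nat_lit 340) (nat_lit 5) (nat_lit 351) (nat_lit 5) (nat_lit 352) (nat_lit 5) (nat_lit 493) (nat_lit 464) (nat_lit 183))))) (XT.nd (nat_lit 234) (nat_lit 1672) (nat_lit 0) (XT.nd (nat_lit 78) (nat_lit 912) (nat_lit 0) (XT.lf (nat_lit 0) (nat_lit 25915287448) (nat_lit 912) (nat_lit 1133853242) (nat_lit 76) (nat_lit 2626687014) (nat_lit 340) (nat_lit 5) (nat_lit 352) (nat_lit 5) (nat_lit 341) (nat_lit 5) (nat_lit 494) (nat_lit 464) (nat_lit 182)) (XT.nd (nat_lit 78) (nat_lit 76) (nat_lit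 0) (XT.lf (nat_lit 0) (nat_lit 13526524219) (nat_lit 836) (nat_lit 15187382520) (nat_lit 912) (nat_lit 1294967834) (nat_lit 329) (nat_lit 5) (nat_lit 340) (nat_lit 5) (nat_lit 341) (nat_lit 5) (nat_lit 495) (nat_lit 464) (nat_lit 181)) (XT.lf (nat_lit 0) (nat_lit 1209512227) (nat_lit 912) (nat_lit 1862837740) (nat_lit 76) (nat_lit 27275963559) (nat_lit 328) (nat_lit 5) (nat_lit 340) (nat_lit 5) (nat_lit 329) (nat_lit 5) (nat_lit 496) (nat_lit 464) (nat_lit 180)))) (XT.nd (nat_lit 156) (nat_lit 836) (nat_lit 0) (XT.nd (nat_lit 78) (nat_lit 0) (nat_lit 0) (XT.lf (nat_lit 0) (nat_lit 3891425832) (nat_lit 912) (nat_lit 17541718649) (nat_lit 76) (nat_lit 9258333348) (nat_lit 317) (nat_lit 5) (nat_lit 329) (nat_lit 5) (nat_lit 318) (nat_lit 5) (nat_lit 497) (nat_lit 464) (nat_lit 179)) (XT.lf (nat_lit 0) (nat_lit 6657913133) (nat_lit 912) (nat_lit 2575733385) (nat_lit 76) (nat_lit 21807241603) (nat_lit 317) (nat_lit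 5) (nat_lit 329) (nat_lit 5) (nat_lit 318) (nat_lit 5) (nat_lit 498) (nat_lit 464) (nat_lit 178))) (XT.nd (nat_lit 78) (nat_lit 0) (nat_lit 0) (XT.lf (nat_lit 0) (nat_lit 9582640102) (nat_lit 912) (nat_lit 18560737382) (nat_lit 76) (nat_lit 3251852320) (nat_lit 306) (nat_lit 5) (nat_lit 318) (nat_lit 5) (nat_lit 307) (nat_lit 5) (nat_lit 499) (nat_lit 464) (nat_lit 177)) (XT.lf (nat_lit 0) (nat_lit 12642481762) (nat_lit 912) (nat_lit 3231638074) (nat_lit 76) (nat_lit 15881007436) (nat_lit 306) (nat_lit 5) (nat_lit 318) (nat_lit 5) (nat_lit 307) (nat_lit 5) (nat_lit 500) (nat_lit 464) (nat_lit 176))))))) (XT.nd (nat_lit 57408) (nat_lit 0) (nat_lit 5928) (XT.nd (nat_lit 56862) (nat_lit 0) (nat_lit 7296) (XT.nd (nat_lit 56550) (nat_lit 0) (nat_lit 7144) (XT.nd (nat_lit 78) (nat_lit 760) (nat_lit 0) (XT.lf (nat_lit 0) (nat_lit 12567000424) (nat_lit 760) (nat_lit 3276222134) (nat_lit 836) (nat_lit 16277407414) (nat_lit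 296) (nat_lit 5) (nat_lit 306) (nat_lit 5) (nat_lit 307) (nat_lit 5) (nat_lit 501) (nat_lit 464) (nat_lit 175)) (XT.nd (nat_lit 78) (nat_lit 760) (nat_lit 0) (XT.lf (nat_lit 0) (nat_lit 19190100343) (nat_lit 836) (nat_lit 3831781357) (nat_lit 76) (nat_lit 9469919887) (nat_lit 296) (nat_lit 5) (nat_lit 307) (nat_lit 5) (nat_lit 297) (nat_lit 5) (nat_lit 502) (nat_lit 464) (nat_lit 174)) (XT.lf (nat_lit 0) (nat_lit 12342834723) (nat_lit 760) (nat_lit 10361086434) (nat_lit 836) (nat_lit 10164476646) (nat_lit 286) (nat_lit 5) (nat_lit 296) (nat_lit 5) (nat_lit 297) (nat_lit 5) (nat_lit 503) (nat_lit 464) (nat_lit 173)))) (XT.nd (nat_lit 156) (nat_lit 0) (nat_lit 76) (XT.nd (nat_lit 78) (nat_lit 0) (nat_lit 0) (XT.lf (nat_lit 0) (nat_lit 6222944580) (nat_lit 1748) (nat_lit 2413765700) (nat_lit 1748) (nat_lit 2413765700) (nat_lit 380) (nat_lit 3) (nat_lit 403) (nat_lit 3) (nat_lit 403) (nat_lit 5) (nat_lit 465) (nat_lit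 465) (nat_lit 210)) (XT.lf (nat_lit 76) (nat_lit 5284465886) (nat_lit 0) (nat_lit 7449157970) (nat_lit 1748) (nat_lit 9584970767) (nat_lit 381) (nat_lit 5) (nat_lit 380) (nat_lit 3) (nat_lit 403) (nat_lit 5) (nat_lit 466) (nat_lit 465) (nat_lit 209))) (XT.nd (nat_lit 78) (nat_lit 0) (nat_lit 0) (XT.lf (nat_lit 0) (nat_lit 13073036033) (nat_lit 1672) (nat_lit 6894542385) (nat_lit 1748) (nat_lit 2572095918) (nat_lit 381) (nat_lit 5) (nat_lit 403) (nat_lit 5) (nat_lit 404) (nat_lit 5) (nat_lit 467) (nat_lit 465) (nat_lit 208)) (XT.lf (nat_lit 76) (nat_lit 3441849160) (nat_lit 0) (nat_lit 10045749084) (nat_lit 1748) (nat_lit 9276212772) (nat_lit 382) (nat_lit 5) (nat_lit 381) (nat_lit 5) (nat_lit 404) (nat_lit 5) (nat_lit 468) (nat_lit 465) (nat_lit 207))))) (XT.nd (nat_lit 234) (nat_lit 0) (nat_lit 76) (XT.nd (nat_lit 78) (nat_lit 0) (nat_lit 0) (XT.lf (nat_lit 0) (nat_lit 13954253846) (nat_lit 1672) (nat_lit 8915729912)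 (nat_lit 1748) (nat_lit 121573182) (nat_lit 382) (nat_lit 5) (nat_lit 404) (nat_lit 5) (nat_lit 405) (nat_lit 5) (nat_lit 469) (nat_lit 465) (nat_lit 206)) (XT.nd (nat_lit 78) (nat_lit 0) (nat_lit 0) (XT.lf (nat_lit 76) (nat_lit 1651940034) (nat_lit 0) (nat_lit 12852365889) (nat_lit 1748) (nat_lit 8718073098) (nat_lit 383) (nat_lit 5) (nat_lit 382) (nat_lit 5) (nat_lit 405) (nat_lit 5) (nat_lit 470) (nat_lit 465) (nat_lit 205)) (XT.lf (nat_lit 76) (nat_lit 12550006460) (nat_lit 0) (nat_lit 2572042347) (nat_lit 1748) (nat_lit 8334637398) (nat_lit 383) (nat_lit 5) (nat_lit 382) (nat_lit 5) (nat_lit 405) (nat_lit 5) (nat_lit 471) (nat_lit 465) (nat_lit 204)))) (XT.nd (nat_lit 156) (nat_lit 0) (nat_lit 76) (XT.nd (nat_lit 78) (nat_lit 0) (nat_lit 0) (XT.lf (nat_lit 0) (nat_lit 15800459288) (nat_lit 1672) (nat_lit 82876400) (nat_lit 1748) (nat_lit 7811379997) (nat_lit 383) (nat_lit 5) (nat_lit 405) (nat_lit 5) (nat_lit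 406) (nat_lit 5) (nat_lit 472) (nat_lit 465) (nat_lit 203)) (XT.lf (nat_lit 76) (nat_lit 11083924663) (nat_lit 0) (nat_lit 5494501616) (nat_lit 1748) (nat_lit 7357362070) (nat_lit 384) (nat_lit 5) (nat_lit 383) (nat_lit 5) (nat_lit 406) (nat_lit 5) (nat_lit 473) (nat_lit 465) (nat_lit 202))) (XT.nd (nat_lit 78) (nat_lit 0) (nat_lit 0) (XT.lf (nat_lit 0) (nat_lit 17402684286) (nat_lit 1672) (nat_lit 1741485933) (nat_lit 1748) (nat_lit 5036899927) (nat_lit 384) (nat_lit 5) (nat_lit 406) (nat_lit 5) (nat_lit 407) (nat_lit 5) (nat_lit 474) (nat_lit 465) (nat_lit 201)) (XT.lf (nat_lit 76) (nat_lit 9679831551) (nat_lit 0) (nat_lit 8659934718) (nat_lit 1748) (nat_lit 6089566803) (nat_lit 385) (nat_lit 5) (nat_lit 384) (nat_lit 5) (nat_lit 407) (nat_lit 5) (nat_lit 475) (nat_lit 465) (nat_lit 200)))))) (XT.nd (nat_lit 546) (nat_lit 0) (nat_lit 76) (XT.nd (nat_lit 234) (nat_lit 1596) (nat_lit 0) (XT.nd (nat_lit 78) (nat_lit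 0) (nat_lit 0) (XT.lf (nat_lit 0) (nat_lit 19317714718) (nat_lit 1672) (nat_lit 3344316233) (nat_lit 1748) (nat_lit 2020090034) (nat_lit 385) (nat_lit 5) (nat_lit 407) (nat_lit 5) (nat_lit 408) (nat_lit 5) (nat_lit 476) (nat_lit 465) (nat_lit 199)) (XT.nd (nat_lit 78) (nat_lit 0) (nat_lit 0) (XT.lf (nat_lit 76) (nat_lit 8339141528) (nat_lit 0) (nat_lit 12084785350) (nat_lit 1748) (nat_lit 4513865865) (nat_lit 386) (nat_lit 5) (nat_lit 385) (nat_lit 5) (nat_lit 408) (nat_lit 5) (nat_lit 477) (nat_lit 465) (nat_lit 198)) (XT.lf (nat_lit 76) (nat_lit 20299763691) (nat_lit 0) (nat_lit 1272195410) (nat_lit 1748) (nat_lit 3626227054) (nat_lit 386) (nat_lit 5) (nat_lit 385) (nat_lit 5) (nat_lit 408) (nat_lit 5) (nat_lit 478) (nat_lit 465) (nat_lit 197)))) (XT.nd (nat_lit 156) (nat_lit 1672) (nat_lit 0) (XT.nd (nat_lit 78) (nat_lit 0) (nat_lit 0) (XT.lf (nat_lit 76) (nat_lit 7063236322) (nat_lit 0) (nat_lit 15786234813)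 (nat_lit 1748) (nat_lit 2612188016) (nat_lit 387) (nat_lit 5) (nat_lit 386) (nat_lit 5) (nat_lit 409) (nat_lit 5) (nat_lit 479) (nat_lit 465) (nat_lit 196)) (XT.lf (nat_lit 76) (nat_lit 19320139318) (nat_lit 0) (nat_lit 4870988780) (nat_lit 1748) (nat_lit 1538503668) (nat_lit 387) (nat_lit 5) (nat_lit 386) (nat_lit 5) (nat_lit 409) (nat_lit 5) (nat_lit 480) (nat_lit 465) (nat_lit 195))) (XT.nd (nat_lit 78) (nat_lit 1748) (nat_lit 0) (XT.lf (nat_lit 76) (nat_lit 5853450964) (nat_lit 0) (nat_lit 19782243362) (nat_lit 1748) (nat_lit 365750000) (nat_lit 388) (nat_lit 5) (nat_lit 387) (nat_lit 5) (nat_lit 410) (nat_lit 5) (nat_lit 481) (nat_lit 465) (nat_lit 194)) (XT.lf (nat_lit 0) (nat_lit 892552009) (nat_lit 1748) (nat_lit 7869129928) (nat_lit 1824) (nat_lit 17515445601) (nat_lit 364) (nat_lit 5) (nat_lit 387) (nat_lit 5) (nat_lit 388) (nat_lit 5) (nat_lit 482) (nat_lit 465) (nat_lit 193))))) (XT.nd (nat_lit 234)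 (nat_lit 0) (nat_lit 76) (XT.nd (nat_lit 78) (nat_lit 0) (nat_lit 0) (XT.lf (nat_lit 0) (nat_lit 2215527420) (nat_lit 1748) (nat_lit 21861198594) (nat_lit 1824) (nat_lit 2480663852) (nat_lit 365) (nat_lit 5) (nat_lit 388) (nat_lit 5) (nat_lit 389) (nat_lit 5) (nat_lit 483) (nat_lit 465) (nat_lit 192)) (XT.nd (nat_lit 78) (nat_lit 0) (nat_lit 0) (XT.lf (nat_lit 0) (nat_lit 3673665085) (nat_lit 1748) (nat_lit 9282992220) (nat_lit 1824) (nat_lit 13884427942) (nat_lit 365) (nat_lit 5) (nat_lit 388) (nat_lit 5) (nat_lit 389) (nat_lit 5) (nat_lit 484) (nat_lit 465) (nat_lit 191)) (XT.lf (nat_lit 76) (nat_lit 3592021789) (nat_lit 0) (nat_lit 1589836726) (nat_lit 1824) (nat_lit 21948179985) (nat_lit 366) (nat_lit 5) (nat_lit 365) (nat_lit 5) (nat_lit 389) (nat_lit 5) (nat_lit 485) (nat_lit 465) (nat_lit 190)))) (XT.nd (nat_lit 156) (nat_lit 0) (nat_lit 76) (XT.nd (nat_lit 78) (nat_lit 0) (nat_lit 0) (XT.lf (nat_lit 0)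 (nat_lit 6845487110) (nat_lit 1748) (nat_lit 10640430061) (nat_lit 1824) (nat_lit 9936350009) (nat_lit 366) (nat_lit 5) (nat_lit 389) (nat_lit 5) (nat_lit 390) (nat_lit 5) (nat_lit 486) (nat_lit 465) (nat_lit 189)) (XT.lf (nat_lit 76) (nat_lit 2535969319) (nat_lit 0) (nat_lit 6031070039) (nat_lit 1824) (nat_lit 19152809810) (nat_lit 367) (nat_lit 5) (nat_lit 366) (nat_lit 5) (nat_lit 390) (nat_lit 5) (nat_lit 487) (nat_lit 465) (nat_lit 188))) (XT.nd (nat_lit 78) (nat_lit 0) (nat_lit 0) (XT.lf (nat_lit 0) (nat_lit 10429294582) (nat_lit 1748) (nat_lit 11940907797) (nat_lit 1824) (nat_lit 5651056696) (nat_lit 367) (nat_lit 5) (nat_lit 390) (nat_lit 5) (nat_lit 391) (nat_lit 5) (nat_lit 488) (nat_lit 465) (nat_lit 187)) (XT.lf (nat_lit 76) (nat_lit 1545379687) (nat_lit 0) (nat_lit 10831128903) (nat_lit 1824) (nat_lit 15951236003) (nat_lit 368) (nat_lit 5) (nat_lit 367) (nat_lit 5) (nat_lit 391) (nat_lit 5) (nat_lit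 489) (nat_lit 465) (nat_lit 186))))))))
noncomputable def xc249 : XT := (XT.nd (nat_lit 58656) (nat_lit 0) (nat_lit 760) (XT.nd (nat_lit 57564) (nat_lit 0) (nat_lit 6384) (XT.nd (nat_lit 546) (nat_lit 2508) (nat_lit 0) (XT.nd (nat_lit 234) (nat_lit 1672) (nat_lit 0) (XT.nd (nat_lit 78) (nat_lit 1292) (nat_lit 0) (XT.lf (nat_lit 0) (nat_lit 14447195998) (nat_lit 1748) (nat_lit 13184035045) (nat_lit 76) (nat_lit 1007439848) (nat_lit 368) (nat_lit 5) (nat_lit 391) (nat_lit 5) (nat_lit 369) (nat_lit 5) (nat_lit 490) (nat_lit 465) (nat_lit 185)) (XT.nd (nat_lit 78) (nat_lit 0) (nat_lit 0) (XT.lf (nat_lit 0) (nat_lit 620804043) (nat_lit 1292) (nat_lit 16012070613) (nat_lit 1368) (nat_lit 12321471130) (nat_lit 351) (nat_lit 5) (nat_lit 368) (nat_lit 5) (nat_lit 369) (nat_lit 5) (nat_lit 491) (nat_lit 465) (nat_lit 184)) (XT.lf (nat_lit 0) (nat_lit 14878595286) (nat_lit 1292) (nat_lit 4069991648) (nat_lit 1368) (nat_lit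 10326022432) (nat_lit 351) (nat_lit 5) (nat_lit 368) (nat_lit 5) (nat_lit 369) (nat_lit 5) (nat_lit 492) (nat_lit 465) (nat_lit 183)))) (XT.nd (nat_lit 156) (nat_lit 836) (nat_lit 0) (XT.nd (nat_lit 78) (nat_lit 836) (nat_lit 0) (XT.lf (nat_lit 0) (nat_lit 21361167285) (nat_lit 1368) (nat_lit 234264284) (nat_lit 76) (nat_lit 8004837130) (nat_lit 351) (nat_lit 5) (nat_lit 369) (nat_lit 5) (nat_lit 352) (nat_lit 5) (nat_lit 493) (nat_lit 465) (nat_lit 182)) (XT.lf (nat_lit 0) (nat_lit 14370407113) (nat_lit 836) (nat_lit 9569781555) (nat_lit 912) (nat_lit 5989890289) (nat_lit 340) (nat_lit 5) (nat_lit 351) (nat_lit 5) (nat_lit 352) (nat_lit 5) (nat_lit 494) (nat_lit 465) (nat_lit 181))) (XT.nd (nat_lit 78) (nat_lit 836) (nat_lit 0) (XT.lf (nat_lit 0) (nat_lit 26587843384) (nat_lit 912) (nat_lit 1015485552) (nat_lit 76) (nat_lit 2662816923) (nat_lit 340) (nat_lit 5) (nat_lit 352) (nat_lit 5) (nat_lit 341) (nat_lit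 5) (nat_lit 495) (nat_lit 465) (nat_lit 180)) (XT.lf (nat_lit 0) (nat_lit 13937171533) (nat_lit 836) (nat_lit 15503148746) (nat_lit 912) (nat_lit 1165577905) (nat_lit 329) (nat_lit 5) (nat_lit 340) (nat_lit 5) (nat_lit 341) (nat_lit 5) (nat_lit 496) (nat_lit 465) (nat_lit 179))))) (XT.nd (nat_lit 234) (nat_lit 1596) (nat_lit 0) (XT.nd (nat_lit 78) (nat_lit 836) (nat_lit 0) (XT.lf (nat_lit 0) (nat_lit 1383950156) (nat_lit 912) (nat_lit 1760621486) (nat_lit 76) (nat_lit 27807596345) (nat_lit 328) (nat_lit 5) (nat_lit 340) (nat_lit 5) (nat_lit 329) (nat_lit 5) (nat_lit 497) (nat_lit 465) (nat_lit 178)) (XT.nd (nat_lit 78) (nat_lit 0) (nat_lit 0) (XT.lf (nat_lit 0) (nat_lit 4117392967) (nat_lit 912) (nat_lit 17750866186) (nat_lit 76) (nat_lit 9433980700) (nat_lit 317) (nat_lit 5) (nat_lit 329) (nat_lit 5) (nat_lit 318) (nat_lit 5) (nat_lit 498) (nat_lit 465) (nat_lit 177)) (XT.lf (nat_lit 0) (nat_lit 6936305335)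 (nat_lit 912) (nat_lit 2488339390) (nat_lit 76) (nat_lit 22234053773) (nat_lit 317) (nat_lit 5) (nat_lit 329) (nat_lit 5) (nat_lit 318) (nat_lit 5) (nat_lit 499) (nat_lit 465) (nat_lit 176)))) (XT.nd (nat_lit 156) (nat_lit 760) (nat_lit 0) (XT.nd (nat_lit 78) (nat_lit 0) (nat_lit 0) (XT.lf (nat_lit 0) (nat_lit 9917540743) (nat_lit 912) (nat_lit 18790956675) (nat_lit 76) (nat_lit 3311671332) (nat_lit 306) (nat_lit 5) (nat_lit 318) (nat_lit 5) (nat_lit 307) (nat_lit 5) (nat_lit 500) (nat_lit 465) (nat_lit 175)) (XT.lf (nat_lit 0) (nat_lit 13035770456) (nat_lit 912) (nat_lit 3158039998) (nat_lit 76) (nat_lit 16193511864) (nat_lit 306) (nat_lit 5) (nat_lit 318) (nat_lit 5) (nat_lit 307) (nat_lit 5) (nat_lit 501) (nat_lit 465) (nat_lit 174))) (XT.nd (nat_lit 56550) (nat_lit 0) (nat_lit 6384) (XT.lf (nat_lit 0) (nat_lit 12955661857) (nat_lit 760) (nat_lit 3343002086) (nat_lit 836) (nat_lit 16461510308) (nat_lit 296)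 (nat_lit 5) (nat_lit 306) (nat_lit 5) (nat_lit 307) (nat_lit 5) (nat_lit 502) (nat_lit 465) (nat_lit 173)) (XT.lf (nat_lit 0) (nat_lit 6475531688) (nat_lit 1748) (nat_lit 2396645281) (nat_lit 1748) (nat_lit 2396645281) (nat_lit 380) (nat_lit 3) (nat_lit 403) (nat_lit 3) (nat_lit 403) (nat_lit 5) (nat_lit 466) (nat_lit 466) (nat_lit 208)))))) (XT.nd (nat_lit 546) (nat_lit 0) (nat_lit 228) (XT.nd (nat_lit 234) (nat_lit 0) (nat_lit 152) (XT.nd (nat_lit 78) (nat_lit 0) (nat_lit 76) (XT.lf (nat_lit 76) (nat_lit 5520086201) (nat_lit 0) (nat_lit 7720285526) (nat_lit 1748) (nat_lit 9519355854) (nat_lit 381) (nat_lit 5) (nat_lit 380) (nat_lit 3) (nat_lit 403) (nat_lit 5) (nat_lit 467) (nat_lit 466) (nat_lit 207)) (XT.nd (nat_lit 78) (nat_lit 0) (nat_lit 0) (XT.lf (nat_lit 0) (nat_lit 13580852001) (nat_lit 1672) (nat_lit 6899136200) (nat_lit 1748) (nat_lit 2505358962) (nat_lit 381) (nat_lit 5) (nat_lit 403) (nat_lit 5)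 (nat_lit 404) (nat_lit 5) (nat_lit 468) (nat_lit 466) (nat_lit 206)) (XT.lf (nat_lit 76) (nat_lit 3643106221) (nat_lit 0) (nat_lit 10356628499) (nat_lit 1748) (nat_lit 9214315067) (nat_lit 382) (nat_lit 5) (nat_lit 381) (nat_lit 5) (nat_lit 404) (nat_lit 5) (nat_lit 469) (nat_lit 466) (nat_lit 205)))) (XT.nd (nat_lit 156) (nat_lit 0) (nat_lit 0) (XT.nd (nat_lit 78) (nat_lit 0) (nat_lit 0) (XT.lf (nat_lit 0) (nat_lit 14470270834) (nat_lit 1672) (nat_lit 8958582266) (nat_lit 1748) (nat_lit 17610303) (nat_lit 382) (nat_lit 5) (nat_lit 404) (nat_lit 5) (nat_lit 405) (nat_lit 5) (nat_lit 470) (nat_lit 466) (nat_lit 204)) (XT.lf (nat_lit 76) (nat_lit 1819549881) (nat_lit 0) (nat_lit 13208002073) (nat_lit 1748) (nat_lit 8654429060) (nat_lit 383) (nat_lit 5) (nat_lit 382) (nat_lit 5) (nat_lit 405) (nat_lit 5) (nat_lit 471) (nat_lit 466) (nat_lit 203))) (XT.nd (nat_lit 78) (nat_lit 0) (nat_lit 76) (XT.lf (nat_lit 76)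 (nat_lit 12932938986) (nat_lit 0) (nat_lit 2720138945) (nat_lit 1748) (nat_lit 8267991420) (nat_lit 383) (nat_lit 5) (nat_lit 382) (nat_lit 5) (nat_lit 405) (nat_lit 5) (nat_lit 472) (nat_lit 466) (nat_lit 202)) (XT.lf (nat_lit 76) (nat_lit 50749829) (nat_lit 0) (nat_lit 16289538926) (nat_lit 1748) (nat_lit 7823669530) (nat_lit 384) (nat_lit 5) (nat_lit 383) (nat_lit 5) (nat_lit 406) (nat_lit 5) (nat_lit 473) (nat_lit 466) (nat_lit 201))))) (XT.nd (nat_lit 234) (nat_lit 0) (nat_lit 152) (XT.nd (nat_lit 78) (nat_lit 0) (nat_lit 76) (XT.lf (nat_lit 76) (nat_lit 11439335675) (nat_lit 0) (nat_lit 5690636018) (nat_lit 1748) (nat_lit 7279961015) (nat_lit 384) (nat_lit 5) (nat_lit 383) (nat_lit 5) (nat_lit 406) (nat_lit 5) (nat_lit 474) (nat_lit 466) (nat_lit 200)) (XT.nd (nat_lit 78) (nat_lit 0) (nat_lit 0) (XT.lf (nat_lit 0) (nat_lit 17965852611) (nat_lit 1672) (nat_lit 1640174590) (nat_lit 1748) (nat_lit 5054193554)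 (nat_lit 384) (nat_lit 5) (nat_lit 406) (nat_lit 5) (nat_lit 407) (nat_lit 5) (nat_lit 475) (nat_lit 466) (nat_lit 199)) (XT.lf (nat_lit 76) (nat_lit 10008673579) (nat_lit 0) (nat_lit 8909662824) (nat_lit 1748) (nat_lit 5995182638) (nat_lit 385) (nat_lit 5) (nat_lit 384) (nat_lit 5) (nat_lit 407) (nat_lit 5) (nat_lit 476) (nat_lit 466) (nat_lit 198)))) (XT.nd (nat_lit 156) (nat_lit 0) (nat_lit 0) (XT.nd (nat_lit 78) (nat_lit 0) (nat_lit 0) (XT.lf (nat_lit 0) (nat_lit 19911204236) (nat_lit 1672) (nat_lit 3273807490) (nat_lit 1748) (nat_lit 1986447016) (nat_lit 385) (nat_lit 5) (nat_lit 407) (nat_lit 5) (nat_lit 408) (nat_lit 5) (nat_lit 477) (nat_lit 466) (nat_lit 197)) (XT.lf (nat_lit 76) (nat_lit 8642415511) (nat_lit 0) (nat_lit 12393949844) (nat_lit 1748) (nat_lit 4395945261) (nat_lit 386) (nat_lit 5) (nat_lit 385) (nat_lit 5) (nat_lit 408) (nat_lit 5) (nat_lit 478) (nat_lit 466) (nat_lit 196))) (XT.nd (nat_lit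 78) (nat_lit 0) (nat_lit 76) (XT.lf (nat_lit 76) (nat_lit 20839573821) (nat_lit 0) (nat_lit 1363785188) (nat_lit 1748) (nat_lit 3494635987) (nat_lit 386) (nat_lit 5) (nat_lit 385) (nat_lit 5) (nat_lit 408) (nat_lit 5) (nat_lit 479) (nat_lit 466) (nat_lit 195)) (XT.lf (nat_lit 76) (nat_lit 7341989729) (nat_lit 0) (nat_lit 16160982381) (nat_lit 1748) (nat_lit 2463837376) (nat_lit 387) (nat_lit 5) (nat_lit 386) (nat_lit 5) (nat_lit 409) (nat_lit 5) (nat_lit 480) (nat_lit 466) (nat_lit 194))))))) (XT.nd (nat_lit 1092) (nat_lit 3420) (nat_lit 0) (XT.nd (nat_lit 546) (nat_lit 988) (nat_lit 0) (XT.nd (nat_lit 234) (nat_lit 0) (nat_lit 76) (XT.nd (nat_lit 78) (nat_lit 1672) (nat_lit 0) (XT.lf (nat_lit 76) (nat_lit 19841334928) (nat_lit 0) (nat_lit 5026274117) (nat_lit 1748) (nat_lit 1372612565) (nat_lit 387) (nat_lit 5) (nat_lit 386) (nat_lit 5) (nat_lit 409) (nat_lit 5) (nat_lit 481) (nat_lit 466) (nat_lit 193)) (XT.nd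 (nat_lit 78) (nat_lit 1748) (nat_lit 0) (XT.lf (nat_lit 76) (nat_lit 6108775700) (nat_lit 0) (nat_lit 20229042595) (nat_lit 1748) (nat_lit 179720026) (nat_lit 388) (nat_lit 5) (nat_lit 387) (nat_lit 5) (nat_lit 410) (nat_lit 5) (nat_lit 482) (nat_lit 466) (nat_lit 192)) (XT.lf (nat_lit 0) (nat_lit 1097470912) (nat_lit 1748) (nat_lit 7888340680) (nat_lit 1824) (nat_lit 17812976146) (nat_lit 364) (nat_lit 5) (nat_lit 387) (nat_lit 5) (nat_lit 388) (nat_lit 5) (nat_lit 483) (nat_lit 466) (nat_lit 191)))) (XT.nd (nat_lit 156) (nat_lit 0) (nat_lit 0) (XT.nd (nat_lit 78) (nat_lit 0) (nat_lit 0) (XT.lf (nat_lit 0) (nat_lit 2443823697) (nat_lit 1748) (nat_lit 22157030355) (nat_lit 1824) (nat_lit 2483865668) (nat_lit 365) (nat_lit 5) (nat_lit 388) (nat_lit 5) (nat_lit 389) (nat_lit 5) (nat_lit 484) (nat_lit 466) (nat_lit 190)) (XT.lf (nat_lit 0) (nat_lit 3927516551) (nat_lit 1748) (nat_lit 9330032250) (nat_lit 1824) (nat_lit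 14116615069) (nat_lit 365) (nat_lit 5) (nat_lit 388) (nat_lit 5) (nat_lit 389) (nat_lit 5) (nat_lit 485) (nat_lit 466) (nat_lit 189))) (XT.nd (nat_lit 78) (nat_lit 0) (nat_lit 76) (XT.lf (nat_lit 76) (nat_lit 3801570067) (nat_lit 0) (nat_lit 1661661047) (nat_lit 1824) (nat_lit 22205720586) (nat_lit 366) (nat_lit 5) (nat_lit 365) (nat_lit 5) (nat_lit 389) (nat_lit 5) (nat_lit 486) (nat_lit 466) (nat_lit 188)) (XT.lf (nat_lit 0) (nat_lit 7156392483) (nat_lit 1748) (nat_lit 10714360920) (nat_lit 1824) (nat_lit 10096348953) (nat_lit 366) (nat_lit 5) (nat_lit 389) (nat_lit 5) (nat_lit 390) (nat_lit 5) (nat_lit 487) (nat_lit 466) (nat_lit 187))))) (XT.nd (nat_lit 234) (nat_lit 1140) (nat_lit 0) (XT.nd (nat_lit 78) (nat_lit 0) (nat_lit 76) (XT.lf (nat_lit 76) (nat_lit 2724652779) (nat_lit 0) (nat_lit 6185207072) (nat_lit 1824) (nat_lit 19360829004) (nat_lit 367) (nat_lit 5) (nat_lit 366) (nat_lit 5) (nat_lit 390) (nat_lit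 5) (nat_lit 488) (nat_lit 466) (nat_lit 186)) (XT.nd (nat_lit 78) (nat_lit 0) (nat_lit 0) (XT.lf (nat_lit 0) (nat_lit 10805784494) (nat_lit 1748) (nat_lit 12040766172) (nat_lit 1824) (nat_lit 5731650312) (nat_lit 367) (nat_lit 5) (nat_lit 390) (nat_lit 5) (nat_lit 391) (nat_lit 5) (nat_lit 489) (nat_lit 466) (nat_lit 185)) (XT.lf (nat_lit 76) (nat_lit 1714332852) (nat_lit 0) (nat_lit 11075213977) (nat_lit 1824) (nat_lit 16101319750) (nat_lit 368) (nat_lit 5) (nat_lit 367) (nat_lit 5) (nat_lit 391) (nat_lit 5) (nat_lit 490) (nat_lit 466) (nat_lit 184)))) (XT.nd (nat_lit 156) (nat_lit 0) (nat_lit 0) (XT.nd (nat_lit 78) (nat_lit 1292) (nat_lit 0) (XT.lf (nat_lit 0) (nat_lit 14898227921) (nat_lit 1748) (nat_lit 13308836549) (nat_lit 76) (nat_lit 1001017742) (nat_lit 368) (nat_lit 5) (nat_lit 391) (nat_lit 5) (nat_lit 369) (nat_lit 5) (nat_lit 491) (nat_lit 466) (nat_lit 183)) (XT.lf (nat_lit 0) (nat_lit 771185642)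 (nat_lit 1292) (nat_lit 16354152077) (nat_lit 1368) (nat_lit 12404780894) (nat_lit 351) (nat_lit 5) (nat_lit 368) (nat_lit 5) (nat_lit 369) (nat_lit 5) (nat_lit 492) (nat_lit 466) (nat_lit 182))) (XT.nd (nat_lit 78) (nat_lit 0) (nat_lit 0) (XT.lf (nat_lit 0) (nat_lit 15311427503) (nat_lit 1292) (nat_lit 4172803297) (nat_lit 1368) (nat_lit 10372621647) (nat_lit 351) (nat_lit 5) (nat_lit 368) (nat_lit 5) (nat_lit 369) (nat_lit 5) (nat_lit 493) (nat_lit 466) (nat_lit 181)) (XT.lf (nat_lit 0) (nat_lit 21941854462) (nat_lit 1368) (nat_lit 103019728) (nat_lit 76) (nat_lit 8144217210) (nat_lit 351) (nat_lit 5) (nat_lit 369) (nat_lit 5) (nat_lit 352) (nat_lit 5) (nat_lit 494) (nat_lit 466) (nat_lit 180)))))) (XT.nd (nat_lit 57174) (nat_lit 0) (nat_lit 5624) (XT.nd (nat_lit 234) (nat_lit 1748) (nat_lit 0) (XT.nd (nat_lit 78) (nat_lit 836) (nat_lit 0) (XT.lf (nat_lit 0) (nat_lit 14792850821) (nat_lit 836) (nat_lit 9777473097)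 (nat_lit 912) (nat_lit 5955218816) (nat_lit 340) (nat_lit 5) (nat_lit 351) (nat_lit 5) (nat_lit 352) (nat_lit 5) (nat_lit 495) (nat_lit 466) (nat_lit 179)) (XT.nd (nat_lit 78) (nat_lit 836) (nat_lit 0) (XT.lf (nat_lit 0) (nat_lit 27267860715) (nat_lit 912) (nat_lit 900227447) (nat_lit 76) (nat_lit 2700306411) (nat_lit 340) (nat_lit 5) (nat_lit 352) (nat_lit 5) (nat_lit 341) (nat_lit 5) (nat_lit 496) (nat_lit 466) (nat_lit 178)) (XT.lf (nat_lit 0) (nat_lit 14350590886) (nat_lit 836) (nat_lit 15824763600) (nat_lit 912) (nat_lit 1039630250) (nat_lit 329) (nat_lit 5) (nat_lit 340) (nat_lit 5) (nat_lit 341) (nat_lit 5) (nat_lit 497) (nat_lit 466) (nat_lit 177)))) (XT.nd (nat_lit 156) (nat_lit 836) (nat_lit 0) (XT.nd (nat_lit 78) (nat_lit 836) (nat_lit 0) (XT.lf (nat_lit 0) (nat_lit 1556042543) (nat_lit 912) (nat_lit 1661776813) (nat_lit 76) (nat_lit 28350401016) (nat_lit 328) (nat_lit 5) (nat_lit 340) (nat_lit 5)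 (nat_lit 329) (nat_lit 5) (nat_lit 498) (nat_lit 466) (nat_lit 176)) (XT.lf (nat_lit 0) (nat_lit 4342127041) (nat_lit 912) (nat_lit 17969698547) (nat_lit 76) (nat_lit 9613510645) (nat_lit 317) (nat_lit 5) (nat_lit 329) (nat_lit 5) (nat_lit 318) (nat_lit 5) (nat_lit 499) (nat_lit 466) (nat_lit 175))) (XT.nd (nat_lit 156) (nat_lit 836) (nat_lit 0) (XT.lf (nat_lit 0) (nat_lit 7214625770) (nat_lit 912) (nat_lit 2404591508) (nat_lit 76) (nat_lit 22669764585) (nat_lit 317) (nat_lit 5) (nat_lit 329) (nat_lit 5) (nat_lit 318) (nat_lit 5) (nat_lit 500) (nat_lit 466) (nat_lit 174)) (XT.lf (nat_lit 0) (nat_lit 13431471503) (nat_lit 912) (nat_lit 3088337632) (nat_lit 76) (nat_lit 16512465031) (nat_lit 306) (nat_lit 5) (nat_lit 318) (nat_lit 5) (nat_lit 307) (nat_lit 5) (nat_lit 502) (nat_lit 466) (nat_lit 172))))) (XT.nd (nat_lit 234) (nat_lit 0) (nat_lit 76) (XT.nd (nat_lit 78) (nat_lit 0) (nat_lit 0) (XT.lf (nat_lit 0)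 (nat_lit 6728195163) (nat_lit 1748) (nat_lit 2381721849) (nat_lit 1748) (nat_lit 2381721849) (nat_lit 380) (nat_lit 3) (nat_lit 403) (nat_lit 3) (nat_lit 403) (nat_lit 5) (nat_lit 467) (nat_lit 467) (nat_lit 206)) (XT.nd (nat_lit 78) (nat_lit 0) (nat_lit 76) (XT.lf (nat_lit 76) (nat_lit 5755373543) (nat_lit 0) (nat_lit 7992092619) (nat_lit 1748) (nat_lit 9462420472) (nat_lit 381) (nat_lit 5) (nat_lit 380) (nat_lit 3) (nat_lit 403) (nat_lit 5) (nat_lit 468) (nat_lit 467) (nat_lit 205)) (XT.lf (nat_lit 0) (nat_lit 14089258014) (nat_lit 1672) (nat_lit 6908997978) (nat_lit 1748) (nat_lit 2441876297) (nat_lit 381) (nat_lit 5) (nat_lit 403) (nat_lit 5) (nat_lit 404) (nat_lit 5) (nat_lit 469) (nat_lit 467) (nat_lit 204)))) (XT.nd (nat_lit 156) (nat_lit 0) (nat_lit 76) (XT.nd (nat_lit 78) (nat_lit 0) (nat_lit 0) (XT.lf (nat_lit 76) (nat_lit 3843246390) (nat_lit 0) (nat_lit 10669455449) (nat_lit 1748) (nat_lit 9160787104)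 (nat_lit 382) (nat_lit 5) (nat_lit 381) (nat_lit 5) (nat_lit 404) (nat_lit 5) (nat_lit 470) (nat_lit 467) (nat_lit 203)) (XT.lf (nat_lit 76) (nat_lit 14902541695) (nat_lit 0) (nat_lit 85420719) (nat_lit 1748) (nat_lit 8922685719) (nat_lit 382) (nat_lit 5) (nat_lit 381) (nat_lit 5) (nat_lit 404) (nat_lit 5) (nat_lit 471) (nat_lit 467) (nat_lit 202))) (XT.nd (nat_lit 78) (nat_lit 0) (nat_lit 0) (XT.lf (nat_lit 76) (nat_lit 1985286366) (nat_lit 0) (nat_lit 13566922655) (nat_lit 1748) (nat_lit 8598754184) (nat_lit 383) (nat_lit 5) (nat_lit 382) (nat_lit 5) (nat_lit 405) (nat_lit 5) (nat_lit 472) (nat_lit 467) (nat_lit 201)) (XT.lf (nat_lit 76) (nat_lit 13318407068) (nat_lit 0) (nat_lit 2867444215) (nat_lit 1748) (nat_lit 8209073350) (nat_lit 383) (nat_lit 5) (nat_lit 382) (nat_lit 5) (nat_lit 405) (nat_lit 5) (nat_lit 473) (nat_lit 467) (nat_lit 200))))))))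
noncomputable def xc250 : XT := (XT.nd (nat_lit 58890) (nat_lit 0) (nat_lit 2584) (XT.nd (nat_lit 1092) (nat_lit 3572) (nat_lit 0) (XT.nd (nat_lit 546) (nat_lit 1444) (nat_lit 0) (XT.nd (nat_lit 234) (nat_lit 0) (nat_lit 76) (XT.nd (nat_lit 78) (nat_lit 0) (nat_lit 0) (XT.lf (nat_lit 76) (nat_lit 182875138) (nat_lit 0) (nat_lit 16699883007) (nat_lit 1748) (nat_lit 7759997532) (nat_lit 384) (nat_lit 5) (nat_lit 383) (nat_lit 5) (nat_lit 406) (nat_lit 5) (nat_lit 474) (nat_lit 467) (nat_lit 199)) (XT.nd (nat_lit 78) (nat_lit 0) (nat_lit 76) (XT.lf (nat_lit 76) (nat_lit 11796661910) (nat_lit 0) (nat_lit 5887344133) (nat_lit 1748) (nat_lit 7209731423) (nat_lit 384) (nat_lit 5) (nat_lit 383) (nat_lit 5) (nat_lit 406) (nat_lit 5) (nat_lit 475) (nat_lit 467) (nat_lit 198)) (XT.lf (nat_lit 0) (nat_lit 18531931140) (nat_lit 1672) (nat_lit 1542123544) (nat_lit 1748) (nat_lit 5075073301) (nat_lit 384) (nat_lit 5) (nat_lit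 406) (nat_lit 5) (nat_lit 407) (nat_lit 5) (nat_lit 476) (nat_lit 467) (nat_lit 197)))) (XT.nd (nat_lit 156) (nat_lit 0) (nat_lit 76) (XT.nd (nat_lit 78) (nat_lit 0) (nat_lit 76) (XT.lf (nat_lit 76) (nat_lit 10338840704) (nat_lit 0) (nat_lit 9161413762) (nat_lit 1748) (nat_lit 5907305148) (nat_lit 385) (nat_lit 5) (nat_lit 384) (nat_lit 5) (nat_lit 407) (nat_lit 5) (nat_lit 477) (nat_lit 467) (nat_lit 196)) (XT.lf (nat_lit 0) (nat_lit 20508520232) (nat_lit 1672) (nat_lit 3207223790) (nat_lit 1748) (nat_lit 1955006389) (nat_lit 385) (nat_lit 5) (nat_lit 407) (nat_lit 5) (nat_lit 408) (nat_lit 5) (nat_lit 478) (nat_lit 467) (nat_lit 195))) (XT.nd (nat_lit 78) (nat_lit 0) (nat_lit 0) (XT.lf (nat_lit 76) (nat_lit 8946454857) (nat_lit 0) (nat_lit 12706677733) (nat_lit 1748) (nat_lit 4283750824) (nat_lit 386) (nat_lit 5) (nat_lit 385) (nat_lit 5) (nat_lit 408) (nat_lit 5) (nat_lit 479) (nat_lit 467) (nat_lit 194))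 (XT.lf (nat_lit 76) (nat_lit 21384983959) (nat_lit 0) (nat_lit 1454638237) (nat_lit 1748) (nat_lit 3368339156) (nat_lit 386) (nat_lit 5) (nat_lit 385) (nat_lit 5) (nat_lit 408) (nat_lit 5) (nat_lit 480) (nat_lit 467) (nat_lit 193))))) (XT.nd (nat_lit 234) (nat_lit 0) (nat_lit 0) (XT.nd (nat_lit 78) (nat_lit 1672) (nat_lit 0) (XT.lf (nat_lit 76) (nat_lit 7620979351) (nat_lit 0) (nat_lit 16540932971) (nat_lit 1748) (nat_lit 2320309049) (nat_lit 387) (nat_lit 5) (nat_lit 386) (nat_lit 5) (nat_lit 409) (nat_lit 5) (nat_lit 481) (nat_lit 467) (nat_lit 192)) (XT.nd (nat_lit 78) (nat_lit 1672) (nat_lit 0) (XT.lf (nat_lit 76) (nat_lit 20367720281) (nat_lit 0) (nat_lit 5182418170) (nat_lit 1748) (nat_lit 1211040233) (nat_lit 387) (nat_lit 5) (nat_lit 386) (nat_lit 5) (nat_lit 409) (nat_lit 5) (nat_lit 482) (nat_lit 467) (nat_lit 191)) (XT.lf (nat_lit 0) (nat_lit 2489640) (nat_lit 1748) (nat_lit 20680285080) (nat_lit 1824)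 (nat_lit 6361331945) (nat_lit 364) (nat_lit 5) (nat_lit 387) (nat_lit 5) (nat_lit 388) (nat_lit 5) (nat_lit 483) (nat_lit 467) (nat_lit 190)))) (XT.nd (nat_lit 156) (nat_lit 0) (nat_lit 76) (XT.nd (nat_lit 78) (nat_lit 0) (nat_lit 76) (XT.lf (nat_lit 0) (nat_lit 1299224120) (nat_lit 1748) (nat_lit 7913301027) (nat_lit 1824) (nat_lit 18118506751) (nat_lit 364) (nat_lit 5) (nat_lit 387) (nat_lit 5) (nat_lit 388) (nat_lit 5) (nat_lit 484) (nat_lit 467) (nat_lit 189)) (XT.lf (nat_lit 0) (nat_lit 2669541509) (nat_lit 1748) (nat_lit 22464269183) (nat_lit 1824) (nat_lit 2488933734) (nat_lit 365) (nat_lit 5) (nat_lit 388) (nat_lit 5) (nat_lit 389) (nat_lit 5) (nat_lit 485) (nat_lit 467) (nat_lit 188))) (XT.nd (nat_lit 78) (nat_lit 0) (nat_lit 0) (XT.lf (nat_lit 0) (nat_lit 4179440743) (nat_lit 1748) (nat_lit 9383395857) (nat_lit 1824) (nat_lit 14355212814) (nat_lit 365) (nat_lit 5) (nat_lit 388) (nat_lit 5) (nat_lit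 389) (nat_lit 5) (nat_lit 486) (nat_lit 467) (nat_lit 187)) (XT.lf (nat_lit 76) (nat_lit 4009961947) (nat_lit 0) (nat_lit 1733367535) (nat_lit 1824) (nat_lit 22475456875) (nat_lit 366) (nat_lit 5) (nat_lit 365) (nat_lit 5) (nat_lit 389) (nat_lit 5) (nat_lit 487) (nat_lit 467) (nat_lit 186)))))) (XT.nd (nat_lit 546) (nat_lit 2584) (nat_lit 0) (XT.nd (nat_lit 234) (nat_lit 1140) (nat_lit 0) (XT.nd (nat_lit 78) (nat_lit 0) (nat_lit 0) (XT.lf (nat_lit 0) (nat_lit 7466759501) (nat_lit 1748) (nat_lit 10795163187) (nat_lit 1824) (nat_lit 10261051733) (nat_lit 366) (nat_lit 5) (nat_lit 389) (nat_lit 5) (nat_lit 390) (nat_lit 5) (nat_lit 488) (nat_lit 467) (nat_lit 185)) (XT.nd (nat_lit 78) (nat_lit 0) (nat_lit 76) (XT.lf (nat_lit 76) (nat_lit 2911752595) (nat_lit 0) (nat_lit 6341125392) (nat_lit 1824) (nat_lit 19579805482) (nat_lit 367) (nat_lit 5) (nat_lit 366) (nat_lit 5) (nat_lit 390) (nat_lit 5) (nat_lit 489) (nat_lit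 467) (nat_lit 184)) (XT.lf (nat_lit 0) (nat_lit 11183284286) (nat_lit 1748) (nat_lit 12148017693) (nat_lit 1824) (nat_lit 5815115000) (nat_lit 367) (nat_lit 5) (nat_lit 390) (nat_lit 5) (nat_lit 391) (nat_lit 5) (nat_lit 490) (nat_lit 467) (nat_lit 183)))) (XT.nd (nat_lit 156) (nat_lit 1216) (nat_lit 0) (XT.nd (nat_lit 78) (nat_lit 0) (nat_lit 76) (XT.lf (nat_lit 76) (nat_lit 1881304603) (nat_lit 0) (nat_lit 11323114351) (nat_lit 1824) (nat_lit 16260965357) (nat_lit 368) (nat_lit 5) (nat_lit 367) (nat_lit 5) (nat_lit 391) (nat_lit 5) (nat_lit 491) (nat_lit 467) (nat_lit 182)) (XT.lf (nat_lit 0) (nat_lit 15351986407) (nat_lit 1748) (nat_lit 13441526931) (nat_lit 76) (nat_lit 995498975) (nat_lit 368) (nat_lit 5) (nat_lit 391) (nat_lit 5) (nat_lit 369) (nat_lit 5) (nat_lit 492) (nat_lit 467) (nat_lit 181))) (XT.nd (nat_lit 78) (nat_lit 0) (nat_lit 0) (XT.lf (nat_lit 0) (nat_lit 919217504) (nat_lit 1292) (nat_lit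 16702227095) (nat_lit 1368) (nat_lit 12496090988) (nat_lit 351) (nat_lit 5) (nat_lit 368) (nat_lit 5) (nat_lit 369) (nat_lit 5) (nat_lit 493) (nat_lit 467) (nat_lit 180)) (XT.lf (nat_lit 0) (nat_lit 15747664043) (nat_lit 1292) (nat_lit 4276839732) (nat_lit 1368) (nat_lit 10426362782) (nat_lit 351) (nat_lit 5) (nat_lit 368) (nat_lit 5) (nat_lit 369) (nat_lit 5) (nat_lit 494) (nat_lit 467) (nat_lit 179))))) (XT.nd (nat_lit 234) (nat_lit 1748) (nat_lit 0) (XT.nd (nat_lit 78) (nat_lit 0) (nat_lit 0) (XT.lf (nat_lit 0) (nat_lit 25911226) (nat_lit 836) (nat_lit 22502453201) (nat_lit 912) (nat_lit 8261446351) (nat_lit 340) (nat_lit 5) (nat_lit 351) (nat_lit 5) (nat_lit 352) (nat_lit 5) (nat_lit 495) (nat_lit 467) (nat_lit 178)) (XT.nd (nat_lit 78) (nat_lit 0) (nat_lit 0) (XT.lf (nat_lit 0) (nat_lit 15218499807) (nat_lit 836) (nat_lit 9988685680) (nat_lit 912) (nat_lit 5925852143) (nat_lit 340) (nat_lit 5) (nat_lit 351)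 (nat_lit 5) (nat_lit 352) (nat_lit 5) (nat_lit 496) (nat_lit 467) (nat_lit 177)) (XT.lf (nat_lit 0) (nat_lit 27955721259) (nat_lit 912) (nat_lit 787928444) (nat_lit 76) (nat_lit 2739157935) (nat_lit 340) (nat_lit 5) (nat_lit 352) (nat_lit 5) (nat_lit 341) (nat_lit 5) (nat_lit 497) (nat_lit 467) (nat_lit 176)))) (XT.nd (nat_lit 156) (nat_lit 836) (nat_lit 0) (XT.nd (nat_lit 78) (nat_lit 76) (nat_lit 0) (XT.lf (nat_lit 0) (nat_lit 14767048995) (nat_lit 836) (nat_lit 16152362178) (nat_lit 912) (nat_lit 916959559) (nat_lit 329) (nat_lit 5) (nat_lit 340) (nat_lit 5) (nat_lit 341) (nat_lit 5) (nat_lit 498) (nat_lit 467) (nat_lit 175)) (XT.lf (nat_lit 0) (nat_lit 1725969030) (nat_lit 912) (nat_lit 1566160848) (nat_lit 76) (nat_lit 28904580070) (nat_lit 328) (nat_lit 5) (nat_lit 340) (nat_lit 5) (nat_lit 329) (nat_lit 5) (nat_lit 499) (nat_lit 467) (nat_lit 174))) (XT.nd (nat_lit 78) (nat_lit 0) (nat_lit 0) (XT.lf (nat_lit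 0) (nat_lit 4565826767) (nat_lit 912) (nat_lit 18198195783) (nat_lit 76) (nat_lit 9796986482) (nat_lit 317) (nat_lit 5) (nat_lit 329) (nat_lit 5) (nat_lit 318) (nat_lit 5) (nat_lit 500) (nat_lit 467) (nat_lit 173)) (XT.lf (nat_lit 0) (nat_lit 7493091996) (nat_lit 912) (nat_lit 2324353206) (nat_lit 76) (nat_lit 23114537939) (nat_lit 317) (nat_lit 5) (nat_lit 329) (nat_lit 5) (nat_lit 318) (nat_lit 5) (nat_lit 501) (nat_lit 467) (nat_lit 172))))))) (XT.nd (nat_lit 1092) (nat_lit 2204) (nat_lit 0) (XT.nd (nat_lit 546) (nat_lit 0) (nat_lit 228) (XT.nd (nat_lit 234) (nat_lit 0) (nat_lit 76) (XT.nd (nat_lit 78) (nat_lit 0) (nat_lit 0) (XT.lf (nat_lit 0) (nat_lit 6981129733) (nat_lit 1748) (nat_lit 2368940736) (nat_lit 1748) (nat_lit 2368940736) (nat_lit 380) (nat_lit 3) (nat_lit 403) (nat_lit 3) (nat_lit 403) (nat_lit 5) (nat_lit 468) (nat_lit 468) (nat_lit 204)) (XT.nd (nat_lit 78) (nat_lit 0) (nat_lit 76) (XT.lf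 (nat_lit 76) (nat_lit 5990517171) (nat_lit 0) (nat_lit 8264777014) (nat_lit 1748) (nat_lit 9413950217) (nat_lit 381) (nat_lit 5) (nat_lit 380) (nat_lit 3) (nat_lit 403) (nat_lit 5) (nat_lit 469) (nat_lit 468) (nat_lit 203)) (XT.lf (nat_lit 0) (nat_lit 14598637343) (nat_lit 1672) (nat_lit 6924032084) (nat_lit 1748) (nat_lit 2381534810) (nat_lit 381) (nat_lit 5) (nat_lit 403) (nat_lit 5) (nat_lit 404) (nat_lit 5) (nat_lit 470) (nat_lit 468) (nat_lit 202)))) (XT.nd (nat_lit 156) (nat_lit 0) (nat_lit 76) (XT.nd (nat_lit 78) (nat_lit 0) (nat_lit 0) (XT.lf (nat_lit 76) (nat_lit 4042447002) (nat_lit 0) (nat_lit 10984434697) (nat_lit 1748) (nat_lit 9115423199) (nat_lit 382) (nat_lit 5) (nat_lit 381) (nat_lit 5) (nat_lit 404) (nat_lit 5) (nat_lit 471) (nat_lit 468) (nat_lit 201)) (XT.lf (nat_lit 76) (nat_lit 15320529473) (nat_lit 0) (nat_lit 186727309) (nat_lit 1748) (nat_lit 8877041741) (nat_lit 382) (nat_lit 5) (nat_lit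 381) (nat_lit 5) (nat_lit 404) (nat_lit 5) (nat_lit 472) (nat_lit 468) (nat_lit 200))) (XT.nd (nat_lit 78) (nat_lit 0) (nat_lit 0) (XT.lf (nat_lit 76) (nat_lit 2149314938) (nat_lit 0) (nat_lit 13929341981) (nat_lit 1748) (nat_lit 8550848975) (nat_lit 383) (nat_lit 5) (nat_lit 382) (nat_lit 5) (nat_lit 405) (nat_lit 5) (nat_lit 473) (nat_lit 468) (nat_lit 199)) (XT.lf (nat_lit 76) (nat_lit 13706660351) (nat_lit 0) (nat_lit 3014088072) (nat_lit 1748) (nat_lit 8157685902) (nat_lit 383) (nat_lit 5) (nat_lit 382) (nat_lit 5) (nat_lit 405) (nat_lit 5) (nat_lit 474) (nat_lit 468) (nat_lit 198))))) (XT.nd (nat_lit 234) (nat_lit 0) (nat_lit 76) (XT.nd (nat_lit 78) (nat_lit 0) (nat_lit 0) (XT.lf (nat_lit 76) (nat_lit 312551780) (nat_lit 0) (nat_lit 17115150663) (nat_lit 1748) (nat_lit 7703600608) (nat_lit 384) (nat_lit 5) (nat_lit 383) (nat_lit 5) (nat_lit 406) (nat_lit 5) (nat_lit 475) (nat_lit 468) (nat_lit 197)) (XT.nd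 (nat_lit 78) (nat_lit 0) (nat_lit 76) (XT.lf (nat_lit 76) (nat_lit 12156143324) (nat_lit 0) (nat_lit 6084767482) (nat_lit 1748) (nat_lit 7146478135) (nat_lit 384) (nat_lit 5) (nat_lit 383) (nat_lit 5) (nat_lit 406) (nat_lit 5) (nat_lit 476) (nat_lit 468) (nat_lit 196)) (XT.lf (nat_lit 0) (nat_lit 19101302438) (nat_lit 1672) (nat_lit 1447192718) (nat_lit 1748) (nat_lit 5099485066) (nat_lit 384) (nat_lit 5) (nat_lit 406) (nat_lit 5) (nat_lit 407) (nat_lit 5) (nat_lit 477) (nat_lit 468) (nat_lit 195)))) (XT.nd (nat_lit 156) (nat_lit 0) (nat_lit 76) (XT.nd (nat_lit 78) (nat_lit 0) (nat_lit 76) (XT.lf (nat_lit 76) (nat_lit 10670563359) (nat_lit 0) (nat_lit 9415343384) (nat_lit 1748) (nat_lit 5825738503) (nat_lit 385) (nat_lit 5) (nat_lit 384) (nat_lit 5) (nat_lit 407) (nat_lit 5) (nat_lit 478) (nat_lit 468) (nat_lit 194)) (XT.lf (nat_lit 0) (nat_lit 21110051566) (nat_lit 1672) (nat_lit 3144436461) (nat_lit 1748) (nat_lit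 1925700550) (nat_lit 385) (nat_lit 5) (nat_lit 407) (nat_lit 5) (nat_lit 408) (nat_lit 5) (nat_lit 479) (nat_lit 468) (nat_lit 193))) (XT.nd (nat_lit 78) (nat_lit 0) (nat_lit 0) (XT.lf (nat_lit 76) (nat_lit 9251480681) (nat_lit 0) (nat_lit 13023142018) (nat_lit 1748) (nat_lit 4177083144) (nat_lit 386) (nat_lit 5) (nat_lit 385) (nat_lit 5) (nat_lit 408) (nat_lit 5) (nat_lit 480) (nat_lit 468) (nat_lit 192)) (XT.lf (nat_lit 76) (nat_lit 21936307881) (nat_lit 0) (nat_lit 1544839561) (nat_lit 1748) (nat_lit 3247134667) (nat_lit 386) (nat_lit 5) (nat_lit 385) (nat_lit 5) (nat_lit 408) (nat_lit 5) (nat_lit 481) (nat_lit 468) (nat_lit 191)))))) (XT.nd (nat_lit 546) (nat_lit 988) (nat_lit 0) (XT.nd (nat_lit 234) (nat_lit 0) (nat_lit 0) (XT.nd (nat_lit 78) (nat_lit 1672) (nat_lit 0) (XT.lf (nat_lit 76) (nat_lit 7900417227) (nat_lit 0) (nat_lit 16926279641) (nat_lit 1748) (nat_lit 2181397011) (nat_lit 387) (nat_lit 5)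 (nat_lit 386) (nat_lit 5) (nat_lit 409) (nat_lit 5) (nat_lit 482) (nat_lit 468) (nat_lit 190)) (XT.nd (nat_lit 78) (nat_lit 1672) (nat_lit 0) (XT.lf (nat_lit 76) (nat_lit 20899602421) (nat_lit 0) (nat_lit 5339525367) (nat_lit 1748) (nat_lit 1053576509) (nat_lit 387) (nat_lit 5) (nat_lit 386) (nat_lit 5) (nat_lit 409) (nat_lit 5) (nat_lit 483) (nat_lit 468) (nat_lit 189)) (XT.lf (nat_lit 0) (nat_lit 178817658) (nat_lit 1748) (nat_lit 20963688364) (nat_lit 1824) (nat_lit 6438824350) (nat_lit 364) (nat_lit 5) (nat_lit 387) (nat_lit 5) (nat_lit 388) (nat_lit 5) (nat_lit 484) (nat_lit 468) (nat_lit 188)))) (XT.nd (nat_lit 156) (nat_lit 0) (nat_lit 76) (XT.nd (nat_lit 78) (nat_lit 0) (nat_lit 76) (XT.lf (nat_lit 0) (nat_lit 1498030392) (nat_lit 1748) (nat_lit 7943917619) (nat_lit 1824) (nat_lit 18432117833) (nat_lit 364) (nat_lit 5) (nat_lit 387) (nat_lit 5) (nat_lit 388) (nat_lit 5) (nat_lit 485) (nat_lit 468) (nat_lit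 187)) (XT.lf (nat_lit 0) (nat_lit 2892906713) (nat_lit 1748) (nat_lit 22782930019) (nat_lit 1824) (nat_lit 2495835393) (nat_lit 365) (nat_lit 5) (nat_lit 388) (nat_lit 5) (nat_lit 389) (nat_lit 5) (nat_lit 486) (nat_lit 468) (nat_lit 186))) (XT.nd (nat_lit 78) (nat_lit 0) (nat_lit 0) (XT.lf (nat_lit 0) (nat_lit 4429671101) (nat_lit 1748) (nat_lit 9443000492) (nat_lit 1824) (nat_lit 14600280780) (nat_lit 365) (nat_lit 5) (nat_lit 388) (nat_lit 5) (nat_lit 389) (nat_lit 5) (nat_lit 487) (nat_lit 468) (nat_lit 185)) (XT.lf (nat_lit 76) (nat_lit 4217381946) (nat_lit 0) (nat_lit 1805014188) (nat_lit 1824) (nat_lit 22757359205) (nat_lit 366) (nat_lit 5) (nat_lit 365) (nat_lit 5) (nat_lit 389) (nat_lit 5) (nat_lit 488) (nat_lit 468) (nat_lit 184))))) (XT.nd (nat_lit 234) (nat_lit 1140) (nat_lit 0) (XT.nd (nat_lit 78) (nat_lit 0) (nat_lit 0) (XT.lf (nat_lit 0) (nat_lit 7776839758) (nat_lit 1748) (nat_lit 10882764883)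 (nat_lit 1824) (nat_lit 10430494030) (nat_lit 366) (nat_lit 5) (nat_lit 389) (nat_lit 5) (nat_lit 390) (nat_lit 5) (nat_lit 489) (nat_lit 468) (nat_lit 183)) (XT.nd (nat_lit 78) (nat_lit 0) (nat_lit 76) (XT.lf (nat_lit 76) (nat_lit 3097445125) (nat_lit 0) (nat_lit 6498911163) (nat_lit 1824) (nat_lit 19809694458) (nat_lit 367) (nat_lit 5) (nat_lit 366) (nat_lit 5) (nat_lit 390) (nat_lit 5) (nat_lit 490) (nat_lit 468) (nat_lit 182)) (XT.lf (nat_lit 0) (nat_lit 11562067332) (nat_lit 1748) (nat_lit 12262600689) (nat_lit 1824) (nat_lit 5901459285) (nat_lit 367) (nat_lit 5) (nat_lit 390) (nat_lit 5) (nat_lit 391) (nat_lit 5) (nat_lit 491) (nat_lit 468) (nat_lit 181)))) (XT.nd (nat_lit 156) (nat_lit 1216) (nat_lit 0) (XT.nd (nat_lit 78) (nat_lit 0) (nat_lit 76) (XT.lf (nat_lit 76) (nat_lit 2046463464) (nat_lit 0) (nat_lit 11574947739) (nat_lit 1824) (nat_lit 16430109319) (nat_lit 368) (nat_lit 5) (nat_lit 367) (nat_lit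 5) (nat_lit 391) (nat_lit 5) (nat_lit 492) (nat_lit 468) (nat_lit 180)) (XT.lf (nat_lit 0) (nat_lit 15808770395) (nat_lit 1748) (nat_lit 13582054559) (nat_lit 76) (nat_lit 990861548) (nat_lit 368) (nat_lit 5) (nat_lit 391) (nat_lit 5) (nat_lit 369) (nat_lit 5) (nat_lit 493) (nat_lit 468) (nat_lit 179))) (XT.nd (nat_lit 78) (nat_lit 0) (nat_lit 0) (XT.lf (nat_lit 0) (nat_lit 1065060667) (nat_lit 1292) (nat_lit 17056448469) (nat_lit 1368) (nat_lit 12595315457) (nat_lit 351) (nat_lit 5) (nat_lit 368) (nat_lit 5) (nat_lit 369) (nat_lit 5) (nat_lit 494) (nat_lit 468) (nat_lit 178)) (XT.lf (nat_lit 0) (nat_lit 16187576944) (nat_lit 1292) (nat_lit 4382157735) (nat_lit 1368) (nat_lit 10487147537) (nat_lit 351) (nat_lit 5) (nat_lit 368) (nat_lit 5) (nat_lit 369) (nat_lit 5) (nat_lit 495) (nat_lit 468) (nat_lit 177))))))))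
noncomputable def xc251 : XT := (XT.nd (nat_lit 59046) (nat_lit 0) (nat_lit 912) (XT.nd (nat_lit 57954) (nat_lit 0) (nat_lit 3572) (XT.nd (nat_lit 57408) (nat_lit 0) (nat_lit 4864) (XT.nd (nat_lit 234) (nat_lit 1748) (nat_lit 0) (XT.nd (nat_lit 78) (nat_lit 0) (nat_lit 0) (XT.lf (nat_lit 0) (nat_lit 153676481) (nat_lit 836) (nat_lit 22967858266) (nat_lit 912) (nat_lit 8281115426) (nat_lit 340) (nat_lit 5) (nat_lit 351) (nat_lit 5) (nat_lit 352) (nat_lit 5) (nat_lit 496) (nat_lit 468) (nat_lit 176)) (XT.nd (nat_lit 78) (nat_lit 0) (nat_lit 0) (XT.lf (nat_lit 0) (nat_lit 15647621794) (nat_lit 836) (nat_lit 10203514297) (nat_lit 912) (nat_lit 5901663449) (nat_lit 340) (nat_lit 5) (nat_lit 351) (nat_lit 5) (nat_lit 352) (nat_lit 5) (nat_lit 497) (nat_lit 468) (nat_lit 175)) (XT.lf (nat_lit 0) (nat_lit 28651805436) (nat_lit 912) (nat_lit 678443306) (nat_lit 76) (nat_lit 2779374961) (nat_lit 340) (nat_lit 5) (nat_lit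 352) (nat_lit 5) (nat_lit 341) (nat_lit 5) (nat_lit 498) (nat_lit 468) (nat_lit 174)))) (XT.nd (nat_lit 57018) (nat_lit 0) (nat_lit 4788) (XT.nd (nat_lit 156) (nat_lit 912) (nat_lit 0) (XT.lf (nat_lit 0) (nat_lit 15186809710) (nat_lit 836) (nat_lit 16486081572) (nat_lit 912) (nat_lit 797406309) (nat_lit 329) (nat_lit 5) (nat_lit 340) (nat_lit 5) (nat_lit 341) (nat_lit 5) (nat_lit 499) (nat_lit 468) (nat_lit 173)) (XT.lf (nat_lit 0) (nat_lit 4788686156) (nat_lit 912) (nat_lit 18436345843) (nat_lit 76) (nat_lit 9984473332) (nat_lit 317) (nat_lit 5) (nat_lit 329) (nat_lit 5) (nat_lit 318) (nat_lit 5) (nat_lit 501) (nat_lit 468) (nat_lit 171))) (XT.nd (nat_lit 78) (nat_lit 0) (nat_lit 0) (XT.lf (nat_lit 0) (nat_lit 7234526517) (nat_lit 1748) (nat_lit 2358250011) (nat_lit 1748) (nat_lit 2358250011) (nat_lit 380) (nat_lit 3) (nat_lit 403) (nat_lit 3) (nat_lit 403) (nat_lit 5) (nat_lit 469) (nat_lit 469) (nat_lit 202))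 (XT.lf (nat_lit 76) (nat_lit 6225702522) (nat_lit 0) (nat_lit 8538533284) (nat_lit 1748) (nat_lit 9373741462) (nat_lit 381) (nat_lit 5) (nat_lit 380) (nat_lit 3) (nat_lit 403) (nat_lit 5) (nat_lit 470) (nat_lit 469) (nat_lit 201))))) (XT.nd (nat_lit 234) (nat_lit 0) (nat_lit 76) (XT.nd (nat_lit 78) (nat_lit 0) (nat_lit 0) (XT.lf (nat_lit 0) (nat_lit 15109366499) (nat_lit 1672) (nat_lit 6944148776) (nat_lit 1748) (nat_lit 2324226048) (nat_lit 381) (nat_lit 5) (nat_lit 403) (nat_lit 5) (nat_lit 404) (nat_lit 5) (nat_lit 471) (nat_lit 469) (nat_lit 200)) (XT.nd (nat_lit 78) (nat_lit 0) (nat_lit 0) (XT.lf (nat_lit 76) (nat_lit 4240881182) (nat_lit 0) (nat_lit 11301768660) (nat_lit 1748) (nat_lit 9078028043) (nat_lit 382) (nat_lit 5) (nat_lit 381) (nat_lit 5) (nat_lit 404) (nat_lit 5) (nat_lit 472) (nat_lit 469) (nat_lit 199)) (XT.lf (nat_lit 76) (nat_lit 15742219710) (nat_lit 0) (nat_lit 286192511) (nat_lit 1748)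 (nat_lit 8839186870) (nat_lit 382) (nat_lit 5) (nat_lit 381) (nat_lit 5) (nat_lit 404) (nat_lit 5) (nat_lit 473) (nat_lit 469) (nat_lit 198)))) (XT.nd (nat_lit 156) (nat_lit 0) (nat_lit 76) (XT.nd (nat_lit 78) (nat_lit 0) (nat_lit 0) (XT.lf (nat_lit 76) (nat_lit 2311796474) (nat_lit 0) (nat_lit 14295472912) (nat_lit 1748) (nat_lit 8510523881) (nat_lit 383) (nat_lit 5) (nat_lit 382) (nat_lit 5) (nat_lit 405) (nat_lit 5) (nat_lit 474) (nat_lit 469) (nat_lit 197)) (XT.lf (nat_lit 76) (nat_lit 14097945752) (nat_lit 0) (nat_lit 3160197375) (nat_lit 1748) (nat_lit 8113641509) (nat_lit 383) (nat_lit 5) (nat_lit 382) (nat_lit 5) (nat_lit 405) (nat_lit 5) (nat_lit 475) (nat_lit 469) (nat_lit 196))) (XT.nd (nat_lit 78) (nat_lit 0) (nat_lit 0) (XT.lf (nat_lit 76) (nat_lit 439928478) (nat_lit 0) (nat_lit 17535567858) (nat_lit 1748) (nat_lit 7654292310) (nat_lit 384) (nat_lit 5) (nat_lit 383) (nat_lit 5) (nat_lit 406) (nat_lit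 5) (nat_lit 476) (nat_lit 469) (nat_lit 195)) (XT.lf (nat_lit 76) (nat_lit 12518016840) (nat_lit 0) (nat_lit 6283045363) (nat_lit 1748) (nat_lit 7090015236) (nat_lit 384) (nat_lit 5) (nat_lit 383) (nat_lit 5) (nat_lit 406) (nat_lit 5) (nat_lit 477) (nat_lit 469) (nat_lit 194)))))) (XT.nd (nat_lit 546) (nat_lit 1520) (nat_lit 0) (XT.nd (nat_lit 234) (nat_lit 0) (nat_lit 76) (XT.nd (nat_lit 78) (nat_lit 0) (nat_lit 0) (XT.lf (nat_lit 0) (nat_lit 19674344131) (nat_lit 1672) (nat_lit 1355247205) (nat_lit 1748) (nat_lit 5127378553) (nat_lit 384) (nat_lit 5) (nat_lit 406) (nat_lit 5) (nat_lit 407) (nat_lit 5) (nat_lit 478) (nat_lit 469) (nat_lit 193)) (XT.nd (nat_lit 78) (nat_lit 0) (nat_lit 76) (XT.lf (nat_lit 76) (nat_lit 11004068668) (nat_lit 0) (nat_lit 9671606179) (nat_lit 1748) (nat_lit 5750295615) (nat_lit 385) (nat_lit 5) (nat_lit 384) (nat_lit 5) (nat_lit 407) (nat_lit 5) (nat_lit 479) (nat_lit 469) (nat_lit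 192)) (XT.lf (nat_lit 0) (nat_lit 21716182748) (nat_lit 1672) (nat_lit 3085322302) (nat_lit 1748) (nat_lit 1898464882) (nat_lit 385) (nat_lit 5) (nat_lit 407) (nat_lit 5) (nat_lit 408) (nat_lit 5) (nat_lit 480) (nat_lit 469) (nat_lit 191)))) (XT.nd (nat_lit 156) (nat_lit 0) (nat_lit 76) (XT.nd (nat_lit 78) (nat_lit 0) (nat_lit 0) (XT.lf (nat_lit 76) (nat_lit 9557710532) (nat_lit 0) (nat_lit 13343515211) (nat_lit 1748) (nat_lit 4075751011) (nat_lit 386) (nat_lit 5) (nat_lit 385) (nat_lit 5) (nat_lit 408) (nat_lit 5) (nat_lit 481) (nat_lit 469) (nat_lit 190)) (XT.lf (nat_lit 76) (nat_lit 22493857801) (nat_lit 0) (nat_lit 1634471992) (nat_lit 1748) (nat_lit 3130828542) (nat_lit 386) (nat_lit 5) (nat_lit 385) (nat_lit 5) (nat_lit 408) (nat_lit 5) (nat_lit 482) (nat_lit 469) (nat_lit 189))) (XT.nd (nat_lit 78) (nat_lit 0) (nat_lit 0) (XT.lf (nat_lit 76) (nat_lit 8180511585) (nat_lit 0) (nat_lit 17317215855) (nat_lit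 1748) (nat_lit 2046902864) (nat_lit 387) (nat_lit 5) (nat_lit 386) (nat_lit 5) (nat_lit 409) (nat_lit 5) (nat_lit 483) (nat_lit 469) (nat_lit 188)) (XT.lf (nat_lit 76) (nat_lit 21437286640) (nat_lit 0) (nat_lit 5497698836) (nat_lit 1748) (nat_lit 900018543) (nat_lit 387) (nat_lit 5) (nat_lit 386) (nat_lit 5) (nat_lit 409) (nat_lit 5) (nat_lit 484) (nat_lit 469) (nat_lit 187))))) (XT.nd (nat_lit 234) (nat_lit 0) (nat_lit 76) (XT.nd (nat_lit 78) (nat_lit 0) (nat_lit 0) (XT.lf (nat_lit 0) (nat_lit 351827138) (nat_lit 1748) (nat_lit 21257815632) (nat_lit 1824) (nat_lit 6519797845) (nat_lit 364) (nat_lit 5) (nat_lit 387) (nat_lit 5) (nat_lit 388) (nat_lit 5) (nat_lit 485) (nat_lit 469) (nat_lit 186)) (XT.nd (nat_lit 78) (nat_lit 0) (nat_lit 76) (XT.lf (nat_lit 0) (nat_lit 1694101909) (nat_lit 1748) (nat_lit 7980103325) (nat_lit 1824) (nat_lit 18753894511) (nat_lit 364) (nat_lit 5) (nat_lit 387) (nat_lit 5) (nat_lit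 388) (nat_lit 5) (nat_lit 486) (nat_lit 469) (nat_lit 185)) (XT.lf (nat_lit 0) (nat_lit 3114138908) (nat_lit 1748) (nat_lit 23113036383) (nat_lit 1824) (nat_lit 2504540051) (nat_lit 365) (nat_lit 5) (nat_lit 388) (nat_lit 5) (nat_lit 389) (nat_lit 5) (nat_lit 487) (nat_lit 469) (nat_lit 184)))) (XT.nd (nat_lit 156) (nat_lit 0) (nat_lit 76) (XT.nd (nat_lit 78) (nat_lit 0) (nat_lit 0) (XT.lf (nat_lit 0) (nat_lit 4678435171) (nat_lit 1748) (nat_lit 9508770074) (nat_lit 1824) (nat_lit 14851882425) (nat_lit 365) (nat_lit 5) (nat_lit 388) (nat_lit 5) (nat_lit 389) (nat_lit 5) (nat_lit 488) (nat_lit 469) (nat_lit 183)) (XT.lf (nat_lit 76) (nat_lit 4424010208) (nat_lit 0) (nat_lit 1876657823) (nat_lit 1824) (nat_lit 23051407958) (nat_lit 366) (nat_lit 5) (nat_lit 365) (nat_lit 5) (nat_lit 389) (nat_lit 5) (nat_lit 489) (nat_lit 469) (nat_lit 182))) (XT.nd (nat_lit 78) (nat_lit 0) (nat_lit 0) (XT.lf (nat_lit 0) (nat_lit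 8086879694) (nat_lit 1748) (nat_lit 10977100719) (nat_lit 1824) (nat_lit 10604714504) (nat_lit 366) (nat_lit 5) (nat_lit 389) (nat_lit 5) (nat_lit 390) (nat_lit 5) (nat_lit 490) (nat_lit 469) (nat_lit 181)) (XT.lf (nat_lit 76) (nat_lit 3281902177) (nat_lit 0) (nat_lit 6658650309) (nat_lit 1824) (nat_lit 20050460498) (nat_lit 367) (nat_lit 5) (nat_lit 366) (nat_lit 5) (nat_lit 390) (nat_lit 5) (nat_lit 491) (nat_lit 469) (nat_lit 180))))))) (XT.nd (nat_lit 58032) (nat_lit 0) (nat_lit 2660) (XT.nd (nat_lit 546) (nat_lit 836) (nat_lit 0) (XT.nd (nat_lit 234) (nat_lit 2052) (nat_lit 0) (XT.nd (nat_lit 78) (nat_lit 0) (nat_lit 0) (XT.lf (nat_lit 0) (nat_lit 11942402643) (nat_lit 1748) (nat_lit 12384460395) (nat_lit 1824) (nat_lit 5990693763) (nat_lit 367) (nat_lit 5) (nat_lit 390) (nat_lit 5) (nat_lit 391) (nat_lit 5) (nat_lit 492) (nat_lit 469) (nat_lit 179)) (XT.nd (nat_lit 78) (nat_lit 0) (nat_lit 76) (XT.lf (nat_lit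 76) (nat_lit 2209973250) (nat_lit 0) (nat_lit 11830832605) (nat_lit 1824) (nat_lit 16608696757) (nat_lit 368) (nat_lit 5) (nat_lit 367) (nat_lit 5) (nat_lit 391) (nat_lit 5) (nat_lit 493) (nat_lit 469) (nat_lit 178)) (XT.lf (nat_lit 0) (nat_lit 16268875311) (nat_lit 1748) (nat_lit 13730374898) (nat_lit 76) (nat_lit 987084578) (nat_lit 368) (nat_lit 5) (nat_lit 391) (nat_lit 5) (nat_lit 369) (nat_lit 5) (nat_lit 494) (nat_lit 469) (nat_lit 177)))) (XT.nd (nat_lit 156) (nat_lit 836) (nat_lit 0) (XT.nd (nat_lit 78) (nat_lit 0) (nat_lit 0) (XT.lf (nat_lit 0) (nat_lit 1208871312) (nat_lit 1292) (nat_lit 17416970780) (nat_lit 1368) (nat_lit 12702376177) (nat_lit 351) (nat_lit 5) (nat_lit 368) (nat_lit 5) (nat_lit 369) (nat_lit 5) (nat_lit 495) (nat_lit 469) (nat_lit 176)) (XT.lf (nat_lit 0) (nat_lit 16631435769) (nat_lit 1292) (nat_lit 4488813969) (nat_lit 1368) (nat_lit 10554885008) (nat_lit 351) (nat_lit 5) (nat_lit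 368) (nat_lit 5) (nat_lit 369) (nat_lit 5) (nat_lit 496) (nat_lit 469) (nat_lit 175))) (XT.nd (nat_lit 78) (nat_lit 0) (nat_lit 0) (XT.lf (nat_lit 0) (nat_lit 279055883) (nat_lit 836) (nat_lit 23441975140) (nat_lit 912) (nat_lit 8306830149) (nat_lit 340) (nat_lit 5) (nat_lit 351) (nat_lit 5) (nat_lit 352) (nat_lit 5) (nat_lit 497) (nat_lit 469) (nat_lit 174)) (XT.lf (nat_lit 0) (nat_lit 16080481947) (nat_lit 836) (nat_lit 10422054886) (nat_lit 912) (nat_lit 5882532419) (nat_lit 340) (nat_lit 5) (nat_lit 351) (nat_lit 5) (nat_lit 352) (nat_lit 5) (nat_lit 498) (nat_lit 469) (nat_lit 173))))) (XT.nd (nat_lit 57174) (nat_lit 0) (nat_lit 3876) (XT.nd (nat_lit 78) (nat_lit 836) (nat_lit 0) (XT.lf (nat_lit 0) (nat_lit 29356492593) (nat_lit 912) (nat_lit 571631832) (nat_lit 76) (nat_lit 2820961949) (nat_lit 340) (nat_lit 5) (nat_lit 352) (nat_lit 5) (nat_lit 341) (nat_lit 5) (nat_lit 499) (nat_lit 469) (nat_lit 172))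 (XT.nd (nat_lit 57018) (nat_lit 0) (nat_lit 3876) (XT.lf (nat_lit 0) (nat_lit 15610134269) (nat_lit 836) (nat_lit 16826060942) (nat_lit 912) (nat_lit 680816526) (nat_lit 329) (nat_lit 5) (nat_lit 340) (nat_lit 5) (nat_lit 341) (nat_lit 5) (nat_lit 500) (nat_lit 469) (nat_lit 171)) (XT.lf (nat_lit 0) (nat_lit 7488573246) (nat_lit 1748) (nat_lit 2349600382) (nat_lit 1748) (nat_lit 2349600382) (nat_lit 380) (nat_lit 3) (nat_lit 403) (nat_lit 3) (nat_lit 403) (nat_lit 5) (nat_lit 470) (nat_lit 470) (nat_lit 200)))) (XT.nd (nat_lit 156) (nat_lit 0) (nat_lit 76) (XT.nd (nat_lit 78) (nat_lit 0) (nat_lit 76) (XT.lf (nat_lit 76) (nat_lit 6461111427) (nat_lit 0) (nat_lit 8813553016) (nat_lit 1748) (nat_lit 9341600990) (nat_lit 381) (nat_lit 5) (nat_lit 380) (nat_lit 3) (nat_lit 403) (nat_lit 5) (nat_lit 471) (nat_lit 470) (nat_lit 199)) (XT.lf (nat_lit 0) (nat_lit 15621815661) (nat_lit 1672) (nat_lit 6969264018) (nat_lit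 1748) (nat_lit 2269846038) (nat_lit 381) (nat_lit 5) (nat_lit 403) (nat_lit 5) (nat_lit 404) (nat_lit 5) (nat_lit 472) (nat_lit 470) (nat_lit 198))) (XT.nd (nat_lit 78) (nat_lit 0) (nat_lit 0) (XT.lf (nat_lit 76) (nat_lit 4438718067) (nat_lit 0) (nat_lit 11621657618) (nat_lit 1748) (nat_lit 9048416343) (nat_lit 382) (nat_lit 5) (nat_lit 381) (nat_lit 5) (nat_lit 404) (nat_lit 5) (nat_lit 473) (nat_lit 470) (nat_lit 197)) (XT.lf (nat_lit 76) (nat_lit 16167867302) (nat_lit 0) (nat_lit 383929680) (nat_lit 1748) (nat_lit 8808938979) (nat_lit 382) (nat_lit 5) (nat_lit 381) (nat_lit 5) (nat_lit 404) (nat_lit 5) (nat_lit 474) (nat_lit 470) (nat_lit 196)))))) (XT.nd (nat_lit 546) (nat_lit 1368) (nat_lit 0) (XT.nd (nat_lit 234) (nat_lit 0) (nat_lit 76) (XT.nd (nat_lit 78) (nat_lit 0) (nat_lit 0) (XT.lf (nat_lit 76) (nat_lit 2472887495) (nat_lit 0) (nat_lit 14665527019) (nat_lit 1748) (nat_lit 8477598956) (nat_lit 383)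 (nat_lit 5) (nat_lit 382) (nat_lit 5) (nat_lit 405) (nat_lit 5) (nat_lit 475) (nat_lit 470) (nat_lit 195)) (XT.nd (nat_lit 78) (nat_lit 0) (nat_lit 76) (XT.lf (nat_lit 76) (nat_lit 14492507698) (nat_lit 0) (nat_lit 3305896075) (nat_lit 1748) (nat_lit 8076761984) (nat_lit 383) (nat_lit 5) (nat_lit 382) (nat_lit 5) (nat_lit 405) (nat_lit 5) (nat_lit 476) (nat_lit 470) (nat_lit 194)) (XT.lf (nat_lit 76) (nat_lit 565149253) (nat_lit 0) (nat_lit 17961360129) (nat_lit 1748) (nat_lit 7611895351) (nat_lit 384) (nat_lit 5) (nat_lit 383) (nat_lit 5) (nat_lit 406) (nat_lit 5) (nat_lit 477) (nat_lit 470) (nat_lit 193)))) (XT.nd (nat_lit 156) (nat_lit 0) (nat_lit 76) (XT.nd (nat_lit 78) (nat_lit 0) (nat_lit 76) (XT.lf (nat_lit 76) (nat_lit 12882516594) (nat_lit 0) (nat_lit 6482315009) (nat_lit 1748) (nat_lit 7040165732) (nat_lit 384) (nat_lit 5) (nat_lit 383) (nat_lit 5) (nat_lit 406) (nat_lit 5) (nat_lit 478) (nat_lit 470)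 (nat_lit 192)) (XT.lf (nat_lit 0) (nat_lit 20251429287) (nat_lit 1672) (nat_lit 1266157064) (nat_lit 1748) (nat_lit 5158707157) (nat_lit 384) (nat_lit 5) (nat_lit 406) (nat_lit 5) (nat_lit 407) (nat_lit 5) (nat_lit 479) (nat_lit 470) (nat_lit 191))) (XT.nd (nat_lit 78) (nat_lit 0) (nat_lit 76) (XT.lf (nat_lit 76) (nat_lit 11339580685) (nat_lit 0) (nat_lit 9930355418) (nat_lit 1748) (nat_lit 5680797819) (nat_lit 385) (nat_lit 5) (nat_lit 384) (nat_lit 5) (nat_lit 407) (nat_lit 5) (nat_lit 480) (nat_lit 470) (nat_lit 190)) (XT.lf (nat_lit 0) (nat_lit 22327294323) (nat_lit 1672) (nat_lit 3029763381) (nat_lit 1748) (nat_lit 1873237640) (nat_lit 385) (nat_lit 5) (nat_lit 407) (nat_lit 5) (nat_lit 408) (nat_lit 5) (nat_lit 481) (nat_lit 470) (nat_lit 189))))) (XT.nd (nat_lit 312) (nat_lit 1596) (nat_lit 0) (XT.nd (nat_lit 156) (nat_lit 0) (nat_lit 76) (XT.nd (nat_lit 78) (nat_lit 0) (nat_lit 0) (XT.lf (nat_lit 76)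 (nat_lit 9865358628) (nat_lit 0) (nat_lit 13667969475) (nat_lit 1748) (nat_lit 3979571111) (nat_lit 386) (nat_lit 5) (nat_lit 385) (nat_lit 5) (nat_lit 408) (nat_lit 5) (nat_lit 482) (nat_lit 470) (nat_lit 188)) (XT.lf (nat_lit 76) (nat_lit 23057944648) (nat_lit 0) (nat_lit 1723616295) (nat_lit 1748) (nat_lit 3019234406) (nat_lit 386) (nat_lit 5) (nat_lit 385) (nat_lit 5) (nat_lit 408) (nat_lit 5) (nat_lit 483) (nat_lit 470) (nat_lit 187))) (XT.nd (nat_lit 78) (nat_lit 0) (nat_lit 0) (XT.lf (nat_lit 76) (nat_lit 8461467082) (nat_lit 0) (nat_lit 17713935625) (nat_lit 1748) (nat_lit 1916635533) (nat_lit 387) (nat_lit 5) (nat_lit 386) (nat_lit 5) (nat_lit 409) (nat_lit 5) (nat_lit 484) (nat_lit 470) (nat_lit 186)) (XT.lf (nat_lit 76) (nat_lit 21981076750) (nat_lit 0) (nat_lit 5657040512) (nat_lit 1748) (nat_lit 750170493) (nat_lit 387) (nat_lit 5) (nat_lit 386) (nat_lit 5) (nat_lit 409) (nat_lit 5) (nat_lit 485)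 (nat_lit 470) (nat_lit 185)))) (XT.nd (nat_lit 156) (nat_lit 0) (nat_lit 76) (XT.nd (nat_lit 78) (nat_lit 0) (nat_lit 0) (XT.lf (nat_lit 0) (nat_lit 521717513) (nat_lit 1748) (nat_lit 21562685037) (nat_lit 1824) (nat_lit 6604247057) (nat_lit 364) (nat_lit 5) (nat_lit 387) (nat_lit 5) (nat_lit 388) (nat_lit 5) (nat_lit 486) (nat_lit 470) (nat_lit 184)) (XT.lf (nat_lit 0) (nat_lit 1887644567) (nat_lit 1748) (nat_lit 8021777051) (nat_lit 1824) (nat_lit 19083926573) (nat_lit 364) (nat_lit 5) (nat_lit 387) (nat_lit 5) (nat_lit 388) (nat_lit 5) (nat_lit 487) (nat_lit 470) (nat_lit 183))) (XT.nd (nat_lit 78) (nat_lit 0) (nat_lit 0) (XT.lf (nat_lit 0) (nat_lit 3333451734) (nat_lit 1748) (nat_lit 23454620220) (nat_lit 1824) (nat_lit 2515019117) (nat_lit 365) (nat_lit 5) (nat_lit 388) (nat_lit 5) (nat_lit 389) (nat_lit 5) (nat_lit 488) (nat_lit 470) (nat_lit 182)) (XT.lf (nat_lit 0) (nat_lit 4925954901) (nat_lit 1748)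 (nat_lit 9580634798) (nat_lit 1824) (nat_lit 15110085040) (nat_lit 365) (nat_lit 5) (nat_lit 388) (nat_lit 5) (nat_lit 389) (nat_lit 5) (nat_lit 489) (nat_lit 470) (nat_lit 181))))))))
noncomputable def xc252 : XT := (XT.nd (nat_lit 59280) (nat_lit 0) (nat_lit 0) (XT.nd (nat_lit 58188) (nat_lit 0) (nat_lit 1824) (XT.nd (nat_lit 546) (nat_lit 836) (nat_lit 0) (XT.nd (nat_lit 234) (nat_lit 1064) (nat_lit 0) (XT.nd (nat_lit 78) (nat_lit 0) (nat_lit 76) (XT.lf (nat_lit 76) (nat_lit 4630022729) (nat_lit 0) (nat_lit 1948354140) (nat_lit 1824) (nat_lit 23357593334) (nat_lit 366) (nat_lit 5) (nat_lit 365) (nat_lit 5) (nat_lit 389) (nat_lit 5) (nat_lit 490) (nat_lit 470) (nat_lit 180)) (XT.nd (nat_lit 78) (nat_lit 0) (nat_lit 0) (XT.lf (nat_lit 0) (nat_lit 8397120883) (nat_lit 1748) (nat_lit 11078111917) (nat_lit 1824) (nat_lit 10783754771) (nat_lit 366) (nat_lit 5) (nat_lit 389) (nat_lit 5) (nat_lit 390) (nat_lit 5)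 (nat_lit 491) (nat_lit 470) (nat_lit 179)) (XT.lf (nat_lit 76) (nat_lit 3465291229) (nat_lit 0) (nat_lit 6820428584) (nat_lit 1824) (nat_lit 20302077312) (nat_lit 367) (nat_lit 5) (nat_lit 366) (nat_lit 5) (nat_lit 390) (nat_lit 5) (nat_lit 492) (nat_lit 470) (nat_lit 178)))) (XT.nd (nat_lit 156) (nat_lit 1216) (nat_lit 0) (XT.nd (nat_lit 78) (nat_lit 0) (nat_lit 0) (XT.lf (nat_lit 0) (nat_lit 12324555160) (nat_lit 1748) (nat_lit 12513548769) (nat_lit 1824) (nat_lit 6082831064) (nat_lit 367) (nat_lit 5) (nat_lit 390) (nat_lit 5) (nat_lit 391) (nat_lit 5) (nat_lit 493) (nat_lit 470) (nat_lit 177)) (XT.lf (nat_lit 76) (nat_lit 2371993281) (nat_lit 0) (nat_lit 12090888233) (nat_lit 1824) (nat_lit 16796681199) (nat_lit 368) (nat_lit 5) (nat_lit 367) (nat_lit 5) (nat_lit 391) (nat_lit 5) (nat_lit 494) (nat_lit 470) (nat_lit 176))) (XT.nd (nat_lit 78) (nat_lit 1292) (nat_lit 0) (XT.lf (nat_lit 0) (nat_lit 16732593367)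 (nat_lit 1748) (nat_lit 13886450339) (nat_lit 76) (nat_lit 984148260) (nat_lit 368) (nat_lit 5) (nat_lit 391) (nat_lit 5) (nat_lit 369) (nat_lit 5) (nat_lit 495) (nat_lit 470) (nat_lit 175)) (XT.lf (nat_lit 0) (nat_lit 1350800979) (nat_lit 1292) (nat_lit 17783950470) (nat_lit 1368) (nat_lit 12817202643) (nat_lit 351) (nat_lit 5) (nat_lit 368) (nat_lit 5) (nat_lit 369) (nat_lit 5) (nat_lit 496) (nat_lit 470) (nat_lit 174))))) (XT.nd (nat_lit 57330) (nat_lit 0) (nat_lit 3040) (XT.nd (nat_lit 78) (nat_lit 836) (nat_lit 0) (XT.lf (nat_lit 0) (nat_lit 17079507858) (nat_lit 1292) (nat_lit 4596865027) (nat_lit 1368) (nat_lit 10629491475) (nat_lit 351) (nat_lit 5) (nat_lit 368) (nat_lit 5) (nat_lit 369) (nat_lit 5) (nat_lit 497) (nat_lit 470) (nat_lit 173)) (XT.nd (nat_lit 78) (nat_lit 0) (nat_lit 0) (XT.lf (nat_lit 0) (nat_lit 402193587) (nat_lit 836) (nat_lit 23925001214) (nat_lit 912) (nat_lit 8338491949) (nat_lit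 340) (nat_lit 5) (nat_lit 351) (nat_lit 5) (nat_lit 352) (nat_lit 5) (nat_lit 498) (nat_lit 470) (nat_lit 172)) (XT.lf (nat_lit 0) (nat_lit 16517343142) (nat_lit 836) (nat_lit 10644404387) (nat_lit 912) (nat_lit 5868345025) (nat_lit 340) (nat_lit 5) (nat_lit 351) (nat_lit 5) (nat_lit 352) (nat_lit 5) (nat_lit 499) (nat_lit 470) (nat_lit 171)))) (XT.nd (nat_lit 156) (nat_lit 0) (nat_lit 76) (XT.nd (nat_lit 78) (nat_lit 0) (nat_lit 0) (XT.lf (nat_lit 0) (nat_lit 7743454475) (nat_lit 1748) (nat_lit 2342945111) (nat_lit 1748) (nat_lit 2342945111) (nat_lit 380) (nat_lit 3) (nat_lit 403) (nat_lit 3) (nat_lit 403) (nat_lit 5) (nat_lit 471) (nat_lit 471) (nat_lit 198)) (XT.lf (nat_lit 76) (nat_lit 6696922329) (nat_lit 0) (nat_lit 9090025026) (nat_lit 1748) (nat_lit 9317345638) (nat_lit 381) (nat_lit 5) (nat_lit 380) (nat_lit 3) (nat_lit 403) (nat_lit 5) (nat_lit 472) (nat_lit 471) (nat_lit 197))) (XT.nd (nat_lit 78)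 (nat_lit 0) (nat_lit 0) (XT.lf (nat_lit 0) (nat_lit 16136349082) (nat_lit 1672) (nat_lit 6999299305) (nat_lit 1748) (nat_lit 2218295120) (nat_lit 381) (nat_lit 5) (nat_lit 403) (nat_lit 5) (nat_lit 404) (nat_lit 5) (nat_lit 473) (nat_lit 471) (nat_lit 196)) (XT.lf (nat_lit 76) (nat_lit 4636123014) (nat_lit 0) (nat_lit 11944299907) (nat_lit 1748) (nat_lit 9026412485) (nat_lit 382) (nat_lit 5) (nat_lit 381) (nat_lit 5) (nat_lit 404) (nat_lit 5) (nat_lit 474) (nat_lit 471) (nat_lit 195)))))) (XT.nd (nat_lit 546) (nat_lit 1292) (nat_lit 0) (XT.nd (nat_lit 234) (nat_lit 0) (nat_lit 152) (XT.nd (nat_lit 78) (nat_lit 0) (nat_lit 76) (XT.lf (nat_lit 76) (nat_lit 16597725222) (nat_lit 0) (nat_lit 480048603) (nat_lit 1748) (nat_lit 8786125420) (nat_lit 382) (nat_lit 5) (nat_lit 381) (nat_lit 5) (nat_lit 404) (nat_lit 5) (nat_lit 475) (nat_lit 471) (nat_lit 194)) (XT.nd (nat_lit 78) (nat_lit 0) (nat_lit 0) (XT.lf (nat_lit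 76) (nat_lit 2632740374) (nat_lit 0) (nat_lit 15039714768) (nat_lit 1748) (nat_lit 8451903527) (nat_lit 383) (nat_lit 5) (nat_lit 382) (nat_lit 5) (nat_lit 405) (nat_lit 5) (nat_lit 476) (nat_lit 471) (nat_lit 193)) (XT.lf (nat_lit 76) (nat_lit 14890588370) (nat_lit 0) (nat_lit 3451305378) (nat_lit 1748) (nat_lit 8046878196) (nat_lit 383) (nat_lit 5) (nat_lit 382) (nat_lit 5) (nat_lit 405) (nat_lit 5) (nat_lit 477) (nat_lit 471) (nat_lit 192)))) (XT.nd (nat_lit 156) (nat_lit 0) (nat_lit 76) (XT.nd (nat_lit 78) (nat_lit 0) (nat_lit 0) (XT.lf (nat_lit 76) (nat_lit 688353628) (nat_lit 0) (nat_lit 18392752761) (nat_lit 1748) (nat_lit 7576241289) (nat_lit 384) (nat_lit 5) (nat_lit 383) (nat_lit 5) (nat_lit 406) (nat_lit 5) (nat_lit 478) (nat_lit 471) (nat_lit 191)) (XT.lf (nat_lit 76) (nat_lit 13249874171) (nat_lit 0) (nat_lit 6682711731) (nat_lit 1748) (nat_lit 6996761234) (nat_lit 384) (nat_lit 5) (nat_lit 383)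 (nat_lit 5) (nat_lit 406) (nat_lit 5) (nat_lit 479) (nat_lit 471) (nat_lit 190))) (XT.nd (nat_lit 78) (nat_lit 0) (nat_lit 0) (XT.lf (nat_lit 0) (nat_lit 20832926801) (nat_lit 1672) (nat_lit 1179797117) (nat_lit 1748) (nat_lit 5193427852) (nat_lit 384) (nat_lit 5) (nat_lit 406) (nat_lit 5) (nat_lit 407) (nat_lit 5) (nat_lit 480) (nat_lit 471) (nat_lit 189)) (XT.lf (nat_lit 76) (nat_lit 11677320630) (nat_lit 0) (nat_lit 10191743299) (nat_lit 1748) (nat_lit 5617074570) (nat_lit 385) (nat_lit 5) (nat_lit 384) (nat_lit 5) (nat_lit 407) (nat_lit 5) (nat_lit 481) (nat_lit 471) (nat_lit 188))))) (XT.nd (nat_lit 234) (nat_lit 1596) (nat_lit 0) (XT.nd (nat_lit 78) (nat_lit 0) (nat_lit 0) (XT.lf (nat_lit 0) (nat_lit 22943763238) (nat_lit 1672) (nat_lit 2977646838) (nat_lit 1748) (nat_lit 1849959852) (nat_lit 385) (nat_lit 5) (nat_lit 407) (nat_lit 5) (nat_lit 408) (nat_lit 5) (nat_lit 482) (nat_lit 471) (nat_lit 187))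 (XT.nd (nat_lit 78) (nat_lit 0) (nat_lit 0) (XT.lf (nat_lit 76) (nat_lit 10174636086) (nat_lit 0) (nat_lit 13996676770) (nat_lit 1748) (nat_lit 3888367723) (nat_lit 386) (nat_lit 5) (nat_lit 385) (nat_lit 5) (nat_lit 408) (nat_lit 5) (nat_lit 483) (nat_lit 471) (nat_lit 186)) (XT.lf (nat_lit 76) (nat_lit 23628878330) (nat_lit 0) (nat_lit 1812351272) (nat_lit 1748) (nat_lit 2912173201) (nat_lit 386) (nat_lit 5) (nat_lit 385) (nat_lit 5) (nat_lit 408) (nat_lit 5) (nat_lit 484) (nat_lit 471) (nat_lit 185)))) (XT.nd (nat_lit 156) (nat_lit 1672) (nat_lit 0) (XT.nd (nat_lit 78) (nat_lit 0) (nat_lit 0) (XT.lf (nat_lit 76) (nat_lit 8743485029) (nat_lit 0) (nat_lit 18116633651) (nat_lit 1748) (nat_lit 1790410968) (nat_lit 387) (nat_lit 5) (nat_lit 386) (nat_lit 5) (nat_lit 409) (nat_lit 5) (nat_lit 485) (nat_lit 471) (nat_lit 184)) (XT.lf (nat_lit 76) (nat_lit 22531275349) (nat_lit 0) (nat_lit 5817651237) (nat_lit 1748)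 (nat_lit 603843241) (nat_lit 387) (nat_lit 5) (nat_lit 386) (nat_lit 5) (nat_lit 409) (nat_lit 5) (nat_lit 486) (nat_lit 471) (nat_lit 183))) (XT.nd (nat_lit 78) (nat_lit 0) (nat_lit 0) (XT.lf (nat_lit 0) (nat_lit 688681882) (nat_lit 1748) (nat_lit 21878322717) (nat_lit 1824) (nat_lit 6692169422) (nat_lit 364) (nat_lit 5) (nat_lit 387) (nat_lit 5) (nat_lit 388) (nat_lit 5) (nat_lit 487) (nat_lit 471) (nat_lit 182)) (XT.lf (nat_lit 0) (nat_lit 2078858261) (nat_lit 1748) (nat_lit 8068863552) (nat_lit 1824) (nat_lit 19422308461) (nat_lit 364) (nat_lit 5) (nat_lit 387) (nat_lit 5) (nat_lit 388) (nat_lit 5) (nat_lit 488) (nat_lit 471) (nat_lit 181))))))) (XT.nd (nat_lit 58422) (nat_lit 0) (nat_lit 1824) (XT.nd (nat_lit 546) (nat_lit 1900) (nat_lit 0) (XT.nd (nat_lit 234) (nat_lit 0) (nat_lit 76) (XT.nd (nat_lit 78) (nat_lit 0) (nat_lit 0) (XT.lf (nat_lit 0) (nat_lit 3551053148) (nat_lit 1748) (nat_lit 23807721764)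 (nat_lit 1824) (nat_lit 2527245936) (nat_lit 365) (nat_lit 5) (nat_lit 388) (nat_lit 5) (nat_lit 389) (nat_lit 5) (nat_lit 489) (nat_lit 471) (nat_lit 180)) (XT.nd (nat_lit 78) (nat_lit 0) (nat_lit 0) (XT.lf (nat_lit 0) (nat_lit 5172446920) (nat_lit 1748) (nat_lit 9658530965) (nat_lit 1824) (nat_lit 15374959718) (nat_lit 365) (nat_lit 5) (nat_lit 388) (nat_lit 5) (nat_lit 389) (nat_lit 5) (nat_lit 490) (nat_lit 471) (nat_lit 179)) (XT.lf (nat_lit 76) (nat_lit 4835591578) (nat_lit 0) (nat_lit 2020157785) (nat_lit 1824) (nat_lit 23675915152) (nat_lit 366) (nat_lit 5) (nat_lit 365) (nat_lit 5) (nat_lit 389) (nat_lit 5) (nat_lit 491) (nat_lit 471) (nat_lit 178)))) (XT.nd (nat_lit 156) (nat_lit 0) (nat_lit 76) (XT.nd (nat_lit 78) (nat_lit 0) (nat_lit 0) (XT.lf (nat_lit 0) (nat_lit 8707800321) (nat_lit 1748) (nat_lit 11185746035) (nat_lit 1824) (nat_lit 10967659371) (nat_lit 366) (nat_lit 5) (nat_lit 389) (nat_lit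 5) (nat_lit 390) (nat_lit 5) (nat_lit 492) (nat_lit 471) (nat_lit 177)) (XT.lf (nat_lit 76) (nat_lit 3647775647) (nat_lit 0) (nat_lit 6984331648) (nat_lit 1824) (nat_lit 20564527551) (nat_lit 367) (nat_lit 5) (nat_lit 366) (nat_lit 5) (nat_lit 390) (nat_lit 5) (nat_lit 493) (nat_lit 471) (nat_lit 176))) (XT.nd (nat_lit 78) (nat_lit 0) (nat_lit 0) (XT.lf (nat_lit 0) (nat_lit 12708786040) (nat_lit 1748) (nat_lit 12649824324) (nat_lit 1824) (nat_lit 6177885826) (nat_lit 367) (nat_lit 5) (nat_lit 390) (nat_lit 5) (nat_lit 391) (nat_lit 5) (nat_lit 494) (nat_lit 471) (nat_lit 175)) (XT.lf (nat_lit 76) (nat_lit 2532678596) (nat_lit 0) (nat_lit 12355234810) (nat_lit 1824) (nat_lit 16994024384) (nat_lit 368) (nat_lit 5) (nat_lit 367) (nat_lit 5) (nat_lit 391) (nat_lit 5) (nat_lit 495) (nat_lit 471) (nat_lit 174))))) (XT.nd (nat_lit 57564) (nat_lit 0) (nat_lit 3040) (XT.nd (nat_lit 234) (nat_lit 2128) (nat_lit 0) (XT.lf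 (nat_lit 0) (nat_lit 17200213851) (nat_lit 1748) (nat_lit 14050250032) (nat_lit 76) (nat_lit 982033830) (nat_lit 368) (nat_lit 5) (nat_lit 391) (nat_lit 5) (nat_lit 369) (nat_lit 5) (nat_lit 496) (nat_lit 471) (nat_lit 173)) (XT.nd (nat_lit 57252) (nat_lit 0) (nat_lit 3040) (XT.lf (nat_lit 0) (nat_lit 523229179) (nat_lit 836) (nat_lit 24417136928) (nat_lit 912) (nat_lit 8376008805) (nat_lit 340) (nat_lit 5) (nat_lit 351) (nat_lit 5) (nat_lit 352) (nat_lit 5) (nat_lit 499) (nat_lit 471) (nat_lit 170)) (XT.lf (nat_lit 0) (nat_lit 7999351789) (nat_lit 1748) (nat_lit 2338239923) (nat_lit 1748) (nat_lit 2338239923) (nat_lit 380) (nat_lit 3) (nat_lit 403) (nat_lit 3) (nat_lit 403) (nat_lit 5) (nat_lit 472) (nat_lit 472) (nat_lit 196)))) (XT.nd (nat_lit 156) (nat_lit 0) (nat_lit 76) (XT.nd (nat_lit 78) (nat_lit 0) (nat_lit 76) (XT.lf (nat_lit 76) (nat_lit 6933310480) (nat_lit 0) (nat_lit 9368135550) (nat_lit 1748) (nat_lit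 9300801960) (nat_lit 381) (nat_lit 5) (nat_lit 380) (nat_lit 3) (nat_lit 403) (nat_lit 5) (nat_lit 473) (nat_lit 472) (nat_lit 195)) (XT.lf (nat_lit 0) (nat_lit 16653325495) (nat_lit 1672) (nat_lit 7034181491) (nat_lit 1748) (nat_lit 2169477787) (nat_lit 381) (nat_lit 5) (nat_lit 403) (nat_lit 5) (nat_lit 404) (nat_lit 5) (nat_lit 474) (nat_lit 472) (nat_lit 194))) (XT.nd (nat_lit 78) (nat_lit 0) (nat_lit 0) (XT.lf (nat_lit 76) (nat_lit 4833257802) (nat_lit 0) (nat_lit 12269892110) (nat_lit 1748) (nat_lit 9011850208) (nat_lit 382) (nat_lit 5) (nat_lit 381) (nat_lit 5) (nat_lit 404) (nat_lit 5) (nat_lit 475) (nat_lit 472) (nat_lit 193)) (XT.lf (nat_lit 76) (nat_lit 17032044754) (nat_lit 0) (nat_lit 574655659) (nat_lit 1748) (nat_lit 8770582706) (nat_lit 382) (nat_lit 5) (nat_lit 381) (nat_lit 5) (nat_lit 404) (nat_lit 5) (nat_lit 476) (nat_lit 472) (nat_lit 192)))))) (XT.nd (nat_lit 546) (nat_lit 1368) (nat_lit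 0) (XT.nd (nat_lit 234) (nat_lit 0) (nat_lit 76) (XT.nd (nat_lit 78) (nat_lit 0) (nat_lit 0) (XT.lf (nat_lit 76) (nat_lit 2791503532) (nat_lit 0) (nat_lit 15418245712) (nat_lit 1748) (nat_lit 8433275885) (nat_lit 383) (nat_lit 5) (nat_lit 382) (nat_lit 5) (nat_lit 405) (nat_lit 5) (nat_lit 477) (nat_lit 472) (nat_lit 191)) (XT.nd (nat_lit 78) (nat_lit 0) (nat_lit 76) (XT.lf (nat_lit 76) (nat_lit 15292427932) (nat_lit 0) (nat_lit 3596543886) (nat_lit 1748) (nat_lit 8023829767) (nat_lit 383) (nat_lit 5) (nat_lit 382) (nat_lit 5) (nat_lit 405) (nat_lit 5) (nat_lit 478) (nat_lit 472) (nat_lit 190)) (XT.lf (nat_lit 76) (nat_lit 809676822) (nat_lit 0) (nat_lit 18829970975) (nat_lit 1748) (nat_lit 7547170219) (nat_lit 384) (nat_lit 5) (nat_lit 383) (nat_lit 5) (nat_lit 406) (nat_lit 5) (nat_lit 479) (nat_lit 472) (nat_lit 189)))) (XT.nd (nat_lit 156) (nat_lit 0) (nat_lit 76) (XT.nd (nat_lit 78) (nat_lit 0) (nat_lit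 76) (XT.lf (nat_lit 76) (nat_lit 13620318832) (nat_lit 0) (nat_lit 6884369062) (nat_lit 1748) (nat_lit 6959641659) (nat_lit 384) (nat_lit 5) (nat_lit 383) (nat_lit 5) (nat_lit 406) (nat_lit 5) (nat_lit 480) (nat_lit 472) (nat_lit 188)) (XT.lf (nat_lit 0) (nat_lit 21419201763) (nat_lit 1672) (nat_lit 1096046762) (nat_lit 1748) (nat_lit 5231501092) (nat_lit 384) (nat_lit 5) (nat_lit 406) (nat_lit 5) (nat_lit 407) (nat_lit 5) (nat_lit 481) (nat_lit 472) (nat_lit 187))) (XT.nd (nat_lit 78) (nat_lit 0) (nat_lit 76) (XT.lf (nat_lit 76) (nat_lit 12017507115) (nat_lit 0) (nat_lit 10455921084) (nat_lit 1748) (nat_lit 5558963154) (nat_lit 385) (nat_lit 5) (nat_lit 384) (nat_lit 5) (nat_lit 407) (nat_lit 5) (nat_lit 482) (nat_lit 472) (nat_lit 186)) (XT.lf (nat_lit 0) (nat_lit 23565963213) (nat_lit 1672) (nat_lit 2928864701) (nat_lit 1748) (nat_lit 1828575215) (nat_lit 385) (nat_lit 5) (nat_lit 407) (nat_lit 5) (nat_lit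 408) (nat_lit 5) (nat_lit 483) (nat_lit 472) (nat_lit 185))))) (XT.nd (nat_lit 234) (nat_lit 1596) (nat_lit 0) (XT.nd (nat_lit 78) (nat_lit 0) (nat_lit 0) (XT.lf (nat_lit 76) (nat_lit 10485751150) (nat_lit 0) (nat_lit 14329808983) (nat_lit 1748) (nat_lit 3801972437) (nat_lit 386) (nat_lit 5) (nat_lit 385) (nat_lit 5) (nat_lit 408) (nat_lit 5) (nat_lit 484) (nat_lit 472) (nat_lit 184)) (XT.nd (nat_lit 78) (nat_lit 0) (nat_lit 76) (XT.lf (nat_lit 76) (nat_lit 24206967997) (nat_lit 0) (nat_lit 1900753865) (nat_lit 1748) (nat_lit 2809472901) (nat_lit 386) (nat_lit 5) (nat_lit 385) (nat_lit 5) (nat_lit 408) (nat_lit 5) (nat_lit 485) (nat_lit 472) (nat_lit 183)) (XT.lf (nat_lit 76) (nat_lit 9026763616) (nat_lit 0) (nat_lit 18525505455) (nat_lit 1748) (nat_lit 1668051872) (nat_lit 387) (nat_lit 5) (nat_lit 386) (nat_lit 5) (nat_lit 409) (nat_lit 5) (nat_lit 486) (nat_lit 472) (nat_lit 182)))) (XT.nd (nat_lit 156) (nat_lit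 0) (nat_lit 0) (XT.nd (nat_lit 78) (nat_lit 1672) (nat_lit 0) (XT.lf (nat_lit 76) (nat_lit 23088184078) (nat_lit 0) (nat_lit 5979630862) (nat_lit 1748) (nat_lit 460854110) (nat_lit 387) (nat_lit 5) (nat_lit 386) (nat_lit 5) (nat_lit 409) (nat_lit 5) (nat_lit 487) (nat_lit 472) (nat_lit 181)) (XT.lf (nat_lit 0) (nat_lit 852907288) (nat_lit 1748) (nat_lit 22204762662) (nat_lit 1824) (nat_lit 6783565121) (nat_lit 364) (nat_lit 5) (nat_lit 387) (nat_lit 5) (nat_lit 388) (nat_lit 5) (nat_lit 488) (nat_lit 472) (nat_lit 180))) (XT.nd (nat_lit 78) (nat_lit 0) (nat_lit 76) (XT.lf (nat_lit 0) (nat_lit 2267937160) (nat_lit 1748) (nat_lit 8121293264) (nat_lit 1824) (nat_lit 19769139248) (nat_lit 364) (nat_lit 5) (nat_lit 387) (nat_lit 5) (nat_lit 388) (nat_lit 5) (nat_lit 489) (nat_lit 472) (nat_lit 179)) (XT.lf (nat_lit 0) (nat_lit 3767145702) (nat_lit 1748) (nat_lit 24172389406) (nat_lit 1824) (nat_lit 2541195735) (nat_lit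 365) (nat_lit 5) (nat_lit 388) (nat_lit 5) (nat_lit 389) (nat_lit 5) (nat_lit 490) (nat_lit 472) (nat_lit 178))))))))
noncomputable def xc253 : XT := (XT.nd (nat_lit 59514) (nat_lit 0) (nat_lit 988) (XT.nd (nat_lit 58422) (nat_lit 0) (nat_lit 988) (XT.nd (nat_lit 546) (nat_lit 1064) (nat_lit 0) (XT.nd (nat_lit 234) (nat_lit 0) (nat_lit 76) (XT.nd (nat_lit 78) (nat_lit 0) (nat_lit 0) (XT.lf (nat_lit 0) (nat_lit 5418122811) (nat_lit 1748) (nat_lit 9742400807) (nat_lit 1824) (nat_lit 15646581343) (nat_lit 365) (nat_lit 5) (nat_lit 388) (nat_lit 5) (nat_lit 389) (nat_lit 5) (nat_lit 491) (nat_lit 472) (nat_lit 177)) (XT.nd (nat_lit 78) (nat_lit 0) (nat_lit 76) (XT.lf (nat_lit 76) (nat_lit 5040885103) (nat_lit 0) (nat_lit 2092122420) (nat_lit 1824) (nat_lit 24006382659) (nat_lit 366) (nat_lit 5) (nat_lit 365) (nat_lit 5) (nat_lit 389) (nat_lit 5) (nat_lit 492) (nat_lit 472) (nat_lit 176)) (XT.lf (nat_lit 0) (nat_lit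 9019150694) (nat_lit 1748) (nat_lit 11299956803) (nat_lit 1824) (nat_lit 11156475750) (nat_lit 366) (nat_lit 5) (nat_lit 389) (nat_lit 5) (nat_lit 390) (nat_lit 5) (nat_lit 493) (nat_lit 472) (nat_lit 175)))) (XT.nd (nat_lit 156) (nat_lit 0) (nat_lit 76) (XT.nd (nat_lit 78) (nat_lit 0) (nat_lit 76) (XT.lf (nat_lit 76) (nat_lit 3829514890) (nat_lit 0) (nat_lit 7150445128) (nat_lit 1824) (nat_lit 20837802620) (nat_lit 367) (nat_lit 5) (nat_lit 366) (nat_lit 5) (nat_lit 390) (nat_lit 5) (nat_lit 494) (nat_lit 472) (nat_lit 174)) (XT.lf (nat_lit 0) (nat_lit 13095352935) (nat_lit 1748) (nat_lit 12793251972) (nat_lit 1824) (nat_lit 6275874665) (nat_lit 367) (nat_lit 5) (nat_lit 390) (nat_lit 5) (nat_lit 391) (nat_lit 5) (nat_lit 495) (nat_lit 472) (nat_lit 173))) (XT.nd (nat_lit 78) (nat_lit 0) (nat_lit 76) (XT.lf (nat_lit 76) (nat_lit 2692180159) (nat_lit 0) (nat_lit 12623993497) (nat_lit 1824) (nat_lit 17200696068)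 (nat_lit 368) (nat_lit 5) (nat_lit 367) (nat_lit 5) (nat_lit 391) (nat_lit 5) (nat_lit 496) (nat_lit 472) (nat_lit 172)) (XT.lf (nat_lit 0) (nat_lit 17672023412) (nat_lit 1748) (nat_lit 14221749734) (nat_lit 76) (nat_lit 980723532) (nat_lit 368) (nat_lit 5) (nat_lit 391) (nat_lit 5) (nat_lit 369) (nat_lit 5) (nat_lit 497) (nat_lit 472) (nat_lit 171))))) (XT.nd (nat_lit 57564) (nat_lit 0) (nat_lit 2280) (XT.nd (nat_lit 57408) (nat_lit 0) (nat_lit 2204) (XT.lf (nat_lit 0) (nat_lit 1629601582) (nat_lit 1292) (nat_lit 18537917579) (nat_lit 1368) (nat_lit 13069907658) (nat_lit 351) (nat_lit 5) (nat_lit 368) (nat_lit 5) (nat_lit 369) (nat_lit 5) (nat_lit 498) (nat_lit 472) (nat_lit 170)) (XT.nd (nat_lit 78) (nat_lit 0) (nat_lit 0) (XT.lf (nat_lit 0) (nat_lit 8256443999) (nat_lit 1748) (nat_lit 2335442928) (nat_lit 1748) (nat_lit 2335442928) (nat_lit 380) (nat_lit 3) (nat_lit 403) (nat_lit 3) (nat_lit 403) (nat_lit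 5) (nat_lit 473) (nat_lit 473) (nat_lit 194)) (XT.lf (nat_lit 76) (nat_lit 7170448147) (nat_lit 0) (nat_lit 9648068449) (nat_lit 1748) (nat_lit 9291805896) (nat_lit 381) (nat_lit 5) (nat_lit 380) (nat_lit 3) (nat_lit 403) (nat_lit 5) (nat_lit 474) (nat_lit 473) (nat_lit 193)))) (XT.nd (nat_lit 156) (nat_lit 0) (nat_lit 0) (XT.nd (nat_lit 78) (nat_lit 0) (nat_lit 0) (XT.lf (nat_lit 0) (nat_lit 17173098494) (nat_lit 1672) (nat_lit 7073842629) (nat_lit 1748) (nat_lit 2123302525) (nat_lit 381) (nat_lit 5) (nat_lit 403) (nat_lit 5) (nat_lit 404) (nat_lit 5) (nat_lit 475) (nat_lit 473) (nat_lit 192)) (XT.lf (nat_lit 76) (nat_lit 5030280828) (nat_lit 0) (nat_lit 12598629250) (nat_lit 1748) (nat_lit 9004572287) (nat_lit 382) (nat_lit 5) (nat_lit 381) (nat_lit 5) (nat_lit 404) (nat_lit 5) (nat_lit 476) (nat_lit 473) (nat_lit 191))) (XT.nd (nat_lit 78) (nat_lit 0) (nat_lit 76) (XT.lf (nat_lit 76) (nat_lit 17471075717)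 (nat_lit 0) (nat_lit 667853965) (nat_lit 1748) (nat_lit 8762156199) (nat_lit 382) (nat_lit 5) (nat_lit 381) (nat_lit 5) (nat_lit 404) (nat_lit 5) (nat_lit 477) (nat_lit 473) (nat_lit 190)) (XT.lf (nat_lit 76) (nat_lit 2949321637) (nat_lit 0) (nat_lit 15801328665) (nat_lit 1748) (nat_lit 8421562978) (nat_lit 383) (nat_lit 5) (nat_lit 382) (nat_lit 5) (nat_lit 405) (nat_lit 5) (nat_lit 478) (nat_lit 473) (nat_lit 189)))))) (XT.nd (nat_lit 546) (nat_lit 1368) (nat_lit 0) (XT.nd (nat_lit 234) (nat_lit 0) (nat_lit 152) (XT.nd (nat_lit 78) (nat_lit 0) (nat_lit 76) (XT.lf (nat_lit 76) (nat_lit 15698264760) (nat_lit 0) (nat_lit 3741727744) (nat_lit 1748) (nat_lit 8007464770) (nat_lit 383) (nat_lit 5) (nat_lit 382) (nat_lit 5) (nat_lit 405) (nat_lit 5) (nat_lit 479) (nat_lit 473) (nat_lit 188)) (XT.nd (nat_lit 78) (nat_lit 0) (nat_lit 0) (XT.lf (nat_lit 76) (nat_lit 929249945) (nat_lit 0) (nat_lit 19273240097) (nat_lit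 1748) (nat_lit 7524530487) (nat_lit 384) (nat_lit 5) (nat_lit 383) (nat_lit 5) (nat_lit 406) (nat_lit 5) (nat_lit 480) (nat_lit 473) (nat_lit 187)) (XT.lf (nat_lit 76) (nat_lit 13994077745) (nat_lit 0) (nat_lit 7087418897) (nat_lit 1748) (nat_lit 6928654947) (nat_lit 384) (nat_lit 5) (nat_lit 383) (nat_lit 5) (nat_lit 406) (nat_lit 5) (nat_lit 481) (nat_lit 473) (nat_lit 186)))) (XT.nd (nat_lit 156) (nat_lit 0) (nat_lit 76) (XT.nd (nat_lit 78) (nat_lit 0) (nat_lit 0) (XT.lf (nat_lit 0) (nat_lit 22010615811) (nat_lit 1672) (nat_lit 1014789786) (nat_lit 1748) (nat_lit 5272890709) (nat_lit 384) (nat_lit 5) (nat_lit 406) (nat_lit 5) (nat_lit 407) (nat_lit 5) (nat_lit 482) (nat_lit 473) (nat_lit 185)) (XT.lf (nat_lit 76) (nat_lit 12360356366) (nat_lit 0) (nat_lit 10723039235) (nat_lit 1748) (nat_lit 5506308404) (nat_lit 385) (nat_lit 5) (nat_lit 384) (nat_lit 5) (nat_lit 407) (nat_lit 5) (nat_lit 483) (nat_lit 473)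 (nat_lit 184))) (XT.nd (nat_lit 78) (nat_lit 0) (nat_lit 0) (XT.lf (nat_lit 0) (nat_lit 24194265091) (nat_lit 1672) (nat_lit 2883313705) (nat_lit 1748) (nat_lit 1809030001) (nat_lit 385) (nat_lit 5) (nat_lit 407) (nat_lit 5) (nat_lit 408) (nat_lit 5) (nat_lit 484) (nat_lit 473) (nat_lit 183)) (XT.lf (nat_lit 76) (nat_lit 10798909409) (nat_lit 0) (nat_lit 14667538072) (nat_lit 1748) (nat_lit 3720223882) (nat_lit 386) (nat_lit 5) (nat_lit 385) (nat_lit 5) (nat_lit 408) (nat_lit 5) (nat_lit 485) (nat_lit 473) (nat_lit 182))))) (XT.nd (nat_lit 234) (nat_lit 1596) (nat_lit 0) (XT.nd (nat_lit 78) (nat_lit 0) (nat_lit 76) (XT.lf (nat_lit 76) (nat_lit 24792522295) (nat_lit 0) (nat_lit 1988899245) (nat_lit 1748) (nat_lit 2710968237) (nat_lit 386) (nat_lit 5) (nat_lit 385) (nat_lit 5) (nat_lit 408) (nat_lit 5) (nat_lit 486) (nat_lit 473) (nat_lit 181)) (XT.nd (nat_lit 78) (nat_lit 0) (nat_lit 0) (XT.lf (nat_lit 76) (nat_lit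 9311498125) (nat_lit 0) (nat_lit 18940747525) (nat_lit 1748) (nat_lit 1549387424) (nat_lit 387) (nat_lit 5) (nat_lit 386) (nat_lit 5) (nat_lit 409) (nat_lit 5) (nat_lit 487) (nat_lit 473) (nat_lit 180)) (XT.lf (nat_lit 76) (nat_lit 23652103875) (nat_lit 0) (nat_lit 6143078343) (nat_lit 1748) (nat_lit 321026599) (nat_lit 387) (nat_lit 5) (nat_lit 386) (nat_lit 5) (nat_lit 409) (nat_lit 5) (nat_lit 488) (nat_lit 473) (nat_lit 179)))) (XT.nd (nat_lit 156) (nat_lit 0) (nat_lit 76) (XT.nd (nat_lit 78) (nat_lit 0) (nat_lit 0) (XT.lf (nat_lit 0) (nat_lit 1014574976) (nat_lit 1748) (nat_lit 22542046583) (nat_lit 1824) (nat_lit 6878437029) (nat_lit 364) (nat_lit 5) (nat_lit 387) (nat_lit 5) (nat_lit 388) (nat_lit 5) (nat_lit 489) (nat_lit 473) (nat_lit 178)) (XT.lf (nat_lit 0) (nat_lit 2455069964) (nat_lit 1748) (nat_lit 8179002138) (nat_lit 1824) (nat_lit 20124522628) (nat_lit 364) (nat_lit 5) (nat_lit 387) (nat_lit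 5) (nat_lit 388) (nat_lit 5) (nat_lit 490) (nat_lit 473) (nat_lit 177))) (XT.nd (nat_lit 78) (nat_lit 0) (nat_lit 0) (XT.lf (nat_lit 0) (nat_lit 3981926804) (nat_lit 1748) (nat_lit 24548679569) (nat_lit 1824) (nat_lit 2556845562) (nat_lit 365) (nat_lit 5) (nat_lit 388) (nat_lit 5) (nat_lit 389) (nat_lit 5) (nat_lit 491) (nat_lit 473) (nat_lit 176)) (XT.lf (nat_lit 0) (nat_lit 5663189373) (nat_lit 1748) (nat_lit 9832192327) (nat_lit 1824) (nat_lit 15925028571) (nat_lit 365) (nat_lit 5) (nat_lit 388) (nat_lit 5) (nat_lit 389) (nat_lit 5) (nat_lit 492) (nat_lit 473) (nat_lit 175))))))) (XT.nd (nat_lit 58734) (nat_lit 76) (nat_lit 0) (XT.nd (nat_lit 58188) (nat_lit 0) (nat_lit 1216) (XT.nd (nat_lit 57876) (nat_lit 0) (nat_lit 1140) (XT.nd (nat_lit 78) (nat_lit 0) (nat_lit 76) (XT.lf (nat_lit 76) (nat_lit 5246068139) (nat_lit 0) (nat_lit 2164300776) (nat_lit 1824) (nat_lit 24349014352) (nat_lit 366) (nat_lit 5) (nat_lit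 365) (nat_lit 5) (nat_lit 389) (nat_lit 5) (nat_lit 493) (nat_lit 473) (nat_lit 174)) (XT.nd (nat_lit 78) (nat_lit 0) (nat_lit 0) (XT.lf (nat_lit 0) (nat_lit 9331400651) (nat_lit 1748) (nat_lit 11420703966) (nat_lit 1824) (nat_lit 11350254238) (nat_lit 366) (nat_lit 5) (nat_lit 389) (nat_lit 5) (nat_lit 390) (nat_lit 5) (nat_lit 494) (nat_lit 473) (nat_lit 173)) (XT.lf (nat_lit 76) (nat_lit 4010664714) (nat_lit 0) (nat_lit 7318854691) (nat_lit 1824) (nat_lit 21121902500) (nat_lit 367) (nat_lit 5) (nat_lit 366) (nat_lit 5) (nat_lit 390) (nat_lit 5) (nat_lit 495) (nat_lit 473) (nat_lit 172)))) (XT.nd (nat_lit 156) (nat_lit 0) (nat_lit 76) (XT.nd (nat_lit 78) (nat_lit 0) (nat_lit 0) (XT.lf (nat_lit 0) (nat_lit 8514907342) (nat_lit 1748) (nat_lit 2334514539) (nat_lit 1748) (nat_lit 2334514539) (nat_lit 380) (nat_lit 3) (nat_lit 403) (nat_lit 3) (nat_lit 403) (nat_lit 5) (nat_lit 474) (nat_lit 474) (nat_lit 192))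 (XT.lf (nat_lit 76) (nat_lit 7408504801) (nat_lit 0) (nat_lit 9930005393) (nat_lit 1748) (nat_lit 9290202469) (nat_lit 381) (nat_lit 5) (nat_lit 380) (nat_lit 3) (nat_lit 403) (nat_lit 5) (nat_lit 475) (nat_lit 474) (nat_lit 191))) (XT.nd (nat_lit 78) (nat_lit 0) (nat_lit 0) (XT.lf (nat_lit 0) (nat_lit 17696016913) (nat_lit 1672) (nat_lit 7118219816) (nat_lit 1748) (nat_lit 2079681670) (nat_lit 381) (nat_lit 5) (nat_lit 403) (nat_lit 5) (nat_lit 404) (nat_lit 5) (nat_lit 476) (nat_lit 474) (nat_lit 190)) (XT.lf (nat_lit 76) (nat_lit 5227347296) (nat_lit 0) (nat_lit 12930704966) (nat_lit 1748) (nat_lit 9004430242) (nat_lit 382) (nat_lit 5) (nat_lit 381) (nat_lit 5) (nat_lit 404) (nat_lit 5) (nat_lit 477) (nat_lit 474) (nat_lit 189))))) (XT.nd (nat_lit 234) (nat_lit 0) (nat_lit 152) (XT.nd (nat_lit 78) (nat_lit 0) (nat_lit 76) (XT.lf (nat_lit 76) (nat_lit 17915066694) (nat_lit 0) (nat_lit 759743526) (nat_lit 1748)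 (nat_lit 8760699821) (nat_lit 382) (nat_lit 5) (nat_lit 381) (nat_lit 5) (nat_lit 404) (nat_lit 5) (nat_lit 478) (nat_lit 474) (nat_lit 188)) (XT.nd (nat_lit 78) (nat_lit 0) (nat_lit 0) (XT.lf (nat_lit 76) (nat_lit 3106335785) (nat_lit 0) (nat_lit 16189171885) (nat_lit 1748) (nat_lit 8416620127) (nat_lit 383) (nat_lit 5) (nat_lit 382) (nat_lit 5) (nat_lit 405) (nat_lit 5) (nat_lit 479) (nat_lit 474) (nat_lit 187)) (XT.lf (nat_lit 76) (nat_lit 16108335658) (nat_lit 0) (nat_lit 3886970776) (nat_lit 1748) (nat_lit 7997639447) (nat_lit 383) (nat_lit 5) (nat_lit 382) (nat_lit 5) (nat_lit 405) (nat_lit 5) (nat_lit 480) (nat_lit 474) (nat_lit 186)))) (XT.nd (nat_lit 156) (nat_lit 0) (nat_lit 76) (XT.nd (nat_lit 78) (nat_lit 0) (nat_lit 0) (XT.lf (nat_lit 76) (nat_lit 1047200176) (nat_lit 0) (nat_lit 19722785736) (nat_lit 1748) (nat_lit 7508178405) (nat_lit 384) (nat_lit 5) (nat_lit 383) (nat_lit 5) (nat_lit 406) (nat_lit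 5) (nat_lit 481) (nat_lit 474) (nat_lit 185)) (XT.lf (nat_lit 76) (nat_lit 14371376194) (nat_lit 0) (nat_lit 7291991624) (nat_lit 1748) (nat_lit 6903656779) (nat_lit 384) (nat_lit 5) (nat_lit 383) (nat_lit 5) (nat_lit 406) (nat_lit 5) (nat_lit 482) (nat_lit 474) (nat_lit 184))) (XT.nd (nat_lit 78) (nat_lit 0) (nat_lit 0) (XT.lf (nat_lit 0) (nat_lit 22607527486) (nat_lit 1672) (nat_lit 935914196) (nat_lit 1748) (nat_lit 5317563820) (nat_lit 384) (nat_lit 5) (nat_lit 406) (nat_lit 5) (nat_lit 407) (nat_lit 5) (nat_lit 483) (nat_lit 474) (nat_lit 183)) (XT.lf (nat_lit 76) (nat_lit 12706082436) (nat_lit 0) (nat_lit 10993247549) (nat_lit 1748) (nat_lit 5458962434) (nat_lit 385) (nat_lit 5) (nat_lit 384) (nat_lit 5) (nat_lit 407) (nat_lit 5) (nat_lit 484) (nat_lit 474) (nat_lit 182)))))) (XT.nd (nat_lit 546) (nat_lit 0) (nat_lit 76) (XT.nd (nat_lit 234) (nat_lit 1596) (nat_lit 0) (XT.nd (nat_lit 78) (nat_lit 0) (nat_lit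 0) (XT.lf (nat_lit 0) (nat_lit 24829037179) (nat_lit 1672) (nat_lit 2840895117) (nat_lit 1748) (nat_lit 1791272963) (nat_lit 385) (nat_lit 5) (nat_lit 407) (nat_lit 5) (nat_lit 408) (nat_lit 5) (nat_lit 485) (nat_lit 474) (nat_lit 181)) (XT.nd (nat_lit 78) (nat_lit 0) (nat_lit 0) (XT.lf (nat_lit 76) (nat_lit 11114314006) (nat_lit 0) (nat_lit 15010036189) (nat_lit 1748) (nat_lit 3642967456) (nat_lit 386) (nat_lit 5) (nat_lit 385) (nat_lit 5) (nat_lit 408) (nat_lit 5) (nat_lit 486) (nat_lit 474) (nat_lit 180)) (XT.lf (nat_lit 76) (nat_lit 25385849612) (nat_lit 0) (nat_lit 2076860912) (nat_lit 1748) (nat_lit 2616500441) (nat_lit 386) (nat_lit 5) (nat_lit 385) (nat_lit 5) (nat_lit 408) (nat_lit 5) (nat_lit 487) (nat_lit 474) (nat_lit 179)))) (XT.nd (nat_lit 156) (nat_lit 1672) (nat_lit 0) (XT.nd (nat_lit 78) (nat_lit 0) (nat_lit 0) (XT.lf (nat_lit 76) (nat_lit 9597881142) (nat_lit 0) (nat_lit 19362557440) (nat_lit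 1748) (nat_lit 1434253021) (nat_lit 387) (nat_lit 5) (nat_lit 386) (nat_lit 5) (nat_lit 409) (nat_lit 5) (nat_lit 488) (nat_lit 474) (nat_lit 178)) (XT.lf (nat_lit 76) (nat_lit 24223335221) (nat_lit 0) (nat_lit 6308091835) (nat_lit 1748) (nat_lit 184190120) (nat_lit 387) (nat_lit 5) (nat_lit 386) (nat_lit 5) (nat_lit 409) (nat_lit 5) (nat_lit 489) (nat_lit 474) (nat_lit 177))) (XT.nd (nat_lit 78) (nat_lit 0) (nat_lit 0) (XT.lf (nat_lit 0) (nat_lit 1173860653) (nat_lit 1748) (nat_lit 22890223797) (nat_lit 1824) (nat_lit 6976790666) (nat_lit 364) (nat_lit 5) (nat_lit 387) (nat_lit 5) (nat_lit 388) (nat_lit 5) (nat_lit 490) (nat_lit 474) (nat_lit 176)) (XT.lf (nat_lit 0) (nat_lit 2640440165) (nat_lit 1748) (nat_lit 8241931477) (nat_lit 1824) (nat_lit 20488566900) (nat_lit 364) (nat_lit 5) (nat_lit 387) (nat_lit 5) (nat_lit 388) (nat_lit 5) (nat_lit 491) (nat_lit 474) (nat_lit 175))))) (XT.nd (nat_lit 58032) (nat_lit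 0) (nat_lit 1140) (XT.nd (nat_lit 156) (nat_lit 0) (nat_lit 0) (XT.nd (nat_lit 78) (nat_lit 0) (nat_lit 0) (XT.lf (nat_lit 0) (nat_lit 4195588974) (nat_lit 1748) (nat_lit 24936656597) (nat_lit 1824) (nat_lit 2574174239) (nat_lit 365) (nat_lit 5) (nat_lit 388) (nat_lit 5) (nat_lit 389) (nat_lit 5) (nat_lit 492) (nat_lit 474) (nat_lit 174)) (XT.lf (nat_lit 0) (nat_lit 5907848880) (nat_lit 1748) (nat_lit 9927859150) (nat_lit 1824) (nat_lit 16210383814) (nat_lit 365) (nat_lit 5) (nat_lit 388) (nat_lit 5) (nat_lit 389) (nat_lit 5) (nat_lit 493) (nat_lit 474) (nat_lit 173))) (XT.nd (nat_lit 234) (nat_lit 0) (nat_lit 152) (XT.lf (nat_lit 76) (nat_lit 5451302203) (nat_lit 0) (nat_lit 2236744720) (nat_lit 1824) (nat_lit 24703837815) (nat_lit 366) (nat_lit 5) (nat_lit 365) (nat_lit 5) (nat_lit 389) (nat_lit 5) (nat_lit 494) (nat_lit 474) (nat_lit 172)) (XT.lf (nat_lit 0) (nat_lit 13876509442) (nat_lit 1748) (nat_lit 13101454252)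 (nat_lit 1824) (nat_lit 6480730786) (nat_lit 367) (nat_lit 5) (nat_lit 390) (nat_lit 5) (nat_lit 391) (nat_lit 5) (nat_lit 497) (nat_lit 474) (nat_lit 169)))) (XT.nd (nat_lit 156) (nat_lit 0) (nat_lit 76) (XT.nd (nat_lit 78) (nat_lit 0) (nat_lit 0) (XT.lf (nat_lit 0) (nat_lit 8774915661) (nat_lit 1748) (nat_lit 2335417393) (nat_lit 1748) (nat_lit 2335417393) (nat_lit 380) (nat_lit 3) (nat_lit 403) (nat_lit 3) (nat_lit 403) (nat_lit 5) (nat_lit 475) (nat_lit 475) (nat_lit 190)) (XT.lf (nat_lit 76) (nat_lit 7647647303) (nat_lit 0) (nat_lit 10214126046) (nat_lit 1748) (nat_lit 9295845480) (nat_lit 381) (nat_lit 5) (nat_lit 380) (nat_lit 3) (nat_lit 403) (nat_lit 5) (nat_lit 476) (nat_lit 475) (nat_lit 189))) (XT.nd (nat_lit 78) (nat_lit 0) (nat_lit 0) (XT.lf (nat_lit 0) (nat_lit 18222425187) (nat_lit 1672) (nat_lit 7167255046) (nat_lit 1748) (nat_lit 2038531256) (nat_lit 381) (nat_lit 5) (nat_lit 403) (nat_lit 5)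 (nat_lit 404) (nat_lit 5) (nat_lit 477) (nat_lit 475) (nat_lit 188)) (XT.lf (nat_lit 76) (nat_lit 5424609401) (nat_lit 0) (nat_lit 13266311694) (nat_lit 1748) (nat_lit 9011284042) (nat_lit 382) (nat_lit 5) (nat_lit 381) (nat_lit 5) (nat_lit 404) (nat_lit 5) (nat_lit 478) (nat_lit 475) (nat_lit 187))))))))
noncomputable def xc254 : XT := (XT.nd (nat_lit 60060) (nat_lit 76) (nat_lit 0) (XT.nd (nat_lit 1092) (nat_lit 0) (nat_lit 76) (XT.nd (nat_lit 546) (nat_lit 1292) (nat_lit 0) (XT.nd (nat_lit 234) (nat_lit 0) (nat_lit 152) (XT.nd (nat_lit 78) (nat_lit 0) (nat_lit 76) (XT.lf (nat_lit 76) (nat_lit 18364265243) (nat_lit 0) (nat_lit 850421366) (nat_lit 1748) (nat_lit 8766075774) (nat_lit 382) (nat_lit 5) (nat_lit 381) (nat_lit 5) (nat_lit 404) (nat_lit 5) (nat_lit 479) (nat_lit 475) (nat_lit 186)) (XT.nd (nat_lit 78) (nat_lit 0) (nat_lit 0) (XT.lf (nat_lit 76) (nat_lit 3262683679) (nat_lit 0) (nat_lit 16581983242)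 (nat_lit 1748) (nat_lit 8418310748) (nat_lit 383) (nat_lit 5) (nat_lit 382) (nat_lit 5) (nat_lit 405) (nat_lit 5) (nat_lit 480) (nat_lit 475) (nat_lit 185)) (XT.lf (nat_lit 76) (nat_lit 16522876076) (nat_lit 0) (nat_lit 4032384622) (nat_lit 1748) (nat_lit 7994217940) (nat_lit 383) (nat_lit 5) (nat_lit 382) (nat_lit 5) (nat_lit 405) (nat_lit 5) (nat_lit 481) (nat_lit 475) (nat_lit 184)))) (XT.nd (nat_lit 156) (nat_lit 0) (nat_lit 76) (XT.nd (nat_lit 78) (nat_lit 0) (nat_lit 0) (XT.lf (nat_lit 76) (nat_lit 1163650937) (nat_lit 0) (nat_lit 20178833950) (nat_lit 1748) (nat_lit 7497977987) (nat_lit 384) (nat_lit 5) (nat_lit 383) (nat_lit 5) (nat_lit 406) (nat_lit 5) (nat_lit 482) (nat_lit 475) (nat_lit 183)) (XT.lf (nat_lit 76) (nat_lit 14752437794) (nat_lit 0) (nat_lit 7498216260) (nat_lit 1748) (nat_lit 6884510320) (nat_lit 384) (nat_lit 5) (nat_lit 383) (nat_lit 5) (nat_lit 406) (nat_lit 5) (nat_lit 483) (nat_lit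 475) (nat_lit 182))) (XT.nd (nat_lit 78) (nat_lit 0) (nat_lit 0) (XT.lf (nat_lit 0) (nat_lit 23210292567) (nat_lit 1672) (nat_lit 859312039) (nat_lit 1748) (nat_lit 5365490737) (nat_lit 384) (nat_lit 5) (nat_lit 406) (nat_lit 5) (nat_lit 407) (nat_lit 5) (nat_lit 484) (nat_lit 475) (nat_lit 181)) (XT.lf (nat_lit 76) (nat_lit 13054897417) (nat_lit 0) (nat_lit 11266695285) (nat_lit 1748) (nat_lit 5416784379) (nat_lit 385) (nat_lit 5) (nat_lit 384) (nat_lit 5) (nat_lit 407) (nat_lit 5) (nat_lit 485) (nat_lit 475) (nat_lit 180))))) (XT.nd (nat_lit 234) (nat_lit 1596) (nat_lit 0) (XT.nd (nat_lit 78) (nat_lit 0) (nat_lit 0) (XT.lf (nat_lit 0) (nat_lit 25470645592) (nat_lit 1672) (nat_lit 2801514574) (nat_lit 1748) (nat_lit 1775255249) (nat_lit 385) (nat_lit 5) (nat_lit 407) (nat_lit 5) (nat_lit 408) (nat_lit 5) (nat_lit 486) (nat_lit 475) (nat_lit 179)) (XT.nd (nat_lit 78) (nat_lit 0) (nat_lit 0) (XT.lf (nat_lit 76)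 (nat_lit 11432165846) (nat_lit 0) (nat_lit 15357475817) (nat_lit 1748) (nat_lit 3570055079) (nat_lit 386) (nat_lit 5) (nat_lit 385) (nat_lit 5) (nat_lit 408) (nat_lit 5) (nat_lit 487) (nat_lit 475) (nat_lit 178)) (XT.lf (nat_lit 76) (nat_lit 25987258330) (nat_lit 0) (nat_lit 2164710781) (nat_lit 1748) (nat_lit 2525916993) (nat_lit 386) (nat_lit 5) (nat_lit 385) (nat_lit 5) (nat_lit 408) (nat_lit 5) (nat_lit 488) (nat_lit 475) (nat_lit 177)))) (XT.nd (nat_lit 156) (nat_lit 1672) (nat_lit 0) (XT.nd (nat_lit 78) (nat_lit 0) (nat_lit 0) (XT.lf (nat_lit 76) (nat_lit 9886102753) (nat_lit 0) (nat_lit 19791134006) (nat_lit 1748) (nat_lit 1322490032) (nat_lit 387) (nat_lit 5) (nat_lit 386) (nat_lit 5) (nat_lit 409) (nat_lit 5) (nat_lit 489) (nat_lit 475) (nat_lit 176)) (XT.lf (nat_lit 76) (nat_lit 24802178385) (nat_lit 0) (nat_lit 6474768787) (nat_lit 1748) (nat_lit 50179756) (nat_lit 387) (nat_lit 5) (nat_lit 386) (nat_lit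 5) (nat_lit 409) (nat_lit 5) (nat_lit 490) (nat_lit 475) (nat_lit 175))) (XT.nd (nat_lit 78) (nat_lit 0) (nat_lit 0) (XT.lf (nat_lit 0) (nat_lit 1330934730) (nat_lit 1748) (nat_lit 23249351113) (nat_lit 1824) (nat_lit 7078634146) (nat_lit 364) (nat_lit 5) (nat_lit 387) (nat_lit 5) (nat_lit 388) (nat_lit 5) (nat_lit 491) (nat_lit 475) (nat_lit 174)) (XT.lf (nat_lit 0) (nat_lit 2824226286) (nat_lit 1748) (nat_lit 8310027792) (nat_lit 1824) (nat_lit 20861384970) (nat_lit 364) (nat_lit 5) (nat_lit 387) (nat_lit 5) (nat_lit 388) (nat_lit 5) (nat_lit 492) (nat_lit 475) (nat_lit 173)))))) (XT.nd (nat_lit 58422) (nat_lit 0) (nat_lit 1292) (XT.nd (nat_lit 58110) (nat_lit 0) (nat_lit 1140) (XT.nd (nat_lit 234) (nat_lit 0) (nat_lit 76) (XT.lf (nat_lit 0) (nat_lit 4408320086) (nat_lit 1748) (nat_lit 25336392646) (nat_lit 1824) (nat_lit 2593162304) (nat_lit 365) (nat_lit 5) (nat_lit 388) (nat_lit 5) (nat_lit 389) (nat_lit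 5) (nat_lit 493) (nat_lit 475) (nat_lit 172)) (XT.nd (nat_lit 57798) (nat_lit 0) (nat_lit 1064) (XT.lf (nat_lit 0) (nat_lit 9959495226) (nat_lit 1748) (nat_lit 11681675644) (nat_lit 1824) (nat_lit 11752913181) (nat_lit 366) (nat_lit 5) (nat_lit 389) (nat_lit 5) (nat_lit 390) (nat_lit 5) (nat_lit 496) (nat_lit 475) (nat_lit 169)) (XT.lf (nat_lit 0) (nat_lit 9036640590) (nat_lit 1748) (nat_lit 2338116287) (nat_lit 1748) (nat_lit 2338116287) (nat_lit 380) (nat_lit 3) (nat_lit 403) (nat_lit 3) (nat_lit 403) (nat_lit 5) (nat_lit 476) (nat_lit 476) (nat_lit 188)))) (XT.nd (nat_lit 156) (nat_lit 0) (nat_lit 76) (XT.nd (nat_lit 78) (nat_lit 0) (nat_lit 76) (XT.lf (nat_lit 76) (nat_lit 7888040086) (nat_lit 0) (nat_lit 10500608245) (nat_lit 1748) (nat_lit 9308597223) (nat_lit 381) (nat_lit 5) (nat_lit 380) (nat_lit 3) (nat_lit 403) (nat_lit 5) (nat_lit 477) (nat_lit 476) (nat_lit 187)) (XT.lf (nat_lit 0) (nat_lit 18752663710)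 (nat_lit 1672) (nat_lit 7220895065) (nat_lit 1748) (nat_lit 1999770887) (nat_lit 381) (nat_lit 5) (nat_lit 403) (nat_lit 5) (nat_lit 404) (nat_lit 5) (nat_lit 478) (nat_lit 476) (nat_lit 186))) (XT.nd (nat_lit 78) (nat_lit 0) (nat_lit 0) (XT.lf (nat_lit 76) (nat_lit 5622216506) (nat_lit 0) (nat_lit 13605640839) (nat_lit 1748) (nat_lit 9025001836) (nat_lit 382) (nat_lit 5) (nat_lit 381) (nat_lit 5) (nat_lit 404) (nat_lit 5) (nat_lit 479) (nat_lit 476) (nat_lit 185)) (XT.lf (nat_lit 76) (nat_lit 18818918113) (nat_lit 0) (nat_lit 939981667) (nat_lit 1748) (nat_lit 8778154263) (nat_lit 382) (nat_lit 5) (nat_lit 381) (nat_lit 5) (nat_lit 404) (nat_lit 5) (nat_lit 480) (nat_lit 476) (nat_lit 184))))) (XT.nd (nat_lit 234) (nat_lit 0) (nat_lit 76) (XT.nd (nat_lit 78) (nat_lit 0) (nat_lit 0) (XT.lf (nat_lit 76) (nat_lit 3418499809) (nat_lit 0) (nat_lit 16979970388) (nat_lit 1748) (nat_lit 8426506084) (nat_lit 383) (nat_lit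 5) (nat_lit 382) (nat_lit 5) (nat_lit 405) (nat_lit 5) (nat_lit 481) (nat_lit 476) (nat_lit 183)) (XT.nd (nat_lit 78) (nat_lit 0) (nat_lit 76) (XT.lf (nat_lit 76) (nat_lit 16942120319) (nat_lit 0) (nat_lit 4178078864) (nat_lit 1748) (nat_lit 7997072025) (nat_lit 383) (nat_lit 5) (nat_lit 382) (nat_lit 5) (nat_lit 405) (nat_lit 5) (nat_lit 482) (nat_lit 476) (nat_lit 182)) (XT.lf (nat_lit 76) (nat_lit 1278722071) (nat_lit 0) (nat_lit 20641611417) (nat_lit 1748) (nat_lit 7493800689) (nat_lit 384) (nat_lit 5) (nat_lit 383) (nat_lit 5) (nat_lit 406) (nat_lit 5) (nat_lit 483) (nat_lit 476) (nat_lit 181)))) (XT.nd (nat_lit 156) (nat_lit 0) (nat_lit 76) (XT.nd (nat_lit 78) (nat_lit 0) (nat_lit 76) (XT.lf (nat_lit 76) (nat_lit 15137484702) (nat_lit 0) (nat_lit 7706220574) (nat_lit 1748) (nat_lit 6871085960) (nat_lit 384) (nat_lit 5) (nat_lit 383) (nat_lit 5) (nat_lit 406) (nat_lit 5) (nat_lit 484) (nat_lit 476) (nat_lit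 180)) (XT.lf (nat_lit 0) (nat_lit 23819264404) (nat_lit 1672) (nat_lit 784879248) (nat_lit 1748) (nat_lit 5416644882) (nat_lit 384) (nat_lit 5) (nat_lit 406) (nat_lit 5) (nat_lit 407) (nat_lit 5) (nat_lit 485) (nat_lit 476) (nat_lit 179))) (XT.nd (nat_lit 78) (nat_lit 0) (nat_lit 76) (XT.lf (nat_lit 76) (nat_lit 13407011640) (nat_lit 0) (nat_lit 11543531291) (nat_lit 1748) (nat_lit 5379640151) (nat_lit 385) (nat_lit 5) (nat_lit 384) (nat_lit 5) (nat_lit 407) (nat_lit 5) (nat_lit 486) (nat_lit 476) (nat_lit 178)) (XT.lf (nat_lit 0) (nat_lit 26119454572) (nat_lit 1672) (nat_lit 2765081924) (nat_lit 1748) (nat_lit 1760930314) (nat_lit 385) (nat_lit 5) (nat_lit 407) (nat_lit 5) (nat_lit 408) (nat_lit 5) (nat_lit 487) (nat_lit 476) (nat_lit 177))))))) (XT.nd (nat_lit 59124) (nat_lit 0) (nat_lit 0) (XT.nd (nat_lit 58578) (nat_lit 0) (nat_lit 1292) (XT.nd (nat_lit 234) (nat_lit 1672) (nat_lit 0) (XT.nd (nat_lit 78)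 (nat_lit 0) (nat_lit 0) (XT.lf (nat_lit 76) (nat_lit 11752663797) (nat_lit 0) (nat_lit 15710029893) (nat_lit 1748) (nat_lit 3501344948) (nat_lit 386) (nat_lit 5) (nat_lit 385) (nat_lit 5) (nat_lit 408) (nat_lit 5) (nat_lit 488) (nat_lit 476) (nat_lit 176)) (XT.nd (nat_lit 78) (nat_lit 0) (nat_lit 76) (XT.lf (nat_lit 76) (nat_lit 26597057059) (nat_lit 0) (nat_lit 2252519271) (nat_lit 1748) (nat_lit 2439071380) (nat_lit 386) (nat_lit 5) (nat_lit 385) (nat_lit 5) (nat_lit 408) (nat_lit 5) (nat_lit 489) (nat_lit 476) (nat_lit 175)) (XT.lf (nat_lit 76) (nat_lit 10176350749) (nat_lit 0) (nat_lit 20226677387) (nat_lit 1748) (nat_lit 1213945552) (nat_lit 387) (nat_lit 5) (nat_lit 386) (nat_lit 5) (nat_lit 409) (nat_lit 5) (nat_lit 490) (nat_lit 476) (nat_lit 174)))) (XT.nd (nat_lit 156) (nat_lit 0) (nat_lit 76) (XT.nd (nat_lit 78) (nat_lit 0) (nat_lit 76) (XT.lf (nat_lit 0) (nat_lit 80099502) (nat_lit 1748) (nat_lit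 6562569014) (nat_lit 1824) (nat_lit 25308296647) (nat_lit 363) (nat_lit 5) (nat_lit 386) (nat_lit 5) (nat_lit 387) (nat_lit 5) (nat_lit 491) (nat_lit 476) (nat_lit 173)) (XT.lf (nat_lit 0) (nat_lit 1485962560) (nat_lit 1748) (nat_lit 23619492729) (nat_lit 1824) (nat_lit 7183978135) (nat_lit 364) (nat_lit 5) (nat_lit 387) (nat_lit 5) (nat_lit 388) (nat_lit 5) (nat_lit 492) (nat_lit 476) (nat_lit 172))) (XT.nd (nat_lit 58110) (nat_lit 0) (nat_lit 1216) (XT.lf (nat_lit 0) (nat_lit 3006602121) (nat_lit 1748) (nat_lit 8383242656) (nat_lit 1824) (nat_lit 21243094341) (nat_lit 364) (nat_lit 5) (nat_lit 387) (nat_lit 5) (nat_lit 388) (nat_lit 5) (nat_lit 493) (nat_lit 476) (nat_lit 171)) (XT.lf (nat_lit 0) (nat_lit 9300251734) (nat_lit 1748) (nat_lit 2342578099) (nat_lit 1748) (nat_lit 2342578099) (nat_lit 380) (nat_lit 3) (nat_lit 403) (nat_lit 3) (nat_lit 403) (nat_lit 5) (nat_lit 477) (nat_lit 477) (nat_lit 186)))))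 (XT.nd (nat_lit 234) (nat_lit 0) (nat_lit 76) (XT.nd (nat_lit 78) (nat_lit 0) (nat_lit 76) (XT.lf (nat_lit 76) (nat_lit 8129845328) (nat_lit 0) (nat_lit 10789628174) (nat_lit 1748) (nat_lit 9328328216) (nat_lit 381) (nat_lit 5) (nat_lit 380) (nat_lit 3) (nat_lit 403) (nat_lit 5) (nat_lit 478) (nat_lit 477) (nat_lit 185)) (XT.nd (nat_lit 78) (nat_lit 0) (nat_lit 0) (XT.lf (nat_lit 0) (nat_lit 19287069175) (nat_lit 1672) (nat_lit 7279091243) (nat_lit 1748) (nat_lit 1963323596) (nat_lit 381) (nat_lit 5) (nat_lit 403) (nat_lit 5) (nat_lit 404) (nat_lit 5) (nat_lit 479) (nat_lit 477) (nat_lit 184)) (XT.lf (nat_lit 76) (nat_lit 5820315312) (nat_lit 0) (nat_lit 13948882943) (nat_lit 1748) (nat_lit 9045459690) (nat_lit 382) (nat_lit 5) (nat_lit 381) (nat_lit 5) (nat_lit 404) (nat_lit 5) (nat_lit 480) (nat_lit 477) (nat_lit 183)))) (XT.nd (nat_lit 156) (nat_lit 0) (nat_lit 76) (XT.nd (nat_lit 78) (nat_lit 0) (nat_lit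 76) (XT.lf (nat_lit 76) (nat_lit 19279271451) (nat_lit 0) (nat_lit 1028515896) (nat_lit 1748) (nat_lit 8796813248) (nat_lit 382) (nat_lit 5) (nat_lit 381) (nat_lit 5) (nat_lit 404) (nat_lit 5) (nat_lit 481) (nat_lit 477) (nat_lit 182)) (XT.lf (nat_lit 76) (nat_lit 3573915610) (nat_lit 0) (nat_lit 17383340923) (nat_lit 1748) (nat_lit 8441084957) (nat_lit 383) (nat_lit 5) (nat_lit 382) (nat_lit 5) (nat_lit 405) (nat_lit 5) (nat_lit 482) (nat_lit 477) (nat_lit 181))) (XT.nd (nat_lit 78) (nat_lit 0) (nat_lit 76) (XT.lf (nat_lit 76) (nat_lit 17366301750) (nat_lit 0) (nat_lit 4324161154) (nat_lit 1748) (nat_lit 8006080869) (nat_lit 383) (nat_lit 5) (nat_lit 382) (nat_lit 5) (nat_lit 405) (nat_lit 5) (nat_lit 483) (nat_lit 477) (nat_lit 180)) (XT.lf (nat_lit 76) (nat_lit 1392529994) (nat_lit 0) (nat_lit 21111345594) (nat_lit 1748) (nat_lit 7495525167) (nat_lit 384) (nat_lit 5) (nat_lit 383) (nat_lit 5) (nat_lit 406)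 (nat_lit 5) (nat_lit 484) (nat_lit 477) (nat_lit 179)))))) (XT.nd (nat_lit 546) (nat_lit 1520) (nat_lit 0) (XT.nd (nat_lit 234) (nat_lit 0) (nat_lit 152) (XT.nd (nat_lit 78) (nat_lit 0) (nat_lit 76) (XT.lf (nat_lit 76) (nat_lit 15526737809) (nat_lit 0) (nat_lit 7916131210) (nat_lit 1748) (nat_lit 6863261076) (nat_lit 384) (nat_lit 5) (nat_lit 383) (nat_lit 5) (nat_lit 406) (nat_lit 5) (nat_lit 485) (nat_lit 477) (nat_lit 178)) (XT.nd (nat_lit 78) (nat_lit 0) (nat_lit 0) (XT.lf (nat_lit 0) (nat_lit 24434794238) (nat_lit 1672) (nat_lit 712515480) (nat_lit 1748) (nat_lit 5471002703) (nat_lit 384) (nat_lit 5) (nat_lit 406) (nat_lit 5) (nat_lit 407) (nat_lit 5) (nat_lit 486) (nat_lit 477) (nat_lit 177)) (XT.lf (nat_lit 76) (nat_lit 13762633875) (nat_lit 0) (nat_lit 11823904128) (nat_lit 1748) (nat_lit 5347402201) (nat_lit 385) (nat_lit 5) (nat_lit 384) (nat_lit 5) (nat_lit 407) (nat_lit 5) (nat_lit 487) (nat_lit 477)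 (nat_lit 176)))) (XT.nd (nat_lit 156) (nat_lit 0) (nat_lit 0) (XT.nd (nat_lit 78) (nat_lit 0) (nat_lit 0) (XT.lf (nat_lit 0) (nat_lit 26775826812) (nat_lit 1672) (nat_lit 2731511069) (nat_lit 1748) (nat_lit 1748253841) (nat_lit 385) (nat_lit 5) (nat_lit 407) (nat_lit 5) (nat_lit 408) (nat_lit 5) (nat_lit 488) (nat_lit 477) (nat_lit 175)) (XT.lf (nat_lit 76) (nat_lit 12076004878) (nat_lit 0) (nat_lit 16067871936) (nat_lit 1748) (nat_lit 3436701304) (nat_lit 386) (nat_lit 5) (nat_lit 385) (nat_lit 5) (nat_lit 408) (nat_lit 5) (nat_lit 489) (nat_lit 477) (nat_lit 174))) (XT.nd (nat_lit 78) (nat_lit 0) (nat_lit 76) (XT.lf (nat_lit 76) (nat_lit 27215554872) (nat_lit 0) (nat_lit 2340355387) (nat_lit 1748) (nat_lit 2355822864) (nat_lit 386) (nat_lit 5) (nat_lit 385) (nat_lit 5) (nat_lit 408) (nat_lit 5) (nat_lit 490) (nat_lit 477) (nat_lit 173)) (XT.lf (nat_lit 76) (nat_lit 10468810810) (nat_lit 0) (nat_lit 20669389233)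 (nat_lit 1748) (nat_lit 1108472175) (nat_lit 387) (nat_lit 5) (nat_lit 386) (nat_lit 5) (nat_lit 409) (nat_lit 5) (nat_lit 491) (nat_lit 477) (nat_lit 172))))) (XT.nd (nat_lit 58422) (nat_lit 0) (nat_lit 1368) (XT.nd (nat_lit 58266) (nat_lit 0) (nat_lit 1292) (XT.lf (nat_lit 0) (nat_lit 207241260) (nat_lit 1748) (nat_lit 6604867892) (nat_lit 1824) (nat_lit 25775269634) (nat_lit 363) (nat_lit 5) (nat_lit 386) (nat_lit 5) (nat_lit 387) (nat_lit 5) (nat_lit 492) (nat_lit 477) (nat_lit 171)) (XT.nd (nat_lit 78) (nat_lit 0) (nat_lit 0) (XT.lf (nat_lit 0) (nat_lit 9565916834) (nat_lit 1748) (nat_lit 2348771729) (nat_lit 1748) (nat_lit 2348771729) (nat_lit 380) (nat_lit 3) (nat_lit 403) (nat_lit 3) (nat_lit 403) (nat_lit 5) (nat_lit 478) (nat_lit 478) (nat_lit 184)) (XT.lf (nat_lit 76) (nat_lit 8373223128) (nat_lit 0) (nat_lit 11081360534) (nat_lit 1748) (nat_lit 9354916933) (nat_lit 381) (nat_lit 5) (nat_lit 380) (nat_lit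 3) (nat_lit 403) (nat_lit 5) (nat_lit 479) (nat_lit 478) (nat_lit 183)))) (XT.nd (nat_lit 156) (nat_lit 0) (nat_lit 0) (XT.nd (nat_lit 78) (nat_lit 0) (nat_lit 0) (XT.lf (nat_lit 0) (nat_lit 19825974909) (nat_lit 1672) (nat_lit 7341799439) (nat_lit 1748) (nat_lit 1929115722) (nat_lit 381) (nat_lit 5) (nat_lit 403) (nat_lit 5) (nat_lit 404) (nat_lit 5) (nat_lit 480) (nat_lit 478) (nat_lit 182)) (XT.lf (nat_lit 76) (nat_lit 6019050026) (nat_lit 0) (nat_lit 14296227853) (nat_lit 1748) (nat_lit 9072541334) (nat_lit 382) (nat_lit 5) (nat_lit 381) (nat_lit 5) (nat_lit 404) (nat_lit 5) (nat_lit 481) (nat_lit 478) (nat_lit 181))) (XT.nd (nat_lit 78) (nat_lit 0) (nat_lit 76) (XT.lf (nat_lit 76) (nat_lit 19745571006) (nat_lit 0) (nat_lit 1116112931) (nat_lit 1748) (nat_lit 8821938190) (nat_lit 382) (nat_lit 5) (nat_lit 381) (nat_lit 5) (nat_lit 404) (nat_lit 5) (nat_lit 482) (nat_lit 478) (nat_lit 180)) (XT.lf (nat_lit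 76) (nat_lit 3729059633) (nat_lit 0) (nat_lit 17792302558) (nat_lit 1748) (nat_lit 8461933522) (nat_lit 383) (nat_lit 5) (nat_lit 382) (nat_lit 5) (nat_lit 405) (nat_lit 5) (nat_lit 483) (nat_lit 478) (nat_lit 179))))))))
noncomputable def xc255 : XT := (XT.nd (nat_lit 118950) (nat_lit 0) (nat_lit 1216) (XT.nd (nat_lit 59358) (nat_lit 0) (nat_lit 1216) (XT.nd (nat_lit 546) (nat_lit 1368) (nat_lit 0) (XT.nd (nat_lit 234) (nat_lit 0) (nat_lit 152) (XT.nd (nat_lit 78) (nat_lit 0) (nat_lit 76) (XT.lf (nat_lit 76) (nat_lit 17795652991) (nat_lit 0) (nat_lit 4470737335) (nat_lit 1748) (nat_lit 8021130787) (nat_lit 383) (nat_lit 5) (nat_lit 382) (nat_lit 5) (nat_lit 405) (nat_lit 5) (nat_lit 484) (nat_lit 478) (nat_lit 178)) (XT.nd (nat_lit 78) (nat_lit 0) (nat_lit 0) (XT.lf (nat_lit 76) (nat_lit 1505187862) (nat_lit 0) (nat_lit 21588264883) (nat_lit 1748) (nat_lit 7503037039) (nat_lit 384) (nat_lit 5) (nat_lit 383)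 (nat_lit 5) (nat_lit 406) (nat_lit 5) (nat_lit 485) (nat_lit 478) (nat_lit 177)) (XT.lf (nat_lit 76) (nat_lit 15920416946) (nat_lit 0) (nat_lit 8128073811) (nat_lit 1748) (nat_lit 6860919796) (nat_lit 384) (nat_lit 5) (nat_lit 383) (nat_lit 5) (nat_lit 406) (nat_lit 5) (nat_lit 486) (nat_lit 478) (nat_lit 176)))) (XT.nd (nat_lit 156) (nat_lit 0) (nat_lit 76) (XT.nd (nat_lit 78) (nat_lit 0) (nat_lit 0) (XT.lf (nat_lit 0) (nat_lit 25057231517) (nat_lit 1672) (nat_lit 642123966) (nat_lit 1748) (nat_lit 5528543599) (nat_lit 384) (nat_lit 5) (nat_lit 406) (nat_lit 5) (nat_lit 407) (nat_lit 5) (nat_lit 487) (nat_lit 478) (nat_lit 175)) (XT.lf (nat_lit 76) (nat_lit 14121971522) (nat_lit 0) (nat_lit 12107962190) (nat_lit 1748) (nat_lit 5319949291) (nat_lit 385) (nat_lit 5) (nat_lit 384) (nat_lit 5) (nat_lit 407) (nat_lit 5) (nat_lit 488) (nat_lit 478) (nat_lit 174))) (XT.nd (nat_lit 78) (nat_lit 0) (nat_lit 0) (XT.lf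 (nat_lit 0) (nat_lit 27440123768) (nat_lit 1672) (nat_lit 2700719825) (nat_lit 1748) (nat_lit 1737183664) (nat_lit 385) (nat_lit 5) (nat_lit 407) (nat_lit 5) (nat_lit 408) (nat_lit 5) (nat_lit 489) (nat_lit 478) (nat_lit 173)) (XT.lf (nat_lit 76) (nat_lit 12402384459) (nat_lit 0) (nat_lit 16431176169) (nat_lit 1748) (nat_lit 3375994209) (nat_lit 386) (nat_lit 5) (nat_lit 385) (nat_lit 5) (nat_lit 408) (nat_lit 5) (nat_lit 490) (nat_lit 478) (nat_lit 172))))) (XT.nd (nat_lit 58500) (nat_lit 0) (nat_lit 1216) (XT.nd (nat_lit 234) (nat_lit 1596) (nat_lit 0) (XT.lf (nat_lit 76) (nat_lit 27843061541) (nat_lit 0) (nat_lit 2428286803) (nat_lit 1748) (nat_lit 2276036261) (nat_lit 386) (nat_lit 5) (nat_lit 385) (nat_lit 5) (nat_lit 408) (nat_lit 5) (nat_lit 491) (nat_lit 478) (nat_lit 171)) (XT.nd (nat_lit 58188) (nat_lit 0) (nat_lit 1216) (XT.lf (nat_lit 0) (nat_lit 1790516949) (nat_lit 1748) (nat_lit 24393112049) (nat_lit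 1824) (nat_lit 7405222810) (nat_lit 364) (nat_lit 5) (nat_lit 387) (nat_lit 5) (nat_lit 388) (nat_lit 5) (nat_lit 494) (nat_lit 478) (nat_lit 168)) (XT.lf (nat_lit 0) (nat_lit 9833801939) (nat_lit 1748) (nat_lit 2356668027) (nat_lit 1748) (nat_lit 2356668027) (nat_lit 380) (nat_lit 3) (nat_lit 403) (nat_lit 3) (nat_lit 403) (nat_lit 5) (nat_lit 479) (nat_lit 479) (nat_lit 182)))) (XT.nd (nat_lit 156) (nat_lit 0) (nat_lit 76) (XT.nd (nat_lit 78) (nat_lit 0) (nat_lit 76) (XT.lf (nat_lit 76) (nat_lit 8618331663) (nat_lit 0) (nat_lit 11375978706) (nat_lit 1748) (nat_lit 9388249560) (nat_lit 381) (nat_lit 5) (nat_lit 380) (nat_lit 3) (nat_lit 403) (nat_lit 5) (nat_lit 480) (nat_lit 479) (nat_lit 181)) (XT.lf (nat_lit 0) (nat_lit 20369711200) (nat_lit 1672) (nat_lit 7408979882) (nat_lit 1748) (nat_lit 1897076789) (nat_lit 381) (nat_lit 5) (nat_lit 403) (nat_lit 5) (nat_lit 404) (nat_lit 5) (nat_lit 481) (nat_lit 479)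 (nat_lit 180))) (XT.nd (nat_lit 78) (nat_lit 0) (nat_lit 0) (XT.lf (nat_lit 76) (nat_lit 6218562522) (nat_lit 0) (nat_lit 14647864878) (nat_lit 1748) (nat_lit 9106137923) (nat_lit 382) (nat_lit 5) (nat_lit 381) (nat_lit 5) (nat_lit 404) (nat_lit 5) (nat_lit 482) (nat_lit 479) (nat_lit 179)) (XT.lf (nat_lit 76) (nat_lit 20218062323) (nat_lit 0) (nat_lit 1202859177) (nat_lit 1748) (nat_lit 8853421818) (nat_lit 382) (nat_lit 5) (nat_lit 381) (nat_lit 5) (nat_lit 404) (nat_lit 5) (nat_lit 483) (nat_lit 479) (nat_lit 178)))))) (XT.nd (nat_lit 59046) (nat_lit 152) (nat_lit 0) (XT.nd (nat_lit 234) (nat_lit 0) (nat_lit 76) (XT.nd (nat_lit 78) (nat_lit 0) (nat_lit 0) (XT.lf (nat_lit 76) (nat_lit 3884057695) (nat_lit 0) (nat_lit 18207063273) (nat_lit 1748) (nat_lit 8488945036) (nat_lit 383) (nat_lit 5) (nat_lit 382) (nat_lit 5) (nat_lit 405) (nat_lit 5) (nat_lit 484) (nat_lit 479) (nat_lit 177)) (XT.nd (nat_lit 78) (nat_lit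 0) (nat_lit 76) (XT.lf (nat_lit 76) (nat_lit 18230406119) (nat_lit 0) (nat_lit 4617911556) (nat_lit 1748) (nat_lit 8042115013) (nat_lit 383) (nat_lit 5) (nat_lit 382) (nat_lit 5) (nat_lit 405) (nat_lit 5) (nat_lit 485) (nat_lit 479) (nat_lit 176)) (XT.lf (nat_lit 76) (nat_lit 1616805718) (nat_lit 0) (nat_lit 22072598786) (nat_lit 1748) (nat_lit 7516228662) (nat_lit 384) (nat_lit 5) (nat_lit 383) (nat_lit 5) (nat_lit 406) (nat_lit 5) (nat_lit 486) (nat_lit 479) (nat_lit 175)))) (XT.nd (nat_lit 156) (nat_lit 0) (nat_lit 76) (XT.nd (nat_lit 78) (nat_lit 0) (nat_lit 76) (XT.lf (nat_lit 76) (nat_lit 16318741068) (nat_lit 0) (nat_lit 8342173136) (nat_lit 1748) (nat_lit 6863952782) (nat_lit 384) (nat_lit 5) (nat_lit 383) (nat_lit 5) (nat_lit 406) (nat_lit 5) (nat_lit 487) (nat_lit 479) (nat_lit 174)) (XT.lf (nat_lit 0) (nat_lit 25686924199) (nat_lit 1672) (nat_lit 573611367) (nat_lit 1748) (nat_lit 5589249843) (nat_lit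 384) (nat_lit 5) (nat_lit 406) (nat_lit 5) (nat_lit 407) (nat_lit 5) (nat_lit 488) (nat_lit 479) (nat_lit 173))) (XT.nd (nat_lit 78) (nat_lit 0) (nat_lit 76) (XT.lf (nat_lit 76) (nat_lit 14485230800) (nat_lit 0) (nat_lit 12395853825) (nat_lit 1748) (nat_lit 5297166276) (nat_lit 385) (nat_lit 5) (nat_lit 384) (nat_lit 5) (nat_lit 407) (nat_lit 5) (nat_lit 489) (nat_lit 479) (nat_lit 172)) (XT.lf (nat_lit 0) (nat_lit 28112705962) (nat_lit 1672) (nat_lit 2672629775) (nat_lit 1748) (nat_lit 1727679687) (nat_lit 385) (nat_lit 5) (nat_lit 407) (nat_lit 5) (nat_lit 408) (nat_lit 5) (nat_lit 490) (nat_lit 479) (nat_lit 171))))) (XT.nd (nat_lit 234) (nat_lit 0) (nat_lit 76) (XT.nd (nat_lit 78) (nat_lit 0) (nat_lit 0) (XT.lf (nat_lit 0) (nat_lit 10104071564) (nat_lit 1748) (nat_lit 2366239743) (nat_lit 1748) (nat_lit 2366239743) (nat_lit 380) (nat_lit 3) (nat_lit 403) (nat_lit 3) (nat_lit 403) (nat_lit 5) (nat_lit 480)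 (nat_lit 480) (nat_lit 180)) (XT.nd (nat_lit 78) (nat_lit 0) (nat_lit 76) (XT.lf (nat_lit 76) (nat_lit 8865327354) (nat_lit 0) (nat_lit 11673654914) (nat_lit 1748) (nat_lit 9428219749) (nat_lit 381) (nat_lit 5) (nat_lit 380) (nat_lit 3) (nat_lit 403) (nat_lit 5) (nat_lit 481) (nat_lit 480) (nat_lit 179)) (XT.lf (nat_lit 0) (nat_lit 20918605609) (nat_lit 1672) (nat_lit 7480597057) (nat_lit 1748) (nat_lit 1867139387) (nat_lit 381) (nat_lit 5) (nat_lit 403) (nat_lit 5) (nat_lit 404) (nat_lit 5) (nat_lit 482) (nat_lit 480) (nat_lit 178)))) (XT.nd (nat_lit 156) (nat_lit 0) (nat_lit 76) (XT.nd (nat_lit 78) (nat_lit 0) (nat_lit 0) (XT.lf (nat_lit 76) (nat_lit 6418992495) (nat_lit 0) (nat_lit 15003982947) (nat_lit 1748) (nat_lit 9146147804) (nat_lit 382) (nat_lit 5) (nat_lit 381) (nat_lit 5) (nat_lit 404) (nat_lit 5) (nat_lit 483) (nat_lit 480) (nat_lit 177)) (XT.lf (nat_lit 76) (nat_lit 20696990945) (nat_lit 0) (nat_lit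 1288838687) (nat_lit 1748) (nat_lit 8891163904) (nat_lit 382) (nat_lit 5) (nat_lit 381) (nat_lit 5) (nat_lit 404) (nat_lit 5) (nat_lit 484) (nat_lit 480) (nat_lit 176))) (XT.nd (nat_lit 78) (nat_lit 0) (nat_lit 0) (XT.lf (nat_lit 76) (nat_lit 4039033033) (nat_lit 0) (nat_lit 18627831475) (nat_lit 1748) (nat_lit 8522019634) (nat_lit 383) (nat_lit 5) (nat_lit 382) (nat_lit 5) (nat_lit 405) (nat_lit 5) (nat_lit 485) (nat_lit 480) (nat_lit 175)) (XT.lf (nat_lit 76) (nat_lit 18670792853) (nat_lit 0) (nat_lit 4765786391) (nat_lit 1748) (nat_lit 8068933487) (nat_lit 383) (nat_lit 5) (nat_lit 382) (nat_lit 5) (nat_lit 405) (nat_lit 5) (nat_lit 486) (nat_lit 480) (nat_lit 174))))))) (XT.nd (nat_lit 118482) (nat_lit 0) (nat_lit 0) (XT.nd (nat_lit 59202) (nat_lit 0) (nat_lit 0) (XT.nd (nat_lit 58890) (nat_lit 228) (nat_lit 0) (XT.nd (nat_lit 78) (nat_lit 0) (nat_lit 0) (XT.lf (nat_lit 76) (nat_lit 1727490639) (nat_lit 0)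 (nat_lit 22564578065) (nat_lit 1748) (nat_lit 7534998911) (nat_lit 384) (nat_lit 5) (nat_lit 383) (nat_lit 5) (nat_lit 406) (nat_lit 5) (nat_lit 487) (nat_lit 480) (nat_lit 173)) (XT.nd (nat_lit 78) (nat_lit 0) (nat_lit 76) (XT.lf (nat_lit 76) (nat_lit 16721928445) (nat_lit 0) (nat_lit 8558553170) (nat_lit 1748) (nat_lit 6872257010) (nat_lit 384) (nat_lit 5) (nat_lit 383) (nat_lit 5) (nat_lit 406) (nat_lit 5) (nat_lit 488) (nat_lit 480) (nat_lit 172)) (XT.lf (nat_lit 0) (nat_lit 26324219058) (nat_lit 1672) (nat_lit 506887633) (nat_lit 1748) (nat_lit 5653106516) (nat_lit 384) (nat_lit 5) (nat_lit 406) (nat_lit 5) (nat_lit 407) (nat_lit 5) (nat_lit 489) (nat_lit 480) (nat_lit 171)))) (XT.nd (nat_lit 156) (nat_lit 0) (nat_lit 76) (XT.nd (nat_lit 78) (nat_lit 0) (nat_lit 0) (XT.lf (nat_lit 0) (nat_lit 10376888854) (nat_lit 1748) (nat_lit 2377461457) (nat_lit 1748) (nat_lit 2377461457) (nat_lit 380) (nat_lit 3) (nat_lit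 403) (nat_lit 3) (nat_lit 403) (nat_lit 5) (nat_lit 481) (nat_lit 481) (nat_lit 178)) (XT.lf (nat_lit 76) (nat_lit 9114365023) (nat_lit 0) (nat_lit 11974560379) (nat_lit 1748) (nat_lit 9474728394) (nat_lit 381) (nat_lit 5) (nat_lit 380) (nat_lit 3) (nat_lit 403) (nat_lit 5) (nat_lit 482) (nat_lit 481) (nat_lit 177))) (XT.nd (nat_lit 78) (nat_lit 0) (nat_lit 0) (XT.lf (nat_lit 0) (nat_lit 21472983282) (nat_lit 1672) (nat_lit 7556619587) (nat_lit 1748) (nat_lit 1839239059) (nat_lit 381) (nat_lit 5) (nat_lit 403) (nat_lit 5) (nat_lit 404) (nat_lit 5) (nat_lit 483) (nat_lit 481) (nat_lit 176)) (XT.lf (nat_lit 76) (nat_lit 6620477616) (nat_lit 0) (nat_lit 15364770769) (nat_lit 1748) (nat_lit 9192476298) (nat_lit 382) (nat_lit 5) (nat_lit 381) (nat_lit 5) (nat_lit 404) (nat_lit 5) (nat_lit 484) (nat_lit 481) (nat_lit 175))))) (XT.nd (nat_lit 234) (nat_lit 76) (nat_lit 0) (XT.nd (nat_lit 78) (nat_lit 0) (nat_lit 76)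 (XT.lf (nat_lit 76) (nat_lit 21182602598) (nat_lit 0) (nat_lit 1374133267) (nat_lit 1748) (nat_lit 8935071043) (nat_lit 382) (nat_lit 5) (nat_lit 381) (nat_lit 5) (nat_lit 404) (nat_lit 5) (nat_lit 485) (nat_lit 481) (nat_lit 174)) (XT.nd (nat_lit 78) (nat_lit 0) (nat_lit 0) (XT.lf (nat_lit 76) (nat_lit 4194106450) (nat_lit 0) (nat_lit 19054816147) (nat_lit 1748) (nat_lit 8561064118) (nat_lit 383) (nat_lit 5) (nat_lit 382) (nat_lit 5) (nat_lit 405) (nat_lit 5) (nat_lit 486) (nat_lit 481) (nat_lit 173)) (XT.lf (nat_lit 76) (nat_lit 19117044746) (nat_lit 0) (nat_lit 4914462945) (nat_lit 1748) (nat_lit 8101492639) (nat_lit 383) (nat_lit 5) (nat_lit 382) (nat_lit 5) (nat_lit 405) (nat_lit 5) (nat_lit 487) (nat_lit 481) (nat_lit 172)))) (XT.nd (nat_lit 58890) (nat_lit 228) (nat_lit 0) (XT.nd (nat_lit 78) (nat_lit 0) (nat_lit 0) (XT.lf (nat_lit 76) (nat_lit 1837346879) (nat_lit 0) (nat_lit 23064434892) (nat_lit 1748)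 (nat_lit 7559252980) (nat_lit 384) (nat_lit 5) (nat_lit 383) (nat_lit 5) (nat_lit 406) (nat_lit 5) (nat_lit 488) (nat_lit 481) (nat_lit 171)) (XT.lf (nat_lit 76) (nat_lit 17130196844) (nat_lit 0) (nat_lit 8777337239) (nat_lit 1748) (nat_lit 6885735573) (nat_lit 384) (nat_lit 5) (nat_lit 383) (nat_lit 5) (nat_lit 406) (nat_lit 5) (nat_lit 489) (nat_lit 481) (nat_lit 170))) (XT.nd (nat_lit 78) (nat_lit 0) (nat_lit 0) (XT.lf (nat_lit 0) (nat_lit 10652415729) (nat_lit 1748) (nat_lit 2390309532) (nat_lit 1748) (nat_lit 2390309532) (nat_lit 380) (nat_lit 3) (nat_lit 403) (nat_lit 3) (nat_lit 403) (nat_lit 5) (nat_lit 482) (nat_lit 482) (nat_lit 176)) (XT.lf (nat_lit 76) (nat_lit 9365598038) (nat_lit 0) (nat_lit 12278865471) (nat_lit 1748) (nat_lit 9527683410) (nat_lit 381) (nat_lit 5) (nat_lit 380) (nat_lit 3) (nat_lit 403) (nat_lit 5) (nat_lit 483) (nat_lit 482) (nat_lit 175)))))) (XT.nd (nat_lit 59436) (nat_lit 0)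 (nat_lit 0) (XT.nd (nat_lit 234) (nat_lit 76) (nat_lit 0) (XT.nd (nat_lit 78) (nat_lit 0) (nat_lit 0) (XT.lf (nat_lit 0) (nat_lit 22033167246) (nat_lit 1672) (nat_lit 7637020134) (nat_lit 1748) (nat_lit 1813314193) (nat_lit 381) (nat_lit 5) (nat_lit 403) (nat_lit 5) (nat_lit 404) (nat_lit 5) (nat_lit 484) (nat_lit 482) (nat_lit 174)) (XT.nd (nat_lit 78) (nat_lit 0) (nat_lit 0) (XT.lf (nat_lit 76) (nat_lit 6823153671) (nat_lit 0) (nat_lit 15730416975) (nat_lit 1748) (nat_lit 9245035492) (nat_lit 382) (nat_lit 5) (nat_lit 381) (nat_lit 5) (nat_lit 404) (nat_lit 5) (nat_lit 485) (nat_lit 482) (nat_lit 173)) (XT.lf (nat_lit 76) (nat_lit 21675143379) (nat_lit 0) (nat_lit 1458822589) (nat_lit 1748) (nat_lit 8985056452) (nat_lit 382) (nat_lit 5) (nat_lit 381) (nat_lit 5) (nat_lit 404) (nat_lit 5) (nat_lit 486) (nat_lit 482) (nat_lit 172)))) (XT.nd (nat_lit 59046) (nat_lit 152) (nat_lit 0) (XT.nd (nat_lit 78) (nat_lit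 0) (nat_lit 0) (XT.lf (nat_lit 76) (nat_lit 4349396458) (nat_lit 0) (nat_lit 19488227006) (nat_lit 1748) (nat_lit 8605991756) (nat_lit 383) (nat_lit 5) (nat_lit 382) (nat_lit 5) (nat_lit 405) (nat_lit 5) (nat_lit 487) (nat_lit 482) (nat_lit 171)) (XT.lf (nat_lit 76) (nat_lit 19569393365) (nat_lit 0) (nat_lit 5064040965) (nat_lit 1748) (nat_lit 8139705193) (nat_lit 383) (nat_lit 5) (nat_lit 382) (nat_lit 5) (nat_lit 405) (nat_lit 5) (nat_lit 488) (nat_lit 482) (nat_lit 170))) (XT.nd (nat_lit 78) (nat_lit 0) (nat_lit 0) (XT.lf (nat_lit 0) (nat_lit 10930813043) (nat_lit 1748) (nat_lit 2404762056) (nat_lit 1748) (nat_lit 2404762056) (nat_lit 380) (nat_lit 3) (nat_lit 403) (nat_lit 3) (nat_lit 403) (nat_lit 5) (nat_lit 483) (nat_lit 483) (nat_lit 174)) (XT.lf (nat_lit 76) (nat_lit 9619178466) (nat_lit 0) (nat_lit 12586739864) (nat_lit 1748) (nat_lit 9586999524) (nat_lit 381) (nat_lit 5) (nat_lit 380) (nat_lit 3) (nat_lit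 403) (nat_lit 5) (nat_lit 484) (nat_lit 483) (nat_lit 173))))) (XT.nd (nat_lit 59358) (nat_lit 76) (nat_lit 0) (XT.nd (nat_lit 156) (nat_lit 0) (nat_lit 0) (XT.nd (nat_lit 78) (nat_lit 0) (nat_lit 0) (XT.lf (nat_lit 0) (nat_lit 22599478706) (nat_lit 1672) (nat_lit 7721775296) (nat_lit 1748) (nat_lit 1789305923) (nat_lit 381) (nat_lit 5) (nat_lit 403) (nat_lit 5) (nat_lit 404) (nat_lit 5) (nat_lit 485) (nat_lit 483) (nat_lit 172)) (XT.lf (nat_lit 76) (nat_lit 7027154714) (nat_lit 0) (nat_lit 16101110272) (nat_lit 1748) (nat_lit 9303744033) (nat_lit 382) (nat_lit 5) (nat_lit 381) (nat_lit 5) (nat_lit 404) (nat_lit 5) (nat_lit 486) (nat_lit 483) (nat_lit 171))) (XT.nd (nat_lit 234) (nat_lit 0) (nat_lit 152) (XT.lf (nat_lit 76) (nat_lit 22174859942) (nat_lit 0) (nat_lit 1542984294) (nat_lit 1748) (nat_lit 9041039768) (nat_lit 382) (nat_lit 5) (nat_lit 381) (nat_lit 5) (nat_lit 404) (nat_lit 5) (nat_lit 487) (nat_lit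 483) (nat_lit 170)) (XT.lf (nat_lit 76) (nat_lit 2054977022) (nat_lit 0) (nat_lit 24088717865) (nat_lit 1748) (nat_lit 7623863748) (nat_lit 384) (nat_lit 5) (nat_lit 383) (nat_lit 5) (nat_lit 406) (nat_lit 5) (nat_lit 490) (nat_lit 483) (nat_lit 167)))) (XT.nd (nat_lit 312) (nat_lit 0) (nat_lit 76) (XT.nd (nat_lit 78) (nat_lit 0) (nat_lit 76) (XT.lf (nat_lit 76) (nat_lit 9875257219) (nat_lit 0) (nat_lit 12898352672) (nat_lit 1748) (nat_lit 9652598074) (nat_lit 381) (nat_lit 5) (nat_lit 380) (nat_lit 3) (nat_lit 403) (nat_lit 5) (nat_lit 485) (nat_lit 484) (nat_lit 171)) (XT.lf (nat_lit 0) (nat_lit 23172237325) (nat_lit 1672) (nat_lit 7810865510) (nat_lit 1748) (nat_lit 1767158021) (nat_lit 381) (nat_lit 5) (nat_lit 403) (nat_lit 5) (nat_lit 404) (nat_lit 5) (nat_lit 486) (nat_lit 484) (nat_lit 170))) (XT.nd (nat_lit 59280) (nat_lit 76) (nat_lit 0) (XT.lf (nat_lit 76) (nat_lit 4661089641) (nat_lit 0) (nat_lit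 20375170682) (nat_lit 1748) (nat_lit 8713180717) (nat_lit 383) (nat_lit 5) (nat_lit 382) (nat_lit 5) (nat_lit 405) (nat_lit 5) (nat_lit 489) (nat_lit 484) (nat_lit 167)) (XT.lf (nat_lit 76) (nat_lit 7439660105) (nat_lit 0) (nat_lit 16858394212) (nat_lit 1748) (nat_lit 9439315422) (nat_lit 382) (nat_lit 5) (nat_lit 381) (nat_lit 5) (nat_lit 404) (nat_lit 5) (nat_lit 488) (nat_lit 485) (nat_lit 167))))))))

set_option maxRecDepth 10000000 in
noncomputable def Tp : PT := (PT.nd (nat_lit 11706240) (PT.nd (nat_lit 10403562) (PT.nd (nat_lit 9275682) (PT.nd (nat_lit 8267298) (PT.nd (nat_lit 7436910) (PT.nd (nat_lit 6784518) pc0 pc1) (PT.nd (nat_lit 415740) pc2 pc3)) (PT.nd (nat_lit 534456) (PT.nd (nat_lit 296712) pc4 pc5) (PT.nd (nat_lit 237276) pc6 pc7))) (PT.nd (nat_lit 652626) (PT.nd (nat_lit 355914) (PT.nd (nat_lit 178074) pc8 pc9) (PT.nd (nat_lit 119652) pc10 pc11)) (PT.nd (nat_lit 238056) (PT.nd (nat_lit 119184)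 pc12 pc13) (PT.nd (nat_lit 118638) pc14 pc15)))) (PT.nd (nat_lit 769002) (PT.nd (nat_lit 414648) (PT.nd (nat_lit 236106) (PT.nd (nat_lit 118170) pc16 pc17) (PT.nd (nat_lit 61074) pc18 pc19)) (PT.nd (nat_lit 177684) (PT.nd (nat_lit 60762) pc20 pc21) (PT.nd (nat_lit 60450) pc22 pc23))) (PT.nd (nat_lit 240240) (PT.nd (nat_lit 120276) (PT.nd (nat_lit 60138) pc24 pc25) (PT.nd (nat_lit 60060) pc26 pc27)) (PT.nd (nat_lit 174564) (PT.nd (nat_lit 59748) pc28 pc29) (PT.nd (nat_lit 59514) pc30 pc31))))) (PT.nd (nat_lit 772512) (PT.nd (nat_lit 416130) (PT.nd (nat_lit 181662) (PT.nd (nat_lit 118248) (PT.nd (nat_lit 59124) pc32 pc33) (PT.nd (nat_lit 4446) pc34 pc35)) (PT.nd (nat_lit 117468) (PT.nd (nat_lit 58734) pc36 pc37) (PT.nd (nat_lit 58578) pc38 pc39))) (PT.nd (nat_lit 178776) (PT.nd (nat_lit 62634) (PT.nd (nat_lit 58188) pc40 pc41) (PT.nd (nat_lit 58110) pc42 pc43)) (PT.nd (nat_lit 62322) (PT.nd (nat_lit 57876) pc44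 pc45) (PT.nd (nat_lit 57720) pc46 pc47)))) (PT.nd (nat_lit 412074) (PT.nd (nat_lit 176046) (PT.nd (nat_lit 61776) (PT.nd (nat_lit 57330) pc48 pc49) (PT.nd (nat_lit 57252) pc50 pc51)) (PT.nd (nat_lit 64350) (PT.nd (nat_lit 5382) pc52 pc53) (PT.nd (nat_lit 59670) pc54 pc55))) (PT.nd (nat_lit 362778) (PT.nd (nat_lit 125736) (PT.nd (nat_lit 60216) pc56 pc57) (PT.nd (nat_lit 118248) pc58 pc59)) (PT.nd (nat_lit 297648) (PT.nd (nat_lit 119652) pc60 pc61) (PT.nd (nat_lit 228150) pc62 pc63))))))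

set_option maxRecDepth 10000000 in
noncomputable def Tx : XT := (XT.nd (nat_lit 18086406) (nat_lit 0) (nat_lit 456) XT.nil (XT.nd (nat_lit 10740366) (nat_lit 0) (nat_lit 0) (XT.nd (nat_lit 5097846) (nat_lit 0) (nat_lit 2584) (XT.nd (nat_lit 3553134) (nat_lit 0) (nat_lit 1140) (XT.nd (nat_lit 2488200) (nat_lit 0) (nat_lit 532) (XT.nd (nat_lit 1720134) (nat_lit 0) (nat_lit 228) (XT.nd (nat_lit 1186614) (nat_lit 0) (nat_lit 152) (XT.nd (nat_lit 830076) (nat_lit 0) (nat_lit 76) (XT.nd (nat_lit 592254) (nat_lit 0) (nat_lit 0) (XT.nd (nat_lit 414492) (nat_lit 0) (nat_lit 0) xc0 xc1) (XT.nd (nat_lit 119184) (nat_lit 0) (nat_lit 0) xc2 xc3)) (XT.nd (nat_lit 178854) (nat_lit 0) (nat_lit 0) (XT.nd (nat_lit 117936) (nat_lit 0) (nat_lit 0) xc4 xc5) (XT.nd (nat_lit 117078) (nat_lit 0) (nat_lit 76) xc6 xc7))) (XT.nd (nat_lit 296010) (nat_lit 0) (nat_lit 76) (XT.nd (nat_lit 176280) (nat_lit 0) (nat_lit 0) (XT.nd (nat_lit 116220)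 (nat_lit 0) (nat_lit 0) xc8 xc9) (XT.nd (nat_lit 59904) (nat_lit 0) (nat_lit 76) xc10 xc11)) (XT.nd (nat_lit 119028) (nat_lit 0) (nat_lit 0) (XT.nd (nat_lit 59592) (nat_lit 0) (nat_lit 0) xc12 xc13) (XT.nd (nat_lit 59280) (nat_lit 0) (nat_lit 0) xc14 xc15)))) (XT.nd (nat_lit 414024) (nat_lit 0) (nat_lit 76) (XT.nd (nat_lit 235014) (nat_lit 0) (nat_lit 76) (XT.nd (nat_lit 117780) (nat_lit 0) (nat_lit 0) (XT.nd (nat_lit 58968) (nat_lit 0) (nat_lit 0) xc16 xc17) (XT.nd (nat_lit 58656) (nat_lit 0) (nat_lit 0) xc18 xc19)) (XT.nd (nat_lit 62712) (nat_lit 0) (nat_lit 0) (XT.nd (nat_lit 58344) (nat_lit 0) (nat_lit 228) xc20 xc21) (XT.nd (nat_lit 58188) (nat_lit 0) (nat_lit 0) xc22 xc23))) (XT.nd (nat_lit 177606) (nat_lit 0) (nat_lit 228) (XT.nd (nat_lit 115596) (nat_lit 0) (nat_lit 0) (XT.nd (nat_lit 57876) (nat_lit 0) (nat_lit 0) xc24 xc25) (XT.nd (nat_lit 4368) (nat_lit 1140) (nat_lit 0) xc26 xc27)) (XT.nd (nat_lit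 61854) (nat_lit 0) (nat_lit 0) (XT.nd (nat_lit 57486) (nat_lit 0) (nat_lit 304) xc28 xc29) (XT.nd (nat_lit 57330) (nat_lit 0) (nat_lit 0) xc30 xc31))))) (XT.nd (nat_lit 538434) (nat_lit 0) (nat_lit 304) (XT.nd (nat_lit 296790) (nat_lit 0) (nat_lit 76) (XT.nd (nat_lit 122694) (nat_lit 0) (nat_lit 76) (XT.nd (nat_lit 61386) (nat_lit 0) (nat_lit 0) (XT.nd (nat_lit 4368) (nat_lit 304) (nat_lit 0) xc32 xc33) (XT.nd (nat_lit 56862) (nat_lit 0) (nat_lit 608) xc34 xc35)) (XT.nd (nat_lit 113256) (nat_lit 0) (nat_lit 0) (XT.nd (nat_lit 56706) (nat_lit 0) (nat_lit 0) xc36 xc37) (XT.nd (nat_lit 4368) (nat_lit 1292) (nat_lit 0) xc38 xc39))) (XT.nd (nat_lit 121134) (nat_lit 0) (nat_lit 152) (XT.nd (nat_lit 60606) (nat_lit 0) (nat_lit 0) (XT.nd (nat_lit 4368) (nat_lit 304) (nat_lit 0) xc40 xc41) (XT.nd (nat_lit 56082) (nat_lit 0) (nat_lit 2052) xc42 xc43)) (XT.nd (nat_lit 60294) (nat_lit 0) (nat_lit 76) (XT.nd (nat_lit 55926)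 (nat_lit 0) (nat_lit 912) xc44 xc45) (XT.nd (nat_lit 55770) (nat_lit 0) (nat_lit 304) xc46 xc47)))) (XT.nd (nat_lit 290082) (nat_lit 0) (nat_lit 76) (XT.nd (nat_lit 170976) (nat_lit 0) (nat_lit 76) (XT.nd (nat_lit 111150) (nat_lit 0) (nat_lit 76) (XT.nd (nat_lit 55614) (nat_lit 0) (nat_lit 0) xc48 xc49) (XT.nd (nat_lit 4368) (nat_lit 3952) (nat_lit 0) xc50 xc51)) (XT.nd (nat_lit 59592) (nat_lit 0) (nat_lit 0) (XT.nd (nat_lit 4368) (nat_lit 3192) (nat_lit 0) xc52 xc53) (XT.nd (nat_lit 4368) (nat_lit 2888) (nat_lit 0) xc54 xc55))) (XT.nd (nat_lit 118482) (nat_lit 0) (nat_lit 152) (XT.nd (nat_lit 59280) (nat_lit 0) (nat_lit 152) (XT.nd (nat_lit 4368) (nat_lit 2660) (nat_lit 0) xc56 xc57) (XT.nd (nat_lit 4368) (nat_lit 2736) (nat_lit 0) xc58 xc59)) (XT.nd (nat_lit 59046) (nat_lit 0) (nat_lit 0) (XT.nd (nat_lit 4368) (nat_lit 3040) (nat_lit 0) xc60 xc61) (XT.nd (nat_lit 4368) (nat_lit 3800) (nat_lit 0) xc62 xc63))))))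 (XT.nd (nat_lit 778284) (nat_lit 0) (nat_lit 532) (XT.nd (nat_lit 416754) (nat_lit 0) (nat_lit 228) (XT.nd (nat_lit 184470) (nat_lit 0) (nat_lit 76) (XT.nd (nat_lit 67470) (nat_lit 0) (nat_lit 0) (XT.nd (nat_lit 58656) (nat_lit 0) (nat_lit 76) (XT.nd (nat_lit 4368) (nat_lit 4560) (nat_lit 0) xc64 xc65) (XT.nd (nat_lit 4368) (nat_lit 6080) (nat_lit 0) xc66 xc67)) (XT.nd (nat_lit 58500) (nat_lit 0) (nat_lit 76) (XT.nd (nat_lit 54132) (nat_lit 0) (nat_lit 760) xc68 xc69) (XT.nd (nat_lit 54054) (nat_lit 0) (nat_lit 1672) xc70 xc71))) (XT.nd (nat_lit 116454) (nat_lit 0) (nat_lit 152) (XT.nd (nat_lit 58266) (nat_lit 0) (nat_lit 152) (XT.nd (nat_lit 53898) (nat_lit 0) (nat_lit 3116) xc72 xc73) (XT.nd (nat_lit 53742) (nat_lit 0) (nat_lit 5244) xc74 xc75)) (XT.nd (nat_lit 57954) (nat_lit 0) (nat_lit 0) (XT.nd (nat_lit 53586) (nat_lit 0) (nat_lit 9120) xc76 xc77) (XT.nd (nat_lit 4368) (nat_lit 836) (nat_lit 0) xc78 xc79))))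 (XT.nd (nat_lit 181350) (nat_lit 0) (nat_lit 152) (XT.nd (nat_lit 115206) (nat_lit 0) (nat_lit 152) (XT.nd (nat_lit 57642) (nat_lit 0) (nat_lit 152) (XT.nd (nat_lit 4368) (nat_lit 2660) (nat_lit 0) xc80 xc81) (XT.nd (nat_lit 4368) (nat_lit 6080) (nat_lit 0) xc82 xc83)) (XT.nd (nat_lit 8736) (nat_lit 1520) (nat_lit 0) (XT.nd (nat_lit 4368) (nat_lit 10336) (nat_lit 0) xc84 xc85) (XT.nd (nat_lit 52962) (nat_lit 0) (nat_lit 4788) xc86 xc87))) (XT.nd (nat_lit 114348) (nat_lit 0) (nat_lit 152) (XT.nd (nat_lit 57174) (nat_lit 0) (nat_lit 152) (XT.nd (nat_lit 52806) (nat_lit 0) (nat_lit 11248) xc88 xc89) (XT.nd (nat_lit 4368) (nat_lit 1216) (nat_lit 0) xc90 xc91)) (XT.nd (nat_lit 57018) (nat_lit 0) (nat_lit 1368) (XT.nd (nat_lit 4368) (nat_lit 4940) (nat_lit 0) xc92 xc93) (XT.nd (nat_lit 4368) (nat_lit 10792) (nat_lit 0) xc94 xc95))))) (XT.nd (nat_lit 405678) (nat_lit 0) (nat_lit 532) (XT.nd (nat_lit 178776) (nat_lit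 0) (nat_lit 228) (XT.nd (nat_lit 113490) (nat_lit 0) (nat_lit 228) (XT.nd (nat_lit 56784) (nat_lit 0) (nat_lit 152) (XT.nd (nat_lit 52416) (nat_lit 0) (nat_lit 5928) xc96 xc97) (XT.nd (nat_lit 52260) (nat_lit 0) (nat_lit 15580) xc98 xc99)) (XT.nd (nat_lit 56472) (nat_lit 0) (nat_lit 684) (XT.nd (nat_lit 4368) (nat_lit 2660) (nat_lit 0) xc100 xc101) (XT.nd (nat_lit 4368) (nat_lit 8740) (nat_lit 0) xc102 xc103))) (XT.nd (nat_lit 113256) (nat_lit 0) (nat_lit 152) (XT.nd (nat_lit 56550) (nat_lit 0) (nat_lit 152) (XT.nd (nat_lit 52182) (nat_lit 0) (nat_lit 5016) xc104 xc105) (XT.nd (nat_lit 52260) (nat_lit 0) (nat_lit 13452) xc106 xc107)) (XT.nd (nat_lit 56706) (nat_lit 0) (nat_lit 152) (XT.nd (nat_lit 4368) (nat_lit 1976) (nat_lit 0) xc108 xc109) (XT.nd (nat_lit 4368) (nat_lit 7296) (nat_lit 0) xc110 xc111)))) (XT.nd (nat_lit 179946) (nat_lit 0) (nat_lit 228) (XT.nd (nat_lit 65754) (nat_lit 0) (nat_lit 76) (XT.nd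 (nat_lit 8736) (nat_lit 3192) (nat_lit 0) (XT.nd (nat_lit 4368) (nat_lit 13908) (nat_lit 0) xc112 xc113) (XT.nd (nat_lit 52572) (nat_lit 0) (nat_lit 9044) xc114 xc115)) (XT.nd (nat_lit 57018) (nat_lit 0) (nat_lit 152) (XT.nd (nat_lit 4368) (nat_lit 304) (nat_lit 0) xc116 xc117) (XT.nd (nat_lit 4368) (nat_lit 3800) (nat_lit 0) xc118 xc119))) (XT.nd (nat_lit 65988) (nat_lit 0) (nat_lit 0) (XT.nd (nat_lit 8736) (nat_lit 608) (nat_lit 0) (XT.nd (nat_lit 4368) (nat_lit 9196) (nat_lit 0) xc120 xc121) (XT.nd (nat_lit 52806) (nat_lit 0) (nat_lit 3800) xc122 xc123)) (XT.nd (nat_lit 57330) (nat_lit 0) (nat_lit 152) (XT.nd (nat_lit 52884) (nat_lit 0) (nat_lit 9348) xc124 xc125) (XT.nd (nat_lit 4368) (nat_lit 304) (nat_lit 0) xc126 xc127))))))) (XT.nd (nat_lit 1782846) (nat_lit 0) (nat_lit 3952) (XT.nd (nat_lit 830934) (nat_lit 0) (nat_lit 1444) (XT.nd (nat_lit 413166) (nat_lit 0) (nat_lit 760) (XT.nd (nat_lit 181584) (nat_lit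 0) (nat_lit 304) (XT.nd (nat_lit 115128) (nat_lit 0) (nat_lit 304) (XT.nd (nat_lit 57486) (nat_lit 0) (nat_lit 304) (XT.nd (nat_lit 4368) (nat_lit 3040) (nat_lit 0) xc128 xc129) (XT.nd (nat_lit 4368) (nat_lit 6992) (nat_lit 0) xc130 xc131)) (XT.nd (nat_lit 8736) (nat_lit 1672) (nat_lit 0) (XT.nd (nat_lit 4368) (nat_lit 11476) (nat_lit 0) xc132 xc133) (XT.nd (nat_lit 53274) (nat_lit 0) (nat_lit 4712) xc134 xc135))) (XT.nd (nat_lit 115596) (nat_lit 0) (nat_lit 152) (XT.nd (nat_lit 57720) (nat_lit 0) (nat_lit 152) (XT.nd (nat_lit 53352) (nat_lit 0) (nat_lit 9804) xc136 xc137) (XT.nd (nat_lit 4368) (nat_lit 228) (nat_lit 0) xc138 xc139)) (XT.nd (nat_lit 57876) (nat_lit 0) (nat_lit 228) (XT.nd (nat_lit 4368) (nat_lit 2584) (nat_lit 0) xc140 xc141) (XT.nd (nat_lit 4368) (nat_lit 5472) (nat_lit 0) xc142 xc143)))) (XT.nd (nat_lit 183456) (nat_lit 0) (nat_lit 152) (XT.nd (nat_lit 66924) (nat_lit 0) (nat_lit 152) (XT.nd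 (nat_lit 58110) (nat_lit 0) (nat_lit 1672) (XT.nd (nat_lit 4368) (nat_lit 9348) (nat_lit 0) xc144 xc145) (XT.nd (nat_lit 4368) (nat_lit 12844) (nat_lit 0) xc146 xc147)) (XT.nd (nat_lit 58188) (nat_lit 0) (nat_lit 0) (XT.nd (nat_lit 53820) (nat_lit 0) (nat_lit 3724) xc148 xc149) (XT.nd (nat_lit 53898) (nat_lit 0) (nat_lit 6384) xc150 xc151))) (XT.nd (nat_lit 116922) (nat_lit 0) (nat_lit 532) (XT.nd (nat_lit 58344) (nat_lit 0) (nat_lit 228) (XT.nd (nat_lit 53976) (nat_lit 0) (nat_lit 9728) xc152 xc153) (XT.nd (nat_lit 54132) (nat_lit 0) (nat_lit 12844) xc154 xc155)) (XT.nd (nat_lit 58656) (nat_lit 0) (nat_lit 0) (XT.nd (nat_lit 4368) (nat_lit 760) (nat_lit 0) xc156 xc157) (XT.nd (nat_lit 4368) (nat_lit 2204) (nat_lit 0) xc158 xc159))))) (XT.nd (nat_lit 472914) (nat_lit 0) (nat_lit 988) (XT.nd (nat_lit 235716) (nat_lit 0) (nat_lit 532) (XT.nd (nat_lit 117624) (nat_lit 0) (nat_lit 456) (XT.nd (nat_lit 58734) (nat_lit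 0) (nat_lit 228) (XT.nd (nat_lit 4368) (nat_lit 3496) (nat_lit 0) xc160 xc161) (XT.nd (nat_lit 4368) (nat_lit 4788) (nat_lit 0) xc162 xc163)) (XT.nd (nat_lit 58968) (nat_lit 0) (nat_lit 0) (XT.nd (nat_lit 4368) (nat_lit 6232) (nat_lit 0) xc164 xc165) (XT.nd (nat_lit 4368) (nat_lit 7676) (nat_lit 0) xc166 xc167))) (XT.nd (nat_lit 118404) (nat_lit 0) (nat_lit 228) (XT.nd (nat_lit 59124) (nat_lit 0) (nat_lit 228) (XT.nd (nat_lit 4368) (nat_lit 8664) (nat_lit 0) xc168 xc169) (XT.nd (nat_lit 4368) (nat_lit 9500) (nat_lit 0) xc170 xc171)) (XT.nd (nat_lit 59280) (nat_lit 0) (nat_lit 228) (XT.nd (nat_lit 4368) (nat_lit 10032) (nat_lit 0) xc172 xc173) (XT.nd (nat_lit 4368) (nat_lit 10336) (nat_lit 0) xc174 xc175)))) (XT.nd (nat_lit 238680) (nat_lit 0) (nat_lit 912) (XT.nd (nat_lit 119184) (nat_lit 0) (nat_lit 380) (XT.nd (nat_lit 59514) (nat_lit 0) (nat_lit 380) (XT.nd (nat_lit 4368) (nat_lit 9804) (nat_lit 0) xc176 xc177)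 (XT.nd (nat_lit 4368) (nat_lit 9424) (nat_lit 0) xc178 xc179)) (XT.nd (nat_lit 59670) (nat_lit 0) (nat_lit 228) (XT.nd (nat_lit 4368) (nat_lit 8284) (nat_lit 0) xc180 xc181) (XT.nd (nat_lit 4368) (nat_lit 7600) (nat_lit 0) xc182 xc183))) (XT.nd (nat_lit 119964) (nat_lit 0) (nat_lit 304) (XT.nd (nat_lit 59904) (nat_lit 0) (nat_lit 0) (XT.nd (nat_lit 4368) (nat_lit 5776) (nat_lit 0) xc184 xc185) (XT.nd (nat_lit 4368) (nat_lit 4408) (nat_lit 0) xc186 xc187)) (XT.nd (nat_lit 60138) (nat_lit 0) (nat_lit 0) (XT.nd (nat_lit 4368) (nat_lit 2432) (nat_lit 0) xc188 xc189) (XT.nd (nat_lit 4368) (nat_lit 988) (nat_lit 0) xc190 xc191)))))) (XT.nd (nat_lit 1190046) (nat_lit 0) (nat_lit 4636) (XT.nd (nat_lit 537498) (nat_lit 0) (nat_lit 1748) (XT.nd (nat_lit 293748) (nat_lit 0) (nat_lit 988) (XT.nd (nat_lit 120744) (nat_lit 0) (nat_lit 304) (XT.nd (nat_lit 60294) (nat_lit 0) (nat_lit 0) (XT.nd (nat_lit 55926) (nat_lit 0) (nat_lit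 8284) xc192 xc193) (XT.nd (nat_lit 56004) (nat_lit 0) (nat_lit 4712) xc194 xc195)) (XT.nd (nat_lit 60450) (nat_lit 0) (nat_lit 76) (XT.nd (nat_lit 56082) (nat_lit 0) (nat_lit 1824) xc196 xc197) (XT.nd (nat_lit 56160) (nat_lit 0) (nat_lit 304) xc198 xc199))) (XT.nd (nat_lit 121680) (nat_lit 0) (nat_lit 0) (XT.nd (nat_lit 60762) (nat_lit 0) (nat_lit 0) (XT.nd (nat_lit 4368) (nat_lit 6688) (nat_lit 0) xc200 xc201) (XT.nd (nat_lit 4368) (nat_lit 2812) (nat_lit 0) xc202 xc203)) (XT.nd (nat_lit 60918) (nat_lit 0) (nat_lit 456) (XT.nd (nat_lit 56550) (nat_lit 0) (nat_lit 7220) xc204 xc205) (XT.nd (nat_lit 56706) (nat_lit 0) (nat_lit 1444) xc206 xc207)))) (XT.nd (nat_lit 351156) (nat_lit 0) (nat_lit 1520) (XT.nd (nat_lit 175110) (nat_lit 0) (nat_lit 760) (XT.nd (nat_lit 113646) (nat_lit 0) (nat_lit 380) (XT.nd (nat_lit 56784) (nat_lit 0) (nat_lit 0) xc208 xc209) (XT.nd (nat_lit 4368) (nat_lit 3040) (nat_lit 0) xc210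 xc211)) (XT.nd (nat_lit 61464) (nat_lit 0) (nat_lit 0) (XT.nd (nat_lit 57096) (nat_lit 0) (nat_lit 3572) xc212 xc213) (XT.nd (nat_lit 57174) (nat_lit 0) (nat_lit 380) xc214 xc215))) (XT.nd (nat_lit 123708) (nat_lit 0) (nat_lit 532) (XT.nd (nat_lit 61776) (nat_lit 0) (nat_lit 0) (XT.nd (nat_lit 4368) (nat_lit 2356) (nat_lit 0) xc216 xc217) (XT.nd (nat_lit 57486) (nat_lit 0) (nat_lit 1368) xc218 xc219)) (XT.nd (nat_lit 115440) (nat_lit 0) (nat_lit 380) (XT.nd (nat_lit 57642) (nat_lit 0) (nat_lit 380) xc220 xc221) (XT.nd (nat_lit 57798) (nat_lit 0) (nat_lit 1900) xc222 xc223))))) (XT.nd (nat_lit 830154) (nat_lit 0) (nat_lit 5320) (XT.nd (nat_lit 412386) (nat_lit 0) (nat_lit 2508) (XT.nd (nat_lit 232518) (nat_lit 0) (nat_lit 988) (XT.nd (nat_lit 115986) (nat_lit 0) (nat_lit 532) (XT.nd (nat_lit 57954) (nat_lit 0) (nat_lit 0) xc224 xc225) (XT.nd (nat_lit 58188) (nat_lit 0) (nat_lit 456) xc226 xc227)) (XT.nd (nat_lit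 62712) (nat_lit 0) (nat_lit 456) (XT.nd (nat_lit 4368) (nat_lit 3724) (nat_lit 0) xc228 xc229) (XT.nd (nat_lit 58500) (nat_lit 0) (nat_lit 532) xc230 xc231))) (XT.nd (nat_lit 180882) (nat_lit 0) (nat_lit 1064) (XT.nd (nat_lit 117546) (nat_lit 0) (nat_lit 532) (XT.nd (nat_lit 58734) (nat_lit 0) (nat_lit 0) xc232 xc233) (XT.nd (nat_lit 4368) (nat_lit 532) (nat_lit 0) xc234 xc235)) (XT.nd (nat_lit 118170) (nat_lit 0) (nat_lit 608) (XT.nd (nat_lit 59046) (nat_lit 0) (nat_lit 0) xc236 xc237) (XT.nd (nat_lit 59280) (nat_lit 0) (nat_lit 532) xc238 xc239)))) (XT.nd (nat_lit 591708) (nat_lit 0) (nat_lit 4788) (XT.nd (nat_lit 294372) (nat_lit 0) (nat_lit 1900) (XT.nd (nat_lit 119106) (nat_lit 0) (nat_lit 608) (XT.nd (nat_lit 59514) (nat_lit 0) (nat_lit 0) xc240 xc241) (XT.nd (nat_lit 59748) (nat_lit 0) (nat_lit 684) xc242 xc243)) (XT.nd (nat_lit 120276) (nat_lit 0) (nat_lit 1368) (XT.nd (nat_lit 60060) (nat_lit 0) (nat_lit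 684) xc244 xc245) (XT.nd (nat_lit 60294) (nat_lit 0) (nat_lit 836) xc246 xc247))) (XT.nd (nat_lit 357474) (nat_lit 0) (nat_lit 4104) (XT.nd (nat_lit 178152) (nat_lit 0) (nat_lit 2356) (XT.nd (nat_lit 60684) (nat_lit 0) (nat_lit 760) xc248 xc249) (XT.nd (nat_lit 61074) (nat_lit 0) (nat_lit 0) xc250 xc251)) (XT.nd (nat_lit 295932) (nat_lit 0) (nat_lit 1748) (XT.nd (nat_lit 118794) (nat_lit 0) (nat_lit 836) xc252 xc253) (XT.nd (nat_lit 178464) (nat_lit 0) (nat_lit 76) xc254 xc255)))))))) XT.nil))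

set_option maxRecDepth 10000000 in
noncomputable def Te : XT := XT.nil

set_option maxRecDepth 10000000 in
noncomputable def Tz : ZL := (ZL.cons (nat_lit 76) (nat_lit 6) (nat_lit 209400780298597913782) (ZL.cons (nat_lit 152) (nat_lit 3) (nat_lit 103735496955711186659) (ZL.cons (nat_lit 228) (nat_lit 6) (nat_lit 191164025573111207700) (ZL.cons (nat_lit 380) (nat_lit 3) (nat_lit 94723112165470437114) (ZL.cons (nat_lit 456) (nat_lit 6) (nat_lit 187766739347671698212) (ZL.cons (nat_lit 532) (nat_lit 6) (nat_lit 186124912001741613306) (ZL.cons (nat_lit 608) (nat_lit 3) (nat_lit 93044820521414253527) (ZL.cons (nat_lit 684) (nat_lit 6) (nat_lit 184450248108892926704) (ZL.cons (nat_lit 760) (nat_lit 6) (nat_lit 182847917646675178504) (ZL.cons (nat_lit 836) (nat_lit 3) (nat_lit 91406669137595870500) (ZL.cons (nat_lit 988) (nat_lit 6) (nat_lit 181213540575213075340) (ZL.cons (nat_lit 1064) (nat_lit 6) (nat_lit 179650227637309879264)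 (ZL.cons (nat_lit 1140) (nat_lit 3) (nat_lit 89808163146359136934) (ZL.cons (nat_lit 1216) (nat_lit 6) (nat_lit 178122786397584935832) (ZL.cons (nat_lit 1292) (nat_lit 6) (nat_lit 178055648440648619266) (ZL.cons (nat_lit 1368) (nat_lit 6) (nat_lit 176530894988473888138) (ZL.cons (nat_lit 1444) (nat_lit 3) (nat_lit 88248829188064588484) (ZL.cons (nat_lit 1520) (nat_lit 6) (nat_lit 175041467993663815886) (ZL.cons (nat_lit 1596) (nat_lit 6) (nat_lit 174975646467255662390) (ZL.cons (nat_lit 1672) (nat_lit 6) (nat_lit 173489015846612831018) (ZL.cons (nat_lit 1748) (nat_lit 3) (nat_lit 86728215466274694346) (ZL.cons (nat_lit 1824) (nat_lit 6) (nat_lit 172037183521800430762) (ZL.cons (nat_lit 1900) (nat_lit 6) (nat_lit 171972652613557143018) (ZL.cons (nat_lit 1976) (nat_lit 6) (nat_lit 170523729636428340172) (ZL.cons (nat_lit 2052) (nat_lit 3) (nat_lit 85245891821124247377) (ZL.cons (nat_lit 2128) (nat_lit 6) (nat_lit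 169109093796073910036) (ZL.cons (nat_lit 2204) (nat_lit 6) (nat_lit 169045828199756961270) (ZL.cons (nat_lit 2280) (nat_lit 6) (nat_lit 167728190333340772442) (ZL.cons (nat_lit 2356) (nat_lit 6) (nat_lit 167634219244732545880) (ZL.cons (nat_lit 2432) (nat_lit 3) (nat_lit 83801449821297721266) (ZL.cons (nat_lit 2508) (nat_lit 6) (nat_lit 166256403205036023330) (ZL.cons (nat_lit 2584) (nat_lit 6) (nat_lit 166194378110607642186) (ZL.cons (nat_lit 2660) (nat_lit 6) (nat_lit 164911839760651826350) (ZL.cons (nat_lit 2736) (nat_lit 6) (nat_lit 164819711242408466978) (ZL.cons (nat_lit 2812) (nat_lit 3) (nat_lit 82394502875058594591) (ZL.cons (nat_lit 2888) (nat_lit 6) (nat_lit 163478359952951564286) (ZL.cons (nat_lit 2964) (nat_lit 6) (nat_lit 163417551036845308262) (ZL.cons (nat_lit 3040) (nat_lit 6) (nat_lit 162169798222123421606) (ZL.cons (nat_lit 3116) (nat_lit 6) (nat_lit 162079476145414245748) (ZL.cons (nat_lit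 3192) (nat_lit 3) (nat_lit 81024686360799633760) (ZL.cons (nat_lit 3344) (nat_lit 6) (nat_lit 160774256340572460046) (ZL.cons (nat_lit 3420) (nat_lit 6) (nat_lit 160714639756154561984) (ZL.cons (nat_lit 3496) (nat_lit 6) (nat_lit 159501379771416091632) (ZL.cons (nat_lit 3572) (nat_lit 6) (nat_lit 159412828715818860402) (ZL.cons (nat_lit 3648) (nat_lit 3) (nat_lit 79691657777607970284) (ZL.cons (nat_lit 3724) (nat_lit 6) (nat_lit 158260347270663118404) (ZL.cons (nat_lit 3800) (nat_lit 6) (nat_lit 158143429086458697790) (ZL.cons (nat_lit 3876) (nat_lit 6) (nat_lit 158084981454676444788) (ZL.cons (nat_lit 3952) (nat_lit 6) (nat_lit 156905943064297854478) (ZL.cons (nat_lit 4028) (nat_lit 6) (nat_lit 156819128303908412092) (ZL.cons (nat_lit 4104) (nat_lit 3) (nat_lit 78395096916364539462) (ZL.cons (nat_lit 4180) (nat_lit 6) (nat_lit 155699885360700188954) (ZL.cons (nat_lit 4256) (nat_lit 6) (nat_lit 155585259689911541294)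 (ZL.cons (nat_lit 4332) (nat_lit 6) (nat_lit 155527958090125018742) (ZL.cons (nat_lit 4484) (nat_lit 6) (nat_lit 154382891742641127738) (ZL.cons (nat_lit 4560) (nat_lit 6) (nat_lit 154297779232455399912) (ZL.cons (nat_lit 4636) (nat_lit 3) (nat_lit 77134706051924105264) (ZL.cons (nat_lit 4712) (nat_lit 6) (nat_lit 153211552945255104596) (ZL.cons (nat_lit 4788) (nat_lit 6) (nat_lit 153099174836638783360) (ZL.cons (nat_lit 4864) (nat_lit 6) (nat_lit 153042996797632388702) (ZL.cons (nat_lit 4940) (nat_lit 6) (nat_lit 152070783949205477348) (ZL.cons (nat_lit 5016) (nat_lit 6) (nat_lit 151931674861735633164) (ZL.cons (nat_lit 5092) (nat_lit 6) (nat_lit 151848231224298645096) (ZL.cons (nat_lit 5168) (nat_lit 3) (nat_lit 75910210156949719911) (ZL.cons (nat_lit 5244) (nat_lit 6) (nat_lit 150794821464618536320) (ZL.cons (nat_lit 5320) (nat_lit 6) (nat_lit 150684646848328025304) (ZL.cons (nat_lit 5396) (nat_lit 6) (nat_lit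 150629570339498226620) (ZL.cons (nat_lit 5472) (nat_lit 6) (nat_lit 149688168820425878282) (ZL.cons (nat_lit 5548) (nat_lit 6) (nat_lit 149551787362122109472) (ZL.cons (nat_lit 5624) (nat_lit 6) (nat_lit 149469979874438787840) (ZL.cons (nat_lit 5700) (nat_lit 3) (nat_lit 74721357138004097215) (ZL.cons (nat_lit 5852) (nat_lit 6) (nat_lit 148449208507058856068) (ZL.cons (nat_lit 5928) (nat_lit 6) (nat_lit 148341194177362276642) (ZL.cons (nat_lit 6004) (nat_lit 6) (nat_lit 148287197600078160284) (ZL.cons (nat_lit 6080) (nat_lit 6) (nat_lit 147376477899273534400) (ZL.cons (nat_lit 6156) (nat_lit 6) (nat_lit 147242770587211015962) (ZL.cons (nat_lit 6232) (nat_lit 6) (nat_lit 147162567167913641810) (ZL.cons (nat_lit 6308) (nat_lit 3) (nat_lit 73567918094530059431) (ZL.cons (nat_lit 6384) (nat_lit 6) (nat_lit 146333174860096424738) (ZL.cons (nat_lit 6460) (nat_lit 6) (nat_lit 146174278349635926874) (ZL.cons (nat_lit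 6536) (nat_lit 6) (nat_lit 146068381947972613710) (ZL.cons (nat_lit 6612) (nat_lit 6) (nat_lit 146015444127105832968) (ZL.cons (nat_lit 6688) (nat_lit 6) (nat_lit 145135298448073254442) (ZL.cons (nat_lit 6764) (nat_lit 6) (nat_lit 145004212848011961852) (ZL.cons (nat_lit 6840) (nat_lit 6) (nat_lit 144925582044779242098) (ZL.cons (nat_lit 6916) (nat_lit 3) (nat_lit 72449687601382992152) (ZL.cons (nat_lit 6992) (nat_lit 6) (nat_lit 144125423439424346636) (ZL.cons (nat_lit 7068) (nat_lit 6) (nat_lit 143969642546816015396) (ZL.cons (nat_lit 7144) (nat_lit 6) (nat_lit 143865822545185316216) (ZL.cons (nat_lit 7220) (nat_lit 6) (nat_lit 143813922720806119410) (ZL.cons (nat_lit 7296) (nat_lit 6) (nat_lit 143144257294274047028) (ZL.cons (nat_lit 7372) (nat_lit 6) (nat_lit 142964265330541168088) (ZL.cons (nat_lit 7448) (nat_lit 6) (nat_lit 142835750036363430258) (ZL.cons (nat_lit 7524) (nat_lit 6) (nat_lit 142758661013586254026)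 (ZL.cons (nat_lit 7600) (nat_lit 3) (nat_lit 71366484015610157507) (ZL.cons (nat_lit 7676) (nat_lit 6) (nat_lit 141987686933612410182) (ZL.cons (nat_lit 7752) (nat_lit 6) (nat_lit 141834960568310124652) (ZL.cons (nat_lit 7828) (nat_lit 6) (nat_lit 141733176252985909770) (ZL.cons (nat_lit 7904) (nat_lit 6) (nat_lit 141682294072221991332) (ZL.cons (nat_lit 7980) (nat_lit 6) (nat_lit 141039524384109377460) (ZL.cons (nat_lit 8056) (nat_lit 6) (nat_lit 140863061674567339288) (ZL.cons (nat_lit 8132) (nat_lit 6) (nat_lit 140737066288118576706) (ZL.cons (nat_lit 8208) (nat_lit 6) (nat_lit 140661488814807619618) (ZL.cons (nat_lit 8284) (nat_lit 3) (nat_lit 70318149808204820096) (ZL.cons (nat_lit 8360) (nat_lit 6) (nat_lit 140119405853581284420) (ZL.cons (nat_lit 8436) (nat_lit 6) (nat_lit 139919672218313998556) (ZL.cons (nat_lit 8512) (nat_lit 6) (nat_lit 139769940487625483332) (ZL.cons (nat_lit 8588) (nat_lit 6) (nat_lit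 139670151943189978544) (ZL.cons (nat_lit 8664) (nat_lit 6) (nat_lit 139620267452244960468) (ZL.cons (nat_lit 8740) (nat_lit 6) (nat_lit 139004422242900591344) (ZL.cons (nat_lit 8816) (nat_lit 6) (nat_lit 138831419586486828428) (ZL.cons (nat_lit 8892) (nat_lit 6) (nat_lit 138707894697811570998) (ZL.cons (nat_lit 8968) (nat_lit 6) (nat_lit 138633799135742005222) (ZL.cons (nat_lit 9044) (nat_lit 3) (nat_lit 69304551921597483286) (ZL.cons (nat_lit 9120) (nat_lit 6) (nat_lit 138116952826768132004) (ZL.cons (nat_lit 9196) (nat_lit 6) (nat_lit 137921135537290400764) (ZL.cons (nat_lit 9272) (nat_lit 6) (nat_lit 137774339722889895642) (ZL.cons (nat_lit 9348) (nat_lit 6) (nat_lit 137676507816580577224) (ZL.cons (nat_lit 9424) (nat_lit 6) (nat_lit 137627601452908990874) (ZL.cons (nat_lit 9500) (nat_lit 6) (nat_lit 137038731365899260562) (ZL.cons (nat_lit 9576) (nat_lit 6) (nat_lit 136869120918434787116) (ZL.cons (nat_lit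 9652) (nat_lit 6) (nat_lit 136748018086400221006) (ZL.cons (nat_lit 9728) (nat_lit 6) (nat_lit 136675375378488882014) (ZL.cons (nat_lit 9804) (nat_lit 3) (nat_lit 68325582153682167157) (ZL.cons (nat_lit 9880) (nat_lit 6) (nat_lit 136183861031461881884) (ZL.cons (nat_lit 9956) (nat_lit 6) (nat_lit 135991883296679792434) (ZL.cons (nat_lit 10032) (nat_lit 6) (nat_lit 135847965831581258000) (ZL.cons (nat_lit 10108) (nat_lit 6) (nat_lit 135752052197944671316) (ZL.cons (nat_lit 10184) (nat_lit 6) (nat_lit 135704104782580370974) (ZL.cons (nat_lit 10260) (nat_lit 6) (nat_lit 135356189290709857916) (ZL.cons (nat_lit 10336) (nat_lit 6) (nat_lit 135142282842871282186) (ZL.cons (nat_lit 10412) (nat_lit 6) (nat_lit 134975998090455131748) (ZL.cons (nat_lit 10488) (nat_lit 6) (nat_lit 134857269823754576740) (ZL.cons (nat_lit 10564) (nat_lit 6) (nat_lit 134786051482665028706) (ZL.cons (nat_lit 10640) (nat_lit 3) (nat_lit 67381157569212638032)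 (ZL.cons (nat_lit 10792) (nat_lit 6) (nat_lit 134319986380360704018) (ZL.cons (nat_lit 10868) (nat_lit 6) (nat_lit 134131772914888067300) (ZL.cons (nat_lit 10944) (nat_lit 6) (nat_lit 133990677360869896288) (ZL.cons (nat_lit 11020) (nat_lit 6) (nat_lit 133896644386716379930) (ZL.cons (nat_lit 11096) (nat_lit 6) (nat_lit 133849637116751379596) (ZL.cons (nat_lit 11172) (nat_lit 6) (nat_lit 133524671439947073388) (ZL.cons (nat_lit 11248) (nat_lit 6) (nat_lit 133314959236183763848) (ZL.cons (nat_lit 11324) (nat_lit 6) (nat_lit 133151934969109106556) (ZL.cons (nat_lit 11400) (nat_lit 6) (nat_lit 133035534707637974194) (ZL.cons (nat_lit 11476) (nat_lit 6) (nat_lit 132965712804609005536) (ZL.cons (nat_lit 11552) (nat_lit 3) (nat_lit 66471220939441878922) (ZL.cons (nat_lit 11628) (nat_lit 6) (nat_lit 132756026133418463378) (ZL.cons (nat_lit 11704) (nat_lit 6) (nat_lit 132525236735252533426) (ZL.cons (nat_lit 11780) (nat_lit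 6) (nat_lit 132340713729887203312) (ZL.cons (nat_lit 11856) (nat_lit 6) (nat_lit 132202384755359584670) (ZL.cons (nat_lit 11932) (nat_lit 6) (nat_lit 132110195565013000008) (ZL.cons (nat_lit 12008) (nat_lit 6) (nat_lit 132064110006223783992) (ZL.cons (nat_lit 12160) (nat_lit 6) (nat_lit 131762295716995971630) (ZL.cons (nat_lit 12236) (nat_lit 6) (nat_lit 131556695517228021104) (ZL.cons (nat_lit 12312) (nat_lit 6) (nat_lit 131396867804409729640) (ZL.cons (nat_lit 12388) (nat_lit 6) (nat_lit 131282749901006658698) (ZL.cons (nat_lit 12464) (nat_lit 6) (nat_lit 131214297054899826678) (ZL.cons (nat_lit 12540) (nat_lit 3) (nat_lit 65595741210917929177) (ZL.cons (nat_lit 12616) (nat_lit 6) (nat_lit 131025836988857899422) (ZL.cons (nat_lit 12692) (nat_lit 6) (nat_lit 130799572873008948488) (ZL.cons (nat_lit 12768) (nat_lit 6) (nat_lit 130618667965788036612) (ZL.cons (nat_lit 12844) (nat_lit 6) (nat_lit 130483051324094292848)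 (ZL.cons (nat_lit 12920) (nat_lit 6) (nat_lit 130392669764930974548) (ZL.cons (nat_lit 12996) (nat_lit 6) (nat_lit 130347487844549390220) (ZL.cons (nat_lit 13072) (nat_lit 6) (nat_lit 130315571743493948924) (ZL.cons (nat_lit 13148) (nat_lit 6) (nat_lit 130069048886389115240) (ZL.cons (nat_lit 13224) (nat_lit 6) (nat_lit 129867480063087202956) (ZL.cons (nat_lit 13300) (nat_lit 6) (nat_lit 129710786226990838780) (ZL.cons (nat_lit 13376) (nat_lit 6) (nat_lit 129598905929536847658) (ZL.cons (nat_lit 13452) (nat_lit 6) (nat_lit 129531795296098777050) (ZL.cons (nat_lit 13528) (nat_lit 3) (nat_lit 64754714004390580523) (ZL.cons (nat_lit 13604) (nat_lit 6) (nat_lit 129631221445513781334) (ZL.cons (nat_lit 13680) (nat_lit 6) (nat_lit 129364837077373768482) (ZL.cons (nat_lit 13756) (nat_lit 6) (nat_lit 129143009512815973448) (ZL.cons (nat_lit 13832) (nat_lit 6) (nat_lit 128965651760638608864) (ZL.cons (nat_lit 13908) (nat_lit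 6) (nat_lit 128832694268781997330) (ZL.cons (nat_lit 13984) (nat_lit 6) (nat_lit 128744084897053253900) (ZL.cons (nat_lit 14060) (nat_lit 6) (nat_lit 128699788896679151616) (ZL.cons (nat_lit 14136) (nat_lit 6) (nat_lit 128686661284469176710) (ZL.cons (nat_lit 14212) (nat_lit 6) (nat_lit 128444972208876202508) (ZL.cons (nat_lit 14288) (nat_lit 6) (nat_lit 128247355715442955174) (ZL.cons (nat_lit 14364) (nat_lit 6) (nat_lit 128093734307505343232) (ZL.cons (nat_lit 14440) (nat_lit 6) (nat_lit 127984047741373979390) (ZL.cons (nat_lit 14516) (nat_lit 6) (nat_lit 127918253002709204284) (ZL.cons (nat_lit 14592) (nat_lit 3) (nat_lit 63948162144826359002) (ZL.cons (nat_lit 14668) (nat_lit 6) (nat_lit 128034255556384004784) (ZL.cons (nat_lit 14744) (nat_lit 6) (nat_lit 127773094411148698066) (ZL.cons (nat_lit 14820) (nat_lit 6) (nat_lit 127555616406680271564) (ZL.cons (nat_lit 14896) (nat_lit 6) (nat_lit 127381736257486776872)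 (ZL.cons (nat_lit 14972) (nat_lit 6) (nat_lit 127251385775274412622) (ZL.cons (nat_lit 15048) (nat_lit 6) (nat_lit 127164513842207017104) (ZL.cons (nat_lit 15124) (nat_lit 6) (nat_lit 127121086390859858002) (ZL.cons (nat_lit 15200) (nat_lit 6) (nat_lit 127407364047734689896) (ZL.cons (nat_lit 15276) (nat_lit 6) (nat_lit 127127112638144155220) (ZL.cons (nat_lit 15352) (nat_lit 6) (nat_lit 126890162564033396202) (ZL.cons (nat_lit 15428) (nat_lit 6) (nat_lit 126696420903804722342) (ZL.cons (nat_lit 15504) (nat_lit 6) (nat_lit 126545811680336475342) (ZL.cons (nat_lit 15580) (nat_lit 6) (nat_lit 126438275831188079416) (ZL.cons (nat_lit 15656) (nat_lit 6) (nat_lit 126373771185438299902) (ZL.cons (nat_lit 15732) (nat_lit 3) (nat_lit 63176136223573813540) (ZL.cons (nat_lit 15808) (nat_lit 6) (nat_lit 126506773563677081992) (ZL.cons (nat_lit 15884) (nat_lit 6) (nat_lit 126250733225211095016) (ZL.cons (nat_lit 15960) (nat_lit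 6) (nat_lit 126037519495340088640) (ZL.cons (nat_lit 16036) (nat_lit 6) (nat_lit 125867048760836662472) (ZL.cons (nat_lit 16112) (nat_lit 6) (nat_lit 125739254170432383796) (ZL.cons (nat_lit 16188) (nat_lit 6) (nat_lit 125654085608601603874) (ZL.cons (nat_lit 16264) (nat_lit 6) (nat_lit 125611509675908310640) (ZL.cons (nat_lit 16340) (nat_lit 6) (nat_lit 125911833917522197178) (ZL.cons (nat_lit 16416) (nat_lit 6) (nat_lit 125637077633609908282) (ZL.cons (nat_lit 16492) (nat_lit 6) (nat_lit 125404773639383673948) (ZL.cons (nat_lit 16568) (nat_lit 6) (nat_lit 125214830835237915264) (ZL.cons (nat_lit 16644) (nat_lit 6) (nat_lit 125067174733798457420) (ZL.cons (nat_lit 16720) (nat_lit 6) (nat_lit 124961747430711794748) (ZL.cons (nat_lit 16796) (nat_lit 6) (nat_lit 124898507581937501106) (ZL.cons (nat_lit 16872) (nat_lit 3) (nat_lit 62438715193767440347) (ZL.cons (nat_lit 16948) (nat_lit 6) (nat_lit 125342060390014341998)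 (ZL.cons (nat_lit 17024) (nat_lit 6) (nat_lit 125048955139978227690) (ZL.cons (nat_lit 17100) (nat_lit 6) (nat_lit 124797935200305691436) (ZL.cons (nat_lit 17176) (nat_lit 6) (nat_lit 124588902131804704794) (ZL.cons (nat_lit 17252) (nat_lit 6) (nat_lit 124421773960722914434) (ZL.cons (nat_lit 17328) (nat_lit 6) (nat_lit 124296485146601072594) (ZL.cons (nat_lit 17404) (nat_lit 6) (nat_lit 124212986556570896202) (ZL.cons (nat_lit 17480) (nat_lit 6) (nat_lit 124171245446087275382) (ZL.cons (nat_lit 17556) (nat_lit 6) (nat_lit 124797229540554493764) (ZL.cons (nat_lit 17632) (nat_lit 6) (nat_lit 124486135108044040818) (ZL.cons (nat_lit 17708) (nat_lit 6) (nat_lit 124216766202247679152) (ZL.cons (nat_lit 17784) (nat_lit 6) (nat_lit 123989017188300390590) (ZL.cons (nat_lit 17860) (nat_lit 6) (nat_lit 123802798752863372272) (ZL.cons (nat_lit 17936) (nat_lit 6) (nat_lit 123658037869099197916) (ZL.cons (nat_lit 18012)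 (nat_lit 6) (nat_lit 123554677768033842356) (ZL.cons (nat_lit 18088) (nat_lit 6) (nat_lit 123492677916294338786) (ZL.cons (nat_lit 18164) (nat_lit 3) (nat_lit 61736007000106669189) (ZL.cons (nat_lit 18240) (nat_lit 6) (nat_lit 123948396824069334258) (ZL.cons (nat_lit 18316) (nat_lit 6) (nat_lit 123661038735798633954) (ZL.cons (nat_lit 18392) (nat_lit 6) (nat_lit 123414940755727519980) (ZL.cons (nat_lit 18468) (nat_lit 6) (nat_lit 123210006374844199742) (ZL.cons (nat_lit 18544) (nat_lit 6) (nat_lit 123046155226724797428) (ZL.cons (nat_lit 18620) (nat_lit 6) (nat_lit 122923323056017109352) (ZL.cons (nat_lit 18696) (nat_lit 6) (nat_lit 122841461693242426614) (ZL.cons (nat_lit 18772) (nat_lit 6) (nat_lit 122800539035905543456) (ZL.cons (nat_lit 18848) (nat_lit 6) (nat_lit 123435529410295686558) (ZL.cons (nat_lit 18924) (nat_lit 6) (nat_lit 123130534868618771902) (ZL.cons (nat_lit 19000) (nat_lit 6) (nat_lit 122866447706073319290)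 (ZL.cons (nat_lit 19076) (nat_lit 6) (nat_lit 122643164359066173640) (ZL.cons (nat_lit 19152) (nat_lit 6) (nat_lit 122460597265500469406) (ZL.cons (nat_lit 19228) (nat_lit 6) (nat_lit 122318674830437553372) (ZL.cons (nat_lit 19304) (nat_lit 6) (nat_lit 122217341398020538118) (ZL.cons (nat_lit 19380) (nat_lit 6) (nat_lit 122156557229648475792) (ZL.cons (nat_lit 19456) (nat_lit 3) (nat_lit 61068149244196296521) (ZL.cons (nat_lit 19532) (nat_lit 6) (nat_lit 122947331742247108052) (ZL.cons (nat_lit 19608) (nat_lit 6) (nat_lit 122625046559975865600) (ZL.cons (nat_lit 19684) (nat_lit 6) (nat_lit 122343322944024198636) (ZL.cons (nat_lit 19760) (nat_lit 6) (nat_lit 122102050414542714348) (ZL.cons (nat_lit 19836) (nat_lit 6) (nat_lit 121901134354853184702) (ZL.cons (nat_lit 19912) (nat_lit 6) (nat_lit 121740495974343966748) (ZL.cons (nat_lit 19988) (nat_lit 6) (nat_lit 121620072277571723536) (ZL.cons (nat_lit 20064) (nat_lit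 6) (nat_lit 121539816039557328694) (ZL.cons (nat_lit 20140) (nat_lit 6) (nat_lit 121499695787266266776) (ZL.cons (nat_lit 20216) (nat_lit 6) (nat_lit 122483612369857697334) (ZL.cons (nat_lit 20292) (nat_lit 6) (nat_lit 122144375579160643318) (ZL.cons (nat_lit 20368) (nat_lit 6) (nat_lit 121845361322614648558) (ZL.cons (nat_lit 20444) (nat_lit 6) (nat_lit 121586452339726949918) (ZL.cons (nat_lit 20520) (nat_lit 6) (nat_lit 121367547097563081634) (ZL.cons (nat_lit 20596) (nat_lit 6) (nat_lit 121188559750930038268) (ZL.cons (nat_lit 20672) (nat_lit 6) (nat_lit 121049420108711493136) (ZL.cons (nat_lit 20748) (nat_lit 6) (nat_lit 120950073606341870336) (ZL.cons (nat_lit 20824) (nat_lit 6) (nat_lit 120890481284408475902) (ZL.cons (nat_lit 20900) (nat_lit 3) (nat_lit 60435309886686648367) (ZL.cons (nat_lit 21052) (nat_lit 6) (nat_lit 121688333427749255950) (ZL.cons (nat_lit 21128) (nat_lit 6) (nat_lit 121372367562777449626)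 (ZL.cons (nat_lit 21204) (nat_lit 6) (nat_lit 121096167939295423190) (ZL.cons (nat_lit 21280) (nat_lit 6) (nat_lit 120859626243725340554) (ZL.cons (nat_lit 21356) (nat_lit 6) (nat_lit 120662649714617958550) (ZL.cons (nat_lit 21432) (nat_lit 6) (nat_lit 120505161106275588006) (ZL.cons (nat_lit 21508) (nat_lit 6) (nat_lit 120387098658459663286) (ZL.cons (nat_lit 21584) (nat_lit 6) (nat_lit 120308416072171040894) (ZL.cons (nat_lit 21660) (nat_lit 6) (nat_lit 120269082491493529210) (ZL.cons (nat_lit 21736) (nat_lit 6) (nat_lit 121256741265682326482) (ZL.cons (nat_lit 21812) (nat_lit 6) (nat_lit 120924156176763646076) (ZL.cons (nat_lit 21888) (nat_lit 6) (nat_lit 120631004944855808076) (ZL.cons (nat_lit 21964) (nat_lit 6) (nat_lit 120377172608691397644) (ZL.cons (nat_lit 22040) (nat_lit 6) (nat_lit 120162559626177801288) (ZL.cons (nat_lit 22116) (nat_lit 6) (nat_lit 119987081835361092106) (ZL.cons (nat_lit 22192)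 (nat_lit 6) (nat_lit 119850670421421341974) (ZL.cons (nat_lit 22268) (nat_lit 6) (nat_lit 119753271889686417662) (ZL.cons (nat_lit 22344) (nat_lit 6) (nat_lit 119694848044653678020) (ZL.cons (nat_lit 22420) (nat_lit 3) (nat_lit 59837687987505672752) (ZL.cons (nat_lit 22496) (nat_lit 6) (nat_lit 120849429841131593374) (ZL.cons (nat_lit 22572) (nat_lit 6) (nat_lit 120500551395402252102) (ZL.cons (nat_lit 22648) (nat_lit 6) (nat_lit 120190780939547540020) (ZL.cons (nat_lit 22724) (nat_lit 6) (nat_lit 119919996994957318024) (ZL.cons (nat_lit 22800) (nat_lit 6) (nat_lit 119688093371849393872) (ZL.cons (nat_lit 22876) (nat_lit 6) (nat_lit 119494979127626470338) (ZL.cons (nat_lit 22952) (nat_lit 6) (nat_lit 119340578531212381568) (ZL.cons (nat_lit 23028) (nat_lit 6) (nat_lit 119224831033353631844) (ZL.cons (nat_lit 23104) (nat_lit 6) (nat_lit 119147691242874590282) (ZL.cons (nat_lit 23180) (nat_lit 6) (nat_lit 119109128908877029808)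 (ZL.cons (nat_lit 23256) (nat_lit 6) (nat_lit 120466239424126644572) (ZL.cons (nat_lit 23332) (nat_lit 6) (nat_lit 120101387099171165196) (ZL.cons (nat_lit 23408) (nat_lit 6) (nat_lit 119775323286505792248) (ZL.cons (nat_lit 23484) (nat_lit 6) (nat_lit 119487920117968696170) (ZL.cons (nat_lit 23560) (nat_lit 6) (nat_lit 119239064886434960454) (ZL.cons (nat_lit 23636) (nat_lit 6) (nat_lit 119028660001617709124) (ZL.cons (nat_lit 23712) (nat_lit 6) (nat_lit 118856622951797406002) (ZL.cons (nat_lit 23788) (nat_lit 6) (nat_lit 118722886271464317640) (ZL.cons (nat_lit 23864) (nat_lit 6) (nat_lit 118627397514861450666) (ZL.cons (nat_lit 23940) (nat_lit 6) (nat_lit 118570119235417588272) (ZL.cons (nat_lit 24016) (nat_lit 3) (nat_lit 59275514485531180157) (ZL.cons (nat_lit 24092) (nat_lit 6) (nat_lit 120107019743915713430) (ZL.cons (nat_lit 24168) (nat_lit 6) (nat_lit 119726506753052255522) (ZL.cons (nat_lit 24244) (nat_lit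 6) (nat_lit 119384469061160744470) (ZL.cons (nat_lit 24320) (nat_lit 6) (nat_lit 119080772535812987526) (ZL.cons (nat_lit 24396) (nat_lit 6) (nat_lit 118815298080332377728) (ZL.cons (nat_lit 24472) (nat_lit 6) (nat_lit 118587941587089314834) (ZL.cons (nat_lit 24548) (nat_lit 6) (nat_lit 118398613896674683916) (ZL.cons (nat_lit 24624) (nat_lit 6) (nat_lit 118247240762935381202) (ZL.cons (nat_lit 24700) (nat_lit 6) (nat_lit 118133762823858175590) (ZL.cons (nat_lit 24776) (nat_lit 6) (nat_lit 118058135578290487784) (ZL.cons (nat_lit 24852) (nat_lit 6) (nat_lit 118020329368488957906) (ZL.cons (nat_lit 24928) (nat_lit 6) (nat_lit 119771629930035972130) (ZL.cons (nat_lit 25004) (nat_lit 6) (nat_lit 119375763345145084288) (ZL.cons (nat_lit 25080) (nat_lit 6) (nat_lit 119018064987345594704) (ZL.cons (nat_lit 25156) (nat_lit 6) (nat_lit 118698394582771699656) (ZL.cons (nat_lit 25232) (nat_lit 6) (nat_lit 118416626770480428992)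 (ZL.cons (nat_lit 25308) (nat_lit 6) (nat_lit 118172651053290492016) (ZL.cons (nat_lit 25384) (nat_lit 6) (nat_lit 117966371754450049534) (ZL.cons (nat_lit 25460) (nat_lit 6) (nat_lit 117797707980116419024) (ZL.cons (nat_lit 25536) (nat_lit 6) (nat_lit 117666593587632999060) (ZL.cons (nat_lit 25612) (nat_lit 6) (nat_lit 117572977159590972616) (ZL.cons (nat_lit 25688) (nat_lit 6) (nat_lit 117516821983665617326) (ZL.cons (nat_lit 25764) (nat_lit 3) (nat_lit 58749053019109657703) (ZL.cons (nat_lit 25840) (nat_lit 6) (nat_lit 119049019329015178098) (ZL.cons (nat_lit 25916) (nat_lit 6) (nat_lit 118675967377188258580) (ZL.cons (nat_lit 25992) (nat_lit 6) (nat_lit 118340636306706385000) (ZL.cons (nat_lit 26068) (nat_lit 6) (nat_lit 118042894615188976232) (ZL.cons (nat_lit 26144) (nat_lit 6) (nat_lit 117782625541188378390) (ZL.cons (nat_lit 26220) (nat_lit 6) (nat_lit 117559727018401061826) (ZL.cons (nat_lit 26296) (nat_lit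 6) (nat_lit 117374111635641619752) (ZL.cons (nat_lit 26372) (nat_lit 6) (nat_lit 117225706602563871992) (ZL.cons (nat_lit 26448) (nat_lit 6) (nat_lit 117114453721115631196) (ZL.cons (nat_lit 26524) (nat_lit 6) (nat_lit 117040309362715937268) (ZL.cons (nat_lit 26600) (nat_lit 6) (nat_lit 117003244451145809936) (ZL.cons (nat_lit 26676) (nat_lit 6) (nat_lit 118746146569754250712) (ZL.cons (nat_lit 26752) (nat_lit 6) (nat_lit 118358042074763184200) (ZL.cons (nat_lit 26828) (nat_lit 6) (nat_lit 118007357410253880686) (ZL.cons (nat_lit 26904) (nat_lit 6) (nat_lit 117693955052828493386) (ZL.cons (nat_lit 26980) (nat_lit 6) (nat_lit 117417712099601757440) (ZL.cons (nat_lit 27056) (nat_lit 6) (nat_lit 117178520220003780010) (ZL.cons (nat_lit 27132) (nat_lit 6) (nat_lit 116976285613297463854) (ZL.cons (nat_lit 27208) (nat_lit 6) (nat_lit 116810928971793904530) (ZL.cons (nat_lit 27284) (nat_lit 6) (nat_lit 116682385449751335938)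 (ZL.cons (nat_lit 27360) (nat_lit 6) (nat_lit 116590604637945427658) (ZL.cons (nat_lit 27436) (nat_lit 6) (nat_lit 116535550543900961688) (ZL.cons (nat_lit 27512) (nat_lit 3) (nat_lit 58258600788888568138) (ZL.cons (nat_lit 27588) (nat_lit 6) (nat_lit 117424204811930122872) (ZL.cons (nat_lit 27664) (nat_lit 6) (nat_lit 117586019687882239860) (ZL.cons (nat_lit 27740) (nat_lit 6) (nat_lit 117771132095353871754) (ZL.cons (nat_lit 27816) (nat_lit 6) (nat_lit 117979614627445987822) (ZL.cons (nat_lit 27892) (nat_lit 6) (nat_lit 118211549042014310464) (ZL.cons (nat_lit 27968) (nat_lit 6) (nat_lit 118467026293731219414) (ZL.cons (nat_lit 28044) (nat_lit 6) (nat_lit 118064164403481185260) (ZL.cons (nat_lit 28120) (nat_lit 6) (nat_lit 117698427195807734752) (ZL.cons (nat_lit 28196) (nat_lit 6) (nat_lit 117369671244354917518) (ZL.cons (nat_lit 28272) (nat_lit 6) (nat_lit 117077767625220203040) (ZL.cons (nat_lit 28348) (nat_lit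 6) (nat_lit 116822601866396087506) (ZL.cons (nat_lit 28424) (nat_lit 6) (nat_lit 116604073902879110484) (ZL.cons (nat_lit 28500) (nat_lit 6) (nat_lit 116422098037428677078) (ZL.cons (nat_lit 28576) (nat_lit 6) (nat_lit 116276602906960296922) (ZL.cons (nat_lit 28652) (nat_lit 6) (nat_lit 116167531454560060846) (ZL.cons (nat_lit 28728) (nat_lit 6) (nat_lit 116094840907109380524) (ZL.cons (nat_lit 28804) (nat_lit 6) (nat_lit 116058502758511216474) (ZL.cons (nat_lit 28880) (nat_lit 3) (nat_lit 58190360230155948012) (ZL.cons (nat_lit 28956) (nat_lit 6) (nat_lit 116392356565762953098) (ZL.cons (nat_lit 29032) (nat_lit 6) (nat_lit 116427269445294732582) (ZL.cons (nat_lit 29108) (nat_lit 6) (nat_lit 116485472790232541054) (ZL.cons (nat_lit 29184) (nat_lit 6) (nat_lit 116566989425417530600) (ZL.cons (nat_lit 29260) (nat_lit 6) (nat_lit 116671851318157616896) (ZL.cons (nat_lit 29336) (nat_lit 6) (nat_lit 116800099590763678410)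 (ZL.cons (nat_lit 29412) (nat_lit 6) (nat_lit 116951784536675952814) (ZL.cons (nat_lit 29488) (nat_lit 6) (nat_lit 117126965640186954724) (ZL.cons (nat_lit 29564) (nat_lit 6) (nat_lit 117325711599768649240) (ZL.cons (nat_lit 29640) (nat_lit 6) (nat_lit 117548100355013029182) (ZL.cons (nat_lit 29716) (nat_lit 6) (nat_lit 117794219117196660978) (ZL.cons (nat_lit 29792) (nat_lit 6) (nat_lit 117413724514264242828) (ZL.cons (nat_lit 29868) (nat_lit 6) (nat_lit 117069916019647278600) (ZL.cons (nat_lit 29944) (nat_lit 6) (nat_lit 116762658806485134188) (ZL.cons (nat_lit 30020) (nat_lit 6) (nat_lit 116491832381753040122) (ZL.cons (nat_lit 30096) (nat_lit 6) (nat_lit 116257330539009924996) (ZL.cons (nat_lit 30172) (nat_lit 6) (nat_lit 116059061316748830724) (ZL.cons (nat_lit 30248) (nat_lit 6) (nat_lit 115896946962333576486) (ZL.cons (nat_lit 30324) (nat_lit 6) (nat_lit 115770923901507528846) (ZL.cons (nat_lit 30400)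 (nat_lit 6) (nat_lit 115680942713462520728) (ZL.cons (nat_lit 30476) (nat_lit 6) (nat_lit 115626968111458142326) (ZL.cons (nat_lit 30552) (nat_lit 3) (nat_lit 57804489464491901844) (ZL.cons (nat_lit 30628) (nat_lit 6) (nat_lit 115855797472435006660) (ZL.cons (nat_lit 30704) (nat_lit 6) (nat_lit 115879302405446141952) (ZL.cons (nat_lit 30780) (nat_lit 6) (nat_lit 115926321489089201218) (ZL.cons (nat_lit 30856) (nat_lit 6) (nat_lit 115996873162220515068) (ZL.cons (nat_lit 30932) (nat_lit 6) (nat_lit 116090985092162880096) (ZL.cons (nat_lit 31008) (nat_lit 6) (nat_lit 116208694185555489388) (ZL.cons (nat_lit 31084) (nat_lit 6) (nat_lit 116350046602827124356) (ZL.cons (nat_lit 31160) (nat_lit 6) (nat_lit 116515097776298283682) (ZL.cons (nat_lit 31236) (nat_lit 6) (nat_lit 116703912431919348214) (ZL.cons (nat_lit 31312) (nat_lit 6) (nat_lit 116916564614653306604) (ZL.cons (nat_lit 31388) (nat_lit 6) (nat_lit 117153137717512995700)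 (ZL.cons (nat_lit 31464) (nat_lit 6) (nat_lit 116794571827637063830) (ZL.cons (nat_lit 31540) (nat_lit 6) (nat_lit 116472262071310772424) (ZL.cons (nat_lit 31616) (nat_lit 6) (nat_lit 116186082052551248424) (ZL.cons (nat_lit 31692) (nat_lit 6) (nat_lit 115935919543900154766) (ZL.cons (nat_lit 31768) (nat_lit 6) (nat_lit 115721676442412922390) (ZL.cons (nat_lit 31844) (nat_lit 6) (nat_lit 115543268731187007286) (ZL.cons (nat_lit 31920) (nat_lit 6) (nat_lit 115400626446414085564) (ZL.cons (nat_lit 31996) (nat_lit 6) (nat_lit 115293693649943265882) (ZL.cons (nat_lit 32072) (nat_lit 6) (nat_lit 115222428407344559684) (ZL.cons (nat_lit 32148) (nat_lit 6) (nat_lit 115186802771464006694) (ZL.cons (nat_lit 32224) (nat_lit 3) (nat_lit 57676401598807301788) (ZL.cons (nat_lit 32300) (nat_lit 6) (nat_lit 115364672025174681794) (ZL.cons (nat_lit 32376) (nat_lit 6) (nat_lit 115400283162297096868) (ZL.cons (nat_lit 32452) (nat_lit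 6) (nat_lit 115459650574133661512) (ZL.cons (nat_lit 32528) (nat_lit 6) (nat_lit 115542797542022350844) (ZL.cons (nat_lit 32604) (nat_lit 6) (nat_lit 115649756672617238868) (ZL.cons (nat_lit 32680) (nat_lit 6) (nat_lit 115780569910675421614) (ZL.cons (nat_lit 32756) (nat_lit 6) (nat_lit 115935288555505941504) (ZL.cons (nat_lit 32832) (nat_lit 6) (nat_lit 116113973281087163452) (ZL.cons (nat_lit 32908) (nat_lit 6) (nat_lit 116316694159860491858) (ZL.cons (nat_lit 32984) (nat_lit 6) (nat_lit 116543530690209759402) (ZL.cons (nat_lit 33060) (nat_lit 6) (nat_lit 116206463538624500354) (ZL.cons (nat_lit 33136) (nat_lit 6) (nat_lit 115905230976700829360) (ZL.cons (nat_lit 33212) (nat_lit 6) (nat_lit 115639714874022305768) (ZL.cons (nat_lit 33288) (nat_lit 6) (nat_lit 115409811106627094860) (ZL.cons (nat_lit 33364) (nat_lit 6) (nat_lit 115215429516175041652) (ZL.cons (nat_lit 33440) (nat_lit 6) (nat_lit 115056493874591459064)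 (ZL.cons (nat_lit 33516) (nat_lit 6) (nat_lit 114932941854173765300) (ZL.cons (nat_lit 33592) (nat_lit 6) (nat_lit 114844725003149247538) (ZL.cons (nat_lit 33668) (nat_lit 6) (nat_lit 114791808726674366752) (ZL.cons (nat_lit 33744) (nat_lit 3) (nat_lit 57387086136634076200) (ZL.cons (nat_lit 33820) (nat_lit 6) (nat_lit 114883176488644951532) (ZL.cons (nat_lit 33896) (nat_lit 6) (nat_lit 114907151520316309532) (ZL.cons (nat_lit 33972) (nat_lit 6) (nat_lit 114955110985632229984) (ZL.cons (nat_lit 34048) (nat_lit 6) (nat_lit 115027073692226170110) (ZL.cons (nat_lit 34124) (nat_lit 6) (nat_lit 115123067860767382438) (ZL.cons (nat_lit 34200) (nat_lit 6) (nat_lit 115243131136027843916) (ZL.cons (nat_lit 34276) (nat_lit 6) (nat_lit 115387310601644911584) (ZL.cons (nat_lit 34352) (nat_lit 6) (nat_lit 115555662798585494096) (ZL.cons (nat_lit 34428) (nat_lit 6) (nat_lit 115748253747318979918) (ZL.cons (nat_lit 34504) (nat_lit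 6) (nat_lit 115965158973707617478) (ZL.cons (nat_lit 34580) (nat_lit 6) (nat_lit 115649169016524978842) (ZL.cons (nat_lit 34656) (nat_lit 6) (nat_lit 115368600370682308256) (ZL.cons (nat_lit 34732) (nat_lit 6) (nat_lit 115123343009259667414) (ZL.cons (nat_lit 34808) (nat_lit 6) (nat_lit 114913300752899635674) (ZL.cons (nat_lit 34884) (nat_lit 6) (nat_lit 114738391232089914982) (ZL.cons (nat_lit 34960) (nat_lit 6) (nat_lit 114598545854861560352) (ZL.cons (nat_lit 35036) (nat_lit 6) (nat_lit 114493709779890168508) (ZL.cons (nat_lit 35112) (nat_lit 6) (nat_lit 114423841894989476158) (ZL.cons (nat_lit 35188) (nat_lit 6) (nat_lit 114388914800988934010) (ZL.cons (nat_lit 35264) (nat_lit 3) (nat_lit 57217313487038959950) (ZL.cons (nat_lit 35340) (nat_lit 6) (nat_lit 114446733178189199682) (ZL.cons (nat_lit 35416) (nat_lit 6) (nat_lit 114483056538054063060) (ZL.cons (nat_lit 35492) (nat_lit 6) (nat_lit 114543611298127358994)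 (ZL.cons (nat_lit 35568) (nat_lit 6) (nat_lit 114628421205373822116) (ZL.cons (nat_lit 35644) (nat_lit 6) (nat_lit 114737519518580607898) (ZL.cons (nat_lit 35720) (nat_lit 6) (nat_lit 114870949021399954298) (ZL.cons (nat_lit 35796) (nat_lit 6) (nat_lit 115028762039127084588) (ZL.cons (nat_lit 35872) (nat_lit 6) (nat_lit 115211020459219930974) (ZL.cons (nat_lit 35948) (nat_lit 6) (nat_lit 115417795755568725950) (ZL.cons (nat_lit 36024) (nat_lit 6) (nat_lit 115122469714467087722) (ZL.cons (nat_lit 36100) (nat_lit 6) (nat_lit 114862159809880299886) (ZL.cons (nat_lit 36176) (nat_lit 6) (nat_lit 114636763959492838212) (ZL.cons (nat_lit 36252) (nat_lit 6) (nat_lit 114446193772775138988) (ZL.cons (nat_lit 36328) (nat_lit 6) (nat_lit 114290374516320646254) (ZL.cons (nat_lit 36404) (nat_lit 6) (nat_lit 114169245084538593544) (ZL.cons (nat_lit 36480) (nat_lit 6) (nat_lit 114082757975691027112) (ZL.cons (nat_lit 36556)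 (nat_lit 6) (nat_lit 114030879273264673400) (ZL.cons (nat_lit 36632) (nat_lit 3) (nat_lit 57006794316335172802) (ZL.cons (nat_lit 36708) (nat_lit 6) (nat_lit 114018847579703168458) (ZL.cons (nat_lit 36784) (nat_lit 6) (nat_lit 114043302112007953618) (ZL.cons (nat_lit 36860) (nat_lit 6) (nat_lit 114092220766630192478) (ZL.cons (nat_lit 36936) (nat_lit 6) (nat_lit 114165622727356011408) (ZL.cons (nat_lit 37012) (nat_lit 6) (nat_lit 114263536779268047984) (ZL.cons (nat_lit 37088) (nat_lit 6) (nat_lit 114386001320033718688) (ZL.cons (nat_lit 37164) (nat_lit 6) (nat_lit 114533064374963127710) (ZL.cons (nat_lit 37240) (nat_lit 6) (nat_lit 114704783615842521874) (ZL.cons (nat_lit 37316) (nat_lit 6) (nat_lit 114901226383550677414) (ZL.cons (nat_lit 37392) (nat_lit 6) (nat_lit 114626159083704921936) (ZL.cons (nat_lit 37468) (nat_lit 6) (nat_lit 114385710690153313268) (ZL.cons (nat_lit 37544) (nat_lit 6) (nat_lit 114179786909408184110)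 (ZL.cons (nat_lit 37620) (nat_lit 6) (nat_lit 114008306987045712844) (ZL.cons (nat_lit 37696) (nat_lit 6) (nat_lit 113871203676037522030) (ZL.cons (nat_lit 37772) (nat_lit 6) (nat_lit 113768423210379294732) (ZL.cons (nat_lit 37848) (nat_lit 6) (nat_lit 113699925284006066938) (ZL.cons (nat_lit 37924) (nat_lit 6) (nat_lit 113665683034985927578) (ZL.cons (nat_lit 38000) (nat_lit 3) (nat_lit 56811663463292149883) (ZL.cons (nat_lit 38076) (nat_lit 6) (nat_lit 113635675254777805144) (ZL.cons (nat_lit 38152) (nat_lit 6) (nat_lit 113672725081839965786) (ZL.cons (nat_lit 38228) (nat_lit 6) (nat_lit 113734490937114727642) (ZL.cons (nat_lit 38304) (nat_lit 6) (nat_lit 113820997042506120026) (ZL.cons (nat_lit 38380) (nat_lit 6) (nat_lit 113932277321977041524) (ZL.cons (nat_lit 38456) (nat_lit 6) (nat_lit 114068375414852774850) (ZL.cons (nat_lit 38532) (nat_lit 6) (nat_lit 114229344692934447746) (ZL.cons (nat_lit 38608) (nat_lit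 6) (nat_lit 114415248281429151064) (ZL.cons (nat_lit 38684) (nat_lit 6) (nat_lit 114160042492618574754) (ZL.cons (nat_lit 38760) (nat_lit 6) (nat_lit 113939066168709298602) (ZL.cons (nat_lit 38836) (nat_lit 6) (nat_lit 113752232652319397402) (ZL.cons (nat_lit 38912) (nat_lit 6) (nat_lit 113599468675403228056) (ZL.cons (nat_lit 38988) (nat_lit 6) (nat_lit 113480714330518862654) (ZL.cons (nat_lit 39064) (nat_lit 6) (nat_lit 113395923047334973994) (ZL.cons (nat_lit 39140) (nat_lit 6) (nat_lit 113345061574367960552) (ZL.cons (nat_lit 39216) (nat_lit 3) (nat_lit 56664054982971074494) (ZL.cons (nat_lit 39292) (nat_lit 6) (nat_lit 113260016112694115620) (ZL.cons (nat_lit 39368) (nat_lit 6) (nat_lit 113284959735644996480) (ZL.cons (nat_lit 39444) (nat_lit 6) (nat_lit 113334856763359680118) (ZL.cons (nat_lit 39520) (nat_lit 6) (nat_lit 113409726763300015428) (ZL.cons (nat_lit 39596) (nat_lit 6) (nat_lit 113509599096250292734)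 (ZL.cons (nat_lit 39672) (nat_lit 6) (nat_lit 113634512927831276854) (ZL.cons (nat_lit 39748) (nat_lit 6) (nat_lit 113784517243859274054) (ZL.cons (nat_lit 39824) (nat_lit 6) (nat_lit 113959670869556256104) (ZL.cons (nat_lit 39900) (nat_lit 6) (nat_lit 113723937150388012310) (ZL.cons (nat_lit 39976) (nat_lit 6) (nat_lit 113522051090833964116) (ZL.cons (nat_lit 40052) (nat_lit 6) (nat_lit 113353933519890364836) (ZL.cons (nat_lit 40128) (nat_lit 6) (nat_lit 113219518509098020902) (ZL.cons (nat_lit 40204) (nat_lit 6) (nat_lit 113118753346687994138) (ZL.cons (nat_lit 40280) (nat_lit 6) (nat_lit 113051598516910319830) (ZL.cons (nat_lit 40356) (nat_lit 6) (nat_lit 113018027684537634184) (ZL.cons (nat_lit 40432) (nat_lit 3) (nat_lit 56458088684223131995) (ZL.cons (nat_lit 40508) (nat_lit 6) (nat_lit 112928772663203639472) (ZL.cons (nat_lit 40584) (nat_lit 6) (nat_lit 112966563486807043328) (ZL.cons (nat_lit 40660) (nat_lit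 6) (nat_lit 113029564659187300420) (ZL.cons (nat_lit 40736) (nat_lit 6) (nat_lit 113117800886686520652) (ZL.cons (nat_lit 40812) (nat_lit 6) (nat_lit 113231306771746860580) (ZL.cons (nat_lit 40888) (nat_lit 6) (nat_lit 113370126826480108574) (ZL.cons (nat_lit 40964) (nat_lit 6) (nat_lit 113534315490123414928) (ZL.cons (nat_lit 41040) (nat_lit 6) (nat_lit 113317672035310399092) (ZL.cons (nat_lit 41116) (nat_lit 6) (nat_lit 113134501921202652818) (ZL.cons (nat_lit 41192) (nat_lit 6) (nat_lit 112984733316382878950) (ZL.cons (nat_lit 41268) (nat_lit 6) (nat_lit 112868307488064873654) (ZL.cons (nat_lit 41344) (nat_lit 6) (nat_lit 112785178779061061242) (ZL.cons (nat_lit 41420) (nat_lit 6) (nat_lit 112735314589877714730) (ZL.cons (nat_lit 41496) (nat_lit 3) (nat_lit 56359347682965420324) (ZL.cons (nat_lit 41572) (nat_lit 6) (nat_lit 112604024183311015800) (ZL.cons (nat_lit 41648) (nat_lit 6) (nat_lit 112629466678720914278)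 (ZL.cons (nat_lit 41724) (nat_lit 6) (nat_lit 112680361646989891588) (ZL.cons (nat_lit 41800) (nat_lit 6) (nat_lit 112756729046929033602) (ZL.cons (nat_lit 41876) (nat_lit 6) (nat_lit 112858598826538316456) (ZL.cons (nat_lit 41952) (nat_lit 6) (nat_lit 112986010934750920258) (ZL.cons (nat_lit 42028) (nat_lit 6) (nat_lit 113139015337099477406) (ZL.cons (nat_lit 42104) (nat_lit 6) (nat_lit 112941087827732763490) (ZL.cons (nat_lit 42180) (nat_lit 6) (nat_lit 112776266679748842628) (ZL.cons (nat_lit 42256) (nat_lit 6) (nat_lit 112644487257403407398) (ZL.cons (nat_lit 42332) (nat_lit 6) (nat_lit 112545697882491616454) (ZL.cons (nat_lit 42408) (nat_lit 6) (nat_lit 112479859814082131838) (ZL.cons (nat_lit 42484) (nat_lit 6) (nat_lit 112446947233324596890) (ZL.cons (nat_lit 42560) (nat_lit 3) (nat_lit 56155293471811034765) (ZL.cons (nat_lit 42636) (nat_lit 6) (nat_lit 112323434144274592526) (ZL.cons (nat_lit 42712) (nat_lit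 6) (nat_lit 112361980784350064458) (ZL.cons (nat_lit 42788) (nat_lit 6) (nat_lit 112426241980177926690) (ZL.cons (nat_lit 42864) (nat_lit 6) (nat_lit 112516242932227131326) (ZL.cons (nat_lit 42940) (nat_lit 6) (nat_lit 112632018934988678054) (ZL.cons (nat_lit 43016) (nat_lit 6) (nat_lit 112773615390816591010) (ZL.cons (nat_lit 43092) (nat_lit 6) (nat_lit 112594036847573702506) (ZL.cons (nat_lit 43168) (nat_lit 6) (nat_lit 112447204882064120282) (ZL.cons (nat_lit 43244) (nat_lit 6) (nat_lit 112333061913124899404) (ZL.cons (nat_lit 43320) (nat_lit 6) (nat_lit 112251563178807436256) (ZL.cons (nat_lit 43396) (nat_lit 6) (nat_lit 112202676718823763204) (ZL.cons (nat_lit 43472) (nat_lit 3) (nat_lit 56093191681006551169) (ZL.cons (nat_lit 43548) (nat_lit 6) (nat_lit 112048345870709471668) (ZL.cons (nat_lit 43624) (nat_lit 6) (nat_lit 112074297216027568118) (ZL.cons (nat_lit 43700) (nat_lit 6) (nat_lit 112126210083661924972)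 (ZL.cons (nat_lit 43776) (nat_lit 6) (nat_lit 112204104831599849826) (ZL.cons (nat_lit 43852) (nat_lit 6) (nat_lit 112308012006801318336) (ZL.cons (nat_lit 43928) (nat_lit 6) (nat_lit 112437972357178174218) (ZL.cons (nat_lit 44004) (nat_lit 6) (nat_lit 112276382996409624352) (ZL.cons (nat_lit 44080) (nat_lit 6) (nat_lit 112147187484306256480) (ZL.cons (nat_lit 44156) (nat_lit 6) (nat_lit 112050335155961363398) (ZL.cons (nat_lit 44232) (nat_lit 6) (nat_lit 111985788030069711814) (ZL.cons (nat_lit 44308) (nat_lit 6) (nat_lit 111953520794032912844) (ZL.cons (nat_lit 44384) (nat_lit 3) (nat_lit 55902046990135606222) (ZL.cons (nat_lit 44460) (nat_lit 6) (nat_lit 111817198124936785898) (ZL.cons (nat_lit 44536) (nat_lit 6) (nat_lit 111856515697813767270) (ZL.cons (nat_lit 44612) (nat_lit 6) (nat_lit 111922062117558186746) (ZL.cons (nat_lit 44688) (nat_lit 6) (nat_lit 112013863088648375474) (ZL.cons (nat_lit 44764) (nat_lit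 6) (nat_lit 112131954611465153138) (ZL.cons (nat_lit 44840) (nat_lit 6) (nat_lit 111988001704102817624) (ZL.cons (nat_lit 44916) (nat_lit 6) (nat_lit 111876096832593777548) (ZL.cons (nat_lit 44992) (nat_lit 6) (nat_lit 111796196112674696030) (ZL.cons (nat_lit 45068) (nat_lit 6) (nat_lit 111748268210729918528) (ZL.cons (nat_lit 45144) (nat_lit 3) (nat_lit 55866147165751890212) (ZL.cons (nat_lit 45220) (nat_lit 6) (nat_lit 111590582687904741026) (ZL.cons (nat_lit 45296) (nat_lit 6) (nat_lit 111617053060129199402) (ZL.cons (nat_lit 45372) (nat_lit 6) (nat_lit 111670004185116243396) (ZL.cons (nat_lit 45448) (nat_lit 6) (nat_lit 111749456828012926746) (ZL.cons (nat_lit 45524) (nat_lit 6) (nat_lit 111855442146718424628) (ZL.cons (nat_lit 45600) (nat_lit 6) (nat_lit 111728779879950416910) (ZL.cons (nat_lit 45676) (nat_lit 6) (nat_lit 111633826616867188398) (ZL.cons (nat_lit 45752) (nat_lit 6) (nat_lit 111570545120894980962)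 (ZL.cons (nat_lit 45828) (nat_lit 6) (nat_lit 111538910575760864326) (ZL.cons (nat_lit 45904) (nat_lit 3) (nat_lit 55697181018066298702) (ZL.cons (nat_lit 45980) (nat_lit 6) (nat_lit 111407728263691482326) (ZL.cons (nat_lit 46056) (nat_lit 6) (nat_lit 111447832188026003324) (ZL.cons (nat_lit 46132) (nat_lit 6) (nat_lit 111514689536165311192) (ZL.cons (nat_lit 46208) (nat_lit 6) (nat_lit 111608326526677303696) (ZL.cons (nat_lit 46284) (nat_lit 6) (nat_lit 111498615868335107542) (ZL.cons (nat_lit 46360) (nat_lit 6) (nat_lit 111420281829198753112) (ZL.cons (nat_lit 46436) (nat_lit 6) (nat_lit 111373293690037206542) (ZL.cons (nat_lit 46512) (nat_lit 3) (nat_lit 55678816512064614005) (ZL.cons (nat_lit 46588) (nat_lit 6) (nat_lit 111228459220345150268) (ZL.cons (nat_lit 46664) (nat_lit 6) (nat_lit 111255459000014097812) (ZL.cons (nat_lit 46740) (nat_lit 6) (nat_lit 111309469147500882684) (ZL.cons (nat_lit 46816) (nat_lit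 6) (nat_lit 111390510843255499706) (ZL.cons (nat_lit 46892) (nat_lit 6) (nat_lit 111297419408860177634) (ZL.cons (nat_lit 46968) (nat_lit 6) (nat_lit 111235378726534484070) (ZL.cons (nat_lit 47044) (nat_lit 6) (nat_lit 111204364466599075604) (ZL.cons (nat_lit 47120) (nat_lit 3) (nat_lit 55539587814252288607) (ZL.cons (nat_lit 47196) (nat_lit 6) (nat_lit 111092809180614639836) (ZL.cons (nat_lit 47272) (nat_lit 6) (nat_lit 111133715183435851254) (ZL.cons (nat_lit 47348) (nat_lit 6) (nat_lit 111201909678537945280) (ZL.cons (nat_lit 47424) (nat_lit 6) (nat_lit 111125111600953284074) (ZL.cons (nat_lit 47500) (nat_lit 6) (nat_lit 111079044797853728614) (ZL.cons (nat_lit 47576) (nat_lit 3) (nat_lit 55531845601913149340) (ZL.cons (nat_lit 47652) (nat_lit 6) (nat_lit 110959818945584727648) (ZL.cons (nat_lit 47728) (nat_lit 6) (nat_lit 110987358720847054144) (ZL.cons (nat_lit 47804) (nat_lit 6) (nat_lit 111042449071283574716)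 (ZL.cons (nat_lit 47880) (nat_lit 6) (nat_lit 110981624872925051614) (ZL.cons (nat_lit 47956) (nat_lit 6) (nat_lit 110951218735733474686) (ZL.cons (nat_lit 48032) (nat_lit 3) (nat_lit 55428218070945508093) (ZL.cons (nat_lit 48108) (nat_lit 6) (nat_lit 110870342365043280060) (ZL.cons (nat_lit 48184) (nat_lit 6) (nat_lit 110912066487920915710) (ZL.cons (nat_lit 48260) (nat_lit 6) (nat_lit 110866902955470371140) (ZL.cons (nat_lit 48336) (nat_lit 3) (nat_lit 55425925206153112073) (ZL.cons (nat_lit 48412) (nat_lit 6) (nat_lit 110782620227257547130) (ZL.cons (nat_lit 48488) (nat_lit 6) (nat_lit 110810710798025120158) (ZL.cons (nat_lit 48564) (nat_lit 6) (nat_lit 110780900859602005522) (ZL.cons (nat_lit 48640) (nat_lit 3) (nat_lit 55362078953325754004) (ZL.cons (nat_lit 48716) (nat_lit 6) (nat_lit 110738342254266817162) (ZL.cons (nat_lit 48792) (nat_lit 3) (nat_lit 55361792429503924760) (ZL.cons (nat_lit 48868) (nat_lit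 6) (nat_lit 110694932476824925034) (ZL.cons (nat_lit 48944) (nat_lit 1) (nat_lit 18446744073709551617) ZL.nil))))))))))))))))))))))))))))))))))))))))))))))))))))))))))))))))))))))))))))))))))))))))))))))))))))))))))))))))))))))))))))))))))))))))))))))))))))))))))))))))))))))))))))))))))))))))))))))))))))))))))))))))))))))))))))))))))))))))))))))))))))))))))))))))))))))))))))))))))))))))))))))))))))))))))))))))))))))))))))))))))))))))))))))))))))))))))))))))))))))))))))))))))))))))))))))))))))))))))))))))))))))))))))))))))))))))))))))))))))))))))))))))))))))))))))))))))))))))))))))))))))))))))))))))))))))))))))))))))))))))))))))))))))))))))))))))))))))))))))))))))))))))))))))))))))))))))))))))))))))))))))))))))))))))))))))))))))))))))))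

noncomputable def vl : XL := ⟨(nat_lit 0), (nat_lit 76), (nat_lit 108849654), (nat_lit 152), (nat_lit 353089544), (nat_lit 76), (nat_lit 108849654), (nat_lit 1), (nat_lit 5), (nat_lit 2), (nat_lit 4), (nat_lit 1), (nat_lit 4), (nat_lit 0), (nat_lit 0), (nat_lit 0)⟩

noncomputable def cp0 : Nat := (nat_lit 1520586293110326978481219936983868029542730561528797979283920308328683235513185191351962155384063514003053301942967496719398766092004916878052678970885753296797113062254881588848106434165455139346179599674160531209016837102800136074068150659385621430957964660122710899945627545827011187453892439060108866396377507692591125490235148110797721701222573288728782973613550631558649711236758884672529193031303859126481030674607144920030458775451927553880661198047388500103272611489085134693628805519554434465220625997776865286030992594499872527074149073691538665435986220056381054999382821635546686712106546502852301350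0948449704234921793901205360163168838074482923894424031298258902063732478226705680099935938311772881270195358283343993022920882289034220180592516796112072028528224710129035263569982508622581378088268709429336382727841852329498778467560029044305066422687372994032338717040864154508929505166873288218555486945665326670139972026118328209878537403527932525896233048427080884998072116939011111327818405044790298845347158634216901712925199899048575401177440658923867551182643009865129144533997205881633903762314117874520809300064237429895776209948719408627294666742938458878305237026472533301444996503427224622403189475380531534604312296654202072351598340813783734707735972058135562788926850600757003798426575854126811907120731542460827241996770034179930324233753304509253653173094618213809482295360029933807502637224018640119359358230058388214993236065430844760663113386716997798380893944051477410801441781381960469923140679126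2228865980379752471905253661257125679853984291329911615250796396284646349476349329652010333602263269581850574909685510070716080410256464565275505955698598702207204494980066031436970166417609128493725123028679022253993113597486981352462253102771572534542955951664277259391743554079156933615977222284502397464028516887977203759561720531719303307632383956092103616244494325261735995596052411192394434620754233637300216568756185407815283045934327268772977536820366334912477677264815555631367138141777278654672828760155098622762296682726970634670717154492228467129243793806216413657909437562551316989173387022060637636591967027160484680062939056918413329525947051702433531286713814936778042173877181403598881567595315374874574502587238306271897937463578069801240737192244219096400940044166807202309427625778492007203262787517515273764166747581163188213895893245734186273900103141539458265048221449082266626301690121026942914444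4579131079408503074064110022179131173122584370498798615018574194528784363467769991247266086176374443494640877644961830416432537367854460095700358589322617264234955899310226987514993815498174274274359216617340975067584281118364143962945789854948982530270573735278104897586960252558554460593883020991815404958914494451716591815037729546154650848814140875835343441174761254432862464433462813141323777563695161111348712477914201813703464871432909969377938140473245935192167193096742037718539907630682934272344543466024542497358775134158675225003587118156372039462005559222948097445545326835201691780379051497254946025800221550371825396841805001221513616874029633426613143443632349555359036551150241518469683926705347315896044614205253637090443571251648357282886201096725209848351228787465906720213846009039707440659487165893142869318313667172831544143563111067589416453892970268542628031529902550553497975468391180547807705386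3288138071316973794824289617264648401193525829358788922266224122385326229429576941593526281889174198823854992394356368488036605897113224332296555437768774578133201826901173816046578577895782184208743995604157303102022500017582356536452416058392198616389276714559786314176505199697654527354782104495168523282412935413425672082188120461467304999780851954164671648135029277829434329938574182948659816135890173623156569985791525233693681508249308772525013742294745970885542236278472353016304471365402505006575790162701854777347893117316128216797668890056495513225773133921719214535649957446412493171994924075349238622284657702489467086155514134137510171338984095613470680791219106381026968526341570332334005174911069375497658170340229048894757207936869134122812163748128988299386427317226075998019055478567562935354683794536348393172224334229673769765664500255613420027697346995668817268562582274146222915952377634604480317609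6227839732379796714672804203541697766635738498488971727590480163016788519117449723035821294288304165013727362473000379603973940774131748133618411233053697111995924221424795093823373057709744643259360660407515628475354258405537411110263584338417488414723097988234858427758972985228798065178077719719673589645006024440113340073769427605392206953880239307522768466920113904833319088292884381649248430225623727702092864685213645705666011224636083235705155251924989031541868010113657178010996958595894622141446434729970107346671723455041433102510314271672202099962057440080527450713655294391950217548796019320556578410188744971676494870269926436823426956182087981644016753254489618593689756517298638996205177195912591595657230677366973013391481687816137025227408192158416945183788073582397095743307397883699603044547367003345758507637421351642929435144405663208467147462693266937355912180850686786571864172358297974058202135228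8678451719199936043370015663611906921181339151227573718149313656218198348917508225603312473492470006329445405447879104895335186220251368614915102168787117695977369908053205572623513360002414261220913279511977599702954358029868351650705236536179225082214859845261642878498435167195593308660290979455152040696061449957137815643061042057431019121796342370286042525570805141434999125374712966525173826884683054888835226734568734568879835164092152466675424225409437165364871190827976416538890541109641063186593636251708211040794816293372836201333312294172992718327736959551796863818736046335100211758488641024351064747448720058348921740338064447634813118743618378090266820401005599594291743496820722086146025441863615706440954077438692951517034820181721793183246318298798539876482793982500277930593607168695695579767825763199558780417405182787685818977226187771977650856371316125474924849068117922327595698926339822249208883777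8840782047155924429783757416268953065660627988235282949564470147648647864492643615790290829518575830764595850411244131406215772366458799136771550315110698832893344086175099665552601388858353998173164993412026652476550204927847500002713166875048558673494816342623623433394812125620407102014052806875582690321182534862841610130480633208663369616482224695105823519796159566003709488737744878947025784425703093373301160010218854881547763615090953116644495017582948988105019197343722398973854647197554725652892383234459145032359845502397835405845098807559284857155840739950882723084334937325155433849743854446055554560412115659232537162668984433117798458463584833262728510894008359402440948543365883816068623593586425298211319478351499117872752395161265565256710331666763550984538215245824109808327471702931667219410875947247214604670699735928587979497681564455309432711439503957484201180153524188306785027242170947826906407687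1545028980774368553889507744172819913118552680966251955373531107002173829085855300946234084533669062264996157698847206200779258693287370185268599217285797556077121196760854238435377111981340822030140572754854005018337516363105565184531300273278491310060246324999510092507866306265513965861051043484048077872933781921128463407591638810665391065660439450580544028866865956179483423164576515930799745258710393456149685893512339576240141226664738197682272896311781828264082223520250078538812986267408822964204276711469872959050134761236111734184409358971858737251642677948483626726333018157080297932151643522174509426763694434283378984928294289009470601053221827279632454892507838471197966939563965814336563497093707185161204868052376652681724137607843297110471161981417319821692267386931726400525636757818123633091988799044332873153514849295785107791289775648903939248916881238909086398091780231339684442932012435001086786345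2123755107633021492126644388622786675096549549057766500730628325822450833842359008446728675368082216065872817204067024423244633970013350406229455982646647048595930462830223922418942217397518269354555810988668268061055099289994645235684633879369438474120008036512777527409748372540629208287864722595820164689509115395645549990609848547139073102457788143039569740769738900895164808800013847559267095024916289228339258472438956512129187563908976374677719823774456226526237601424172724456013856338714760341137432447927708615376524166104357832825159929841009448788760109718988885076442602781852485887227455812833035565139873396052344718739254283198000756520732336726325308052744028863454343381301000719314815850236907553941767741797743925612548500488870588604684531576429578608431353723026088841365649052617713149491757002484638500678915132594242907274265924622368988544559709803176819279615076309542343206523873376133964583825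7616701048041315475432297350259577823696508057669185713914369689245860588203804507508396546374139295602332342094239847833276649632051706470284592336510249323335075129971655129701764428407573007063577066301878665976257596839910759931801517703876728829997804042935929621092496596537513403873887050393855239412030913311809594472760727837648463582870161656669247862876796971298804471335111150712415200586949496366919671707693167296893357206195957119723655074899785731254680030741324382126081510536011656060034434444247237213444649745566114124984280312954244518251770001778504098838687891710969698067858178255370966921083911560515947625343285843418196738925319919998731189950959286295235738304668697784580389342868614221196898291419494280805328264749646284961676253657001340180118014383435932950942723080283671131669850497482030931725175685941966857410861359754111064646218332873369017599925762324851455876945137550591056487343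4440827118168653898527097178662734447792510890868393275117752761994647999662893430347382935724098611890514213925285805351320162712998214251107365401785870023596441040729638796969059605576126440349557738764105636606612581139849514655503834638649836700158570051599259119461997513804247332986740180320368740812699998192177192022034468119248303940024364887043562858523360041013974319799154283300759537687670059511266606674083147067967975736961874999487226817586986748927254647121497647828171022402215897881865184917356857150491356888580117023498038606028491022842024743252425925214675842865059443339657686589800224436084691098438322382820615596847373608453281034858782047819939950833693917015408115963523783987139513964269991047292470663803087064651706525607108652621306331474936292095082185268474589374175155736900149152992463415480045268346152516999679579734063280933955381341784339993407573145597684745514517466564730301166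2332115383629197652155279778103074651534135668119017578836081512189845690703705812663894025598371706491780581157857040293233520224015640937307567493471967761736031831024877679885595974060051045569549932151598356400046981024303744505824532283765133014440371858310724966379759517481442134664193065740954460841155735112965913099106714767000500625310265128447681247880642223546668644283075026601507910615031952461493953471344880190598323073157091680870615957268113580981157040888194191171201002373673086400122277059872692050047939706411010393239862367113467197213219028716483351034775787371871387463318172191042164980563309295772893422961786780594165180690097256176731284491257573046208043118866146051089907811124683457229847147999400786551702219978453009904575807202908571719802091812246695733689078373771234570344747422910433735998826786342632284148988937400162534111463140505329872286340471370316022470399336848384709489979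0804643445498308413219064636792055923070132938347102569224448567447215764727051276113708094685715513715972335325453699740026070350367829167270965641472400599800560219906645722772283670295008333608629426976981772101041033939889573151504928671022202178881386436609662238223259568428997947001718171174114129540254956699725635876515750717458392122207691324142073686566616844609842035784766362956704564881482910371042163437558253380240262975816960451731373426773351419250482856399538322531571919345673605281886625618662244862651746571316808160525692607000373687041237482282177353760154716355431008600507673457988743363211051036504631460652515858866963401157500644006079990205864389176102072523219455264221407524663459537863454728313807866841579638672564405545036299687713319972949270002014336931049408479352184160356559223770812578813612361008850448649719465557531870414602814677403589023032662402379750236037139865149887536942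7288469219005687918333311954618672897750768050439862904236713122836096878360560849903035969036535703331476441098265055835806332781583002437054762558351213636489974256687496462032429396977985598558852995772725506321102375049868162755620783786709976315043892567547267989534224540396875163799617604891927832946604605717190184865343410277839944082678604359720773691561315686458769557780383689034620276075933921880894166496591667124424038870295653019292109246913072177769841630529641509635130728035333410107038893084147670471457586156241737388387083817698717069417882397693210106157578505427582747778261029035214698233842333911556415690876912828128506587496222252740470051430477362972093888795087614395296086334447692363309458464296123654627110906980452402115446825322030767529764314780534869271043805574317815844138619270376918355456983577436468373444275015286844999413271551484987182290655083334748793216900439082720944027298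79878568960191390135471398562348704076851094742804919773533772111775596423583136094023695259199130350148929501389929982010791229766858628730638876924085394803680599770702821366680729603271650388489274783407266308672891429172086866590403420807312114840776883039390230463902731826799790121419566334928140387115799956028385496118933098562028363717223509324961696936928423783354858844338025372726160305692241973208453845929361071068513285616043898248339471484552262272670397265713672295048718512298823127364953076756522881790313505846701425284206581419311431087169937281706453585846629859867851276302257509051627468020439050310993903322316459492559639931139118169521723498050443351412054875561029041117055480548381803089994219823869728522028432854205817601479453614035608899204059766763223664675604058891407470311116559997152852932936212850401524355104126287271036373588661334500365143778063240428057955961594869985289152842185717639120137388989625240876124810980550059489710745756355372851503100610284216452559147669556359930852634040548994677782296609764962795266146062421013639939020733118398319482601407988888599092324309171324281241400981704194659350591509143343377834642827897938481406662442267582075337907515113536672178192252928)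

noncomputable def cp1 : Nat := (nat_lit 1625352572339676619882975308546798015839114566371220032842628917033497865605751069367252664262215466874412275265916255556957386173492812194411349374195632953227390000500165612642554167084608842388849446381359861035271473527898738606113956359930287353411763873046623833886410511710569822582283301768159976631987995528884330786390338706573302400900086320011430169094861508801586135052190931600461853852067640611595067052468220955046846975203877187983695208958582724946994932405958207882363025807656268460019649309688061476395768107897999508647072858280210777941387232679108793053759792310015508878842031775533058383800138754397410861153263977012800458370836582041903167630056679378629627625142119905812962603126599947185458336746040991100295748658824791176066615138390876241320814931361763480814568515210547156370059540629215712382134395980196797103238468356873695009082298274976901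0976236739895159098643189427005501136162785430837032823561746572818402831101401297974513842305303473260293423777369563953101323914976991856118817112238010933069899993441621689139894937002006550637233692526742438159646158566150733325376198150044040152956134748409937959413808354854011285331280157239967745977587793677677404199749768213029578569230055457538803794854684464545398270264501180534955653963229070949851432279572269306683369164113176875774996174101244285137756894105624479104449683970978938540774986090177174999962216762460229552550760959645957850690469112066063114332021125501791107904201047250953051131357616640343273968802704675114524856970456949775304183858666154196136370180283012681486149083813547869020738976950501647961274059434919749372357243287556450551022510789462651055924072371676727530579079046986787347659203113905199350945759765867638441417009593689024372192994320406041084979859139508294169992031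9252821232255320088399081306596828739675445882701602132918368003418587915015586499659536166544043807571889242889177748975513353089782975841296547102253931782136526250274409864457406703316963832800421691141309201618485341637208762539222930551437465112491755316620322816015164756956276940600238089702013281391908610984801565208817086193745938875826842674947504996176096473195934768548554890250208406143757353009863568272482742113061552644090844113044922852051571055038360631360115907713171135699823861654821464974955229866083583147048075392915207703331192064451368205829505694039204702520683176251141751199959287139805610034137222141543802380228188783827597952048312163168589429487936345394986887127621656612651714305961264844411955736107819239359531727021181140618510734785560113016127010475362302813829237627431032063088592685617541034171072946820219206050036884173489864933053483271493617460084183407979624829982590218879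1494448547153946479158118895902901580647941582223239819428455533790620273587665019656001571539243145499526596992699315791447078544711750630056534810376164264390403989691706425316494266523940054949756714275821084524589128496575582652740971359379466988755561240735704387289800495387862983146176954074290818214272788182537375617953643258685523899360221845969797283194756488000543398137182769713775926841376717413249992943720173822871362795492765423376021183969201484041109884936452502913239827935228326631274514943924960291201870055064261102031061808792691578675616731327582248463365278621314448226678393576859667863208568583661797278649215747893787792887071140954686886906925252191675021877305538672283364586553353698986512054412324140305395412925737419407978754339224826502924913704868488200878805935792062793063878549392519420279568038084703948656972035735269294800333574006196472477897572537974774069321232859088839763929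9900459831882740108802731508111240623827181443879234585543467875903048661288273753340813165194284342966232741596783719823931311691355567546548712196451481545492745900901354582481893882100524161894084175519496244331170866108445528201642477872547034548690285933332098499151104042613650163802702119573712903210948741466262452355577253275620443654637694602973361628126690136810789323530927233687945851205908064246652075434830022582356261245188770048626268895762025697872346711184464130249496702714637041885302903618106870419280616554154292099236679310553187381205529787585066939989114824295006906852738479367954413936122618043558879061723144077286034269890794969982577051903913916070869079001380811225192131941857544993247897218061731230333723552676360143944928450776731190374171771134513138973220517915605479978078276223434115221381202979677677587850927431850492954474787756413856517645262574632688345774894033914133712944264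8794847690826376293358290754258999040167146234542049752620667454732194009380326425360019226515858913864015846771959895780469522162900123815272344981420091978741221914403579062891535300982885148377361236013703893754475191748547924307378993407469742293328649728424351549295098792821214117707077206710290809987921738244856654662442602992739758013023492834957651748105377191395064684642971389164007619921398659854744415018494184649500715029433985004374638894252926120611565077796145123923806460539662341412471990288481044053973009332616718669655571834358388109219252059156180986996732847496692452432781572970568008315818953926295934155517358237768810236048616456316630741838256778872448183379636504413864185188036922304374227568877871547786833900339076508535925639987777545246731468582768815389795855026262682867492146287512441110464919813390936274492110439379458503081604155936652564206761833787779601866474796282672713428157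4099066613931434047929603791219123296216381228786495867104628365580949858488963395370110716978552224208283085258058396465792162083099502618716248729550335212771011958678235001030139310920901623929440316623953512750178467915959633732547410010767797586189162973139570710393294758664007662862265839998756015510952395058135442343693791142656944450707985233269955589250198166643586754078780737186773953258457268941988294981447579075960865683052961260932636826490322300472058790946370318425187512857075477568729931660412588687337616318097579389438250376616874958002643884694154575403026808977727106617544527461847710876051673449848762351883336937520772474136058380792680695699979442649231451707825170530526354676395209915259146170332536220040644003222843079206778903724655963019847634745516519901460454943952135753902109987847541318343512396813571228358456708041234483319678374354035151274968085657393321290544381722976201903851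4532012195893732578939809656294661162027496685630205259795459102030069844416782456845328512466302521915689327024658987722630881084054168789648356959966781642152608385246386581978213815809735178252780214438653246678028491315761717566086637094905813516346420093922079526973576029152465825500768561519520693467685997167987299389847912735608474998468702533380495248808863700115675269200341949003222555451739877128535008513079332156087860088467292190289712444661698317808940337861513352536678303592072050795002423501371836257936132086479617090368777796287337688038379988118646045499026297706913106676093383855216421588091883046955215237011576664150112265123494935732422558444935210797571028817895654438001137020745125016523390656636830690970327639155937512868397187990996559906209277735054291736472319193641023383602666072122056875718875324348069563764291838178943639983543650288991081528171806672749578779886694500327165215568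3923285677750812805960960144073125438759920872446283624484255400909298928750995754078744967091377915911212414733350303535289238017402833180790992090729017441787405464165650975399258433493795142814309695021898056424814064124971169151755222197288468725852223214276806501327867181731478940769827262092577746132099647741778549742703532270072665166968974424254482025850840507438554916210003216931508788571287552386656582165467028252345774113082687851068397120924447348330068629020995997865282209404842781519162578800617802377987808773762780153854125256126277234646843639383503817039677340797560881839209039165619719307419522301551372423486099205661558946847676615423710008522820223117945349584042342454315953693573784830132493087540985249080733018745106553206413418747522262227545829546465450972387109476227750207863700642767993639375112195492637340857745920962903456258358903775128428157413397599492222882769933313600300753147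9386948786528056616737785700731610370928150333606796304162383441632850546928512791816032014995098684785827975816674935262018630145987664318922880512873663346049599891668875555989766581369262542040188254619158857794503420656814926126754717239827740971989538918693705637403009182672939293863888158741913983048950639608842640776018279207238305723235760410327966437301090929283064133491516760446729122829457348379752461429382501174713675335212795450320638340034581415683703206107376815724216205171401668981421189963532552524516525407338102924655885244012208725298903671054802813455888663774371707171105302124615449896927436254824959290563595377419798996978603761408858559571088101634933612441277176771590471082200507058527336887345253699940289483737637208962044806086079033645351351210395143867244761501588470205532462684358964695673550254582363278617971627923133245594995276491144888018164173841694524868235337318329182181200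1919334632823029305016165718036955557939779445604650718279040891708062376559803757619917882780927171633263841686746472083373586678546736105737450046085400096530374336589392380959682289284947414749726432367552804422906259875895074927198547035560277973068389895618070213225694090930905280948009822430194920401496827763360016981448087963454518412927959051815292836270043675478859140155374112902405771283085790550171673537131894317080908889662411416814243238297672603017463843570850312191991110716000415554325786981452026891621240023351244884947087107955577432935951175147942768476579870014215487735515270444073131942511102927798620776810787853454790289789842806605096447710419955468762432143128151304186997591788565125008224802140797919487678185726198147245538977769949897268125192572750323693461934357789327281535554455119367486302709876155164344959389851454896850848903395734463048028472257137805703465452113906111411380727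0359361324302186169965787236445178476991660232290678191707198511914494099994198412860837432536548731271868732597381008731806637091892235811491537083213650928112941446178041680468285442985049142290929076441792925264137128426621910364977553887435875634831489674940117398385875409157130852548215163976940003308391901008662915199716858337823556091909092547442124655403590459671772604250739134585764845625110164973638695859400641730688756219011136780244668316147214221279356771515414828258460677450311647268939724666466349132668966922783522871785020734355109168023341643254317925000601513508240523846804299744777410590956236537194844814260843484736573614568664232968410522679372049362307733960117917485035200616049289231808884398605574995573272015010234277467012459713131081924599439261947567644114899153656207908876772971377402494670786084338555056494014664333384843380263983332419797415053210260326195470333874376706906327135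3722376479033760511118739815681028388961019211408529389602714342166856699018685094055035247927727745236183035537420236410172010524312082425610596787768736642019293679657960741338542178285472066744495779986005224961252996900922855516248836466958282034382603195332114439566258865852370719903588385442764833489999849300820694459333421802737462669217083695713572001361724971820802079914234982210585558823453661674154374041125052900132300841902979125428152236745810905895915540983403399397454982833708779648056832192138030474472208993908378216316732122312740961389143067240359672715445562595425162542301868711403395528511284424396898268871928753873794957882824794734835642515866746555427064064196644752023523272159856015126431518184600573633235936668142044948100472938516563538172395208257475560693142336766206669529281275442113884863224538186220025251069997594042689477607610697124002490132612252576015171726316344230558771738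5020709177636006967297040050456838744713855000037626181082800392253435481004559370831157367511163908311045896141654660506112943100700712596249102809122944312144457047758306791268599126034123781130084793799314526597277555888312370900423025933604692229313083001701385894068262001260183059730303923766609172414705433718542792733328788672156241950999646496703893993046700762708238462164440108361299249987329561483769652726351627521777094833450618464585857187475929438387070194105641533584069064587061713561579978701466281219666744735260409352076974070713736593785216761406545236883217541934331964678478210386927868497888532894965716897448015582492347944542532334641478410315310445198122437308680290040949496230450974620809285081938527067444870995250666920911932843410250049263018619435224841379363167883723941578414267329069220540213295301736305744908682708782859220978700449789804677405599028384072423867306921896883935531954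3142121417642167182119778985112922127685055831430040994029097633107385337452955448014589635390816063347848333074632773056146928335394570835070117496506396963638441074461653614585464597811749366077527320641536945779983531380684286434209202097361941256229904221970814499919390916489493782326852880430473774938065579597704324933388135737191111719605344903565604062265644382198518503761519787040193847358498395566310445427657627999052011923309672466269486845780738815776910386247112531072075564287540722370935648653808480246199779310088308498456078762018102873506751801166119002976242649722084390593291721733275730202888144481634424605278891663734604834354601111683665391988379647561071680677115416931441927741447113051030299342679108017173677994651042831132962372765635560854999490909793868759420103108728547958974619303250435230903004208138784974730607934449743891110298754590859752691854351989201242217306334017156544386429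81661637740029338182483865668950848893517221330086678646304128744976696268711077003111038606109799214943289701978375128928827853602574248126649099139607223547287042264657405548013076795977563206531870329921504337139150050542949216264567760022296178994077533708440574700796130000676023435749775132446942345824554370950922032555401543791378252975068489839149622788318952562234549891337630964072678963934667259274798051474517031060918268272867854031243140868198627125790605922004294784605678080074001483096095578507641174289473744373471541599538393301264650358390895365553517697508227312116270970034093558742051668809630757472667513435906188621493237840784318493047227100964159876277651526883829090854989922393139355262293209366475676303104238397869546496203890572005625102575560802556671153850782574384819689068415548178333469197815067535409717675005540447030836358004432380438986878790774573596808432742086247226363467076153476031509678841188732994484409465286164480)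

noncomputable def rc0 : Nat := (nat_lit 1465178416135240588072880918557187933138373460660739069968049130799425168303948624654993515812966958710354444413678836395805641236728462303524691900688768137479130782807453823465394014491303793158570399538745788665661053791471383425535286913446313101175657849035813880877216306996925250431532244535585942575134096350892835333636281424066130204692664151574881286044204400070506313586508825556263606043545787775887575162357916237459702039764288689703870278108108495979252943695169277346147813192791768708500842683088957829939502012450731733877262822964135039130252603879523699093817933396065552264843224051672537703236405182200249996559823270293360061386210127952820280014095914313791808971582954967180048276661845252071196177083915339076145670833890907915595857919757358629146255381501720199888713708940178498181309938720760238563449009271161064311647851516525295879015682824449393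6469288916295547013426892293934746222910554153443095496929200768154774278331227427133565140041904505457623733644463377063687734261988244314537819100451470501609192733825815263110020134783772924382039189862459787031616073483034886234751878119936208152322131282005372979935095747510549128863418430788751383893630653671818868269929488582360766334784472387230518137446106465759573182066274843524517399767998049457981989231165153862704790951292262480187865183958779653440879219461455822722540493183560517028220290739234635230101355258271677550689152031090154276216536401736661385668054903431313281424434993032634449919440905859101344035798611808856952542743216389998262756299658129707417156510233498835806710687538274432448662018700032151110862745324806287595508967560804289926858945655729896238661055126785981748141090935046380240080726052152897525621170719798749561173237066775457611351244623486125715206256015079342307601080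5689201582245619669516111442600752090254345882806840958385320755097520969813508154923374987526677533778313740712464695270182823305184416732223012293381223687755141639634312116974700253794158923091710336111805951760025284140581553082097084351513505786929964683459598956152604196746055400058455339297413241599945448375162543516826534680004926843268736662182077513736778826733139197414125353618269218472448471988992900827048507155161173400823578440911519090169260906685561951300753880077963557592823991162535216437220735793674980835153170269832020834340352950257045638556418868651908924741070982453791991451144577988949560462147000145873541171788619815162251873366737234571948544635582949536628886005518527685337447841999948071339941084467315992286835084374469367604336468309364550883183047609035297021846472858127774885368835566101589275841338325781800632686619969869154452660655218253476961319429620292753638698202286927062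2935268880325989463087917354864802224660486324066144977462332676130389774433699205614810385190187605064294621244500243667961545531369229438614398526997573200023876180760547927217255926623170308721685705707382745486747641499610107559946862375844759092784416500682583270492064278045352745962323074388644764095571638259397630213241109610429355081652476021662595559393018394568379383634300935459997787182725480569671800054780211379044349345697045365977163018321699422076841889122923342291270011493007797399966825691426790704501914947060323067928182115289453474780592642741271641823243513136675456510689590219188914248058128003626074360635447344721496963685031154662378201719519603553399504973847233718736411821532364755456921610711166602176121084834508624385197712266315899390839788249179011442939108793455354255947086146262316779951346949225857933129440753937671273264497806230262752304202247927242098182102682030766240149170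4242997795634343047082753127475109638826599826146990853867994336678022950536416321059500586981633762843591596975258713781630860740720029799123411653050434754221127082865433876510589489088636695876229037780512956580112709087875039221308615708012483667545246601663483129295363079037091213362873567471099476463797326583554206307145928997153889864390146016743719795207519038752736556552390654268131690106315344244272209349566596660880986050646690176291720051681082971922485277704411858445232991449351331976200499496889438054857261668180497145074869480571757063403099236727746431210657899015639083509387049418494800249159700048772793048551444908653038133427593029681558828936404210051286680889451252219262730535649933902511683387941493756398217574877899621286909893276870260683438588931977770907559504385744496590782104514857612425636012701020940358905709156979931812145447414909560143135700546043535135771396253345212544287571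4064443343133907597074946448250860772446472017618601063644213534768071835908570603324790451050650606328327737445001434770068027842545122762715431226353376645662026197024623744940186285480733268101950930373982513580917943654158186929136306913582355306793874308185522795929538744651043418661575588579244762235007278999085168542585977276942203906306396278422131602742882706886839917696655617333710658408243095635886759040232896953860414539310915956155769689486845441742456936212470565250451863456647747810103118567201158284349300873883835811506256942715546091927194851198570602916983697139723783252571005251057118010300393889775263449313009572462429840293590192187514703945947173964940215892441806665925341787995953688586425668471928944422104466013767850935020898666109396111086175420681964127014416507147885998514379387882936483772086967519446513444963430480934258107797385536745420486594103536583475922029866721597170670559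3933080606877924027264752004553814114338481549913833501118452960503007204096377556996019820130744492577224428107006820714252669792582347158153347604565780707497838076503636552889208860447962845663564028303141353164484022438870010571788629394053327221009005098296220602038029230460180867827570144786171169790420876398559626714624658588635827902357475983882639164472230619478679480029977777282309495715529988377742457834418719789034144121023653213358243112989350151703871719276944786752992035232446837384597187320826723458283015111034801901069889191147896764235332383577830770493096053597699798657122022927257899012607052746322897629425486203491203214395861326196109883234979223733936089667663858076676252662821180845602732145313785616962133414902119119257781315838503077067274801828102674116229403623576811270620979532344908123390949182496616978425052969677294115191359957860127313536740347534651536351591720693870522246818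7719065134523670547709065307997515072535979258288112703217598394350531517682279189870026680984729796686703249206067292501654718028535429956884810607008938051284542817614602462814203251201700704328684549578196186794953092311938571613555148408458904889129354541206312718516778738391904725786030226181643080105338830456254923400243035737425802722228382004172576702136793443474193893979609991313458334453764924457779500326803730682554539884607073152341053210200786604354483575258479591047863451088148261172564315630062096610030206756364986265588630588280215504136991932881462283321467545168400698839958537255545421731338046497971928806095859481212423419276791084038282402579429336107385097302927220514291109485086153344685669146729564036199356451640986350234628034178104990601251568837430650306439488948846042077559744764226256720467849717879505502299775439679655880225604657217505274887965765688645429352323930466993077624468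4145175747107215899641567981963735301110121298926559113398409752066723234938881202135108867668945056788593370287532798729950952502845669912676114875781960682415532144676412707014266265232592500336380214604084903773555506887018141934553985945329404643424792803362307096876048459978368997873501358602377670399849540582447663228933229459929745770247549092689633267099312079782179348198768203737003990440543259477836699310612573564106602170693804061172116653125394857621584492194252501123436471150098228904000359761096481694496305939938983126841689450565423004115109428540115526643060083024303052943125915630339047470712794551538606431059967949287610981946105133947925015890960765318042287476578951717307257245930499372543546053400824508778898194177353713726029315291125876927668244729297393957870653034085542289721610964351609190798560523697033397298862233960742763446263654205837649175330790860655920310180970739923940085958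6397946255110269097563430067770218024249281213867529202365553195154600718966003059827590133015571665417876529469848797137278520469710833060172871942995488878293008994211160784283971045348916113466645807623911319492323719029288825745799730809034504483635754120539827264105491775152109135718023469964253650051207557568369267759574797320071493131363843304899398997544742567745097014317819284462189480767779395002492174749552871084862128723684429375383675070613978358543719880870398485893775560699907255473095296325944503509557182957464687823802012980964482608277103163045531709763010084892267452354890094149886207738530864730869782268709934102284881938445988491143249746642995550427863988929527095496589709698806063326767751299712995252723413416939176101946417840471526545998508282168923910560446913497872506253907860144386037775905738442196399751108870734525543556226297582882972556002774323632331533664720803032285548090277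5322992643723318240369852983012923538993521053944919548922441726507064661777574707237168311096292535774967207734637448463461466473836377000543824875201853749749985436304356724445938613599994363886405880820384474334952467827555067786944413165941651225515049517526394764921765847932781997607387627882716544332534927139329640161043259705442436481345753401109757348933000601469428359910885248238045115850387142913903723059553633284625078785136060883982311074892747027971548455962261277155228425256245387538379055126533301210549275196276680522893139746988074640197588643901898346204321552148118172186797832430024135914129719351589303359452439969529921879568680094232422208365593914035995223197264193728189595302785046008961268200395407342060588427273041039157482876043269832732184398627558630433144703472260348244700878093815099199612991781479839408103729952698199863463119020349428584510795852597872996343987548867012282412873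9336857842372134321981110430807923931133107143836448492450589627375497086723057573103415499747350677337264613255760108665851601949946515041441379126480914330616559057231088336012548172947395867844301511802637335199341374176898655238890812732786309189777235721233711092543246694487413633129078542504728852161215832414549391838557324053935551729685865873845181678464110000406568392922931146006674839151312090546985148752278181770309630213110295605447574440872057758083373363049745116068933896646346846581924089888788239398243755817743136514645946229518421027710898146963116471196366845857748069700262319716340156809881166754693583678102291465403859022133224974122088041691582000545754018428655956238186208766481969223607077412952184441483127045299999460140873254740041895164958743507014759134096602949172236382561037093541398600579233930224837837655273946375723028795173825734755187906282583920839790850284321819012057628733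4609930753221186675369251896324650126407143069959225429208452130363364959715550878110980345236593808378552559562406967901864692306746804419602134156979623373166744738815615418302544576921884669598396740943719333998336306533447196141571682249327589017052007312644363872100715552828847534344613826768986210904532811955499316750571452435204757056090734426663540593069815358898959336488754188942347302638865700318078474178709181826014129823128540578677122222078025557729064322401044277498503571402167866701416093276274825767687615678171682186735981516984831183039264043470069888709061438408560355262728108434693425139269120507810931182879032666465220325321864742667569296380115522660178165549982202323386312114132943510198847858237503135234833641228295386345529115729648660500713318322967405058403653552142593445707012469137780987575233873906694026777725644654143807309283672841461581282644584842616355929449248971990591967517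9073595537330825875012615480344685846117773868020953592965907218727438725138124985607849239581918547782174487735615617310333710430625163218576242995619259044943362173523000436060663020008845363654208653595746428802787323197666389580706748059747564321551831039286047533087464067119299051296134072864394209679971316569298536854477199166315729178950968633325049808073075190407359379474793188347928057415902573833165891918141150600769082006951096906645915601912696471129754499047152829619543930047805992859024416116744900945696752054573257804267161337344503384174854783258490212883805535728317087954296220532291526196110446988078882380647167108030376138223847726488790546298807332213698235111762280541444977104626241730473521089881957255762601888033660493273548410806426660780940390354441545368888609586574387707808253274487283280047459443426175879611049304120019639658064794668407569865496908341661322155896075522838007700121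6613987580765387798354806420598430691081741803394546149103819606587278813675762037496045930235310142559910866498713081409994098795168404664682211540163266053963388284409834110724962376927645611493203503477146119410997484420329187327198711191312114316060457021462000568425404798687029619691588392593776645707181109447009868990576889461075446784099089642187976671266917092041448902823736103777519290664937730680876181508107987273084149796165961979759642803226858181600644525937926455047750431714530115069298099429358752889542928749675409924281124989027969945213542623476853441027561612116657473521782437096067452296798323582079181977485334034455978831194146009844626448516286664516824599630339228329830684268277937455352040943952280749467730789286431429635562412359294967667040085784550100197547124718303130004451875097247059110736438250968500546819956747818152334490286350866536685301809856704720772917575141041091169366700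50645461481417231751088452981990938320608612611232842267185165540685652460940129379133725710004731999729263967092932993021856032065013746895486658006165292796274049040361693690940653464888535549397822245284411309963291989793612089421059847690331779420759314045229035399643339323796876798727343640378963414433280430316679998078109215164965512142242709540411285831145293849965287009262432376746241582811075531252007849653006461209845826067195578979173167804424360277023651027951399685519866777893118045328074364344534526153459721955198139525214887653165900838864804675602756264666534289306753085175785957073275150678558062515137650711867245358847699555439350259013762772083209323062401502434041903625864676324285425338052241943256142999535976012287331443545098989158992862126682074706081442986628902237111661072854817474061676510787960040264333045333432805899615922507041682228648891446420575682385718562124008483760778352243895556309973260839119013469397561984942080)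

noncomputable def rc1 : Nat := (nat_lit 1478699730957860944075249745102127834279303252929782578815909436199942244426919564466433066856726940485865587963459047628673676575583763772487274588883485130726819055539885954483523532339175767117412650474501830102153850799938170746405541338940720096128305049701202874672004226429297857115018937168861201617227998432381425694035261611339455528204902925710132710473736372362236948484938364788806186682579838884806766192548811479865023047046840577312720923865712503622909287456114252055163041695579447116991256083563966970137107351761777344416354796673441350395660937012462829614154102392522063264561481524191101390211890197546112618125063909833147113158971048476910631308101136600477859101165534908318751598516743454290654096234510573778055015295129195055296601626998081667171750365360843178236393248789732343556530530043719902153409033359540982725547089133351900094435775643564764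8859131759702849252835662617166865781652823503164097172148598187365176356115700238068109813432308392185666981099280167415959055928588102622428955227044034716231775989795930175081283556047226593462293722849051577504469210351576545191412446248735414112877391427179006217861930623313589329195997497713997546132345941092459554205735267130407761197460206534932045168073006182477735994021932576756467418735812268816047845417022666340763181513488175285927465824533889347252870643453552555267780036024128295873625430960663906562100315125156474795992779218691534140723804737772154144594494503481587497611797751817530068320418045717633759064606366583935700992728962174400251160921395676098031721663316473422973139233833127541807528593199623151919788979410446611154285276919917588334328579853181792267725639127792001403399051726005703838436466436222422327249977126391499936343014036097991971901320046587823576251315273391361502894145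4639843440025977341435063282657111243921107673863754732309116235358291891120751963635953960867514851225055990058706545236283513367220693612314315486457396636411237940790691330770311057347248108389782268005606527622623470054384474648599563485507469600530308404866070164937919662142196851438616260485051906501228615422910636591981583422009269041852320244622136902128505576920112667966361768592634789586362614082708973449838909930019521349108711286809554569402233346205243901343242319278878145932990014554587574919792534123688212756985935396804475209182364932251718396402663561912163483995057090659701132753925084244056330970604401605114009480297924326138829924572281198168820742193278245036075696929017134056029038831126051391174842529500112761366055520639984058809060828935269136549953042112201491131379471523732248633312577873512869672030646381852636973052265497242555445927995232278623010512992513797111124246669949769665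6277506008569158698944697745378709109630083545920145347759529772395990321604285458293817622699839757772702767780429999576866982322597704028569381938263501508950142185406230663663307307931710842402933205830090176726040721610544357187279715906868932097605080396867668014981429252715753784707424654842899112864801092709730119942780789623578855759476932882590543701418829375451307146324087534327803490094811484962390278172474159600199527795459336514732515177579328519116913468601010301889856437076991655522450990032940442189447366929463873894922591996504683606011957781335165145498147714093511730488269279554302724745511729767581851320621440991289902558946590769668060006115570058130022394910418230615305602975716818135127596502516190202627267270020367144354270059275299469387507955779736394918822844087037618029656208316413897257019828688039772738685639637185206428536546956011157617617198617261262066819453796160345023262290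1497064253274659378753449965663345706273171880416247056077934001863539732929849832432931940306399216671349928852145735410959809617358689224037211996395409668077052917770121264435290805184879258365459068293960840671006884070282300929508686513663318655222160958923378198606189887199499350758281688446044593308541450645021818157786909271160869305349483226180369298897825436384943680527385790025804860633538271417566579293683331801115355774972107733552231430987815049003496573883703655632874269936025796680742338878148720346084048114463111374030557130780600708508862244957396881520751889585891724716832753366044009668330396894835355021292175981469045610360560530211019122340918401872078900190742004311884125438623759962627437001123264783652417749704675952365796615247259555664082075170996379208828024118531393375806694752702614758859890894185656626360717916971168145332601313953359868150780014837870382979622778930787980976593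4592229827460902698706148713294603302928414418938094467612731765832060614718935055430623062090699305653467072692333162777541127739903336790742596772590672478295628222178718609856805037598528222208104171237178115653656513238538707197436525570061219867227394407364845128020522558818538006728772841945485281481003805958881739136254758497962413594941877898527999865130801088607032068581050787380781313560382471935811347029027251357299997835343757144812577691315140622609599571436106466902291035884560528959516577225113328718809218764189148422938812443602807158227620544971374564869647229459905356561364905192287161264726388772863228364356061720019677535874848944945812187423087766075465977983244638028946038630765411165207466310933934352588132924847839003996875105444870599468512797894116785558909546578996669007719273910109563293344933089524000653251712228604822052234786372928730019590007186913910360067242788241838084887413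8390338855669793110163126436792357103447232013335373464270100047355767989872138961154374819083526695672299511796800868168081415587705290940403308868251627994594348622093318008094070410891890786597223164058523608271739984917406342229297703133549891174279558890150692460832954855849823658951620285195193257074946074161565835761788181609329087377347449430878280614919998262900372722076406061273599323195896123889056191825430159348477664335862196330999384404636484742163261781711220629002338622812879721377174189183303505776102750577539064207800073947342040074004056842499520400210967194344256952031653072096146744838999745263283262020874910160513531812115942289169980897164476916971962154413080297400567415169862587931911734241546202431937062899245605764422684960233858649668117655611046116709865934917009592934140396207904893042493354765097869099303822876190274684175782591010434369879601035214657849903724521929081890318604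7519559076546752628502703975520160183145589333665064239599668395026293675967283092219785803326970801475470118103167943511572798567713245846482034092674107010506239987410171756710138720764106718214094871778931848164164090132689443846576011862953746273098399431447704168143407385027574783439267737529853416790615354977475907085099352284695442385271185034043313424738671536661835983944807148955463148697797992824385544810635140912872922764007861143504177991231035548028145517435514828957143133908467095427949432950760531488428089632952042483345673019394592534826254339044022698181545629755694592154309642349148038445906036119448168299481659267827347507702889827699428088537080804031413321531189357254349703736661650865416452015989774805004117100284131988313167831541927727607217470375871832251238465373979630069084801125251849012710049389296519007458678658825469324456829159190590742882783849553279776929607786503408895154833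9481883523502259610829890639368830875461639161835558944274039450865240158131534759277150054750790004817549134708954833277813436300748957267116295794240928544008961377015207367388116341357106428013307977770670380212651096179926006578140242979782173865007025389308122540488833399479089559688213781214431239815518986663430438817417365636151443740664935155032662204037444897946144699090982456192346880453767137741119329540203124427221551342156948873759187524548611949728135161881790418721784029898075280995611919046799588600208509647361062472603755339314934520478073239816184068188244545277530077681947942582207227846005881511741415958234729003116897148491802230529901341900197197071067739639197265673653950908229754704638931140104147714823092856272811908498072528651613179393705357530137102031203998155602368068270451927382655053670494680872665581734703551759101552898429216990852123087734576193855005274896754575461595063701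4973892402406403896886074118217933650928580961605970359566933096350396964562148478022476975191230213537693171224915431389707013461474953166502121029514500647884477686576470971660069066728287332684984672316005662913389496613726164117335306974095080386789262650817250448738445846692208498921567351682538625812125829053957689013313592966701785761980000426957173530739955525824668231704577183153385589823792557058592347947941834173400072503047301628353003326972443469642730245760089044514390115142943981808739927860530076334112987452626382202069402279293968276092172405039454303305531307911814612019223685790408737415948843566597049296663442034739198713517877160973019738928989040040679903194571627193682321328444072362772613980977939020842072382797484720011353862414713005518757164550503212200566141827423937101476871321881812689663620955132278864660861199437657137156527320188189023297020748626764396058441045223484880981456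5761549128757544723821561978159648422061472821419185069167556109341337179228595401787634055187597158367192256830941901266285199532468010572318353112922132762021213394777618010484963135152291161445231560986875213130915115496187472690846662790024254912142408994601951862255589991316611819237605059333541201276629022174625769639807492896548792463737725290998882366310633971042010333076040872637510362819104117277404103465907656146667283461655370354556887737547843914294353297957878984185523971786200516571752861602643116257309317450582837790544265655445503967086921173406776891815718564162322632186133048616632950756389678926468938755509033066388611130064371874688701457391550921100184822824858733927885467065615328220774538555074008213594431376180571121055635414844237223197340660379473863969563726182805684338029167501648896602826348379498771644904548403079134615097372224314639661286824234500875122735134759184830176942971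8968788897447921057061379561276092628008088093020778040775902762984272842254988922744651647512341961686634970021597488171228447058719626338783531179282189574008982893080088936117507381304893962495222355347352950809290432011189157878474316269867241358270311192612141908875156324754060509372219214776544498943878472992748975627576360301738231482686169540370960057931780928196566228226967848771980939364009960228419818771800627671544117792840048607685439092096004487940843199268259208654322608966195076837720472134206861213717096118779367857500989957978315344683678065179511654258692728570239686158981117729349562427124262763210639932851278914644668065317316581219696467048142029072294684389456962288816240107460538165922348114324247120770039410046718981610828706585437355706347023778045303934781579961041918090661282541043846164663095742259939534048561413323591966406362919717563573974202186834777811827948999993719075907971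6917779859286008923609144087603325762135193511078383149165486752100005506938357099859102319458732200310319757428987134476050971821614215344758144033840703994367005920098468740985845658198543422367755322769631379549247121762839612703376030572893739419668734921503930809665562301184518246919223370465007571603968252140492092669217995343245119995393546964936915401761322272550382358576644751815129755572016079666133367932913974746089055681571440629536875597690571421479089611505205220998510140184750292870484973549363930086572411370724364867143931750256631414294534729384046504042185991934893594913931227454874966827656834449764935843447911746098177667048702047710339805099637617891415827674245915203673504698762582787367441488276738132861507116039397303847028999443327210298897937404673585923810533403442587589423060141124044551743907967731804139240521874209111120492145161970718770735376027306873563200472495365516561342482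6477620782175515379614773612519876804122669732807129325807398752864210998128307123970062658493384505208979609967284124142588056175373020831635944369734577729499539619772334623459031907019665312232843812353531624560196998888935759114368892833338008557524466009406936789696417239913019604723247143647024467492939983834632986579075076835945454454213960682625675251235218855902608539413310222771752486452116598867386314620608136565563876249282089824757083280262667240145008896028829500340400476686468875489122675173163254633515681081678984840514937234900048602086735028322567251249472172977640116737748082947108400192482245194683357419367448195979674671877488088514806002287966133323024231388944910046076230715407904146409862506788651467724482393017431576183098891964346396227173187014274753633706153197315619732031152487989187342435255155642740308993371258798809263107145735735572122890719287697710676244268034913018623394752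0935955911471973299805791117500476919409802749364495155774855082972555727969906648203328554724734418183462295972996000347404141440471623535485726670430873623484158062444286545689585425495019303277777955171630621807551519525085402006725839872982509503143960111759836997763796605873522154557215790399785582759323368687699235474476281388828739931415612076873690998427476307934043675154968794902963031074967246417717371104428531788867774420819021105814250305363029021552054549143067013221452525308991401441567145663374303259365294408904144976487584320300632525503094305875831873553513561148556554965094747063057404364198958260924229446458342390333279486312647234991729062301862666196335031816884544228173470270853442836550327123880006662479727651715469038564086590647819581282680173253887705609785334643773159506898588430858539210126544332309746131200118416933701619279811897922952891236661885176001965230092181888265758494211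21407186571297795589454729137855461971094587418263048598139554886157488208355488375560530433945101238424013507516875270847642931989819210845015516367394337024655488180783412446165217080550165989167222732990317044680617268970521736264393285162164636444972183369137361943114058141787544962843846083497613413487947308988285207906196912715122275348247724083000701942705877155526264018065298783862552208134454735102269653112327239752421284037702107474276541657634591603575168186329521787000037502732235679886153349620815522648978031513528429715830662334229489856951637307655313055092499645669851393117138920484948456002356463205846099665891138491662427930195958398950830647104206578516817825498262579033878453212459421933452271154984757188112687009985315967043734957543340940856963196054017630336579018789162760982267659721645651458996466995401078932659784242624852099193211503235884121857299242088604958445649785569770104233955553597234411236173686674319325674378100736)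

noncomputable def rc2 : Nat := (nat_lit 1492072773880178027205494906376509068678613595080014541915845602273672521167439887195092377418845622927161238022023925798484215242855909238673124420885941604612046712732136915915094292699413081213010806360317378095783032264981897274466418500541704562084519705840428366304892377722257747952675845401826905402737061747378851933896144203084793201520240896420537773428121643633848230687390990489185203099761577067743894701275569177982794547362978729257196661950388626902694776059866505410738397596463721897763925569335468469884784193886106119054771919957324012169907083087380809223565943269186264200857902652253953505242068106774403228964917602414614520714602990877713984481008989597325076849872568737896030734283539242624204480798886435012775863026732973902101685434261038032946930203820335761960146160152714311787470981567414591984418808858738558742862625210118010817161418009408485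8397369700469902650041950140191540129202201704188990186521834351204182652063281706768213564272300311850962217191491865580826719079484364339418170042137164750431630810917121745652513913269836004836820495223076808391930327437884096686318642095228073756433229016833774296204563343331167251150807634309018648412830522477314259536916060266912176085125348963747593929396125080854194738937468365237238205202609344999661369405347689292457273066041916938616930543363312558759239330875160043481506560997172596341875953016644864894567761264078924545656568688808618298274966587427586138233786888524500231466698555925010773460646320799532636832055471874738395595268607599971643115849724979287402992409110712230128099906750226598550336208801985034037065701631774428117643521853590726937271425916880955878824268815649992918057689045436492399709863974583657420527567362828131491439942039126072790529539296329252988185879949285029541689994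8187980703966450913879772850819099826974263033369594481205113916647120430322402168351508384524650201379562025601813172023012816192047061238440669146089112686059441563733028198098482083376459333984737340582227354621993655652111923867111082821547635224682934534401310599635602101657262146258490153474429077166186311726902061111831843300529347409600553028265226591086758009445838555013282699713997554545430195286805051271725166226723159108116027758934133622144215422868232623489320565585078516095603863736369121019058723650795463308124872345992188560429918586217505847167879841323889541048646946069296531245760084928620756757844790374938050928112318280469124816043613513048861446849529959928597228810243782501712577787199371086155502475792791502701988481618728126846547816860437824982361850378070187302189405207104042590844568130750915468359031818700537856305571772243759074281883237432905838065607874249582824143997318691680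9330905807613492351184569152437137100386370442479195292915471775920661751745788171051353309278730145522969755259004109315186470870932162645616786586845248731599177073747438046798774784486160792602256417956248374093925108861132705175526435771608541011593972352600384751778076730831850986463516529370365033042223735257159569117892524647410476423953176622923944885031813767825652179880653821352360762932316298182285869645734740399566776341704737262740579459394855735557007948780086941954627974594715581577037939412949316252791471672117414363139094995218185639921202102831426395632306861211083260546102356486217761991893282512318701374030113614012281126626449551141009139022940368917537777374682509455177318573154454045935637963116870609896441524586219015224602876391006750648934929561957958832272802310529871531614930920005166701247391087456639353505309542946180301071083126592551782055906905828539229719306843439934143701065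4351588558731141461056240438212591039648830556067407778425898799278386567377424509222979069215616840833292433200465602503401788271984417861949745326008450204821334768595993086067009062010384700621216658574342883845703193798261946644458716847775070145090510541407702782883656321864626689516983093572403249660382596324933223959000612516559629454189486774051617043076989857845497602173908055439301152155669941712241883191285354687760060763059462054816166846709951921685136548199135044169996068961461935256222138706385342587144014194141539793738833073277709002669824430209602676195876871892175509150570626274240467719149389407758650216527282845720578351122849813143471675587917043376116778434797191187734146056922117931199092535095386360093202405850611131175281526909659083850680206704819697649521471757130943871072313768310186742500454765623293234040752574254341133620829590559365295169393915369166751756897437633964681175355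4430488519342075463760489721217505182198815883788064180630406126277767539296002692105650079364554930819015629224224823439313365134486553876416790367546782030156332863409928429789550977870394866571205167931773404249152021527442970008028692411117121172985359494349198006961551505314430870852359155387077818708151264812552364755824975263965218832521811504598535156638830847942059823443655787525692376951468413108116530854743420674166319933000907792119560762669767140674962202181914525877123862921931862981473381053524805986275473367660718362729818476967550805533375951893008214797573379039391868542327248660208674471594922058619742710398146422902445461706766750175312984584352717961625628554100279471613898466596424060332369822924455512293862081100784851071918158547685847098345187687092141302615709608754399368239964601564402526726856027809822783567708212812141229286114878209792687946572300063975709757842516426728591971755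9722817821430486406257276082079604013405174452659478751140991097869217383059780937901400192925120043904928664950095689124623222332251183614912540321283755893498246671487647040805819127241753612623931822579246061493267862429361885802365980261892834549752086334001298085884180888257309963915535850353871421309115429903934538117767522463634346269763619696058125074336783440188815316689762077452882419724064891494982259752432475738669664050757462429903214841793370560549215020472539539059029385261573878945714684494594338124564970581428124755714033405288276954754032634196170504954665287828070910114099930708632165861988750570627660354799529191495001350542504446294455917903997078441865891971364074629116176665678597109671370537126289748857871079393933695039262655862633090280477119903326567304022294743037186901555106523561548120669575696540548903503512041022363632901353435951798592626618911827296014290759066341346901747186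9985577599916486203166527031448144518100474627200039847121360156367426247075655140662758424412272114780318710929626079956999646586003038884379943329033281166322360294291318495023425974461450717266965917833742368093993808172025864862734662006118365298650521791314509926558989885349078748493439271621667996493088556071550712128943924832749148549347805142281631937949243014483709824681014903949504520396639633861830555090067183717103162545884878190621477082610413236376382154875081223971783490970823948346533619099571866269896615963901363768887665116781743610442848576576776534571607636898394829530169738344374093756307436798328619293076845915995652406702279078189405492601167977998874796979695748723829425717227856033571657086986550475516440958141784303808771441164233438769535126572540662406119789750020261698436450963470226238604102534441697332520169165630450984344604303719207609992363161118998409816216876148261556158621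5431035162356231933810316964752559469618861244768446712379956252162815716850153220493352692585495546354531417527501181933544331703147076345127578265638885447580157054901245541719500939965776106448451918967679593154545969310701500132145945926625118790949589443013156125241422953111319041103302460715331617008163145746815701460922513918709788541007897987874937554940894144514623808684708058275837905131767482098329742058820481240634147907846270873099644054339890709998693602986154975861059673338993822556090039379965109737917092453621229427945991805149149540769063727040161996835794768977786457033887682601610682323783924482289854311375283770855114556473669845854789895571925042405496349117833566396859527163978326797383214678397718314418256112975264778326018678011320455245039041840727977641698802317570062628544649020683045783535125082639274769393304834194402399475085353612187493808774691088598734359484690446309570835331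2169554444961658444179555452533134761330387630116627380445078655053458897011238858144445192035796668266115680323767499878404618477489935028635258459249766465386397059476793486115671516042969379484077707027816693826817524378564346657473739677911925436958849666336476438723266223143826362554902941105141339793228881139462570380886946972195541757915624896896687674547068771181457849963923546606375545202939121256627488148945336280699148790581846779706230562338863909865395632058833821783484103446148851214747599490148320874377865903868042001374964839136678798717984111695161534095239663819173756101432829797800086859853345291879015441933332585397833478220338192296464490141362109860255330658936582984037081369079007432479616231831588670431889079743376709119235111276293003533238892312330409645639797110758382867024742506850461192265208967819070588151205222674099673995067672166636188796566929030077256814843682008321012646925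5051901178170527692186034108754945863405227767724379912041191497779875928649768241441713864394837493178791633202324187170393559479908818095019645648247181554379991403079715672146892073881810148880915157204356820246517277014561119074815156626900409224572193271672678247419772742737959412012855124879212704521483459545621341455610650286082609394820029155871400411247216443338567082338088113543005010423528792399804063541587007968197897589839672954020855867496853268776847414816152462455915633779768728875038169707023286441870179649457836120630264543967856576936256328588117898880665801062952056831493277732094018333732600344820795897738681681354954829203002201557405263783748277102443738791740870621105417408083147985483550373198632950511811240862098398145327756114430712379792089637782678410497045751329504001022894814377098131206138404024502199777076668859474744029915842149728522342765808981148542446027942756179115112759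0715180033967533880410243546724666711929229480246080331998749789683901508998039270580024469053035865858854528044716575796911454405923478377418484496168499395618847061778788006938499839865623094826148381789262141404570464439516961222022652145581032057762708242120309293679508874836422069053105033318634620756205343467435188218810970976977922040101263667496038983174914734628007924406587717612583117631496495313231745812964514407944591154759406601486332781940772505386785585838711144370933435312075571820519538721590361542641600202251159653023404154578353331609803170280875452751583014971393584249782028092763359350276338019622411965852069737726274005438616801411916411776032080778376202726889403899325064344958687805665282315683810886572682317560205772218371070707659454036993266620181872049089606199380969079361137236406114284247507762321663049127156170478188285261778145768623096548923567165195981805085696293918455907011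1817474857139845996702886680301438376612472072542442956758235742670155577119735637925784406966225766617762961501098821832162748469324195572078303811160504023387455098762963137386258250732576758922647711128002710194371201097366741259119563485538508868605198147308164681127797793577139615479510024243422471979248126399372802672873077804658229677360471037890976363891696484774129119463664871706935560005878516330668215589633873177275657805860746454573945373464123802655881455102944789559971872682056306466567173901826691851944703480269098414936328265386034746656481680395122918130160918037756424897836541977892111003932223848629957742073414886280243635688827746662654895263304576665478652023907392291755588287599485217065620068317234421885782434274274614644291784450649463179314867821554090197837486048416529529764765408366223120111600716096656321623516386454016734457145321849544686086331473475501618406663420170979642272208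4023097078145450557763579243709143069162838330903459090131813693383753200797664414176708924292334860625125189923377340201017910566214396368730145736715357879679617656637708701055731146944751063918569324298207957666839336154880110253447667833210481959563146500601516319587751683173988345025544521068441977688469483009658366449996105221127275557172929109764827774918085725399347694033133500095658683546417143940796063400516366996410153216989421084496459092575964059568848087473389497491834663199226863225115109533359257117653699921536056240264262056682812184694265478859269577780960399422248614443205500523458482543255979209036647581074680552012687557401637585603014139663176699773330686635012606064646384824541467016191213191088736010055495136493628147153096026763352821779605456095980354109823386569502323973617389051302414047672094977996151299237646781139442868619346069058766120736439388511130340692613288653322900841310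6298983974762905470401348169746604794514862816162358270430593152366589037391137200036899128403856017872566314995146786729383928450159654568091769036476840337287462845799989098838035074263173687479225287216195423548467418561225807352478982228951523823329035461853170779018095398683402984223349444439243006677081056072976437010674877211843742851153951212965399865580445349037962120683286339419661325172383709000648594628800837216971947360027359811371934839053743674972336786771717780597767051753236227118047484949356060462056087747033913867779826029842923017262652689273302221988970343662597963620305168085645018619350170543234149868371728190916097078070710576275169914431017382693354979988476110094668862086845204316577073858547176554198927602226064886333663999602133589689268894702905553293523903473988152023815777430741280081758503610157494129609202036375866841184183028254166605076845353443125048642037306174639324977321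68779742725303267491178988429284486122472543253846294429436104752821560417364774110633853683782298737923205688964541708856923687117240082233425609194340250897173252949250574479424127105405273545209074692226693053042460080415126803297037743254126936976810271407239188769774385963264517868366088748785937866815000132812676693302658806148144626573863928097453800783103900249887814924583118775289167165135631875093165688311897858526612536541120594559295698626458351614335775885701142007122029929262839215086995369736889321392794164552268062754826699692733852900442244183990982016163304714331308597314783722995790691116532128889591727358399543636933796035668128830644281902871481467574675848953723401200435051993675098985401917865203594517020994762549031330989238990357188480486946959084013285363950567822307949460591350373780635855207740247836057995029351193395750470828499582974818508593924649578717293736740970393123594359950381167195233429026702128408297726409703424)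

noncomputable def rc3 : Nat := (nat_lit 1505263926127561282929897161736087198370824017984270790972273401846546300564954242116630564386331929252039730871787101986627026339051280269779653299528813659221856375403427453338555053764157722331623971884889942518905195989530606484241461936684149443962415229563906969935594510861825237613194695122548718935598255837417804508876226718182556108280500800206221603481990586175419031877156109893510782745693733714214853835067581893112718361142998818368638999190322769383712745883229355647766498826688817342499066482419830718703608664123897986116783950707164541521406552393441593183933813129901920219875784781999798005190557315143892909788817578179425965076352359093610872988676110500636869939791547525167715008640051464680470284298668263981521852443589230213022424394281237516275825678840435688285710724281107958957525424746643735751214915058220059507960963048934763599697051244404173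9815206005685780666106774074779432399777143973867530787306849810308901710775309626515038741532204631972925326578140000876035178484187160902508898260260832047577056585468369134337955512978248282195061600359995907613880260164953175331509137523095048944686781629787948593076486454532498731282864569186604753551155078764338329361453742924249750946123882689634972972463693546426208826850551263640251286800728322745273228383494212238153583009817590687093508075102644351964153561143266908917542750976214591366171223190540304205484616594752542854538494396199969607189791909981378574132750762587411236264842849389832764880944735576378137271641794932438469522404588876046186656741723041971920025119006678462087502135656333805868000785662002387544349560471397872405856396259663997617628857509305162841708595533653926743069985691835470513003104822132464125591027781489702297238611223305329281099928711276873179925632466986155466261324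7165492182563126391789527047613167911782173861897415697247529328128072895606173717583275225395206472778326898377275074186629007641792424066299447929194557637261771230406103992478452353212723767518036314684155471414897975269003932844357571478717411550677724646567951462142389967619997311857162130336880132137126777788781626030888694149783762165338173360017623657610190626819708999279156704757287537196751006217883230587786279046591825870378974013758646125151568792651309795029157738699745396438841625902171318276513362176582949576306015591130566646674577163060825835418893218751776039436629592283078339407804012935017164329713328496158605885501089006032137757974377915076682711833474663594404339143835347799109420247010404200649423329177295585454749211385468430884565183590265712101413916178921507686873419116322520561197042896615975168740844930260065086604390688851140548524941146817341946389996719450030665242007028939841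3793311589649460176700218061080549439336820419853126735141380908168968431100600841439069575089369816925640491300421610392314586504436067260720100822136225152970170611030018019211284809787100085809007475985445179901593559581189900023378015314676382743568505553034498859232213896643587530754930763342714356412669665115064182622705880901588042361106520191806790717063663827478969715620286818053498034451044737741820635807366038928730783824126110813983680212573988373388338625943214511159599964417846846560415584931760843871689320399269501307216672515148654024056809973591133346463041296873904445387168782545284472376618641318507255175782471247760894148843842808162179620608751894458163333409818147137623269014633557481392435680946167658031579531644745921271664885406026115991348129113569045395939979876942111119500687763945630865109711971467622455009764127667533302273569776157754767965511584232494929017354725446139508993192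1177036767298703129368427493666888270591862987572153224598172191874840930971854416675044529832456562640991308521026061851010851011714222341656355985310140249834393267823373795044627121448454682831157071127343796805745181857295691155196365913305155231138806989221358482838984538589058103161099339295130001834749204051990602876109855135326057519447902819643016045633399760341664298352826957432607988674492806105062959314588685510809888984080295814658943003826523522185827749751122994753091579230390602894122381116152644857782554728874259457612486549627070311745782538202470037777417663070757581599478315674474483003944549283964334951727389680860631668884482484208245924262199934833134425450321116375862166449885490373174633403418100404721459136396220419592570479297552099272666496250707358444001859138692218811868473143779195683377157653254232716136881703583980311316608356626205503382380856330596137992429355486888819311332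0301090827682767032015787196301936450009273144286512818055825927312913063488756166349779948451511067423325779969681294625415844589424744023188648025422560722078473435309292252270029436269525800977935075166754512654439647852435582433426421366041341008020951628820359156939129962355619347406105350519131322598994305865619404535022848295543446758348414545586930366414561121915501703294997087501309634902157830455522736058156912311303774400020108061302532053781402065385643946279350552523973236217221146521961839497777163423627474198272361501837368688677262918357680680909713117010774853192674320157926664170060347755164576719374642303044968085506137746620457275458147768858687699606334488640927811717745698907371156051753216234958123570695592816602332112436391052531379855983853705683781876541306806954527757510751298360191998268406769562683725676510800641970901677897929969995529240517414436027230567044169542987400597649190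9448899307518324457485745520720722661467071987845737402738197967752900718593590866197744697745047691138897391173684854989394304672291769002198356276500287695051559934529980649359452418091491566679462688830830194904424078862059194511797295061902183045871827874388308794069486522931979426016277318858179292514449488431212014660729585960609477254356189334928360089781090844905969354406807275213418569434367448313568246227436989112622954704120277580113442849313601033462424304187842813650100052018562391694748928953070845724276773535580625578043920351405367944275856127325283454107372403627229959619738229569092828816967641127132120414857027725821530303208406778227792235470731683609053156932827966957939577768770275060488091130164797605375274858442425422942101241356234252815347012028576776978608029040513831822556942224911519998898406839450628577592981074537938353823444626373900648590707045582304489822229372311661854958250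9577333662876064268281644953209239370489569810456438436461989938031554121129361467565254698900845290078749490210982152518441269146371414214072036596600901533335876496957116557331380355290135372449188750493005950861206675402659141033351466160563695179781020078654699093993887042076720100292323980913498167290584435001387981069304048791416077008517463331330676099620298146478990134302130840545882825951452686867143123411212152720435046096905214213297371186732319805445386620093420435949946706240685359987408587564605711368189082722054035385196542510157372818050999316370331756890139147297895696651732022360902552115889348379432703582195958553151122245481579196908675612565434500969519870019042211815738770913028190095018109751220432501725521692040945431173196501702137069650819432249340054085791721729636255369556776280506748024464774479819083687002206941525620133452780411206252550859712586700628127811842605285516083192866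8937629708020105615418209438180652720127748356797793142992176874167040569333636917637835716053412241166082368005168949919854436127531567697772167229292497751218256598794345110358786403680564892469339060033942889872516322223099647351747566959181166661060685213542929461618956580365177288121134888688200073484320120120673203914957887163574858927872393452572922576926628337285718178360475064120766370176350229961069482659325427888883240991251171426409096500474743677507386303166188803726629261596560219730706827068328095387340578354436650244261176379717446932381012630219395062105337507554094301685984374793592384430703132150576253085797073251399643772064454063691549073453804730750802125527268766219975637223511286899524683424385974050765732991396934387591338881501360942451855519949262849817158782572002809661571184855361878251693911842958133566252592796680229602097032606638910165753132082415315887126394156877460574944811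1659494102388532811829719416222214613030188000659422159138779216232863506663391760146141617285320139112091921382998467448442300380424154422243133545108442605688628973081877981315543702220221732201988997562815933251993594338628001072187256641859788811894539388480228369736550824079435513499612316699380167657703947097469103594360113850059710831081160480127516120491867925540403227006279730013760625970493581555012486897749071389553414281204820160383844938391614092314915847755175454049932521425734424841610868981595574525763138685766482802398962544573481619970044744512965247606844979012174732412379400416669546893376724110348171197278326330881982786526660904376407236287724197607117264321501285676745211202072634384892240373107384751821466021101737297675622259734609791544732223526150474690166396397002783004083457473460820921548804243224129673778853130385752459125968353160213655817983396087632485134246778736741608246509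3301694550488121384683516826320232546855306120068310217454843330634691176975222534296280089866980836323140898115587304463061433844022524709329509532461903132676126516918521469658077579769450360822895718112815881964704764969400719839564051912130203895288262983634639638157082900229514945995216829941709597910897106636956361874664847547303578061570447309045601159971249824373252059319490976571530920148011140151435901903056105519706664274615111068310802235077122410724847957522827922709278687272508515775704232716156120279426391855174848944780814793105014652576085946251943025635405174896702360350417428663221795952693449796688738259809761633755163533850666875405681021170395751285008606006144556397968849304841715389417238110681749183219378494500194069719006350738673733573814651188564775925658037027300874125607752584936254940450479477203054494682546351775765198632487490102405490740649239981928438906019076094701336207558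2784582489454279903402971930197029676887462430172678496340978150716283311203761348079660021926586547601644839104068145337335702500505906900720805205161616172292764394514588229181316173667298637503449817100544737451710379487303525344481315037761524446981440247145364388442816107593146857710076785736734091953216996237766088573806259531642540516768482052624872777836828859083277621825622152056192095453243580206177334508898977727826790960875865470966378417541873821600156854793447938347774253804476722868145822139101254012640281473527672861727938940251810635997431697310434842644854255520499198052202894101859111403577623790554546063754399967448475892503249108221685320708345731508648272680964683747926126783240042481538162639425799849505393785388745844251750378632709605110518975900972177693568732511030224512842620531707754959284464909752112825113469938516205862116655301047539804542094485043607618740789328205469881866981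9492659503052796046536052738275880961577163334738209246699420784596923054859124027518015242612090606949131967179207197887760252693518865469189568654189377367284228750678408928540568503245635323967210234624714459600732476940405488790379401755018570507657897001814334706444039387782909306923890290387719603122134736250518149655676824505043237462180084380598326766369997221191327800530917080696843140673146602451726507186828500131703729888450854597387961577362591253126505211927054156051491165196990519797376505291683803618869688850543683842676126195391514477480182194996022722674137038230266012475591863653684995453238884817981153911521930390857640954962158347642423300647400032178761923303587258639271789230150557388524964773573137858230511681047574434525487171546604946668229132425521842996001996545354638220748699390312775594025432612390853274770051907458170235841491995775855914977389374840558039002359644426412939753989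0006256904841374524513530800367654996292211211331746092222984802883301170102357134361379682868710577668610568536998730427549711646267289667302864401056104824646578390229489543917447435481909987568328523998860245517822720662451294133944508584908312774609176981502692330369016070236072678830634202216813523735001274244741932823189164868998170136672859138440015174925705935962902855517721311030229313051235167560963519299970989805803442436827802989610896284609404100315097369638344265238814564983552766601370482011186499232579498492319734856688067352981694100524775894105098456273453030592702183335125391567281651964376480746332011534856734320775020440065474592627680636238507698801406231244581342273296538650441592916250430459843752831906420651187708538384009006673339392728144707635265056739985627125009930237210874651578241773804974452597435031038457076249610211128315514089828956418731834733061162565334769088885891811502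0414721727426275417042263763888203963758210408396880739339822855840381614651862322861799765984528473554365862631208142155982156437589454163541439543443312779763748483995151708099150239920852301028684389206349569709249893044177962929327484995987974439688545119205053955029161963211789163823404316578737977911386888543196645384969634282770526497950179858336612998252427116817966427326784498696020907391598139891091992616200318419418128010021395235035328330360119092808780026461430969080928037930409680324837056611707002290479923483578511049349292626541417390869858289143893636689685983337106417064927605576949568182408762975720719703895642394543232657449745336206044037717607974126417098974527980256145686585037253719978627163128741196619226091516961373388977926544146823518428207480683359654736974063401037374814391226078830134968683793410108572409549283720940536278445300530477012483860009501014662046378666051643301114335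01174659480608775754010305319462829137423773879099161129551726995638610481370316255456141685810309466711057479731544689229116343469919638625872591485100104032376257754280527208225573911258216412993543140336801332608657945146727141607363872274190629744552838172226568888295388029770632310000952207922059751219163396714043185469484021942831946651594741050539007698505412055798156521154665961309382950199485214622272830492045813608241822450625752248381461728935764489302648478822186722102022277501198104870281520646024188343174290301709073350805113481335695041202169666980396164710692591624405555187162435209212849940139828762757302756104302692818760576209370790881075537174435424765158521869481919189073396132650530069240420053612200739108600743018063155864953078121826539469959956878079385847191646663971692724490143286550288758666850637636600156351892890933667880439452225210505133117288428779973463066962520823721557445874085732836740532390033060866941573943787520)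

noncomputable def rc4 : Nat := (nat_lit 1518265436551453474910708781796419401722942540436539974040032498434536945168586578841091084091682684514245592162863916179102288831709701363671430042361456348129618915345688531139238818792826031923161330520255286078249343543509331433904736272154581404179474936608852259197799959691872268928050178946154962730839733317747959230170660073810457001052157825800127287459789892847233395914440824548227577570394365516661458696026600171433959751604191069423817258623527938924785797901019602256651688287636543414541174010327466504974986289719434519036277072759408338627891407712145317694940520977727151298162571197887753566150649078720543041272397702434145840536592456098536253743911308920176935378848726709106480901503337095858980515995185843572808564202729059892368667088887842362205908729416567840382697147572405030000714608029533685261238634148225766989617550001295884601972200209266934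1874722880967250741434996183442017999895665726689906061675135291255476207451079905418779970712736305121192301528239212323200605783603462212281047293917854565133511885444040945172154374126643284281484966875152120853728302958391211725796705430686166811921754220107615737348437363529347782420779553110420857712890758870492261656245893288429976539029150845438082163544829708103735353541159368187998690270465283181770417881453188149188007508831587638925461702643453846593495071536769056790739170730315514425693822636041669380085586938609926188976522981602870064344848708613561747789305280251146880590265587822279107583499671785912725582417065891979298003776123495692908560991283151508129967139409447541449724053844939337014535539540802512574819454525634127255508702073108006733183657999384630281047944012275071203561851259870675851296692134268961060026789543332732295290152724514705870854757338380379451915596226132894876282143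5469463423378258434327044087570074423049819662298549710881296174696762505286138328729701499929413634733178001954092084354291587055199673986838414450628223735813473937500530753342811714859734370576626413315986522162080284054428376596675586505238795781585033121111534646003116665303829529584683927837321205092899069870124780483586362441720070952828978903898159056235821177532481883538638313331052659140654422636227455912526369101621738715815361166038035805228252390180615608692394833554521862567364324059391130516175723195678694983445093145500704321035277754976522641375550025795095566474831006426852115664757127281722896835537550843704716051275618182381925922787629603102010879500622781252799728477499679018107397823469812568894809763028152517510428367168620257370299406264490388039798500626035484740817577386752462567948159946007631061772304872788721805708751958236797344000749082438370798585771021465258903477057781275417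1832484285213039091225794897196187629813059867757714096361144330027939231055305707159287687010510614908483056978104259357643186311125992441017126661318037803452585422382087199415222113332778091949144091342459134493397123442045383447627280585093100823632328590036845238733349379689664277086496720609686259975115334469767088149538432237203627191251892726588425749662863914079599909272806756722011468450515614541025345777786422625729037162810626578203726362215279710290576043460821388467340845279942966271392176900781868587363457767818925761437792509153345242806727276779317366075053727424652709417449299575989885371395700117513050137853674976516808441740128128253692568073030378752046595710026338479733126684446413775371145313549836270356875260392538931049923985925779489169590667155902055210095993128082341619197690968072214641407114673222625190125523575285369957478594159947485183738684874147189826865652797267224575159858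4798061319872811018073967343177377432878649799569066400338017385008764762894804168499056403801976753158379564066035126297442341879763457961355822065656857695660536971833825409335033189694467767674131910701254367772473946300952470968629709877050833381695528126735774070445398227522539396823366124261654855121757915640617611848188245049743681493005528577094124662382944141589046828121844309102934259557644400165038547498905550778367186035874838312007719985905114652732271353554464288724056844573006052006981001265144593068863942931686124099069292216322067433982251462743450768579932492454336712492204178577132556132184414660005932619295295974183135722592676886326346138226536112655485721262906217934532025108372582952868680159547337086112052158728714538080177492540802539405634890982510048504588926708136900345647922477475668630267094558709489767061477517426182852476559829490454082470514637306291299897573534179701873402933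9794766598742477836654644952194626742606357406931056499850553751925279383755687067034963371404454416637394476614242834017898893101707421096866763716816164036715910438263969377197787343179035892872042327802220545636399725778239386567637103526881841071817331006424772564046088297416396697470506619884820026097617264537088579821425009890923122334677606591799652629560569739813939516604385805035912196625149308746201616223062325619446463954453603641318095987907153484297785011342581612342661097691832931210595492553514532400408248098201211473721517055675763058306897972600213368792501812120894323634444842636387634978596951671790549662183961276931963579060897927834994652135880396998673905515951768593785549155250297498403021447761814125116754218402070985696499430995743239735478200539659462263362851556466532154590399724090533783182989553233620134500591787932633362444876680771995951950400654779376833444840907871258480079007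4647238921965207979393374837082565774690241031667071298291681000039219749659118695613829591653452336715265127732111734793030833902381710320131104784004920006816963290668874997609659567142610420589561974024039334862181678870709492949728316341617272240087289671986910163684820996895274196740959679182163203933204687130626038726004867161471330069637377442808963011955982043599782369297207205410047233944657583372296873122357967495845104246787587806064664978012214109429722643007952963023868243951401360041212028478672581816270744016001947784280703112903178386757751499211689136461985720262410716333477271296742094445096118697266105024166868381106202905048748231851840381830198166883949723352292496957587801462410457832687678995207420534761450693867590301399754971936409393558815001698033160639453108770404134681557977327381630102252789285528441516229455856995958695589625520250189696134648773867827945720937599216000263592046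9048786611723298786736858557005500294665507189367861899988339301128777195835261857684223715537069727506481410854258440169438670354939116997621972597645537955366946620899782720855295050300322875002099124294109091575827590041156760175626471569616491846043086355535781902390506230192914142300418611794359493259788781740787318415926789224764438832351219392986604301678235950188469637926864963954382224985592492387653074034645209609108502478399247207236213713236689693803016816365789240099519270865997151271030920230021086683110739493198791893361133369774419554608949994937315000234163146442896836745376648261062118818484853001583805050238141964425573986133682975579284901052100822343317442741316083602983844219553381606070838878031861275544158767826490228893888317354288580364610879331592453360906596784561996864557623883630966849155972575396571893516647532854260020746937106519565416091165907533528772893617785460213058255369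6634082209526321704227568218046514255898067569417424555059219402503083402323291424783602732223501439995556900059193326107479985135883295486002320216913161510677796863086131002858775337232981843062153139086705668233156975527717582351519388756438413310612389088849370784083286250869105860191656293803644720468963141624228640612541909751649978037180225360888195990653952045032695974887607847724719598488381957928986116302479013562832734498195961507785059075578149151345225709335127311637344065431514484631769711637341880971879634050892868650782770003839649923926575289116713472092340851552001352717978251586427221654704644477764814560438048746996867152315976024373673286972957753862229452072716012841543654341103055997046766445238330113989724190475903598758704681957361019803698234329013611418310237625257667514222757546831291748109182329847777863510425378404603089923432503158357726996029878885640554675948192538244940230434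9046095346958909409250993439301506319812326846745317270070524677550661442091866971768199933030260919381717780312150528264481405179790933065030300945025629748615986145260899903299280389884573793162572016898109630975052822179280321043145387326467954706990593222154559590605323799195153002107551352146686732179835651839387800468244408366546172987567949507987102306413520865723709654115826696291917357654748764699454685520161410899962966817227942152225452293563456835897027377774009807974110669428805040787755241369271022214145838250013581909388271152075638852075966371584421790987408517866937751911873209647312156244951144075060026724908060555631270067857482486137882337687537405011290492705024930019697525524480269880298299017079384845079826318398963790893079558058836183485964413848999635787808062283359779569504765930641544362919032892462623555917472417347615863508692711690060905354208277560084731220779746638731531007654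7399438903131098999391126755995204866562071333614321763818466679917651857375117605073331656101560954897359147944078995815907647194484616233788350442836435019015484976902825066076721316982935542699168413446129661902686619644579110085556328584524416938645668639815293612403408652035100296925379972798669499578560319524772702379245748596325285847095098863945912831612819542911669031295638288412364167923750401094228300661437552216033147250481587461168837902777960396922050091060224251235943059362793102124527256914057902138366120022753638775304598314079981745676380363164131148571709057427700262261014107359782950543016318498890994584579349617197833271196721353887487836552515652333262493152809461484827957525227818472361928419215390033284353953423283748056374036784920203001153190001285555591227179613757044596383768915781123590655961625650401420948850885652671828345640172890694781690981298958991568942800076228988523656117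3664670222345050490095922509164688467631345839106611077155235141123656916337140828575702786658742455057919408672396907159302690112408350238355283282803003300985584732627920730436160153310115274590026953912428353619984848553308639853541327054413431985467750337265239055680202421746773305864031168534831224164902993942217168350211597321664944797606915856249657498731735653856309698317724050760339276413887888023628707088306874249078562020314401148060787428051618878857325003305760613092311713963076889833739085493340124634154743990726278733194789301896224420254458073070531454114478006250079699194484623180979320777995352960518746694859091330554309141991718090117745500626551356930397846407666929220177980842209220016262712408571366160299202719236313227147410320838296901205359759218709837753628279896119331989999913071355875820384449236690491580425820524813920349404831553222475230743500564708475904792575296799515707876544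6905015473268815097884965766898644613793461410867056441477251257984011678812170469400071859590747987008874065893891706749404742265085434314697333255729145461509995280889022958220687706542086392083218358536427874930162314834300089704197870377720514263501110433432440465317316667645679151233816881644000720177404118942277165382092295009185579472717007569945289455447853064980791702524854428485546405816405740965726129602396888735244172664956271060656291756606596984467449796332278786146121535371587236772890511959484992377372415316456565880445315752577138198397994888809785873021018145032087779860778178271103948333977848345546947540170708921556159311867364108660192135607561848398177409840902308577795143806045811927239159892246904433956062454019777686228033746580524806764398423641137713654178314116101841619887642636275180965276948115276309695819331462757517144845162308688661362261526381988212432723905505476222731720059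3895903892836915069382468291619581941182204186955890939955757423915707601789893310047842626726879098711994919567744315676532680479281066370358250997137703930644680243045282934342221642838262435294483929469656016456354500167015680962410580111695940536136931413618964879236021611625677116374507348276673153413552114286486178292945030798181043189418022696816897406851849271717777405762053288508585209781856729843281019945453795467321353452747113063428736204935435338009343108266603776164879927726652287320276901629199031695685070627996479934315834848430308900900631268017119985015191867252939888569617209522408780976201538075422349580811515321123104544753017564759376742384189448940438888446779167104436183157607825538682456091451566631785175332798022652755709674169075346334564977530853430338128291631100657586039126816874676536629069611275368568238935061901577894043863442075456281281074506492394887729391328921367249591724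6678456016565723247245544847419607640196972185325719114486710080416610545012147257669585631072645471485634230771100677761130163288467429874187141744144189903764655870800696192180218020113827839055788827330466153603017790587843587434036207900717052567483727740317580821355150361809019897131699403687479008675678851873995709983727478468327008520911606500613782144267591121023465540380644623882478849795796262383645924348373852664096018072770871114667284240053870274757457398261008784434869905194372569680983792853804456393710130587277848888972569811240528458846442330784312536178607358648293147399514894502059773508697408788968204693316802333161923854375495627465917172378184343565418945765953943049892236129344875897381142046686659696771472943546317698009815818050799107980193178203744716946364028246479624287987524103636421273866322265608370185780548732519087831278160580242340850736746404227189213074268239532913754206080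93150272712358679144322772307358514142812696234850875013656308084729769858889952334175307439356117018961720537675947135982412974489496422349783658206673496706103909353394524025390272850868852526824470211012565764989706100951746283365878332932650593914825894393969427393600144493623979823825383960371446227709109990969796430786418624385386794973214089414118714991314434228285854400325637916387524423721125589835029790915385968448298069917580331967527626293482550372868357785378404309257607446783807313210560359220814504703564582417163170266971520663506413047326976676678903042799840664277088016593128530720910864659317180756392897768961259037363860012642655112977235486033255934388930322034858740165600875282860770094243369436513386243850225794339430119439069382306791492194221163303147074122193521508887583405496829097482161837820916175716731525590033269958641516981918403209374112304238106386203211535828446630457104903791731755576931574403033948265673324079611904)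

noncomputable def rc5 : Nat := (nat_lit 1531065650578284237812588186207876959353082684993804275449441298532386494414099323245288545536211971645300581072276886123384226886004681540588363436461941070875906273011255507965684300849514670882081071318730864189143835331540810620399277330736671476248347932806204585818500130780113718419233099666278731145966347899570245410709214374300509386675980224749757632054801224482387479250506024377760838324827059159380966447998821222453740328939311578483452573681549488598516562306858123631453534463698075902179870741115346809450176286757696859785971229641523773324989287188316450707944894600040308965375023478831855436630598237099581665223018872743399932846865435150887356911901512124681501517242182589441363953522604136497960135683353249532901625907406883714905912895764342977802120646295097475114736625728273492124651917731122266559869593864994965360444814656310720002842936777895628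6543941161196861075843734436303378524008304569824480004528892229503293903760346568870911596884365752323861414359893854964546533401452314329870620021206962817400883117712416859822097591913990910970204588269563997581907032802466402079709556552960862654471303925817093655043039670143226219110536148064923891720404602946364533384201021041206217641716893223962477142254914833318472774303509610149183464487854710283518717150402339609517641212110091685716755801397901725106691713388178317990881314509509792299041583648171268856685350597836225721913385874878499980870753523597955297562274698423446348776640658760778710137594152663346033359445710358323287678434063422503677171801440168411032521065613794471126180396973282775895506501346740762178757499691892666304315046333658422643368513935208297108098202492184075518754237186862201326394709440895552124049725156777722094359653577476161886511273826999042641307228207180847087784984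8624011901574124403614840268174427437205001886434272134409121048137711796696285260157521916689145478823810817777952219763954130728629263786840208665983569021171574485216027294051676714974193211490056832234457999719755514296896578114777749305865065737511661425818941584745932607228630880339094632102633110615557777637816235407143124346651160225142621735986796908875273732298941679215916991573448353305544965457587880344630358508028621283096459951493197401985132232524732625047099291355428343213582760618577507591116746129583278632366266799532659502686785701620128922002793519051042807998036065449593567573974732226732488563446497864203445704902799518086692730503833735957259444890676761137802949968632393193881939858815304495348772186178855288092352801658449852216761300387347532229379860397237398763918589269793842271422298305047040971749569485232456599939219687012636265814557138562109513227986056496397468757770638548742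3302222355896505366492760851476911217760643363086174625088519642829133165793274327875180586728897228057144241682500224199704023653867522851488251194298932520581264657735787366644507980525169759258053726837096660805060183146293877679961765290220791139030867288827375043605948140543285356304560323078344630976861071825546583469848940763096009346909378237785339622756489002002408695108297946721193529087254629247183986214299494557279440019890035760411464579577140620540327371936274322683253772610165951188592536580218852231612678281644406335867594203275891613325129668555692114259599764482287021939194589735141906005113624584912490820245917495803655443216534471763351303173573590616017976895632822521938422988976164300725233872341878396122466869630428811127970781962855140491533388994253432807998644109847749525502624598906375469393087517393574542529871933352895680461136886910712913522391681488431010651357719562721329587206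4690149452422936308040564382737354808768648878330098836798260557695770972803074884148429242172839516706923627563024420295364096198488079962417733858132569140003253740345896361911312730892208006390705754920735620960443656351004560263388730222485232319530263459419658761160665605770405960816263757302870486196481899653841158547582781933257055873816106808804353308078286472111690343441638197685709788190028564753597225171298089038850270234626186259476614573338018915915631948395246724217917167142467883925583882037640929711205834471306004122116564448685666208851535671459624997899076843195445460175936572730258502200374265093395646032748382992725297261370857722191203904618802742231392026248245290882853414355582151825245610915788624428698539744840582667004021306266201265576797754795218328817399409615653178529536404914856522987238868705296427149551848431459162204134631129202736477715002541187492805064940848991097464301657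0738556570651687506788536022336788852178842460569590285243759990745200176330285391086465274458231621216104999259737885612877767893598694274579295273857754393172247380336735226533417592522042556628547911127596164482000878110387485595844049152608289121405541042614409431109531978194943760788572555581790336391089304707224367714410728933231368209677750786695339617831537629894504029502947065336056887771472546308847943897947157104188006318978642150173949167574721310454628973374472723880224789211495184776813115584106599870056065348719934801332787264611742123717029977637486619037436659734725768006399713651350751101036515634883625111311658508979965560023725375444371325997862504401821426697163741163531129131144462046628764214208590178301141381493640930597699589365240031346590030688150855883566435973288661128417784887269399699775412807893371726461530160952703335990180047828275675528275615873048536488005604908248101706056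2532790888244897417936651939740012721414456817152111435319813330818147719590933082388303928770741086182867594866267461189825652494815851940109326803948676711368961591009770138878856929104391748902235843398252086763796199272150415456196090128814979933365512822016131819835132327614257189601631401828156422493878351443837425517547951790196508373076585418993281596167522474612560858863622997809869790612622546793041732075435346013530666867031878023153711064200367414067477056835155351296821780122623857388433209771154814455381554330331619135522250764128708298257415821366407117001687087510924541543589356644481382956076829430049683905250894909670422347052689139641716694134677328453011505199378325535512107899228744444245816618864327152688620950983476999839481604583708013125616606381219970270987572590285980917816008815212321678794936782852827854984910828952735490956145032188523164017401321864773124991866398563312924026093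3992299249831620490620143936168150780968557421288052061736737120820254642734480412522142943381105426151039891803199364628148670287488946467511865075066756156956519509323997460081236698418901949111847395627845169501567848627488949211029701413814632204446058601601330596268539298492773762234141440632738398334013122499810844413725357274203538811275734582985637811902809714959514564104295468105542730384440867361876660705964626548626434514991617265520846503345023208917832449260099093473915792168168746252484795532124495804542786122255120812412429880965331400548776089231859090927431244387599894515329081695424141365910471754692037449688995992103825998078581178034340233536067971187876074359100855915118222953956908939169725564715197209795841707236120393600727257826748584208723335336904341806311570072495963672095992741332324829631356403910065950663859785425717975368282581660994579967392730833690907185414672156250862745859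2005555487927009749765381280193524462278061022932187793283856433981708425925759326848039920816018341314199587832375759374230353958831163113987324811284208097211706778427309660451848475271447212553313834413225084890895632669409524804988181716251861463725769489833647946901514607717526181637225995654949475363188987451676389077894934772393528472347791818083222674060054928127363326367315876210129709441412750526808656804156283707286647097734680270352032346020551925488562737779097003641283374571721814963686808464063477695631985876505190227088783427222112679847085546011246063846498387785285030292212411676218258197266330612365135446659165762130576049758394189913337449516538407676607952048752002802898143763582821485930532579811943209182858009456577832222943361476227039833653705249516817772594852533484314904914622917260761335283063264512144456239776965186436578507183932411053998641642065139028230715211243032019816589449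4428152787012847121907786563985004921342082160338610809751627113083238498603010553396307905027050757492317424140290939298364384690298755410593947165403840068716750784582224858058357144779866936089110439667745461907653257773977247862386428187505420139268296597871406654748021441696918779553474442554609267729313287457142625405666496029621821180295645366536646097857398877093350746753500278725688836482018888971921680513952974835948921538362939744685750788602833106338287743800465798803971570979100383895364488015401058118175150994936210596244807331799747122671392239315209798418694647872391721027132110544087047415106098612368912297830728556325051052719825757425142519565501608056702156644506635223590319888561130117513326426776485483363533875708714211534152091808367421139500229849816496717825591691842509252161498538454709143574820976000995540853767770934528982416212914350518796846166767436387895438504157888769241838641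3002917186638370474377638038081550136936106916914328719633789513797743630278309791540661952106263174148080109244694917479997269003556706816323046050389150798731161963613117462634461348887986691185849184977291066511185310947873181637572864185057354154699442731631005160084665684665986051009667500936309343967388210897771234682579708379800786650981539433203852306081453159140716095226543979904142867535679449370607798784364355004011053462263327209029684063455589114028335881299932046493683964765614060361214804036787552423695185832897349762915530512049623918632548059821856686797180704135559384014881870699633532945302909404064263807080312025750737496949681897294536014209306436007482697965692860087693167990797050915603223521560993786176381671354102112340119634382429185789528680505512950706887881146734153359154563994821899246746288569849163313703583193943020371622723895984195375462700458429479595258637483995037258203769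9177330749418013799799299971233919299285329532144462103447448234116433531093619257386410516670068472554289343176270744584531395998101747163560882377021033073608094787699371968458983256143154580100560460935275820836670821665915323585290244354705453338704671676104612119950265587723612609601243099406755031167832307347236297181804785501938037924293008749569275734875964295194366375301013977567816813877605527772303142934815516094891323974289706670838705864526762228870752807172853772912665143161790233154046674241281195069634638542308081366692638809415380131228194961110929608664846865863720071486950734058557265561059483256044900086423995613200995065793923190361091136021885681790565828112647572058746845120076937692671952154428079709444322662150760021469842982594434178624814583599159860643552325803485016450604089837561931959358475468662051994048994354691012469960531161304351306550810348351513372523638443814639877357248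0359610413685351214938505525829292460760535710277302352953264520368578469798109261448721869567812489938438388167633571537258946820314658568684798364334089355283312909443530558020390787029617299155135483242389997751516475332969794781840447278652388700566937933731155787457954554770318881868262461114732092768370586468982714281998927572174042946785018015203149574026470399788190279939331266716267627873727747705778399823813438587993604093231583685968302671516522442964246075415879072439116794489417847682271272308574829468249368950709521213189786460416767707902603067497726816155278274430048087282451692005764878252529371643041068587385539165180009179126206783384542986508785747486921861218411032743738666460905337523720590698281702210473334181557190819302471186056698850491649766265647179629325262657303720319200127932245278958700680140261113471271293909063492019436313301085836579159368902166609159476278116589622860662999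1564976367161594243420048949351157933060392577153243649623588888008814015525025927464628561988333231959965181544921853200163177394444021850244622604156310419403382949583574582125409525643513352373999588797992657564954428570279627518625109414342985289849489009559423550523696150231020789052519016062071471266008484173118977411705518743583994188924104412791464522755412055740843559751596097382784160853985162116996397526934347359444622112322814868879583155806944805504118083261847997160456920109526881480704225756119272986437570537297083348968283061988904267490202985164205007820506454208534002850182445054434574641385073635495243878119441963307697970669177821814753552431861400847189373054338652639202308410476908013981263138355307188882833057664606127310193437582872175537251874078362006251718083296794584717296423779066520581725300915677146782420459970687183850405791439576621122073447495230875931250265818638707471572248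5478125579693455176268832579131772797388867954315789212121247644463020870025063580899937781538842962654563941534305887107766352024788930375411139275864629339074300375416315371550304515583834073309299451402700856588124417831226459458451921297662060819898384945007067537347953178153314428737200290509665409493966346809343922915565946132387763225861167621241924205322814683637703240101458391209356731419354419818268946950852401928763062013855241208260916837932186361717867392190565297767597818268618585644645714595563817281016292817375067502221513440200586289451546612307517985531966152709808257998553580320596115821490673393128011747884148613803442151379881048952362582534116722713284295683832649609612504812326092268706877745785822991867356060726027066789106157840205373300136777992226498595985786864193605484127247185269931066502827595323401715568130878431902062629361365457903545950614624870445206884348390470349080655061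48904109626251924257497709182346512048810300862395121341591075141854781055689126064233419768890800072983970959779657060994308049515832928127993464820388162139316362966917288331304482873660395295087747274028147980441308680123885304073107323117708112721500672172298364693539617897336277627417505626215788714029734909183223548728346529115585042166565688022529977410429055305636173043930979406669275778922241145213850314108094230217042304680754056941410990617447826945566481047086924282501669436061872218553481760185156563435473866649215952642425037937175026192452982959708841647824992630523250292618022818503240718531351527488799935879726197048059421883851731099389719713814463221195533083643850826948790340898605943358249692888691063264515167523275894309599194813784658363189549659787254894578013630759257485603381961788919348671391363873660330459800406829554809559518268112234237469804794566015188156184535360728878560925081077421458095194604570577537217054610817024)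

noncomputable def rc6 : Nat := (nat_lit 1543654863708392627725295223127579136434184571706451700651177532658300428010755032902837669245729121948432769954435307747644372655756169650563116595630545368386407942303341413981690966091886159070044229128378042946101623871319247132784179975842312494239711385243381306182685456070103417701559657537857929310007220921416904194668262148418663549489560752768581416584333850169249176494276136074572871374750886368417223750959212771341981374437903573789496104729698110127401556850826690312405927313992689996703443076144332443879156744816441127759107817259332891566322051076774361610010074496189911686051020063787023287306453148061033965866157772440612302203287736866749030023880186829317555092444380175725445298616637122793772874171085474932692194309441649642757662389122972917141363485366755815720232191809998841945143518340652339005732264322410074638521505947145995077429995332804007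1793931743811645764644414951818884285725573908719785398184542752826154118016443307695050560614362053492028754335587541463741508203342413521054579059776996226780956077141563645156768900064386916078009480520838191588111501105394799110454635062273346333773470683629474875095450594861206395201264164322139067059108749576861153610630295585037973565317856302637535272227784022864946318981594674341898561127903281689535967181392529430916963919059293849018883277128968735379953975027133799854103214556353662631322288154707821350837473125948238531743244353839828631162997335364394087415790994536869844815637486422023413248948159693094958059222481115001684068141143467549368888675801623032124398620699436572787877038684911849662302859414014145174481214695473944857696036453094383049189540844462795240801729147701080111025249302762433340869799370070139057570531514928996793006458361868886281967354468492991387802351011788863326442157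6095791700607763697037376005104743541013002744876515203385207017891611050180348165868291618984359555195574582502287919740500765631961225342959661509021433227941856191068540288345617021241884007642015543681890805193403677517582882765965773390245141214450705172663738177068501130612739538845141955853547797365650737713971076308006817723299631105106681036914771132196633450999415028885280374821508136983345400325511151611518759649657073271389771998211709269511816568680512782094553683380433885078730231908243697524073564716237880563516517795391832345692128964075712450120510556433955570624400614115670624652106334918833312828573995693803747946124610508793459475473888408802410727437634647907925812829781500558315079180554588079945754999380388452394667336819494511531367539573022208331343986859387958165401708641387293930912059341187252980853608561141401066952510544782718077000241974782552761355360884312370890048770656389351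6397068164299204192447406169638676246414097061289074064812295082368494057061559815948099615702850814375745294926343963037022353181282101411229117148578277159032715352929005928250275207527188495571522148092419618822628577666404363616651906036408045334975156028659488256030763753448366481022019242723328722182964936285170560633621646290981418847686951001334108888855763805111399245041491048980613948616001394342789567503728259849126414830338443452111537777819024667033796691775737033603148862151930870191750126588008190883113028492911967560488841578625257196562883183999588916871957046556917889733129017264927940885980304339240139873560080275738746512911336748025954477522845058235494067485649798729455701430519721661980608836575152956735315157909774148110483002076265077000957768645799670998493206655896960245385610244119717531671558406505315600466933419381050996266373752736963103342032043493622600341471081705612052193107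2830290693042106156626405512952747014740845662482197814428296155487486975156875098876928227136198027241421533420157655055239886015226014765121374688404067977471286843310858580490355257973401703303102944769206939327570324116845315228424891530469345310982529595994560623924550419811203024453419755526329246289058898353386535907902430845918996872241673055560869822468322638651257935164030159496057553056203872516918113675657954269667265786380040778148829651736575370529117493848423980227900945499685729796948870972412344994863684699321450567960563589232620807526849544493191775249436449153709657487590142597795355966954096695752781785831527016578427786881980942514625940241278350136943431441117646220148645987279417355273765792571632706514995710587758760902343831294233001998464545216863008636108562303203167340611960449337983036162686982153843936747913534928992102430884489169636355168980488529184354218858167993559913725856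9043058756857598213775284599975980414020419403161480683740806691495375209165180899906752244517300345186003501976996599086799783658316850895539647765203716298493165562493535904276417735360890991601610253695102349306336544246374475958329178868993900194521394006508074822751474413147548796775338034965232751360037255719680128980498057327829506971641775216266429452937414222111494309052574009402534186941774524008268544225233652470811667372425413701116794412390700584024066858945642295610888204556429178249025651400439036427225293704170211345884989762861749876417688499300774039086705077107747547207576881709998313150643715300164451198593079096123765164438574841846855984826189364487896386554172436345340256715116889826070580052101327610649756872150411897196533310075387988093600601934163402558644516066072186733400552514943204255221601981819262781062250127213248253474138735993315887679087849784739885253065648960726187455458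4950018795806043197602636605867523460087042696886041128418908211412570721481706294126009843667341857833514963006923490137396679194378937035129833360162563259660686401563078668277261843360333755568105570560666041787314863679449119829186012175204058047385620221893228401217460357521345579669047511980890817823125403527048289276086410929058170714190965296376734167963629113735641054738549041005935361913777528235644093021753289712384715787819733143590640738644609111890410097851926730751383278746239673099967811879241562151933703458830323077950737136479855395197669148185597950299142913387268674564170818386388849504500672206888581649725212460199846448635893867822275037590125706406564697685330794954205391843165132430059736675835157882153345599113843905538367471613475908173845082927248316258709733959328901293300076942694156270999217352899840130952165365924964418770830708991250969007511027150360940485758302297207459056106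1724802086975270140689971906957640289854134450015445882048033415308516592910911204886431244928830870671391317446549597577645961137602933178130245260269126698528484730526812143469402274272374600006932010085745558304483278465435998657267724961576257673535077831449946911766639748475449390432377354349745801153575541909099290968646778855859923314751433084223797866489329373395112007773498035250272474821095912777104105856824523817250981297274917030279986633216779321949022716663022123016258931141457825370371231891468583218051038161648017576451949881717588247776680727092611889841769546710725414457163681988450362774728458411713753939977564192208788246808704822387810388826924753177291059353988380446460916449848660056589125458474586441884170474486262015252906201924166083211605287819804238278512571278024944039366491357441474443367079127265969235826579974899082382532048149844059593924720753835097793804505204699260726536705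6808062293138635752924632792689263859136013395128084715297956941314246124350081511577713268603598410895268372558819065048856291285685684125289332329920785315659513885403946276774908283072950158041808578022312871868496467562310196485092917144111074160661370086128190140519428671911743269617363390819173553688317163171474832020084415871872576745599402011825374704963651990626760358881371324981824144292634939786275720763793459456749207663463780904340620352976535820365488437823717262798272583946921276978444896775667376792450872437769099783930777238543432049857451052647237707364937398824779518570075592119459809458319256523439790786028954914462190270267148658031789941747358483381868316131976965178824578566922616576569284647737469785307365557911498430601758812376034404749117814604483946387903937372611027407067756523900743389245940891829618289512832741607493529702961926430431800047648362403726615248574345670479889503872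8310793708596814064994076390279100145189485204695173991489095530721931094241778601452551414280121637805147092577823269295224367703011000068233067253636863317745747260630298065398812721544194353018216476494116287927914679832143567446503493003293499677243265905547026302540629639334842857125688359114305649573270892165460736909299055604757944664484846837415912213634753169172953706361501770768640275814510192800252034368417081496694153395017033513214655935523605947733458193991492299285091598028954305985958117113580358553660297794679201738829735959322923674306939167949829013507282182173526398151593377085283926645997204677961356547947561427205347978569863881513239514494277784191854335460442404848655257762744945861307105188392040874227224537238994090291182334394606312171581344442088891506449835948474125499696179821295896458605938107262022241078813579097952439489147669302029018211850073322947497403005472950530026521026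2257506073442211192052805319846537410777683199857133457894559257225578094937935183169445497746062723640230827290705313013871627342943659714375489253542905502946104656382938011143267039818224967856914252362584356917032287296184612259433374071813042429019955703627273062807970479862188402596097205250088434012207151139702579850978675220817922543939130923602627173486354017047601218429052436041384787679814915510061871694687689254288558195638210342343815399517774784147935996412202633560079915260773561011670354837627270906669359205978630025494696218508063200744786184656593023591369342841758421152355119138714695678158202254313026542507377635002826389127400593454449353552823027910514304680883580010424332474816963976287599671404252309353273768043586533857132222286925847360523703727887633089906684356083425465601717836790217426210817323537820733093803259352637021680378218551479916395899043876362417377864544478097486544042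6933895927652962620109748461883316551906219099223053304262068133110082587524563746246591300589042564606287063651508401028414781983546589428218559619236891626178142206140461731307217109615568832683421331406226021700499372637769477253126489268771622940675213303584296236882429909087805518775784626478958884943184012872406886150508716086435512811546189582061326550073209680639573180884695354328004404140651787928586658388179028750635889873085382511115400751272763032682762490270810300072428155366406305670702232248940935230707272500539226490805435012160429789562124729117357328795978756630257445259503939702404990017616560337702564091976224022289486929482138302324488911215966433933573960762077257665954911117597949476530735732199984201554920155889840271249338147941157170709071684682986662035822187141383388370377415776591198646921674907962901665371708746720388206642096546153752426312285716686267961177970932117374974300254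4795047606131671771387736124292913296642575166195151576284672678251778301551117671553970341958100129353926408919428057712192133017399139269576272331518322391011752931639452858787275343546218027166980413511709793726931334247806612246691553469174115361309027731120605173745167673970737213526832306774008792045020307649618248990676974076977181083883568601121000928124290529173011224790362881769785994411029685446064873023725736620339749785868436485792961305019430237622164244786313448035402290737187666662783202305103307102596759957232831664583213631135076801733558110131072511585752099938247135523823547679451354558750625174121608137136943447743476980512252759271937050704674440056719760318989454894267096656515561731833854039612776051945824265343983737908150314446582225941338592304078472843392206942824307317905866282942962711261162602858921345099658506781836636313832092660377004768102557564492190235524727656334051748818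0248666375433365014405259651780140959486776827922955919387462233007149990142772562689144853611499809193688776084344189834044805620457378636202320706778616221495810632832388724423189120414276992289261038617821806345292049624552489197548961716461005874150071561711015854073081344554972948395663652423772247943775577780495917320271707541347371333773814923454365403136679522645945245622445717997252354407838931326392202005609875303475103027581796954690774145192584543157223798639451439390614005919986246370197892626537946074896146973192156659876538845718086569766167063928190911992835722320106292688559117357471866665235162720057008074961669588137282336115298297781404608692981113852012514292305469700485927846029900950068986603456478936143246975107881328609091698534203990551932002069477045979440896237203190718084387923942365633996044715714673258559664993538337321737666635920995392335249031472851767966909044741201457455214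0215558608356615763055360252561912734358998985303398859048576727145483136292774040275738134347513191685614187464541277991824356652352612602052411444467115342732157364727049015263115172941196333478376990901463121154899568244236923247586387119173807985190354901119426088223489502728197786748365694751197509413194265428270506099324059343968700591485002841873059512917616445150474188165317022102488567240473380525860578568873012089087015704428144829427760271398569334832748003614086701560809353315660896942235290282182449593673015433247797326846113084529469568093760784805975878648665218072104201960886386840399138178123781986836024255683125692448449691930243335723443335016031084729161720203152732150978036656955450729244543205332455161966064613195604695074602378146081900976271053894335270019999646781952457422345442820065676404306925787873159933587662605541805579620118337540992690415237073541601609785100725470153892808625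27349777724684398471681300219715617191267238753252787095332837964599936876589348106532308065054892162455419664386743542330530445065518707574870263454709254195074732464397126450931361697034373200735909463768998560006842229168096583885807287094313981709526647275928970588405448820211787931225724629449235258425003049672036693232150411774887490863289260910823186972065013985909424923601639671848879376769691895701866681409571645162349654846484843365363166742481179487392477121404982397560992983645476126205900208552199834913559113606721927295297656373813978620516294940405323870566306297000631739398286279192785206124593808791598279556539151877685837761865236836643256526674862444610588981761800660763066973480185900248209738966750032092899470407441185557322997358317769702769806794194020048398782732426926967570561390704927030199963476646195190984969348614019706137384057798740261127119429950997303847875694282882695700886439649105760731693858420288749143795341197312)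

noncomputable def rc7 : Nat := (nat_lit 1556024903568669579563057751737620728739583853395754705099049697176250105191590750313033582640355407209549501070480405780724865369473966563199014212682094655019636218721241848229554046578359292329991026047019981458760572645078937213356603957450776822958697053607972832809494047596436789086510592656912513127197501580310908029682977379861106336852023935525147418832784937424901824034962153923229627726540935042733218287263273021751618625940968971213248897190650855304623901989017794988914892883119798594100821074915984207447009672539815011655041804096103373446698102183002655249285743229452220156789782128509603256676452309780016586586881328965100163023878657309531597402113051290124039732307815982000992797867394717894931889165384502771766372223275862272683979052661588354805984827138675052846544692717486223659260352211208241223560025001718004918839802699788344977936936460926808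0455758087964793154346530379584557255595375640568624660447247025072442240893965696540684933917408386739406902930624937507507478153960612920749050607591001018253324963160719613205520714027885574956433698283449747208254585179479450447245427699703549601100625102047474266748353478829597605156067131735044394465833342348018197360009525598884695473220333479753578262875926759976074603001958254048363185467149625157343837023899230763012229534935962514966640768147152781025914697025249707464322412385148617380856255939730535093380114021725713129716161577867336468566070865860586440157574023071779964927990695582935310306933559230063849131613300682930302005776390076337061915490213824392798242426160451138300764106532788705278528689425690364223510095546176765229288628914038917687557844690533459760137784340381849164387230278134811170538283776364545482688481501542273107101397100906076462658317739150674377560365640472170486332151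5972213843422982833483258776366600060037432021407213868780041878561240797027984354720840678924688152475632834940111923582340619096191379600412387236760905818113912127899993720327996378264665674422536401717158994212048754756730245069340802566528607435534228867761078842422950769479018032402531052283475136785869935195897646319334131492284263649777556378949429120156715425391601320212391774520245826251182525960113849553011389358287289454382542407763616481108689457161002016497345654873856226378122509252711672926754040840183633060500863652861314177793904953198384979566373727744655953760818412875193405553288147298339346636670154912509255432374228770822202688440786575691201337806648135611091364160296588647236629093241939891957880522834224042918151044724734661185852243031761258120724990707590901585657373406382034044147467625393382766821908141809925556510860721815623480129925902952209317978669488000796282924794301984746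0390052280377860851560773377162625707527367368355304003978219688279810895933053990565370925091694216596885555203656573238384466452880822669791932872224174982766604668316916421416806141572857065537949705451114051161819609686937607325689806869681718421324980064064189487710104885987360964875963278028994631434523056098486342596286116928845188200909137501743784270965821035576884853384982949759294512686835994025413860234435765163721387671198459640798322891124403769487188713877350817444353559647086275374932644046164392854306820195754526161598866635990059327381298236996765628542645529196988996588845605678736649853014432509849254820241919625222976242729706332198048875121912320548663618693490955123192780587422404366591499320454399004990512571256354913990875557847156470707608100729773191563627305865280100934110596275246865676440770746394160619962891080173607095079774330329814774362449303936180712207514457129212551095416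3715685366497077524542191714980415921060763622821365571116556004963798701167930448779633119559725009965048347483800277487889879830538490509958298547958773285367134346609586403314063341133221217978135358821604000949288840091399169447670303368412243370889366707040515951486830883930138025325096016276679954353697325463868571656041227748955191385544869179078126382199323423700857128865286259577118669957811199411647344073133682903531963561311736905888192984231225988709809600092190745675804414287418040749218120912662911325007962794019559850675142988479155360697483202829475254330387583998768334555337289792050520728257081860641765896310747763121823480772619074461103661226215171855825356247665273634914115569744815957744428182559125486180134342213422490198290685595392392680704039856575193813057000234689864227351883697537820910564141437597359690917222805207729540757190769682918908153411987983962058650932580433382544786252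9042530148217645359750539161202004292378288804213377026697953671971607460898075009616817234880069743536991885929628523295434967101388076172894343428828079881812026716513867411315929341815048841839258262087722156824030486529798847541297532903518324679007198656673214098836830831697264024472553881405490878593884487356347823569421391018188138681962593703473472382513380551616372035390250131483968025062229913141066848139041188170829074984774904692048813170573635494923764931515756252522957845722414101826869670896179463938688029348949175167769542257783654795529426487616241673258208274955695329941476323735489601334260908175390616430815541933717321439583424730898700180131624637259148737373423479854022842246026670677210189532023719336014112922367491471578004647954292438294174459145418685785943487922940404540165974538542703199678933282649757403657618143041365002757733733299552757057480805493856149811044466644504220685032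2534642814712531604791599268424596940057887640558368717433146199675819605210375712639210047042540691172966983913523131248651180283309933991842103035326367430995252940305556698897555382255594591826203552127971174758727247014742761092195444755884851920913918620356057277705327614311781209766824109378888237371339657255291198047563663825228645576910424535613847827590031361700638222668347837553567691599797123724793119897914548486533968773892966451640742964275116671817661724413512315133987777688677864326269226646936856559525359841172763078870271381168484718780787844405067845631509077015162752592135276332560987924029535509533843361159752049328975981441202165182344899143233451178452269276211023320443164038914788062195111183352359098732363739175862539176879275760597335246950173183051514949646337438109178380567662321220054639957110182346157615480864678339770678580839369582667102587829354366834913878176961812681550349425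7180482097326001248972508042321830495868244150926971031892108995147716021547436082652096600342831936201831010875722845607698247049092791462808598230800337519045115585623025901072236620702115684662609609377061505941299297189891468301415585378117931045986204494311802826502665895046951581249513307721699096285382335695159699053983622442682095297900001207651101432448471738151470132434323978934737462499835656736313390325341923521866693634199681194900527373075215585559439735844890713629532566013175736194484146795928938383998999991463191645289980652939102570721167024561858382326891796105436308078962058512613107083690656935750022266763331443548074611627385912171283102469948589557543738804647500514591708942088617059787203123859187149331139007982756209366762373799128345111461937751274485690291881325445511688128722841347984068427633333141619197853838159640644439892961373291071204466031071113716376218399754347933478881021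6837897860586046928402475513417748132234620822487172166435594099822416900051169612359881294417750452778835381157673308385150402795683427772673865006768069540649071858562446521548925609967960442240096650462213207032933316966131080236171102489956716308354661234884197700641117633879696287784215263481813312138930505849038575356330175503418959597579079456056739878550650556119125316238825215131280519197335595092414815277706214015255326325943608620055019789722290502184959754084851051052250079070159065505953038777741564064551483890124961446817577566211148396977928775993376856004079195802860187672232010011767364558967847790325187551585199162167189210279173220859834083872135425119817610630185521064002735718022318479611156225863528539184409713474038231932416847567275586702801625289828025295754860140180524732022596543316646315559653139695091066288185725755992854045968696242828048117091204162495957191817558277248174499015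8082720964437651149154670087033706868713940857946976794758612536016247811081336424179331932846275521493782429623457304518870088971798579742089074901321132210055515658911057170003936080600468640672937029498856999534469875682472727410039524905573185667277069502517090284919699833517610550413897091943750238411630657493831859498610433137615628269227259749725106353784575739130406207311549857710022796782791832388883080067884255133286233228548957965857478065456456633134062688380648511763312619268332029518600466481101252339502773159210257941832468943494555822234120399945181227927129067629116972579216822077716845019460370038376299247142062748045589463835253616932592793885167545724508695540936049690197758356844926706389255972948177771959103152799375890472732027742325894492648617864035251810750840479252984901857490240322299225454743646270223761345192583620759717490433604118954351302800675454415718319863390534363294642548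1244772765474138738281247169648012650997630549564581058180054333861209099279993757874188296431707691271986231512995024610882757140543649686023167467668313591037352791601731040330852741212938160535816388581163382395513078872780366688626997514818713839887201829719436068514720661188563910854199213231443995659194523296941616671025110832666158961178622720648049560933321874527718254651863670158210770850662237547089128272102258659400797718562103837664528521463818426361109972753920056832218825472738309291576161637187646435713961674885216346568804924926326505980918416410738515710303839741438498830891991104437282302807808709496770759489667241728445391761102095045500316600751884517732130730461756687736605732009809880468298990005270756957599574493145314860457351268728496645980458327240171113437731386719880348298832743690743931839390945130122033954012128074283575453032310591030911668702189935409814908842405276106350244744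6026818281789387951870615286080333460551359267941497585599984398893220256719869147994676033789845711363550444073889183897208092958012966787457581051759502962215272611403214166233865337217230929501543177624255488932954783010515827986679004746523208550326806865338207675519680550767882429107462044410682060252436008579313282815152288009675316243518746482440916924639318479711599853982495192088844699643392410253249820678339977571365565187697092736148919801641491448382447638945433599604791870444252510919098452460134179690438179200935476168215573415308335669700449195966379729804851829228127897930351720096962873680395983364977846515160176261713885163826896414834067608063609638847679252551119393428918072095943570244545071283669107325278139317935347876372376228543432318187228391676541487425454153726947090589009466856545341551068353426044505550397624914454109451812672994413930403092855420946879027502764170843197322310808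5213431682875317680508295749655293947214297407979179074510987664324702096117900025893375408212141474080658217128738327070556337303805309411154266744195898679108738645730634986831524391793310136873296276206733928630413278332581332190615386987063149124159467232788251668999756057859654910364724515557842206780767804208616624173172071714337061192263797676951455387560779670790864044563956671224249457436756030656987908521210144506695127102480049854665606856655090170143328560408130498834469781040041380921741186349610445279135994829349690510343491633467051357866635635677313442237257266035417309983032203235456519261711130050154296405645956741373931312345958786499523795008959773828042813411580632893905060762277705283076554298270153244248109068774125624105617033717135503287078530764521901855881070934282596891892545311576718494278808531917073668520660862371523430482299265906494840500790225302454631599321619872589585752583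0927121723274693861295562172057227223253999823486466390810450401250394463215325052158328830193696753339184742196242389864926810113369116113187458020375757760693933385233047621520494807553786938613276534628617639351102263584996488547945597145411583429177045071067490812832655236602066836290594878895021336187239861294092760982083653588822832509554737161871402770132470356115265779326740212504058172993750812773205394988336367898311752228795136076154587004171894127975668719182233110339559000373287739732229345829167324689608479115792829567727421301043439079144621927704327084528961634728076914279491182887486210184185011169084372063701400034539336417402969036300049561192695559076667881371948763119950826971403008321242608694862521768078282046364938504756523189441864655242530336044703755683732744635782098806599134032034716118705484062744789463111138348260868608806386657636237452388086685428367865619240709683677523636873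4963503907083422925799792068718777620191074023049324213967190521649903150244047704856075617010016272369260986349600973222268716340944759531757463135756836230825471061142765286851758840852300968892235343825673940652285861790794995420535282718370264434626743579707373953027873058109284805735193325913408828231034016941372806790814259089371417299587659226200265658125905339973712333892449396857576343746852724441940170245763930179716182781992783320804782549355291496027547073486784905323425249042480388195460662320012945349829333312836546666242338890953299533941069346343152452578690372350690518945222712313476382833581145860294674864808837798584972244539700107437702558446861785388489061930074601489292606662156489694749191606174503701950825873544211178185761730752574460112124110180713258286736333444676369308379887484596877514676805601000554499576979825947916338313081220390984349331490713445971087237790141873034547899316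68530759522046552247124962813699296777241120037097384355047606506154690841480159309947205644370902803334986459651459626237182894270778227152634396345274655898547606757063735619894705773092111763841050597946553018295416367031932343778442072492147898166919653822821870282467496858905896412764830813984240878158966671779679222182999599912537246549376306579866400836062479356175107406296882752518711759659393902010790651008636923789906373190121335600481971164160398546149880066662535876819663362858193797083950449894074871311338754186145279528544556811157801105236779267347192757031294752789651305388739344590226629251948592245428537763215505990974274100870996101072203130637271012439947609788459344501589035051832410326594376651940695792881274673219766080338880512414712095702479228578970601172091167791390901079134728226552931891100118884579853074544968647365728642435383253606035610800383659639468226132163189179653490238708083520673736718374158516936648689713152000)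

noncomputable def rc8 : Nat := (nat_lit 1568169341735899384131381893733340586790553131759007770439632169296183176721196374084420753162762713852696393232197579649108308842159185660022806942689576890995110119466442242876529284801295934773510632978029922957951080116925580374916075709517974852935072611799166115884462348204828671331445971671559371500745083825016333303220904944733864953471719483517354729965837222520088458106732161197256917246705406636724102512207444243732542251442302513673189546989439063159933974756403814782013342846607304864223715662079188498714738034172952999521996702910228159407124415702490403882283031928362033918078082517348410352421142241903589281439982754895119367139136333316820176407571309359452801897383402689411256401730100995025167976726570811805476752467179687063907729152852900790838692719671877323854297575083685844398927070190928124793631181881653852159207643917021442817361806300289783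7889102421596626942575296781371792655750273899530878309969175896390621893472928556443376692214262221633308120430565504728066371122033869105839794151731523207746456462962916431936873481521345233304308753909138848077987221466725521798901337064372517402930206055605079736685346169257597247000000727790917744922917105533239136778435930541331684097840658172094508091688326801893744355569830311151179113028581095799888287973622306677324993665207596398046009589904551643775890572983064874632473938928487667849494054141937003522233032340802362682804600998962159735449767640854407923312622721713821080595111434655445105850121364190230078306673050608470030657974793491045928106264943563439288628174203188917161605210265729969520836627612854618711889640096874232526680829979074955575133673567541967412991437994645018154696632305208313155973237430161204376360344074370141947517829133239098799493167014168627266140246838001816215311879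9200000794669954575543770573404986166225030257725226338448512190639373937481106660668788071265941666969339340159150325453950067698649378605317577145523540345682294757420406172418487215706005182996999521122073491326178091856140015134652754776635328860627315490348196054428781118301275749455625540251722422686733525062447488933448671646944379910778750245972809574503788539388958671548376418608763276451338702155457295463575175082299885100310954522751257239958804976633945515120297252846600988935458799842917156320538623126799108388146417283322809353533709650527587530485894083163896290002512327124572006175369297559674856159999227974328383793545721381055034581346601888628093312326916879136514218460635944237288582092360469095220980169528304534820552740139432891560037700101596364760173539938578171553452178561895291245238335926445451859445993896441924199094216445038364946162797015625266529216256334544446542035121276637802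0903555579568739920380393216406551266196228482483232440750782553249969200249952183738644315707778638354912848905165935976179720177104792029565364971472498190788042202302852797224986225307853778945781404962926057458031225449113882706031651397333522454251639955571088570619025272202998341629996516824798188142173977914262975866330070007536132743204513730444476192357489410242405149095125464179736863681973872798249461716450703617179655696720046082691687502032644788995565957307228643202441959356597569967113932604607613068891681143416286958157032328045876266369961917935919206541434151443537601796527074740494542124617606153638026254931156261482256715434443057153605713303081427140447214292576483327420475412712404784445064510795778079477309602881273487399870445564609729469067293609688467246521452242473931563463564263817560813518528386615859514998996719595002237579821170077547581698259332666291488602474414980402003938593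0413191696459022282123677471800691433064290507686320721115411096147195709306955860411777199482827876696134187181578468778884810656066250983772944057591688562553536120871741607150780518594714535094280989506290080838988810051734448439617499243380769439335195892909278450810774771891983092532191513235593561806679546499604763483257664525546126490974610242883078162906141868928453820242722452674439059069340120634943250660610299770629573572111173352559565783337837864461654163145945981119403995962781833814693509527840840604448798062032024455841024747680865149347644619854773624410073378194546154158667187811869858057526081542855531743821719637656854658616684968160425573282106713138516930577226534879241638844124264086475081853639374787278981097542627210065792086871613980133370876375006833944475379690222577167277557647664298902193934739900874799249683227827919844822843797458937606057759511333960630328122833243564967889052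9966875899341159675439113304821819499507351608042699405037802730205069382115412006374573645436538372835284804909423041914336440569598994327487466148763115755479947577607302919758958521573274896152940355392375493192386763406478855917370989950188808242663958008060299088516325807362846602732745531750456783994487728712450198913847706034663564360326462278637492523480691685173445687870462433538934966261230466801668309694285307510922410291283230591709622118872122964406774033892831563094944667321906714877062223228072058616997829354696841507688527341949163864846274407883213132602070373858517035489361671316959110568134006431421398096257433181480695317689618941929377835421196102420843800755630758582495552328075853755701518936095450227248493186953497959282577929739529589939387606916509242647578917595211253079129598847991602326021426674317624454572747604583836927884659943113132663302386534003994604131072941445922215969038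5190213184418203273342983645735265734427717139024253333008761156745218749082496361028484443764944866082537480498414672408207603908944554816811131637998882748771439404491129805081456776628832336005173524532994764334902199783057528486862765304856360458557741204861560311587882560096254937186068712316738788401425255971765721072231509427430235318389329236241099348968343336525726646464402724161587757133925228740804090416685918617339240396274293841987912005836256058417997169382256014640637478939451467080863246845692546116351442774318483732541652179047000417156855336547658953963813096314382968410077504326478312540206057284134944886757708327891693034803804479295047054954458782215979145773413766234476147405215921946985953078394334190527984837448895568891480387745228057702739522234538988353557077498416256812425648303148445110728582772765868166611854965686586580398670176663951503831072942539720343007404612636799755054635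4626465795796049275925859633545979573852226003383503248520330787287157868112830926760897013842660721792889720188093136010348355306926692575416707439493224622955660053415899482213284849384470187790476612753135892992972446696443357812312163147765441156657810014339135118016164910510294296020197876039362999799645814665058023800884212152875527701136787755036819089977668993417745076457890986887669138586706066503805113114727760472213045890914133606670378125304823789014788103351461707299777360428659157124583683419890978180425558860134492647467945741727764617911460017547744350856546317849742058181710411821750770288377145983832425521771659425600408878415455678918049399031410071445074927978395044703707929254907326651679740177762827447188084082358395512942476311284896792653062315442662204002650280901616816805529495325101199020460549712488135777400270989125608111211529317928124182049518117358492236154363003977257447426918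0155328331911219071627584232615848910718680500012267059186254899903150051616057004453054547803506679047243806703479721746005951161534473337242052895997107146715247945477352457129609906998198299026364049463692282418817752155417910970101258143702173761942993067817078721310070941458018158856858760570432738876540046650420029055049099151371053044025626412161730990908124017655162272937709404050980362157088159329803848459268840477758266371305492971736314310977432366264811004181884179808221078222225548194592884327062318809527812901686726800182325061668929426756091622879527763708833419704980981547359057601737729816878883583534603153778116697168960600034133179358033490629874657963702836906491388346338332576138283510076863017581652461629905191271822733865254471927002050522785301692311863669432359230112435277822921022659972111766425874867088349655478084488373476701708360631477283309396032883329283851563290782769680515920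7657452847447258450363191569452112793419975102655142288019589825327997140890933521051956171261021657981179602629696731603848163703816322738517413203046821400388488322497021581757810337715579383181898948778272388460195738106256763870863620429125410889396636590911671485295582903388162695430075123792528564721685677324817340245185367083891158808198760353170419969867251058884804788546743283741908763667154285086368786279706734959305696715646883490531396025475257160416723550863155744526849776675085496638663707043210063519601932134244090868586771403395399648191890049970111232430674235527753949025449285933225314727367597552247063954168611409009334994221544795769358148950571060973535783773222801117725768044029295940352597852162984830437922839240283045880222479314387631612050264954512765545100318693552578527702810333272729530781004674191806473712077265328195660766581087456354415980033545722155648421571138022964175839462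4915165260129150928859844973465995446958481282275087681192702884140771339352136223258683421270555644014499984511302973908724468688024786557201466513725807773669141586083936675278427804310142199049437037714091854016164021541232853261189191936631914046120465741295837341637736977852909518291414030942452017065244621734498435081833601487494398524165938886882498895659755766628873054458472411116146771502906143384879476897644917518771997432219357607637394627633151711525786316029668333702380581929532014899887770164677999044781119608718607849955777721844740107568073608736198766240985910525689620053937008808702746628095733868591868499403414118802135638567235476376344089735215879049464135178112049019324233452858379591382354020292853628700868097446237422799679148901017788866761991502854153119157840916859779846597789217433542777508445538125401923563804838031188212072985004872070810560996754974343666917748721084176804896336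7550114760307155135887768861388207234774963658206348754030865519623926895469318050927883107621072007644064083112623600121179147342153599750672556757295657823035219552950414324434821860036531754902405680382193602109801846504214615754494416378110446948286627705145176700007323695559393636036341852123647393377239001809381781929799010734393354493337976633653224620516452879559596876162263895629945497507995370534824922262844474703184157171075938393854345549654601818528651358044398260670652973198751145598616152944964447246827279497567019789969136670317094630230974566290784588458928061418037391515435698148770016785553191269680067226228285066231234452864733221112364668256067097628654509489373175725591158884130406288053110761871633628896986530247217377428137106299771974025481005019623939783701493442589800494806429483048141124941384753480276579073763287739329376179721123262194361694353911187259656051391641034329747476606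1294684246843375922389350954126931670981243314434691184875132722183990268224827971295388586403423540276254364871071696884323217616448824699664791222768522112811513185217345366012451002028585965699886429686637529922637656887072049734286906968392801841462917026037337833854533643737695054791627149117020351217762183946458904431589225729132871061247106711775051371345009849844151186419468892750421453842060073952958044852752463577956814004574571368729632629668986053587735962966363767500019981287147811787527324112197954869721651695029786547463528429703380451236749626005263688255645164294491597549413321799842613220500660644703200017254666714148813865422961452478305379530676123040794642014292479227385027653320068562056613628299862954766124530582009214986923282706522204039174242168554191952177494146143653650045183240745892030113731111832030771137749712651499353351407144296257485282669797837493486283881999874392285887974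5004562407108850548430122312427174910396462632160683630647042375242535013860520291181787959163264354139619296649302289759888810575776801982492724726067855729962649708667826640945632095527369452158093528137642279925879967975862461857370477930463131282578263976067697386126353904225961163518162505331971270930706562523032745303320515376945440706554336360043699270545995027033533918822078900031518507419404475378740845219924474707771951825336931962691319462856685651051829472704170482620894746587481651248167603116492278663504802970350567185122162941142529576835764597118546584163565252848729100503710463893334057422986764107039562531318177173971548775267102171987614803477026614439366706562640514390363343791645784834653022234374995252637913693741671662020195715740979394761137559784551009934318947911705583417258647484514321838749212900207642858227246737169723893569247226742736687827089160261565848759063667201576353781233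8039277135635186888849505910057515653357889994771165799026067265891611187237071550016827577935776655755118781906798144029864105377845481979720034360513831628104097542706346561720671305655359694154445747014034759575606506268884032574776405333106513869657902525183956026941578708828826984182143920826971539510567091324501833806910757088978210631232742124518435340385606394046505307373629389181986125109776633435248272680954899912041946209187974798747291916943673950298579080533842853140461719582664716383275227603511725769522659269733444653197579121056712051723508816446016371928469195137115931239247003173649905856620568103010735651699402254011132988961582918731306597920768215683540086405518749813654543474523702176211648162132365596989280319644416634569849829442187378173011145066258021560674873243303593681602382238841364885352235095665741986007674300577404449580104257623118478487505632328785339677265840855564103119537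45083083051772633587688151402852117795893761243323519232754626168914271171088917938076917238398566720480011880660457658218189791818334337470787116898158789713007874163820440136317239938600175546896529458356735325364934457702386579424111223898888033248399186402629124604616637097717631562434279907265945881298618251359966359966747642281903575971354857408225496736592475846406245465118261280649219272574239459292427564941542267802194873515108508477201475205905420125860107100561645655813284284560305247570488353192133541386483902336999540152472965445563129463652115478497315539202843138388358244018377916857995965980874911598116716408629062345212906448923954696271171627539702668525387269567192129577146870150688803542960902094093895786361087394885639336177490566646049104450516185429451623020173885386836596151989504787955939110993973426030787432497440537921447360789700104566929827226061309148376820527896873302132243278714824883977340938045751452642213669342543872)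

noncomputable def rc9 : Nat := (nat_lit 1580082530204958495792165302004288531830823458849179294516872052338273413164496943747503495117248983331169312703165676807083999311675637296172951123057682794520990547151226866439975350684430940150411262586867492676721563852220050770502665223847600496119392550583040594565367587102177845128846225253669173638977636475847303012485188828216995547561950320953870439517396600632711462248690882458310074446202079558769682772321694367517274267258226839750347791811518484879358324938558096560119922598701899153147946820674856574933881223189911632045533414091775142753009988105800620632391938543031860160098361694456696133222011348806366234384563420241766233484317579671041968691376496963999504999327052937681937280085027427153537166430153403992114614221533660777939204568613166700282310233627301037416704774547424682965231450384103571116113381396445862826571599121229745453669104659220179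6089948059890873366951755486307517742861743992498620269805613900116702634128833208015266452756197718639745620607489727568143282329134955854172124075697490963829931987164722224665005902233688225684822092489404596870986583748207195014275701000636358425144221184949258985722627062871411045626219812293296485470906622855257623577550416544289342865673923298049139969987589335088287345292069396697578619523003489218745301985796292122788565733471355432860624429149150348621136583501935942984498196002652923889537391000147652935296799165969248300824843445616814720055730372015000728724406791281103450205865350630586912277551783890945440160188695554305574807161208411201163568688933193035846301430551646004447215886509735155576797597310638498426247275007243430709153717605626444955998476194982976185438356441128722312713707152949877525981575632912264537857317055806013634027992492221927751378096967264027867734302727740852831675988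0950823488456756978148594285786359522488289168225829497519443188190097220578491931785153269050540248583003469325045645629283398250797218455918217127118092385367671430927995844250100636274614749028024878241397440842009491675254044657692565749261317475592787749945334863620090610545908967259273938431376144727067464510411672864654871684301732371239108406264808088474966163630229469328535801206844177563336401837430582288429560484311888239263631711849875569915894928427538611247171770277193020615999063165598128720155995786919966512753324794026245673550395581069700819341866091440080552672724232776200985945646682564803353189182420211537032571041499163137483435509474862113665856012192553151145234721202213058161716905386159580199498739104168280970633444675312977571583346921859445527434428349240115268072432799530572623805781334619794197027631766437437178306219991124997317371187576172301592362369683180237266870641332206468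6780282194229971517262192811701219989164999280266433535984708330843595749915448599110518206130738220659170565991090624721284193885218266120030450270663105927472799238533881805936989818348814795694703765880451827239770527861544842931990162254556907934189021043937919257667164610520509067138438810440301859411682326693918739104820890395610599028395385973944834009672052820081894129964171680151199840207053352607819330035987424923796650053072037333355694531873922524089511732907505720320777366719131244498962434341421329323811221736786785946457751751573992270158351551974388757379077175986587204030358464303473750973980483615744428163702025555052271092775095716853848390649165457781247134138740662920135469276587348084189485490497286371417495465979457370642927990127812496387089169372825276267297908105977002084757417943712995549864443933096304306732777980766973663216420517332303747451153345176126804613231183181060681580247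2922150990867087422966715625020845819096157626611804937928843727131635277925425456144896743506646247967335966132855405138240605962342697283809746098607827762347462256052544868977456427905272383075890796310011549644664930828707297821701514231312357635310891212429057698129728286519626642850025550579896590907901300073562173987165296694001918102283610132293262910674287677986524342510416440378986960962618383303698454785575540904120206688520599198266636616851270561767446690059374864653539400064723508340288480152331106250083802912661568171053810388515699991413869267556135700089431591206116240663640065344914913618534167837680947984666913148146613546572782472498573812307748596390359886493898679947906979989562933751836315416426723990143000375885019514976382666070509384481712967796283466623343139889585639251834057257116945735363847503852336428640137317345225863626025636282901999250291168508648404914586460718581781101847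9162578113186841446606381845878080674406227528307815198988865968797005362301359856307846753072610070395724316310814554158978798562416226300147087023234794347851342895574939388178176507243943331483127865882926644825054110581951363321729914313948466104547097758127139536873332223616550983431966673880324912059496836908768896476275265680902969011930590314590994421192848959514118382002594704284075548303521988270357575523355216721423418636203171584544353560523334960331340698308690724635876018833991266206854490065290398891458496024019486710059925102304451320706345937626209401846325831670409553729881164345713071886486647285291963614010352633488471830305596858109017424544273361087372883579399095594655508369659155258277026530139619434981321439137592003397573627223329065649736026842711794761287341665919329704540492034600568518854048610757224408795381307090712521999374329836378606330821609402808879931657504129768321693248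7879222187079350818730108789291384342722395416592504802378491727597698260416567241427587488520820717398668475529088515067600983771798709308608685236199429068950532913718331020940542245666470449846446495117272980797385681595227672459055367919021458593010037351528396478491829266517055476030718739640063503548284035131393135543687437306795538754456934479701763354086109574854519363433956252576231966007066717123056331678026302980022534720279641265046018610562053715316887252154398075733610687666527880632179169800502293570338171124481247469684336344661312714559560647964246743771523839055741182686584231977171965046015178863637748457923675970315589268530331891655324365609687866969919242942095819787193677571329696487387065613406205017987949321255407235930623193433230750724026774769636079664538608568532343995059851262642564751712459327050064014708659217026978694895104687326516905469658681416569804919979890144260829989609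7465407258552090552383571559781287075056964327596517063067878154013723845939178248833237854723091237695660935203405925758062399745116315900523373551609648978931208342170986895254793188964097496891872306920746132057736130231152138579355861964073828354876360995679143072009983111623066364601555571217749218162903447126715227276344328328072190247308408591826838995231127630481417597625000249693559871097237412635159279798466955542956600635874128526412343774332527785462603389997020262956501425993662783198488638964055366145323532316157354644913888216719646420761407407175839063405149755135156782153573635200696319278556746881214714851578976129184600390508320081482423074557545551474517115330744156933246698060384998792302291970368401847770179832270632799426555992295311172373576841174929209576303903222619059019891339168132205262513500020665348957040020900011091272289376259363186346247239742728813940465065482381889049542643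2183264619414930095477395394759950386835042902811045028065742192941242718201049854088263530256339396085038794852757194020217412522815601818643128092135352792344296352264420317127599132289366114074578192461701532286753796634654518973029664698431803578366264743995107737015435710192052129601300140337385187734353651715802922842262559540278044029849943353770534786811422682183783071400563840489669869213791971516426587374709497634614283186190021678414695262810136884812041403548249917518227008326197056404043419017673659479686378583422049244114079325579508448851428392091698829978819745680764228723791215649331800853445737907082617552180197565815139909500555137035316811063809400102353945598723524395403280818559268512854368902413010844388224561009339475976490844881312633911941888807520945306711865882279130541540044105588101648193049893661928544878617961631373664810366185036828521393320772980811068659256744943624044763966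1534050835688877969873322474637484699181731352036251072486803809785291993153205000757706112720545655780629181594493751167555387750660945278489255877324900098475328497487090833985354818630375043682819224655082565194778913154494577647968024698674712785942361495378131591328414609274279891871097821626673723715099570715508294236520872473494526048983852347280097784929300911638858460502695357912910498570629040190637916042057766469157050768572133639571468371348276206636776584745310876883851324177361229829107836015518624277497689410477242919913639413899832426464356810336887608620100363658033074726842552184413340855327044672272560927704920396005618542490597440124014583394677318937809304661907860397302075248344879832186408921806311227303813561822008590349187422104532964415579538004222478856652960224474802739765019449473345811499444945101803578657811178602698233027182464833800000708474284937346144205990851738001233636467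5748686704532864585887298835923928485749099385453275837630981631392253192694563656284985496234014599319059004630063798755611601345227627621758835123770910592959819310989534254423246611217905029955196498893812568137071498035271538545902381365999810689226154944999783204457998536082262790608900299123459230110224395867661748400737097526275139044516695271331732223655510191835699275660112778926446880158229879823244218439529239844803340043763853809138895831831185250657400894951285615401204765204734552112384298149975310159990201862909634362205639707771453366038687859852691457326078783081363431312737618072610497613219049153281049316191065776197209366568747151257117076671138616244590416161808652226075805140766035875033879851702372550836250179290182109932615997796134682573867490536642718526926366685181904512263315350624817496449773023689043127228334012821355427545257749426595680779914060104316766404412836752382420496359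2121798773247473694886795948302099297195299765542168265892801765063197833189338348022055797456380384592913898291833583260466946778054545065743375144669797338891659068309369921024864320042414738550274104182275514733222857657427346366836276300515845933603206792408383105006591994110832675089464779543723283429598753374520478455675486633439533431468374832340913691544924152751936587251947898402916144472543492243836585570379937379325709567475149121343092758911297807526609466947332181453269870387505709507065894027178373435767945392311905723856616695044507990167914762392852997629441172581596313829636225223483892584481008499038744405795032438412669406464732764887701518032872404800878249385695861739361589071471746328038696996699343131249598916808088582114350285186707746262792253522712936046304239495117560658773034859563235065837523468649681556391471181691497899804894459685250919614005427370596657853129381858066025821737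7411565447397649483490133043249810725273293548179139360580746728704151842869257340302728679725618349533982462213530701076496185271479256133045524056225740379943069468221333048996568943661569377074671062821983291527052683131761829112264712368163039157880678241410221057568407676213882408361281787150867328453958827761677703455697175682014060295549449232794307663089525514274277583788216568879254336383792821210436938657661064470503980589513861104631471948377812771444055288226330130914085489902795272785718865722288158631669695810279706469223502062851180923663199317961448483295251381120394374006323919411750247000240737679267191013595496833305788172167785714987008453889156141761165776436666539913793911813214359147837937092182111052982760734239449977590339420630906508035629007567554253179676317479250409405797608805966219877761917426111917294133814174203808642322851942474652904277548150840422247012552052305386149658632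9516328874910390659569812382269228207662507700448620737590088010914765885392769648307843916583453157821443978608338208313399051213032881536536297512994641868619258583060412420191598395146808386048915751497305427217092755986677220955502391497975355695663630049035382044079741936833073138266777781325359810932543864941344625388204272252849360801382298947244945521801044592080822065561441021746856814747534476321218745504888460153948404842597081372329056634412063022028404005697626410696647755320681048146384218285116983410178803355587721089809252076522560785639592712451969690685254727827497546216005808710131499982881317373281258195057387699007973349419053739827225161781431782948512211242572791015029609890935061553482861841922207178591390538330406865916256562011761017911651826390396213608276949727060488313504473638759678589628213258652290661965102477788166445696655398448377060088036011069613492885285243823748726395456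7610011150292190602270918346848214350788945801810698742222782545067791635339540203726045066388396809125818955639524531353527059203835330354327627278986216875777655401965186462545486498473324500772489455411151921655024773318705699756022409963676353643260180212934083256027847498154242630966829647454156943186701718768698769069551125375345660144862938309685369388797648056551498299644009116496315062923776701826768579492776180831674892546063474768989032749989689511752007886853524070232514194498770174034802907205652196882296220711227854209533593571920632605704082872218444106928307520327272126145873119891458990137749918886011588611935892847872160643458249858989996044746728767520072359932081581681513128685945614890792018817525787723971235482055563361876032005498846536625792926372120967675614009450672594351634655415763995486034317412440300361286657904318754861887633501850511371077743827326277959618149087757036912613020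50612323578254324578166362570259104761413766111484574186322329161920605842311195583936272673958858687747728964482857754569681301775940674068612871922976763224426805926414853567176377522244139815955831007583400223724946482621928445249537945501616654688643089027517789462100040163586846287710281112641804620177396638062385185512862912528834421288639937510330848038474763137938677816520744317127835840490889935935332052984086600341453508180452097605135976559595203493672375285478286340322245382059243505325458044245377794840647244818375592952561106390911577813913452573729410118344539342938814754138541187689274996180869848074760872304521686650977047265023799137511854254501386566211163686706576829070695607381622351900641199865687167181159923865317704860632624372124707633835577026777656702287814087181318447567338213225825954609667228855558558443219275557468387820302720815661826734304092603949215733132544435135784862754192259144236537321139443107377917553442553856)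

noncomputable def rc10 : Nat := (nat_lit 159176035355662260572702449376730021417613260247370869971061488462909462299308846285615801310349483694338228131879165401391799354241467773505314274624649737067149475156921555873620982387754131736395275452611085309028974280852453333452435806186826036111870030424788182967673214996513740382649047485377761076997026242232296785283321417877594115923541459993183813033654820794470588659926477990274068893439466426212708813661370019193599678382156743132258761982471605947320951775084205420037650067254133670129316000785025915394994242254616403017487373242403362712122421083254074338724204890488861953146550390515980893184039694090526054062342942818429181739061515788842614258127425930726052646608282875401748599022552572733015498854094000029168670372292899047698861481010470406531884183433254912333204654636520310339782868340786054108218193447178708604269853836322414896825544223813429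8775486362567842044438290743726141848889444427346247723605225069451602124243629746317655865819452968737538911635035326001096828281387741358151831391840331877993498420434823236721078784783394497330287555220877626795728989238359651788173346934594884067645742557923315467467252001253212736351239875337294263964852505690282335521956876197549430144545615901403989892702757339159832122885202970422227451317012700150509141048255316167300109131977090941816889901329563220847769166559431603385624825217516553860940976495203194651687344798850962966911363954112971554956477230657000056157697408552365916344830044321776887044187722248514672891394376951871415628126428133779617470500698645604242559547629801835730243696622980495178872101289602009813039235475624852691454082214784816620490333144134262597694942158466190946437359359874033865561832653706293289916263644898660393932965396245228196411704283747893238596248758520412720447924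0210824121192895181940829396977636193887411018706460197019059407165525451513121548389316569054546770294748312555218620743754637492254740009307143396554971097838270614506931780671547159966259626779033863221174103246256269190626165512796862554041148337963785663328294165797002794146026683366808716387994617888319856745464744783507041515615979418845563119333377061092172513770515985501426335741328841658775490492898239725770207644124785485851834958846104357427809538897222546061597122258460530326237169584278963556826474944682491160412700573827285619208101839545560601870487012349174473828813142010589292141921734494401315353081700625803497182663424849158672494580776127697065155590536941044769674306162473459949822185507343113502418357820514391612599871185661339281989696159100246515095106047582354420149074076291574478270729692846576191857021501969036507697262959874872820647543335783539063608481073152532751140670170018331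1400040094904142530095200945954504901919965007046760462064891161178685352249706254597588026121208797101621530623160654572460729889379215217279537471935169954810844569815355944059563184892027564040656579833939874477879710920820226135581753684510862354558033418837044796949989645231114296884770615548766014709823289095030541874412238570505862200619562271189241554990853736805742738439259039592134731284992733036493386349485513395516284334657798555969919585942974023464818953535936663730490454838083422997089148310774566768400003289804112260213097803929161777906570038613006147009810505127695265861574856764862499671968206683219292304678163073644105547115133803905536462467060067609872946993717592235519778879992328184800010108628148258303153589792501155058648904746274611199614576780434324052905762011719855784999869071223297201392357040683291336608047773692395845152503812815282387642874361829596815353520927310205457505381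2992560887916145347198847490660485768373824204869649999696653221263191266570634743135028806786759677956069602010671221083512800445889040165431589617500799092535656316522837581277588290110564256850940597997561015603148872412761883905458210931779592893473758287956060145776470946493244033792732785231253383060560424522469624413870254907051733754268014436615859275438047351025102738942250606077926654957188867190833227338216474981878363239433728662312745942497749615075605043374263753258560561268354478368478616103473757557957385351440559764869196247061414792356442036614915324445207402931074007223388706015491983853385625881865589791135278916010662622039483467757099423103881496950382243903747177485931432367018269973749055638996228430770495463653134832392016396286131099734072380315226709985969555338176511013871661592612575252683928477570058181787095834644301912491508987899370868667305152143623171148053016100851551807495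0911213592363929157486471120696142705612948579631234535752327532621671900138251456766615508165717886557875114245415227856104387566676778320588773447632698998282358563605447097359317827893389975298570976554719198080905098302033651121408812012228904000277726844310216703873590631040601379378348102277737614656359374192101598244093888767871941186781901298711926666747811979443696055981176528277677944816293199787294139700485352886622265425915606028928324961803585191039457069378106970925515890101613656217100316789135584861561466311579667168555573200488910714783144584988639641385484115944503402512276235003341254099553294174995978734287411774325340428245306999219147596379730248850015860496056639643399539396217014634467262978644993404538985549633918685396133224418872105817537428684845144234028794858631860741280817172057263172358886187110123143912250396308134822750662663752160203246899281353817791573110823975027668285048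0087779263185304086390068835341641180714508834719173083365464838638532348607543401426877790620026166500352099455298500920140384556751633886040268933581019903065285643650985068861268655267470125148179455370613531800404061428137806537070492842943657331662991989891729700637950616013819040415192471548492055437556243357985051633507720423185284017234373298710837014980567247750137856352115481593890089478434696840963723303653983386166180252702784638870512350800988924535539787615151563049287948108768660818554406384699572378500059339456841617963554524883147257462165144237639817965255034905940945491153752726302083127819614851509896984704072846631502061138550951219435752447812574744252597824046590845802497827288073986433585085523345539298174782823411795298399160409414896755458636816800199759907103326851954383203557700865690377848326910913849511362986287850609003923555000784694572867893926962868838572999305586713138079777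5192711370008154959923036716687577722223103404648922893087556741692146582338936894229521634456239608605012826622572855811170466658119716695001623733072275731606908776166862299215969399552409770351159176224716413055428894739795114523276442016288715651518432184704154429505730544053350355993461196967605234039163514938228041267880462118607684489094361094510244246578077585562977212607597693908502781358322045623530161380593600464653896303391245672782333599701963669907834489627381953104213030601830889588939321288334457886932367171467129464242969916369306500269841904767141069470161204242872456484993279948803219105582552309132045839234838610470538187368666837974107457862647417211935773300238004768238451961550978619474829004691708930040630681760850265406631295803752575977694817304546118108211066356037256956091825614586912032044801213988873624829324619703561119764330859755776130314731170301873230453390233453763646385708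9260199325584060234510062538386808831861053674025880587653652661546046727569366761198504493074050120711682991055866339316213238326613289029113473777748964329117834093802112958133018817777024344979660489705100780845477870771657145524871436498691895556261061783499985913644341718917654342613711516060112985270881923540493751606441365126838048162498459315565769777899495614652039046990813244850429048782863244710327977350233663234408639949241896384915717060109281804102366735119891056611734156869996495388105376366520976392392044949567257237429466966384897056530143163469096417688061944626294475999555167799589842506972815061581035813816303421233168557764170470013873095108209451907642557178852830219846404431525233128876784700870311496515120872778845176008633601689731493337619630090974643103097549919335739728962195827727953797916828806783138500172355185160681625178681744045491100848769808032699530862462006049297101532409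0628679200561513412001073484190304568657180561855341993898659013117516449151498728511054902933764411011695088274690446411443172293347963650706414106677158731531741978578090228790010630990586636337758589579868447371764445250010980263422211329047501712551571543846790658074315004145108587939634935790222527819731391914612202743704638826176948687012131396562805378882745103421306516627411373007677282726102798417646998738537773776284434553534897787500271102060886774826065347230458482568121718531159332817576032045247656175454742397159538038367955492391107390552242650628270505394728862085272057193750705764016754785498204514162738688349840535790168886646707219370329940522430755234869232699275338713295672475395096128100992445498484826570622004953694929565069041590806069834796887945484548418667396325680308388623038023715347703946932805909320105346544765803256498828364219865695902485753600347365617292911799296937903906705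9174188604470311972025387983613214511936012661977243935293187665812107248575506703276191123117455099921797907644979364947007536292330826305120564207989317809328893171272678347710154676841617206034141108622015051017374924538000103864809478359356444749383037106072755545111109824811803727469960407952454314361182282609177352200166654662585111641646929899394281400791446485002174728810671641185817222329906524954024258585226775394611002868677813172412954137870057802106046559481806954803600572433938593354763777054908061376403598131107597478946645357605727800608429851315033861511896433126586390789537400640434201790162646978615056015287763504409738500258780043478815632184392160030967586153530064403318808697064593418326939659797958504137208461401003752946831393710363007074375110092956661940458717011723213185593361915096467827767930182960390041186432633992255075511967844355767325307909738427268712023953631538155496634174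8313535570742240525972511477912116036089680300197426770914790351535939234689203497015873340471662311847545737684559297253970010293851423170355502104621825080117140098093618255601824918929804194059202098089857865749353600258781658372412536060723905713311404007412708142450361510885262150776509055700145736968787018881242394068494734556219655053568380995011627807837615431512580289633884345537481138778801860694547434758622302785362056555357937431819718817981645891318552492555685383009049825153103051294174831010444837343873335066125895153952366390037911880191631679043095022878277334511137785791255047756680452913522096500353939287184283133109606177301115900138482362794715986478840204067302072631751314955145749750393860814693066159619867525759217391425722847033611229598405977859143558615830006647216095357147361477024769098786507774310597090577103597794185310638726633112170166581030380106425501585980451377752156623197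1708657460829657552753001687812124311146103935449017571517787862560292919955910410749088795844634608579156081314577563230845166637021333370303297058526710432944709309295299144478357129582996331029490860755893674256468387703046493599217929532573311910275737725709042480213090816043279207064920617389901483231629743436819288011117251172850558574626023540325014602537082997152681127034169258174545269597456486166922002829822761694020910637474838249664400589163782203092963875778199745844383326158599648484864715289355187832865052758637768794453260059542941832083281218924664420317603497531244464258745561952421228958081239241452771739023623857474715718594731415980389709111292998547314391101750472649439506174184964374207086156263645504360511038060105734091858916469137751312350471849764962825571940088587726119108148245922323391768905467037844494426745348948911275432321298981706753136355895190351004315831674265156976766761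7637334618927712026558668572252059011918231437751644394874693266355699988185030935459093246981301518620726341396660099243831843217554852140816192921500976752737821123829258806026642965563957895101944343412068320001719945716465956328844028350827398438620505851024790544547709538469795055541188300039252255573335152157720213664327049458190216545164611378407045206560599123090726305628654161059421866496305914032768316419658736044169910890088542962773558148166340985153012528694467287778957836359987202125953490835797417987326250826543514754556969393318296938565636058641576204917779483364853254942962811399742426107326611851353281531976992647680211302504106371566804846882013049980030242638754240603593568823503996992113903081084567284421841245260884792933546215208080722702712268142967896424360952769048984603934222475110346618584563139780530538699572176969233653497826214803248881426588400090619642251850133226179806034278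7012613497005150858602773101911872905150713016413531248302845624220159673235394089604508608259708689508599231162852104594523630720100636463380435924534273612252612149966724867433177156157668524399234387365728622332351501979603184746365735511048599393811509450837160506840253609169682975496070242394487424838054444037212023350779550370033509006178488791460048094013090587302452916928347948785400155438795635794534634741477376055864288685992210970174783015916934864015782492797362128419960537504018425763882944777234231066471606927872070292597609320303236225077191512201768885904933957856861628945807528600065075730930923797398279652120532537962624129692672147463531809366322215181598862901732589840021513612812485601336166703905727100025014955354857396487159111410592563951836847649765178746804048846148788696380148772645452036565011523511476294239314127784244984811890418191680911673708911832122772070692419350787086738311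734257523813914244113184896880661445850267205855256119837167720366422978985230888983345107592797657263718625553388284903097034427864124906700907347130538539841144299438348395209206386120752044609207879534970900594472388969566071862261245694144485172630846612448647594492538084569669570927417973779004116756408539626821275319447678342251372204863324184834412596627561529024616601981441739495147179392895976456591666421408841371555976100779557646178980610064132630914629225162201512624262092516700077668488371253906522027508207219849229305068752538199356659253526542567783802131100859712511712006793626219358614263897178557880533848186954612419863148064632220692294539626944077490405134057161759390786620797535774979479707350888413578608211613633674884714794674484956187411523069690890066224241723665551107546274304342419084384136927736613671139956461335779458001064816608195859806259757357200671702224118124068470096422423284478633456977394438697304351747244407390208)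

noncomputable def rc11 : Nat := (nat_lit 160319946467278314236073799442491594361506546737347170609137316561926651490891678144578292579745282191393686865274512532984265899047238810354520933289628129908268674262950914088588291081552973084717023467448116931479182472217271104513643502820226934607813183849144666737196153959730140811691258977610354630213542950465921728469443124325965366339817192621304891722563783120944929854360907558098126427744705624774496951605313206348437935305793146402606343028965916156274361426706110782711007554350473190292863392912566839703141265214230016833732621240195661464019084515683101057667429504283713371099096210580167863305142215633417496360263763369749839597295619408652403652164464411869218505763983754674454022176336025165567678336014155450481580236872639923270315353741219151232242789124931038825591633273085490623070467767483248195481284951263265092376551134698661197254547414384343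6867118034990317563813989183600974979543082650461623309366027578375425469835203327461095873052107211179023562130389836521687511061547617654288866705653073406498165977415049001265153618512902105701789053697350509945796364898910462187913372262044366566444361610364198876527254805201944630198501135405716278897532246692187088097752474096523848019159352306757964575659446257112903047724404134335132919771234429188051281210570355062183059406068814581956329929157233767103087218699412491856465992440033575467095696807855695849730220463533980081506794554168815530032866246415179382550025746068026110459502620029207776066557833193708401959290329069346297608597310243996780274196413114485351296825922377533895224276335416601277672908995106314974301545763113696256928237230951202154248188268695562628679290758172010379242129172404999916124379333731981366525641720316939479175746532616395955563061940615516126900587521901833339602974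6323516102015380445244615948699281133044110166194126469059471972500510963320605997719118498794790682284555982813529256801009104272534670895565825707281228725977166749860171985754866754182405661632575296900978072420099615302588971745290119801368496842211079445593606547927155562911143684660008310483064550140586213180270736395621692118785449121002890044654488789619463506772662197588436072701265410612966954503552505527478274657924008425830091612120954558272789366303810036594426742827043380545878401322860776426151327669212883150848588476535886301506521740069543503967715475424409239723190134760147931448000800788284651769704138305754798307922021858461273285357567789168730280354817169386886713906458922429957341543346666083481342789737560696121251593426816372556281062119910197154839409217855814616676062462159447494550277800628367494311168804068355247368241775512050196068676117269945737903569491597228163379729627813592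4334143489502456971313998461707018362053447225723870250106860876880397503183470785059686647544893744698593945438529505207829214168162969178800919746893396537615746479562813545647833106986090737932953811715054562962314227708818617883714720153159669142251728115716088323622502182011100194125972665569850289173185827463715050476196874291117747132316089752850282268902757358184488732856727823181414381999827838377851736847795500335234323449870507639712425969182945902374910331056401974962462781670450985166026774402798966936685206967489550528475829078295086240396878330212691455281297114693256241794693300859677316119977383714596128795220633253741803863655455339506958343035395661818443704373692423372682577314622191393331612572691183348757760361383160409482511625056952396097403078738421270660592305249909928173250264112284553247268977563493037074725697717159717003858029870869660021975975431524599892613604752410920733658779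8165081067771201801282766406233831926737946876887897553080558510818577196825346628122378288136169072807930458777658047184954349928927116786550541388154546038691181621148523661207088108787076578120625573867791159957694292393733594816291480516041544473298892967552067001486731298420695115836206418438504255028375026315841574212324005751011149885293068631409824310791325526778066237778211451965394097919917043328678712162626034354462719219980850875431828048778113019489017547688187617250372658724509392625985922817725850274373116777674124671844018508264660170324316547064485913039640124478481251248003875824353662118839268142585728558160145023993126258760680010220649196541659648441600431010865397116175704047408010541353802624340906953949545292386762336866750138551501384459418442193218912916942190267424297542045989161053155421742738849236403943996304795829668451716860793648870943613073869093730399179640089896793791541427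6661194990660248268337180109312095910787298565463378425263207650806032730175409266639931686141369540351493876369669384180642978669715921607054389147870336851821630952293660485926082688173560973590989107563762272995577271486015188388073588721372415095957978868314780643946961562305182022527378190305226979862676511392028278485279408160902818652252591408992157604039363913171078369654115587801632893486357884429152987063854113956476191316580285188859339511187720590209893895748988273186716036215535637821914538626607936867826623113384501990526979362756687978054943023856942438579877854979338040519624896560176422290076464681676255045729319998804162768842602593179779186032208317332538125857784536748596362605518800083323614166210523781004494169871092830843214249685249503869673218774850937202406833819813945156271763330189322643328516937469013644502054693922540402784696290619005902862358494251575540271502645219074362526938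6265305454481662568953745458853268517405660155723965786436481005401023430987864759708618437032617224809801038691729503272463553752705687874744644173431425480197250101823693441886101256253140109416188540952926470618906458186954256445791267779314205974508315257685390075891495290570750563572166612054302079084623439930174671947200850214169781249811021810348444885065278629787734248791994989714227606040035793842254685110626457697817371821239729798273190158671632118520131136361896391364442125266632666645536043469504655443126738330453425295014089892501638729127155859168902479478122708650382922128893371085052003988534755250226170557621798094224294082124806712962129346367916860522759357593678445173189684315208838439443448432893012647658668818173655840283323297804648809891616707684496533248161259721228890912467187205596894359935072737843193038745440307652207472727408582411010416948469200130647098713988757344735114613845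6326079333397569139406415398669918030897708423702794965165305378398132783897905282997150129144496533256778912266110438643024713334351074802558395550225817860072277216540837514025807316049655008328339185730501977611253610315407536664520375950629344731300579574761490040781328786828108917448369040746362926630799215042640523742964610122986675899885465702907497456743844403876640117924789222869171330674552690875412712854299874803056493251542053960444597144414820090573099357894691276197110426146121178589798228503997619061796135939856797479551811785785809090251163864155630762471216573841418094075915405945364662407215202943592888066940032372014577866933338072579773542589527804900157824406288961667436936915535873107579969987086104775295656728958668586763024916307621466201581800643697464748476706002786143505140047368397592190420274721185649842113142311315128272678187438208230299358511373117858331741244355975590291244933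0420608838357057896192930033395959810106708586685615315328367869645243819727631037339658230317139500218580428717940978592661107241332629672224023509369704714710319881073204351130799685383571885913238460663059673695510182399614635799774777050580255903799560151199871750517934425178285922946981919024346304903768021834887838290040324660579070516734961373515694258035000877836117091588601285833134067482153381489072071559374716641372405431504145298586983813394227327677898340068213540439084214904818975912677126142767792663459670475132229245380732655333769487085294746124021045293590292571483955160367434419892933402161470190549515587865782905465221705339442589002556282117308553637615951766473196434856660335228421533783601508094900804262217372995064577785499438398124528044394062060814099437051562185573142812433356470860367425387404134273629345292934981999392828853471123669686987988582121622942148393861000186468930271529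7003130336608696972517116652963180169586508770727029854541668832577123536432273910974176030001243691921313639773041399207088877568769429703972954719017097356528561297092357273743059904596971007829460248795238490840146547727431520971645689420856862198836850387103714113331328317227466036189436602353891500015728920404607670683683807320415922132377650998977069208606287942754611085736426273347070338199072463189969160469202763381234041980137180484308563589348130924251184237981961620411195115658970476648424879529459871721368535708728603966324805908861891964485678020334223497715883765051724547409352513228081572383322580461352261699962819979660224314946289784471244959417511919256873842653396629480537622481689618242904291347872957301539809866326679685934136729780744440024560704074572629506818349487228329714011688223943904518447910525850651854688843541450548598966887170101562784847267709826421432613500208394774832481776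2176312774714127462177040599021359332069841620007712708158898669497564573362068445094446872495402103651964374866503142899249604335838744830392609835883604358467152238246180878752151959320895998966337637486730619533730788148916635236554067572026878264930265954744163253022511831945512340546984568804618285177724574322875428566869491268517528751671821913335600038561932159128405794078914901153480816669828120986403914027202242786695145422563849853209053560981758619664139797545836313585525969840517923305967858261271286429543819035767329138445000363537464017794445354604978603008612712262800720300312143511306875903768491614973465666997158664070880353675749256024084647630259679626149136575553156060076471657702811114360581571117049383875100235275503731861546020724992679130862921822569658439688875352920755618012388044147313441496307132779041785193457069374821887883000899349759002265622368663995876124267712612781075473403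5612712535948144374636635966643130186189858689208299015525694857926793734416054933477172577910458131732598879299363102746897519522419043537425463610216085849101934040048640665170823510105787277541322644528258114060445555675186881496239385538400078819876852229999018549445950371537143499305123702575929619324524819648547925069532216201648853219264600992995601400520202002950573212228561963524107858555737060011124839386722089764939517067252215828330208041191561433043610890836666704008984989664483948109482747596084601081975652103128072607083523660609843903743023185675866763699761538317809020887430683950312571367982189816419484766006795910124577712718046411707676552186144319376117166381268342493880188924343720213881305790686400148772675805161721836228610074147240176074635483161550985132082049615215041335682279679345860779938351877224574387385295890977102828480436134766587677544348994574125675729946065715758536839591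4207143207965770007295907533538853840778049971478565034174278986839614364986505331853651921096116418095185203690047361316897347245762473997656221306313458479577254470508443907485110367832094925498529784104864082105546917112901824383466871762941258092701565313566377859621691083431157590967683314111950765728127337687301160358416753937648370444201504993590295748562907797554197557345537248839344946034649047760425264043033645307420191741517726116138207041617773811904680804044482664862096773547216341638404410531590246396841180053932027631877875087645144084747623883934249693810985884865613102521037284789470202021416460113423794979896137481187211266308959664893167250948182344527221588768335409240122552690336829880500812875146428127328020812076659906377881962279050832672776357649327304417667488576724392284520693144986204854362259137641074087276984653670249131967680022433476311332954391148400594344221022453840683879399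7869294256499523117938783457930644485469390139946304677433068003003659566312626235855112121513089285688198049739229688307727097940395192984883437243724757924003050899288012387779107456753262193398958640574724933663075823140435488638335105359572177638856249546720439787731445020322487296290280230140759932680579734269507018697123588141435486899146502558625018210005874205925699584334115448140590733180262344223361333875300228942368150105563862242657863247627775949733563010022458696526095825449042080187939385903876480169479000233522921941166977617296855400349131967419308458330872676567093001622846508768078658791439479651908793885620054694022553085981788599783737500013164515761199518258354538492011793020796814941099126206715167490767542169339697712489348405010140453234819511015614279233916775919300240581224221534335143013184898656840385313048183027934270406902839918666233939816935762175425875260969297260266177413794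7708503021910528086787428030610814121313357895597957949876050742238380446419593819320558224201878294983171729582215242541988091828550273695522654431752956952941626822680240731364651212069312100454693825875163177981129301675116783094046494894046655063770862947425460114440830202304253415900751391565201987499966992752549179905940243485186028835507047752036591533357496997929917163538969700812945948901372261158977632611412532550459871105976438431800997303876612946777043394731871452313151112809047498399433405965434815469786536284279917430739398100996598267755944726139414295281357355055885641839644544270881608195384343209522562017257428886797441607617860460073853976516508271974191235020737512577260396322565506641633371273584427081588905101293230892140340939869763372582449000920331524962378482224217181580469935455916955403372912269177625684593395310637065890255619936836312440633692946202397646789927927745421551971579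685971382282915048881726991238027418281408129679143590440393120494527086493346033350752419924193699315176741964206029008883769055249058439914724228735293430042750805669839960142235787969772790620046656878044603232926769452817529505997324510273400998937566596187376250546366083823451329225539258473025938951913428183647256835965924539658526933963061876055590149079915851142437027339888793670893787520088253486802233553372401345726699813364956860085422597817157006859759123356899227939312942727600026183659906091655703819147207875780729732677077455383191891875125989187101650229236863756155985513242690822802376184223221770277080081538397117697257452477412055770200307740762818806116119403497193264068348044803086240157432016464779885666976499957799330394819228782820862983830430594427763492713826509496377769573360290589591206020695817414139226519869794494982612411701043325342919450450475814185895886175423558019775220402198120304653342931097802355099119866049724416)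

noncomputable def rc12 : Nat := (nat_lit 161439744772676141274233246008723124465824892594175218635538514879472640143639138371217725954292108856722542007702411177831159385623256628823995257172161708648555370013469462799873740801002220294953798523135814802283027486123649996215937078890235729466688585325951367651656499501816249951041450992353498113553700457004871026057852488994648019282214388787846231713323631573883684356931621199424068249875859235983812339100634724283138210537462711944399232999336699083311990432451237315989309382121171238544919142844304456662314678715094526982856684074147592592437743509032392315350089235660308117170590651411275917390808178109458759270847476574076425241209752615423982682440401435558901063287123405213624412533805800686091779671700335202895278823254688310791694895826685327923168499902796716447833285732751719606216143233832453938721855698467454928376147732784436019816361928101383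1630421502322362394543177021749550633677575336651338786539811674986055142612537852297766793059632082646107969761255763748749367837194902520735134581504184120368836718911449827857430971773376039349577483143907106785514998022751140773634636741840134334023885762167964796111046939136178342933314297499381248225896041599368128002710697620078596448636805940126944646862985442936050301765052502221615893260434461302199479161258156125244800919923791302506570091720432985811944365888986105114365885340565446747763781190558491535951488303186650068390418353886157365857888104455780537100475673727799538497728974688215759434607482316690197079751188927665002339245243898596445957367210385809877532724855245986839946246818220143936691644668149105464398672728574489627658217021036789330516407036735026324351304493200598110941453817404073052875678950033828066668253024727048426587406396045057099217760773008449784433153200147569389978275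6254328440280524392424928954860620027085502281743371115343505890670669400043379094571930126020034185715280063676777307696476285060735588829527180430643507183776022128823197993930103265643861431865333142763872972986585640206813893904351537728746745519976959057070506394374335210494311796514833083278887328298683139942660132841324134746965777425269355151644533382881918790648529712633110598968045621796210183153476891456041654648581397677720904283442514151367263835981090629562434139604079187244355954185914824418774404100650636189801282875288491941372773473849573992839230824875084268228283621890941811198247303146192932367520637430735995121693585006068495992541645385645798603123828792164349737224609524462601770679638735955377205533682384987714250111677507455371905427727166209294538274165739716063634487327794029652686602990717455361242711868778993490213523195200330767299159329637925743109728865475293750197579983970444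8293079035714755165698986562548908645166822926705401458711609702146069285920849665393560267840747010362112655978529556044918441057153355969960423576774256607033235533289178890031810460500530678170454914896673210536754564767625122473498768627755395487199504629414696427428580968163685721754784664978159195824608093058034259560727958528809652742795967410047301430743762352741193391059748952364679612316271953037794457720614484957518391622915282019578093931856067235617031381830613755032174252590191015137642035320041339746634619910723562363920579445386500363469069579123078383129722741297487318641252182045924168151770246000663895740391705819189696194041461691338446265882091601797552458629933961465313392017395640599965275341159266331717668797949623723879890638180266755947460040998279608477057081761486149751011738833899683323752365721585925326298398252775067268538903781725819565044441510174081945772151817583760450527360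9839227217450278722252673001535699765351711197613524121527645061243307808006247267154590924971457483424248179774800444854520889489301072499814170518967694471693480625445571279700224915973922591652565240109140876290583896753500496390554706794324038667878763602608924526668731170156396513912469793280197136821185254162507925488783095113609015724682758661297141308276708798132968946740262653097056598318937035503680263831527033710223707469319782211550512556942895007809092030028383917351231219727687443620708457068706977489196863125176425823516136104034896550370114148428135313559975868147105559977391691738712289561010183768647150004822254168732650471677759065429111973442522676864601526554091632230044533369809541141850927266697862349184300537703186352585938728867908502682553252575453153270969912364398107566970197528532653611724324539939394198404607974299085515990156990736819612656623628262566496729467517961099184627814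7972611270018981077789100218479238641229739016053215637241742260965012589820250529472718948456497414493276131051116183842790613652137508047882934593182588299287731688183996116430126164895120228567191181816610910273865308408102495835347773632772766351417332269358915213016699394056261248402717833523470135470540002586040758455151784254889966855807440386051005428270903377252067997829669078415543628630030965884559338805693738009188425841843380840929520492276990018888471298925422216263978568581921436783689715593067947527569901820486583284670988639582429977920895724627238050967201069990669115279653009588637228713505253428442547356429111974340551913003067790578450773774570657424982292762705304956062878047876368052412920715607732651303834548950494196328277837783633386719415641962776700042854287261206674354189978844322606992780465291813498705446833166986448778283921102044035028106127687778208051016329604846634777763998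7178450632193433595590568005780583289314083320075958446400228873970502920470513926026301237288573407803835946744982765987903150121742845167898017004203838714619546858698568085059909338836650306682292291084443411239257004437919860867276325417564708834430408469058945811826086707747212183489826274361694381974379216571107253202423516948958937620306288885200002069727483499384844740886166639929593169490703762144441531027193886200570357781885507820244195308278761326008875162634174420753591168672831302659825965026761662669771657889598879527977424813451400563332418017279307703585195314323294502371204845026400246603601934711922102895117059436608058563337384959751594342340959534694624616893790098160165691218570045524430041384382134456244860935600946365456340830186011588886720875378363445884557308660487848401460636082200163640292645805366215552623025660438207351984895245396960572606415722588808589566299104306805938410076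7061401068621523381581517882693573568945155998823117491199275782276432465733256868153968846953163317020157201851403087932848300213072000507956999527452202371404493013178681676138386332610422407251774798191302292439752437744297919139906110876084870564614487539406354598140448535171749364221193776103778906705704112508508996432358265468503059850212363412614722669854773525431147121714116995198660289355919412271139747406379126471246930526683478410752182667009878325987662998194798005001212298542326296306590898330519356286391518069501258601550201728682834362205887207642358968052522696048017522383847679919702162063878183999779846528183728382335262502747723576174901057871390611116999987206535870418372949675200989254753564523548102653739559618484905716186562343144065868499988088481711596343231642480920760809365441584246302611365826708432374715568601730047037544634056765631636604630406791380215182326210801199211190903978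6516107194062941298867740307950702989649035990359834844043170485677098642059052546923010152238451738816657644284043051461371224571344582276255570758386383168194930052428875043598029534630661296540054124484035527774918531393637086700897321551742697908356690661113602840318206081646974403820223581741966189396926335338452990200850553243094003965968719564362622240339785053845566079965842328578429235712971144176127174031404396575785481953609020014968148903966816596498289172631441455701763534753808385672686568028365476229047748104807391101782679169990391704865785533247722536687041437810685748180306289495599680983854047564389512312914419985143502570749195860465444280015940996347406965457291855751695571245372379924244682694688118527963866021349090070662536334067717789190302767123640415002002852127002578166427852781115829697934333162504042794361360051607289095496993220636146950114111768030217184772851720006192067692578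4274812320181525595051632041878722061860734042405676078133416094560707309557545964925245702814897591442825617670610526479869243968643900222944426234458356223176273059419222203147157338059413346474482961294762384023465176792810781277424545670418121492551409212403560780482285578290286517801566822775799808787307517305782075101329818766107772270417153220874366176172123528930821743122274166342567117382466642533376425800051998457937649112900533838915320315953782344002870654065017346163757440429083263964079903754938354630351074586212920690635197864840320643045095853595724089315983232681728137708842500322653851902266817675973800882798375794686682125294608447285071377779139318285070175551805748619944525316738981134066015734473994782788490017549231239571069190036348083001882896142422893524983841260991264181185738748753136837415847807066792005701325289621931388603741886377775798884821930973676022351506010356340935112192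1062222313134103347325791791079153312316918157280398057401192630087058985821094620399827733257388371435164242946486029673512688460162043639431512137078595308392945119224786409443917393028001413227079177127345909949439459272408753793741126781538540465197865755811881544955899590507640835424071709300265507937538964472136165670364006140022968736112031547227303175473573508177687543168456231293173819159749274886649534134168347679170373989947922998847312766065871284938377526633156663201950956723084863378261709724376351359842318818298691995284899847038854874428709955048494771356535397874867469805637096264415740610787035624252897963736563519667059144457381623966690261823211879400164028298017837938601971149775632511888598434393747014711779444679525146223341299079105529714955292770121510673430752705968356515845133741548751055977421237847911309315189917642986873586570514942475184396790432772547668724747735323879760599149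4890004020989718133932980602956724863803945807885579394998049885130162059333099389809159340486914965926487390503641027429382235183110925927619764548281992331127299218548938212553470566726511360357574865464087335773593230268618666259960106942386415163456023050761756098134672952849456343131762683038928800402608990469434088289421665499265949909866562735776410946692825053375600065654131934928700436298558551996733388606968601330550459531603081320477513156869575761159080597097260829611235839239771505009959394987846294551710348929169134160434202622727661728617050466037090271210210615261875116564765194499752193710849437722433352402931075529393576194173611585590497329237784120462803714690820053843291909911647445370667842013406418863307833736993872793634180542810913775594805118617091570174169081824150944082598750325852146466413833785222694054458586811209684853572866914803960444252888632897273709958693561620315849616068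6837323496497432967959127798424590519014794785103354362758780537803816989082273158939853998172352055321531712355580066469050419858462843302530108483530094168032520362382075192210247574950552329576715603071799245873867291643166796616276074031588369228586316354224841468376833527454985079652307488086458859863708715152521068894092486299787956910735311682409934179006782280794314383633009045012718020079248281473215463759450750669836113315473246544569833813566105407225501175228720676347448017432926644927077064836646384599302502658996282930227102143058744480622546588281365867398764729894146274864768097315688216475261008426130190144058295134760833534160856887806541908496985806402271689174020561400579995381016339982413026008745095391576389029230033528189653093399282407761079707603871941589924271879776108541639753649863384976873711552694036888831579532206484160457607764209926006388181288691376937068739891670704177928138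6110773431499010950094044350194263427163532525163738364214883423389422887906731325388502400749410369241892186469606091594798235375233159940449769401561981978107611754197850781537998168973670617468069600498377023710280842470570488349623295676658165400005749596906257426308210153256551149706710137835172511364268076591106160358070383239013989681375966600279293850824436014593226610484753151084770375750379820960080525857057429652108332175258724786740772804015699901271187605222342609977430864287709671394721878959467970860021357714995908264097266073038057773046313208502769639891523553778822150505532072820807851936232595061457753138730641028163564131719005414205266651272671688541516121436888844880682257348387732499192968353581625667811635991461343479564428871825972311253187009043939773486283892788270385324952221523530808907224840913335152887876102580451140739558355113524568919483457498004392227730384482200251548485101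8136115103627112997381021088199103119647769342066230853637325157177234763729342643090570997528140928937732821194133988665433519574738860172503669772327101624351590896800800764409369846310441293991008530038602249223360689361317070605698935484570039453418955786771321434903171390199445197451824045033282175665498050461876872001446230578680423410023410382867858868465847521137261159580199175690737351192548283297192531338098647377069876902147280150986812256462135195948271479228585986018611547091241151891381575725350415246225447570162367289373108320835495004665776463115208779291441362493426883785264604924473037610191090378873771843653904043230205939708992598306208694185375097356655207663350892443807035053821194310787381564319057289232445677132060409831690271335613922587894200333270553243256388807325522839654917012548577023247310193565812976097113941511558572842410175195701302726824655537679249618519198347909040944168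984602928100954653158418162779626883753174215633148438766951286236497765278874967161451388496035371065096473402512220014526813027706540751286839907760387172038354087113385471952362169240196926579793067990920041367273331800081596368575793843351034465845981030476320675803944807205423725405648793010665573374474429074556775510476370695612273102327540836501018306048850603117830497367386249325427710681266181348278807304300731969926928374134356766863964081534218640835410959838825056502545074999314946232058543736421299361985482424016682452894973072172057465490735214640991889174317870090611316191766109612886446015963361355288849297324747329659785490958281598933149835055591888168377184681806350335440461403702260344729625294668224774416326581849452732449249396978763330126959378464031783746562443302808032945971896846293740380230337792587226464479607121029581272340742988055077544775652649258004037589501139836444312913585985433254095531726422976359648379006508597248)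

noncomputable def rc13 : Nat := (nat_lit 162535257233967661988297530854679801583911456637122003284262891703349786560575106936725266426221546687441227526591625555695738617349281219441134937419563295322739000050016561264255416708460884238884944638135986103527147352789873860611395635993028735341176387304662383388641051171056982258228330176815997663198799552888433078639033870657330240090008632001143016909486150880158613505219093160046185385206764061159506705246822095504684697520387718798369520895858272494699493240595820788236302580765626846001964930968806147639576810789799950864707285828021077794138723267910879305375979231001550887884203177553305838380013875439741086115326397701280045837083658204190316763005667937862962762514211990581296260312659994718545833674604099110029574865882479117606661513839087624132081493136176348081456851521054715637005954062921571238213439598019679710323846835687369500908229827497690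1097623673989515909864318942700550113616278543083703282356174657281840283110140129797451384230530347326029342377736956395310132391497699185611881711223801093306989999344162168913989493700200655063723369252674243815964615856615073332537619815004404015295613474840993795941380835485401128533128015723996774597758779367767740419974976821302957856923005545753880379485468446454539827026450118053495565396322907094985143227957226930668336916411317687577499617410124428513775689410562447910444968397097893854077498609017717499996221676246022955255076095964595785069046911206606311433202112550179110790420104725095305113135761664034327396880270467511452485697045694977530418385866615419613637018028301268148614908381354786902073897695050164796127405943491974937235724328755645055102251078946265105592407237167672753057907904698678734765920311390519935094575976586763844141700959368902437219299432040604108497985913950829416999203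1925282123225532008839908130659682873967544588270160213291836800341858791501558649965953616654404380757188924288917774897551335308978297584129654710225393178213652625027440986445740670331696383280042169114130920161848534163720876253922293055143746511249175531662032281601516475695627694060023808970201328139190861098480156520881708619374593887582684267494750499617609647319593476854855489025020840614375735300986356827248274211306155264409084411304492285205157105503836063136011590771317113569982386165482146497495522986608358314704807539291520770333119206445136820582950569403920470252068317625114175119995928713980561003413722214154380238022818878382759795204831216316858942948793634539498688712762165661265171430596126484441195573610781923935953172702118114061851073478556011301612701047536230281382923762743103206308859268561754103417107294682021920605003688417348986493305348327149361746008418340797962482998259021887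9149444854715394647915811889590290158064794158222323981942845553379062027358766501965600157153924314549952659699269931579144707854471175063005653481037616426439040398969170642531649426652394005494975671427582108452458912849657558265274097135937946698875556124073570438728980049538786298314617695407429081821427278818253737561795364325868552389936022184596979728319475648800054339813718276971377592684137671741324999294372017382287136279549276542337602118396920148404110988493645250291323982793522832663127451494392496029120187005506426110203106180879269157867561673132758224846336527862131444822667839357685966786320856858366179727864921574789378779288707114095468688690692525219167502187730553867228336458655335369898651205441232414030539541292573741940797875433922482650292491370486848820087880593579206279306387854939251942027956803808470394865697203573526929480033357400619647247789757253797477406932123285908883976392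9990045983188274010880273150811124062382718144387923458554346787590304866128827375334081316519428434296623274159678371982393131169135556754654871219645148154549274590090135458248189388210052416189408417551949624433117086610844552820164247787254703454869028593333209849915110404261365016380270211957371290321094874146626245235557725327562044365463769460297336162812669013681078932353092723368794585120590806424665207543483002258235626124518877004862626889576202569787234671118446413024949670271463704188530290361810687041928061655415429209923667931055318738120552978758506693998911482429500690685273847936795441393612261804355887906172314407728603426989079496998257705190391391607086907900138081122519213194185754499324789721806173123033372355267636014394492845077673119037417177113451313897322051791560547997807827622343411522138120297967767758785092743185049295447478775641385651764526257463268834577489403391413371294426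4879484769082637629335829075425899904016714623454204975262066745473219400938032642536001922651585891386401584677195989578046952216290012381527234498142009197874122191440357906289153530098288514837736123601370389375447519174854792430737899340746974229332864972842435154929509879282121411770707720671029080998792173824485665466244260299273975801302349283495765174810537719139506468464297138916400761992139865985474441501849418464950071502943398500437463889425292612061156507779614512392380646053966234141247199028848104405397300933261671866965557183435838810921925205915618098699673284749669245243278157297056800831581895392629593415551735823776881023604861645631663074183825677887244818337963650441386418518803692230437422756887787154778683390033907650853592563998777754524673146858276881538979585502626268286749214628751244111046491981339093627449211043937945850308160415593665256420676183378777960186647479628267271342815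7409906661393143404792960379121912329621638122878649586710462836558094985848896339537011071697855222420828308525805839646579216208309950261871624872955033521277101195867823500103013931092090162392944031662395351275017846791595963373254741001076779758618916297313957071039329475866400766286226583999875601551095239505813544234369379114265694445070798523326995558925019816664358675407878073718677395325845726894198829498144757907596086568305296126093263682649032230047205879094637031842518751285707547756872993166041258868733761631809757938943825037661687495800264388469415457540302680897772710661754452746184771087605167344984876235188333693752077247413605838079268069569997944264923145170782517053052635467639520991525914617033253622004064400322284307920677890372465596301984763474551651990146045494395213575390210998784754131834351239681357122835845670804123448331967837435403515127496808565739332129054438172297620190385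1453201219589373257893980965629466116202749668563020525979545910203006984441678245684532851246630252191568932702465898772263088108405416878964835695996678164215260838524638658197821381580973517825278021443865324667802849131576171756608663709490581351634642009392207952697357602915246582550076856151952069346768599716798729938984791273560847499846870253338049524880886370011567526920034194900322255545173987712853500851307933215608786008846729219028971244466169831780894033786151335253667830359207205079500242350137183625793613208647961709036877779628733768803837998811864604549902629770691310667609338385521642158809188304695521523701157666415011226512349493573242255844493521079757102881789565443800113702074512501652339065663683069097032763915593751286839718799099655990620927773505429173647231919364102338360266607212205687571887532434806956376429183817894363998354365028899108152817180667274957877988669450032716521556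8392328567775081280596096014407312543875992087244628362448425540090929892875099575407874496709137791591121241473335030353528923801740283318079099209072901744178740546416565097539925843349379514281430969502189805642481406412497116915175522219728846872585222321427680650132786718173147894076982726209257774613209964774177854974270353227007266516696897442425448202585084050743855491621000321693150878857128755238665658216546702825234577411308268785106839712092444734833006862902099599786528220940484278151916257880061780237798780877376278015385412525612627723464684363938350381703967734079756088183920903916561971930741952230155137242348609920566155894684767661542371000852282022311794534958404234245431595369357378483013249308754098524908073301874510655320641341874752226222754582954646545097238710947622775020786370064276799363937511219549263734085774592096290345625835890377512842815741339759949222288276993331360030075314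7938694878652805661673778570073161037092815033360679630416238344163285054692851279181603201499509868478582797581667493526201863014598766431892288051287366334604959989166887555598976658136926254204018825461915885779450342065681492612675471723982774097198953891869370563740300918267293929386388815874191398304895063960884264077601827920723830572323576041032796643730109092928306413349151676044672912282945734837975246142938250117471367533521279545032063834003458141568370320610737681572421620517140166898142118996353255252451652540733810292465588524401220872529890367105480281345588866377437170717110530212461544989692743625482495929056359537741979899697860376140885855957108810163493361244127717677159047108220050705852733688734525369994028948373763720896204480608607903364535135121039514386724476150158847020553246268435896469567355025458236327861797162792313324559499527649114488801816417384169452486823533731832918218120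0191933463282302930501616571803695555793977944560465071827904089170806237655980375761991788278092717163326384168674647208337358667854673610573745004608540009653037433658939238095968228928494741474972643236755280442290625987589507492719854703556027797306838989561807021322569409093090528094800982243019492040149682776336001698144808796345451841292795905181529283627004367547885914015537411290240577128308579055017167353713189431708090888966241141681424323829767260301746384357085031219199111071600041555432578698145202689162124002335124488494708710795557743293595117514794276847657987001421548773551527044407313194251110292779862077681078785345479028978984280660509644771041995546876243214312815130418699759178856512500822480214079791948767818572619814724553897776994989726812519257275032369346193435778932728153555445511936748630270987615516434495938985145489685084890339573446304802847225713780570346545211390611141138072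7035936132430218616996578723644517847699166023229067819170719851191449409999419841286083743253654873127186873259738100873180663709189223581149153708321365092811294144617804168046828544298504914229092907644179292526413712842662191036497755388743587563483148967494011739838587540915713085254821516397694000330839190100866291519971685833782355609190909254744212465540359045967177260425073913458576484562511016497363869585940064173068875621901113678024466831614721422127935677151541482825846067745031164726893972466646634913266896692278352287178502073435510916802334164325431792500060151350824052384680429974477741059095623653719484481426084348473657361456866423296841052267937204936230773396011791748503520061604928923180888439860557499557327201501023427746701245971313108192459943926194756764411489915365620790887677297137740249467078608433855505649401466433338484338026398333241979741505321026032619547033387437670690632713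5372237647903376051111873981568102838896101921140852938960271434216685669901868509405503524792772774523618303553742023641017201052431208242561059678776873664201929367965796074133854217828547206674449577998600522496125299690092285551624883646695828203438260319533211443956625886585237071990358838544276483348999984930082069445933342180273746266921708369571357200136172497182080207991423498221058555882345366167415437404112505290013230084190297912542815223674581090589591554098340339939745498283370877964805683219213803047447220899390837821631673212231274096138914306724035967271544556259542516254230186871140339552851128442439689826887192875387379495788282479473483564251586674655542706406419664475202352327215985601512643151818460057363323593666814204494810047293851656353817239520825747556069314233676620666952928127544211388486322453818622002525106999759404268947760761069712400249013261225257601517172631634423055877173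8502070917763600696729704005045683874471385500003762618108280039225343548100455937083115736751116390831104589614165466050611294310070071259624910280912294431214445704775830679126859912603412378113008479379931452659727755588831237090042302593360469222931308300170138589406826200126018305973030392376660917241470543371854279273332878867215624195099964649670389399304670076270823846216444010836129924998732956148376965272635162752177709483345061846458585718747592943838707019410564153358406906458706171356157997870146628121966674473526040935207697407071373659378521676140654523688321754193433196467847821038692786849788853289496571689744801558249234794454253233464147841031531044519812243730868029004094949623045097462080928508193852706744487099525066692091193284341025004926301861943522484137936316788372394157841426732906922054021329530173630574490868270878285922097870044978980467740559902838407242386730692189688393553195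4314212141764216718211977898511292212768505583143004099402909763310738533745295544801458963539081606334784833307463277305614692833539457083507011749650639696363844107446165361458546459781174936607752732064153694577998353138068428643420920209736194125622990422197081449991939091648949378232685288043047377493806557959770432493338813573719111171960534490356560406226564438219851850376151978704019384735849839556631044542765762799905201192330967246626948684578073881577691038624711253107207556428754072237093564865380848024619977931008830849845607876201810287350675180116611900297624264972208439059329172173327573020288814448163442460527889166373460483435460111168366539198837964756107168067711541693144192774144711305103029934267910801717367799465104283113296237276563556085499949090979386875942010310872854795897461930325043523090300420813878497473060793444974389111029875459085975269185435198920124221730633401715654438642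981661637740029338182483865668950848893517221330086678646304128744976696268711077003111038606109799214943289701978375128928827853602574248126649099139607223547287042264657405548013076795977563206531870329921504337139150050542949216264567760022296178994077533708440574700796130000676023435749775132446942345824554370950922032555401543791378252975068489839149622788318952562234549891337630964072678963934667259274798051474517031060918268272867854031243140868198627125790605922004294784605678080074001483096095578507641174289473744373471541599538393301264650358390895365553517697508227312116270970034093558742051668809630757472667513435906188621493237840784318493047227100964159876277651526883829090854989922393139355262293209366475676303104238397869546496203890572005625102575560802556671153850782574384819689068415548178333469197815067535409717675005540447030836358004432380438986878790774573596808432742086247226363467076153476031509678841188732994484409465286164480)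

end Vale.Agent.Lib.P154.PChain.BN.S8
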